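import Mathlib

/-!
# R4C (row 4, S6): abstract argmax / pruning step (helper485)

No number theory.  `N c` is the rate (energy) of class `c`, the label is an argmax.

* `two_mul_rest_le_min`, `rest_sq_le`, `sum_mul_rest_le`, `rest_le_div` : one place.
* `unkilled_le`  : pairs charged to places, label = argmax: unkilled energy <= cherry energy.
* `unkilled_thr_le` : the same with "no label below a threshold".
* `unaligned_le` : 863 (C): one label per item, pairs that are not aligned on both sides.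
* `item_label`   : 22's pruning for one item.
* `prune`        : 22's pruning 2471 (1) for a system of items with masses, general thresholds.
* `prune_geom`   : the same with `δ j = r ^ j` (`r = 2 ^ (-c/8)` for dyadic scales `2 ^ j`).
-/

set_option autoImplicit false

open Finset

namespace Crest.Agent.R4C.Argmaxx485

open Classical in
/-- what remains when class `m` is killed -/
noncomputable def rest {κ : Type*} (F : Finset κ) (N : κ → ℝ) (m : κ) : ℝ :=
  ∑ c ∈ F.filter (fun c => c ≠ m), N c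

open Classical in
/-- mixed products of two rate vectors over different classes -/
noncomputable def mix {κ : Type*} (F : Finset κ) (N N' : κ → ℝ) : ℝ :=
  ∑ c ∈ F, rest F N' c * N c

open Classical in
/-- cherry energy: sum over ordered pairs of different classes of the minimum -/
noncomputable def cherry {κ : Type*} (F : Finset κ) (N : κ → ℝ) : ℝ :=
  ∑ c ∈ F, ∑ d ∈ F.filter (fun d => d ≠ c), min (N c) (N d)

section one

variable {κ : Type*} {F : Finset κ} {N N' : κ → ℝ} {m : κ}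

theorem rest_nonneg (hN : ∀ c ∈ F, 0 ≤ N c) (m : κ) : 0 ≤ rest F N m := by
  classical
  unfold rest
  exact Finset.sum_nonneg fun c hc => hN c (Finset.mem_filter.mp hc).1

theorem rest_le_sum (hN : ∀ c ∈ F, 0 ≤ N c) (m : κ) : rest F N m ≤ ∑ c ∈ F, N c := by
  classical
  unfold rest
  exact Finset.sum_le_sum_of_subset_of_nonneg (Finset.filter_subset _ _) fun c hc _ => hN c hc

theorem rest_mono (h : ∀ c ∈ F, N c ≤ N' c) (m : κ) : rest F N m ≤ rest F N' m := by
  classical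
  unfold rest
  exact Finset.sum_le_sum fun c hc => h c (Finset.mem_filter.mp hc).1

open Classical in
theorem sum_split_ne {κ : Type*} {F : Finset κ} {m : κ} (hm : m ∈ F) (g : κ → ℝ) :
    ∑ c ∈ F, g c = ∑ c ∈ F.filter (fun c => c ≠ m), g c + g m := by
  rw [Finset.filter_ne', Finset.sum_erase_add _ _ hm]

theorem rest_add (hm : m ∈ F) : rest F N m + N m = ∑ c ∈ F, N c := by
  classical
  unfold rest
  rw [Finset.filter_ne', Finset.sum_erase_add _ _ hm]

theorem rest_not_mem (hm : m ∉ F) : rest F N m = ∑ c ∈ F, N c := by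
  classical
  unfold rest
  rw [Finset.filter_true_of_mem]
  rintro c hc rfl
  exact hm hc

theorem cherry_nonneg (hN : ∀ c ∈ F, 0 ≤ N c) : 0 ≤ cherry F N := by
  classical
  unfold cherry
  exact Finset.sum_nonneg fun c hc => Finset.sum_nonneg fun d hd =>
    le_min (hN c hc) (hN d (Finset.mem_filter.mp hd).1)

theorem mix_nonneg (hN : ∀ c ∈ F, 0 ≤ N c) (hN' : ∀ c ∈ F, 0 ≤ N' c) : 0 ≤ mix F N N' := by
  classical
  unfold mix
  exact Finset.sum_nonneg fun c hc => mul_nonneg (rest_nonneg hN' c) (hN c hc)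

/-- two different classes: their product is at most `mix` -/
theorem mul_le_mix (hN : ∀ c ∈ F, 0 ≤ N c) (hN' : ∀ c ∈ F, 0 ≤ N' c) {c d : κ} (hc : c ∈ F)
    (hd : d ∈ F) (hcd : d ≠ c) : N c * N' d ≤ mix F N N' := by
  classical
  have h1 : N' d ≤ rest F N' c := by
    unfold rest
    exact Finset.single_le_sum (f := N') (fun x hx => hN' x (Finset.mem_filter.mp hx).1)
      (Finset.mem_filter.mpr ⟨hd, hcd⟩)
  have h2 : rest F N' c * N c ≤ mix F N N' := by
    unfold mix
    exact Finset.single_le_sum (f := fun c => rest F N' c * N c)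
      (fun x hx => mul_nonneg (rest_nonneg hN' x) (hN x hx)) hc
  calc N c * N' d ≤ N c * rest F N' c := mul_le_mul_of_nonneg_left h1 (hN c hc)
    _ = rest F N' c * N c := mul_comm _ _
    _ ≤ _ := h2

theorem mix_symm : mix F N N' = mix F N' N := by
  classical
  unfold mix rest
  simp_rw [Finset.sum_mul, Finset.sum_filter]
  rw [Finset.sum_comm]
  refine Finset.sum_congr rfl fun c _ => Finset.sum_congr rfl fun d _ => ?_
  by_cases h : c = d
  · subst h; simp
  · rw [if_pos h, if_pos (Ne.symm h)]; ring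

variable (hm : m ∈ F) (hmax : ∀ c ∈ F, N c ≤ N m) (hN : ∀ c ∈ F, 0 ≤ N c)

include hm hmax hN

/-- (1) twice the rest is at most the cherry energy (ordered pairs) -/
theorem two_mul_rest_le_min : 2 * rest F N m ≤ cherry F N := by
  classical
  unfold cherry
  have h1 : ∑ c ∈ F, ∑ d ∈ F.filter (fun d => d ≠ c), min (N c) (N d)
      = ∑ c ∈ F.filter (fun c => c ≠ m), ∑ d ∈ F.filter (fun d => d ≠ c), min (N c) (N d)
        + ∑ d ∈ F.filter (fun d => d ≠ m), min (N m) (N d) :=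
    sum_split_ne hm (fun c => ∑ d ∈ F.filter (fun d => d ≠ c), min (N c) (N d))
  rw [h1]
  have h2 : rest F N m ≤
      ∑ c ∈ F.filter (fun c => c ≠ m), ∑ d ∈ F.filter (fun d => d ≠ c), min (N c) (N d) := by
    unfold rest
    refine Finset.sum_le_sum fun c hc => ?_
    obtain ⟨hcF, hcm⟩ := Finset.mem_filter.mp hc
    have : min (N c) (N m) ≤ ∑ d ∈ F.filter (fun d => d ≠ c), min (N c) (N d) :=
      Finset.single_le_sum (f := fun d => min (N c) (N d))
        (fun x hx => le_min (hN c hcF) (hN x (Finset.mem_filter.mp hx).1))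
        (Finset.mem_filter.mpr ⟨hm, hcm.symm⟩)
    rwa [min_eq_left (hmax c hcF)] at this
  have h3 : rest F N m ≤ ∑ d ∈ F.filter (fun d => d ≠ m), min (N m) (N d) := by
    unfold rest
    refine Finset.sum_le_sum fun d hd => ?_
    rw [min_eq_right (hmax d (Finset.mem_filter.mp hd).1)]
  linarith

/-- (2) `S * rest <= mix` -/
theorem sum_mul_rest_le : (∑ c ∈ F, N c) * rest F N m ≤ mix F N N := by
  classical
  unfold mix
  rw [Finset.sum_mul]
  refine Finset.sum_le_sum fun c hc => ?_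
  have h1 := rest_add (N := N) hm
  have h2 := rest_add (N := N) hc
  have h3 := hmax c hc
  have : rest F N m ≤ rest F N c := by linarith
  calc N c * rest F N m ≤ N c * rest F N c := mul_le_mul_of_nonneg_left this (hN c hc)
    _ = _ := mul_comm _ _

/-- (3) `rest ^ 2 <= mix` -/
theorem rest_sq_le : rest F N m ^ 2 ≤ mix F N N := by
  refine le_trans ?_ (sum_mul_rest_le hm hmax hN)
  rw [sq]
  exact mul_le_mul_of_nonneg_right (rest_le_sum hN m) (rest_nonneg hN m)

/-- (4) `rest <= mix / S` -/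
theorem rest_le_div (hS : 0 < ∑ c ∈ F, N c) : rest F N m ≤ mix F N N / ∑ c ∈ F, N c := by
  rw [le_div_iff₀ hS, mul_comm]
  exact sum_mul_rest_le hm hmax hN

end one

/-! ## Labels by argmax, at every place -/

/-- a label function with the argmax property -/
theorem exists_label {X κ : Type*} [Nonempty κ] (F : X → Finset κ) (N : X → κ → ℝ) :
    ∃ lab : X → κ, ∀ x, (F x).Nonempty → lab x ∈ F x ∧ ∀ c ∈ F x, N x c ≤ N x (lab x) := by
  classical
  have : ∀ x, ∃ m : κ, (F x).Nonempty → m ∈ F x ∧ ∀ c ∈ F x, N x c ≤ N x m := by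
    intro x
    by_cases h : (F x).Nonempty
    · obtain ⟨m, hm, hmax⟩ := Finset.exists_max_image (F x) (N x) h
      exact ⟨m, fun _ => ⟨hm, hmax⟩⟩
    · exact ⟨Classical.arbitrary κ, fun h' => absurd h' h⟩
  choose lab h using this
  exact ⟨lab, h⟩

theorem two_mul_rest_le_min' {κ : Type*} {F : Finset κ} {N : κ → ℝ} {m : κ}
    (h : F.Nonempty → m ∈ F ∧ ∀ c ∈ F, N c ≤ N m) (hN : ∀ c ∈ F, 0 ≤ N c) :
    2 * rest F N m ≤ cherry F N := by
  classical
  rcases F.eq_empty_or_nonempty with rfl | hF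
  · simp [rest, cherry]
  · exact two_mul_rest_le_min (h hF).1 (h hF).2 hN

open Classical in
/-- fibres: the rest of the class weights is the weight of the pairs of the other classes -/
theorem rest_fiber {E κ : Type*} (P : Finset E) (w : E → ℝ) (k : E → κ) (F : Finset κ)
    (hk : ∀ e ∈ P, k e ∈ F) (m : κ) :
    rest F (fun c => ∑ e ∈ P.filter (fun e => k e = c), w e) m
      = ∑ e ∈ P.filter (fun e => k e ≠ m), w e := by
  unfold rest
  have h3 : ∀ c : κ, ∑ e ∈ P.filter (fun e => k e = c), w e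
      = ∑ e ∈ P, if k e = c then w e else 0 := fun c => Finset.sum_filter _ _
  simp only [h3]
  rw [Finset.sum_comm, Finset.sum_filter]
  refine Finset.sum_congr rfl fun e he => ?_
  by_cases hkl : k e = m
  · rw [if_neg (fun h => h hkl)]
    refine Finset.sum_eq_zero fun c hc => ?_
    rw [if_neg]
    intro h
    exact (Finset.mem_filter.mp hc).2 (h ▸ hkl)
  · rw [if_pos hkl, Finset.sum_eq_single (k e)]
    · rw [if_pos rfl]
    · intro c _ hc
      rw [if_neg (Ne.symm hc)]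
    · intro h
      exact absurd (Finset.mem_filter.mpr (And.intro (hk e he) (hkl : k e ≠ m))) h

open Classical in
/-- Charged pairs.  `P` finite set of pairs, pair `e` has weight `w e`, is charged to the place
`x e` with class `k e`; `lab` is an argmax of the class weights at every place.  The total weight
of the pairs whose class is not the label is at most half the total cherry energy. -/
theorem unkilled_le {E X κ : Type*} (P : Finset E) (w : E → ℝ)
    (hw : ∀ e ∈ P, 0 ≤ w e) (x : E → X) (k : E → κ) (XS : Finset X) (F : X → Finset κ)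
    (hx : ∀ e ∈ P, x e ∈ XS) (hk : ∀ e ∈ P, k e ∈ F (x e)) (lab : X → κ)
    (hlab : ∀ y ∈ XS, (F y).Nonempty → lab y ∈ F y ∧ ∀ c ∈ F y,
      ∑ e ∈ (P.filter (fun e => x e = y)).filter (fun e => k e = c), w e
        ≤ ∑ e ∈ (P.filter (fun e => x e = y)).filter (fun e => k e = lab y), w e) :
    2 * ∑ e ∈ P.filter (fun e => k e ≠ lab (x e)), w e
      ≤ ∑ y ∈ XS, cherry (F y)
          (fun c => ∑ e ∈ (P.filter (fun e => x e = y)).filter (fun e => k e = c), w e) := by
  have h1 : ∑ e ∈ P.filter (fun e => k e ≠ lab (x e)), w e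
      = ∑ y ∈ XS, rest (F y)
          (fun c => ∑ e ∈ (P.filter (fun e => x e = y)).filter (fun e => k e = c), w e)
          (lab y) := by
    rw [← Finset.sum_fiberwise_of_maps_to (s := P.filter (fun e => k e ≠ lab (x e))) (t := XS)
      (g := x) (fun e he => hx e (Finset.mem_filter.mp he).1)]
    refine Finset.sum_congr rfl fun y _ => ?_
    rw [rest_fiber (P.filter (fun e => x e = y)) w k (F y)
      (fun e he => (Finset.mem_filter.mp he).2 ▸ hk e (Finset.mem_filter.mp he).1)]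
    refine Finset.sum_congr ?_ fun _ _ => rfl
    ext e
    simp only [Finset.mem_filter]
    constructor
    · rintro ⟨⟨h1, h2⟩, h3⟩
      exact ⟨⟨h1, h3⟩, h3 ▸ h2⟩
    · rintro ⟨⟨h1, h3⟩, h2⟩
      exact ⟨⟨h1, h3 ▸ h2⟩, h3⟩
  rw [h1, Finset.mul_sum]
  refine Finset.sum_le_sum fun y hy => ?_
  exact two_mul_rest_le_min' (hlab y hy) fun c _ =>
    Finset.sum_nonneg fun e he =>
      hw e (Finset.mem_filter.mp (Finset.mem_filter.mp he).1).1

/-- One place with a threshold: no label is used when the largest class is below `thr`. -/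
theorem unkilled_thr_le {κ : Type*} {F : Finset κ} {N : κ → ℝ} {m : κ} {thr : ℝ}
    (h : F.Nonempty → m ∈ F ∧ ∀ c ∈ F, N c ≤ N m) (hN : ∀ c ∈ F, 0 ≤ N c) (ht : 0 ≤ thr)
    (hthr : F.Nonempty → N m < thr) : (∑ c ∈ F, N c) ≤ cherry F N / 2 + thr := by
  classical
  rcases F.eq_empty_or_nonempty with rfl | hF
  · simp [cherry]; exact ht
  · have h1 := two_mul_rest_le_min (h hF).1 (h hF).2 hN
    have h2 := rest_add (N := N) (h hF).1
    have h3 := hthr hF
    linarith

open Classical in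
/-- 863 (C).  One label per item.  `e b c` symmetric energy of the ordered pair, `z b c` symmetric
centre.  Pairs which are not aligned on both sides cost at most twice the sum of the rests, hence
at most the cherry energy. -/
theorem unaligned_le {ι κ : Type*} (B : Finset ι) (e : ι → ι → ℝ)
    (he : ∀ b ∈ B, ∀ c ∈ B, 0 ≤ e b c) (hsym : ∀ b ∈ B, ∀ c ∈ B, e b c = e c b)
    (z : ι → ι → κ) (zsym : ∀ b ∈ B, ∀ c ∈ B, z b c = z c b) (F : ι → Finset κ)
    (hz : ∀ b ∈ B, ∀ c ∈ B, z b c ∈ F b) (lab : ι → κ)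
    (hlab : ∀ b ∈ B, (F b).Nonempty → lab b ∈ F b ∧ ∀ f ∈ F b,
      ∑ c ∈ B.filter (fun c => z b c = f), e b c
        ≤ ∑ c ∈ B.filter (fun c => z b c = lab b), e b c) :
    ∑ b ∈ B, ∑ c ∈ B.filter (fun c => ¬ (z b c = lab b ∧ z b c = lab c)), e b c
      ≤ ∑ b ∈ B, cherry (F b) (fun f => ∑ c ∈ B.filter (fun c => z b c = f), e b c) := by
  have h0 : ∀ b ∈ B, rest (F b) (fun f => ∑ c ∈ B.filter (fun c => z b c = f), e b c) (lab b)
      = ∑ c ∈ B, if z b c ≠ lab b then e b c else 0 := by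
    intro b hb
    rw [rest_fiber B (e b) (z b) (F b) (hz b hb), Finset.sum_filter]
  have h1 : ∑ b ∈ B, ∑ c ∈ B.filter (fun c => ¬ (z b c = lab b ∧ z b c = lab c)), e b c
      ≤ ∑ b ∈ B, ∑ c ∈ B, ((if z b c ≠ lab b then e b c else 0)
        + (if z b c ≠ lab c then e b c else 0)) := by
    refine Finset.sum_le_sum fun b hb => ?_
    rw [Finset.sum_filter]
    refine Finset.sum_le_sum fun c hc => ?_
    have := he b hb c hc
    by_cases h : z b c = lab b
    · by_cases h' : z b c = lab c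
      · rw [if_neg (fun hh => hh ⟨h, h'⟩), if_neg (fun hh => hh h), if_neg (fun hh => hh h')]
        simp
      · rw [if_pos (fun hh => h' hh.2), if_neg (fun hh => hh h), if_pos h']
        simp
    · rw [if_pos (fun hh => h hh.1), if_pos h]
      by_cases h' : z b c = lab c
      · rw [if_neg (fun hh => hh h')]
        simp
      · rw [if_pos h']
        linarith
  refine le_trans h1 ?_
  simp_rw [Finset.sum_add_distrib]
  have h2 : ∑ b ∈ B, ∑ c ∈ B, (if z b c ≠ lab c then e b c else 0)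
      = ∑ b ∈ B, ∑ c ∈ B, (if z b c ≠ lab b then e b c else 0) := by
    rw [Finset.sum_comm]
    refine Finset.sum_congr rfl fun b hb => Finset.sum_congr rfl fun c hc => ?_
    rw [zsym c hc b hb, hsym c hc b hb]
  rw [h2, ← two_mul, Finset.mul_sum]
  refine Finset.sum_le_sum fun b hb => ?_
  rw [← h0 b hb]
  exact two_mul_rest_le_min' (hlab b hb) fun f _ =>
    Finset.sum_nonneg fun c hc => he b hb c (Finset.mem_filter.mp hc).1

/-! ## 22's pruning: one class per item serves all scales -/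

/-- One item.  Scales `j ∈ J`, thresholds `δ j ∈ (0, 1/2]` decreasing.  If for all `j ≤ k` the
mixed product of the rates is below `δ k ^ 4`, ONE class `m` serves all scales. -/
theorem item_label {κ : Type*} [Nonempty κ] (F : Finset κ) (J : Finset ℕ) (δ : ℕ → ℝ)
    (hδ0 : ∀ j ∈ J, 0 < δ j) (hδ1 : ∀ j ∈ J, δ j ≤ 1 / 2)
    (hanti : ∀ j ∈ J, ∀ k ∈ J, j ≤ k → δ k ≤ δ j) (N : ℕ → κ → ℝ)
    (hN : ∀ j ∈ J, ∀ f ∈ F, 0 ≤ N j f)
    (hP : ∀ j ∈ J, ∀ k ∈ J, j ≤ k → mix F (N j) (N k) < δ k ^ 4) :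
    ∃ m : κ, ∀ j ∈ J, rest F (N j) m ≤ δ j := by
  classical
  by_cases hex : ∃ j ∈ J, δ j ≤ ∑ f ∈ F, N j f
  · obtain ⟨j₀, hj₀, ha₀⟩ := hex
    -- facts at an active scale
    have key : ∀ j ∈ J, δ j ≤ ∑ f ∈ F, N j f → ∃ m ∈ F, rest F (N j) m ≤ δ j ^ 3 ∧
        (3 / 4) * δ j ≤ N j m := by
      intro j hj ha
      have hd := hδ0 j hj
      have hFne : F.Nonempty := by
        rcases F.eq_empty_or_nonempty with rfl | h
        · simp at ha; linarith
        · exact h
      obtain ⟨m, hm, hmax⟩ := Finset.exists_max_image F (N j) hFne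
      have h1 := sum_mul_rest_le (N := N j) hm hmax (hN j hj)
      have h2 := hP j hj j hj le_rfl
      have h3 : δ j * rest F (N j) m ≤ δ j ^ 4 :=
        le_trans (mul_le_mul_of_nonneg_right ha (rest_nonneg (hN j hj) m)) (le_trans h1 h2.le)
      have h4 : rest F (N j) m ≤ δ j ^ 3 := by
        have : δ j * rest F (N j) m ≤ δ j * δ j ^ 3 := by
          calc _ ≤ δ j ^ 4 := h3
            _ = _ := by ring
        exact le_of_mul_le_mul_left this hd
      refine ⟨m, hm, h4, ?_⟩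
      have h5 := rest_add (N := N j) hm
      have h6 := hδ1 j hj
      have h7 : δ j ^ 2 ≤ 1 / 4 := by nlinarith
      have h8 : δ j ^ 3 ≤ (1 / 4) * δ j := by
        calc δ j ^ 3 = δ j ^ 2 * δ j := by ring
          _ ≤ (1 / 4) * δ j := mul_le_mul_of_nonneg_right h7 hd.le
      linarith
    obtain ⟨m₀, hm₀, hr₀, hN₀⟩ := key j₀ hj₀ ha₀
    refine ⟨m₀, fun j hj => ?_⟩
    by_cases ha : δ j ≤ ∑ f ∈ F, N j f
    · obtain ⟨m, hm, hr, hNm⟩ := key j hj ha
      have hd := hδ0 j hj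
      have hd₀ := hδ0 j₀ hj₀
      have hcube : δ j ^ 3 ≤ δ j := by
        have h6 := hδ1 j hj
        have : δ j ^ 2 ≤ 1 := by nlinarith
        calc δ j ^ 3 = δ j ^ 2 * δ j := by ring
          _ ≤ 1 * δ j := mul_le_mul_of_nonneg_right this hd.le
          _ = _ := one_mul _
      by_cases hmm : m = m₀
      · rw [← hmm]; linarith
      · exfalso
        rcases le_total j₀ j with hle | hle
        · have h1 := mul_le_mix (N := N j₀) (N' := N j) (hN j₀ hj₀) (hN j hj) hm₀ hm hmm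
          have h2 := hP j₀ hj₀ j hj hle
          have h3 := hanti j₀ hj₀ j hj hle
          have h6 := hδ1 j hj
          have h4 : (3 / 4) * δ j * ((3 / 4) * δ j) ≤ N j₀ m₀ * N j m :=
            mul_le_mul (by linarith) hNm (by positivity) (by linarith)
          have h5 : δ j ^ 4 ≤ (1 / 4) * δ j ^ 2 := by
            have : δ j ^ 2 ≤ 1 / 4 := by nlinarith
            calc δ j ^ 4 = δ j ^ 2 * δ j ^ 2 := by ring
              _ ≤ (1 / 4) * δ j ^ 2 := mul_le_mul_of_nonneg_right this (by positivity)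
          nlinarith [mul_pos hd hd]
        · have h1 := mul_le_mix (N := N j) (N' := N j₀) (hN j hj) (hN j₀ hj₀) hm hm₀ (Ne.symm hmm)
          have h2 := hP j hj j₀ hj₀ hle
          have h3 := hanti j hj j₀ hj₀ hle
          have h6 := hδ1 j₀ hj₀
          have h4 : (3 / 4) * δ j₀ * ((3 / 4) * δ j₀) ≤ N j m * N j₀ m₀ :=
            mul_le_mul (by linarith) hN₀ (by positivity) (by linarith)
          have h5 : δ j₀ ^ 4 ≤ (1 / 4) * δ j₀ ^ 2 := by
            have : δ j₀ ^ 2 ≤ 1 / 4 := by nlinarith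
            calc δ j₀ ^ 4 = δ j₀ ^ 2 * δ j₀ ^ 2 := by ring
              _ ≤ (1 / 4) * δ j₀ ^ 2 := mul_le_mul_of_nonneg_right this (by positivity)
          nlinarith [mul_pos hd₀ hd₀]
    · exact le_trans (rest_le_sum (hN j hj) m₀) (not_le.mp ha).le
  · push Not at hex
    exact ⟨Classical.arbitrary κ, fun j hj =>
      le_trans (rest_le_sum (hN j hj) _) (hex j hj).le⟩

open Classical in
/-- PRUNING (22, note 2471 (1)).  Items `b ∈ B` with masses `μ b`, rates `N b j f` at scales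
`j ∈ J` through classes `f ∈ F b`.  If `E_b mix (N b j) (N b k) ≤ C δ_k ^ 8` for all `j ≤ k`, then
outside a set of items of mass `≤ C ∑_k #{j ≤ k} δ_k ^ 4` every item has ONE class `lab b` with
`∑_{f ≠ lab b} N b j f ≤ δ_j` at every scale. -/
theorem prune {ι κ : Type*} [Nonempty κ] (B : Finset ι) (μ : ι → ℝ) (hμ : ∀ b ∈ B, 0 ≤ μ b)
    (F : ι → Finset κ) (J : Finset ℕ) (δ : ℕ → ℝ)
    (hδ0 : ∀ j ∈ J, 0 < δ j) (hδ1 : ∀ j ∈ J, δ j ≤ 1 / 2)
    (hanti : ∀ j ∈ J, ∀ k ∈ J, j ≤ k → δ k ≤ δ j) (N : ι → ℕ → κ → ℝ)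
    (hN : ∀ b ∈ B, ∀ j ∈ J, ∀ f ∈ F b, 0 ≤ N b j f) (C : ℝ)
    (hP : ∀ j ∈ J, ∀ k ∈ J, j ≤ k →
      ∑ b ∈ B, μ b * mix (F b) (N b j) (N b k) ≤ C * δ k ^ 8) :
    ∃ (B' : Finset ι) (lab : ι → κ), B' ⊆ B ∧
      ∑ b ∈ B \ B', μ b ≤ C * ∑ k ∈ J, ((J.filter (fun j => j ≤ k)).card : ℝ) * δ k ^ 4 ∧
      ∀ b ∈ B', ∀ j ∈ J, rest (F b) (N b j) (lab b) ≤ δ j := by
  set good : ι → Prop := fun b => ∀ j ∈ J, ∀ k ∈ J, j ≤ k →
    mix (F b) (N b j) (N b k) < δ k ^ 4 with hgood
  have hlab : ∀ b : ι, ∃ m : κ, b ∈ B → good b → ∀ j ∈ J, rest (F b) (N b j) m ≤ δ j := by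
    intro b
    by_cases hb : b ∈ B ∧ good b
    · obtain ⟨m, hm⟩ := item_label (F b) J δ hδ0 hδ1 hanti (N b) (hN b hb.1) hb.2
      exact ⟨m, fun _ _ => hm⟩
    · exact ⟨Classical.arbitrary κ, fun h1 h2 => absurd ⟨h1, h2⟩ hb⟩
  choose lab hlab using hlab
  refine ⟨B.filter good, lab, Finset.filter_subset _ _, ?_, fun b hb =>
    hlab b (Finset.mem_filter.mp hb).1 (Finset.mem_filter.mp hb).2⟩
  -- Markov
  have h1 : ∀ b ∈ B \ B.filter good, μ b ≤
      ∑ k ∈ J, ∑ j ∈ J.filter (fun j => j ≤ k),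
        μ b * mix (F b) (N b j) (N b k) / δ k ^ 4 := by
    intro b hb
    rw [Finset.mem_sdiff, Finset.mem_filter] at hb
    have hbB := hb.1
    have hng : ¬ good b := fun h => hb.2 ⟨hbB, h⟩
    simp only [hgood] at hng
    push Not at hng
    obtain ⟨j, hj, k, hk, hjk, hle⟩ := hng
    have hk4 : 0 < δ k ^ 4 := pow_pos (hδ0 k hk) 4
    have hnn : ∀ k' ∈ J, ∀ j' ∈ J.filter (fun j => j ≤ k'),
        0 ≤ μ b * mix (F b) (N b j') (N b k') / δ k' ^ 4 := by
      intro k' hk' j' hj'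
      have hj'J := (Finset.mem_filter.mp hj').1
      exact div_nonneg (mul_nonneg (hμ b hbB)
        (mix_nonneg (hN b hbB j' hj'J) (hN b hbB k' hk'))) (pow_pos (hδ0 k' hk') 4).le
    calc μ b ≤ μ b * mix (F b) (N b j) (N b k) / δ k ^ 4 := by
          rw [mul_div_assoc]
          exact le_mul_of_one_le_right (hμ b hbB) ((one_le_div hk4).mpr hle)
      _ ≤ ∑ j ∈ J.filter (fun j => j ≤ k), μ b * mix (F b) (N b j) (N b k) / δ k ^ 4 :=
          Finset.single_le_sum (f := fun j => μ b * mix (F b) (N b j) (N b k) / δ k ^ 4)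
            (fun j' hj' => hnn k hk j' hj') (Finset.mem_filter.mpr ⟨hj, hjk⟩)
      _ ≤ _ := Finset.single_le_sum
            (f := fun k => ∑ j ∈ J.filter (fun j => j ≤ k),
              μ b * mix (F b) (N b j) (N b k) / δ k ^ 4)
            (fun k' hk' => Finset.sum_nonneg fun j' hj' => hnn k' hk' j' hj') hk
  calc ∑ b ∈ B \ B.filter good, μ b
      ≤ ∑ b ∈ B \ B.filter good, ∑ k ∈ J, ∑ j ∈ J.filter (fun j => j ≤ k),
          μ b * mix (F b) (N b j) (N b k) / δ k ^ 4 := Finset.sum_le_sum h1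
    _ ≤ ∑ b ∈ B, ∑ k ∈ J, ∑ j ∈ J.filter (fun j => j ≤ k),
          μ b * mix (F b) (N b j) (N b k) / δ k ^ 4 := by
        refine Finset.sum_le_sum_of_subset_of_nonneg Finset.sdiff_subset fun b hb _ => ?_
        refine Finset.sum_nonneg fun k hk => Finset.sum_nonneg fun j hj => ?_
        have hjJ := (Finset.mem_filter.mp hj).1
        exact div_nonneg (mul_nonneg (hμ b hb)
          (mix_nonneg (hN b hb j hjJ) (hN b hb k hk))) (pow_pos (hδ0 k hk) 4).le
    _ = ∑ k ∈ J, ∑ j ∈ J.filter (fun j => j ≤ k),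
          (∑ b ∈ B, μ b * mix (F b) (N b j) (N b k)) / δ k ^ 4 := by
        rw [Finset.sum_comm]
        refine Finset.sum_congr rfl fun k _ => ?_
        rw [Finset.sum_comm]
        refine Finset.sum_congr rfl fun j _ => ?_
        rw [Finset.sum_div]
    _ ≤ ∑ k ∈ J, ∑ j ∈ J.filter (fun j => j ≤ k), C * δ k ^ 4 := by
        refine Finset.sum_le_sum fun k hk => Finset.sum_le_sum fun j hj => ?_
        obtain ⟨hjJ, hjk⟩ := Finset.mem_filter.mp hj
        rw [div_le_iff₀ (pow_pos (hδ0 k hk) 4)]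
        calc _ ≤ C * δ k ^ 8 := hP j hjJ k hk hjk
          _ = _ := by ring
    _ = C * ∑ k ∈ J, ((J.filter (fun j => j ≤ k)).card : ℝ) * δ k ^ 4 := by
        rw [Finset.mul_sum]
        refine Finset.sum_congr rfl fun k _ => ?_
        rw [Finset.sum_const, nsmul_eq_mul]
        ring

/-- `∑_{i<n} (i+1) q^i ≤ 1/(1-q)²` -/
theorem sum_succ_mul_pow_le {q : ℝ} (h0 : 0 ≤ q) (h1 : q < 1) (n : ℕ) :
    ∑ i ∈ Finset.range n, ((i : ℝ) + 1) * q ^ i ≤ 1 / (1 - q) ^ 2 := by
  have key : (1 - q) ^ 2 * ∑ i ∈ Finset.range n, ((i : ℝ) + 1) * q ^ i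
      = 1 - ((n : ℝ) + 1) * q ^ n + (n : ℝ) * q ^ (n + 1) := by
    induction n with
    | zero => simp
    | succ n ih =>
      rw [Finset.sum_range_succ, mul_add, ih]
      push_cast
      ring
  have hp : 0 < (1 - q) ^ 2 := pow_pos (by linarith) 2
  rw [le_div_iff₀ hp, mul_comm, key]
  have h2 : q ^ (n + 1) ≤ q ^ n := pow_le_pow_of_le_one h0 h1.le (Nat.le_succ n)
  have h3 : (n : ℝ) * q ^ (n + 1) ≤ (n : ℝ) * q ^ n :=
    mul_le_mul_of_nonneg_left h2 (Nat.cast_nonneg n)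
  have h4 : 0 ≤ q ^ n := pow_nonneg h0 n
  linarith

/-- `∑_{j ∈ [j₀, J)} r^j ≤ r^{j₀}/(1-r)` -/
theorem sum_Ico_pow_le {r : ℝ} (h0 : 0 ≤ r) (h1 : r < 1) (j₀ J : ℕ) :
    ∑ j ∈ Finset.Ico j₀ J, r ^ j ≤ r ^ j₀ / (1 - r) := by
  rcases le_total j₀ J with h | h
  · rw [geom_sum_Ico' h1.ne h]
    exact div_le_div_of_nonneg_right (by have := pow_nonneg h0 J; linarith) (by linarith)
  · rw [Finset.Ico_eq_empty (by omega), Finset.sum_empty]
    exact div_nonneg (pow_nonneg h0 _) (by linarith)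

/-- PRUNING at geometric scales `j ∈ [j₀, J)` with `δ_j = r ^ j` (dyadic scale `t = 2 ^ j`,
`r = 2 ^ (-c/8)`, so that `δ_k ^ 8 = t_k ^ (-c)`). -/
theorem prune_geom {ι κ : Type*} [Nonempty κ] (B : Finset ι) (μ : ι → ℝ)
    (hμ : ∀ b ∈ B, 0 ≤ μ b) (F : ι → Finset κ) (j₀ J : ℕ) {r : ℝ} (hr0 : 0 < r) (hr1 : r < 1)
    (hj₀ : r ^ j₀ ≤ 1 / 2) (N : ι → ℕ → κ → ℝ)
    (hN : ∀ b ∈ B, ∀ j ∈ Finset.Ico j₀ J, ∀ f ∈ F b, 0 ≤ N b j f) (C : ℝ) (hC : 0 ≤ C)
    (hP : ∀ j ∈ Finset.Ico j₀ J, ∀ k ∈ Finset.Ico j₀ J, j ≤ k →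
      ∑ b ∈ B, μ b * mix (F b) (N b j) (N b k) ≤ C * (r ^ k) ^ 8) :
    ∃ (B' : Finset ι) (lab : ι → κ), B' ⊆ B ∧
      ∑ b ∈ B, μ b - C * ((r ^ j₀) ^ 4 / (1 - r ^ 4) ^ 2) ≤ ∑ b ∈ B', μ b ∧
      (∀ b ∈ B', ∀ j ∈ Finset.Ico j₀ J, rest (F b) (N b j) (lab b) ≤ r ^ j) ∧
      ∀ b ∈ B', ∑ j ∈ Finset.Ico j₀ J, rest (F b) (N b j) (lab b) ≤ r ^ j₀ / (1 - r) := by
  classical
  obtain ⟨B', lab, hB', hdel, hlab⟩ := prune B μ hμ F (Finset.Ico j₀ J) (fun j => r ^ j)
    (fun j _ => pow_pos hr0 j)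
    (fun j hj => le_trans (pow_le_pow_of_le_one hr0.le hr1.le (Finset.mem_Ico.mp hj).1) hj₀)
    (fun j _ k _ hjk => pow_le_pow_of_le_one hr0.le hr1.le hjk) N hN C hP
  refine ⟨B', lab, hB', ?_, hlab, fun b hb => ?_⟩
  · have h1 := Finset.sum_sdiff (f := μ) hB'
    have hr4 : r ^ 4 < 1 := pow_lt_one₀ hr0.le hr1 (by norm_num)
    have h2 : ∑ k ∈ Finset.Ico j₀ J,
        (((Finset.Ico j₀ J).filter (fun j => j ≤ k)).card : ℝ) * (r ^ k) ^ 4
        ≤ (r ^ j₀) ^ 4 / (1 - r ^ 4) ^ 2 := by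
      have h3 : ∀ k ∈ Finset.Ico j₀ J,
          (((Finset.Ico j₀ J).filter (fun j => j ≤ k)).card : ℝ) * (r ^ k) ^ 4
          = ((k + 1 - j₀ : ℕ) : ℝ) * (r ^ k) ^ 4 := by
        intro k hk
        obtain ⟨hk1, hk2⟩ := Finset.mem_Ico.mp hk
        have : (Finset.Ico j₀ J).filter (fun j => j ≤ k) = Finset.Ico j₀ (k + 1) := by
          ext j
          simp only [Finset.mem_filter, Finset.mem_Ico]
          omega
        rw [this, Nat.card_Ico]
      rw [Finset.sum_congr rfl h3, Finset.sum_Ico_eq_sum_range]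
      have h4 : ∀ i ∈ Finset.range (J - j₀), ((j₀ + i + 1 - j₀ : ℕ) : ℝ) * (r ^ (j₀ + i)) ^ 4
          = (r ^ j₀) ^ 4 * (((i : ℝ) + 1) * (r ^ 4) ^ i) := by
        intro i _
        have : j₀ + i + 1 - j₀ = i + 1 := by omega
        rw [this]
        push_cast
        ring
      rw [Finset.sum_congr rfl h4, ← Finset.mul_sum, div_eq_mul_one_div]
      exact mul_le_mul_of_nonneg_left
        (sum_succ_mul_pow_le (pow_nonneg hr0.le 4) hr4 _) (by positivity)
    have h5 := mul_le_mul_of_nonneg_left h2 hC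
    linarith
  · exact le_trans (Finset.sum_le_sum (hlab b hb)) (sum_Ico_pow_le hr0.le hr1 j₀ J)

end Crest.Agent.R4C.Argmaxx485
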