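import Crest.Agent.R4C.LBoxDef_662
import Crest.Agent.R4C.BoxW_899
import Crest.Agent.R4C.HyOf_281

/-!
# Row 4, class (L), arrow C (high weights), second version (helper349)

`tgtC : TgtA γ → TgtC γ` over `BoxW_899.side`:
`K = x.N`, low cut `Yc = 2^(4 A (mx + 1) + 1)`, size classes `{a + i, a + i + 1}`, twists `KD`.
-/

set_option autoImplicit false

open Finset

namespace Crest.Agent.R4C.ArrCx349

open Crest.Agent.R4C.Basex935 Crest.Agent.R4C.FLDefx935 Crest.Agent.R4C.Rulex945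
  Crest.Agent.R4C.TEndx129 Crest.Agent.R4C.HighWx899 Crest.Agent.R4C.Cutx50
  Crest.Agent.R4C.Bridgex882 Crest.Agent.R4C.Splitx945 Crest.Agent.R4C.S7dx14
  Crest.Agent.R4C.LBxx500 Crest.Agent.R4C.NonPureBlkx559 Crest.Agent.R4C.Keptx559
  Crest.Agent.R4C.PureL2x232 Crest.Agent.R4C.LBoxDefx662 Crest.Agent.R4C.BoxWx899
  Crest.Agent.R4C.LClassx662 Crest.Agent.R4C.TwistKKx863 Crest.Agent.R4C.Spinex946
  Crest.Agent.R4C.HyOfx281 Crest.Agent.R4C.PairRx14 Crest.Agent.R4C.CrCoinx935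

open Crest.Agent.R4C.FLExx326 (ind)
open Crest.Agent.R4C.Hclsx81 (HvK)
open Crest.Agent.R4C.Betax7 (gap_swap killedB_symm)

/-! ### one pair -/

section pair

variable {M : ℕ} {F : FL M} {P : Par}

/-- letters of the untwisted word above the low cut -/
lemma fact_of_tw {y Yc k κ z0 b q : ℕ} (hup : upp y b = κ * z0)
    (hκ : κ ∣ k) (hk : 0 < k) (hkY : k ≤ Yc) (hyY : y ≤ Yc) (hq : Yc < q) :
    z0.factorization q = b.factorization q := by
  have hu := upp_pos y b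
  rw [hup] at hu
  have hκ0 : κ ≠ 0 := by
    rintro rfl
    simp at hu
  have hz0 : z0 ≠ 0 := by
    rintro rfl
    simp at hu
  have h1 : (upp y b).factorization q = κ.factorization q + z0.factorization q := by
    rw [hup, Nat.factorization_mul hκ0 hz0, Finsupp.add_apply]
  have h2 : κ.factorization q = 0 := by
    refine Nat.factorization_eq_zero_of_not_dvd fun hd => ?_
    have := Nat.le_of_dvd hk (hd.trans hκ)
    omega
  have h3 : (upp y b).factorization q = b.factorization q := by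
    rw [fact_upp, if_pos (by omega)]
  rw [h2, zero_add] at h1
  rw [← h1, h3]

/-- letters of the untwisted word at the primes `≤ y` -/
lemma fact_low_tw {y κ z0 b q : ℕ} (hup : upp y b = κ * z0) (hq : q ≤ y) :
    z0.factorization q = 0 := by
  have hu := upp_pos y b
  have hd : z0 ∣ upp y b := Dvd.intro_left κ hup.symm
  have h1 : z0.factorization q ≤ (upp y b).factorization q :=
    (Nat.factorization_le_iff_dvd (Nat.pos_of_dvd_of_pos hd hu).ne' hu.ne').2 hd q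
  rw [fact_upp, if_neg (by omega)] at h1
  omega

lemma tw_dvd (y t b c : ℕ) (f f' : ℚ) : tw F P y t b c f f' ∣ k0 F (P.cut t) b f := by
  unfold tw
  exact (upp_dvd_self _ _).trans (Nat.div_dvd_of_dvd (Nat.gcd_dvd_left _ _))

/-- the (alpha)/(beta) data of one pair of class (L) for arbitrary untwisted words -/
theorem pairZ {w : ℕ → ℝ} {δ δ' ε : ℝ} {D : ℕ → ℝ} {jB : ℕ → ℕ} (H : Hy F P w δ ε D)
    (hE : Monotone P.E) (hG : CutGrow P) {K : ℝ} {x : Bx} {t b c Yc j0 p : ℕ} {h : ℤ} {f f' : ℚ}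
    {Rs Rs' : Finset ℕ} {KK KK' : ℕ → Finset ℕ} {z0 z0' : ℕ} (hb : b ∣ M) (hc : c ∣ M)
    (hP : LB F P w δ' jB x t b c h f f' p) (hK1 : 1 ≤ K) (hKY : K ≤ Yc) (hKt : 4 * K ^ 2 < 2 ^ t)
    (hKn : (2 : ℝ) ^ (x.n + 1) ≤ K) (hKn' : (2 : ℝ) ^ (x.n' + 1) ≤ K)
    (hyY : P.Y x.v ≤ Yc) (hYt : Yc ≤ P.cut t)
    (hthr : ∀ d i, (Yc : ℝ) < P.Y i → K ≤ P.thr d i)
    (hnk : ¬ killedB (lamR F P) b c h) (hnh : ¬ CHvy F P w ε b c h)
    (hup : upp (P.Y x.v) b = tw F P (P.Y x.v) t b c f f' * z0)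
    (hup' : upp (P.Y x.v) c = tw F P (P.Y x.v) t c b f' f * z0')
    (hκ : tw F P (P.Y x.v) t b c f f' ∈ KK z0) (hκ' : tw F P (P.Y x.v) t c b f' f ∈ KK' z0')
    (hr : Nat.log 2 (low (P.Y x.v) b) ∈ Rs) (hr' : Nat.log 2 (low (P.Y x.v) c) ∈ Rs')
    (heqz : ∀ q, q.Prime → P.Y x.v < q → q ≤ P.cut t → z0.factorization q = z0'.factorization q)
    (hz : KZ (hiFL H.hM (P.Y x.v) F) j0 z0 z0') :
    PairW (hiFL H.hM (P.Y x.v) F) j0 P.cut (TTs F P (P.Y x.v) K Rs KK)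
      (XHs F P (P.Y x.v) K Rs KK Yc) (TTs F P (P.Y x.v) K Rs' KK')
      (XHs F P (P.Y x.v) K Rs' KK' Yc) z0 z0' (Qt (M := M) P (P.Y x.v) t z0 z0') := by
  have hM := H.hM
  have hb0 : b ≠ 0 := (Nat.pos_of_dvd_of_pos hb hM).ne'
  have hc0 : c ≠ 0 := (Nat.pos_of_dvd_of_pos hc hM).ne'
  have hyt : P.Y x.v ≤ P.cut t := hyY.trans hYt
  have hdb : dep F P t b f ≤ K := hP.dn1.le.trans hKn
  have hdc : dep F P t c f' ≤ K := hP.dn1'.le.trans hKn'
  have hkb : k0 F (P.cut t) b f ≤ Yc := by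
    have := ((k0_le_dep t b f).trans hdb).trans hKY
    exact_mod_cast this
  have hkc : k0 F (P.cut t) c f' ≤ Yc := by
    have := ((k0_le_dep t c f').trans hdc).trans hKY
    exact_mod_cast this
  have hQc : ∀ q ∈ Qt (M := M) P (P.Y x.v) t z0 z0', q ≤ P.cut t := fun q hq =>
    (mem_filter.1 hq).2.1
  have hvb : ∀ q, Yc < q → z0.factorization q = b.factorization q := fun q hq =>
    fact_of_tw hup (tw_dvd _ _ _ _ _ _) (k0_pos _ _ _) hkb hyY hq
  have hvc : ∀ q, Yc < q → z0'.factorization q = c.factorization q := fun q hq =>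
    fact_of_tw hup' (tw_dvd _ _ _ _ _ _) (k0_pos _ _ _) hkc hyY hq
  -- the first difference is above the cut
  have hfst : ∀ q, Fst q z0 z0' → P.cut t < q := by
    intro q hq
    by_contra hcon
    refine hq.2.2 ?_
    by_cases h1 : q ≤ P.Y x.v
    · rw [fact_low_tw hup h1, fact_low_tw hup' h1]
    · exact heqz q hq.1 (not_le.1 h1) (not_lt.1 hcon)
  have hpv : p ≤ P.Y x.v := by
    have := Par.le_blk H.Y_mono p
    rw [hP.blk] at this
    exact this
  -- letters in `(Yc, x)` are equal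
  have heq : ∀ r, Fst r z0 z0' → ∀ q, q.Prime → Yc < q →
      q < r → b.factorization q = c.factorization q := by
    intro r hr q hq hYq hqr
    by_cases h1 : q ≤ P.cut t
    · have h2 := hP.lp.topk q hq (by omega) h1
      exact eq_of_top hb0 hc0 hdb hdc hKY hYq h2.1 h2.2
    · rw [← hvb q hYq, ← hvc q hYq]
      exact hr.2.1 q hq hqr
  have hYtR : ∀ i, P.cut t < P.Y i → (Yc : ℝ) < P.Y i := fun i hi => by
    have h1 : Yc < P.Y i := lt_of_le_of_lt hYt hi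
    exact_mod_cast h1
  have hhv : ∀ e, t ≤ e → _ := fun e he =>
    not_hvK (w := w) (ε := ε) H.cut_mono H.hL hP.lp.m0 hP.lp.good hP.lp.al hP.lp.scl hP.lp.near
      hnh he
  refine ⟨fun q hq => (mem_filter.1 hq).1, fun q hq => (mem_filter.1 hq).2.2.1, ?_, hz, ?_, ?_⟩
  · intro r hr q hq
    exact (hQc q hq).trans_lt (hfst r hr)
  · intro _ r hr1 hlt
    have h1 := hfst r hr1
    have hYr : Yc < r := hYt.trans_lt h1
    rw [hvb r hYr, hvc r hYr] at hlt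
    exact side H hE hG hK1 hb hc hP.lp.pt hnk hP.lp.m0 hyt hyY hKt hKY (fun i hi => hthr b i (hYtR i hi)) hP.lp.ib hP.lp.ic
      hdb hdc hP.lp.db (fun e he => (hhv e he).1) hup hup' hκ hκ' hr hr' hr1.1 hlt
      (heq r hr1) hYr h1 hQc
  · intro _ r hr1 hlt
    have h1 := hfst r hr1
    have hYr : Yc < r := hYt.trans_lt h1
    rw [hvb r hYr, hvc r hYr] at hlt
    exact side H hE hG hK1 hc hb (gap_swap hP.lp.pt) (killedB_symm hnk) hP.lp.m0 hyt hyY hKt
      hKY (fun i hi => hthr c i (hYtR i hi)) hP.lp.ic hP.lp.ib hdc hdb hP.lp.dc (fun e he => (hhv e he).2) hup' hup hκ' hκ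
      hr' hr hr1.1 hlt (fun q hq h3 h4 => (heq r hr1 q hq h3 h4).symm) hYr h1 hQc

end pair

/-! ### numerics of the spine parameters -/

section par

variable {cp : ℝ} {A m0 : ℕ} {γ L : ℝ} {M : ℕ} {B : Finset ℕ}

/-- the low cut of a box -/
def Yc (A : ℕ) (x : Bx) : ℕ := 2 ^ (4 * A * (x.mx + 1) + 1)

lemma N_le_Yc (hA : 1 ≤ A) (x : Bx) : (x.N : ℝ) ≤ Yc A x := by
  unfold Bx.N Yc
  have : 2 ^ (x.mx + 1) ≤ 2 ^ (4 * A * (x.mx + 1) + 1) := by
    refine Nat.pow_le_pow_right (by norm_num) ?_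
    nlinarith
  exact_mod_cast this

lemma pow_n_le (x : Bx) : (2 : ℝ) ^ (x.n + 1) ≤ x.N := by
  unfold Bx.N
  push_cast
  exact pow_le_pow_right₀ (by norm_num) (by have : x.n ≤ x.mx := le_max_left _ _; omega)

lemma pow_n'_le (x : Bx) : (2 : ℝ) ^ (x.n' + 1) ≤ x.N := by
  unfold Bx.N
  push_cast
  exact pow_le_pow_right₀ (by norm_num) (by have : x.n' ≤ x.mx := le_max_right _ _; omega)

/-- `4 (mx + 1) + 1 ≤ t` -/
lemma mx_le (hc0 : 0 < cp) (hc : cp ≤ 1 / 200) {t : ℕ} (ht : 14 ≤ t) {x : Bx}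
    (h1 : (2 : ℝ) ^ x.n ≤ (2 : ℝ) ^ (cp * t * (4 : ℕ)))
    (h2 : (2 : ℝ) ^ x.n' ≤ (2 : ℝ) ^ (cp * t * (4 : ℕ))) : 4 * (x.mx + 1) + 1 ≤ t := by
  have ht' : (14 : ℝ) ≤ t := by exact_mod_cast ht
  have h3 : (x.mx : ℝ) ≤ cp * t * (4 : ℕ) := by
    rcases le_total x.n x.n' with h | h
    · have e : x.mx = x.n' := max_eq_right h
      rw [e]
      rw [← Real.rpow_natCast] at h2
      exact (Real.rpow_le_rpow_left_iff (by norm_num)).1 h2
    · have e : x.mx = x.n := max_eq_left h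
      rw [e]
      rw [← Real.rpow_natCast] at h1
      exact (Real.rpow_le_rpow_left_iff (by norm_num)).1 h1
  have h4 : cp * t ≤ 1 / 200 * t := mul_le_mul_of_nonneg_right hc (by linarith)
  have h5 : 4 * ((x.mx : ℝ) + 1) + 1 ≤ t := by
    push_cast at h3
    linarith
  exact_mod_cast h5

lemma thr_ge (hA : 1 ≤ A) (x : Bx) (d i : ℕ)
    (h : (Yc A x : ℝ) < (ParOf cp A m0 γ L M B).Y i) :
    (x.N : ℝ) ≤ (ParOf cp A m0 γ L M B).thr d i := by
  have h1 : 4 * A * (x.mx + 1) + 1 < i := by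
    have h2 : Yc A x < 2 ^ i := by exact_mod_cast h
    unfold Yc at h2
    exact (Nat.pow_lt_pow_iff_right (by norm_num)).1 h2
  have hAr : (1 : ℝ) ≤ A := by exact_mod_cast hA
  have h2 : 4 * A * (x.mx + 1) + 1 ≤ i - 1 := by omega
  have h3 : 4 * (A : ℝ) * (x.mx + 1) + 1 ≤ ((i - 1 : ℕ) : ℝ) := by exact_mod_cast h2
  have hmx : (0 : ℝ) ≤ x.mx := Nat.cast_nonneg _
  have hN : (x.N : ℝ) = (2 : ℝ) ^ ((x.mx : ℝ) + 1) := by
    unfold Bx.N
    push_cast
    rw [← Real.rpow_natCast]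
    push_cast
    rfl
  change (x.N : ℝ) ≤ min (max ((((2 : ℕ) ^ (i - 1) : ℕ) : ℝ) ^ (1 / (4 * A) : ℝ)) _)
    (Real.exp ((((2 : ℕ) ^ (i - 1) : ℕ) : ℝ) ^ (4 / 5 : ℝ)))
  have e1 : ∀ s : ℝ, (((2 : ℕ) ^ (i - 1) : ℕ) : ℝ) ^ s = (2 : ℝ) ^ (((i - 1 : ℕ) : ℝ) * s) := by
    intro s
    push_cast
    rw [← Real.rpow_natCast, ← Real.rpow_mul (by norm_num)]
  refine le_min (le_max_of_le_left ?_) ?_
  · rw [e1, hN]
    refine Real.rpow_le_rpow_of_exponent_le (by norm_num) ?_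
    rw [mul_one_div, le_div_iff₀ (by positivity)]
    linarith
  · rw [e1, hN]
    refine le_trans ?_ (le_trans (le_add_of_nonneg_right zero_le_one) (Real.add_one_le_exp _))
    refine Real.rpow_le_rpow_of_exponent_le (by norm_num) ?_
    nlinarith

end par

/-- sizes of the low words -/
lemma log_low {g u : ℕ} (hu : 0 < u) (hd : g ∣ u) :
    Nat.log 2 u ∈ ({Nat.log 2 (u / g) + Nat.log 2 g, Nat.log 2 (u / g) + Nat.log 2 g + 1} :
      Finset ℕ) := by
  obtain ⟨v, rfl⟩ := hd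
  have hg : g ≠ 0 := by
    rintro rfl
    simp at hu
  have hv : v ≠ 0 := by
    rintro rfl
    simp at hu
  rw [Nat.mul_div_cancel_left v (Nat.pos_of_ne_zero hg)]
  have h1 := Nat.pow_log_le_self 2 hg
  have h2 := Nat.pow_log_le_self 2 hv
  have h3 := Nat.lt_pow_succ_log_self (b := 2) (by norm_num) g
  have h4 := Nat.lt_pow_succ_log_self (b := 2) (by norm_num) v
  set i := Nat.log 2 g
  set a := Nat.log 2 v
  have h5 : 2 ^ (a + i) ≤ g * v := by
    rw [pow_add, mul_comm]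
    exact Nat.mul_le_mul h1 h2
  have h6 : g * v < 2 ^ (a + i + 1 + 1) := by
    have : g * v < 2 ^ (i + 1) * 2 ^ (a + 1) := Nat.mul_lt_mul'' h3 h4
    calc g * v < 2 ^ (i + 1) * 2 ^ (a + 1) := this
      _ = 2 ^ (a + i + 1 + 1) := by
        rw [← pow_add]
        congr 1
        omega
  have h7 : a + i ≤ Nat.log 2 (g * v) := (Nat.le_log_iff_pow_le (by norm_num) hu.ne').2 h5
  have h8 : Nat.log 2 (g * v) < a + i + 1 + 1 := (Nat.log_lt_iff_lt_pow (by norm_num) hu.ne').2 h6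
  rw [mem_insert, mem_singleton]
  omega

open Classical in
/-- the twists over the divisors of `M` -/
noncomputable def KM {M : ℕ} (F : FL M) (P : Par) (x : Bx) (a i j : ℕ) (z : ℕ) : Finset ℕ :=
  if z ∣ M then KD F P.γ P.L (2 ^ (i + a + 1) * x.N) (x.N ^ 3) x.N P.cut (LDecx500.lb P)
    (range (P.N + 1)) (2 ^ j) z else ∅

/-- **ARROW C** -/
theorem tgtC {γ : ℝ} (hA : TgtA γ) : TgtC γ := by
  classical
  intro ε hε
  obtain ⟨C1, hC1, hcard⟩ := card_KK hε 3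
  have hEv := hA.and (evNum.and (Ev.le_A (fun _ _ => 2)))
  refine hEv.mono ?_
  rintro cp η A m0 ⟨hA, hN, hA2⟩
  have hA2 : 2 ≤ A := by exact_mod_cast hA2
  refine ⟨2 * C1, by positivity, fun L M B F S => ?_⟩
  have H := hy_of_num hN (γ := γ) (B := B) S.hM S.hL F
  set P := ParOf cp A m0 γ L M B with hPdef
  intro x a a' i
  have hN1 : 1 ≤ x.N := Nat.one_le_two_pow
  have hNR : (1 : ℝ) ≤ x.N := by exact_mod_cast hN1
  have hKM : ∀ a j z, ((KM F P x a i j z).card : ℝ) ≤ C1 * (x.N : ℝ) ^ ε := by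
    intro a j z
    unfold KM
    split_ifs with hz
    · refine le_trans ?_ (hcard M F P.γ P.L (2 ^ (i + a + 1) * x.N) (x.N ^ 3) x.N P.cut
        (LDecx500.lb P) (range (P.N + 1)) z S.hM hz (by positivity) le_rfl hN1 H.cut_mono)
      exact_mod_cast card_le_card (filter_subset _ _)
    · rw [card_empty]
      push_cast
      positivity
  have hRs : ∀ n : ℕ, (({n, n + 1} : Finset ℕ).card : ℝ) ≤ 2 := fun n => by
    exact_mod_cast card_le_two
  have hfin : ∀ (m : ℕ) (s k : ℕ), s ≤ k * m → (k : ℝ) ≤ C1 * (x.N : ℝ) ^ ε → (m : ℝ) ≤ 2 →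
      (s : ℝ) ≤ 2 * C1 * (x.N : ℝ) ^ ε := by
    intro m s k h1 h2 h3
    have h4 : (s : ℝ) ≤ k * m := by exact_mod_cast h1
    have h5 : (0 : ℝ) ≤ C1 * (x.N : ℝ) ^ ε := by positivity
    calc (s : ℝ) ≤ k * m := h4
      _ ≤ (C1 * (x.N : ℝ) ^ ε) * 2 := mul_le_mul h2 h3 (Nat.cast_nonneg _) h5
      _ = _ := by ring
  refine ⟨TTs F P (P.Y x.v) x.N {a + i, a + i + 1} (KM F P x a i x.j),
    XHs F P (P.Y x.v) x.N {a + i, a + i + 1} (KM F P x a i x.j) (Yc A x),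
    TTs F P (P.Y x.v) x.N {a' + i, a' + i + 1} (KM F P x a' i x.j'),
    XHs F P (P.Y x.v) x.N {a' + i, a' + i + 1} (KM F P x a' i x.j') (Yc A x),
    fun z => hfin _ _ _ (card_TTs z) (hKM _ _ _) (hRs _),
    fun z => hfin _ _ _ (card_XHs _ z) (hKM _ _ _) (hRs _),
    fun z => hfin _ _ _ (card_TTs z) (hKM _ _ _) (hRs _),
    fun z => hfin _ _ _ (card_XHs _ z) (hKM _ _ _) (hRs _), ?_⟩
  intro t b c h f f' p hb hc hh hnk hnh hLB ha ha' hi z0 z0' hup hup' heqz hz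
  have hb0 : b ≠ 0 := (Nat.pos_of_dvd_of_pos hb S.hM).ne'
  have hc0 : c ≠ 0 := (Nat.pos_of_dvd_of_pos hc S.hM).ne'
  -- the words of arrow A
  obtain ⟨w0, w0', e1, e2, m1, m2, _, _, _⟩ := hA L M B F S x t b c h f f' p hb hc hh hLB
  have htw : ∀ {κ u v n : ℕ}, 0 < n → n = κ * u → n = κ * v → v = u := by
    intro κ u v n hn h1 h2
    have hκ : 0 < κ := by
      rcases Nat.eq_zero_or_pos κ with h0 | h0
      · rw [h0, zero_mul] at h1
        omega
      · exact h0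
    exact Nat.eq_of_mul_eq_mul_left hκ (h2.symm.trans h1)
  have f1 : w0 = z0 := htw (upp_pos _ _) hup e1
  have f2 : w0' = z0' := htw (upp_pos _ _) hup' e2
  subst f1 f2
  have hw0 : w0 ∣ M := ((Dvd.intro_left _ hup.symm).trans (upp_dvd_self _ b)).trans hb
  have hw0' : w0' ∣ M := ((Dvd.intro_left _ hup'.symm).trans (upp_dvd_self _ c)).trans hc
  have g1 : tw F P (P.Y x.v) t b c f f' ∈ KM F P x a i x.j w0 := by
    unfold KM
    rw [if_pos hw0]
    rw [ha, hi] at m1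
    exact m1
  have g2 : tw F P (P.Y x.v) t c b f' f ∈ KM F P x a' i x.j' w0' := by
    unfold KM
    rw [if_pos hw0']
    rw [ha', hi] at m2
    exact m2
  -- numerics
  have hm0 : 14 ≤ t := hN.m0_14.trans hLB.lp.m0
  have hE4 : P.E t ^ 4 = (2 : ℝ) ^ (cp * t * (4 : ℕ)) := E_pow cp A m0 γ L M B t 4
  have hmx := mx_le hN.cp_pos hN.cp_le hm0 (x := x)
    ((hLB.dn.trans hLB.lp.db).trans hE4.le) ((hLB.dn'.trans hLB.lp.dc).trans hE4.le)
  have hYt : Yc A x ≤ P.cut t := by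
    change 2 ^ (4 * A * (x.mx + 1) + 1) ≤ 2 ^ (A * t)
    refine Nat.pow_le_pow_right (by norm_num) ?_
    calc 4 * A * (x.mx + 1) + 1 ≤ A * (4 * (x.mx + 1)) + A * 1 := by
          rw [mul_comm 4 A, mul_assoc]
          omega
      _ = A * (4 * (x.mx + 1) + 1) := by ring
      _ ≤ A * t := Nat.mul_le_mul_left A hmx
  have hKt : 4 * (x.N : ℝ) ^ 2 < 2 ^ t := by
    have : 4 * x.N ^ 2 < 2 ^ t := by
      unfold Bx.N
      calc 4 * (2 ^ (x.mx + 1)) ^ 2 = 2 ^ (2 + (x.mx + 1) * 2) := by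
            rw [← pow_mul, pow_add 2 2]
            norm_num
        _ < 2 ^ t := Nat.pow_lt_pow_right (by norm_num) (by omega)
    exact_mod_cast this
  have hyY : P.Y x.v ≤ Yc A x := by
    change 2 ^ x.v ≤ 2 ^ (4 * A * (x.mx + 1) + 1)
    refine Nat.pow_le_pow_right (by norm_num) ?_
    have h1 : ((2 : ℝ) ^ (x.v - 1 : ℕ)) ^ (1 / (4 * A) : ℝ) < 2 ^ (x.n + 1) := by
      have := hLB.vle
      change (((2 : ℕ) ^ (x.v - 1) : ℕ) : ℝ) ^ (1 / (4 * A) : ℝ) < 2 ^ (x.n + 1) at this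
      push_cast at this
      exact this
    rw [← Real.rpow_natCast, ← Real.rpow_mul (by norm_num), ← Real.rpow_natCast 2 (x.n + 1)] at h1
    have h2 := (Real.rpow_lt_rpow_left_iff (by norm_num : (1 : ℝ) < 2)).1 h1
    have hA0 : (0 : ℝ) < 4 * A := by positivity
    rw [mul_one_div, div_lt_iff₀ hA0] at h2
    have h3 : x.v - 1 < (x.n + 1) * (4 * A) := by exact_mod_cast h2
    have h4 : (x.n + 1) * (4 * A) ≤ (x.mx + 1) * (4 * A) :=
      Nat.mul_le_mul_right _ (by have : x.n ≤ x.mx := le_max_left _ _; omega)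
    have h5 : (x.mx + 1) * (4 * A) = 4 * A * (x.mx + 1) := by ring
    omega
  have hr : Nat.log 2 (low (P.Y x.v) b) ∈ ({a + i, a + i + 1} : Finset ℕ) := by
    have := log_low (low_pos (P.Y x.v) b) (Nat.gcd_dvd_left (low (P.Y x.v) b) (low (P.Y x.v) c))
    rw [← ha, ← hi]
    exact this
  have hr' : Nat.log 2 (low (P.Y x.v) c) ∈ ({a' + i, a' + i + 1} : Finset ℕ) := by
    have := log_low (low_pos (P.Y x.v) c) (Nat.gcd_dvd_right (low (P.Y x.v) b) (low (P.Y x.v) c))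
    rw [← ha', ← hi]
    exact this
  have hEm : Monotone P.E := fun m n hmn => Real.rpow_le_rpow_of_exponent_le (by norm_num)
    (mul_le_mul_of_nonneg_left (by exact_mod_cast hmn) hN.cp_pos.le)
  exact pairZ H hEm (cutA_grow hA2 fun _ => rfl) hb hc hLB hNR (N_le_Yc (by omega) x) hKt
    (pow_n_le x) (pow_n'_le x) hyY hYt (fun d i hi => thr_ge (by omega) x d i hi) hnk hnh hup hup'
    g1 g2 hr hr' heqz hz

end Crest.Agent.R4C.ArrCx349
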