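import Crest.Agent.R4C.NearRule_360
import Crest.Agent.R4C.Dyad_281

/-!
# Row 4: bad pairs of the label rule, with boost (helper360)

* `rb F b c` : the least cut at which the pair is good.
* `XB A L g = max ((g/L)^A) (exp (max(1, L/g)^(1/8)))`.
* `bad_all` : all pairs with `XB < rb`, all unkilled offsets without an aligned same-point common
  prime `> rb`, cost `≤ C m`, with the full boost, any scale.
-/

set_option autoImplicit false

open Finset

namespace Crest.Agent.R4C.BadAllx360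

open Crest.Agent.R4C.Basex935 Crest.Agent.R4C.PrefixMx882 Crest.Agent.R4C.CrCountx935
  Crest.Agent.R4C.CrCoinx935 Crest.Agent.R4C.Bridgex882 Crest.Agent.R4C.NearAbsx60
  Crest.Agent.R4C.NearBoostx60 Crest.Agent.R4C.FLDefx935 Crest.Agent.R4C.BoostCx972
  Crest.Agent.R4C.S7cx14 Crest.Agent.R4C.Rulex945 Crest.Agent.R4C.NearTotx360
  Crest.Agent.R4C.B3Rulex360 Crest.Agent.R4C.NearRulex360 Crest.Agent.R4C.Kyx952

section rb

variable {M : ℕ} (F : FL M)

/-- the least cut at which the pair is good -/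
noncomputable def rb (b c : ℕ) : ℕ := sInf {x | F.good x b c}

variable {F}

lemma good_top (hM : 0 < M) {b c : ℕ} (hb : b ∣ M) (hc : c ∣ M) : F.good M b c := by
  have hz : ∀ {d q : ℕ}, d ∣ M → q.Prime → M < q → d.factorization q = 0 := by
    intro d q hd _ hMq
    refine Nat.factorization_eq_zero_of_not_dvd fun h => ?_
    have := Nat.le_of_dvd hM (h.trans hd)
    omega
  refine ⟨fun q hq hMq _ => by rw [hz hb hq hMq, hz hc hq hMq], fun q hq hMq v hv => ?_⟩
  have h1 := F.le hb hq hv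
  rw [hz dvd_rfl hq hMq] at h1
  left
  rw [hz hb hq hMq]
  omega

lemma good_rb (hM : 0 < M) {b c : ℕ} (hb : b ∣ M) (hc : c ∣ M) : F.good (rb F b c) b c :=
  Nat.sInf_mem (s := {x | F.good x b c}) ⟨M, good_top hM hb hc⟩

lemma good_of_rb_le (hM : 0 < M) {b c x : ℕ} (hb : b ∣ M) (hc : c ∣ M) (h : rb F b c ≤ x) :
    F.good x b c := FL.good_mono h (good_rb hM hb hc)

lemma not_good_of_lt {b c x : ℕ} (h : x < rb F b c) : ¬ F.good x b c :=
  fun hg => absurd (Nat.sInf_le (s := {x | F.good x b c}) hg) (not_le.2 h)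

lemma rb_le {b c x : ℕ} (h : F.good x b c) : rb F b c ≤ x := Nat.sInf_le h

end rb

section boost

variable {M : ℕ} {F : FL M} {P : Par}

open Classical in
/-- pointwise boost at any cut `R` at which the pair is good, no same point above `R` -/
theorem boost_R (hY : ∀ i, P.Y i = 2 ^ i)
    (hthr : ∀ b i, P.thr b i ≤ Real.exp ((P.Y (i - 1) : ℝ) ^ (4 / 5 : ℝ))) (hL : 0 < P.L)
    (hM : 0 < M) {b c : ℕ} (hb : b ∣ M) (hc : c ∣ M) {h : ℤ} (hh : h ∈ Lnk P.γ P.L b c)
    (hk : ¬ killedB (lamR F P) b c h) {R : ℕ} (hR : F.good R b c)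
    (hXR : XX P.L (Nat.gcd b c) ≤ R) (hsame : ¬ SameAt F P b c R h) :
    boostB M (lamR F P) b c h ≤ KB * (Real.exp 13 * Real.log R) *
      Real.exp (2 * iy R (cof b c)) := by
  have hb0 : 0 < b := Nat.pos_of_dvd_of_pos hb hM
  have hc0 : 0 < c := Nat.pos_of_dvd_of_pos hc hM
  set g := Nat.gcd b c with hg
  have hg0 : 0 < g := Nat.gcd_pos_of_pos_left c hb0
  have hgR : (0 : ℝ) < g := by exact_mod_cast hg0
  set s := b / g with hs
  set s' := c / g with hs'
  have hgs : g * s = b := Nat.mul_div_cancel' (Nat.gcd_dvd_left b c)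
  have hgs' : g * s' = c := Nat.mul_div_cancel' (Nat.gcd_dvd_right b c)
  have hs0 : 0 < s := Nat.pos_of_ne_zero fun h0 => by rw [h0, mul_zero] at hgs; omega
  have hcop : Nat.Coprime s s' := Nat.coprime_div_gcd_div_gcd hg0
  have hR2 : (2 : ℝ) < R := lt_of_lt_of_le (XX_gt _ _) hXR
  have hlink : (g : ℝ) * |((s : ℝ) - s') * P.γ + h| ≤ P.L := by
    unfold Lnk at hh
    rw [mem_Hf] at hh
    have h1 := hh.le
    rw [le_div_iff₀ hgR] at h1
    rw [mul_comm]
    exact h1
  have hLg : P.L ≤ g * Real.exp (10 * (R : ℝ) ^ (4 / 5 : ℝ)) := by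
    refine (L_le_XX (L := P.L) hg0).trans (mul_le_mul_of_nonneg_left ?_ hgR.le)
    refine Real.exp_le_exp.2 (mul_le_mul_of_nonneg_left ?_ (by norm_num))
    exact Real.rpow_le_rpow (by have := XX_gt P.L g; linarith) hXR (by norm_num)
  have hlab := isLab (F := F) (P := P)
  -- aligned primes above `R`
  have hB3 : ∏ p ∈ (P2 M (lamR F P) b c).filter (fun p : ℕ => (R : ℝ) < (p : ℝ) ∧
      (p : ℤ) ∣ h - res (lamR F P) b c p), (1 - 1 / (p : ℝ))⁻¹ ≤ KB := by
    refine B3_rule (F := F) hY hthr hL hM (g := g) (s := s) (s' := s') (by rw [hgs]; exact hb)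
      (by rw [hgs']; exact hc) hs0 hcop h hlink hR2 hLg
      (x0 := R) le_rfl (by rw [hgs, hgs']; exact hR) _ ?_
    intro p hp
    rw [mem_filter] at hp
    obtain ⟨hp2, hpX, hpr⟩ := hp
    have hpp := prime_P2 hp2
    have hp2' := hp2
    unfold P2 at hp2
    rw [mem_filter] at hp2
    obtain ⟨_, h1, h2, h3, h4⟩ := hp2
    obtain ⟨a, ha⟩ := Option.ne_none_iff_exists'.1 h3
    obtain ⟨a', ha'⟩ := Option.ne_none_iff_exists'.1 h4
    obtain ⟨f, hf1, hf2, hf3⟩ := hlab.spec hpp ha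
    obtain ⟨f', hf1', hf2', hf3'⟩ := hlab.spec hpp ha'
    have hgap : gap f f' s s' h ≠ 0 := by
      intro h0
      exact hsame ⟨p, hp2', hpX, f, f', hf1, hf1', hf2, hf2', h0⟩
    refine ⟨hpp, hpX.le, f, f', by rw [hgs]; exact hf1, by rw [hgs']; exact hf1', hgap, ?_⟩
    rw [← dvd_gap_iff_D0 hg0 hs0 hcop hpp hf2 hf2', ← class_iff_gap hpp hf2 hf2' hf3 hf3']
    unfold res at hpr
    rw [← hg, if_neg h2, if_neg h1, ha, ha', Option.getD_some, Option.getD_some] at hpr
    have e : h - (s : ℤ) * a + (s' : ℤ) * a' = h - ((s : ℤ) * a - (s' : ℤ) * a') := by ring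
    rw [e]
    exact hpr
  have hcut := boost_cut (M := M) hb0 (lamR F P) (R : ℝ) h hk
  have hD := prod_P1_le hM hb hc (lamR F P) R
  have hD0 : 0 ≤ ∏ p ∈ (P1 M (lamR F P) b c).filter (fun p => R < p), (1 - 1 / (p : ℝ))⁻¹ :=
    prod_nonneg fun p hp => (inv_pos' (prime_P1 (mem_filter.1 hp).1)).le
  have eD : ∏ p ∈ (P1 M (lamR F P) b c).filter (fun p : ℕ => (R : ℝ) < (p : ℝ)),
      (1 - 1 / (p : ℝ))⁻¹ =
      ∏ p ∈ (P1 M (lamR F P) b c).filter (fun p => R < p), (1 - 1 / (p : ℝ))⁻¹ := by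
    refine prod_congr (filter_congr fun p _ => ?_) fun _ _ => rfl
    rw [Nat.cast_lt]
  rw [eD] at hcut
  -- the small primes
  have hsmall : boostB M (cutL (lamR F P) R) b c h ≤ Real.exp 13 * Real.log R := by
    have hk' : ¬ killedB (cutL (lamR F P) R) b c h := fun h1 => hk (killed_cut h1)
    rw [NearBoostx60.boost_le hb0 _ h hk', P1_cut, P2_cut]
    set A1 := (P1 M (lamR F P) b c).filter (fun p : ℕ => (p : ℝ) ≤ R) with hA1
    set A2 := (P2 M (lamR F P) b c).filter (fun p : ℕ => (p : ℝ) ≤ R) with hA2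
    have hA1p : ∀ p ∈ A1, p.Prime := fun p hp => prime_P1 (mem_filter.1 hp).1
    have hA2p : ∀ p ∈ A2, p.Prime := fun p hp => prime_P2 (mem_filter.1 hp).1
    have h1 : ∏ p ∈ A1, ((1 - 1 / (p : ℝ))⁻¹ *
        (1 - if (p : ℤ) ∣ h - res (cutL (lamR F P) R) b c p then 1 else 0)) ≤
        ∏ p ∈ A1, (1 - 1 / (p : ℝ))⁻¹ := by
      refine prod_le_prod (fun p hp => ?_) fun p hp => ?_
      · have := (inv_pos' (hA1p p hp)).le
        split_ifs
        · simp
        · simpa using this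
      · have := (inv_pos' (hA1p p hp)).le
        split_ifs
        · simpa using this
        · simp
    have h2 : ∏ p ∈ A2, (1 + 1 / ((p : ℝ) - 1) *
        if (p : ℤ) ∣ h - res (cutL (lamR F P) R) b c p then 1 else 0) ≤
        ∏ p ∈ A2, (1 - 1 / (p : ℝ))⁻¹ := by
      refine prod_le_prod (fun p hp => ?_) fun p hp => ?_
      · have h3 : (1 : ℝ) < p := by exact_mod_cast (hA2p p hp).one_lt
        have h4 : 0 < 1 / ((p : ℝ) - 1) := one_div_pos.2 (by linarith)
        split_ifs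
        · linarith
        · simp
      · have h3 : (1 : ℝ) < p := by exact_mod_cast (hA2p p hp).one_lt
        have h4 : (p : ℝ) - 1 ≠ 0 := by linarith
        have h5 : (p : ℝ) ≠ 0 := by linarith
        have h6 : (1 : ℝ) - 1 / p ≠ 0 := (factor_pos (hA2p p hp)).ne'
        have h7 : (1 - 1 / (p : ℝ))⁻¹ = 1 + 1 / ((p : ℝ) - 1) := by
          field_simp
          ring
        rw [h7]
        have h8 : 0 < 1 / ((p : ℝ) - 1) := one_div_pos.2 (by linarith)
        split_ifs
        · linarith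
        · simp only [mul_zero]; linarith
    have hdis : Disjoint A1 A2 :=
      ((disj (M := M) (b := b) (c := c) (lamR F P)).mono_left (filter_subset _ _)).mono_right
        (filter_subset _ _)
    calc _ ≤ (∏ p ∈ A1, (1 - 1 / (p : ℝ))⁻¹) * ∏ p ∈ A2, (1 - 1 / (p : ℝ))⁻¹ := by
          refine mul_le_mul h1 h2 (prod_nonneg fun p hp => ?_)
            (prod_nonneg fun p hp => (inv_pos' (hA1p p hp)).le)
          have h3 : (1 : ℝ) < p := by exact_mod_cast (hA2p p hp).one_lt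
          have h4 : 0 < 1 / ((p : ℝ) - 1) := one_div_pos.2 (by linarith)
          split_ifs
          · linarith
          · simp
      _ = ∏ p ∈ A1 ∪ A2, (1 - 1 / (p : ℝ))⁻¹ := (prod_union hdis).symm
      _ ≤ _ := by
          refine prod_inv_le _ (fun p hp => ?_) hR2.le fun p hp => ?_
          · rcases mem_union.1 hp with h3 | h3
            · exact hA1p p h3
            · exact hA2p p h3
          · rcases mem_union.1 hp with h3 | h3
            · exact (mem_filter.1 h3).2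
            · exact (mem_filter.1 h3).2
  have hlog : 0 ≤ Real.log R := Real.log_nonneg (by linarith)
  have hKB0 : 0 ≤ KB := by have := one_le_KB; linarith
  have hP0 : 0 ≤ ∏ p ∈ (P2 M (lamR F P) b c).filter (fun p : ℕ => (R : ℝ) < (p : ℝ) ∧
      (p : ℤ) ∣ h - res (lamR F P) b c p), (1 - 1 / (p : ℝ))⁻¹ :=
    prod_nonneg fun p hp => (inv_pos' (prime_P2 (mem_filter.1 hp).1)).le
  refine hcut.trans ?_
  calc (∏ p ∈ (P1 M (lamR F P) b c).filter (fun p => R < p), (1 - 1 / (p : ℝ))⁻¹) *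
        (∏ p ∈ (P2 M (lamR F P) b c).filter (fun p : ℕ => (R : ℝ) < (p : ℝ) ∧
          (p : ℤ) ∣ h - res (lamR F P) b c p), (1 - 1 / (p : ℝ))⁻¹) *
        boostB M (cutL (lamR F P) R) b c h
      ≤ (Real.exp (2 * iy R (cof b c)) * KB) * (Real.exp 13 * Real.log R) :=
        mul_le_mul (mul_le_mul hD hB3 hP0 (Real.exp_pos _).le) hsmall
          (by unfold boostB
              refine prod_nonneg fun p hp => ?_
              split_ifs
              · exact (inv_pos' (prime_of_free hp)).le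
              · exact zero_le_one) (by positivity)
    _ = _ := by ring

/-- number of offsets -/
lemma card_Lnk_le {γ L : ℝ} (hL : 0 < L) {b c : ℕ} (hb : 0 < b) :
    ((Lnk γ L b c).card : ℝ) ≤ 3 * max 1 (L / (Nat.gcd b c : ℕ)) := by
  classical
  have h := Lnk_card (γ := γ) hL (c := c) hb 1 one_pos 0
  have e : (Lnk γ L b c).filter (fun h => ((1 : ℕ) : ℤ) ∣ h - 0) = Lnk γ L b c := by
    refine filter_true_of_mem fun h _ => ?_
    simp
  rw [e] at h
  have h1 := (abs_le.1 h).2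
  have h2 : (1 : ℝ) ≤ max 1 (L / (Nat.gcd b c : ℕ)) := le_max_left _ _
  have h3 : L / (Nat.gcd b c : ℕ) ≤ max 1 (L / (Nat.gcd b c : ℕ)) := le_max_right _ _
  rw [Nat.cast_one, div_one] at h1
  linarith

end boost

/-! ### numerical part -/

/-- the sequence in `n` -/
noncomputable def an (c : ℝ) (n : ℕ) : ℝ :=
  8 * (2 : ℝ) ^ (c / 2) * (((n : ℝ) + 1) ^ 17 * ((2 : ℝ) ^ (-(c / 2) * n) + (1 / 2) ^ n))

lemma an_nonneg (c : ℝ) (n : ℕ) : 0 ≤ an c n := by
  unfold an
  positivity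

lemma summable_an {c : ℝ} (hc : 0 < c) : Summable (an c) := by
  unfold an
  refine Summable.mul_left _ ?_
  have key : ∀ r : ℝ, 0 < r → r < 1 → Summable fun n : ℕ => ((n : ℝ) + 1) ^ 17 * r ^ n := by
    intro r h0 h1
    have h2 : Summable fun n : ℕ => ((n : ℝ)) ^ 17 * r ^ n :=
      summable_pow_mul_geometric_of_norm_lt_one 17 (by rw [Real.norm_of_nonneg h0.le]; exact h1)
    have h3 := (summable_nat_add_iff 1).2 h2
    have h4 := h3.mul_left r⁻¹
    refine h4.congr fun n => ?_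
    push_cast
    rw [pow_succ' r n]
    field_simp
  have h1 := key ((2 : ℝ) ^ (-(c / 2))) (Real.rpow_pos_of_pos (by norm_num) _)
    (Real.rpow_lt_one_of_one_lt_of_neg (by norm_num) (by linarith))
  have h2 := key (1 / 2) (by norm_num) (by norm_num)
  refine (h1.add h2).congr fun n => ?_
  rw [← Real.rpow_natCast ((2 : ℝ) ^ (-(c / 2))) n, ← Real.rpow_mul (by norm_num)]
  ring

lemma exp_neg_pow (n : ℕ) : Real.exp (-(32 * (2 : ℝ) ^ n)) ≤ (1 / 2) ^ (32 * (n + 1)) := by
  have h1 : n < 2 ^ n := Nat.lt_two_pow_self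
  have h2 : 32 * (n + 1) ≤ 32 * 2 ^ n := by omega
  have h3 : Real.exp (-(32 * (2 : ℝ) ^ n)) = (Real.exp (-1)) ^ (32 * 2 ^ n) := by
    rw [← Real.exp_nat_mul]
    push_cast
    ring_nf
  rw [h3]
  have h4 : Real.exp (-1) ≤ 1 / 2 := by
    rw [Real.exp_neg, one_div]
    exact inv_anti₀ (by norm_num) (by have := Real.add_one_le_exp 1; linarith)
  calc (Real.exp (-1)) ^ (32 * 2 ^ n) ≤ (1 / 2) ^ (32 * 2 ^ n) :=
        pow_le_pow_left₀ (Real.exp_pos _).le h4 _
    _ ≤ _ := pow_le_pow_of_le_one (by norm_num) (by norm_num) h2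

set_option maxHeartbeats 1000000 in
/-- numerical bound of one class -/
lemma class_num {η c A t : ℝ} (hη : 0 < η) (hη1 : η < 1) (hc : 0 < c) (hA : 1 ≤ A)
    (hAc : 4 * η ≤ A * c) (ht : 0 < t) {n : ℕ} (h1 : t ^ A ≤ 2 ^ (n + 1))
    (h2 : Real.exp ((max 1 (1 / (2 * t))) ^ (1 / 8 : ℝ)) ≤ 2 ^ (n + 1)) :
    ((n : ℝ) + 1) * max 1 (1 / t) * (t ^ η * (2 : ℝ) ^ (-(c * n)) +
      Real.sqrt t * Real.exp (-(32 * (2 : ℝ) ^ n))) ≤ min (t ^ η) (t ^ (-η)) * an c n := by
  have hn1 : (1 : ℝ) ≤ (n : ℝ) + 1 := by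
    have : (0 : ℝ) ≤ n := Nat.cast_nonneg _
    linarith
  have hpow : ∀ {a b : ℕ}, a ≤ b → ((n : ℝ) + 1) ^ a ≤ ((n : ℝ) + 1) ^ b := fun h =>
    pow_le_pow_right₀ hn1 h
  have hc2 : (1 : ℝ) ≤ (2 : ℝ) ^ (c / 2) := Real.one_le_rpow (by norm_num) (by linarith)
  have he := exp_neg_pow n
  have h32 : ((1 / 2 : ℝ)) ^ (32 * (n + 1)) = (1 / 2) ^ (2 * (n + 1)) * (1 / 2) ^ (30 * (n + 1)) := by
    rw [← pow_add]
    congr 1
    ring
  have h30 : ((1 / 2 : ℝ)) ^ (30 * (n + 1)) ≤ (1 / 2) ^ n :=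
    pow_le_pow_of_le_one (by norm_num) (by norm_num) (by omega)
  set x := (2 : ℝ) ^ (-(c / 2) * n) with hx
  have hx0 : 0 < x := Real.rpow_pos_of_pos (by norm_num) _
  set z := ((1 / 2 : ℝ)) ^ n with hz
  have hz0 : 0 < z := by rw [hz]; positivity
  have hcn : (2 : ℝ) ^ (-(c * n)) = x * x := by
    rw [hx, ← Real.rpow_add (by norm_num)]
    congr 1
    ring
  have hx1 : x ≤ 1 := by
    rw [hx]
    refine Real.rpow_le_one_of_one_le_of_nonpos (by norm_num) ?_
    have : (0 : ℝ) ≤ n := Nat.cast_nonneg _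
    nlinarith
  rcases le_or_gt 1 t with h | h
  · -- `t ≥ 1`
    have hmax : max 1 (1 / t) = 1 := max_eq_left (by rw [div_le_one ht]; exact h)
    have hmin : min (t ^ η) (t ^ (-η)) = t ^ (-η) := by
      refine min_eq_right ?_
      exact Real.rpow_le_rpow_of_exponent_le h (by linarith)
    rw [hmax, hmin, mul_one]
    have hmm : (0 : ℝ) < t ^ (-η) := Real.rpow_pos_of_pos ht _
    -- first term
    have a1 : t ^ η * (2 : ℝ) ^ (-(c * n)) ≤ t ^ (-η) * ((2 : ℝ) ^ (c / 2) * x) := by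
      have b1 : t ^ η = t ^ (-η) * t ^ (2 * η) := by
        rw [← Real.rpow_add ht]; congr 1; ring
      have b2 : t ^ (2 * η) ≤ (2 : ℝ) ^ ((c / 2) * (n + 1)) := by
        have b3 : t ^ (2 * η) = (t ^ A) ^ (2 * η / A) := by
          rw [← Real.rpow_mul ht.le]
          congr 1
          field_simp
        rw [b3]
        calc (t ^ A) ^ (2 * η / A) ≤ ((2 : ℝ) ^ (n + 1)) ^ (2 * η / A) :=
              Real.rpow_le_rpow (Real.rpow_nonneg ht.le _) h1 (by positivity)
          _ = (2 : ℝ) ^ ((n + 1) * (2 * η / A)) := by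
              rw [← Real.rpow_natCast, ← Real.rpow_mul (by norm_num)]
              push_cast
              rfl
          _ ≤ _ := by
              refine Real.rpow_le_rpow_of_exponent_le (by norm_num) ?_
              have b4 : 2 * η / A ≤ c / 2 := by
                rw [div_le_iff₀ (by linarith)]
                linarith
              nlinarith
      have b5 : (2 : ℝ) ^ ((c / 2) * (n + 1)) * x = (2 : ℝ) ^ (c / 2) := by
        rw [hx, ← Real.rpow_add (by norm_num)]
        congr 1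
        ring
      rw [b1, hcn]
      calc t ^ (-η) * t ^ (2 * η) * (x * x) ≤
            t ^ (-η) * (2 : ℝ) ^ ((c / 2) * (n + 1)) * (x * x) := by
            refine mul_le_mul_of_nonneg_right (mul_le_mul_of_nonneg_left b2 hmm.le) (by positivity)
        _ = t ^ (-η) * (((2 : ℝ) ^ ((c / 2) * (n + 1)) * x) * x) := by ring
        _ = _ := by rw [b5]
    -- second term
    have a2 : Real.sqrt t * Real.exp (-(32 * (2 : ℝ) ^ n)) ≤ t ^ (-η) * z := by
      have b1 : Real.sqrt t = t ^ (-η) * t ^ (1 / 2 + η) := by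
        rw [Real.sqrt_eq_rpow, ← Real.rpow_add ht]; congr 1; ring
      have b2 : t ^ (1 / 2 + η) ≤ (2 : ℝ) ^ (2 * (n + 1)) := by
        calc t ^ (1 / 2 + η) ≤ t ^ (A * 2) :=
              Real.rpow_le_rpow_of_exponent_le h (by linarith)
          _ = (t ^ A) ^ (2 : ℝ) := Real.rpow_mul ht.le _ _
          _ ≤ ((2 : ℝ) ^ (n + 1)) ^ (2 : ℝ) :=
              Real.rpow_le_rpow (Real.rpow_nonneg ht.le _) h1 (by norm_num)
          _ = _ := by
              rw [show (2 : ℝ) = ((2 : ℕ) : ℝ) by norm_num, Real.rpow_natCast, ← pow_mul]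
              congr 1
              ring
      have b3 : (2 : ℝ) ^ (2 * (n + 1)) * (1 / 2) ^ (2 * (n + 1)) = 1 := by
        rw [← mul_pow]; norm_num
      rw [b1]
      calc t ^ (-η) * t ^ (1 / 2 + η) * Real.exp (-(32 * (2 : ℝ) ^ n))
          ≤ t ^ (-η) * (2 : ℝ) ^ (2 * (n + 1)) *
            ((1 / 2) ^ (2 * (n + 1)) * (1 / 2) ^ (30 * (n + 1))) := by
            rw [← h32]
            exact mul_le_mul (mul_le_mul_of_nonneg_left b2 hmm.le) he (Real.exp_pos _).le
              (by positivity)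
        _ = t ^ (-η) * (((2 : ℝ) ^ (2 * (n + 1)) * (1 / 2) ^ (2 * (n + 1))) *
            (1 / 2) ^ (30 * (n + 1))) := by ring
        _ ≤ _ := by
            rw [b3, one_mul]
            exact mul_le_mul_of_nonneg_left h30 hmm.le
    have a3 : ((n : ℝ) + 1) * (t ^ (-η) * ((2 : ℝ) ^ (c / 2) * x) + t ^ (-η) * z) ≤
        t ^ (-η) * an c n := by
      unfold an
      have b1 : (n : ℝ) + 1 ≤ ((n : ℝ) + 1) ^ 17 := by
        calc (n : ℝ) + 1 = ((n : ℝ) + 1) ^ 1 := (pow_one _).symm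
          _ ≤ _ := hpow (by norm_num)
      have b2 : (2 : ℝ) ^ (c / 2) * x + z ≤ (2 : ℝ) ^ (c / 2) * (x + z) := by nlinarith
      calc ((n : ℝ) + 1) * (t ^ (-η) * ((2 : ℝ) ^ (c / 2) * x) + t ^ (-η) * z) =
            t ^ (-η) * (((n : ℝ) + 1) * ((2 : ℝ) ^ (c / 2) * x + z)) := by ring
        _ ≤ t ^ (-η) * (((n : ℝ) + 1) ^ 17 * ((2 : ℝ) ^ (c / 2) * (x + z))) := by
            refine mul_le_mul_of_nonneg_left ?_ hmm.le
            exact mul_le_mul b1 b2 (by positivity) (by positivity)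
        _ = t ^ (-η) * ((2 : ℝ) ^ (c / 2) * (((n : ℝ) + 1) ^ 17 * (x + z))) := by ring
        _ ≤ _ := by
            refine mul_le_mul_of_nonneg_left ?_ hmm.le
            rw [← hx]
            have : 0 ≤ (2 : ℝ) ^ (c / 2) * (((n : ℝ) + 1) ^ 17 * (x + z)) := by positivity
            nlinarith
    refine le_trans ?_ a3
    exact mul_le_mul_of_nonneg_left (add_le_add a1 a2) (by linarith)
  · -- `t < 1`
    have hmax : max 1 (1 / t) = 1 / t := max_eq_right (by rw [le_div_iff₀ ht]; linarith)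
    have hmin : min (t ^ η) (t ^ (-η)) = t ^ η := by
      refine min_eq_left ?_
      exact Real.rpow_le_rpow_of_exponent_ge ht h.le (by linarith)
    rw [hmax, hmin]
    have hmm : (0 : ℝ) < t ^ η := Real.rpow_pos_of_pos ht _
    set v := (max 1 (1 / (2 * t))) ^ (1 / 8 : ℝ) with hv
    have hm1 : (1 : ℝ) ≤ max 1 (1 / (2 * t)) := le_max_left _ _
    have hv0 : 0 ≤ v := Real.rpow_nonneg (by linarith) _
    have hv8 : v ^ 8 = max 1 (1 / (2 * t)) := by
      rw [hv, ← Real.rpow_natCast, ← Real.rpow_mul (by linarith)]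
      norm_num
    have hvn : v ≤ n + 1 := by
      have b1 : v ≤ Real.log ((2 : ℝ) ^ (n + 1)) := by
        rw [Real.le_log_iff_exp_le (by positivity)]
        exact h2
      rw [Real.log_pow] at b1
      have b2 : Real.log 2 ≤ 1 := by
        have := Real.log_two_lt_d9
        linarith
      push_cast at b1
      nlinarith
    have h1t : 1 / t ≤ 2 * ((n : ℝ) + 1) ^ 8 := by
      have b1 : 1 / (2 * t) ≤ ((n : ℝ) + 1) ^ 8 := by
        calc 1 / (2 * t) ≤ max 1 (1 / (2 * t)) := le_max_right _ _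
          _ = v ^ 8 := hv8.symm
          _ ≤ _ := pow_le_pow_left₀ hv0 hvn 8
      have b2 : 1 / t = 2 * (1 / (2 * t)) := by field_simp
      rw [b2]
      linarith
    have h1t0 : 0 < 1 / t := by positivity
    -- first
    have a1 : 1 / t * (t ^ η * (2 : ℝ) ^ (-(c * n))) ≤ t ^ η * (2 * ((n : ℝ) + 1) ^ 8 * x) := by
      rw [hcn]
      have b1 : x * x ≤ x := by nlinarith
      calc 1 / t * (t ^ η * (x * x)) = t ^ η * ((1 / t) * (x * x)) := by ring
        _ ≤ t ^ η * ((2 * ((n : ℝ) + 1) ^ 8) * x) := by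
            refine mul_le_mul_of_nonneg_left ?_ hmm.le
            exact mul_le_mul h1t b1 (by positivity) (by positivity)
    -- second
    have a2 : 1 / t * (Real.sqrt t * Real.exp (-(32 * (2 : ℝ) ^ n))) ≤
        t ^ η * (4 * ((n : ℝ) + 1) ^ 16 * z) := by
      have hst : Real.sqrt t ≤ 1 := by
        have h7 := Real.sqrt_le_sqrt h.le
        rwa [Real.sqrt_one] at h7
      have b1 : (1 : ℝ) ≤ t ^ η * (1 / t) := by
        have b2 : t ^ (1 : ℝ) ≤ t ^ η := Real.rpow_le_rpow_of_exponent_ge ht h.le hη1.le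
        rw [Real.rpow_one] at b2
        rw [mul_one_div, le_div_iff₀ ht]
        linarith
      have b3 : Real.exp (-(32 * (2 : ℝ) ^ n)) ≤ z := by
        refine he.trans ?_
        rw [hz]
        exact pow_le_pow_of_le_one (by norm_num) (by norm_num) (by omega)
      calc 1 / t * (Real.sqrt t * Real.exp (-(32 * (2 : ℝ) ^ n)))
          ≤ 1 / t * (1 * z) := by
            refine mul_le_mul_of_nonneg_left ?_ h1t0.le
            exact mul_le_mul hst b3 (Real.exp_pos _).le (by norm_num)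
        _ = (1 / t) * z * 1 := by ring
        _ ≤ (1 / t) * z * (t ^ η * (1 / t)) :=
            mul_le_mul_of_nonneg_left b1 (by positivity)
        _ = t ^ η * ((1 / t) * (1 / t) * z) := by ring
        _ ≤ t ^ η * ((2 * ((n : ℝ) + 1) ^ 8) * (2 * ((n : ℝ) + 1) ^ 8) * z) := by
            refine mul_le_mul_of_nonneg_left (mul_le_mul_of_nonneg_right ?_ hz0.le) hmm.le
            exact mul_le_mul h1t h1t h1t0.le (by positivity)
        _ = _ := by ring
    calc ((n : ℝ) + 1) * (1 / t) * (t ^ η * (2 : ℝ) ^ (-(c * n)) +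
          Real.sqrt t * Real.exp (-(32 * (2 : ℝ) ^ n)))
        = ((n : ℝ) + 1) * (1 / t * (t ^ η * (2 : ℝ) ^ (-(c * n))) +
          1 / t * (Real.sqrt t * Real.exp (-(32 * (2 : ℝ) ^ n)))) := by ring
      _ ≤ ((n : ℝ) + 1) * (t ^ η * (2 * ((n : ℝ) + 1) ^ 8 * x) +
          t ^ η * (4 * ((n : ℝ) + 1) ^ 16 * z)) :=
          mul_le_mul_of_nonneg_left (add_le_add a1 a2) (by linarith)
      _ = t ^ η * (2 * ((n : ℝ) + 1) ^ 9 * x + 4 * ((n : ℝ) + 1) ^ 17 * z) := by ring
      _ ≤ t ^ η * (8 * ((n : ℝ) + 1) ^ 17 * (x + z)) := by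
          refine mul_le_mul_of_nonneg_left ?_ hmm.le
          have b1 : ((n : ℝ) + 1) ^ 9 ≤ ((n : ℝ) + 1) ^ 17 := hpow (by norm_num)
          have b2 : 0 < ((n : ℝ) + 1) ^ 17 := by positivity
          nlinarith [mul_le_mul_of_nonneg_right b1 hx0.le, mul_pos b2 hx0, mul_pos b2 hz0]
      _ ≤ _ := by
          refine mul_le_mul_of_nonneg_left ?_ hmm.le
          unfold an
          rw [← hx, ← hz]
          have b2 : 0 ≤ 8 * (((n : ℝ) + 1) ^ 17 * (x + z)) := by positivity
          calc 8 * ((n : ℝ) + 1) ^ 17 * (x + z) = 1 * (8 * (((n : ℝ) + 1) ^ 17 * (x + z))) := by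
                ring
            _ ≤ (2 : ℝ) ^ (c / 2) * (8 * (((n : ℝ) + 1) ^ 17 * (x + z))) :=
                mul_le_mul_of_nonneg_right hc2 b2
            _ = _ := by ring

/-- two-sided geometric sum over the scales `2^j / L` -/
lemma sum_scales {η L : ℝ} (hη : 0 < η) (hL : 0 < L) (s : Finset ℕ) :
    ∑ j ∈ s, min (((2 : ℝ) ^ j / L) ^ η) (((2 : ℝ) ^ j / L) ^ (-η)) ≤
      2 * Crest.Agent.R4C.Dyadx281.gC η := by
  have h := Crest.Agent.R4C.Dyadx281.sum_min_le_nat (a := L ^ (-η)) (b := L ^ η) (α := η) (β := η)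
    (Real.rpow_nonneg hL.le _) (Real.rpow_nonneg hL.le _) hη hη s
    (fun j => min (((2 : ℝ) ^ j / L) ^ η) (((2 : ℝ) ^ j / L) ^ (-η)))
    (fun k _ => by
      refine (min_le_left _ _).trans (le_of_eq ?_)
      rw [Real.div_rpow (by positivity) hL.le, ← Real.rpow_natCast, ← Real.rpow_mul (by norm_num),
        Real.rpow_neg hL.le, div_eq_mul_inv, mul_comm, mul_comm η])
    (fun k _ => by
      refine (min_le_right _ _).trans (le_of_eq ?_)
      rw [Real.div_rpow (by positivity) hL.le, ← Real.rpow_natCast, ← Real.rpow_mul (by norm_num),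
        Real.rpow_neg hL.le, div_eq_mul_inv, inv_inv, mul_comm, mul_neg, mul_comm η])
  refine h.trans (le_of_eq ?_)
  have e1 : η / (η + η) = 1 / 2 := by field_simp; norm_num
  rw [e1, ← Real.rpow_mul hL.le, ← Real.rpow_mul hL.le, ← Real.rpow_add hL]
  have e2 : -η * (1 / 2) + η * (1 / 2) = 0 := by ring
  rw [e2, Real.rpow_zero]
  ring

/-! ### the class of the bad pairs -/

/-- the bound `max ((g/L)^A) (exp (max(1, L/g)^(1/8)))` -/
noncomputable def XB (A L : ℝ) (g : ℕ) : ℝ := max (((g : ℝ) / L) ^ A) (XX L g)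

lemma XX_le_XB (A L : ℝ) (g : ℕ) : XX L g ≤ XB A L g := le_max_right _ _

lemma XB_gt (A L : ℝ) (g : ℕ) : 2 < XB A L g := lt_of_lt_of_le (XX_gt L g) (XX_le_XB A L g)

open Classical in
/-- energy of the unkilled offsets without same point above `rb` (without the factor `L`) -/
noncomputable def EnBad {M : ℕ} (F : FL M) (P : Par) (b c : ℕ) : ℝ :=
  (Nat.gcd b c : ℝ) * nu M b * nu M c *
    ∑ h ∈ (Lnk P.γ P.L b c).filter (fun h => ¬ killedB (lamR F P) b c h ∧
      ¬ SameAt F P b c (rb F b c : ℝ) h), boostB M (lamR F P) b c h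

lemma geom_sum32 (N : ℕ) (n : ℕ) : ∑ k ∈ range N, Real.exp (2 * ((k : ℝ) + 2)) *
    Real.exp (-(32 * ((2 : ℝ) ^ k * 2 ^ n))) ≤ 2 * Real.exp 4 * Real.exp (-(32 * (2 : ℝ) ^ n)) := by
  have h1 : ∀ k ∈ range N, Real.exp (2 * ((k : ℝ) + 2)) *
      Real.exp (-(32 * ((2 : ℝ) ^ k * 2 ^ n))) ≤
      Real.exp 4 * Real.exp (-(32 * (2 : ℝ) ^ n)) * (1 / 2) ^ k := by
    intro k _
    have h2 : (k : ℝ) + 1 ≤ 2 ^ k := by
      have : k + 1 ≤ 2 ^ k := Nat.lt_two_pow_self
      exact_mod_cast this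
    have h3 : (1 : ℝ) ≤ 2 ^ n := one_le_pow₀ (by norm_num)
    have hk0 : (0 : ℝ) ≤ k := Nat.cast_nonneg _
    have h4 : (2 : ℝ) ^ n + k ≤ 2 ^ k * 2 ^ n := by nlinarith
    have h5 : Real.exp (-30 * (k : ℝ)) ≤ (1 / 2) ^ k := by
      have e : Real.exp (-30 * (k : ℝ)) = (Real.exp (-30)) ^ k := by
        rw [← Real.exp_nat_mul]; ring_nf
      rw [e]
      refine pow_le_pow_left₀ (Real.exp_pos _).le ?_ _
      have : Real.exp (-30) ≤ Real.exp (-1) := Real.exp_le_exp.2 (by norm_num)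
      have h6 : Real.exp (-1) ≤ 1 / 2 := by
        rw [Real.exp_neg, one_div]
        exact inv_anti₀ (by norm_num) (by have := Real.add_one_le_exp 1; linarith)
      linarith
    calc Real.exp (2 * ((k : ℝ) + 2)) * Real.exp (-(32 * ((2 : ℝ) ^ k * 2 ^ n)))
        ≤ Real.exp 4 * Real.exp (-(32 * (2 : ℝ) ^ n)) * Real.exp (-30 * (k : ℝ)) := by
          rw [← Real.exp_add, ← Real.exp_add, ← Real.exp_add, Real.exp_le_exp]
          linarith
      _ ≤ _ := mul_le_mul_of_nonneg_left h5 (by positivity)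
  refine (sum_le_sum h1).trans ?_
  rw [← mul_sum]
  have h2 := geom_half N
  have h3 : 0 < Real.exp 4 * Real.exp (-(32 * (2 : ℝ) ^ n)) := by positivity
  nlinarith

open Classical in
set_option maxHeartbeats 1000000 in
/-- **BAD PAIRS, with boost, all scales** -/
theorem bad_all {η c Cb A : ℝ} (hη : 0 < η) (hη1 : η < 1) (hc : 0 < c) (hCb : 0 ≤ Cb)
    (hA : 1 ≤ A) (hAc : 4 * η ≤ A * c) : ∃ C : ℝ, 0 < C ∧ ∀ (M : ℕ) (F : FL M) (P : Par)
    (B : Finset ℕ), (∀ i, P.Y i = 2 ^ i) →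
    (∀ b i, P.thr b i ≤ Real.exp ((P.Y (i - 1) : ℝ) ^ (4 / 5 : ℝ))) → 0 < P.L → 0 < M →
    B ⊆ M.divisors → P.L * ∑ b ∈ B, nu M b ≤ 1 →
    (∀ (t : ℝ) (x : ℕ), 0 < t → badEn F B P.L t x ≤
      Cb * t ^ η * ((x : ℝ) + 1) ^ (-c) * (P.L * ∑ b ∈ B, nu M b) ^ (1 + η)) →
    P.L * ∑ b ∈ B, ∑ c ∈ (B.erase b).filter (fun c => XB A P.L (Nat.gcd b c) < rb F b c),
      EnBad F P b c ≤ C * (P.L * ∑ b ∈ B, nu M b) := by
  obtain ⟨C2, hC2, H2⟩ := energy_ky (κ := 3 / 4) (by norm_num) (by norm_num)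
  obtain ⟨y1, hy1, H3⟩ := H2 32 1 (by norm_num) one_pos
  obtain ⟨lY, hlY⟩ := pow_unbounded_of_one_lt y1 (show (1 : ℝ) < 2 by norm_num)
  have hsum := summable_an hc
  set Sa := ∑' n, an c n with hSa
  have hSa0 : 0 ≤ Sa := tsum_nonneg fun n => an_nonneg c n
  set K0 : ℝ := 3 * KB * Real.exp 13 * Real.exp (2 * lY) with hK0
  have hK00 : 0 < K0 := by
    have := one_le_KB
    rw [hK0]
    positivity
  set C3 : ℝ := K0 * (Real.exp 2 * Cb + 2 * Real.exp 4 * C2) with hC3
  have hC30 : 0 < C3 := by positivity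
  have hgC := Crest.Agent.R4C.Dyadx281.gC_pos hη
  refine ⟨C3 * (2 * Crest.Agent.R4C.Dyadx281.gC η * Sa) + 1, by positivity, ?_⟩
  intro M F P B hY hthr hL hM hB hm hbad
  set L := P.L with hLdef
  set S := ∑ b ∈ B, nu M b with hS
  have hS0 : 0 ≤ S := sum_nonneg fun b _ => nu_nonneg M b
  have hm0 : 0 ≤ L * S := mul_nonneg hL.le hS0
  set f : ℕ → ℝ := fun b => if b ∈ B then 1 else 0 with hf
  have hf0 : ∀ x, 0 ≤ f x := fun x => by rw [hf]; dsimp only; split_ifs <;> norm_num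
  have hf1 : ∀ x, f x ≤ 1 := fun x => by rw [hf]; dsimp only; split_ifs <;> norm_num
  have hfS : ∑ b ∈ M.divisors, nu M b * f b = S := by
    rw [hS, ← sum_subset hB (f := fun b => nu M b * f b)]
    · refine sum_congr rfl fun b hb => ?_
      rw [hf]; dsimp only
      rw [if_pos hb, mul_one]
    · intro b _ hb
      rw [hf]; dsimp only
      rw [if_neg hb, mul_zero]
  -- scales
  set t : ℕ → ℝ := fun j => (2 : ℝ) ^ j / L with ht
  have ht0 : ∀ j, 0 < t j := fun j => by rw [ht]; positivity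
  have htL : ∀ j, t j * L = (2 : ℝ) ^ j := fun j => by rw [ht]; field_simp
  set X : ℕ → ℝ := fun j => (2 : ℝ) ^ j - 1 / 2 with hX
  have hX0 : ∀ j, 0 < X j := fun j => by
    have : (1 : ℝ) ≤ 2 ^ j := one_le_pow₀ (by norm_num)
    rw [hX]; dsimp only; linarith
  -- the pieces
  set U : ℕ → ℕ → ℕ → ℕ → ℝ := fun j n b c =>
    (if t j * L ≤ (Nat.gcd b c : ℝ) ∧ (Nat.gcd b c : ℝ) < 2 * t j * L ∧ ¬ F.good (2 ^ n) b c then
      (Nat.gcd b c : ℝ) * nu M b * nu M c else 0) with hU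
  set V : ℕ → ℕ → ℕ → ℕ → ℕ → ℝ := fun j n k b c =>
    (if X j < (Nat.gcd b c : ℝ) ∧ (Nat.gcd b c : ℝ) ≤ 2 * X j then
      (Nat.gcd b c : ℝ) * nu M b * nu M c *
        (f b * f c * KY ((2 ^ k * 2 ^ (n + lY) : ℕ) : ℝ) 1 b c) else 0) with hV
  have hU0 : ∀ j n b c, 0 ≤ U j n b c := by
    intro j n b c
    rw [hU]; dsimp only
    have := nu_nonneg M b
    have := nu_nonneg M c
    split_ifs
    · positivity
    · exact le_rfl
  have hV0 : ∀ j n k b c, 0 ≤ V j n k b c := by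
    intro j n k b c
    rw [hV]; dsimp only
    split_ifs
    · have := nu_nonneg M b
      have := nu_nonneg M c
      have := hf0 b
      have := hf0 c
      have := KY_nonneg ((2 ^ k * 2 ^ (n + lY) : ℕ) : ℝ) 1 b c
      positivity
    · exact le_rfl
  -- admissible classes
  set adm : Finset (ℕ × ℕ) := (range (M + 1) ×ˢ range (M + 1)).filter fun q =>
    (t q.1) ^ A ≤ 2 ^ (q.2 + 1) ∧
      Real.exp ((max 1 (1 / (2 * t q.1))) ^ (1 / 8 : ℝ)) ≤ 2 ^ (q.2 + 1) with hadm
  set G : ℕ × ℕ → ℕ → ℕ → ℝ := fun q b c => K0 * ((q.2 : ℝ) + 1) * max 1 (1 / t q.1) *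
    (Real.exp 2 * U q.1 q.2 b c + ∑ k ∈ range M, Real.exp (2 * ((k : ℝ) + 2)) * V q.1 q.2 k b c)
    with hG
  have hG0 : ∀ q b c, 0 ≤ G q b c := by
    intro q b c
    rw [hG]; dsimp only
    have h1 : 0 ≤ max 1 (1 / t q.1) := zero_le_one.trans (le_max_left _ _)
    have h2 := hU0 q.1 q.2 b c
    have h3 : 0 ≤ ∑ k ∈ range M, Real.exp (2 * ((k : ℝ) + 2)) * V q.1 q.2 k b c :=
      sum_nonneg fun k _ => mul_nonneg (Real.exp_pos _).le (hV0 _ _ _ _ _)
    positivity
  -- pointwise bound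
  have hpt : ∀ b ∈ B, ∀ c ∈ (B.erase b).filter (fun c => XB A L (Nat.gcd b c) < rb F b c),
      EnBad F P b c ≤ ∑ q ∈ adm, G q b c := by
    intro b hb c hc'
    rw [mem_filter, mem_erase] at hc'
    obtain ⟨⟨hcb, hcB⟩, hXr⟩ := hc'
    have hbM := Nat.dvd_of_mem_divisors (hB hb)
    have hcM := Nat.dvd_of_mem_divisors (hB hcB)
    have hb0 : 0 < b := Nat.pos_of_dvd_of_pos hbM hM
    have hc0 : 0 < c := Nat.pos_of_dvd_of_pos hcM hM
    set g := Nat.gcd b c with hg
    have hg0 : 0 < g := Nat.gcd_pos_of_pos_left c hb0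
    have hgR : (0 : ℝ) < g := by exact_mod_cast hg0
    set R := rb F b c with hR
    have hRM : R ≤ M := rb_le (good_top hM hbM hcM)
    have hR2 : 2 < R := by
      have h1 := (XB_gt A L g).trans hXr
      exact_mod_cast h1
    set j := Nat.log 2 g with hj
    set n := Nat.log 2 (R - 1) with hn
    have hj1 : 2 ^ j ≤ g := Nat.pow_log_le_self 2 hg0.ne'
    have hj2 : g < 2 ^ (j + 1) := Nat.lt_pow_succ_log_self (by norm_num) g
    have hn1 : 2 ^ n ≤ R - 1 := Nat.pow_log_le_self 2 (by omega)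
    have hn2 : R - 1 < 2 ^ (n + 1) := Nat.lt_pow_succ_log_self (by norm_num) _
    have hn3 : R ≤ 2 ^ (n + 1) := by omega
    have hgM : g ≤ M := Nat.le_of_dvd hM ((Nat.gcd_dvd_left b c).trans hbM)
    have hjM : j < M + 1 := by
      have h1 : j < 2 ^ j := Nat.lt_two_pow_self
      omega
    have hnM : n < M + 1 := by
      have h1 : n < 2 ^ n := Nat.lt_two_pow_self
      omega
    have hj1r : (2 : ℝ) ^ j ≤ g := by exact_mod_cast hj1
    have hj2r : (g : ℝ) < 2 ^ (j + 1) := by exact_mod_cast hj2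
    have hn3r : (R : ℝ) ≤ 2 ^ (n + 1) := by exact_mod_cast hn3
    have htg : t j ≤ g / L := by
      rw [ht]; dsimp only
      exact div_le_div_of_nonneg_right hj1r hL.le
    have htg2 : g / L ≤ 2 * t j := by
      rw [ht]; dsimp only
      rw [← mul_div_assoc]
      refine div_le_div_of_nonneg_right ?_ hL.le
      rw [pow_succ] at hj2r
      linarith
    -- admissible
    have hadmm : (j, n) ∈ adm := by
      rw [hadm, mem_filter, mem_product, mem_range, mem_range]
      refine ⟨⟨hjM, hnM⟩, ?_, ?_⟩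
      · dsimp only
        calc (t j) ^ A ≤ (g / L) ^ A := Real.rpow_le_rpow (ht0 j).le htg (by linarith)
          _ ≤ XB A L g := le_max_left _ _
          _ ≤ R := hXr.le
          _ ≤ _ := hn3r
      · dsimp only
        have h1 : 1 / (2 * t j) ≤ L / g := by
          rw [div_le_div_iff₀ (by have := ht0 j; positivity) hgR, one_mul]
          have h2 := mul_le_mul_of_nonneg_left htg2 hL.le
          have h3 : L * (g / L) = g := by field_simp
          linarith
        calc Real.exp ((max 1 (1 / (2 * t j))) ^ (1 / 8 : ℝ)) ≤ XX L g := by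
              unfold XX
              refine Real.exp_le_exp.2 (Real.rpow_le_rpow ?_ ?_ (by norm_num))
              · exact zero_le_one.trans (le_max_left _ _)
              · exact max_le_max le_rfl h1
          _ ≤ XB A L g := XX_le_XB _ _ _
          _ ≤ R := hXr.le
          _ ≤ _ := hn3r
    refine le_trans ?_ (single_le_sum (f := fun q => G q b c) (fun q _ => hG0 q b c) hadmm)
    -- the boost
    have hXXR : XX P.L (Nat.gcd b c) ≤ R := (XX_le_XB A _ _).trans hXr.le
    have hgoodR : F.good R b c := good_rb hM hbM hcM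
    have hlogR : Real.log R ≤ (n : ℝ) + 1 := by
      have h1 : Real.log R ≤ Real.log ((2 : ℝ) ^ (n + 1)) :=
        Real.log_le_log (by have : (2 : ℝ) < R := by exact_mod_cast hR2
                            linarith) hn3r
      rw [Real.log_pow] at h1
      have h2 : Real.log 2 ≤ 1 := by
        have := Real.log_two_lt_d9
        linarith
      push_cast at h1
      have h3 : (0 : ℝ) ≤ n := Nat.cast_nonneg _
      nlinarith
    have hlogR0 : 0 ≤ Real.log R := Real.log_nonneg (by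
      have : (2 : ℝ) < R := by exact_mod_cast hR2
      linarith)
    have hiy : iy R (cof b c) ≤ iy ((2 ^ (n + lY) : ℕ) : ℝ) (cof b c) + lY := by
      have h1 : iy R (cof b c) ≤ iy ((2 ^ n : ℕ) : ℝ) (cof b c) := by
        unfold iy
        refine sum_le_sum_of_subset_of_nonneg ?_ fun p _ _ => by positivity
        intro p hp
        rw [mem_filter] at hp ⊢
        refine ⟨hp.1, lt_of_le_of_lt ?_ hp.2⟩
        have : 2 ^ n ≤ R := by omega
        exact_mod_cast this
      have h2 := iy_blocks (y := 2 ^ n) (by positivity) (cof b c) lY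
      have e : 2 ^ lY * 2 ^ n = 2 ^ (n + lY) := by rw [← pow_add]; congr 1; omega
      rw [e] at h2
      linarith
    have hlev := level (y := 2 ^ (n + lY)) (by positivity) (cof b c) M (by
      have hbig : M ≤ 2 ^ M * 2 ^ (n + lY) := by
        have h3 : M < 2 ^ M := Nat.lt_two_pow_self
        have h4 : 2 ^ M * 1 ≤ 2 ^ M * 2 ^ (n + lY) := Nat.mul_le_mul_left _ Nat.one_le_two_pow
        omega
      rw [iy_zero_of_large (M := M) (fun p hp => ?_) hbig]
      · norm_num
      · rw [mem_cof hb0.ne' hc0.ne'] at hp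
        have hpM : p ∈ M.primeFactors := by
          rw [← Nat.support_factorization, Finsupp.mem_support_iff]
          have a1 := (Nat.factorization_le_iff_dvd hb0.ne' hM.ne').2 hbM p
          have a2 := (Nat.factorization_le_iff_dvd hc0.ne' hM.ne').2 hcM p
          omega
        exact Nat.le_of_dvd hM (Nat.dvd_of_mem_primeFactors hpM))
    set Lev := Real.exp 2 + ∑ k ∈ range M, Real.exp (2 * ((k : ℝ) + 2)) *
      (if 1 ≤ iy ((2 ^ k * 2 ^ (n + lY) : ℕ) : ℝ) (cof b c) then (1 : ℝ) else 0) with hLev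
    have hLev0 : 0 ≤ Lev := (Real.exp_pos _).le.trans hlev
    have hexp : Real.exp (2 * iy R (cof b c)) ≤ Real.exp (2 * lY) * Lev := by
      calc Real.exp (2 * iy R (cof b c)) ≤
            Real.exp (2 * lY) * Real.exp (2 * iy ((2 ^ (n + lY) : ℕ) : ℝ) (cof b c)) := by
            rw [← Real.exp_add, Real.exp_le_exp]
            linarith
        _ ≤ _ := mul_le_mul_of_nonneg_left hlev (Real.exp_pos _).le
    have hKB := one_le_KB
    have hmx : (1 : ℝ) ≤ max 1 (1 / t j) := le_max_left _ _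
    have hcard : ((Lnk P.γ P.L b c).card : ℝ) ≤ 3 * max 1 (1 / t j) := by
      refine (card_Lnk_le hL hb0).trans ?_
      refine mul_le_mul_of_nonneg_left (max_le_max le_rfl ?_) (by norm_num)
      rw [← hg, div_le_div_iff₀ hgR (ht0 j), one_mul]
      have h2 := mul_le_mul_of_nonneg_left htg hL.le
      have h3 : L * (g / L) = g := by field_simp
      linarith
    have hsumh : ∑ h ∈ (Lnk P.γ P.L b c).filter (fun h => ¬ killedB (lamR F P) b c h ∧
        ¬ SameAt F P b c (rb F b c : ℝ) h), boostB M (lamR F P) b c h ≤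
        3 * max 1 (1 / t j) * (KB * (Real.exp 13 * ((n : ℝ) + 1)) * (Real.exp (2 * lY) * Lev)) := by
      have h1 : ∀ h ∈ (Lnk P.γ P.L b c).filter (fun h => ¬ killedB (lamR F P) b c h ∧
          ¬ SameAt F P b c (rb F b c : ℝ) h), boostB M (lamR F P) b c h ≤
          KB * (Real.exp 13 * ((n : ℝ) + 1)) * (Real.exp (2 * lY) * Lev) := by
        intro h hh
        rw [mem_filter] at hh
        refine (boost_R hY hthr hL hM hbM hcM hh.1 hh.2.1 hgoodR hXXR hh.2.2).trans ?_
        refine mul_le_mul ?_ hexp (Real.exp_pos _).le (by positivity)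
        refine mul_le_mul_of_nonneg_left ?_ (by linarith)
        exact mul_le_mul_of_nonneg_left hlogR (Real.exp_pos _).le
      refine (sum_le_card_nsmul _ _ _ h1).trans ?_
      rw [nsmul_eq_mul]
      refine mul_le_mul_of_nonneg_right ?_ (by positivity)
      refine le_trans ?_ hcard
      exact_mod_cast card_filter_le _ _
    have hn1' := nu_nonneg M b
    have hn2' := nu_nonneg M c
    have hgn : 0 ≤ (g : ℝ) * nu M b * nu M c := by positivity
    unfold EnBad
    rw [← hg]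
    refine (mul_le_mul_of_nonneg_left hsumh hgn).trans ?_
    -- compare
    rw [hG]; dsimp only
    have eU : U j n b c = (g : ℝ) * nu M b * nu M c := by
      rw [hU]; dsimp only
      rw [← hg, if_pos]
      refine ⟨by rw [htL]; exact hj1r, by rw [mul_assoc, htL]; rw [pow_succ] at hj2r; linarith,
        not_good_of_lt (by omega)⟩
    have eV : ∀ k, V j n k b c = (g : ℝ) * nu M b * nu M c *
        (if 1 ≤ iy ((2 ^ k * 2 ^ (n + lY) : ℕ) : ℝ) (cof b c) then (1 : ℝ) else 0) := by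
      intro k
      rw [hV]; dsimp only
      rw [← hg, if_pos, hf]
      · dsimp only
        rw [if_pos hb, if_pos hcB, one_mul, one_mul]
        rfl
      · rw [hX]; dsimp only
        refine ⟨by linarith, ?_⟩
        have h1 : g + 1 ≤ 2 ^ (j + 1) := hj2
        have h2 : (g : ℝ) + 1 ≤ 2 ^ (j + 1) := by exact_mod_cast h1
        rw [pow_succ] at h2
        linarith
    rw [eU]
    simp only [eV]
    rw [hLev, hK0]
    refine le_of_eq ?_
    have e3 : ∑ k ∈ range M, Real.exp (2 * ((k : ℝ) + 2)) * ((g : ℝ) * nu M b * nu M c *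
        (if 1 ≤ iy ((2 ^ k * 2 ^ (n + lY) : ℕ) : ℝ) (cof b c) then (1 : ℝ) else 0)) =
        ((g : ℝ) * nu M b * nu M c) * ∑ k ∈ range M, Real.exp (2 * ((k : ℝ) + 2)) *
        (if 1 ≤ iy ((2 ^ k * 2 ^ (n + lY) : ℕ) : ℝ) (cof b c) then (1 : ℝ) else 0) := by
      rw [mul_sum]
      exact sum_congr rfl fun k _ => by ring
    rw [e3]
    ring
  -- one class
  have hclass : ∀ q ∈ adm, L * ∑ b ∈ B, ∑ c ∈ B, G q b c ≤
      C3 * (L * S) * (min ((t q.1) ^ η) ((t q.1) ^ (-η)) * an c q.2) := by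
    intro q hq
    rw [hadm, mem_filter] at hq
    obtain ⟨_, hq1, hq2⟩ := hq
    set j := q.1 with hj
    set n := q.2 with hn
    -- U part
    have hUs : L * ∑ b ∈ B, ∑ c ∈ B, U j n b c ≤
        Cb * ((t j) ^ η * (2 : ℝ) ^ (-(c * n))) * (L * S) := by
      have h1 : L * ∑ b ∈ B, ∑ c ∈ B, U j n b c = badEn F B L (t j) (2 ^ n) := by
        unfold badEn
        rw [hU]
      rw [h1]
      refine (hbad (t j) (2 ^ n) (ht0 j)).trans ?_
      have h2 : (((2 ^ n : ℕ) : ℝ) + 1) ^ (-c) ≤ (2 : ℝ) ^ (-(c * n)) := by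
        calc (((2 ^ n : ℕ) : ℝ) + 1) ^ (-c) ≤ ((2 : ℝ) ^ n) ^ (-c) := by
              refine Real.rpow_le_rpow_of_nonpos (by positivity) ?_ (by linarith)
              push_cast
              linarith
          _ = _ := by
              rw [← Real.rpow_natCast, ← Real.rpow_mul (by norm_num)]
              congr 1
              ring
      have h3 : (L * S) ^ (1 + η) ≤ L * S := by
        rcases hm0.eq_or_lt with h0 | h0
        · rw [← h0, Real.zero_rpow (by linarith)]
        · calc (L * S) ^ (1 + η) ≤ (L * S) ^ (1 : ℝ) :=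
                Real.rpow_le_rpow_of_exponent_ge h0 hm (by linarith)
            _ = L * S := Real.rpow_one _
      have h4 : 0 ≤ (t j) ^ η := Real.rpow_nonneg (ht0 j).le _
      have h5 : 0 ≤ (((2 ^ n : ℕ) : ℝ) + 1) ^ (-c) := by positivity
      calc Cb * (t j) ^ η * (((2 ^ n : ℕ) : ℝ) + 1) ^ (-c) * (L * S) ^ (1 + η)
          ≤ Cb * (t j) ^ η * (2 : ℝ) ^ (-(c * n)) * (L * S) := by
            refine mul_le_mul (mul_le_mul_of_nonneg_left h2 (by positivity)) h3
              (Real.rpow_nonneg hm0 _) (by positivity)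
        _ = _ := by ring
    -- V part
    have hVs : ∀ k ∈ range M, L * ∑ b ∈ B, ∑ c ∈ B, V j n k b c ≤
        C2 * (L * S) * (Real.sqrt (t j) * Real.exp (-(32 * ((2 : ℝ) ^ k * 2 ^ n)))) := by
      intro k _
      have hyy : y1 ≤ ((2 ^ k * 2 ^ (n + lY) : ℕ) : ℝ) := by
        refine hlY.le.trans ?_
        have : 2 ^ lY ≤ 2 ^ k * 2 ^ (n + lY) := by
          rw [← pow_add]
          exact Nat.pow_le_pow_right (by norm_num) (by omega)
        exact_mod_cast this
      have h4 := H3 _ hyy M (X j) f f hM.ne' (hX0 j) hf0 hf1 hf0 hf1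
      rw [hfS] at h4
      have h5 : ∑ b ∈ B, ∑ c ∈ B, V j n k b c ≤ ∑ b ∈ M.divisors, ∑ c ∈ M.divisors, V j n k b c := by
        calc _ ≤ ∑ b ∈ B, ∑ c ∈ M.divisors, V j n k b c :=
              sum_le_sum fun b _ => sum_le_sum_of_subset_of_nonneg hB fun c _ _ => hV0 _ _ _ _ _
          _ ≤ _ := sum_le_sum_of_subset_of_nonneg hB fun b _ _ =>
              sum_nonneg fun c _ => hV0 _ _ _ _ _
      have h6 : ∑ b ∈ M.divisors, ∑ c ∈ M.divisors, V j n k b c ≤
          C2 * (X j) ^ (2 * (3 / 4 : ℝ) - 1) *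
            Real.exp (-(32 * ((2 ^ k * 2 ^ (n + lY) : ℕ) : ℝ))) *
              (S ^ (3 / 4 : ℝ) * S ^ (3 / 4 : ℝ)) := h4
      have e1 : (X j) ^ (2 * (3 / 4 : ℝ) - 1) = Real.sqrt (X j) := by
        rw [Real.sqrt_eq_rpow]; norm_num
      have e2 : S ^ (3 / 4 : ℝ) * S ^ (3 / 4 : ℝ) = S * Real.sqrt S := by
        rw [Real.sqrt_eq_rpow]
        rcases hS0.eq_or_lt with h0 | h0
        · rw [← h0]; norm_num
        · rw [← Real.rpow_add h0]
          nth_rewrite 2 [← Real.rpow_one S]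
          rw [← Real.rpow_add h0]
          norm_num
      rw [e1, e2] at h6
      have h7 : Real.exp (-(32 * ((2 ^ k * 2 ^ (n + lY) : ℕ) : ℝ))) ≤
          Real.exp (-(32 * ((2 : ℝ) ^ k * 2 ^ n))) := by
        refine Real.exp_le_exp.2 ?_
        push_cast
        have a1 : (2 : ℝ) ^ n ≤ 2 ^ (n + lY) := pow_le_pow_right₀ (by norm_num) (by omega)
        have a2 : (0 : ℝ) < 2 ^ k := by positivity
        have := mul_le_mul_of_nonneg_left a1 a2.le
        linarith
      have h8 : L * (Real.sqrt (X j) * (S * Real.sqrt S)) ≤ (L * S) * Real.sqrt (t j) := by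
        have a1 : Real.sqrt (X j) * Real.sqrt S ≤ Real.sqrt (t j) := by
          rw [← Real.sqrt_mul (hX0 j).le]
          refine Real.sqrt_le_sqrt ?_
          have a2 : X j ≤ t j * L := by
            rw [htL, hX]; dsimp only; linarith
          calc X j * S ≤ t j * L * S := mul_le_mul_of_nonneg_right a2 hS0
            _ = t j * (L * S) := by ring
            _ ≤ t j * 1 := mul_le_mul_of_nonneg_left hm (ht0 j).le
            _ = t j := mul_one _
        calc L * (Real.sqrt (X j) * (S * Real.sqrt S)) =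
              (L * S) * (Real.sqrt (X j) * Real.sqrt S) := by ring
          _ ≤ _ := mul_le_mul_of_nonneg_left a1 hm0
      calc L * ∑ b ∈ B, ∑ c ∈ B, V j n k b c
          ≤ L * (C2 * Real.sqrt (X j) * Real.exp (-(32 * ((2 ^ k * 2 ^ (n + lY) : ℕ) : ℝ))) *
              (S * Real.sqrt S)) := mul_le_mul_of_nonneg_left (h5.trans h6) hL.le
        _ = C2 * (L * (Real.sqrt (X j) * (S * Real.sqrt S))) *
              Real.exp (-(32 * ((2 ^ k * 2 ^ (n + lY) : ℕ) : ℝ))) := by ring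
        _ ≤ C2 * ((L * S) * Real.sqrt (t j)) * Real.exp (-(32 * ((2 : ℝ) ^ k * 2 ^ n))) := by
            refine mul_le_mul (mul_le_mul_of_nonneg_left h8 hC2.le) h7 (Real.exp_pos _).le
              (by positivity)
        _ = _ := by ring
    have hmx0 : 0 ≤ max 1 (1 / t j) := zero_le_one.trans (le_max_left _ _)
    have hn0 : (0 : ℝ) ≤ n := Nat.cast_nonneg _
    -- sum of G
    have e4 : L * ∑ b ∈ B, ∑ c ∈ B, G q b c = K0 * ((n : ℝ) + 1) * max 1 (1 / t j) *
        (Real.exp 2 * (L * ∑ b ∈ B, ∑ c ∈ B, U j n b c) +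
          ∑ k ∈ range M, Real.exp (2 * ((k : ℝ) + 2)) * (L * ∑ b ∈ B, ∑ c ∈ B, V j n k b c)) := by
      rw [hG]; dsimp only
      have s1 : ∑ b ∈ B, ∑ c ∈ B, ∑ k ∈ range M, Real.exp (2 * ((k : ℝ) + 2)) * V j n k b c =
          ∑ k ∈ range M, Real.exp (2 * ((k : ℝ) + 2)) * ∑ b ∈ B, ∑ c ∈ B, V j n k b c := by
        have s2 : ∀ b, ∑ c ∈ B, ∑ k ∈ range M, Real.exp (2 * ((k : ℝ) + 2)) * V j n k b c =
            ∑ k ∈ range M, Real.exp (2 * ((k : ℝ) + 2)) * ∑ c ∈ B, V j n k b c := by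
          intro b
          rw [sum_comm]
          exact sum_congr rfl fun k _ => by rw [mul_sum]
        rw [sum_congr rfl fun b _ => s2 b, sum_comm]
        exact sum_congr rfl fun k _ => by rw [mul_sum]
      simp only [← mul_sum, sum_add_distrib]
      rw [s1]
      have s3 : ∑ k ∈ range M, Real.exp (2 * ((k : ℝ) + 2)) * (L * ∑ b ∈ B, ∑ c ∈ B, V j n k b c) =
          L * ∑ k ∈ range M, Real.exp (2 * ((k : ℝ) + 2)) * ∑ b ∈ B, ∑ c ∈ B, V j n k b c := by
        rw [mul_sum]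
        exact sum_congr rfl fun k _ => by ring
      rw [s3]
      ring
    rw [e4]
    have h9 : ∑ k ∈ range M, Real.exp (2 * ((k : ℝ) + 2)) * (L * ∑ b ∈ B, ∑ c ∈ B, V j n k b c) ≤
        C2 * (L * S) * (Real.sqrt (t j) * (2 * Real.exp 4 * Real.exp (-(32 * (2 : ℝ) ^ n)))) := by
      calc _ ≤ ∑ k ∈ range M, Real.exp (2 * ((k : ℝ) + 2)) * (C2 * (L * S) *
            (Real.sqrt (t j) * Real.exp (-(32 * ((2 : ℝ) ^ k * 2 ^ n))))) :=
            sum_le_sum fun k hk => mul_le_mul_of_nonneg_left (hVs k hk) (Real.exp_pos _).le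
        _ = C2 * (L * S) * (Real.sqrt (t j) * ∑ k ∈ range M, Real.exp (2 * ((k : ℝ) + 2)) *
            Real.exp (-(32 * ((2 : ℝ) ^ k * 2 ^ n)))) := by
            have hk : ∀ k : ℕ, Real.exp (2 * ((k : ℝ) + 2)) * (C2 * (L * S) *
                (Real.sqrt (t j) * Real.exp (-(32 * ((2 : ℝ) ^ k * 2 ^ n))))) =
                (C2 * (L * S) * Real.sqrt (t j)) * (Real.exp (2 * ((k : ℝ) + 2)) *
                  Real.exp (-(32 * ((2 : ℝ) ^ k * 2 ^ n)))) := by
              intro k; ring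
            rw [sum_congr rfl fun k _ => hk k, ← mul_sum]
            ring
        _ ≤ _ := by
            refine mul_le_mul_of_nonneg_left ?_ (by positivity)
            exact mul_le_mul_of_nonneg_left (geom_sum32 M n) (Real.sqrt_nonneg _)
    have hnum := class_num hη hη1 hc hA hAc (ht0 j) hq1 hq2
    have hx0 : 0 ≤ (t j) ^ η * (2 : ℝ) ^ (-(c * n)) :=
      mul_nonneg (Real.rpow_nonneg (ht0 j).le _) (Real.rpow_pos_of_pos (by norm_num) _).le
    have hz0 : 0 ≤ Real.sqrt (t j) * Real.exp (-(32 * (2 : ℝ) ^ n)) := by positivity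
    calc K0 * ((n : ℝ) + 1) * max 1 (1 / t j) *
        (Real.exp 2 * (L * ∑ b ∈ B, ∑ c ∈ B, U j n b c) +
          ∑ k ∈ range M, Real.exp (2 * ((k : ℝ) + 2)) * (L * ∑ b ∈ B, ∑ c ∈ B, V j n k b c))
        ≤ K0 * ((n : ℝ) + 1) * max 1 (1 / t j) *
          (Real.exp 2 * (Cb * ((t j) ^ η * (2 : ℝ) ^ (-(c * n))) * (L * S)) +
            C2 * (L * S) * (Real.sqrt (t j) *
              (2 * Real.exp 4 * Real.exp (-(32 * (2 : ℝ) ^ n))))) := by
          refine mul_le_mul_of_nonneg_left (add_le_add ?_ h9) (by positivity)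
          exact mul_le_mul_of_nonneg_left hUs (Real.exp_pos _).le
      _ = (L * S) * (((n : ℝ) + 1) * max 1 (1 / t j)) * K0 *
          ((Real.exp 2 * Cb) * ((t j) ^ η * (2 : ℝ) ^ (-(c * n))) +
            (2 * Real.exp 4 * C2) * (Real.sqrt (t j) * Real.exp (-(32 * (2 : ℝ) ^ n)))) := by
          ring
      _ ≤ (L * S) * (((n : ℝ) + 1) * max 1 (1 / t j)) * K0 *
          ((Real.exp 2 * Cb + 2 * Real.exp 4 * C2) * ((t j) ^ η * (2 : ℝ) ^ (-(c * n)) +
            Real.sqrt (t j) * Real.exp (-(32 * (2 : ℝ) ^ n)))) := by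
          refine mul_le_mul_of_nonneg_left ?_ (by positivity)
          have a1 : 0 ≤ Real.exp 2 * Cb := by positivity
          have a2 : 0 ≤ 2 * Real.exp 4 * C2 := by positivity
          nlinarith [mul_nonneg a1 hz0, mul_nonneg a2 hx0]
      _ = C3 * (L * S) * (((n : ℝ) + 1) * max 1 (1 / t j) *
          ((t j) ^ η * (2 : ℝ) ^ (-(c * n)) +
            Real.sqrt (t j) * Real.exp (-(32 * (2 : ℝ) ^ n)))) := by
          rw [hC3]; ring
      _ ≤ _ := mul_le_mul_of_nonneg_left hnum (by positivity)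
  -- total
  calc L * ∑ b ∈ B, ∑ c ∈ (B.erase b).filter (fun c => XB A L (Nat.gcd b c) < rb F b c),
        EnBad F P b c
      ≤ L * ∑ b ∈ B, ∑ c ∈ B, ∑ q ∈ adm, G q b c := by
        refine mul_le_mul_of_nonneg_left (sum_le_sum fun b hb => ?_) hL.le
        calc _ ≤ ∑ c ∈ (B.erase b).filter (fun c => XB A L (Nat.gcd b c) < rb F b c),
              ∑ q ∈ adm, G q b c := sum_le_sum fun c hc => hpt b hb c hc
          _ ≤ _ := sum_le_sum_of_subset_of_nonneg
              ((filter_subset _ _).trans (erase_subset _ _)) fun c _ _ =>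
                sum_nonneg fun q _ => hG0 q b c
    _ = ∑ q ∈ adm, L * ∑ b ∈ B, ∑ c ∈ B, G q b c := by
        have s1 : ∀ b, ∑ c ∈ B, ∑ q ∈ adm, G q b c = ∑ q ∈ adm, ∑ c ∈ B, G q b c :=
          fun b => sum_comm
        rw [sum_congr rfl fun b _ => s1 b, sum_comm, mul_sum]
    _ ≤ ∑ q ∈ adm, C3 * (L * S) * (min ((t q.1) ^ η) ((t q.1) ^ (-η)) * an c q.2) :=
        sum_le_sum hclass
    _ ≤ ∑ q ∈ range (M + 1) ×ˢ range (M + 1),
        C3 * (L * S) * (min ((t q.1) ^ η) ((t q.1) ^ (-η)) * an c q.2) := by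
        refine sum_le_sum_of_subset_of_nonneg (filter_subset _ _) fun q _ _ => ?_
        refine mul_nonneg (by positivity) (mul_nonneg (le_min ?_ ?_) (an_nonneg _ _))
        · exact Real.rpow_nonneg (ht0 _).le _
        · exact Real.rpow_nonneg (ht0 _).le _
    _ = C3 * (L * S) * ((∑ j ∈ range (M + 1), min ((t j) ^ η) ((t j) ^ (-η))) *
        ∑ n ∈ range (M + 1), an c n) := by
        rw [← mul_sum, sum_mul_sum, sum_product]
    _ ≤ C3 * (L * S) * ((2 * Crest.Agent.R4C.Dyadx281.gC η) * Sa) := by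
        refine mul_le_mul_of_nonneg_left ?_ (by positivity)
        refine mul_le_mul (sum_scales hη hL _) (hsum.sum_le_tsum _ fun n _ => an_nonneg c n)
          (sum_nonneg fun n _ => an_nonneg c n) (by positivity)
    _ ≤ _ := by
        have : C3 * (L * S) * ((2 * Crest.Agent.R4C.Dyadx281.gC η) * Sa) =
            (C3 * (2 * Crest.Agent.R4C.Dyadx281.gC η * Sa)) * (L * S) := by ring
        rw [this]
        refine mul_le_mul_of_nonneg_right ?_ hm0
        linarith

end Crest.Agent.R4C.BadAllx360
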