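import Crest.Agent.R4C.FLDef_935

/-!
# Sum of the bad energies over the dyadic scales (row 4, S3 v1.2 (I), S6 v1 class (B)), helper946

`F : FL M` with `badEn F B L t x ≤ C t^η (x+1)^(-c) m^(1+η)` (`FLEx_326.flam_strong`).
* `bad_sum` : cuts `cut i + 1 ≥ (2^i)^a`, `a c > η`:
   `Σ_{i0 ≤ i < N} badEn F B L (2^i) (cut i) ≤ C (2^i0)^(-(a c - η)) / (1 - 2^(-(a c - η))) m^(1+η)`
* `bad_sum_near` : scales `t = 2^(-i)`, any cut: `≤ C (x+1)^(-c) 2^(-η i0) / (1 - 2^(-η)) m^(1+η)`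
* `bad_scales` : pairs of `B` with `gcd ≥ 2^i0 L`, not good at the cut of their dyadic scale
* `good_of_block` : if `cut i ≤ X` then a pair good at `cut i` is good at `X` (block ends)
-/

set_option autoImplicit false

namespace Crest.Agent.R4C.BadBlkx946

open Finset Crest.Agent.R4C.Basex935 Crest.Agent.R4C.Cutx50 Crest.Agent.R4C.FLDefx935

variable {M : ℕ} {F : FL M} {B : Finset ℕ} {L η c C : ℝ}

lemma badEn_nonneg (F : FL M) (B : Finset ℕ) {L : ℝ} (hL : 0 ≤ L) (t : ℝ) (x : ℕ) :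
    0 ≤ badEn F B L t x := by
  classical
  unfold badEn
  refine mul_nonneg hL (Finset.sum_nonneg fun b _ => Finset.sum_nonneg fun d _ => ?_)
  split_ifs
  · exact mul_nonneg (mul_nonneg (Nat.cast_nonneg _) (nu_nonneg _ _)) (nu_nonneg _ _)
  · exact le_rfl

lemma geo_tail {r : ℝ} (hr0 : 0 ≤ r) (hr1 : r < 1) (i0 N : ℕ) :
    ∑ i ∈ Finset.Ico i0 N, r ^ i ≤ r ^ i0 / (1 - r) := by
  rw [Finset.sum_Ico_eq_sum_range]
  have h1 : ∀ k, r ^ (i0 + k) = r ^ i0 * r ^ k := fun k => pow_add r i0 k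
  simp only [h1]
  rw [← Finset.mul_sum, div_eq_mul_inv]
  refine mul_le_mul_of_nonneg_left ?_ (pow_nonneg hr0 _)
  exact sum_le_hasSum _ (fun n _ => pow_nonneg hr0 n) (hasSum_geometric_of_lt_one hr0 hr1)

/-- **far scales** -/
theorem bad_sum (hC : 0 ≤ C) (hc : 0 ≤ c) {m' : ℝ} (hm' : 0 ≤ m')
    (h : ∀ (t : ℝ) (x : ℕ), 0 < t → badEn F B L t x ≤ C * t ^ η * ((x : ℝ) + 1) ^ (-c) * m')
    {a : ℝ} (hac : η < a * c) (cut : ℕ → ℕ) (hcut : ∀ i, ((2 : ℝ) ^ i) ^ a ≤ (cut i : ℝ) + 1)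
    (i0 N : ℕ) :
    ∑ i ∈ Finset.Ico i0 N, badEn F B L ((2 : ℝ) ^ i) (cut i) ≤
      C * (((2 : ℝ) ^ (-(a * c - η))) ^ i0 / (1 - (2 : ℝ) ^ (-(a * c - η)))) * m' := by
  set r : ℝ := (2 : ℝ) ^ (-(a * c - η)) with hr
  have hr0 : 0 ≤ r := by positivity
  have hr1 : r < 1 := Real.rpow_lt_one_of_one_lt_of_neg (by norm_num) (by linarith)
  have key : ∀ i, badEn F B L ((2 : ℝ) ^ i) (cut i) ≤ C * r ^ i * m' := by
    intro i
    have h2i : (0 : ℝ) < 2 ^ i := by positivity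
    refine (h _ (cut i) h2i).trans ?_
    refine mul_le_mul_of_nonneg_right ?_ hm'
    rw [mul_assoc]
    refine mul_le_mul_of_nonneg_left ?_ hC
    have h1 : ((cut i : ℝ) + 1) ^ (-c) ≤ (((2 : ℝ) ^ i) ^ a) ^ (-c) :=
      Real.rpow_le_rpow_of_nonpos (Real.rpow_pos_of_pos h2i _) (hcut i) (by linarith)
    calc ((2 : ℝ) ^ i) ^ η * ((cut i : ℝ) + 1) ^ (-c)
        ≤ ((2 : ℝ) ^ i) ^ η * (((2 : ℝ) ^ i) ^ a) ^ (-c) :=
          mul_le_mul_of_nonneg_left h1 (Real.rpow_nonneg h2i.le _)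
      _ = ((2 : ℝ) ^ i) ^ (-(a * c - η)) := by
          rw [← Real.rpow_mul h2i.le, ← Real.rpow_add h2i]
          congr 1
          ring
      _ = r ^ i := by
          rw [hr, ← Real.rpow_natCast, ← Real.rpow_natCast, ← Real.rpow_mul (by norm_num),
            ← Real.rpow_mul (by norm_num)]
          congr 1
          ring
  calc ∑ i ∈ Finset.Ico i0 N, badEn F B L ((2 : ℝ) ^ i) (cut i)
      ≤ ∑ i ∈ Finset.Ico i0 N, C * r ^ i * m' := Finset.sum_le_sum fun i _ => key i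
    _ = C * (∑ i ∈ Finset.Ico i0 N, r ^ i) * m' := by
        rw [Finset.mul_sum, Finset.sum_mul]
    _ ≤ C * (r ^ i0 / (1 - r)) * m' :=
        mul_le_mul_of_nonneg_right (mul_le_mul_of_nonneg_left (geo_tail hr0 hr1 i0 N) hC) hm'

/-- **near scales** `t = 2^(-i)` -/
theorem bad_sum_near (hC : 0 ≤ C) (hη : 0 < η) {m' : ℝ} (hm' : 0 ≤ m')
    (h : ∀ (t : ℝ) (x : ℕ), 0 < t → badEn F B L t x ≤ C * t ^ η * ((x : ℝ) + 1) ^ (-c) * m')
    (x i0 N : ℕ) :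
    ∑ i ∈ Finset.Ico i0 N, badEn F B L (((2 : ℝ) ^ i)⁻¹) x ≤
      C * ((x : ℝ) + 1) ^ (-c) * (((2 : ℝ) ^ (-η)) ^ i0 / (1 - (2 : ℝ) ^ (-η))) * m' := by
  set r : ℝ := (2 : ℝ) ^ (-η) with hr
  have hr0 : 0 ≤ r := by positivity
  have hr1 : r < 1 := Real.rpow_lt_one_of_one_lt_of_neg (by norm_num) (by linarith)
  have key : ∀ i, badEn F B L (((2 : ℝ) ^ i)⁻¹) x ≤ C * ((x : ℝ) + 1) ^ (-c) * r ^ i * m' := by
    intro i
    have h2i : (0 : ℝ) < ((2 : ℝ) ^ i)⁻¹ := by positivity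
    refine (h _ x h2i).trans (le_of_eq ?_)
    have e : (((2 : ℝ) ^ i)⁻¹) ^ η = r ^ i := by
      rw [hr, ← Real.rpow_natCast, ← Real.rpow_natCast, ← Real.rpow_mul (by norm_num),
        Real.inv_rpow (by positivity), ← Real.rpow_mul (by norm_num),
        ← Real.rpow_neg (by norm_num)]
      congr 1
      ring
    rw [e]
    ring
  have hx : 0 ≤ C * ((x : ℝ) + 1) ^ (-c) := by positivity
  calc ∑ i ∈ Finset.Ico i0 N, badEn F B L (((2 : ℝ) ^ i)⁻¹) x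
      ≤ ∑ i ∈ Finset.Ico i0 N, C * ((x : ℝ) + 1) ^ (-c) * r ^ i * m' :=
        Finset.sum_le_sum fun i _ => key i
    _ = C * ((x : ℝ) + 1) ^ (-c) * (∑ i ∈ Finset.Ico i0 N, r ^ i) * m' := by
        rw [Finset.mul_sum, Finset.sum_mul]
    _ ≤ C * ((x : ℝ) + 1) ^ (-c) * (r ^ i0 / (1 - r)) * m' :=
        mul_le_mul_of_nonneg_right (mul_le_mul_of_nonneg_left (geo_tail hr0 hr1 i0 N) hx) hm'

/-- the dyadic scale of a pair, `2^i L ≤ gcd < 2^(i+1) L` -/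
noncomputable def sc (L : ℝ) (b d : ℕ) : ℕ := Nat.log 2 ⌊(Nat.gcd b d : ℝ) / L⌋₊

lemma sc_spec (hL : 0 < L) {b d : ℕ} (h : L ≤ (Nat.gcd b d : ℝ)) :
    (2 : ℝ) ^ (sc L b d) * L ≤ (Nat.gcd b d : ℝ) ∧
      (Nat.gcd b d : ℝ) < 2 * (2 : ℝ) ^ (sc L b d) * L := by
  have h1 : (1 : ℝ) ≤ (Nat.gcd b d : ℝ) / L := by rwa [le_div_iff₀ hL, one_mul]
  have h2 : 0 < ⌊(Nat.gcd b d : ℝ) / L⌋₊ := Nat.floor_pos.2 h1
  have h3 := Nat.pow_log_le_self 2 (by omega : ⌊(Nat.gcd b d : ℝ) / L⌋₊ ≠ 0)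
  have h4 := Nat.lt_pow_succ_log_self (b := 2) (by norm_num) ⌊(Nat.gcd b d : ℝ) / L⌋₊
  constructor
  · have h5 : ((2 ^ (sc L b d) : ℕ) : ℝ) ≤ (Nat.gcd b d : ℝ) / L :=
      (by exact_mod_cast h3 : ((2 ^ (sc L b d) : ℕ) : ℝ) ≤ (⌊(Nat.gcd b d : ℝ) / L⌋₊ : ℝ)).trans
        (Nat.floor_le (by linarith))
    push_cast at h5
    rwa [le_div_iff₀ hL] at h5
  · have h5 : (Nat.gcd b d : ℝ) / L < ((2 ^ (sc L b d + 1) : ℕ) : ℝ) := by
      have h6 := Nat.lt_floor_add_one ((Nat.gcd b d : ℝ) / L)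
      have h7 : ((⌊(Nat.gcd b d : ℝ) / L⌋₊ : ℝ) + 1) ≤ ((2 ^ (sc L b d + 1) : ℕ) : ℝ) := by
        exact_mod_cast h4
      linarith
    push_cast at h5
    rw [div_lt_iff₀ hL] at h5
    rw [pow_succ] at h5
    linarith

open Classical in
/-- **all far pairs which are not good at the cut of their scale** -/
theorem bad_scales (hL : 0 < L) (hC : 0 ≤ C) (hc : 0 ≤ c) {m' : ℝ} (hm' : 0 ≤ m')
    (h : ∀ (t : ℝ) (x : ℕ), 0 < t → badEn F B L t x ≤ C * t ^ η * ((x : ℝ) + 1) ^ (-c) * m')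
    {a : ℝ} (hac : η < a * c) (cut : ℕ → ℕ) (hcut : ∀ i, ((2 : ℝ) ^ i) ^ a ≤ (cut i : ℝ) + 1)
    (i0 : ℕ) :
    L * ∑ b ∈ B, ∑ d ∈ B, (if (2 : ℝ) ^ i0 * L ≤ (Nat.gcd b d : ℝ) ∧
        ¬ F.good (cut (sc L b d)) b d then (Nat.gcd b d : ℝ) * nu M b * nu M d else 0) ≤
      C * (((2 : ℝ) ^ (-(a * c - η))) ^ i0 / (1 - (2 : ℝ) ^ (-(a * c - η)))) * m' := by
  set N := (B ×ˢ B).sup (fun p => sc L p.1 p.2) + 1 with hN
  have h1 : L * ∑ b ∈ B, ∑ d ∈ B, (if (2 : ℝ) ^ i0 * L ≤ (Nat.gcd b d : ℝ) ∧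
        ¬ F.good (cut (sc L b d)) b d then (Nat.gcd b d : ℝ) * nu M b * nu M d else 0) ≤
      ∑ i ∈ Finset.Ico i0 N, badEn F B L ((2 : ℝ) ^ i) (cut i) := by
    unfold badEn
    rw [← Finset.mul_sum]
    refine mul_le_mul_of_nonneg_left ?_ hL.le
    have e : ∑ i ∈ Finset.Ico i0 N, ∑ b ∈ B, ∑ d ∈ B,
        (if (2 : ℝ) ^ i * L ≤ (Nat.gcd b d : ℝ) ∧ (Nat.gcd b d : ℝ) < 2 * (2 : ℝ) ^ i * L ∧
          ¬ F.good (cut i) b d then (Nat.gcd b d : ℝ) * nu M b * nu M d else 0) =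
        ∑ b ∈ B, ∑ d ∈ B, ∑ i ∈ Finset.Ico i0 N,
        (if (2 : ℝ) ^ i * L ≤ (Nat.gcd b d : ℝ) ∧ (Nat.gcd b d : ℝ) < 2 * (2 : ℝ) ^ i * L ∧
          ¬ F.good (cut i) b d then (Nat.gcd b d : ℝ) * nu M b * nu M d else 0) := by
      rw [Finset.sum_comm]
      exact Finset.sum_congr rfl fun b _ => Finset.sum_comm
    rw [e]
    refine Finset.sum_le_sum fun b hb => Finset.sum_le_sum fun d hd => ?_
    have hnn : 0 ≤ (Nat.gcd b d : ℝ) * nu M b * nu M d :=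
      mul_nonneg (mul_nonneg (Nat.cast_nonneg _) (nu_nonneg _ _)) (nu_nonneg _ _)
    have hs : ∀ i ∈ Finset.Ico i0 N, 0 ≤ (if (2 : ℝ) ^ i * L ≤ (Nat.gcd b d : ℝ) ∧
        (Nat.gcd b d : ℝ) < 2 * (2 : ℝ) ^ i * L ∧
          ¬ F.good (cut i) b d then (Nat.gcd b d : ℝ) * nu M b * nu M d else 0) := by
      intro i _
      split_ifs
      · exact hnn
      · exact le_rfl
    split_ifs with hc1
    · have h2i : (1 : ℝ) ≤ (2 : ℝ) ^ i0 := one_le_pow₀ (by norm_num)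
      have hLg : L ≤ (Nat.gcd b d : ℝ) := by
        refine le_trans ?_ hc1.1
        nlinarith
      obtain ⟨h2, h3⟩ := sc_spec hL hLg
      have hi0 : i0 ≤ sc L b d := by
        by_contra hcon
        push Not at hcon
        have h4 : (2 : ℝ) ^ (sc L b d + 1) ≤ (2 : ℝ) ^ i0 :=
          pow_le_pow_right₀ (by norm_num) (by omega)
        have h5 := mul_le_mul_of_nonneg_right h4 hL.le
        rw [pow_succ] at h5
        linarith [hc1.1]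
      have hiN : sc L b d < N := by
        have := Finset.le_sup (f := fun p : ℕ × ℕ => sc L p.1 p.2)
          (Finset.mk_mem_product hb hd)
        simp only at this
        omega
      have h6 := Finset.single_le_sum hs (Finset.mem_Ico.2 ⟨hi0, hiN⟩)
      rwa [if_pos ⟨h2, h3, hc1.2⟩] at h6
    · exact Finset.sum_nonneg hs
  exact h1.trans (bad_sum hC hc hm' h hac cut hcut i0 N)

/-- block ends above the cut of the scale -/
lemma good_of_block {b d x X : ℕ} (h : F.good x b d) (hX : x ≤ X) : F.good X b d :=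
  FL.good_mono hX h

end Crest.Agent.R4C.BadBlkx946
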