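import Crest.Agent.R4C.VecNPt_50
import Crest.Agent.R4C.ClsBad_250
import Crest.Agent.R4C.SpineKit_946

/-!
# Row 4: `ClsOK` of a non-pure class from set bounds block by block (helper48)

* `bst_cut2` : boosts at the primes in `(X, Q]` cost `C log Q / log X`;
* `EnR_le_uniq` : a class whose offset is unique: `EnR ≤ L ∑ gcd ν ν W`;
* **`cls_blocks`** : relations `G j` (good at `Xj j`, unique offset, boost `≤ K bst (pr (Xj j)) B1`)
  with the set bound `SetBd (1_{G j} bst lw) (C0 2^{-j/2})`: `ClsOK` of `∃ j ≥ 1, G j`.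
-/

set_option autoImplicit false

open Finset

namespace Crest.Agent.R4C.BlkTotx48

open Crest.Agent.R4C.Basex935 Crest.Agent.R4C.Cutx50 Crest.Agent.R4C.FLDefx935
  Crest.Agent.R4C.BoostCx972
  Crest.Agent.R4C.CrCoinx935 Crest.Agent.R4C.CrCountx935 Crest.Agent.R4C.Bridgex882
  Crest.Agent.R4C.Rulex945 Crest.Agent.R4C.Sharedx11
  Crest.Agent.R4C.Splitx945 Crest.Agent.R4C.BoostAlx100
  Crest.Agent.R4C.Spinex946 Crest.Agent.R4C.FLShx326
  Crest.Agent.R4C.VecNPx50 Crest.Agent.R4C.ClsBadx250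
open Crest.Agent.R4C.BoostRx398 (bst)
open Crest.Agent.R4C.BoostTopx19 (prQ bst_eq)
open Crest.Agent.R4C.NonPureBlkx559 (Xj Xj_two log_Xj)

/-! ### the boost between two cuts -/

lemma pr_eq_prQ (Q : ℕ) : pr Q = prQ Q := by
  ext p
  rw [mem_pr]
  unfold prQ
  rw [mem_filter, mem_range]
  constructor
  · rintro ⟨h1, h2⟩; exact ⟨by omega, h2⟩
  · rintro ⟨h1, h2⟩; exact ⟨by omega, h2⟩

/-- constant of `bst_cut2` -/
noncomputable def CB : ℝ := Real.exp (22 / Real.log 2)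

lemma CB_pos : 0 < CB := Real.exp_pos _

lemma bst_cut2 {X Q : ℕ} (hX : 2 ≤ X) (hXQ : X ≤ Q) (M b c : ℕ) :
    bst (prQ Q) M b c ≤ CB * (Real.log Q / Real.log X) * bst (pr X) M b c := by
  classical
  rw [pr_eq_prQ, bst_eq, bst_eq]
  have hX' : (2 : ℝ) ≤ X := by exact_mod_cast hX
  have hXQ' : (X : ℝ) ≤ Q := by exact_mod_cast hXQ
  have hQ' : (2 : ℝ) ≤ Q := hX'.trans hXQ'
  have hlX : 0 < Real.log X := Real.log_pos (by linarith)
  have hlQ : 0 < Real.log Q := Real.log_pos (by linarith)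
  have hl2 : 0 < Real.log 2 := Real.log_pos (by norm_num)
  set S := (prQ Q).filter (fun p => b.factorization p = c.factorization p ∧
      b.factorization p < M.factorization p) with hS
  set S1 := (prQ X).filter (fun p => b.factorization p = c.factorization p ∧
      b.factorization p < M.factorization p) with hS1
  have hsub : S ⊆ Lib.Mertens.pr X Q ∪ S1 := by
    intro p hp
    rw [hS, mem_filter] at hp
    obtain ⟨h1, h2⟩ := hp
    rw [← pr_eq_prQ, mem_pr] at h1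
    rw [mem_union]
    by_cases hpX : p ≤ X
    · right
      rw [hS1, mem_filter, ← pr_eq_prQ, mem_pr]
      exact ⟨⟨hpX, h1.2⟩, h2⟩
    · left
      rw [Lib.Mertens.mem_pr (by linarith) (by linarith)]
      refine ⟨⟨?_, by exact_mod_cast h1.1⟩, h1.2⟩
      exact_mod_cast not_le.1 hpX
  have hpr : ∀ p ∈ Lib.Mertens.pr (X : ℝ) Q, p.Prime := fun p hp =>
    ((Lib.Mertens.mem_pr (by linarith) (by linarith)).1 hp).2
  have hpr1 : ∀ p ∈ S1, p.Prime := fun p hp => by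
    rw [hS1, mem_filter, ← pr_eq_prQ, mem_pr] at hp
    exact hp.1.2
  refine (prod_pf_mono hsub ?_).trans ((prod_pf_union hpr hpr1).trans ?_)
  · intro p hp
    exact (mem_union.1 hp).elim (hpr p) (hpr1 p)
  refine mul_le_mul_of_nonneg_right ?_ (prod_pf_pos hpr1).le
  have hm := (Lib.Mertens.mertens_three X Q hX' hXQ').1
  have hprod : 0 < Real.exp (-(22 / Real.log X)) * (Real.log X / Real.log Q) := by positivity
  have h1 : ∏ p ∈ Lib.Mertens.pr (X : ℝ) Q, pf p ≤ (Real.exp (-(22 / Real.log X)) *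
      (Real.log X / Real.log Q))⁻¹ := by
    unfold pf
    rw [Finset.prod_inv_distrib]
    exact inv_anti₀ hprod hm
  refine h1.trans ?_
  rw [mul_inv, inv_div, Real.exp_neg, inv_inv]
  refine mul_le_mul_of_nonneg_right ?_ (by positivity)
  unfold CB
  refine Real.exp_le_exp.2 ?_
  exact div_le_div_of_nonneg_left (by norm_num) hl2 (Real.log_le_log (by norm_num) hX')

/-! ### classes with a unique offset -/

section uniq

variable {γ L : ℝ} {M : ℕ} {B : Finset ℕ} {lam : ℕ → ℕ → Option ℤ}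

open Classical in
/-- sum over the offsets of a class with a unique offset -/
lemma oS_le_uniq {R : ℕ → ℕ → ℤ → Prop} {b c : ℕ} {w : ℝ}
    (hu : ∀ x ∈ Lnk γ L b c, ∀ y ∈ Lnk γ L b c, R b c x → R b c y → x = y)
    (hw : ∀ x ∈ Lnk γ L b c, ¬ killedB lam b c x → R b c x → boostB M lam b c x ≤ w)
    (hw0 : 0 ≤ w) :
    oS γ L M lam R b c ≤ if ∃ x ∈ Lnk γ L b c, R b c x then w else 0 := by
  unfold oS
  by_cases hex : ∃ x ∈ Lnk γ L b c, ¬ killedB lam b c x ∧ R b c x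
  · obtain ⟨x, hx, hk, hR⟩ := hex
    have h2 : (Lnk γ L b c).filter (fun h => ¬ killedB lam b c h ∧ R b c h) = {x} := by
      ext y
      rw [Finset.mem_filter, Finset.mem_singleton]
      constructor
      · rintro ⟨hy, _, hRy⟩
        exact hu y hy x hx hRy hR
      · rintro rfl
        exact ⟨hx, hk, hR⟩
    rw [h2, Finset.sum_singleton, if_pos ⟨x, hx, hR⟩]
    exact hw x hx hk hR
  · have h2 : ∑ h ∈ (Lnk γ L b c).filter (fun h => ¬ killedB lam b c h ∧ R b c h),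
        boostB M lam b c h = 0 := by
      refine Finset.sum_eq_zero fun x hx => ?_
      rw [Finset.mem_filter] at hx
      exact absurd ⟨x, hx.1, hx.2⟩ hex
    rw [h2]
    split_ifs
    · exact hw0
    · exact le_rfl

open Classical in
theorem EnR_le_uniq (hL : 0 ≤ L) {R : ℕ → ℕ → ℤ → Prop} {W : ℕ → ℕ → ℝ}
    (hW0 : ∀ b c, 0 ≤ W b c)
    (hu : ∀ b ∈ B, ∀ c ∈ B, b ≠ c → ∀ x ∈ Lnk γ L b c, ∀ y ∈ Lnk γ L b c,
      R b c x → R b c y → x = y)
    (hw : ∀ b ∈ B, ∀ c ∈ B, b ≠ c → ∀ x ∈ Lnk γ L b c, ¬ killedB lam b c x → R b c x →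
      boostB M lam b c x ≤ W b c) :
    EnR γ L M B lam R ≤ L * ∑ b ∈ B, ∑ c ∈ B, (if ∃ x ∈ Lnk γ L b c, R b c x then
      (Nat.gcd b c : ℝ) * nu M b * nu M c * W b c else 0) := by
  rw [EnR_eq]
  refine mul_le_mul_of_nonneg_left (Finset.sum_le_sum fun b hb => ?_) hL
  have hnn : ∀ c, (0 : ℝ) ≤ if ∃ x ∈ Lnk γ L b c, R b c x then
      (Nat.gcd b c : ℝ) * nu M b * nu M c * W b c else 0 := by
    intro c
    split_ifs
    · exact mul_nonneg (pref_nonneg _ _ _) (hW0 b c)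
    · exact le_rfl
  refine le_trans (Finset.sum_le_sum fun c hc => ?_)
    (Finset.sum_le_sum_of_subset_of_nonneg (Finset.erase_subset b B) fun c _ _ => hnn c)
  have hcB := Finset.mem_of_mem_erase hc
  have hne : b ≠ c := fun e => Finset.ne_of_mem_erase hc e.symm
  have h1 := oS_le_uniq (γ := γ) (L := L) (M := M) (lam := lam) (R := R) (b := b) (c := c)
    (w := W b c) (hu b hb c hcB hne) (hw b hb c hcB hne) (hW0 b c)
  refine (mul_le_mul_of_nonneg_left h1 (pref_nonneg _ _ _)).trans (le_of_eq ?_)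
  split_ifs
  · rfl
  · rw [mul_zero]

end uniq

/-! ### all blocks -/

/-- a family of relations, one for every block -/
abbrev BCls := ℝ → ℝ → ℕ → ℕ → ℝ → ∀ M : ℕ, Finset ℕ → FL M → ℕ → ℕ → ℕ → ℤ → Prop

open Classical in
/-- hypotheses on a block family, for one choice of the constants -/
structure BlkHyp (γ cp η : ℝ) (A m0 : ℕ) (G : BCls) (C0 K : ℝ) : Prop where
  fin : ∀ (L : ℝ) (M : ℕ) (B : Finset ℕ) (F : FL M), Setup η L M B F → ∀ j, ∀ b ∈ B, ∀ c ∈ B,
    b ≠ c → ∀ h ∈ Lnk γ L b c, G cp η A m0 L M B F j b c h → 1 ≤ j ∧ j ≤ M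
  good : ∀ (L : ℝ) (M : ℕ) (B : Finset ℕ) (F : FL M), Setup η L M B F → ∀ j, 1 ≤ j →
    ∀ b c, b ∣ M → c ∣ M → ∀ h ∈ Lnk γ L b c, G cp η A m0 L M B F j b c h → F.good (Xj j) b c
  uniq : ∀ (L : ℝ) (M : ℕ) (B : Finset ℕ) (F : FL M), Setup η L M B F → ∀ j, 1 ≤ j →
    ∀ b ∈ B, ∀ c ∈ B, b ≠ c → ∀ x ∈ Lnk γ L b c, ∀ y ∈ Lnk γ L b c,
      G cp η A m0 L M B F j b c x → G cp η A m0 L M B F j b c y → x = y
  boost : ∀ (L : ℝ) (M : ℕ) (B : Finset ℕ) (F : FL M), Setup η L M B F → ∀ j, 1 ≤ j →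
    ∀ b ∈ B, ∀ c ∈ B, b ≠ c → ∀ x ∈ Lnk γ L b c, ¬ killedB (lamOf cp A m0 γ L M B F) b c x →
      G cp η A m0 L M B F j b c x →
        boostB M (lamOf cp A m0 γ L M B F) b c x ≤
          K * (bst (pr (Xj j)) M b c * PureL2x232.B1 b c)
  set : ∀ (L : ℝ) (M : ℕ) (B : Finset ℕ) (F : FL M), Setup η L M B F → ∀ j, 1 ≤ j →
    SetBd M (fun b c => if ∃ x ∈ Lnk γ L b c, G cp η A m0 L M B F j b c x then
      bst (pr (Xj j)) M b c * lw (Xj j) b c else 0) (C0 * ((√2)⁻¹) ^ j)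

open Classical in
/-- **`ClsOK` from set bounds block by block** -/
theorem cls_blocks {γ : ℝ} (G : BCls)
    (h : Ev fun cp η A m0 => ∃ C0 K : ℝ, 0 ≤ C0 ∧ 0 ≤ K ∧ BlkHyp γ cp η A m0 G C0 K) :
    ClsOK γ (fun cp η A m0 L M B F b c x => ∃ j, G cp η A m0 L M B F j b c x) := by
  refine (h.and Ev.basic).mono ?_
  rintro cp η A m0 ⟨⟨C0, K, hC0, hK, H⟩, _, _, hη, _, hη1, _, _⟩
  obtain ⟨hT, _⟩ := tree_spec hη hη1
  obtain ⟨C1, hC1, htot⟩ := total_of_setBd
  set r : ℝ := (√2)⁻¹ with hr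
  have hs2 : 1 < √2 := by
    rw [← Real.sqrt_one]; exact Real.sqrt_lt_sqrt (by norm_num) (by norm_num)
  have hr0 : 0 < r := by positivity
  have hr1 : r < 1 := inv_lt_one_of_one_lt₀ hs2
  refine ⟨K * (C1 * (1 + sA η)) * C0 * (1 - r)⁻¹, fun L M B F S => ?_⟩
  set P := lamOf cp A m0 γ L M B F with hP
  set m := ∑ b ∈ B, nu M b with hm
  have hm0 : 0 ≤ m := Finset.sum_nonneg fun _ _ => nu_nonneg _ _
  have hmass : L * m ≤ 1 := S.mass
  have hLm0 : 0 ≤ L * m := mul_nonneg S.hL.le hm0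
  have hsA : 0 ≤ sA η := hT.A_pos.le
  -- reduction to the blocks `1 ≤ j ≤ M`
  have h1 : EnR γ L M B P (fun b c x => ∃ j, G cp η A m0 L M B F j b c x) ≤
      ∑ j ∈ Finset.Ico 1 (M + 1), EnR γ L M B P (G cp η A m0 L M B F j) := by
    refine le_trans (EnR_mono S.hL.le fun b hb c hc hne x hx _ hx' => ?_)
      (EnR_exists_le S.hL.le (Finset.Ico 1 (M + 1)) (fun j => G cp η A m0 L M B F j))
    obtain ⟨j, hj⟩ := hx'
    obtain ⟨h2, h3⟩ := H.fin L M B F S j b hb c hc hne x hx hj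
    exact ⟨j, Finset.mem_Ico.2 ⟨h2, by omega⟩, hj⟩
  have h2 : ∀ j ∈ Finset.Ico 1 (M + 1), EnR γ L M B P (G cp η A m0 L M B F j) ≤
      (K * (C1 * (1 + sA η)) * C0) * r ^ j := by
    intro j hj
    have hj1 := (Finset.mem_Ico.1 hj).1
    have hB1 : ∀ b c, 0 ≤ bst (pr (Xj j)) M b c * PureL2x232.B1 b c := fun b c =>
      mul_nonneg (VecNPx50.bst_nonneg _ _ _ _) (BoostAlx100.B1_nonneg b c)
    have h3 := EnR_le_uniq (γ := γ) (L := L) (M := M) (B := B) (lam := P)
      (R := G cp η A m0 L M B F j)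
      (W := fun b c => K * (bst (pr (Xj j)) M b c * PureL2x232.B1 b c)) S.hL.le
      (fun b c => mul_nonneg hK (hB1 b c)) (H.uniq L M B F S j hj1) (H.boost L M B F S j hj1)
    have h4 := htot M F B (sA η) (sE η) S.hM S.hB S.shares hsA hT.s_gt.le Unit Finset.univ
      (fun _ => Xj j) (fun _ b c => ∃ x ∈ Lnk γ L b c, G cp η A m0 L M B F j b c x)
      (fun _ => C0 * r ^ j) (fun _ _ => by positivity)
      (fun _ _ b c hb hc hx => by
        obtain ⟨x, hx1, hx2⟩ := hx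
        exact H.good L M B F S j hj1 b c hb hc x hx1 hx2)
      (fun _ _ => by
        have := H.set L M B F S j hj1
        convert this)
      (fun b c => bst (pr (Xj j)) M b c * PureL2x232.B1 b c)
      (fun _ _ b _ c _ _ => le_rfl)
    have h5 : ∑ b ∈ B, ∑ c ∈ B, (if ∃ x ∈ Lnk γ L b c, G cp η A m0 L M B F j b c x then
        (Nat.gcd b c : ℝ) * nu M b * nu M c *
          (K * (bst (pr (Xj j)) M b c * PureL2x232.B1 b c)) else 0) ≤
        K * (C1 * (1 + sA η) * (C0 * r ^ j) * m) := by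
      refine le_trans (le_of_eq ?_) (mul_le_mul_of_nonneg_left (h4.trans (le_of_eq ?_)) hK)
      · rw [Finset.mul_sum]
        refine Finset.sum_congr rfl fun b _ => ?_
        rw [Finset.mul_sum]
        refine Finset.sum_congr rfl fun c _ => ?_
        by_cases hx : ∃ x ∈ Lnk γ L b c, G cp η A m0 L M B F j b c x
        · rw [if_pos hx, if_pos ⟨(), Finset.mem_univ _, hx⟩]
          ring
        · rw [if_neg hx, if_neg (fun hh => hx hh.choose_spec.2), mul_zero]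
      · simp only [Finset.univ_unique, Finset.sum_const, Finset.card_singleton, one_smul]
        rw [hm]
    refine h3.trans ((mul_le_mul_of_nonneg_left h5 S.hL.le).trans ?_)
    have h6 : L * (K * (C1 * (1 + sA η) * (C0 * r ^ j) * m)) =
        ((K * (C1 * (1 + sA η)) * C0) * r ^ j) * (L * m) := by ring
    rw [h6]
    exact mul_le_of_le_one_right (by positivity) hmass
  refine h1.trans ((Finset.sum_le_sum h2).trans ?_)
  rw [← Finset.mul_sum]
  refine mul_le_mul_of_nonneg_left ?_ (by positivity)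
  refine (Finset.sum_le_sum_of_subset_of_nonneg (t := range (M + 1)) ?_ fun _ _ _ => by
    positivity).trans (sum_le_hasSum _ (fun n _ => pow_nonneg hr0.le n)
      (hasSum_geometric_of_lt_one hr0.le hr1))
  intro j hj
  rw [Finset.mem_Ico] at hj
  exact Finset.mem_range.2 hj.2

end Crest.Agent.R4C.BlkTotx48
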