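import Crest.Agent.R4C.Class4_992
import Crest.Agent.R4C.S2b_284

/-!
# Row 4: box counts of the rare and of the labelled words (helper473)

Every finite set `S` of coprime linked words `(u,v)` in one dyadic box `[2^a,2^(a+1)) × [2^b,2^(b+1))`:

* `boxD_rare`  : all words rare (284) ⇒ `card S * D ≤ 8 * 2^a * 2^b`;
* `boxD_lab`   : all words labelled, depth `≥ K`, not short (992) ⇒ `card S * K^(1/3) ≤ 5 * 2^a * 2^b`;
* `boxD_labd`  : the same in the language of 284 (`Labd`, `dep`, `IsShort`);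
* `boxD_class` : no word is dominant, every labelled word has depth `≥ K` ⇒
  `card S * min D (K^(1/3)) ≤ 8 * 2^a * 2^b`.
-/

set_option autoImplicit false

namespace Crest.Agent.R4C.BoxBrx473

open Crest.Agent.R4C.S2x232 Crest.Agent.R4C.Class2x992 Crest.Agent.R4C.Class3x992
  Crest.Agent.R4C.Class4x992 Crest.Agent.R4C.S2bx284

/-- `S` is a set of words of one dyadic box -/
def InBox (S : Finset (ℕ × ℕ)) (a b : ℕ) : Prop :=
  ∀ w ∈ S, 2 ^ a ≤ w.1 ∧ w.1 < 2 ^ (a + 1) ∧ 2 ^ b ≤ w.2 ∧ w.2 < 2 ^ (b + 1)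

lemma dy_eq {a u : ℕ} (h1 : 2 ^ a ≤ u) (h2 : u < 2 ^ (a + 1)) : dy u = 2 ^ a := by
  unfold dy
  congr 1
  exact Nat.log_eq_of_pow_le_of_lt_pow h1 h2

lemma card_le_boxN {S : Finset (ℕ × ℕ)} {a b : ℕ} (hS : InBox S a b) {ξ ξ' t : ℝ}
    (hN : ∀ w ∈ S, NN ξ ξ' t w.1 w.2) : S.card ≤ (boxN ξ ξ' t (2 ^ a) (2 ^ b)).card := by
  classical
  refine Finset.card_le_card fun w hw => ?_
  have h := hS w hw
  have e1 : 2 * 2 ^ a = 2 ^ (a + 1) := by rw [pow_succ]; ring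
  have e2 : 2 * 2 ^ b = 2 ^ (b + 1) := by rw [pow_succ]; ring
  rw [mem_boxN, e1, e2]
  exact ⟨⟨h.1, h.2.1⟩, ⟨h.2.2.1, h.2.2.2⟩, (hN w hw).2.2⟩

/-- one rare word makes the whole box rare -/
theorem boxD_rare' {S : Finset (ℕ × ℕ)} {a b : ℕ} (hS : InBox S a b) {ξ ξ' t D : ℝ} (hD : 0 < D)
    (hN : ∀ w ∈ S, NN ξ ξ' t w.1 w.2) {w0 : ℕ × ℕ} (h0 : w0 ∈ S)
    (hr : S2bx284.Rare ξ ξ' t D w0.1 w0.2) :
    (S.card : ℝ) * D ≤ 8 * 2 ^ a * 2 ^ b := by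
  have h := hS w0 h0
  unfold S2bx284.Rare at hr
  rw [dy_eq h.1 h.2.1, dy_eq h.2.2.1 h.2.2.2] at hr
  have h1 : (S.card : ℝ) ≤ ((boxN ξ ξ' t (2 ^ a) (2 ^ b)).card : ℝ) := by
    exact_mod_cast card_le_boxN hS hN
  have h2 : (S.card : ℝ) ≤ 8 * (2 : ℝ) ^ a * 2 ^ b / D := by
    refine h1.trans ?_
    have := hr
    push_cast at this
    exact this
  rw [le_div_iff₀ hD] at h2
  exact h2

/-- **rare words** -/
theorem boxD_rare {S : Finset (ℕ × ℕ)} {a b : ℕ} (hS : InBox S a b) {ξ ξ' t D : ℝ} (hD : 0 < D)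
    (hN : ∀ w ∈ S, NN ξ ξ' t w.1 w.2) (hr : ∀ w ∈ S, S2bx284.Rare ξ ξ' t D w.1 w.2) :
    (S.card : ℝ) * D ≤ 8 * 2 ^ a * 2 ^ b := by
  rcases S.eq_empty_or_nonempty with rfl | ⟨w0, h0⟩
  · simp only [Finset.card_empty, Nat.cast_zero, zero_mul]; positivity
  · exact boxD_rare' hS hD hN h0 (hr w0 h0)

/-- **labelled words of depth `≥ K` that are not short** -/
theorem boxD_lab {S : Finset (ℕ × ℕ)} {a b : ℕ} (hS : InBox S a b) {E t K ξ ξ' : ℝ}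
    (ht : 8 * E ^ 5 ≤ t) (hK : 64 ≤ K) (hc : ∀ w ∈ S, Nat.Coprime w.1 w.2)
    (hN : ∀ w ∈ S, NN ξ ξ' t w.1 w.2) (hL : ∀ w ∈ S, NotShort ξ ξ' t E K w.1 w.2) :
    (S.card : ℝ) * K ^ ((1 : ℝ) / 3) ≤ 5 * 2 ^ a * 2 ^ b := by
  have hK0 : 0 < K := by linarith
  have hK3 : 0 < K ^ ((1 : ℝ) / 3) := Real.rpow_pos_of_pos hK0 _
  rcases S.eq_empty_or_nonempty with rfl | ⟨w0, hw0⟩
  · simp only [Finset.card_empty, Nat.cast_zero, zero_mul]; positivity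
  obtain ⟨U, hUe⟩ : ∃ U : ℕ, U = 2 ^ a := ⟨_, rfl⟩
  obtain ⟨V, hVe⟩ : ∃ V : ℕ, V = 2 ^ b := ⟨_, rfl⟩
  have hU : 1 ≤ U := by rw [hUe]; exact Nat.one_le_two_pow
  have hV : 1 ≤ V := by rw [hVe]; exact Nat.one_le_two_pow
  have hb : ∀ w ∈ S, U ≤ w.1 ∧ w.1 < 2 * U ∧ V ≤ w.2 ∧ w.2 < 2 * V := by
    intro w hw
    have h := hS w hw
    have e1 : 2 * 2 ^ a = 2 ^ (a + 1) := by rw [pow_succ]; ring
    have e2 : 2 * 2 ^ b = 2 ^ (b + 1) := by rw [pow_succ]; ring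
    rw [hUe, hVe, e1, e2]
    exact h
  have hn : ∀ w ∈ S, near (w.1 * ξ - w.2 * ξ') (1 / t) := fun w hw => (hN w hw).2.2
  obtain ⟨A, k, A', k', hl, hl', hKd, hsh⟩ := hL w0 hw0
  have hE1 : 1 ≤ E := le_trans (by exact_mod_cast hl.1) hl.2.2.1
  have hE5 : E ^ 5 = E ^ 3 * E ^ 2 := by ring
  have hE2 : (1 : ℝ) ≤ E ^ 2 := one_le_pow₀ hE1
  have hE3 : (1 : ℝ) ≤ E ^ 3 := one_le_pow₀ hE1
  have hE35 : E ^ 3 ≤ E ^ 5 := by rw [hE5]; nlinarith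
  have ht' : E ^ 2 * (1 + 2 * E) < t := by
    have h1 : E ^ 2 ≤ E ^ 3 := by
      have : E ^ 3 = E ^ 2 * E := by ring
      rw [this]; nlinarith
    have h2 : E ^ 2 * (1 + 2 * E) = E ^ 2 + 2 * E ^ 3 := by ring
    rw [h2]
    nlinarith
  have ht0 : 0 < t := lt_of_le_of_lt (by positivity) ht'
  have hU0 : (0 : ℝ) < U := by exact_mod_cast hU
  have hV0 : (0 : ℝ) < V := by exact_mod_cast hV
  have hlab : ∀ {x : ℝ} {n : ℕ} {B : ℤ} {l : ℕ}, 1 ≤ n → Lab x E (E / (t * n)) B l →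
      Lab x E (E / t) B l := by
    intro x n B l hn1 h
    refine Class2x992.Lab.mono h le_rfl ?_
    have : (1 : ℝ) ≤ n := by exact_mod_cast hn1
    apply div_le_div_of_nonneg_left (by linarith) ht0
    nlinarith
  have hall : ∀ w ∈ S, Lab ξ E (E / (t * w.1)) A k ∧ Lab ξ' E (E / (t * w.2)) A' k' := by
    intro w hw
    obtain ⟨B, l, B', l', h1, h2, -, -⟩ := hL w hw
    have c1 := lab_unique hE1 ht (hlab (hU.trans (hb w hw).1) h1)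
      (hlab (hU.trans (hb w0 hw0).1) hl)
    have c2 := lab_unique hE1 ht (hlab (hV.trans (hb w hw).2.2.1) h2)
      (hlab (hV.trans (hb w0 hw0).2.2.1) hl')
    rw [c1.1, c1.2] at h1
    rw [c2.1, c2.2] at h2
    exact ⟨h1, h2⟩
  have hcount := label_count S hU hV ht' hb hc hn hall
  set Kb := depth ξ ξ' t A k A' k' U V with hKb
  have hcount' : (S.card : ℝ) ≤ 1 + 8 * U * V / Kb := hcount
  have hb0 := hb w0 hw0
  have u2 : (w0.1 : ℝ) ≤ 2 * U := by exact_mod_cast hb0.2.1.le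
  have v2 : (w0.2 : ℝ) ≤ 2 * V := by exact_mod_cast hb0.2.2.2.le
  have hKb2 : K / 2 ≤ Kb := by
    have h1 := depth_mono (ξ := ξ) (ξ' := ξ') (a := A) (k := k) (a' := A') (k' := k') ht0.le u2 v2
    have h2 := depth_double (ξ := ξ) (ξ' := ξ') (t := t) (a := A) (k := k) (a' := A') (k' := k')
      (u := U) (v := V)
    linarith
  have hKb0 : 0 < Kb := by linarith
  have hUV4 : K ^ ((1 : ℝ) / 3) ≤ 4 * (U * V) := by
    calc K ^ ((1 : ℝ) / 3) ≤ (depth ξ ξ' t A k A' k' w0.1 w0.2) ^ ((1 : ℝ) / 3) :=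
          Real.rpow_le_rpow hK0.le hKd (by norm_num)
      _ ≤ (w0.1 : ℝ) * w0.2 := hsh.le
      _ ≤ (2 * U) * (2 * V) := mul_le_mul u2 v2 (by positivity) (by positivity)
      _ = 4 * (U * V) := by ring
  have e1 : K = K ^ ((1 : ℝ) / 3) * K ^ ((2 : ℝ) / 3) := by
    rw [← Real.rpow_add hK0]; norm_num
  have e2 : (16 : ℝ) ≤ K ^ ((2 : ℝ) / 3) := by
    have : (16 : ℝ) = (64 : ℝ) ^ ((2 : ℝ) / 3) := by
      rw [show (64 : ℝ) = (4 : ℝ) ^ (3 : ℝ) by norm_num, ← Real.rpow_mul (by norm_num)]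
      norm_num
    rw [this]
    exact Real.rpow_le_rpow (by norm_num) hK (by norm_num)
  have hm2 : 16 * K ^ ((1 : ℝ) / 3) ≤ K := by
    calc 16 * K ^ ((1 : ℝ) / 3) = K ^ ((1 : ℝ) / 3) * 16 := by ring
      _ ≤ K ^ ((1 : ℝ) / 3) * K ^ ((2 : ℝ) / 3) := mul_le_mul_of_nonneg_left e2 hK3.le
      _ = K := e1.symm
  set κ : ℝ := K ^ ((1 : ℝ) / 3) with hκ
  have h3 : (8 * U * V / Kb) * κ ≤ U * V := by
    rw [div_mul_eq_mul_div, div_le_iff₀ hKb0]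
    have h4 : 16 * κ ≤ 2 * Kb := by linarith
    have h5 : (0 : ℝ) ≤ U * V := by positivity
    nlinarith
  calc (S.card : ℝ) * κ ≤ (1 + 8 * U * V / Kb) * κ := mul_le_mul_of_nonneg_right hcount' hK3.le
    _ = κ + (8 * U * V / Kb) * κ := by ring
    _ ≤ 4 * (U * V) + U * V := add_le_add hUV4 h3
    _ = 5 * U * V := by ring
    _ = 5 * 2 ^ a * 2 ^ b := by rw [hUe, hVe]; push_cast; ring

/-- depth (992) is the same number as `dep` (284) -/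
lemma depth_eq {ξ ξ' t : ℝ} (ht : 0 ≤ t) {A : ℤ} {k : ℕ} {A' : ℤ} {k' u v : ℕ} :
    depth ξ ξ' t A k A' k' u v = dep k k' t (ξ - A / k) (ξ' - A' / k') u v := by
  unfold depth dep
  rw [mul_max_of_nonneg _ _ ht, mul_assoc t, mul_assoc t]

lemma notShort_of {ξ ξ' t E K : ℝ} (ht : 0 ≤ t) (hK : 64 ≤ K) {A : ℤ} {k : ℕ} {A' : ℤ}
    {k' u v : ℕ} (hL : Labd ξ ξ' t E A k A' k' u v)
    (hd : K ≤ dep k k' t (ξ - A / k) (ξ' - A' / k') u v)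
    (hs : ¬ IsShort k k' t (ξ - A / k) (ξ' - A' / k') u v) : NotShort ξ ξ' t E K u v := by
  refine ⟨A, k, A', k', hL.1, hL.2, ?_, ?_⟩
  · rw [depth_eq ht]; exact hd
  · rw [depth_eq ht]
    set d := dep k k' t (ξ - A / k) (ξ' - A' / k') u v with hdd
    have hd64 : 64 ≤ d := hK.trans hd
    have h1 : d < ((u : ℝ) * v) ^ 3 := by
      by_contra hcon
      push Not at hcon
      exact hs ⟨hd64, hcon⟩
    have h2 : (0 : ℝ) ≤ (u : ℝ) * v := by positivity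
    calc d ^ ((1 : ℝ) / 3) < (((u : ℝ) * v) ^ 3) ^ ((1 : ℝ) / 3) :=
          Real.rpow_lt_rpow (by linarith) h1 (by norm_num)
      _ = (u : ℝ) * v := by
          rw [← Real.rpow_natCast, ← Real.rpow_mul h2]
          norm_num

/-- **labelled words, language of 284** -/
theorem boxD_labd {S : Finset (ℕ × ℕ)} {a b : ℕ} (hS : InBox S a b) {E t K ξ ξ' : ℝ}
    (ht0 : 0 ≤ t) (ht : 8 * E ^ 5 ≤ t) (hK : 64 ≤ K) (hc : ∀ w ∈ S, Nat.Coprime w.1 w.2)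
    (hN : ∀ w ∈ S, NN ξ ξ' t w.1 w.2)
    (hL : ∀ w ∈ S, ∃ (A : ℤ) (k : ℕ) (A' : ℤ) (k' : ℕ), Labd ξ ξ' t E A k A' k' w.1 w.2 ∧
      K ≤ dep k k' t (ξ - A / k) (ξ' - A' / k') w.1 w.2 ∧
      ¬ IsShort k k' t (ξ - A / k) (ξ' - A' / k') w.1 w.2) :
    (S.card : ℝ) * K ^ ((1 : ℝ) / 3) ≤ 5 * 2 ^ a * 2 ^ b :=
  boxD_lab hS ht hK hc hN fun w hw => by
    obtain ⟨A, k, A', k', h1, h2, h3⟩ := hL w hw
    exact notShort_of ht0 hK h1 h2 h3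

/-- **all non-dominant words**: rare or labelled of depth `≥ K` -/
theorem boxD_class {S : Finset (ℕ × ℕ)} {a b : ℕ} (hS : InBox S a b) {D t K ξ ξ' : ℝ}
    (hD : 4 ≤ D) (ht : 8 * (4 * D ^ 8) ^ 5 ≤ t) (hK : 64 ≤ K)
    (hc : ∀ w ∈ S, Nat.Coprime w.1 w.2) (hN : ∀ w ∈ S, NN ξ ξ' t w.1 w.2)
    (hdom : ∀ w ∈ S, ¬ Dom ξ ξ' t w.1 w.2)
    (hL : ∀ w ∈ S, ∀ (A : ℤ) (k : ℕ) (A' : ℤ) (k' : ℕ), Labd ξ ξ' t (4 * D ^ 8) A k A' k' w.1 w.2 →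
      K ≤ dep k k' t (ξ - A / k) (ξ' - A' / k') w.1 w.2) :
    (S.card : ℝ) * min D (K ^ ((1 : ℝ) / 3)) ≤ 8 * 2 ^ a * 2 ^ b := by
  have hD0 : 0 < D := by linarith
  have ht0 : 0 ≤ t := le_trans (by positivity) ht
  have hcard : (0 : ℝ) ≤ (S.card : ℝ) := Nat.cast_nonneg _
  by_cases hr : ∃ w ∈ S, S2bx284.Rare ξ ξ' t D w.1 w.2
  · obtain ⟨w, hw, h⟩ := hr
    exact (mul_le_mul_of_nonneg_left (min_le_left _ _) hcard).trans (boxD_rare' hS hD0 hN hw h)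
  · push Not at hr
    have h1 := boxD_labd (E := 4 * D ^ 8) hS ht0 ht hK hc hN fun w hw => by
      rcases classify_dom hD ht (hc w hw) (hN w hw) with h | h | ⟨A, k, A', k', h1, -, h3⟩
      · exact absurd h (hr w hw)
      · exact absurd h (hdom w hw)
      · exact ⟨A, k, A', k', h1, hL w hw A k A' k' h1, h3⟩
    refine (mul_le_mul_of_nonneg_left (min_le_right _ _) hcard).trans (h1.trans ?_)
    have : (0 : ℝ) ≤ 2 ^ a * 2 ^ b := by positivity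
    nlinarith

end Crest.Agent.R4C.BoxBrx473
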