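import Crest.Agent.R4C.PowR_473
import Crest.Agent.R4C.Rare_473

/-!
# Row 4: natural density of a box-rare relation in the leaf models of THEOREM (R) (helper590)

General exponents.  In the model `(Ma, Mz, H, h, h')` of `PowR_473.LeafB` the pair `b, c ∣ Mz`
(level with `H`) has coprime cofactors `b/gcd = λ_b l_c`, `c/gcd = λ_c l_b`; the factorisation is
not unique if `0 < v_p(H) < v_p(Mz)`, which costs a divisor function.  Cauchy-Schwarz with the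
Rankin exponent `1/log Y` gives the model density

`ρ ≤ C (v v')^{1/2} D^{-1/2} (log Y)^5`,   `v = h/(h,h')`, `v' = h'/(h,h')`,

for every kernel `0 ≤ K ≤ 1` supported on pairs whose cofactors lie in a relation with
`#(R ∩ box) ≤ 8 |box| / D` (`BoxD`).
-/

set_option autoImplicit false

namespace Crest.Agent.R4C.LeafTaux590

open Finset Crest.Agent.R4C.Basex935 Crest.Agent.R4C.ThmRx19 Crest.Agent.R4C.PowRx473

/-- box count of a relation on coprime pairs of divisors of `M` -/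
def BoxD (M : ℕ) (R0 : ℕ → ℕ → Prop) (D : ℝ) : Prop :=
  ∀ (i j : ℕ) (S : Finset (ℕ × ℕ)),
    (∀ w ∈ S, w.1 ∣ M ∧ w.2 ∣ M ∧ Nat.Coprime w.1 w.2 ∧ R0 w.1 w.2 ∧
      2 ^ i ≤ w.1 ∧ w.1 < 2 ^ (i + 1) ∧ 2 ^ j ≤ w.2 ∧ w.2 < 2 ^ (j + 1)) →
    (S.card : ℝ) * D ≤ 8 * 2 ^ i * 2 ^ j

/-! ### arithmetic of the model -/

/-- the up-part of `b` over the centre `H` -/
def lb (H b : ℕ) : ℕ := b / Nat.gcd b H

lemma ub_pos {H b : ℕ} (hH : 0 < H) : 0 < ub H b := by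
  unfold ub
  exact Nat.div_pos (Nat.le_of_dvd hH (Nat.gcd_dvd_right b H)) (Nat.gcd_pos_of_pos_right b hH)

lemma lb_pos {H b : ℕ} (hb : 0 < b) : 0 < lb H b := by
  unfold lb
  exact Nat.div_pos (Nat.le_of_dvd hb (Nat.gcd_dvd_left b H)) (Nat.gcd_pos_of_pos_left H hb)

lemma lb_mul (H b : ℕ) : Nat.gcd b H * lb H b = b := Nat.mul_div_cancel' (Nat.gcd_dvd_left b H)

lemma ub_mul (H b : ℕ) : Nat.gcd b H * ub H b = H := Nat.mul_div_cancel' (Nat.gcd_dvd_right b H)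

lemma cross_eq (H b : ℕ) : b * ub H b = H * lb H b := by
  calc b * ub H b = (Nat.gcd b H * lb H b) * ub H b := by rw [lb_mul]
    _ = (Nat.gcd b H * ub H b) * lb H b := by ring
    _ = H * lb H b := by rw [ub_mul]

lemma wb_le {Mz H b : ℕ} (hMz : 0 < Mz) (hb : b ∣ Mz) : wb Mz H b ≤ 1 / (lb H b : ℝ) := by
  have hb0 : 0 < b := Nat.pos_of_dvd_of_pos hb hMz
  have hl0 : (0 : ℝ) < lb H b := by exact_mod_cast lb_pos (H := H) hb0
  have hg0 : (0 : ℝ) < (Nat.gcd b H : ℝ) := by exact_mod_cast Nat.gcd_pos_of_pos_left H hb0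
  have h1 := Rarex473.nu_le_inv hMz hb
  have h2 : (Nat.gcd b H : ℝ) * (lb H b : ℝ) = b := by exact_mod_cast lb_mul H b
  unfold wb
  calc (Nat.gcd b H : ℝ) * nu Mz b ≤ (Nat.gcd b H : ℝ) * (1 / (b : ℝ)) :=
        mul_le_mul_of_nonneg_left h1 hg0.le
    _ = 1 / (lb H b : ℝ) := by rw [← h2]; field_simp

/-- the cofactors of a level pair -/
lemma cof_lvl {Mz H b c : ℕ} (hMz : 0 < Mz) (hb : b ∣ Mz) (hc : c ∣ Mz) (hH : H ∣ Mz)
    (hl : lvl Mz H b c) : b / Nat.gcd b c = lb H b * ub H c := by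
  have hb0 : b ≠ 0 := (Nat.pos_of_dvd_of_pos hb hMz).ne'
  have hc0 : c ≠ 0 := (Nat.pos_of_dvd_of_pos hc hMz).ne'
  have hH0 : H ≠ 0 := (Nat.pos_of_dvd_of_pos hH hMz).ne'
  have h1 : b / Nat.gcd b c ≠ 0 :=
    (Nat.div_pos (Nat.le_of_dvd (Nat.pos_of_ne_zero hb0) (Nat.gcd_dvd_left b c))
      (Nat.gcd_pos_of_pos_left c (Nat.pos_of_ne_zero hb0))).ne'
  have h2 : lb H b ≠ 0 := (lb_pos (Nat.pos_of_ne_zero hb0)).ne'
  have h3 : ub H c ≠ 0 := (ub_pos (Nat.pos_of_ne_zero hH0)).ne'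
  apply Nat.eq_of_factorization_eq h1 (mul_ne_zero h2 h3)
  intro p
  rw [Nat.factorization_mul h2 h3]
  unfold lb ub
  rw [Nat.factorization_div (Nat.gcd_dvd_left b c),
    Nat.factorization_div (Nat.gcd_dvd_left b H), Nat.factorization_div (Nat.gcd_dvd_right c H),
    Nat.factorization_gcd hb0 hc0, Nat.factorization_gcd hb0 hH0, Nat.factorization_gcd hc0 hH0]
  simp only [Finsupp.coe_tsub, Pi.sub_apply, Finsupp.inf_apply, Finsupp.add_apply]
  by_cases hp : p ∈ Mz.primeFactors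
  · rcases hl p hp with h | h <;> omega
  · have e : ∀ x : ℕ, x ∣ Mz → x.factorization p = 0 := by
      intro x hx
      by_contra hne
      apply hp
      have hpx : p ∈ x.primeFactors := by
        rw [← Nat.support_factorization]; exact Finsupp.mem_support_iff.2 hne
      exact Nat.primeFactors_mono hx hMz.ne' hpx
    rw [e b hb, e c hc, e H hH]
    rfl

lemma lvl_symm {Mz H b c : ℕ} (h : lvl Mz H b c) : lvl Mz H c b := fun p hp => (h p hp).symm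

/-- cofactors in the model `(Ma, Mz, h, h')` -/
lemma cof_mul {Ma Mz h h' b c : ℕ} (hco : Nat.Coprime Ma Mz) (hh : h ∣ Ma) (hh' : h' ∣ Ma)
    (hb : b ∣ Mz) (hc : c ∣ Mz) :
    (h * b) / Nat.gcd (h * b) (h' * c) = (h / Nat.gcd h h') * (b / Nat.gcd b c) := by
  have c1 : Nat.Coprime h' c := Nat.Coprime.coprime_dvd_left hh' (Nat.Coprime.coprime_dvd_right hc hco)
  have c2 : Nat.Coprime b h' :=
    (Nat.Coprime.coprime_dvd_left hh' (Nat.Coprime.coprime_dvd_right hb hco)).symm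
  have c3 : Nat.Coprime h c := Nat.Coprime.coprime_dvd_left hh (Nat.Coprime.coprime_dvd_right hc hco)
  have e : Nat.gcd (h * b) (h' * c) = Nat.gcd h h' * Nat.gcd b c := by
    rw [Nat.Coprime.gcd_mul _ c1, Nat.Coprime.gcd_mul_right_cancel h c2,
      Nat.Coprime.gcd_mul_left_cancel b c3]
  rw [e]
  exact Nat.mul_div_mul_comm (Nat.gcd_dvd_left h h') (Nat.gcd_dvd_left b c)

/-- multiplicity of the factorisation -/
lemma fib_card {Mz H : ℕ} (hMz : 0 < Mz) (hH : H ∣ Mz) (X : Finset (ℕ × ℕ))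
    (hX : ∀ w ∈ X, w.1 ∣ Mz ∧ w.2 ∣ Mz ∧ lvl Mz H w.1 w.2) (n n' : ℕ) (hn : 0 < n) (hn' : 0 < n') :
    (X.filter (fun w => (w.1 / Nat.gcd w.1 w.2, w.2 / Nat.gcd w.1 w.2) = (n, n'))).card ≤
      n.divisors.card * n'.divisors.card := by
  rw [← Finset.card_product]
  refine Finset.card_le_card_of_injOn (fun w => (lb H w.1, ub H w.1)) ?_ ?_
  · intro w hw
    have hw' := Finset.mem_filter.1 (Finset.mem_coe.1 hw)
    obtain ⟨h1, h2, h3⟩ := hX w hw'.1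
    have e1 : w.1 / Nat.gcd w.1 w.2 = n := congrArg Prod.fst hw'.2
    have e2 : w.2 / Nat.gcd w.1 w.2 = n' := congrArg Prod.snd hw'.2
    rw [cof_lvl hMz h1 h2 hH h3] at e1
    rw [Nat.gcd_comm, cof_lvl hMz h2 h1 hH (lvl_symm h3)] at e2
    rw [Finset.mem_coe, Finset.mem_product, Nat.mem_divisors, Nat.mem_divisors]
    exact ⟨⟨Dvd.intro _ e1, hn.ne'⟩, ⟨Dvd.intro_left _ e2, hn'.ne'⟩⟩
  · intro w hw z hz hwz
    have hw' := Finset.mem_filter.1 (Finset.mem_coe.1 hw)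
    have hz' := Finset.mem_filter.1 (Finset.mem_coe.1 hz)
    obtain ⟨h1, h2, h3⟩ := hX w hw'.1
    obtain ⟨k1, k2, k3⟩ := hX z hz'.1
    have hH0 : 0 < H := Nat.pos_of_dvd_of_pos hH hMz
    have a1 : lb H w.1 = lb H z.1 := congrArg Prod.fst hwz
    have a2 : ub H w.1 = ub H z.1 := congrArg Prod.snd hwz
    have hfst : w.1 = z.1 := by
      have c1 := cross_eq H w.1
      have c2 := cross_eq H z.1
      rw [a1, a2] at c1
      have : w.1 * ub H z.1 = z.1 * ub H z.1 := by rw [c1, c2]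
      exact Nat.eq_of_mul_eq_mul_right (ub_pos hH0) this
    have e1 : w.1 / Nat.gcd w.1 w.2 = n := congrArg Prod.fst hw'.2
    have e2 : w.2 / Nat.gcd w.1 w.2 = n' := congrArg Prod.snd hw'.2
    have f1 : z.1 / Nat.gcd z.1 z.2 = n := congrArg Prod.fst hz'.2
    have f2 : z.2 / Nat.gcd z.1 z.2 = n' := congrArg Prod.snd hz'.2
    have g1 : Nat.gcd w.1 w.2 * n = w.1 := by rw [← e1]; exact Nat.mul_div_cancel' (Nat.gcd_dvd_left _ _)
    have g2 : Nat.gcd w.1 w.2 * n' = w.2 := by rw [← e2]; exact Nat.mul_div_cancel' (Nat.gcd_dvd_right _ _)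
    have g3 : Nat.gcd z.1 z.2 * n = z.1 := by rw [← f1]; exact Nat.mul_div_cancel' (Nat.gcd_dvd_left _ _)
    have g4 : Nat.gcd z.1 z.2 * n' = z.2 := by rw [← f2]; exact Nat.mul_div_cancel' (Nat.gcd_dvd_right _ _)
    have g5 : Nat.gcd w.1 w.2 = Nat.gcd z.1 z.2 := by
      apply Nat.eq_of_mul_eq_mul_right hn
      rw [g1, g3, hfst]
    refine Prod.ext hfst ?_
    rw [← g2, ← g4, g5]

/-! ### box sums with Rankin weight -/

lemma geo_le {r : ℝ} (h0 : 0 ≤ r) (h1 : r < 1) (n : ℕ) : ∑ i ∈ range n, r ^ i ≤ 1 / (1 - r) := by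
  have := (summable_geometric_of_lt_one h0 h1).sum_le_tsum (range n) (fun i _ => pow_nonneg h0 i)
  rwa [tsum_geometric_of_lt_one h0 h1, ← one_div] at this

/-- a box count `≤ B |box|` gives `∑ (n n')^{-1-κ} ≤ B (1 - 2^{-κ})^{-2}` -/
lemma box_rankin {κ B : ℝ} (hκ : 0 < κ) (hB : 0 ≤ B) (W : Finset (ℕ × ℕ))
    (hpos : ∀ w ∈ W, 0 < w.1 ∧ 0 < w.2)
    (hbox : ∀ i j : ℕ, ((W.filter (fun w => (Nat.log 2 w.1, Nat.log 2 w.2) = (i, j))).card : ℝ) ≤
      B * 2 ^ i * 2 ^ j) :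
    ∑ w ∈ W, ((w.1 : ℝ) * w.2) ^ (-(1 + κ)) ≤ B * (1 / (1 - 2 ^ (-κ))) ^ 2 := by
  classical
  set r : ℝ := (2 : ℝ) ^ (-κ) with hr
  have hr0 : 0 ≤ r := by rw [hr]; positivity
  have hr1 : r < 1 := Real.rpow_lt_one_of_one_lt_of_neg (by norm_num) (by linarith)
  obtain ⟨N, hN⟩ : ∃ N : ℕ, ∀ w ∈ W, w.1 < N ∧ w.2 < N := by
    refine ⟨W.sup (fun w => w.1 + w.2) + 1, fun w hw => ?_⟩
    have h2 : w.1 + w.2 ≤ W.sup (fun w => w.1 + w.2) :=
      Finset.le_sup (f := fun w : ℕ × ℕ => w.1 + w.2) hw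
    omega
  have hmaps : ∀ w ∈ W, (Nat.log 2 w.1, Nat.log 2 w.2) ∈ range N ×ˢ range N := by
    intro w hw
    obtain ⟨h1, h2⟩ := hN w hw
    rw [Finset.mem_product, Finset.mem_range, Finset.mem_range]
    exact ⟨(Nat.log_le_self 2 _).trans_lt h1, (Nat.log_le_self 2 _).trans_lt h2⟩
  rw [← Finset.sum_fiberwise_of_maps_to hmaps]
  have hcell : ∀ ij ∈ range N ×ˢ range N,
      ∑ w ∈ W.filter (fun w => (Nat.log 2 w.1, Nat.log 2 w.2) = ij), ((w.1 : ℝ) * w.2) ^ (-(1 + κ)) ≤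
        B * (r ^ ij.1 * r ^ ij.2) := by
    intro ij _
    have hterm : ∀ w ∈ W.filter (fun w => (Nat.log 2 w.1, Nat.log 2 w.2) = ij),
        ((w.1 : ℝ) * w.2) ^ (-(1 + κ)) ≤ ((2 : ℝ) ^ ij.1 * 2 ^ ij.2) ^ (-(1 + κ)) := by
      intro w hw
      obtain ⟨hw1, hw2⟩ := Finset.mem_filter.1 hw
      obtain ⟨p1, p2⟩ := hpos w hw1
      have e1 : Nat.log 2 w.1 = ij.1 := by rw [← hw2]
      have e2 : Nat.log 2 w.2 = ij.2 := by rw [← hw2]
      have q1 : (2 : ℝ) ^ ij.1 ≤ w.1 := by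
        rw [← e1]; exact_mod_cast Nat.pow_log_le_self 2 p1.ne'
      have q2 : (2 : ℝ) ^ ij.2 ≤ w.2 := by
        rw [← e2]; exact_mod_cast Nat.pow_log_le_self 2 p2.ne'
      exact Real.rpow_le_rpow_of_nonpos (by positivity)
        (mul_le_mul q1 q2 (by positivity) (Nat.cast_nonneg _)) (by linarith)
    refine (Finset.sum_le_sum hterm).trans ?_
    rw [Finset.sum_const, nsmul_eq_mul]
    have hc := hbox ij.1 ij.2
    have hP : (0 : ℝ) < (2 : ℝ) ^ ij.1 * 2 ^ ij.2 := by positivity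
    refine (mul_le_mul_of_nonneg_right hc (Real.rpow_nonneg hP.le _)).trans (le_of_eq ?_)
    have e3 : ((2 : ℝ) ^ ij.1 * 2 ^ ij.2) ^ (-(1 + κ)) =
        ((2 : ℝ) ^ ij.1 * 2 ^ ij.2)⁻¹ * (r ^ ij.1 * r ^ ij.2) := by
      rw [show -(1 + κ) = (-1 : ℝ) + (-κ) by ring, Real.rpow_add hP, Real.rpow_neg_one]
      congr 1
      rw [Real.mul_rpow (by positivity) (by positivity), hr, ← Real.rpow_natCast,
        ← Real.rpow_natCast, ← Real.rpow_natCast, ← Real.rpow_natCast,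
        ← Real.rpow_mul (by norm_num), ← Real.rpow_mul (by norm_num),
        ← Real.rpow_mul (by norm_num), ← Real.rpow_mul (by norm_num), mul_comm (-κ),
        mul_comm (-κ)]
    rw [e3]
    field_simp
  refine (Finset.sum_le_sum hcell).trans ?_
  rw [← Finset.mul_sum, Finset.sum_product]
  refine mul_le_mul_of_nonneg_left ?_ hB
  have hg := geo_le hr0 hr1 N
  have hg0 : 0 ≤ ∑ i ∈ range N, r ^ i := Finset.sum_nonneg fun i _ => pow_nonneg hr0 i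
  calc ∑ x ∈ range N, ∑ y ∈ range N, r ^ (x, y).1 * r ^ (x, y).2
      = (∑ i ∈ range N, r ^ i) * ∑ j ∈ range N, r ^ j := by rw [Finset.sum_mul_sum]
    _ ≤ (1 / (1 - r)) * (1 / (1 - r)) := mul_le_mul hg hg hg0 (hg0.trans hg)
    _ = (1 / (1 - r)) ^ 2 := by ring

/-- the box count of the words `(n, n')` with `(v n, v' n')` in a relation with `BoxD` -/
lemma box_shift {M : ℕ} {R0 : ℕ → ℕ → Prop} {D : ℝ} (hD : 0 < D) (hR : BoxD M R0 D) {v v' : ℕ}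
    (hv : 0 < v) (hv' : 0 < v') (W : Finset (ℕ × ℕ))
    (hW : ∀ w ∈ W, 0 < w.1 ∧ 0 < w.2 ∧ v * w.1 ∣ M ∧ v' * w.2 ∣ M ∧
      Nat.Coprime (v * w.1) (v' * w.2) ∧ R0 (v * w.1) (v' * w.2)) (i j : ℕ) :
    ((W.filter (fun w => (Nat.log 2 w.1, Nat.log 2 w.2) = (i, j))).card : ℝ) ≤
      72 * (v * v') / D * 2 ^ i * 2 ^ j := by
  classical
  set e : ℕ := Nat.log 2 (v * 2 ^ i) with he
  set e' : ℕ := Nat.log 2 (v' * 2 ^ j) with he'
  have hp : 0 < v * 2 ^ i := Nat.mul_pos hv (Nat.two_pow_pos i)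
  have hp' : 0 < v' * 2 ^ j := Nat.mul_pos hv' (Nat.two_pow_pos j)
  have b1 : 2 ^ e ≤ v * 2 ^ i := Nat.pow_log_le_self 2 hp.ne'
  have b1' : 2 ^ e' ≤ v' * 2 ^ j := Nat.pow_log_le_self 2 hp'.ne'
  have b2 : v * 2 ^ i < 2 ^ (e + 1) := Nat.lt_pow_succ_log_self (by norm_num) _
  have b2' : v' * 2 ^ j < 2 ^ (e' + 1) := Nat.lt_pow_succ_log_self (by norm_num) _
  set V := W.filter (fun w => (Nat.log 2 w.1, Nat.log 2 w.2) = (i, j)) with hV
  set G : ℕ → ℕ → Finset (ℕ × ℕ) := fun x y =>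
    (V.image (fun w => (v * w.1, v' * w.2))).filter (fun z => Nat.log 2 z.1 = x ∧ Nat.log 2 z.2 = y)
    with hG
  have hinj : Set.InjOn (fun w : ℕ × ℕ => (v * w.1, v' * w.2)) (V : Set (ℕ × ℕ)) := by
    intro w _ z _ h
    have h1 : v * w.1 = v * z.1 := congrArg Prod.fst h
    have h2 : v' * w.2 = v' * z.2 := congrArg Prod.snd h
    exact Prod.ext (Nat.eq_of_mul_eq_mul_left hv h1) (Nat.eq_of_mul_eq_mul_left hv' h2)
  have hcard : V.card = (V.image (fun w => (v * w.1, v' * w.2))).card :=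
    (Finset.card_image_of_injOn hinj).symm
  have hGb : ∀ x y, ((G x y).card : ℝ) ≤ 8 * 2 ^ x * 2 ^ y / D := by
    intro x y
    rw [le_div_iff₀ hD]
    refine hR x y (G x y) ?_
    intro z hz
    obtain ⟨hz1, hz2, hz3⟩ := Finset.mem_filter.1 hz
    obtain ⟨w, hw, rfl⟩ := Finset.mem_image.1 hz1
    obtain ⟨c1, c2, c3, c4, c5, c6⟩ := hW w (Finset.mem_filter.1 hw).1
    have q1 : 0 < v * w.1 := Nat.mul_pos hv c1
    have q2 : 0 < v' * w.2 := Nat.mul_pos hv' c2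
    refine ⟨c3, c4, c5, c6, ?_, ?_, ?_, ?_⟩
    · rw [← hz2]; exact Nat.pow_log_le_self 2 q1.ne'
    · rw [← hz2]; exact Nat.lt_pow_succ_log_self (by norm_num) _
    · rw [← hz3]; exact Nat.pow_log_le_self 2 q2.ne'
    · rw [← hz3]; exact Nat.lt_pow_succ_log_self (by norm_num) _
  have hcov : V.image (fun w => (v * w.1, v' * w.2)) ⊆
      (G e e' ∪ G (e + 1) e') ∪ (G e (e' + 1) ∪ G (e + 1) (e' + 1)) := by
    intro z hz
    obtain ⟨w, hw, rfl⟩ := Finset.mem_image.1 hz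
    obtain ⟨hw1, hw2⟩ := Finset.mem_filter.1 hw
    obtain ⟨c1, c2, -, -, -, -⟩ := hW w hw1
    have f1 : Nat.log 2 w.1 = i := congrArg Prod.fst hw2
    have f2 : Nat.log 2 w.2 = j := congrArg Prod.snd hw2
    have g1 : 2 ^ i ≤ w.1 := by rw [← f1]; exact Nat.pow_log_le_self 2 c1.ne'
    have g2 : w.1 < 2 ^ (i + 1) := by rw [← f1]; exact Nat.lt_pow_succ_log_self (by norm_num) _
    have g3 : 2 ^ j ≤ w.2 := by rw [← f2]; exact Nat.pow_log_le_self 2 c2.ne'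
    have g4 : w.2 < 2 ^ (j + 1) := by rw [← f2]; exact Nat.lt_pow_succ_log_self (by norm_num) _
    have q1 : v * w.1 ≠ 0 := (Nat.mul_pos hv c1).ne'
    have q2 : v' * w.2 ≠ 0 := (Nat.mul_pos hv' c2).ne'
    have l1 : e ≤ Nat.log 2 (v * w.1) :=
      Nat.log_mono_right (Nat.mul_le_mul_left v g1)
    have l1' : e' ≤ Nat.log 2 (v' * w.2) :=
      Nat.log_mono_right (Nat.mul_le_mul_left v' g3)
    have l2 : Nat.log 2 (v * w.1) < e + 2 := by
      apply Nat.log_lt_of_lt_pow q1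
      have h1 : v * w.1 ≤ v * 2 ^ (i + 1) := Nat.mul_le_mul_left v g2.le
      have h2 : v * 2 ^ (i + 1) = 2 * (v * 2 ^ i) := by rw [pow_succ]; ring
      have h3 : 2 ^ (e + 2) = 2 * 2 ^ (e + 1) := by rw [pow_succ 2 (e + 1)]; ring
      omega
    have l2' : Nat.log 2 (v' * w.2) < e' + 2 := by
      apply Nat.log_lt_of_lt_pow q2
      have h1 : v' * w.2 ≤ v' * 2 ^ (j + 1) := Nat.mul_le_mul_left v' g4.le
      have h2 : v' * 2 ^ (j + 1) = 2 * (v' * 2 ^ j) := by rw [pow_succ]; ring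
      have h3 : 2 ^ (e' + 2) = 2 * 2 ^ (e' + 1) := by rw [pow_succ 2 (e' + 1)]; ring
      omega
    simp only [hG, Finset.mem_union, Finset.mem_filter]
    have hmem : (v * w.1, v' * w.2) ∈ V.image (fun w => (v * w.1, v' * w.2)) := hz
    have m1 : Nat.log 2 (v * w.1) = e ∨ Nat.log 2 (v * w.1) = e + 1 := by omega
    have m2 : Nat.log 2 (v' * w.2) = e' ∨ Nat.log 2 (v' * w.2) = e' + 1 := by omega
    rcases m1 with m1 | m1 <;> rcases m2 with m2 | m2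
    · exact Or.inl (Or.inl ⟨hmem, m1, m2⟩)
    · exact Or.inr (Or.inl ⟨hmem, m1, m2⟩)
    · exact Or.inl (Or.inr ⟨hmem, m1, m2⟩)
    · exact Or.inr (Or.inr ⟨hmem, m1, m2⟩)
  have hc1 : (V.card : ℝ) ≤ ((G e e').card + (G (e + 1) e').card) +
      ((G e (e' + 1)).card + (G (e + 1) (e' + 1)).card) := by
    rw [hcard]
    have := (Finset.card_le_card hcov).trans ((Finset.card_union_le _ _).trans
      (Nat.add_le_add (Finset.card_union_le _ _) (Finset.card_union_le _ _)))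
    exact_mod_cast this
  have k1 := hGb e e'
  have k2 := hGb (e + 1) e'
  have k3 := hGb e (e' + 1)
  have k4 := hGb (e + 1) (e' + 1)
  have r1 : (2 : ℝ) ^ e ≤ v * 2 ^ i := by exact_mod_cast b1
  have r1' : (2 : ℝ) ^ e' ≤ v' * 2 ^ j := by exact_mod_cast b1'
  have hsum : (V.card : ℝ) ≤ 72 * (2 ^ e * 2 ^ e') / D := by
    have : 8 * 2 ^ e * 2 ^ e' / D + 8 * 2 ^ (e + 1) * 2 ^ e' / D +
        (8 * 2 ^ e * 2 ^ (e' + 1) / D + 8 * 2 ^ (e + 1) * 2 ^ (e' + 1) / D) =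
        72 * (2 ^ e * 2 ^ e') / D := by
      rw [pow_succ, pow_succ]; ring
    linarith
  refine hsum.trans ?_
  have hm : (2 : ℝ) ^ e * 2 ^ e' ≤ (v * 2 ^ i) * (v' * 2 ^ j) :=
    mul_le_mul r1 r1' (by positivity) (by positivity)
  calc 72 * ((2 : ℝ) ^ e * 2 ^ e') / D ≤ 72 * ((v * 2 ^ i) * (v' * 2 ^ j)) / D := by
        gcongr
    _ = 72 * (v * v') / D * 2 ^ i * 2 ^ j := by ring

end Crest.Agent.R4C.LeafTaux590
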