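import Crest.Agent.R4C.BoxBr_473
import Crest.Agent.R4C.LeafTau_590
import Crest.Agent.R4C.TauMom_590

/-!
# Row 4: box counts (`BoxD`) of the relations of the low kernel of MX (helper808)

Everything over the divisors of an arbitrary `N` (in MX: `N = low y M`), targets `ξ, ξ'` fixed.

* `BoxD.mono`, `BoxD.anti` : monotonicity in the relation and in `D`;
* `boxD_notShort`, `boxD_deep` : labelled, not short, depth `≥ K`: `BoxD N _ (K^(1/3))`;
* `boxD_rare` : 284's rare boxes: `BoxD N _ D`;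
* `boxD_size` : `A ≤ u` and all primes of `N` are `≤ Y`: `BoxD N _ (A^(1/log Y) / (C (log Y)^4))`
  (Rankin); `boxD_size'` the same for `v`.
-/

set_option autoImplicit false

namespace Crest.Agent.R4C.BoxLowx808

open Finset S2x232 LeafTaux590

lemma BoxD.anti {N : ℕ} {R R' : ℕ → ℕ → Prop} {D : ℝ} (h : BoxD N R D)
    (hR : ∀ u v, u ∣ N → v ∣ N → Nat.Coprime u v → R' u v → R u v) : BoxD N R' D := by
  intro i j S hS
  refine h i j S fun w hw => ?_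
  obtain ⟨h1, h2, h3, h4, h5⟩ := hS w hw
  exact ⟨h1, h2, h3, hR _ _ h1 h2 h3 h4, h5⟩

lemma BoxD.mono {N : ℕ} {R : ℕ → ℕ → Prop} {D D' : ℝ} (h : BoxD N R D) (hD : D' ≤ D) :
    BoxD N R D' := by
  intro i j S hS
  refine le_trans ?_ (h i j S hS)
  exact mul_le_mul_of_nonneg_left hD (Nat.cast_nonneg _)

/-- a relation implied by two relations: the larger `D` -/
lemma BoxD.inf {N : ℕ} {R R' : ℕ → ℕ → Prop} {D D' : ℝ} (h : BoxD N R D) (h' : BoxD N R' D') :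
    BoxD N (fun u v => R u v ∧ R' u v) (max D D') := by
  rcases le_total D D' with hd | hd
  · rw [max_eq_right hd]
    exact BoxD.anti h' fun _ _ _ _ _ hr => hr.2
  · rw [max_eq_left hd]
    exact BoxD.anti h fun _ _ _ _ _ hr => hr.1

/-- labelled words of depth `≥ K` which are not short (992) -/
theorem boxD_notShort (N : ℕ) {E t K ξ ξ' : ℝ} (ht : 8 * E ^ 5 ≤ t) (hK : 64 ≤ K) :
    BoxD N (fun u v => NN ξ ξ' t u v ∧ Class4x992.NotShort ξ ξ' t E K u v) (K ^ ((1 : ℝ) / 3)) := by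
  intro i j S hS
  have h := BoxBrx473.boxD_lab (S := S) (a := i) (b := j)
    (fun w hw => (hS w hw).2.2.2.2) ht hK (fun w hw => (hS w hw).2.2.1)
    (fun w hw => (hS w hw).2.2.2.1.1) (fun w hw => (hS w hw).2.2.2.1.2)
  refine h.trans ?_
  have : (0 : ℝ) ≤ 2 ^ i * 2 ^ j := by positivity
  nlinarith

/-- labelled words of depth `≥ K` which are not short (284) -/
theorem boxD_deep (N : ℕ) {E t K ξ ξ' : ℝ} (ht : 8 * E ^ 5 ≤ t) (ht0 : 0 ≤ t) (hK : 64 ≤ K) :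
    BoxD N (fun u v => NN ξ ξ' t u v ∧ ∃ (a : ℤ) (k : ℕ) (a' : ℤ) (k' : ℕ),
      S2bx284.Labd ξ ξ' t E a k a' k' u v ∧
      ¬ S2bx284.IsShort k k' t (ξ - a / k) (ξ' - a' / k') u v ∧
      K ≤ S2bx284.dep k k' t (ξ - a / k) (ξ' - a' / k') u v) (K ^ ((1 : ℝ) / 3)) := by
  refine BoxD.anti (boxD_notShort N ht hK) fun u v _ _ _ h => ⟨h.1, ?_⟩
  obtain ⟨_, a, k, a', k', hL, hs, hd⟩ := h
  exact BoxBrx473.notShort_of ht0 hK hL hd hs

/-- rare boxes (284) -/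
theorem boxD_rare (N : ℕ) {t D ξ ξ' : ℝ} (hD : 0 < D) :
    BoxD N (fun u v => NN ξ ξ' t u v ∧ S2bx284.Rare ξ ξ' t D u v) D := by
  intro i j S hS
  exact BoxBrx473.boxD_rare (S := S) (a := i) (b := j) (fun w hw => (hS w hw).2.2.2.2) hD
    (fun w hw => (hS w hw).2.2.2.1.1) (fun w hw => (hS w hw).2.2.2.1.2)

/-- number of divisors of a `Y`-smooth `N` in a dyadic box -/
lemma smooth_count : ∃ C : ℝ, 1 ≤ C ∧ ∀ (Y : ℝ) (N : ℕ), 16 ≤ Y → 0 < N →
    (∀ p, p.Prime → p ∣ N → (p : ℝ) ≤ Y) → ∀ (i : ℕ) (S : Finset ℕ),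
    (∀ u ∈ S, u ∣ N ∧ 2 ^ i ≤ u ∧ u < 2 ^ (i + 1)) → ∀ A : ℝ, 0 < A → (∀ u ∈ S, A ≤ (u : ℝ)) →
    (S.card : ℝ) * A ^ (1 / Real.log Y) ≤ C * Real.log Y ^ 4 * 2 ^ i := by
  obtain ⟨C, hC, h⟩ := TauMomx590.tau_moment_four
  refine ⟨max 1 (2 * C), le_max_left _ _, ?_⟩
  intro Y N hY hN hprime i S hS A hA hSA
  have h1 := h Y N hY hN hprime
  have hlY16 : Real.log 16 ≤ Real.log Y := Real.log_le_log (by norm_num) hY
  have hl16 : 1 < Real.log 16 := by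
    have : Real.log 16 = 4 * Real.log 2 := by
      rw [show (16 : ℝ) = 2 ^ (4 : ℕ) by norm_num, Real.log_pow]
      norm_num
    have h2 := Real.log_two_gt_d9
    rw [this]
    linarith
  have hlY : 1 < Real.log Y := by linarith
  have hlY0 : 0 < Real.log Y := by linarith
  set κ := 1 / Real.log Y with hκ
  have hκ0 : 0 < κ := by positivity
  have hκ1 : κ < 1 := by
    rw [hκ, div_lt_one hlY0]
    exact hlY
  -- each element contributes at least `A^κ 2^{-i-1}`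
  have hterm : ∀ u ∈ S, A ^ κ / 2 ^ (i + 1) ≤
      ((u.divisors.card : ℝ)) ^ 2 * (u : ℝ) ^ (-(1 - κ)) := by
    intro u hu
    obtain ⟨hd, h2, h3⟩ := hS u hu
    have hu0 : 0 < u := Nat.pos_of_dvd_of_pos hd hN
    have hu0' : (0 : ℝ) < u := by exact_mod_cast hu0
    have hu3 : (u : ℝ) ≤ 2 ^ (i + 1) := by exact_mod_cast h3.le
    have hc1 : (1 : ℝ) ≤ (u.divisors.card : ℝ) ^ 2 := by
      apply one_le_pow₀
      exact_mod_cast Finset.card_pos.2 ⟨1, Nat.one_mem_divisors.2 hu0.ne'⟩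
    have h4 : A ^ κ / 2 ^ (i + 1) ≤ (u : ℝ) ^ (-(1 - κ)) := by
      have e : (u : ℝ) ^ (-(1 - κ)) = (u : ℝ) ^ κ / u := by
        rw [show -(1 - κ) = κ - 1 by ring, Real.rpow_sub hu0', Real.rpow_one]
      rw [e]
      exact div_le_div₀ (by positivity) (Real.rpow_le_rpow hA.le (hSA u hu) hκ0.le) hu0' hu3
    calc A ^ κ / 2 ^ (i + 1) ≤ (u : ℝ) ^ (-(1 - κ)) := h4
      _ ≤ _ := le_mul_of_one_le_left (by positivity) hc1
  have hsum : (S.card : ℝ) * (A ^ κ / 2 ^ (i + 1)) ≤ C * Real.log Y ^ 4 := by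
    calc (S.card : ℝ) * (A ^ κ / 2 ^ (i + 1)) = ∑ u ∈ S, A ^ κ / 2 ^ (i + 1) := by
          rw [sum_const, nsmul_eq_mul]
      _ ≤ ∑ u ∈ S, ((u.divisors.card : ℝ)) ^ 2 * (u : ℝ) ^ (-(1 - κ)) := sum_le_sum hterm
      _ ≤ ∑ u ∈ N.divisors, ((u.divisors.card : ℝ)) ^ 2 * (u : ℝ) ^ (-(1 - κ)) := by
          refine sum_le_sum_of_subset_of_nonneg ?_ fun u _ _ => by positivity
          intro u hu
          exact Nat.mem_divisors.2 ⟨(hS u hu).1, hN.ne'⟩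
      _ ≤ _ := h1
  have h2i : (0 : ℝ) < 2 ^ (i + 1) := by positivity
  have h5 : (S.card : ℝ) * A ^ κ ≤ C * Real.log Y ^ 4 * 2 ^ (i + 1) := by
    rw [← mul_div_assoc, div_le_iff₀ h2i] at hsum
    exact hsum
  refine h5.trans ?_
  rw [pow_succ]
  have h6 : 0 ≤ Real.log Y ^ 4 * 2 ^ i := by positivity
  calc C * Real.log Y ^ 4 * (2 ^ i * 2) = (2 * C) * (Real.log Y ^ 4 * 2 ^ i) := by ring
    _ ≤ max 1 (2 * C) * (Real.log Y ^ 4 * 2 ^ i) :=
        mul_le_mul_of_nonneg_right (le_max_right _ _) h6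
    _ = _ := by ring

lemma card_prod_bound {S : Finset (ℕ × ℕ)} {i j : ℕ}
    (hS : ∀ w ∈ S, 2 ^ i ≤ w.1 ∧ w.1 < 2 ^ (i + 1) ∧ 2 ^ j ≤ w.2 ∧ w.2 < 2 ^ (j + 1)) :
    (S.card : ℝ) ≤ ((S.image Prod.fst).card : ℝ) * 2 ^ j ∧
      (S.card : ℝ) ≤ 2 ^ i * ((S.image Prod.snd).card : ℝ) := by
  have hico : ∀ k : ℕ, (Finset.Ico (2 ^ k) (2 ^ (k + 1))).card = 2 ^ k := by
    intro k
    rw [Nat.card_Ico, pow_succ]
    omega
  constructor
  · have h1 : S ⊆ (S.image Prod.fst) ×ˢ (Finset.Ico (2 ^ j) (2 ^ (j + 1))) := by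
      intro w hw
      rw [Finset.mem_product, Finset.mem_Ico]
      exact ⟨Finset.mem_image_of_mem _ hw, (hS w hw).2.2⟩
    have h2 := Finset.card_le_card h1
    rw [Finset.card_product, hico] at h2
    exact_mod_cast h2
  · have h1 : S ⊆ (Finset.Ico (2 ^ i) (2 ^ (i + 1))) ×ˢ (S.image Prod.snd) := by
      intro w hw
      rw [Finset.mem_product, Finset.mem_Ico]
      exact ⟨⟨(hS w hw).1, (hS w hw).2.1⟩, Finset.mem_image_of_mem _ hw⟩
    have h2 := Finset.card_le_card h1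
    rw [Finset.card_product, hico] at h2
    exact_mod_cast h2

/-- **large smooth words** are box-sparse -/
theorem boxD_size : ∃ C : ℝ, 1 ≤ C ∧ ∀ (Y : ℝ) (N : ℕ), 16 ≤ Y → 0 < N →
    (∀ p, p.Prime → p ∣ N → (p : ℝ) ≤ Y) → ∀ A : ℝ, 0 < A →
    BoxD N (fun u _ => A ≤ (u : ℝ)) (A ^ (1 / Real.log Y) / (C * Real.log Y ^ 4)) ∧
    BoxD N (fun _ v => A ≤ (v : ℝ)) (A ^ (1 / Real.log Y) / (C * Real.log Y ^ 4)) := by
  obtain ⟨C, hC, h⟩ := smooth_count
  refine ⟨C, hC, ?_⟩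
  intro Y N hY hN hprime A hA
  have hlY : 0 < Real.log Y := Real.log_pos (by linarith)
  have hC0 : 0 < C * Real.log Y ^ 4 := by positivity
  constructor
  · intro i j S hS
    have hb := (card_prod_bound (S := S) (i := i) (j := j) fun w hw => (hS w hw).2.2.2.2).1
    have h1 := h Y N hY hN hprime i (S.image Prod.fst) (by
      intro u hu
      obtain ⟨w, hw, rfl⟩ := Finset.mem_image.1 hu
      obtain ⟨a1, _, _, _, a5, a6, _⟩ := hS w hw
      exact ⟨a1, a5, a6⟩) A hA (by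
      intro u hu
      obtain ⟨w, hw, rfl⟩ := Finset.mem_image.1 hu
      exact (hS w hw).2.2.2.1)
    rw [mul_div_assoc', div_le_iff₀ hC0]
    have hA0 : 0 ≤ A ^ (1 / Real.log Y) := Real.rpow_nonneg hA.le _
    calc (S.card : ℝ) * A ^ (1 / Real.log Y)
        ≤ (((S.image Prod.fst).card : ℝ) * 2 ^ j) * A ^ (1 / Real.log Y) :=
          mul_le_mul_of_nonneg_right hb hA0
      _ = (((S.image Prod.fst).card : ℝ) * A ^ (1 / Real.log Y)) * 2 ^ j := by ring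
      _ ≤ (C * Real.log Y ^ 4 * 2 ^ i) * 2 ^ j := mul_le_mul_of_nonneg_right h1 (by positivity)
      _ ≤ 8 * 2 ^ i * 2 ^ j * (C * Real.log Y ^ 4) := by
          have : 0 ≤ C * Real.log Y ^ 4 * 2 ^ i * 2 ^ j := by positivity
          nlinarith
  · intro i j S hS
    have hb := (card_prod_bound (S := S) (i := i) (j := j) fun w hw => (hS w hw).2.2.2.2).2
    have h1 := h Y N hY hN hprime j (S.image Prod.snd) (by
      intro u hu
      obtain ⟨w, hw, rfl⟩ := Finset.mem_image.1 hu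
      obtain ⟨_, a2, _, _, _, _, a7⟩ := hS w hw
      exact ⟨a2, a7⟩) A hA (by
      intro u hu
      obtain ⟨w, hw, rfl⟩ := Finset.mem_image.1 hu
      exact (hS w hw).2.2.2.1)
    rw [mul_div_assoc', div_le_iff₀ hC0]
    have hA0 : 0 ≤ A ^ (1 / Real.log Y) := Real.rpow_nonneg hA.le _
    calc (S.card : ℝ) * A ^ (1 / Real.log Y)
        ≤ (2 ^ i * ((S.image Prod.snd).card : ℝ)) * A ^ (1 / Real.log Y) :=
          mul_le_mul_of_nonneg_right hb hA0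
      _ = 2 ^ i * (((S.image Prod.snd).card : ℝ) * A ^ (1 / Real.log Y)) := by ring
      _ ≤ 2 ^ i * (C * Real.log Y ^ 4 * 2 ^ j) := mul_le_mul_of_nonneg_left h1 (by positivity)
      _ ≤ 8 * 2 ^ i * 2 ^ j * (C * Real.log Y ^ 4) := by
          have : 0 ≤ C * Real.log Y ^ 4 * 2 ^ i * 2 ^ j := by positivity
          nlinarith

end Crest.Agent.R4C.BoxLowx808
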