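import Crest.Agent.R4C.Budget_966

/-!
# Row 4, GW section, vector case: budget of the three-gap payment (helper966)

12's 4147 (V3): the payment of a zone covers the gap of its own birth and the next two births.

* `pv I v i` : `v` at the predecessor of `i` in `I` (`1` if there is none);
  `sum_pv` : `∑_{i ∈ I} (pv I v i - v i) ≤ 1`.
* `chain3` : if `a i ≤ pv I v i - v (nx2 I i)` (with two later elements), `a i ≤ pv I v i` (otherwise)
  then `∑_{i ∈ I} a i ≤ 3`.
* `sum_u3` : over the World: any weight `u` of the word (`u i' ≤ Wn i i' * u i`, `Wn` any nominal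
  loss): `∑_{z ∈ T} u z.1 * y z ≤ 4` if `y z ≤ 1 - Wn (prev z.1 w) (second next birth)`, `y z ≤ 1`.
* `card_shallow` : at most `2 + log2 D` zones of a word have `prev z.1 w ≤ D`.
* `y3`, `sum_y3`, `sum_W3` : the instance `Wn i i' = Wp (cut i) (cut i') w`; `Y_le_y3`.
-/

set_option autoImplicit false

open Finset
open Crest.Agent.R4C.Basex935 Crest.Agent.R4C.Cutx50 Crest.Agent.R4C.PrefixMx882
  Crest.Agent.R4C.GWdefx982 Crest.Agent.R4C.Tele2x966 Crest.Agent.R4C.GWnodex863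
  Crest.Agent.R4C.Budgetx966

namespace Crest.Agent.R4C.Bud3x966

/-! ### the chain lemma -/

/-- the elements of `I` below `i` -/
def bel (I : Finset ℕ) (i : ℕ) : Finset ℕ := I.filter (fun j => j < i)

open Classical in
/-- value at the predecessor (`1` if there is none) -/
noncomputable def pv (I : Finset ℕ) (v : ℕ → ℝ) (i : ℕ) : ℝ :=
  if h : (bel I i).Nonempty then v ((bel I i).max' h) else 1

lemma pv_insert {I : Finset ℕ} {v : ℕ → ℝ} {a i : ℕ} (h : i ≤ a) :
    pv (insert a I) v i = pv I v i := by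
  have e : bel (insert a I) i = bel I i := by
    ext j
    simp only [bel, mem_filter, mem_insert]
    constructor
    · rintro ⟨h1 | h1, h2⟩
      · omega
      · exact ⟨h1, h2⟩
    · rintro ⟨h1, h2⟩
      exact ⟨Or.inr h1, h2⟩
  unfold pv
  simp only [e]

lemma sum_pv_aux (v : ℕ → ℝ) (I : Finset ℕ) :
    ∑ i ∈ I, (pv I v i - v i) ≤ if h : I.Nonempty then 1 - v (I.max' h) else 0 := by
  classical
  induction I using Finset.induction_on_max with
  | empty => simp
  | insert a s ha ih =>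
    have hns : a ∉ s := fun h => lt_irrefl _ (ha a h)
    rw [sum_insert hns]
    have e1 : ∑ i ∈ s, (pv (insert a s) v i - v i) = ∑ i ∈ s, (pv s v i - v i) :=
      sum_congr rfl fun i hi => by rw [pv_insert (ha i hi).le]
    rw [e1, pv_insert le_rfl]
    have hb : bel s a = s := by
      ext j
      simp only [bel, mem_filter]
      exact ⟨fun h => h.1, fun h => ⟨h, ha j h⟩⟩
    have hmax : (insert a s).max' (insert_nonempty a s) = a := by
      refine le_antisymm (max'_le _ _ _ fun j hj => ?_) (le_max' _ _ (mem_insert_self _ _))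
      rcases mem_insert.1 hj with h | h
      · exact h.le
      · exact (ha j h).le
    rw [dif_pos (insert_nonempty a s), hmax]
    rcases s.eq_empty_or_nonempty with hs | hs
    · subst hs
      have : pv (∅ : Finset ℕ) v a = 1 := by
        unfold pv
        rw [dif_neg]
        simp [bel]
      simp [this]
    · rw [dif_pos hs] at ih
      have : pv s v a = v (s.max' hs) := by
        unfold pv
        have hne : (bel s a).Nonempty := by rw [hb]; exact hs
        rw [dif_pos hne]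
        congr 1
        simp only [hb]
      rw [this]
      linarith

lemma sum_pv {v : ℕ → ℝ} (hv0 : ∀ i, 0 ≤ v i) (I : Finset ℕ) :
    ∑ i ∈ I, (pv I v i - v i) ≤ 1 := by
  refine (sum_pv_aux v I).trans ?_
  split_ifs with h
  · linarith [hv0 (I.max' h)]
  · exact zero_le_one

/-- **chain lemma for three steps** -/
theorem chain3 {v a : ℕ → ℝ} (hv0 : ∀ i, 0 ≤ v i) (hv1 : ∀ i, v i ≤ 1) (I : Finset ℕ)
    (h2 : ∀ i ∈ I, 2 ≤ (abv I i).card → a i ≤ pv I v i - v (nx2 I i))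
    (h1 : ∀ i ∈ I, (abv I i).card < 2 → a i ≤ pv I v i) :
    ∑ i ∈ I, a i ≤ 3 := by
  have key : ∀ i ∈ I, a i ≤ (pv I v i - v i) + tm I v i := by
    intro i hi
    unfold tm
    split_ifs with h
    · linarith [h2 i hi h]
    · linarith [h1 i hi (not_le.1 h)]
  refine (sum_le_sum key).trans ?_
  rw [sum_add_distrib]
  have e1 := sum_pv hv0 I
  have e2 : ∑ i ∈ I, tm I v i ≤ 2 := by
    calc ∑ i ∈ I, tm I v i ≤ ∑ i ∈ fst2 I, v i := sum_tm hv0 I
      _ ≤ ∑ _i ∈ fst2 I, (1 : ℝ) := sum_le_sum fun i _ => hv1 i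
      _ = (fst2 I).card := by simp
      _ ≤ 2 := by exact_mod_cast card_fst2 I
  linarith

/-! ### over the World -/

variable {Z : World}

/-- the predecessor birth is at most the previous node -/
lemma pv_ge {w : ℕ} {u : ℕ → ℝ} (hu1 : ∀ i, u i ≤ 1)
    (hanti : ∀ i i', Z.nd i w → Z.nd i' w → i < i' → u i' ≤ u i) (i : ℕ) :
    u (Z.prev i w) ≤ pv (Ib Z w) u i := by
  classical
  unfold pv
  split_ifs with h
  · set j := (bel (Ib Z w) i).max' h with hj
    have h1 : j ∈ bel (Ib Z w) i := max'_mem _ _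
    obtain ⟨h2, h3⟩ := mem_filter.1 h1
    have h4 := (mem_Ib.1 h2).2.1
    have h5 := prev_spec ⟨j, h3, h4⟩
    have h6 := h5.2.2 j h3 h4
    rcases eq_or_lt_of_le h6 with h7 | h7
    · rw [← h7]
    · exact hanti _ _ h4 h5.2.1 h7
  · exact hu1 _

/-- **three-gap budget**: any weight `u`, any nominal loss `Wn` -/
theorem sum_u3 {w : ℕ} {T : Finset Node} (hT : Zw Z w T) {u y : ℕ → ℝ}
    {Wn : ℕ → ℕ → ℝ} (hu0 : ∀ i, 0 ≤ u i) (hu1 : ∀ i, u i ≤ 1)
    (hanti : ∀ i i', Z.nd i w → Z.nd i' w → i < i' → u i' ≤ u i)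
    (hstep : ∀ i i', Z.nd i w → Z.birth i' w → i < i' → u i' ≤ Wn i i' * u i)
    (hy1 : ∀ z ∈ T, y z.1 ≤ 1)
    (hy : ∀ z ∈ T, Z.hasPrev z.1 w → 2 ≤ (abv (Ib Z w) z.1).card →
      y z.1 ≤ 1 - Wn (Z.prev z.1 w) (nx2 (Ib Z w) z.1)) :
    ∑ z ∈ T, u z.1 * y z.1 ≤ 4 := by
  classical
  set I := Ib Z w with hI
  set J := T.image (fun z => z.1) with hJ
  have hJI : J ⊆ I := by
    intro i hi
    obtain ⟨z, hz, rfl⟩ := mem_image.1 hi
    exact mem_Ib.2 ⟨hT.top z hz, hT.birth z hz⟩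
  have e0 : ∑ z ∈ T, u z.1 * y z.1 = ∑ i ∈ J, u i * y i := by
    rw [hJ, sum_image]
    intro z hz z' hz' h
    exact hT.inj z hz z' hz' h
  rw [e0]
  -- the first zone is paid by `1`
  have hone : ∀ i ∈ J, u i * y i ≤ 1 := by
    intro i hi
    obtain ⟨z, hz, rfl⟩ := mem_image.1 hi
    calc u z.1 * y z.1 ≤ u z.1 * 1 := mul_le_mul_of_nonneg_left (hy1 z hz) (hu0 _)
      _ ≤ 1 := by rw [mul_one]; exact hu1 _
  set a : ℕ → ℝ := fun i => if Z.hasPrev i w then
    (if 2 ≤ (abv I i).card then pv I u i - u (nx2 I i) else pv I u i) else 0 with ha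
  have ha0 : ∀ i ∈ I, 0 ≤ a i := by
    intro i hi
    simp only [ha]
    have hb := (mem_Ib.1 hi).2
    split_ifs with h1 h2
    · have h3 := pv_ge (Z := Z) hu1 hanti i
      have h4 := nx2_mem h2
      have h5 := hanti _ _ hb.1 (mem_Ib.1 h4.1).2.1 h4.2
      have h6 := hanti _ _ (prev_spec h1).2.1 hb.1 (prev_spec h1).1
      linarith
    · have h3 := pv_ge (Z := Z) hu1 hanti i
      linarith [hu0 (Z.prev i w)]
    · exact le_rfl
  have hsum : ∑ i ∈ I, a i ≤ 3 := by
    refine chain3 hu0 hu1 I (fun i hi h => ?_) fun i hi h => ?_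
    · simp only [ha]
      split_ifs with h1
      · exact le_rfl
      · have hb := (mem_Ib.1 hi).2
        have h3 := pv_ge (Z := Z) hu1 hanti i
        have h4 := nx2_mem h
        have h5 := hanti _ _ hb.1 (mem_Ib.1 h4.1).2.1 h4.2
        -- no previous node: `pv = 1`
        have h6 : pv I u i = 1 := by
          unfold pv
          rw [dif_neg]
          rintro ⟨j, hj⟩
          obtain ⟨hj1, hj2⟩ := mem_filter.1 hj
          exact h1 ⟨j, hj2, (mem_Ib.1 hj1).2.1⟩
        rw [h6]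
        linarith [hu1 (nx2 I i)]
    · simp only [ha]
      have hc : ¬ 2 ≤ (abv I i).card := not_le.2 h
      split_ifs with h1
      · exact le_rfl
      · have h6 : pv I u i = 1 := by
          unfold pv
          rw [dif_neg]
          rintro ⟨j, hj⟩
          obtain ⟨hj1, hj2⟩ := mem_filter.1 hj
          exact h1 ⟨j, hj2, (mem_Ib.1 hj1).2.1⟩
        rw [h6]
        exact zero_le_one
  -- the zones with a previous node
  have hmain : ∀ i ∈ J, Z.hasPrev i w → u i * y i ≤ a i := by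
    intro i hi hp
    obtain ⟨z, hz, rfl⟩ := mem_image.1 hi
    have hb := hT.birth z hz
    have h3 := pv_ge (Z := Z) hu1 hanti z.1
    obtain ⟨p1, p2, p3⟩ := prev_spec hp
    have h4 := hanti _ _ p2 hb.1 p1
    simp only [ha]
    rw [if_pos hp]
    split_ifs with h2
    · have h5 := nx2_mem h2
      have h6 := hstep _ _ p2 (mem_Ib.1 h5.1).2 (p1.trans h5.2)
      have h7 := hy z hz hp h2
      rcases le_or_gt 0 (1 - Wn (Z.prev z.1 w) (nx2 I z.1)) with h8 | h8
      · have h9 : u z.1 * y z.1 ≤ u (Z.prev z.1 w) * (1 - Wn (Z.prev z.1 w) (nx2 I z.1)) :=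
          (mul_le_mul_of_nonneg_left h7 (hu0 _)).trans (mul_le_mul_of_nonneg_right h4 h8)
        have h10 : u (Z.prev z.1 w) * (1 - Wn (Z.prev z.1 w) (nx2 I z.1)) =
            u (Z.prev z.1 w) - Wn (Z.prev z.1 w) (nx2 I z.1) * u (Z.prev z.1 w) := by ring
        linarith
      · have h9 : u z.1 * y z.1 ≤ 0 :=
          mul_nonpos_of_nonneg_of_nonpos (hu0 _) (h7.trans h8.le)
        have h10 := ha0 z.1 (hJI hi)
        simp only [ha] at h10
        rw [if_pos hp, if_pos h2] at h10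
        linarith
    · have h9 := mul_le_mul_of_nonneg_left (hy1 z hz) (hu0 z.1)
      linarith
  -- at most one zone without previous node
  have hnp : (J.filter fun i => ¬ Z.hasPrev i w).card ≤ 1 := by
    rw [card_le_one]
    intro i hi j hj
    obtain ⟨hi1, hi2⟩ := mem_filter.1 hi
    obtain ⟨hj1, hj2⟩ := mem_filter.1 hj
    have bi := (mem_Ib.1 (hJI hi1)).2.1
    have bj := (mem_Ib.1 (hJI hj1)).2.1
    rcases lt_trichotomy i j with h | h | h
    · exact absurd ⟨i, h, bi⟩ hj2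
    · exact h
    · exact absurd ⟨j, h, bj⟩ hi2
  rw [← sum_filter_add_sum_filter_not J (fun i => Z.hasPrev i w)]
  have b1 : ∑ i ∈ J.filter (fun i => Z.hasPrev i w), u i * y i ≤ 3 := by
    calc ∑ i ∈ J.filter (fun i => Z.hasPrev i w), u i * y i
        ≤ ∑ i ∈ J.filter (fun i => Z.hasPrev i w), a i :=
          sum_le_sum fun i hi => hmain i (mem_filter.1 hi).1 (mem_filter.1 hi).2
      _ ≤ ∑ i ∈ I, a i := sum_le_sum_of_subset_of_nonneg
          ((filter_subset _ _).trans hJI) fun i hi _ => ha0 i hi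
      _ ≤ 3 := hsum
  have b2 : ∑ i ∈ J.filter (fun i => ¬ Z.hasPrev i w), u i * y i ≤ 1 := by
    calc ∑ i ∈ J.filter (fun i => ¬ Z.hasPrev i w), u i * y i
        ≤ ∑ _i ∈ J.filter (fun i => ¬ Z.hasPrev i w), (1 : ℝ) :=
          sum_le_sum fun i hi => hone i (mem_filter.1 hi).1
      _ = ((J.filter (fun i => ¬ Z.hasPrev i w)).card : ℝ) := by simp
      _ ≤ 1 := by exact_mod_cast hnp
  linarith

/-- zones with a small previous index are few -/
theorem card_shallow (hZ : Z.Ok) {w : ℕ} {T : Finset Node} (hT : Zw Z w T) (D : ℕ)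
    (hD : ∀ z ∈ T, Z.prev z.1 w ≤ D) : T.card ≤ 2 + Nat.log 2 D := by
  classical
  have hi0 := hZ.hi0
  have hnd : ∀ z ∈ T, Z.nd z.1 w := fun z hz => (hT.birth z hz).1
  set p : Node → ℕ := fun z => Z.prev z.1 w with hp
  have hlt : ∀ z ∈ T, p z < z.1 := by
    intro z hz
    by_cases h : Z.hasPrev z.1 w
    · exact (prev_spec h).1
    · have h1 := (hnd z hz).1
      simp only [hp]
      rw [prev_zero h]
      omega
  have hge : ∀ z ∈ T, ∀ z' ∈ T, z.1 < z'.1 → z.1 ≤ p z' := fun z hz z' hz' h =>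
    (prev_spec ⟨z.1, h, hnd z hz⟩).2.2 _ h (hnd z hz)
  have hinj : ∀ z ∈ T, ∀ z' ∈ T, p z = p z' → z = z' := by
    intro z hz z' hz' h
    refine hT.inj z hz z' hz' ?_
    rcases lt_trichotomy z.1 z'.1 with h1 | h1 | h1
    · have := hge z hz z' hz' h1
      have := hlt z hz
      omega
    · exact h1
    · have := hge z' hz' z hz h1
      have := hlt z' hz'
      omega
  have e1 : T.card = (T.image p).card := by
    rw [card_image_of_injOn]
    exact fun z hz z' hz' h => hinj z hz z' hz' h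
  have e2 : (T.image p).card ≤ 1 + ((T.image p).erase 0).card := by
    by_cases h : 0 ∈ T.image p
    · rw [card_erase_of_mem h]; omega
    · rw [erase_eq_of_notMem h]; omega
  have hpos : ∀ j ∈ (T.image p).erase 0, 3 ≤ j ∧ Z.nd j w := by
    intro j hj
    obtain ⟨hj0, hj1⟩ := mem_erase.1 hj
    obtain ⟨z, hz, rfl⟩ := mem_image.1 hj1
    by_cases h : Z.hasPrev z.1 w
    · have h3 := (prev_spec h).2.1
      exact ⟨hi0.trans h3.1, h3⟩
    · exact absurd (prev_zero h) hj0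
  have e3 : ((T.image p).erase 0).card ≤ 1 + Nat.log 2 D := by
    refine dbl_card (fun j hj => by have := (hpos j hj).1; omega) (fun j hj => ?_)
      fun j hj j' hj' hjj => nd_growth hZ hZ.hcut2 (hpos j hj).2 (hpos j' hj').2 hjj
    obtain ⟨z, hz, rfl⟩ := mem_image.1 (mem_of_mem_erase hj)
    exact hD z hz
  omega

open Classical in
/-- the three-gap payment -/
noncomputable def y3 (Z : World) (z : Node) (w : ℕ) : ℝ :=
  if Z.hasPrev z.1 w ∧ Z.hasNb z.1 w ∧ Z.hasNb (Z.nb z.1 w) w then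
    1 - Z.Wp (Z.cut (Z.prev z.1 w)) (Z.cut (Z.nb (Z.nb z.1 w) w)) w else 1

lemma nb_nb_eq {w i : ℕ} (h : 2 ≤ (abv (Ib Z w) i).card) :
    Z.hasNb i w ∧ Z.hasNb (Z.nb i w) w ∧ Z.nb (Z.nb i w) w = nx2 (Ib Z w) i := by
  have h1 : (abv (Ib Z w) i).Nonempty := card_pos.1 (by omega)
  have h2 : Z.hasNb i w := hasNb_iff.2 h1
  have h3 := nb_eq h2
  have h4 : (abv (Ib Z w) (nx (Ib Z w) i)).Nonempty := by
    have := card_abv_nx h1
    exact card_pos.1 (by omega)
  have h5 : Z.hasNb (Z.nb i w) w := by rw [h3]; exact hasNb_iff.2 h4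
  exact ⟨h2, h5, by rw [nb_eq h5, h3]; rfl⟩

lemma y3_le_one (z : Node) (w : ℕ) : y3 Z z w ≤ 1 := by
  classical
  unfold y3
  split_ifs
  · have := Wp_pos (Z := Z) (Z.cut (Z.prev z.1 w)) (Z.cut (Z.nb (Z.nb z.1 w) w)) w
    linarith
  · exact le_rfl

lemma y3_nonneg (z : Node) (w : ℕ) : 0 ≤ y3 Z z w := by
  classical
  unfold y3
  split_ifs
  · have := Wp_le_one (Z := Z) (Z.cut (Z.prev z.1 w)) (Z.cut (Z.nb (Z.nb z.1 w) w)) w
    linarith
  · exact zero_le_one

/-- the payment dominates the two-gap payment -/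
lemma Y_le_y3 (hZ : Z.Ok) (z : Node) (w : ℕ) : Z.Y z w ≤ y3 Z z w := by
  classical
  unfold y3
  split_ifs with h
  · obtain ⟨h1, h2, h3⟩ := h
    unfold World.Y
    rw [if_pos ⟨h2, h3⟩]
    have hab : Z.cut (Z.prev z.1 w) ≤ Z.cut z.1 := hZ.hcut (prev_spec h1).1.le
    have hlt : z.1 ≤ Z.nb (Z.nb z.1 w) w := by
      have a1 := (nx_mem (hasNb_iff.1 h2)).2
      have a2 := (nx_mem (hasNb_iff.1 h3)).2
      rw [← nb_eq h2] at a1
      rw [← nb_eq h3] at a2
      omega
    have h4 := Wp_mul (Z := Z) hab (hZ.hcut hlt) w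
    have h5 : Z.Wp (Z.cut (Z.prev z.1 w)) (Z.cut (Z.nb (Z.nb z.1 w) w)) w ≤
        Z.Wp (Z.cut z.1) (Z.cut (Z.nb (Z.nb z.1 w) w)) w := by
      rw [← h4]
      exact mul_le_of_le_one_left (Wp_pos _ _ _).le (Wp_le_one _ _ _)
    linarith
  · exact Y_le_one _ _

/-- **budget of the three-gap payment** for any weight `u` of the word -/
theorem sum_y3 {w : ℕ} {T : Finset Node} (hT : Zw Z w T) {u : ℕ → ℝ}
    (hu0 : ∀ i, 0 ≤ u i) (hu1 : ∀ i, u i ≤ 1)
    (hstep : ∀ i i', Z.nd i w → Z.nd i' w → i < i' →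
      u i' ≤ Z.Wp (Z.cut i) (Z.cut i') w * u i) :
    ∑ z ∈ T, u z.1 * y3 Z z w ≤ 4 := by
  classical
  have hanti : ∀ i i', Z.nd i w → Z.nd i' w → i < i' → u i' ≤ u i := fun i i' h1 h2 h3 =>
    (hstep i i' h1 h2 h3).trans (mul_le_of_le_one_left (hu0 i) (Wp_le_one _ _ _))
  have hdep : ∀ z z' : Node, z.1 = z'.1 → y3 Z z w = y3 Z z' w := by
    intro z z' h
    unfold y3
    rw [h]
  have key := sum_u3 (Z := Z) hT (u := u) (y := fun i => y3 Z (i, 0, 0) w)
    (Wn := fun i i' => Z.Wp (Z.cut i) (Z.cut i') w) hu0 hu1 hanti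
    (fun i i' h1 h2 h3 => hstep i i' h1 h2.1 h3) (fun z _ => y3_le_one _ _)
    (fun z hz hp h2 => ?_)
  · exact key
  · obtain ⟨a1, a2, a3⟩ := nb_nb_eq (Z := Z) h2
    show y3 Z (z.1, 0, 0) w ≤ _
    unfold y3
    rw [if_pos ⟨hp, a1, a2⟩, a3]

/-- the instance `u i = Wp 0 (cut i) w` -/
theorem sum_W3 (hZ : Z.Ok) {w : ℕ} {T : Finset Node} (hT : Zw Z w T) :
    ∑ z ∈ T, Z.W z w * y3 Z z w ≤ 4 :=
  sum_y3 hT (u := fun i => Z.Wp 0 (Z.cut i) w) (fun i => (Wp_pos _ _ _).le)
    (fun i => Wp_le_one _ _ _) fun i i' _ _ h => by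
      show Z.Wp 0 (Z.cut i') w ≤ Z.Wp (Z.cut i) (Z.cut i') w * Z.Wp 0 (Z.cut i) w
      rw [mul_comm, Wp_mul (Nat.zero_le _) (hZ.hcut h.le) w]

end Crest.Agent.R4C.Bud3x966
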