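import Crest.Agent.R4C.Budget_966

/-!
# Row 4, GW section, vector case, item (D): the budget with three gaps and abstract weights (helper322)

World `Z` of GWdef_982, a word `w ∣ N` with births `i₁ < i₂ < …`.
* `Y3 Z z w = 1 - Wp (cut (pz z)) (cut (second next birth)) w` (`1` if there is none): THREE gaps.
* `kapV Z D z = min 1 (D / (pz z + 1))`.
* `WOk Z w ix Wb` : admissible weights: `0 ≤ Wb ≤ 1`, `Wb = 0` at the births `< ix` (`ix` = last
  exceptional gap of the full number `b`), and `Wb (next birth) ≤ Wp (cut i) (cut i') w * Wb (birth i)`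
  from `ix` on.
* `sum_Y3 ≤ 4`, `sum_kapV ≤ 4 + log2 D`, `budgetV ≤ 8 + log2 D`; `budgetM` = the form `hT` of
  `GWrelLay_252.rel_total`.
-/

set_option autoImplicit false

open Finset
open Crest.Agent.R4C.Basex935 Crest.Agent.R4C.Cutx50 Crest.Agent.R4C.PrefixMx882
  Crest.Agent.R4C.GWdefx982 Crest.Agent.R4C.GWnodex863

namespace Crest.Agent.R4C.Budx322

open Crest.Agent.R4C.Budgetx966 (Wp_pos Wp_le_one Wp_mul prev_spec pz_eq zw_of nd_growth)

variable {Z : World}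

/-! ### next births -/

lemma nb_spec {i w : ℕ} (h : Z.hasNb i w) :
    i < Z.nb i w ∧ Z.nb i w ≤ Z.top ∧ Z.birth (Z.nb i w) w := by
  classical
  unfold World.nb
  rw [dif_pos h]
  exact Nat.find_spec h

lemma nb_min {i w j : ℕ} (h : Z.hasNb i w) (h1 : i < j) (h2 : j ≤ Z.top) (h3 : Z.birth j w) :
    Z.nb i w ≤ j := by
  classical
  unfold World.nb
  rw [dif_pos h]
  exact Nat.find_min' h ⟨h1, h2, h3⟩

open Classical in
/-- the births of `w` -/
noncomputable def Bs (Z : World) (w : ℕ) : Finset ℕ :=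
  (range (Z.top + 1)).filter fun i => Z.birth i w

lemma mem_Bs (h : Z.Ok) {w i : ℕ} (hw : w ∣ Z.N) : i ∈ Bs Z w ↔ Z.birth i w := by
  classical
  unfold Bs
  rw [mem_filter, mem_range]
  constructor
  · exact fun hx => hx.2
  · exact fun hx => ⟨Nat.lt_succ_of_le (nd_le_top h hw hx.1), hx⟩

open Classical in
/-- the zones of `w` are the labels of the births -/
theorem sum_zones (h : Z.Ok) {w : ℕ} (hw : w ∣ Z.N) (F : Node → ℝ) :
    ∑ z ∈ Z.Zs.filter (fun z => w ∈ Z.zd.zone z), F z = ∑ i ∈ Bs Z w, F (Z.lab i w) := by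
  symm
  refine sum_nbij' (fun i => Z.lab i w) (fun z => z.1) ?_ ?_ ?_ ?_ ?_
  · intro i hi
    rw [mem_Bs h hw] at hi
    rw [mem_filter]
    exact ⟨(mem_Zs h).2 ⟨w, hw, hi, rfl⟩, (mem_zone h).2 ⟨hw, hi, rfl⟩⟩
  · intro z hz
    rw [mem_filter] at hz
    rw [mem_Bs h hw]
    exact ((mem_zone h).1 hz.2).2.1
  · intro i _; rfl
  · intro z hz
    rw [mem_filter] at hz
    exact ((mem_zone h).1 hz.2).2.2
  · intro i _; rfl

lemma pz_lab (h : Z.Ok) {i w : ℕ} (hw : w ∣ Z.N) (hb : Z.birth i w) :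
    Z.pz (Z.lab i w) = Z.prev i w :=
  pz_eq h ((mem_zone h).2 ⟨hw, hb, rfl⟩)

/-! ### payment, error and weights -/

open Classical in
/-- loss of coins over THREE gaps: from the node before the zone to the second next birth -/
noncomputable def Y3 (Z : World) (z : Node) (w : ℕ) : ℝ :=
  if Z.hasNb z.1 w ∧ Z.hasNb (Z.nb z.1 w) w then
    1 - Z.Wp (Z.cut (Z.pz z)) (Z.cut (Z.nb (Z.nb z.1 w) w)) w else 1

/-- additive error of the vector case (`1` on the first zones) -/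
noncomputable def kapV (Z : World) (D : ℝ) (z : Node) : ℝ := min 1 (D / ((Z.pz z : ℝ) + 1))

/-- admissible weights of the word `w`, zero below `ix` -/
structure WOk (Z : World) (w ix : ℕ) (Wb : Node → ℝ) : Prop where
  nn : ∀ i, Z.birth i w → 0 ≤ Wb (Z.lab i w)
  le1 : ∀ i, Z.birth i w → Wb (Z.lab i w) ≤ 1
  zero : ∀ i, Z.birth i w → i < ix → Wb (Z.lab i w) = 0
  step : ∀ i, Z.birth i w → ix ≤ i → Z.hasNb i w →
    Wb (Z.lab (Z.nb i w) w) ≤ Z.Wp (Z.cut i) (Z.cut (Z.nb i w)) w * Wb (Z.lab i w)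

lemma Y3_le_one (z : Node) (w : ℕ) : Y3 Z z w ≤ 1 := by
  unfold Y3
  split_ifs
  · have := Wp_pos (Z := Z) (Z.cut (Z.pz z)) (Z.cut (Z.nb (Z.nb z.1 w) w)) w
    linarith
  · exact le_rfl

lemma Y3_nonneg (z : Node) (w : ℕ) : 0 ≤ Y3 Z z w := by
  unfold Y3
  split_ifs
  · have := Wp_le_one (Z := Z) (Z.cut (Z.pz z)) (Z.cut (Z.nb (Z.nb z.1 w) w)) w
    linarith
  · exact zero_le_one

lemma kapV_le_one (D : ℝ) (z : Node) : kapV Z D z ≤ 1 := min_le_left _ _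

lemma kapV_nonneg {D : ℝ} (hD : 0 ≤ D) (z : Node) : 0 ≤ kapV Z D z :=
  le_min zero_le_one (by positivity)

lemma kapV_pos {D : ℝ} (hD : 0 < D) (z : Node) : 0 < kapV Z D z :=
  lt_min zero_lt_one (by positivity)

lemma kapV_first {D : ℝ} (hD : 1 ≤ D) {z : Node} (hz : Z.pz z = 0) : kapV Z D z = 1 := by
  unfold kapV
  rw [hz]
  simpa using hD

lemma kapV_mono {D D' : ℝ} (h : D ≤ D') (z : Node) : kapV Z D z ≤ kapV Z D' z :=
  min_le_min le_rfl (div_le_div_of_nonneg_right h (by positivity))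

/-- `982`'s two-gap payment is at most the three-gap payment -/
lemma Y_le_Y3 (h : Z.Ok) {z : Node} {w : ℕ} (hz : w ∈ Z.zd.zone z) : Z.Y z w ≤ Y3 Z z w := by
  classical
  have hp := pz_eq h hz
  have hle : Z.pz z ≤ z.1 := by
    rw [hp]
    unfold World.prev
    exact Nat.findGreatest_le _
  unfold World.Y Y3
  split_ifs with hc
  · have h1 := (nb_spec hc.1).1
    have h2 := (nb_spec hc.2).1
    have h3 := Wp_mul (Z := Z) (h.hcut hle) (h.hcut (by omega : z.1 ≤ Z.nb (Z.nb z.1 w) w)) w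
    rw [← h3]
    have h4 := mul_le_of_le_one_left
      (Wp_pos (Z := Z) (Z.cut z.1) (Z.cut (Z.nb (Z.nb z.1 w) w)) w).le
      (Wp_le_one (Z := Z) (Z.cut (Z.pz z)) (Z.cut z.1) w)
    linarith
  · exact le_rfl

open Classical in
/-- value at the next birth (`0` if there is none) -/
noncomputable def N1 (Z : World) (w : ℕ) (V : ℕ → ℝ) (i : ℕ) : ℝ :=
  if Z.hasNb i w then V (Z.nb i w) else 0

lemma N1_pos {w : ℕ} {V : ℕ → ℝ} {i : ℕ} (h : Z.hasNb i w) : N1 Z w V i = V (Z.nb i w) := if_pos h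
lemma N1_neg {w : ℕ} {V : ℕ → ℝ} {i : ℕ} (h : ¬ Z.hasNb i w) : N1 Z w V i = 0 := if_neg h

/-- one step: the payment at the birth `i'` after the birth `i` -/
lemma one_step (h : Z.Ok) {w ix : ℕ} (hw : w ∣ Z.N) {Wb : Node → ℝ} (hW : WOk Z w ix Wb) {i : ℕ}
    (hb : Z.birth i w) (hix : ix ≤ i) (hN : Z.hasNb i w) :
    Wb (Z.lab (Z.nb i w) w) * Y3 Z (Z.lab (Z.nb i w) w) w +
      N1 Z w (N1 Z w fun j => Wb (Z.lab j w)) (Z.nb i w) ≤ Wb (Z.lab i w) := by
  classical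
  obtain ⟨h1, h2, h3⟩ := nb_spec hN
  set i' := Z.nb i w with hi'
  have s1 : Wb (Z.lab i' w) ≤ Z.Wp (Z.cut i) (Z.cut i') w * Wb (Z.lab i w) :=
    hW.step i hb hix hN
  have hV := hW.nn i hb
  have hV' := hW.nn i' h3
  have s1' : Wb (Z.lab i' w) ≤ Wb (Z.lab i w) :=
    s1.trans (mul_le_of_le_one_left hV (Wp_le_one _ _ _))
  by_cases hc : Z.hasNb i' w ∧ Z.hasNb (Z.nb i' w) w
  · rw [N1_pos hc.1, N1_pos hc.2]
    obtain ⟨k1, k2, k3⟩ := nb_spec hc.1
    obtain ⟨l1, l2, l3⟩ := nb_spec hc.2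
    set i2 := Z.nb i' w with hi2
    set i3 := Z.nb i2 w with hi3
    have s2 : Wb (Z.lab i2 w) ≤ Z.Wp (Z.cut i') (Z.cut i2) w * Wb (Z.lab i' w) :=
      hW.step i' h3 (by omega) hc.1
    have s3 : Wb (Z.lab i3 w) ≤ Z.Wp (Z.cut i2) (Z.cut i3) w * Wb (Z.lab i2 w) :=
      hW.step i2 k3 (by omega) hc.2
    have hY : Y3 Z (Z.lab i' w) w = 1 - Z.Wp (Z.cut (Z.prev i' w)) (Z.cut i3) w := by
      unfold Y3
      rw [pz_lab h hw h3, lab_fst, if_pos hc]
    obtain ⟨p1, _, p3⟩ := prev_spec (Z := Z) (w := w) (i := i') ⟨i, h1, hb.1⟩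
    have p4 : i ≤ Z.prev i' w := p3 i h1 hb.1
    have m1 := Wp_mul (Z := Z) (h.hcut p4) (h.hcut (by omega : Z.prev i' w ≤ i3)) w
    have m2 := Wp_mul (Z := Z) (h.hcut h1.le) (h.hcut k1.le) w
    have m3 := Wp_mul (Z := Z) (h.hcut (by omega : i ≤ i2)) (h.hcut l1.le) w
    have m4 : Z.Wp (Z.cut i) (Z.cut i3) w ≤ Z.Wp (Z.cut (Z.prev i' w)) (Z.cut i3) w := by
      rw [← m1]
      exact mul_le_of_le_one_left (Wp_pos _ _ _).le (Wp_le_one _ _ _)
    have s4 : Wb (Z.lab i3 w) ≤ Z.Wp (Z.cut i) (Z.cut i3) w * Wb (Z.lab i w) := by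
      rw [← m3, ← m2]
      calc Wb (Z.lab i3 w) ≤ Z.Wp (Z.cut i2) (Z.cut i3) w * Wb (Z.lab i2 w) := s3
        _ ≤ Z.Wp (Z.cut i2) (Z.cut i3) w *
            (Z.Wp (Z.cut i') (Z.cut i2) w * (Z.Wp (Z.cut i) (Z.cut i') w * Wb (Z.lab i w))) :=
            mul_le_mul_of_nonneg_left
              (s2.trans (mul_le_mul_of_nonneg_left s1 (Wp_pos _ _ _).le)) (Wp_pos _ _ _).le
        _ = _ := by ring
    have hYn : 0 ≤ 1 - Z.Wp (Z.cut (Z.prev i' w)) (Z.cut i3) w := by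
      have := Wp_le_one (Z := Z) (Z.cut (Z.prev i' w)) (Z.cut i3) w
      linarith
    rw [hY]
    have t1 : Wb (Z.lab i' w) * (1 - Z.Wp (Z.cut (Z.prev i' w)) (Z.cut i3) w) ≤
        Wb (Z.lab i w) * (1 - Z.Wp (Z.cut i) (Z.cut i3) w) := by
      refine mul_le_mul s1' (by linarith) hYn hV
    have t2 : Wb (Z.lab i w) * (1 - Z.Wp (Z.cut i) (Z.cut i3) w) =
        Wb (Z.lab i w) - Z.Wp (Z.cut i) (Z.cut i3) w * Wb (Z.lab i w) := by ring
    show _ + Wb (Z.lab i3 w) ≤ _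
    linarith
  · have hz : N1 Z w (N1 Z w fun j => Wb (Z.lab j w)) i' = 0 := by
      by_cases h4 : Z.hasNb i' w
      · rw [N1_pos h4]
        exact N1_neg fun h5 => hc ⟨h4, h5⟩
      · exact N1_neg h4
    rw [hz, add_zero]
    exact (mul_le_of_le_one_right hV' (Y3_le_one _ _)).trans s1'

open Classical in
/-- telescoping over the births above the birth `i` -/
lemma tele3 (h : Z.Ok) {w ix : ℕ} (hw : w ∣ Z.N) {Wb : Node → ℝ} (hW : WOk Z w ix Wb) :
    ∀ n i : ℕ, Z.top - i ≤ n → Z.birth i w → ix ≤ i →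
      ∑ j ∈ (Bs Z w).filter (fun j => i < j), Wb (Z.lab j w) * Y3 Z (Z.lab j w) w ≤
        Wb (Z.lab i w) + N1 Z w (fun j => Wb (Z.lab j w)) i +
          N1 Z w (N1 Z w fun j => Wb (Z.lab j w)) i := by
  have hempty : ∀ i, ¬ Z.hasNb i w → (Bs Z w).filter (fun j => i < j) = ∅ := by
    intro i hN
    rw [filter_eq_empty_iff]
    intro j hj hij
    rw [mem_Bs h hw] at hj
    exact hN ⟨j, hij, nd_le_top h hw hj.1, hj⟩
  intro n
  induction n with
  | zero =>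
    intro i hi hb _
    have hit := nd_le_top h hw hb.1
    have hno : ¬ Z.hasNb i w := by
      rintro ⟨i', h1, h2, _⟩
      omega
    rw [hempty i hno, sum_empty, N1_neg hno, N1_neg hno]
    have := hW.nn i hb
    linarith
  | succ n ih =>
    intro i hi hb hix
    have hit := nd_le_top h hw hb.1
    by_cases hN : Z.hasNb i w
    · obtain ⟨h1, h2, h3⟩ := nb_spec hN
      have hset : (Bs Z w).filter (fun j => i < j) =
          insert (Z.nb i w) ((Bs Z w).filter (fun j => Z.nb i w < j)) := by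
        ext j
        rw [mem_insert, mem_filter, mem_filter, mem_Bs h hw]
        constructor
        · rintro ⟨h4, h5⟩
          rcases Nat.eq_or_lt_of_le (nb_min hN h5 (nd_le_top h hw h4.1) h4) with h6 | h6
          · exact Or.inl h6.symm
          · exact Or.inr ⟨h4, h6⟩
        · rintro (h4 | ⟨h4, h5⟩)
          · subst h4; exact ⟨h3, h1⟩
          · exact ⟨h4, by omega⟩
      have hni : Z.nb i w ∉ (Bs Z w).filter (fun j => Z.nb i w < j) := by
        rw [mem_filter]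
        rintro ⟨_, h5⟩
        omega
      have h4 := ih (Z.nb i w) (by omega) h3 (by omega)
      have h5 := one_step h hw hW hb hix hN
      rw [hset, sum_insert hni, N1_pos hN, N1_pos hN]
      linarith
    · rw [hempty i hN, sum_empty, N1_neg hN, N1_neg hN]
      have := hW.nn i hb
      linarith

lemma N1_le_one {w : ℕ} {V : ℕ → ℝ} (hV : ∀ i, Z.birth i w → V i ≤ 1) (i : ℕ) :
    N1 Z w V i ≤ 1 := by
  unfold N1
  split_ifs with hN
  · exact hV _ (nb_spec hN).2.2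
  · exact zero_le_one

open Classical in
/-- **(D), the telescoping part**: three gaps -/
theorem sum_Y3 (h : Z.Ok) {w ix : ℕ} (hw : w ∣ Z.N) {Wb : Node → ℝ} (hW : WOk Z w ix Wb) :
    ∑ z ∈ Z.Zs.filter (fun z => w ∈ Z.zd.zone z), Wb z * Y3 Z z w ≤ 4 := by
  rw [sum_zones h hw fun z => Wb z * Y3 Z z w]
  -- the births `≥ ix`
  have hred : ∑ i ∈ Bs Z w, Wb (Z.lab i w) * Y3 Z (Z.lab i w) w =
      ∑ i ∈ (Bs Z w).filter (fun i => ix ≤ i), Wb (Z.lab i w) * Y3 Z (Z.lab i w) w := by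
    rw [sum_filter]
    refine sum_congr rfl fun i hi => ?_
    rw [mem_Bs h hw] at hi
    split_ifs with hc
    · rfl
    · rw [hW.zero i hi (by omega), zero_mul]
  rw [hred]
  rcases ((Bs Z w).filter (fun i => ix ≤ i)).eq_empty_or_nonempty with he | hne
  · rw [he, sum_empty]; norm_num
  · set i0 := ((Bs Z w).filter (fun i => ix ≤ i)).min' hne with hi0
    have hm := min'_mem _ hne
    rw [← hi0, mem_filter, mem_Bs h hw] at hm
    have hset : (Bs Z w).filter (fun i => ix ≤ i) =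
        insert i0 ((Bs Z w).filter (fun j => i0 < j)) := by
      ext j
      rw [mem_insert, mem_filter, mem_filter]
      constructor
      · rintro ⟨h4, h5⟩
        have h6 : i0 ≤ j := min'_le _ _ (mem_filter.2 ⟨h4, h5⟩)
        rcases Nat.eq_or_lt_of_le h6 with h7 | h7
        · exact Or.inl h7.symm
        · exact Or.inr ⟨h4, h7⟩
      · rintro (h4 | ⟨h4, h5⟩)
        · subst h4; exact ⟨(mem_Bs h hw).2 hm.1, hm.2⟩
        · exact ⟨h4, by omega⟩
    have hni : i0 ∉ (Bs Z w).filter (fun j => i0 < j) := by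
      rw [mem_filter]
      rintro ⟨_, h5⟩
      omega
    rw [hset, sum_insert hni]
    have h1 := tele3 h hw hW (Z.top - i0) i0 le_rfl hm.1 hm.2
    have hle : ∀ i, Z.birth i w → (fun j => Wb (Z.lab j w)) i ≤ 1 := fun i hi => hW.le1 i hi
    have h2 := N1_le_one hle i0
    have h3 : N1 Z w (N1 Z w fun j => Wb (Z.lab j w)) i0 ≤ 1 :=
      N1_le_one (fun i _ => N1_le_one hle i) i0
    have h4 := hW.le1 i0 hm.1
    have h5 := mul_le_of_le_one_right (hW.nn i0 hm.1) (Y3_le_one (Z := Z) (Z.lab i0 w) w)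
    linarith

open Classical in
/-- the errors: `∑ kapV ≤ 4 + log2 D` -/
theorem sum_kapV (h : Z.Ok) (w : ℕ) {D : ℝ} (hD : 1 ≤ D) :
    ∑ z ∈ Z.Zs.filter (fun z => w ∈ Z.zd.zone z), kapV Z D z ≤ 5 + Real.logb 2 D := by
  set T := Z.Zs.filter (fun z => w ∈ Z.zd.zone z) with hT
  have hD0 : (0 : ℝ) < D := by linarith
  have h1 := Budgetx966.sum_min h h.hcut2 (w := w) (T := T)
    (zw_of h fun z hz => mem_filter.1 hz) (D := ⌈D⌉₊) (Nat.one_le_ceil_iff.2 hD0)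
  have h2 : ∑ z ∈ T, kapV Z D z ≤
      ∑ z ∈ T, min (1 : ℝ) (((⌈D⌉₊ : ℕ) : ℝ) / ((Z.prev z.1 w : ℝ) + 1)) := by
    refine sum_le_sum fun z hz => ?_
    unfold kapV
    rw [pz_eq h (mem_filter.1 hz).2]
    exact min_le_min le_rfl (div_le_div_of_nonneg_right (Nat.le_ceil D) (by positivity))
  have h3 : (Nat.log 2 ⌈D⌉₊ : ℝ) ≤ 1 + Real.logb 2 D := by
    have hc0 : ⌈D⌉₊ ≠ 0 := by
      have := Nat.one_le_ceil_iff.2 hD0
      omega
    have h4 : (2 : ℝ) ^ (Nat.log 2 ⌈D⌉₊) ≤ ((⌈D⌉₊ : ℕ) : ℝ) := by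
      exact_mod_cast Nat.pow_log_le_self 2 hc0
    have h5 : ((⌈D⌉₊ : ℕ) : ℝ) ≤ 2 * D := by
      have := (Nat.ceil_lt_add_one hD0.le).le
      linarith
    have h6 : (2 : ℝ) ^ (Nat.log 2 ⌈D⌉₊) ≤ 2 * D := h4.trans h5
    have h7 := Real.logb_le_logb_of_le (by norm_num : (1 : ℝ) < 2) (by positivity) h6
    rw [Real.logb_mul (by norm_num) hD0.ne', Real.logb_self_eq_one (by norm_num),
      Real.logb_pow, Real.logb_self_eq_one (by norm_num), mul_one] at h7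
    exact h7
  linarith

open Classical in
/-- **(D) THE BUDGET**, any payment `y ≤ Y3 + kapV` -/
theorem budgetV (h : Z.Ok) {w ix : ℕ} (hw : w ∣ Z.N) {Wb : Node → ℝ} (hW : WOk Z w ix Wb)
    {D : ℝ} (hD : 1 ≤ D) {y : Node → ℝ}
    (hy : ∀ z ∈ Z.Zs, w ∈ Z.zd.zone z → y z ≤ Y3 Z z w + kapV Z D z) :
    ∑ z ∈ Z.Zs.filter (fun z => w ∈ Z.zd.zone z), Wb z * y z ≤ 9 + Real.logb 2 D := by
  have h1 := sum_Y3 h hw hW
  have h2 := sum_kapV h w hD
  have h3 : ∑ z ∈ Z.Zs.filter (fun z => w ∈ Z.zd.zone z), Wb z * y z ≤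
      ∑ z ∈ Z.Zs.filter (fun z => w ∈ Z.zd.zone z), (Wb z * Y3 Z z w + kapV Z D z) := by
    refine sum_le_sum fun z hz => ?_
    obtain ⟨hz1, hz2⟩ := mem_filter.1 hz
    obtain ⟨_, hb, hl⟩ := (mem_zone h).1 hz2
    have n1 := hW.nn _ hb
    have n2 := hW.le1 _ hb
    rw [hl] at n1 n2
    have n3 := mul_le_mul_of_nonneg_left (hy z hz1 hz2) n1
    have n4 : Wb z * kapV Z D z ≤ kapV Z D z :=
      mul_le_of_le_one_left (kapV_nonneg (by linarith) _) n2
    have n5 : Wb z * (Y3 Z z w + kapV Z D z) = Wb z * Y3 Z z w + Wb z * kapV Z D z := by ring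
    linarith
  rw [sum_add_distrib] at h3
  linarith

open Classical in
/-- **(D) in the form `hT`** of `GWrelLay_252.rel_total`: `wd b` is the word of `b` in the world -/
theorem budgetM (h : Z.Ok) {M : ℕ} {D : ℝ} (hD : 1 ≤ D) (wd : ℕ → ℕ)
    {ix : ℕ → ℕ} {W : Node → ℕ → ℝ} {X : Node → ℕ → ℝ} {y : ℕ}
    (hW : ∀ b, b ∣ M → wd b ∣ Z.N → WOk Z (wd b) (ix b) fun z => W z b)
    (hX0 : ∀ z b, b ∣ M → ¬ (wd b ∣ Z.N ∧ wd b ∈ Z.zd.zone z) → X z (upp y b) * W z b ≤ 0)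
    (hX : ∀ z ∈ Z.Zs, ∀ b, b ∣ M → wd b ∈ Z.zd.zone z →
      X z (upp y b) ≤ Y3 Z z (wd b) + kapV Z D z) :
    ∀ b, b ∣ M → ∑ z ∈ Z.Zs, X z (upp y b) * W z b ≤ 9 + Real.logb 2 D := by
  intro b hb
  have hlog : 0 ≤ Real.logb 2 D := Real.logb_nonneg (by norm_num) hD
  by_cases hw : wd b ∣ Z.N
  · have h1 := budgetV h hw (hW b hb hw) hD (y := fun z => X z (upp y b))
      fun z hz hz2 => hX z hz b hb hz2
    rw [← sum_filter_add_sum_filter_not Z.Zs (fun z => wd b ∈ Z.zd.zone z)]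
    have h2 : ∑ z ∈ Z.Zs.filter (fun z => ¬ wd b ∈ Z.zd.zone z), X z (upp y b) * W z b ≤ 0 :=
      sum_nonpos fun z hz => hX0 z b hb fun hc => (mem_filter.1 hz).2 hc.2
    have h3 : ∑ z ∈ Z.Zs.filter (fun z => wd b ∈ Z.zd.zone z), X z (upp y b) * W z b =
        ∑ z ∈ Z.Zs.filter (fun z => wd b ∈ Z.zd.zone z), W z b * X z (upp y b) :=
      sum_congr rfl fun z _ => mul_comm _ _
    linarith
  · have : ∑ z ∈ Z.Zs, X z (upp y b) * W z b ≤ 0 :=
      sum_nonpos fun z _ => hX0 z b hb fun hc => hw hc.1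
    linarith

/-- weights given by the index -/
lemma WOk.of_idx {w ix : ℕ} {u : ℕ → ℝ} (h0 : ∀ i, 0 ≤ u i) (h1 : ∀ i, u i ≤ 1)
    (hz : ∀ i, i < ix → u i = 0)
    (hs : ∀ i i', Z.birth i w → Z.birth i' w → ix ≤ i → i < i' →
      u i' ≤ Z.Wp (Z.cut i) (Z.cut i') w * u i) : WOk Z w ix fun z => u z.1 where
  nn := fun i _ => h0 i
  le1 := fun i _ => h1 i
  zero := fun i _ hi => hz i hi
  step := fun i hb hix hN => hs i _ hb (nb_spec hN).2.2 hix (nb_spec hN).1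

/-- the nominal weights of the world word itself -/
lemma WOk.nominal (h : Z.Ok) (w : ℕ) : WOk Z w 0 fun z => Z.W z w :=
  WOk.of_idx (u := fun i => Z.Wp 0 (Z.cut i) w) (fun _ => (Wp_pos _ _ _).le)
    (fun _ => Wp_le_one _ _ _) (fun i hi => absurd hi (Nat.not_lt_zero i))
    fun i i' _ _ _ hlt => by
      rw [mul_comm, Wp_mul (Nat.zero_le _) (h.hcut hlt.le) w]

end Crest.Agent.R4C.Budx322
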