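import Mathlib

/-!
# Nested cells for the GW section (helper8; notes 3619 (4), 3584 (4), 3599)

One integer per word, `cellN γ μ σ b = ⌊b γ / μ + σ⌋`.  A node `G` of the chain with `G = μ n`
(`n` a natural number) has the cells `cellN mod n`: the arcs of length `μ` in `ℝ / G ℤ`.

* `cell_nested`  : cells of a multiple `n'` of `n` refine the cells of `n` (exact nestedness).
* `cell_linked`  : two words whose positions `b γ`, `c γ` differ by `< μ/2` modulo `G ℤ` lie in one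
  cell for `σ = 0` or for `σ = 1/2`.
* `cell_dist`    : two words of one cell have positions at distance `< μ` modulo `G ℤ`.
* `exists_mesh`  : for `2 L ≤ G₁` there is a mesh `μ ∈ [2L, 4L)` with `G₁ = μ n`.
* `cell_linkB`   : the same for a pair `b = G s`, `c = G s'`, `|(s - s') γ + h| < L / G`.
-/

set_option autoImplicit false

namespace Crest.Agent.R4C.Cellsx8

/-- cell number of a word -/
noncomputable def cellN (γ μ σ : ℝ) (b : ℕ) : ℤ := ⌊(b : ℝ) * γ / μ + σ⌋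

/-- same cell modulo `n` (node `G = μ n`) -/
def SameCell (γ μ σ : ℝ) (n b c : ℕ) : Prop := cellN γ μ σ b ≡ cellN γ μ σ c [ZMOD (n : ℤ)]

lemma SameCell.refl (γ μ σ : ℝ) (n b : ℕ) : SameCell γ μ σ n b b := Int.ModEq.refl _

lemma SameCell.symm {γ μ σ : ℝ} {n b c : ℕ} (h : SameCell γ μ σ n b c) :
    SameCell γ μ σ n c b := Int.ModEq.symm h

lemma SameCell.trans {γ μ σ : ℝ} {n b c d : ℕ} (h : SameCell γ μ σ n b c)
    (h' : SameCell γ μ σ n c d) : SameCell γ μ σ n b d := Int.ModEq.trans h h'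

/-- **exact nestedness** -/
lemma cell_nested {γ μ σ : ℝ} {n n' b c : ℕ} (hn : n ∣ n') (h : SameCell γ μ σ n' b c) :
    SameCell γ μ σ n b c :=
  Int.ModEq.of_dvd (by exact_mod_cast hn) h

lemma floor_sub_int_mul (x : ℝ) (k : ℤ) : ⌊x - k⌋ = ⌊x⌋ - k := by
  exact_mod_cast Int.floor_sub_intCast x k

/-- two reals at distance `< 1/2` have the same floor or the same shifted floor -/
lemma floor_or {x y : ℝ} (h : |x - y| < 1 / 2) : ⌊x⌋ = ⌊y⌋ ∨ ⌊x + 1 / 2⌋ = ⌊y + 1 / 2⌋ := by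
  wlog hxy : x ≤ y with H
  · have := H (x := y) (y := x) (by rwa [abs_sub_comm]) (le_of_not_ge hxy)
    rcases this with h1 | h1
    · exact Or.inl h1.symm
    · exact Or.inr h1.symm
  have h1 : y - x < 1 / 2 := by
    have := neg_lt_of_abs_lt h
    linarith
  by_cases hf : ⌊x⌋ = ⌊y⌋
  · exact Or.inl hf
  · right
    have h2 : ⌊x⌋ ≤ ⌊y⌋ := Int.floor_mono hxy
    have h3 : ⌊x⌋ + 1 ≤ ⌊y⌋ := by omega
    have h4 : ((⌊x⌋ : ℝ) + 1) ≤ y := by
      have h5 : (((⌊x⌋ + 1 : ℤ)) : ℝ) ≤ (⌊y⌋ : ℝ) := by exact_mod_cast h3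
      push_cast at h5
      exact h5.trans (Int.floor_le y)
    have h6 := Int.floor_le x
    have h7 := Int.lt_floor_add_one x
    have e1 : ⌊x + 1 / 2⌋ = ⌊x⌋ + 1 := by
      rw [Int.floor_eq_iff]
      push_cast
      constructor <;> linarith
    have e2 : ⌊y + 1 / 2⌋ = ⌊x⌋ + 1 := by
      rw [Int.floor_eq_iff]
      push_cast
      constructor <;> linarith
    rw [e1, e2]

/-- **linked words lie in one cell of one of the two grids** -/
theorem cell_linked {γ μ : ℝ} (hμ : 0 < μ) {n b c : ℕ} {G : ℝ} (hG : G = μ * n) {h : ℤ}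
    (hl : |(b : ℝ) * γ - c * γ + h * G| < μ / 2) :
    SameCell γ μ 0 n b c ∨ SameCell γ μ (1 / 2) n b c := by
  have e : |(b : ℝ) * γ / μ - ((c : ℝ) * γ / μ - ((h * n : ℤ) : ℝ))| < 1 / 2 := by
    have e1 : (b : ℝ) * γ / μ - ((c : ℝ) * γ / μ - ((h * n : ℤ) : ℝ)) =
        ((b : ℝ) * γ - c * γ + h * G) / μ := by
      rw [hG]
      push_cast
      field_simp
      ring
    rw [e1, abs_div, abs_of_pos hμ, div_lt_iff₀ hμ]
    linarith
  unfold SameCell cellN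
  rcases floor_or e with h1 | h1
  · left
    rw [add_zero, add_zero, h1, floor_sub_int_mul]
    refine (Int.modEq_iff_dvd.2 ?_)
    exact ⟨h, by ring⟩
  · right
    have e2 : (c : ℝ) * γ / μ - ((h * n : ℤ) : ℝ) + 1 / 2 =
        ((c : ℝ) * γ / μ + 1 / 2) - ((h * n : ℤ) : ℝ) := by ring
    rw [h1, e2, floor_sub_int_mul]
    refine (Int.modEq_iff_dvd.2 ?_)
    exact ⟨h, by ring⟩

/-- words of one cell are at distance `< μ` modulo `G` -/
theorem cell_dist {γ μ σ : ℝ} (hμ : 0 < μ) {n b c : ℕ} {G : ℝ} (hG : G = μ * n)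
    (h : SameCell γ μ σ n b c) : ∃ k : ℤ, |(b : ℝ) * γ - c * γ + k * G| < μ := by
  obtain ⟨k, hk⟩ := Int.modEq_iff_dvd.1 h
  refine ⟨k, ?_⟩
  unfold cellN at hk
  have h1 := Int.floor_le ((b : ℝ) * γ / μ + σ)
  have h2 := Int.lt_floor_add_one ((b : ℝ) * γ / μ + σ)
  have h3 := Int.floor_le ((c : ℝ) * γ / μ + σ)
  have h4 := Int.lt_floor_add_one ((c : ℝ) * γ / μ + σ)
  have h5 : (⌊(c : ℝ) * γ / μ + σ⌋ : ℝ) - ⌊(b : ℝ) * γ / μ + σ⌋ = n * k := by exact_mod_cast hk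
  have h6 : |(b : ℝ) * γ / μ - (c : ℝ) * γ / μ + n * k| < 1 := by
    rw [abs_lt]
    constructor <;> linarith
  have h7 : (b : ℝ) * γ - c * γ + k * G = ((b : ℝ) * γ / μ - (c : ℝ) * γ / μ + n * k) * μ := by
    rw [hG]
    field_simp
  rw [h7, abs_mul, abs_of_pos hμ]
  calc |(b : ℝ) * γ / μ - (c : ℝ) * γ / μ + n * k| * μ < 1 * μ :=
        mul_lt_mul_of_pos_right h6 hμ
    _ = μ := one_mul μ

/-- existence of the mesh for the first node `G₁` -/
theorem exists_mesh {L : ℝ} (hL : 0 < L) {G₁ : ℕ} (hG : 2 * L ≤ G₁) :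
    ∃ (μ : ℝ) (n : ℕ), 0 < n ∧ 2 * L ≤ μ ∧ μ < 4 * L ∧ (G₁ : ℝ) = μ * n := by
  set n := ⌊(G₁ : ℝ) / (2 * L)⌋₊ with hn
  have h2L : 0 < 2 * L := by linarith
  have h1 : 1 ≤ (G₁ : ℝ) / (2 * L) := by rwa [le_div_iff₀ h2L, one_mul]
  have h2 : 1 ≤ n := Nat.le_floor (by exact_mod_cast h1)
  have hn0 : (0 : ℝ) < n := by exact_mod_cast h2
  have h3 : (n : ℝ) ≤ (G₁ : ℝ) / (2 * L) := Nat.floor_le (by linarith)
  have h4 : (G₁ : ℝ) / (2 * L) < n + 1 := Nat.lt_floor_add_one _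
  refine ⟨(G₁ : ℝ) / n, n, h2, ?_, ?_, ?_⟩
  · rw [le_div_iff₀ hn0]
    rw [le_div_iff₀ h2L] at h3
    linarith
  · rw [div_lt_iff₀ hn0]
    rw [div_lt_iff₀ h2L] at h4
    have h5 : (1 : ℝ) ≤ n := by exact_mod_cast h2
    nlinarith
  · field_simp

/-- a multiple of a node is a node -/
lemma node_mul {μ : ℝ} {n G G' q : ℕ} (hG : (G : ℝ) = μ * n) (hq : G' = G * q) :
    (G' : ℝ) = μ * ((n * q : ℕ) : ℝ) := by
  rw [hq]
  push_cast
  rw [hG]
  ring

/-- **a linked pair `b = G s`, `c = G s'` lies in one cell of one of the two grids** -/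
theorem cell_linkB {γ μ L : ℝ} (hL : 0 < L) (hμ : 2 * L ≤ μ) {n b c G s s' : ℕ} (hG0 : 0 < G)
    (hG : (G : ℝ) = μ * n) (hb : b = G * s) (hc : c = G * s') {h : ℤ}
    (hl : |((s : ℝ) - s') * γ + h| < L / G) :
    SameCell γ μ 0 n b c ∨ SameCell γ μ (1 / 2) n b c := by
  have hμ0 : 0 < μ := by linarith
  have hGR : (0 : ℝ) < G := by exact_mod_cast hG0
  refine cell_linked (h := h) hμ0 hG ?_
  have e : (b : ℝ) * γ - c * γ + h * G = (((s : ℝ) - s') * γ + h) * G := by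
    rw [hb, hc]
    push_cast
    ring
  rw [e, abs_mul, abs_of_pos hGR]
  calc |((s : ℝ) - s') * γ + h| * G < L / G * G := mul_lt_mul_of_pos_right hl hGR
    _ = L := by field_simp
    _ ≤ μ / 2 := by linarith

end Crest.Agent.R4C.Cellsx8
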