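import Crest.Agent.R4C.CrCoin_935

/-!
# Row 4, BLOCK S4 (note 2774, helper994): centres = reduced fractions (helper952)

Item `b` (divisor of `M`, `q = M / b`), hit `(b, n)` : `y = b (γ + n)`; window `L`.
A centre of `b` is a rational number `f`; `β = gcd (b, den f)`, `k = den f / β`,
`g_f(b) = b / β`, displacement `D = b |γ - f|`; the point is `z = b (f + n)`,
`den z = k`, `num z = g_f(b) W`, `W = num f + den f · n`, `gcd (b, num z) = g_f(b)`.

* `den_zz`, `num_zz`, `gcd_num_zz` : the arithmetic of the point (1);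
* `exists_lab`, `lab_iff`, `lab_iff_pow` : labels (2);
* `transfer` : (3); `same_point` : (4); `uniq` : (5), `uniq_a`, `uniq_b`, `uniq_c`, `used_vs_pair`;
* `explained`, `kill_left`, `kill_right` : (6) in the form `killedL` of `CrCoin_935`;
* `dichotomy`, `dichotomy_eq` : (7); `sparse_small`, `sparse_count` : (8).
-/

set_option autoImplicit false
set_option linter.unusedVariables false

open Finset

namespace Crest.Agent.R4C.CentreS4x952

/-- the part of the denominator of `f` absorbed by `b` -/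
def bet (b : ℕ) (f : ℚ) : ℕ := Nat.gcd b f.den
/-- the denominator `k` of the point -/
def kd (b : ℕ) (f : ℚ) : ℕ := f.den / bet b f
/-- `g_f(b)` -/
def gf (b : ℕ) (f : ℚ) : ℕ := b / bet b f
/-- the point -/
def zz (b : ℕ) (f : ℚ) (n : ℤ) : ℚ := b * (f + n)
/-- `W = P + Q n` -/
def WW (f : ℚ) (n : ℤ) : ℤ := f.num + f.den * n
/-- displacement -/
noncomputable def disp (γ : ℝ) (b : ℕ) (f : ℚ) : ℝ := b * |γ - f|

variable {b b' : ℕ} {f f' f1 f2 : ℚ} {n n' : ℤ} {γ L : ℝ}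

lemma bet_pos (hb : 0 < b) (f : ℚ) : 0 < bet b f := Nat.gcd_pos_of_pos_left _ hb

lemma bet_dvd (b : ℕ) (f : ℚ) : bet b f ∣ b := Nat.gcd_dvd_left _ _

lemma bet_dvd_den (b : ℕ) (f : ℚ) : bet b f ∣ f.den := Nat.gcd_dvd_right _ _

lemma bet_mul_kd (b : ℕ) (f : ℚ) : bet b f * kd b f = f.den := Nat.mul_div_cancel' (bet_dvd_den b f)

lemma bet_mul_gf (b : ℕ) (f : ℚ) : bet b f * gf b f = b := Nat.mul_div_cancel' (bet_dvd b f)

lemma kd_pos (hb : 0 < b) (f : ℚ) : 0 < kd b f := by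
  have h := bet_mul_kd b f
  have h1 := f.den_pos
  rcases Nat.eq_zero_or_pos (kd b f) with h2 | h2
  · rw [h2, mul_zero] at h; omega
  · exact h2

lemma gf_pos (hb : 0 < b) (f : ℚ) : 0 < gf b f := by
  have h := bet_mul_gf b f
  rcases Nat.eq_zero_or_pos (gf b f) with h2 | h2
  · rw [h2, mul_zero] at h; omega
  · exact h2

lemma gf_dvd (b : ℕ) (f : ℚ) : gf b f ∣ b := Dvd.intro_left _ (bet_mul_gf b f)

lemma kd_dvd_den (b : ℕ) (f : ℚ) : kd b f ∣ f.den := Dvd.intro_left _ (bet_mul_kd b f)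

lemma coprime_gf_kd (hb : 0 < b) (f : ℚ) : Nat.Coprime (gf b f) (kd b f) :=
  Nat.coprime_div_gcd_div_gcd (Nat.gcd_pos_of_pos_left _ hb)

lemma WW_coprime (f : ℚ) (n : ℤ) : Nat.Coprime (WW f n).natAbs f.den := by
  have h1 : IsCoprime f.num (f.den : ℤ) := by
    rw [Int.isCoprime_iff_gcd_eq_one]
    exact f.reduced
  have h2 : IsCoprime (f.num + f.den * n) (f.den : ℤ) := (IsCoprime.add_mul_left_left_iff).2 h1
  have h3 := Int.isCoprime_iff_gcd_eq_one.1 h2
  rw [Int.gcd_eq_natAbs, Int.natAbs_natCast] at h3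
  exact h3

lemma WW_coprime_kd (b : ℕ) (f : ℚ) (n : ℤ) : Nat.Coprime (WW f n).natAbs (kd b f) :=
  Nat.Coprime.coprime_dvd_right (kd_dvd_den b f) (WW_coprime f n)

lemma f_add_eq (f : ℚ) (n : ℤ) : f + n = (WW f n : ℚ) / f.den := by
  have hd : (f.den : ℚ) ≠ 0 := by exact_mod_cast f.den_nz
  have h1 : f = f.num / f.den := (Rat.num_div_den f).symm
  unfold WW
  push_cast
  rw [add_div, mul_div_cancel_left₀ _ hd, Rat.num_div_den]

lemma zz_eq (hb : 0 < b) (f : ℚ) (n : ℤ) :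
    zz b f n = (((gf b f : ℤ) * WW f n : ℤ) : ℚ) / (((kd b f : ℕ) : ℤ) : ℚ) := by
  have hb0 : (bet b f : ℚ) ≠ 0 := by exact_mod_cast (bet_pos hb f).ne'
  have hk0 : (kd b f : ℚ) ≠ 0 := by exact_mod_cast (kd_pos hb f).ne'
  unfold zz
  rw [f_add_eq, ← bet_mul_kd b f]
  have h1 : (b : ℚ) = bet b f * gf b f := by exact_mod_cast (bet_mul_gf b f).symm
  rw [h1]
  push_cast
  field_simp

lemma coprime_num_den (hb : 0 < b) (f : ℚ) (n : ℤ) :
    Nat.Coprime ((gf b f : ℤ) * WW f n).natAbs ((kd b f : ℕ) : ℤ).natAbs := by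
  rw [Int.natAbs_mul, Int.natAbs_natCast, Int.natAbs_natCast]
  exact Nat.Coprime.mul_left (coprime_gf_kd hb f) (WW_coprime_kd b f n)

/-- (1) `den z = k` -/
theorem den_zz (hb : 0 < b) (f : ℚ) (n : ℤ) : (zz b f n).den = kd b f := by
  have h := Rat.den_div_eq_of_coprime (a := (gf b f : ℤ) * WW f n) (b := ((kd b f : ℕ) : ℤ))
    (by exact_mod_cast kd_pos hb f) (coprime_num_den hb f n)
  rw [← zz_eq hb f n] at h
  exact_mod_cast h

/-- (1) `num z = g_f(b) W` -/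
theorem num_zz (hb : 0 < b) (f : ℚ) (n : ℤ) : (zz b f n).num = gf b f * WW f n := by
  have h := Rat.num_div_eq_of_coprime (a := (gf b f : ℤ) * WW f n) (b := ((kd b f : ℕ) : ℤ))
    (by exact_mod_cast kd_pos hb f) (coprime_num_den hb f n)
  rw [← zz_eq hb f n] at h
  exact h

/-- (1) `gcd (b, num z) = g_f(b)` -/
theorem gcd_num_zz (hb : 0 < b) (f : ℚ) (n : ℤ) : Nat.gcd b (zz b f n).num.natAbs = gf b f := by
  rw [num_zz hb, Int.natAbs_mul, Int.natAbs_natCast]
  have h1 : Nat.Coprime (bet b f) (WW f n).natAbs :=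
    (Nat.Coprime.coprime_dvd_right (bet_dvd_den b f) (WW_coprime f n)).symm
  have h2 : Nat.gcd (bet b f * gf b f) (gf b f * (WW f n).natAbs) = gf b f := by
    rw [Nat.mul_comm (bet b f), Nat.gcd_mul_left, h1.gcd_eq_one, mul_one]
  rwa [bet_mul_gf b f] at h2

lemma zz_cast (γ : ℝ) (b : ℕ) (f : ℚ) (n : ℤ) :
    (b : ℝ) * (γ + n) - ((zz b f n : ℚ) : ℝ) = b * (γ - f) := by
  unfold zz
  push_cast
  ring

lemma disp_nonneg (γ : ℝ) (b : ℕ) (f : ℚ) : 0 ≤ disp γ b f := by unfold disp; positivity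

/-- the distance of the hit from its point -/
lemma abs_hit_sub (γ : ℝ) (b : ℕ) (f : ℚ) (n : ℤ) :
    |(b : ℝ) * (γ + n) - ((zz b f n : ℚ) : ℝ)| = disp γ b f := by
  rw [zz_cast, abs_mul, abs_of_nonneg (Nat.cast_nonneg b)]
  rfl

/-! ### (2) labels -/

/-- the label (forbidden class) of the centre `f` at the prime `p` -/
def IsLab (f : ℚ) (p : ℕ) (a : ℤ) : Prop := (p : ℤ) ∣ WW f a

theorem exists_lab {p : ℕ} (hp : p.Prime) (f : ℚ) (h : ¬ p ∣ f.den) : ∃ a : ℤ, IsLab f p a := by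
  have hc : IsCoprime (f.den : ℤ) (p : ℤ) := by
    rw [Int.isCoprime_iff_gcd_eq_one, Int.gcd_natCast_natCast]
    exact ((Nat.Prime.coprime_iff_not_dvd hp).2 h).symm
  obtain ⟨u, v, huv⟩ := hc
  refine ⟨-f.num * u, ?_⟩
  unfold IsLab WW
  refine ⟨f.num * v, ?_⟩
  linear_combination (-f.num) * huv

/-- a label kills exactly the hits with `p ∣ W` -/
theorem lab_iff {p : ℕ} (hp : p.Prime) {a : ℤ} (h : ¬ p ∣ f.den) (ha : IsLab f p a) :
    (p : ℤ) ∣ n - a ↔ (p : ℤ) ∣ WW f n := by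
  have hp' : Prime (p : ℤ) := Nat.prime_iff_prime_int.1 hp
  have e : WW f n = WW f a + f.den * (n - a) := by unfold WW; ring
  rw [e, (Int.dvd_add_right ha)]
  constructor
  · intro h1; exact h1.mul_left _
  · intro h1
    rcases hp'.dvd_or_dvd h1 with h2 | h2
    · exact absurd (Int.natCast_dvd_natCast.1 h2) h
    · exact h2

lemma lab_unique {p : ℕ} (hp : p.Prime) {a a2 : ℤ} (h : ¬ p ∣ f.den) (ha : IsLab f p a)
    (ha2 : IsLab f p a2) : (p : ℤ) ∣ a2 - a := (lab_iff hp h ha).2 ha2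

/-- the same in terms of `v_p(num z) > v_p(b)` -/
theorem dvd_WW_iff {p : ℕ} (hp : p.Prime) (hb : 0 < b) (h : ¬ p ∣ f.den) :
    (p : ℤ) ∣ WW f n ↔ ((p ^ (b.factorization p + 1) : ℕ) : ℤ) ∣ (zz b f n).num := by
  rw [num_zz hb]
  have hpb : ¬ p ∣ bet b f := fun hc => h (hc.trans (bet_dvd_den b f))
  have hv : (gf b f).factorization p = b.factorization p := by
    have h1 := bet_mul_gf b f
    have h2 := congrArg (fun m => m.factorization p) h1
    simp only [Nat.factorization_mul (bet_pos hb f).ne' (gf_pos hb f).ne', Finsupp.add_apply,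
      Nat.factorization_eq_zero_of_not_dvd hpb, zero_add] at h2
    exact h2
  rw [← Int.natAbs_dvd_natAbs, ← Int.natAbs_dvd_natAbs, Int.natAbs_mul, Int.natAbs_natCast,
    Int.natAbs_natCast, Int.natAbs_natCast, ← hv]
  set g := gf b f with hg
  have hg0 : g ≠ 0 := (gf_pos hb f).ne'
  obtain ⟨c, hc⟩ := Nat.ordProj_dvd g p
  have hcp : ¬ p ∣ c := by
    intro hd
    obtain ⟨d, rfl⟩ := hd
    have h3 : p ^ (g.factorization p + 1) ∣ g := ⟨d, by
      conv_lhs => rw [hc]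
      ring⟩
    have := (hp.pow_dvd_iff_le_factorization hg0).1 h3
    omega
  constructor
  · rintro ⟨m, hm⟩
    rw [hm]
    refine ⟨c * m, ?_⟩
    conv_lhs => rw [hc]
    ring
  · intro h1
    have h2 : p ^ (g.factorization p) * (c * (WW f n).natAbs) = g * (WW f n).natAbs := by
      conv_rhs => rw [hc]
      ring
    rw [← h2, pow_succ] at h1
    have h3 := Nat.dvd_of_mul_dvd_mul_left (pow_pos hp.pos _) h1
    rcases (hp.dvd_mul).1 h3 with h4 | h4
    · exact absurd h4 hcp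
    · exact h4

/-! ### (3) transfer -/

/-- the transferred centre -/
def tr (b : ℕ) (f : ℚ) (n : ℤ) (b' : ℕ) (n' : ℤ) : ℚ := zz b f n / b' - n'

theorem zz_tr (hb' : 0 < b') (f : ℚ) (n n' : ℤ) : zz b' (tr b f n b' n') n' = zz b f n := by
  have h : (b' : ℚ) ≠ 0 := by exact_mod_cast hb'.ne'
  unfold tr
  rw [zz]
  field_simp
  ring

theorem kd_tr (hb : 0 < b) (hb' : 0 < b') (f : ℚ) (n n' : ℤ) :
    kd b' (tr b f n b' n') = kd b f := by
  rw [← den_zz hb' _ n', zz_tr hb', den_zz hb]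

theorem gf_tr (hb : 0 < b) (hb' : 0 < b') (f : ℚ) (n n' : ℤ) :
    gf b' (tr b f n b' n') = Nat.gcd b' (gf b f * (WW f n).natAbs) := by
  rw [← gcd_num_zz hb' _ n', zz_tr hb', num_zz hb, Int.natAbs_mul, Int.natAbs_natCast]

/-- `g_{f'}(b')` is a multiple of `gcd (g_f(b), gcd (b, b'))` -/
theorem dvd_gf_tr (hb : 0 < b) (hb' : 0 < b') (f : ℚ) (n n' : ℤ) :
    Nat.gcd (gf b f) (Nat.gcd b b') ∣ gf b' (tr b f n b' n') := by
  rw [gf_tr hb hb']
  refine Nat.dvd_gcd ((Nat.gcd_dvd_right _ _).trans (Nat.gcd_dvd_right _ _)) ?_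
  exact (Nat.gcd_dvd_left _ _).mul_right _

theorem disp_tr (hb' : 0 < b') (f : ℚ) (n n' : ℤ)
    (hl : |(b : ℝ) * (γ + n) - b' * (γ + n')| < L) :
    disp γ b' (tr b f n b' n') < disp γ b f + L := by
  rw [← abs_hit_sub γ b' _ n', zz_tr hb', ← abs_hit_sub γ b f n]
  have e : (b' : ℝ) * (γ + n') - ((zz b f n : ℚ) : ℝ) =
      ((b : ℝ) * (γ + n) - ((zz b f n : ℚ) : ℝ)) - ((b : ℝ) * (γ + n) - b' * (γ + n')) := by ring
  rw [e]
  have := abs_sub ((b : ℝ) * (γ + n) - ((zz b f n : ℚ) : ℝ)) ((b : ℝ) * (γ + n) - b' * (γ + n'))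
  linarith

/-- the relation between a centre and its transfer in the integer language of the pair:
`b = g s`, `b' = g s'`, `h = s n - s' n'` : `s f - s' f' + h = 0` -/
theorem rel_tr {g s s' : ℕ} (hg : 0 < g) (hs' : 0 < s') (f : ℚ) (n n' : ℤ) :
    (s : ℚ) * f - s' * tr (g * s) f n (g * s') n' + ((s : ℤ) * n - s' * n' : ℤ) = 0 := by
  have h1 : (g : ℚ) ≠ 0 := by exact_mod_cast hg.ne'
  have h2 : (s' : ℚ) ≠ 0 := by exact_mod_cast hs'.ne'
  unfold tr zz
  push_cast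
  field_simp
  ring

/-! ### (4) same point -/

/-- two points `z = G u / k`, `z' = G u' / k'` with integers `u, u'` closer than `G / (k k')` agree -/
lemma eq_of_close {z z' : ℚ} {G : ℕ} (hG : (G : ℤ) ∣ z.num) (hG' : (G : ℤ) ∣ z'.num)
    (h : (z.den : ℝ) * z'.den * |(z : ℝ) - z'| < G) : z = z' := by
  obtain ⟨u, hu⟩ := hG
  obtain ⟨u', hu'⟩ := hG'
  have hz : z = (G : ℚ) * u / z.den := by
    conv_lhs => rw [← Rat.num_div_den z]
    rw [hu]; push_cast; ring
  have hz' : z' = (G : ℚ) * u' / z'.den := by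
    conv_lhs => rw [← Rat.num_div_den z']
    rw [hu']; push_cast; ring
  have hd : (z.den : ℝ) ≠ 0 := by exact_mod_cast z.den_nz
  have hd' : (z'.den : ℝ) ≠ 0 := by exact_mod_cast z'.den_nz
  have e : (z.den : ℝ) * z'.den * ((z : ℝ) - z') = G * ((u * z'.den - u' * z.den : ℤ) : ℝ) := by
    have h1 : (z : ℝ) = (G : ℝ) * u / z.den := by
      conv_lhs => rw [hz]
      push_cast; ring
    have h2 : (z' : ℝ) = (G : ℝ) * u' / z'.den := by
      conv_lhs => rw [hz']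
      push_cast; ring
    rw [h1, h2]
    push_cast
    field_simp
  have h3 : |(z.den : ℝ) * z'.den * ((z : ℝ) - z')| < G := by
    rw [abs_mul, abs_of_nonneg (by positivity)]
    exact h
  rw [e, abs_mul, abs_of_nonneg (Nat.cast_nonneg G)] at h3
  have hG0 : (0 : ℝ) < G := by
    rcases (Nat.cast_nonneg (α := ℝ) G).eq_or_lt with h4 | h4
    · rw [← h4] at h3; simp at h3
    · exact h4
  have h4 : |((u * z'.den - u' * z.den : ℤ) : ℝ)| < 1 := by
    by_contra h5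
    push Not at h5
    nlinarith
  have h5 : (u * z'.den - u' * z.den : ℤ) = 0 := by
    have : |(u * z'.den - u' * z.den : ℤ)| < 1 := by exact_mod_cast h4
    exact Int.abs_lt_one_iff.1 this
  have h6 : (u : ℚ) * z'.den = u' * z.den := by
    have : (u * z'.den : ℤ) = u' * z.den := by linarith
    exact_mod_cast this
  rw [hz, hz', div_eq_div_iff (by exact_mod_cast z.den_nz) (by exact_mod_cast z'.den_nz)]
  linear_combination (G : ℚ) * h6

/-- (4) linked hits with centres `f, f'` : the points agree if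
`k k' (D + D' + L) < gcd (g_f(b), g_{f'}(b'))` (or `≤` and strict link) -/
theorem same_point (hb : 0 < b) (hb' : 0 < b') (hl : |(b : ℝ) * (γ + n) - b' * (γ + n')| < L)
    (h : (kd b f : ℝ) * kd b' f' * (disp γ b f + disp γ b' f' + L) ≤ Nat.gcd (gf b f) (gf b' f')) :
    zz b f n = zz b' f' n' := by
  refine eq_of_close (G := Nat.gcd (gf b f) (gf b' f')) ?_ ?_ ?_
  · rw [num_zz hb]
    exact (Int.natCast_dvd_natCast.2 (Nat.gcd_dvd_left _ _)).mul_right _
  · rw [num_zz hb']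
    exact (Int.natCast_dvd_natCast.2 (Nat.gcd_dvd_right _ _)).mul_right _
  · rw [den_zz hb, den_zz hb']
    refine lt_of_lt_of_le ?_ h
    have hk : (0 : ℝ) < kd b f := by exact_mod_cast kd_pos hb f
    have hk' : (0 : ℝ) < kd b' f' := by exact_mod_cast kd_pos hb' f'
    refine mul_lt_mul_of_pos_left ?_ (by positivity)
    rw [← abs_hit_sub γ b f n, ← abs_hit_sub γ b' f' n']
    have e : ((zz b f n : ℚ) : ℝ) - ((zz b' f' n' : ℚ) : ℝ) =
        ((b : ℝ) * (γ + n) - b' * (γ + n')) - ((b : ℝ) * (γ + n) - ((zz b f n : ℚ) : ℝ)) +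
          ((b' : ℝ) * (γ + n') - ((zz b' f' n' : ℚ) : ℝ)) := by ring
    rw [e]
    have h1 := abs_add_le (((b : ℝ) * (γ + n) - b' * (γ + n')) -
      ((b : ℝ) * (γ + n) - ((zz b f n : ℚ) : ℝ))) ((b' : ℝ) * (γ + n') - ((zz b' f' n' : ℚ) : ℝ))
    have h2 := abs_sub ((b : ℝ) * (γ + n) - b' * (γ + n'))
      ((b : ℝ) * (γ + n) - ((zz b f n : ℚ) : ℝ))
    linarith

/-- the point determines the fraction -/
lemma eq_of_zz (hb : 0 < b) (h : zz b f1 n = zz b f2 n) : f1 = f2 := by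
  have h1 : (b : ℚ) ≠ 0 := by exact_mod_cast hb.ne'
  unfold zz at h
  have := mul_left_cancel₀ h1 h
  linarith

lemma eq_tr_of_zz (hb' : 0 < b') (h : zz b f n = zz b' f' n') : f' = tr b f n b' n' := by
  have h1 : (b' : ℚ) ≠ 0 := by exact_mod_cast hb'.ne'
  unfold tr
  rw [h, zz]
  field_simp
  ring

/-! ### (5) uniqueness -/

/-- (5) different centres of the same item -/
theorem uniq (hb : 0 < b) (hne : f1 ≠ f2) :
    (Nat.gcd (gf b f1) (gf b f2) : ℝ) ≤ kd b f1 * kd b f2 * (disp γ b f1 + disp γ b f2) := by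
  by_contra h
  push Not at h
  apply hne
  refine eq_of_zz (n := 0) hb ?_
  refine eq_of_close (G := Nat.gcd (gf b f1) (gf b f2)) ?_ ?_ ?_
  · rw [num_zz hb]
    exact (Int.natCast_dvd_natCast.2 (Nat.gcd_dvd_left _ _)).mul_right _
  · rw [num_zz hb]
    exact (Int.natCast_dvd_natCast.2 (Nat.gcd_dvd_right _ _)).mul_right _
  · rw [den_zz hb, den_zz hb]
    refine lt_of_le_of_lt ?_ h
    refine mul_le_mul_of_nonneg_left ?_ (by positivity)
    rw [← abs_hit_sub γ b f1 0, ← abs_hit_sub γ b f2 0]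
    have e : ((zz b f1 0 : ℚ) : ℝ) - ((zz b f2 0 : ℚ) : ℝ) =
        ((b : ℝ) * (γ + (0 : ℤ)) - ((zz b f2 0 : ℚ) : ℝ)) -
          ((b : ℝ) * (γ + (0 : ℤ)) - ((zz b f1 0 : ℚ) : ℝ)) := by ring
    rw [e]
    have := abs_sub ((b : ℝ) * (γ + (0 : ℤ)) - ((zz b f2 0 : ℚ) : ℝ))
      ((b : ℝ) * (γ + (0 : ℤ)) - ((zz b f1 0 : ℚ) : ℝ))
    linarith

/-- membership in `F_{K,D}(b)` -/
def InF (γ L : ℝ) (b : ℕ) (K D : ℝ) (f : ℚ) : Prop := (kd b f : ℝ) ≤ K ∧ disp γ b f ≤ D * L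

/-- (5a), size of the common part -/
theorem uniq_h {K D : ℝ} (hb : 0 < b) (hK : 0 ≤ K) (hne : f1 ≠ f2) (h1 : InF γ L b K D f1)
    (h2 : InF γ L b K D f2) : (Nat.gcd (gf b f1) (gf b f2) : ℝ) ≤ 2 * K ^ 2 * (D * L) := by
  have h := uniq (γ := γ) hb hne
  have hd1 := disp_nonneg γ b f1
  have hd2 := disp_nonneg γ b f2
  have hk1 : (0 : ℝ) ≤ kd b f1 := by positivity
  have hk2 : (0 : ℝ) ≤ kd b f2 := by positivity
  calc (Nat.gcd (gf b f1) (gf b f2) : ℝ) ≤ kd b f1 * kd b f2 * (disp γ b f1 + disp γ b f2) := h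
    _ ≤ (K * K) * (D * L + D * L) :=
        mul_le_mul (mul_le_mul h1.1 h2.1 hk2 hK) (add_le_add h1.2 h2.2) (by positivity)
          (by positivity)
    _ = _ := by ring

/-- (5a), `α₁ = g₁ / gcd (g₁, g₂)` divides `β₂` -/
theorem alpha_dvd (hb : 0 < b) (f1 f2 : ℚ) :
    gf b f1 / Nat.gcd (gf b f1) (gf b f2) ∣ bet b f2 := by
  set h := Nat.gcd (gf b f1) (gf b f2) with hh
  have h0 : 0 < h := Nat.gcd_pos_of_pos_left _ (gf_pos hb f1)
  obtain ⟨a1, ha1⟩ := Nat.gcd_dvd_left (gf b f1) (gf b f2)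
  obtain ⟨a2, ha2⟩ := Nat.gcd_dvd_right (gf b f1) (gf b f2)
  rw [← hh] at ha1 ha2
  have hc : Nat.Coprime a1 a2 := by
    have := Nat.coprime_div_gcd_div_gcd (m := gf b f1) (n := gf b f2) h0
    rw [← hh] at this
    rwa [ha1, ha2, Nat.mul_div_cancel_left _ h0, Nat.mul_div_cancel_left _ h0] at this
  have e : gf b f1 / h = a1 := by rw [ha1, Nat.mul_div_cancel_left _ h0]
  rw [e]
  have h3 : gf b f1 ∣ bet b f2 * gf b f2 := by rw [bet_mul_gf]; exact gf_dvd b f1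
  rw [ha1, ha2] at h3
  have h4 : a1 ∣ bet b f2 * a2 := by
    refine Nat.dvd_of_mul_dvd_mul_left h0 ?_
    have : bet b f2 * (h * a2) = h * (bet b f2 * a2) := by ring
    rwa [this] at h3
  exact hc.dvd_of_dvd_mul_right h4

/-- (5a), size of `α₁` -/
theorem alpha_ge {K D : ℝ} (hb : 0 < b) (hK : 0 < K) (hD : 0 < D) (hL : 0 < L) (hne : f1 ≠ f2)
    (h1 : InF γ L b K D f1) (h2 : InF γ L b K D f2) :
    (gf b f1 : ℝ) / L / (2 * K ^ 2 * D) ≤
      ((gf b f1 / Nat.gcd (gf b f1) (gf b f2) : ℕ) : ℝ) := by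
  have h := uniq_h hb hK.le hne h1 h2
  have h0 : 0 < Nat.gcd (gf b f1) (gf b f2) := Nat.gcd_pos_of_pos_left _ (gf_pos hb f1)
  have h0' : (0 : ℝ) < Nat.gcd (gf b f1) (gf b f2) := by exact_mod_cast h0
  rw [Nat.cast_div (Nat.gcd_dvd_left _ _) h0'.ne', div_div]
  refine div_le_div_of_nonneg_left (by positivity) h0' ?_
  calc (Nat.gcd (gf b f1) (gf b f2) : ℝ) ≤ 2 * K ^ 2 * (D * L) := h
    _ = L * (2 * K ^ 2 * D) := by ring

/-- (5b) `b = u T` with `β₁, β₂` coprime to `u` (all primes of `u` explained by both):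
`u gcd (e₁, e₂) ≤ k₁ k₂ (D₁ + D₂)`, `eᵢ = gᵢ / u` -/
theorem uniq_b {u T : ℕ} (hb : 0 < u * T) (hne : f1 ≠ f2)
    (h1 : Nat.Coprime (bet (u * T) f1) u) (h2 : Nat.Coprime (bet (u * T) f2) u) :
    u ∣ gf (u * T) f1 ∧ u ∣ gf (u * T) f2 ∧
    (u : ℝ) * (Nat.gcd (gf (u * T) f1 / u) (gf (u * T) f2 / u) : ℕ) ≤
      kd (u * T) f1 * kd (u * T) f2 * (disp γ (u * T) f1 + disp γ (u * T) f2) := by
  have hd : ∀ f : ℚ, Nat.Coprime (bet (u * T) f) u → u ∣ gf (u * T) f := by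
    intro f hf
    have h3 : u ∣ bet (u * T) f * gf (u * T) f := by rw [bet_mul_gf]; exact dvd_mul_right _ _
    exact hf.symm.dvd_of_dvd_mul_left h3
  have hu : 0 < u := Nat.pos_of_mul_pos_right hb |> fun h => by
    rcases Nat.eq_zero_or_pos u with h0 | h0
    · rw [h0, zero_mul] at hb; omega
    · exact h0
  refine ⟨hd f1 h1, hd f2 h2, ?_⟩
  have h3 := uniq (γ := γ) hb hne
  have h4 : u * Nat.gcd (gf (u * T) f1 / u) (gf (u * T) f2 / u) =
      Nat.gcd (gf (u * T) f1) (gf (u * T) f2) := by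
    rw [← Nat.gcd_mul_left, Nat.mul_div_cancel' (hd f1 h1), Nat.mul_div_cancel' (hd f2 h2)]
  have h5 : (u : ℝ) * (Nat.gcd (gf (u * T) f1 / u) (gf (u * T) f2 / u) : ℕ) =
      (Nat.gcd (gf (u * T) f1) (gf (u * T) f2) : ℕ) := by
    rw [← h4]; push_cast; ring
  rw [h5]
  exact h3

/-- (5c) nested centres -/
theorem uniq_c (hb : 0 < b) (hne : f1 ≠ f2) (hd : gf b f1 ∣ gf b f2) :
    (gf b f1 : ℝ) ≤ kd b f1 * kd b f2 * (disp γ b f1 + disp γ b f2) := by
  have h := uniq (γ := γ) hb hne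
  rwa [Nat.gcd_eq_left hd] at h

/-- (5d) used centre against the centre of the pair -/
theorem used_vs_pair {K D : ℝ} (hb : 0 < b) (hb' : 0 < b') (hK : 0 < K) (hD : 0 ≤ D) (hL : 0 < L)
    (hl : |(b : ℝ) * (γ + n) - b' * (γ + n')| < L) (hf : InF γ L b K D f)
    (hf1 : InF γ L b' K D f1)
    (hg : K ^ 2 * (2 * D + 1) * L < (Nat.gcd (gf b' (tr b f n b' n')) (gf b' f1) : ℕ)) :
    f1 = tr b f n b' n' := by
  by_contra hne
  have h := uniq (γ := γ) hb' (Ne.symm hne)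
  have h1 := disp_tr hb' f n n' hl
  rw [kd_tr hb hb'] at h
  have hd1 := disp_nonneg γ b' f1
  have hd2 := disp_nonneg γ b' (tr b f n b' n')
  have hk1 : (0 : ℝ) ≤ kd b f := by positivity
  have hk2 : (0 : ℝ) ≤ kd b' f1 := by positivity
  have h2 : (kd b f : ℝ) * kd b' f1 * (disp γ b' (tr b f n b' n') + disp γ b' f1) ≤
      (K * K) * ((D * L + L) + D * L) := by
    refine mul_le_mul (mul_le_mul hf.1 hf1.1 hk2 hK.le) ?_ (by positivity) (by positivity)
    exact add_le_add (by linarith [hf.2]) hf1.2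
  have e : (K * K) * ((D * L + L) + D * L) = K ^ 2 * (2 * D + 1) * L := by ring
  rw [e] at h2
  linarith

/-! ### (6) kill lemma -/

/-- (6) an explained prime: if `p^(v_p(b)+1) ∣ num z` then `p ∤ den f` for `f = z / b - n`, and the
label of `f` at `p` kills the hit `n` -/
theorem explained {p : ℕ} (hp : p.Prime) (hb : 0 < b) (f : ℚ) (n : ℤ)
    (h : ((p ^ (b.factorization p + 1) : ℕ) : ℤ) ∣ (zz b f n).num) :
    ¬ p ∣ f.den ∧ (p : ℤ) ∣ WW f n := by
  have hnd : ¬ p ∣ f.den := by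
    intro hd
    -- then `p ∤ W`
    have hW : ¬ p ∣ (WW f n).natAbs := fun hc => by
      have := Nat.dvd_gcd hc hd
      rw [(WW_coprime f n).gcd_eq_one] at this
      exact hp.one_lt.ne' (Nat.dvd_one.1 this)
    rw [num_zz hb, ← Int.natAbs_dvd_natAbs, Int.natAbs_mul, Int.natAbs_natCast,
      Int.natAbs_natCast] at h
    have hc : Nat.Coprime (p ^ (b.factorization p + 1)) (WW f n).natAbs :=
      Nat.Coprime.pow_left _ ((Nat.Prime.coprime_iff_not_dvd hp).2 hW)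
    have h1 := hc.dvd_of_dvd_mul_right h
    have h2 := (hp.pow_dvd_iff_le_factorization hb.ne').1 (h1.trans (gf_dvd b f))
    omega
  exact ⟨hnd, (dvd_WW_iff hp hb hnd).2 h⟩

open CrCoinx935 in
/-- (6) kill lemma in the form of `CrCoin_935`: pair `q = G s'`, `q' = G s`, items `b = g s`,
`b' = g s'`, `h = s n - s' n'`; a differing prime `p ∣ s'` at which `q` uses the label of a centre `f`
of `b` whose point explains `p` -/
theorem kill_left {lam : ℕ → ℕ → Option ℤ} {q q' g s s' p : ℕ} (hp : p.Prime)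
    (hb : 0 < g * s) (hps : p ∣ s') {a : ℤ} (ha : lam q p = some a) (hlab : IsLab f p a)
    (h : ((p ^ ((g * s).factorization p + 1) : ℕ) : ℤ) ∣ (zz (g * s) f n).num) :
    killedL lam q q' s s' (s * n - s' * n') := by
  obtain ⟨h1, h2⟩ := explained hp hb f n h
  refine Or.inl ⟨p, hp, hps, a, ha, ?_⟩
  have h3 : (p : ℤ) ∣ n - a := (lab_iff hp h1 hlab).2 h2
  have e : (s : ℤ) * n - s' * n' - s * a = s * (n - a) - s' * n' := by ring
  rw [e]
  exact dvd_sub (h3.mul_left _) ((Int.natCast_dvd_natCast.2 hps).mul_right _)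

open CrCoinx935 in
/-- (6) mirrored -/
theorem kill_right {lam : ℕ → ℕ → Option ℤ} {q q' g s s' p : ℕ} (hp : p.Prime)
    (hb : 0 < g * s') (hps : p ∣ s) {a : ℤ} (ha : lam q' p = some a) (hlab : IsLab f' p a)
    (h : ((p ^ ((g * s').factorization p + 1) : ℕ) : ℤ) ∣ (zz (g * s') f' n').num) :
    killedL lam q q' s s' (s * n - s' * n') := by
  obtain ⟨h1, h2⟩ := explained hp hb f' n' h
  refine Or.inr ⟨p, hp, hps, a, ha, ?_⟩
  have h3 : (p : ℤ) ∣ n' - a := (lab_iff hp h1 hlab).2 h2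
  have e : (s : ℤ) * n - s' * n' + s' * a = s * n - s' * (n' - a) := by ring
  rw [e]
  exact dvd_sub ((Int.natCast_dvd_natCast.2 hps).mul_right _) (h3.mul_left _)

/-! ### (7) dichotomy -/

/-- different rationals differ by at least `1 / lcm` of the denominators -/
theorem dist_ge (hne : f1 ≠ f2) :
    1 / ((Nat.lcm f1.den f2.den : ℕ) : ℝ) ≤ |(f1 : ℝ) - f2| := by
  set l := Nat.lcm f1.den f2.den with hl
  have hl0 : 0 < l := Nat.lcm_pos f1.den_pos f2.den_pos
  have hl0' : (0 : ℝ) < l := by exact_mod_cast hl0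
  obtain ⟨c1, hc1⟩ := Nat.dvd_lcm_left f1.den f2.den
  obtain ⟨c2, hc2⟩ := Nat.dvd_lcm_right f1.den f2.den
  rw [← hl] at hc1 hc2
  have g1 : f1 * (f1.den : ℚ) = f1.num := Rat.mul_den_eq_num f1
  have g2 : f2 * (f2.den : ℚ) = f2.num := Rat.mul_den_eq_num f2
  have e1 : (l : ℚ) * f1 = ((f1.num * c1 : ℤ) : ℚ) := by
    rw [hc1]
    push_cast
    linear_combination (c1 : ℚ) * g1
  have e2 : (l : ℚ) * f2 = ((f2.num * c2 : ℤ) : ℚ) := by
    rw [hc2]
    push_cast
    linear_combination (c2 : ℚ) * g2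
  have e : (l : ℚ) * (f1 - f2) = ((f1.num * c1 - f2.num * c2 : ℤ) : ℚ) := by
    push_cast
    push_cast at e1 e2
    linear_combination e1 - e2
  have hz : (f1.num * c1 - f2.num * c2 : ℤ) ≠ 0 := by
    intro h0
    rw [h0] at e
    apply hne
    have hlq : (l : ℚ) ≠ 0 := by exact_mod_cast hl0.ne'
    have : (f1 - f2 : ℚ) = 0 := by
      rcases mul_eq_zero.1 (e.trans (by simp)) with h1 | h1
      · exact absurd h1 hlq
      · exact h1
    linarith
  have h1 : (1 : ℝ) ≤ |((f1.num * c1 - f2.num * c2 : ℤ) : ℝ)| := by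
    exact_mod_cast Int.one_le_abs hz
  have h2 : (l : ℝ) * ((f1 : ℝ) - f2) = ((f1.num * c1 - f2.num * c2 : ℤ) : ℝ) := by
    exact_mod_cast congrArg (fun x : ℚ => (x : ℝ)) e
  have h3 : |(l : ℝ) * ((f1 : ℝ) - f2)| = l * |(f1 : ℝ) - f2| := by
    rw [abs_mul, abs_of_pos hl0']
  rw [h2] at h3
  rw [div_le_iff₀ hl0', mul_comm, ← h3]
  exact h1

lemma abs_sub_le_disp (hb : 0 < b) {D : ℝ} (hD : disp γ b f ≤ D * L) : |γ - f| ≤ D * L / b := by
  have h0 : (0 : ℝ) < b := by exact_mod_cast hb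
  unfold disp at hD
  rw [le_div_iff₀ h0]
  linarith

/-- (7), the common inequality `b ≤ 2 D L k lcm (β, β')` -/
theorem dich_aux {k : ℕ} {D : ℝ} (hb : 0 < b) (hbb : b ≤ b') (hk : kd b f = k)
    (hk' : kd b' f' = k) (hD : disp γ b f ≤ D * L) (hD' : disp γ b' f' ≤ D * L) (hne : f ≠ f') :
    (b : ℝ) ≤ 2 * D * L * k * (Nat.lcm (bet b f) (bet b' f') : ℕ) := by
  have hb' : 0 < b' := hb.trans_le hbb
  have h0 : (0 : ℝ) < b := by exact_mod_cast hb
  have h0' : (0 : ℝ) < b' := by exact_mod_cast hb'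
  have hbb' : (b : ℝ) ≤ b' := by exact_mod_cast hbb
  have h1 := dist_ge hne
  have e1 : Nat.lcm f.den f'.den = k * Nat.lcm (bet b f) (bet b' f') := by
    rw [← bet_mul_kd b f, ← bet_mul_kd b' f', hk, hk', Nat.mul_comm (bet b f),
      Nat.mul_comm (bet b' f'), Nat.lcm_mul_left]
  rw [e1] at h1
  have hk0 : 0 < k := hk ▸ kd_pos hb f
  have hl0 : 0 < Nat.lcm (bet b f) (bet b' f') := Nat.lcm_pos (bet_pos hb f) (bet_pos hb' f')
  have hkl : (0 : ℝ) < ((k * Nat.lcm (bet b f) (bet b' f') : ℕ) : ℝ) := by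
    exact_mod_cast Nat.mul_pos hk0 hl0
  have h2 := abs_sub_le_disp hb hD
  have h3 := abs_sub_le_disp hb' hD'
  have h4 : |(f : ℝ) - f'| ≤ |γ - f| + |γ - f'| := by
    have e : (f : ℝ) - f' = (γ - f') - (γ - f) := by ring
    rw [e]
    have := abs_sub (γ - f') (γ - f)
    linarith
  have h5 : D * L / b' ≤ D * L / b := by
    have hDL : 0 ≤ D * L := (disp_nonneg γ b f).trans hD
    exact div_le_div_of_nonneg_left hDL h0 hbb'
  have h6 : 1 / ((k * Nat.lcm (bet b f) (bet b' f') : ℕ) : ℝ) ≤ 2 * (D * L) / b := by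
    have e : 2 * (D * L) / b = D * L / b + D * L / b := by ring
    rw [e]
    linarith
  rw [div_le_div_iff₀ hkl h0] at h6
  push_cast at h6 ⊢
  linarith

/-- (7) **dichotomy**, different fractions -/
theorem dichotomy {k : ℕ} {D : ℝ} (hb : 0 < b) (hbb : b ≤ b') (hL : 0 < L) (hD0 : 0 < D)
    (hk : kd b f = k) (hk' : kd b' f' = k) (hD : disp γ b f ≤ D * L)
    (hD' : disp γ b' f' ≤ D * L) (hne : f ≠ f') :
    (gf b f : ℝ) / L / (2 * k * D) ≤ ((bet b' f' / Nat.gcd (bet b f) (bet b' f') : ℕ) : ℝ) ∧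
    (b : ℝ) / b' * ((gf b' f' : ℝ) / L) / (2 * k * D) ≤
      ((bet b f / Nat.gcd (bet b f) (bet b' f') : ℕ) : ℝ) := by
  have hb' : 0 < b' := hb.trans_le hbb
  have h0 : (0 : ℝ) < b := by exact_mod_cast hb
  have h0' : (0 : ℝ) < b' := by exact_mod_cast hb'
  have hk0 : (0 : ℝ) < k := by exact_mod_cast (hk ▸ kd_pos hb f : 0 < k)
  have h := dich_aux hb hbb hk hk' hD hD' hne
  have hg0 : 0 < Nat.gcd (bet b f) (bet b' f') := Nat.gcd_pos_of_pos_left _ (bet_pos hb f)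
  have e1 : Nat.lcm (bet b f) (bet b' f') = bet b f * (bet b' f' / Nat.gcd (bet b f) (bet b' f')) := by
    rw [Nat.lcm, Nat.mul_div_assoc _ (Nat.gcd_dvd_right _ _)]
  have e2 : Nat.lcm (bet b f) (bet b' f') = bet b' f' * (bet b f / Nat.gcd (bet b f) (bet b' f')) := by
    rw [Nat.lcm, Nat.mul_comm (bet b f), Nat.mul_div_assoc _ (Nat.gcd_dvd_left _ _)]
  have hβ : (0 : ℝ) < bet b f := by exact_mod_cast bet_pos hb f
  have hβ' : (0 : ℝ) < bet b' f' := by exact_mod_cast bet_pos hb' f'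
  have eb : (b : ℝ) = bet b f * gf b f := by exact_mod_cast (bet_mul_gf b f).symm
  have eb' : (b' : ℝ) = bet b' f' * gf b' f' := by exact_mod_cast (bet_mul_gf b' f').symm
  constructor
  · rw [div_div, div_le_iff₀ (by positivity)]
    have h1 := h
    rw [e1, Nat.cast_mul, eb] at h1
    refine le_of_mul_le_mul_left (h1.trans (le_of_eq ?_)) hβ
    ring
  · have h1 := h
    rw [e2, Nat.cast_mul] at h1
    have e3 : (b : ℝ) / b' * ((gf b' f' : ℝ) / L) / (2 * k * D) = b / (bet b' f' * (L * (2 * k * D))) := by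
      have hg' : (gf b' f' : ℝ) ≠ 0 := by exact_mod_cast (gf_pos hb' f').ne'
      rw [eb']
      field_simp
    rw [e3, div_le_iff₀ (by positivity)]
    refine h1.trans (le_of_eq ?_)
    ring

/-- (7), equal fractions: the `β`'s agree -/
theorem bet_eq_of_eq (hb : 0 < b) (hb' : 0 < b') (hk : kd b f = kd b' f) : bet b f = bet b' f := by
  have h1 := bet_mul_kd b f
  have h2 := bet_mul_kd b' f
  rw [← h2, ← hk] at h1
  exact Nat.eq_of_mul_eq_mul_right (kd_pos hb f) h1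

/-- (7), equal fractions: `b g_f(b') = b' g_f(b)` -/
theorem ratio_of_eq (hb : 0 < b) (hb' : 0 < b') (hk : kd b f = kd b' f) :
    b * gf b' f = b' * gf b f := by
  have h := bet_eq_of_eq hb hb' hk
  conv_lhs => rw [← bet_mul_gf b f]
  conv_rhs => rw [← bet_mul_gf b' f]
  rw [h]
  ring

/-- (7), **global case**: same fraction, common point: every differing prime is explained -/
theorem dichotomy_eq (hb : 0 < b) (hb' : 0 < b') (hz : zz b f n = zz b' f n') {p : ℕ}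
    (hp : p.Prime) (hne : b.factorization p ≠ b'.factorization p) :
    ((p ^ (b.factorization p) : ℕ) : ℤ) ∣ (zz b f n).num ∧
      ((p ^ (b'.factorization p) : ℕ) : ℤ) ∣ (zz b f n).num := by
  have hk : kd b f = kd b' f := by rw [← den_zz hb f n, ← den_zz hb' f n', hz]
  have hβ := bet_eq_of_eq hb hb' hk
  have hN : gf b f * (WW f n).natAbs = gf b' f * (WW f n').natAbs := by
    have h1 := congrArg (fun z : ℚ => z.num.natAbs) hz
    simp only [num_zz hb, num_zz hb', Int.natAbs_mul, Int.natAbs_natCast] at h1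
    exact h1
  have hv : ∀ c : ℕ, 0 < c → c.factorization p = (bet c f).factorization p + (gf c f).factorization p := by
    intro c hc
    have h1 := bet_mul_gf c f
    conv_lhs => rw [← h1]
    rw [Nat.factorization_mul (bet_pos hc f).ne' (gf_pos hc f).ne', Finsupp.add_apply]
  have hpβ : ¬ p ∣ bet b f := by
    intro hpd
    have hnW : ∀ m : ℤ, ¬ p ∣ (WW f m).natAbs := fun m hc => by
      have := Nat.dvd_gcd hc (hpd.trans (bet_dvd_den b f))
      rw [(WW_coprime f m).gcd_eq_one] at this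
      exact hp.one_lt.ne' (Nat.dvd_one.1 this)
    have hW0 : ∀ m : ℤ, (WW f m).natAbs ≠ 0 := fun m hc => hnW m (hc ▸ dvd_zero p)
    have h2 := congrArg (fun m : ℕ => m.factorization p) hN
    simp only [Nat.factorization_mul (gf_pos hb f).ne' (hW0 n),
      Nat.factorization_mul (gf_pos hb' f).ne' (hW0 n'), Finsupp.add_apply,
      Nat.factorization_eq_zero_of_not_dvd (hnW n), Nat.factorization_eq_zero_of_not_dvd (hnW n'),
      add_zero] at h2
    apply hne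
    rw [hv b hb, hv b' hb', hβ, h2]
  have hz1 : (bet b f).factorization p = 0 := Nat.factorization_eq_zero_of_not_dvd hpβ
  have hz2 : (bet b' f).factorization p = 0 := hβ ▸ hz1
  constructor
  · rw [num_zz hb, hv b hb, hz1, zero_add]
    exact (Int.natCast_dvd_natCast.2 (Nat.ordProj_dvd _ _)).mul_right _
  · rw [hz, num_zz hb', hv b' hb', hz2, zero_add]
    exact (Int.natCast_dvd_natCast.2 (Nat.ordProj_dvd _ _)).mul_right _

/-! ### (8) sparsity -/

/-- `β` is the absorbed part of a centre with denominator `k`, scale `≥ t`, displacement `≤ D L` -/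
def Good (γ L : ℝ) (k : ℕ) (t D : ℝ) (β : ℕ) : Prop :=
  ∃ (b : ℕ) (f : ℚ), 0 < b ∧ bet b f = β ∧ kd b f = k ∧ t ≤ (gf b f : ℝ) / L ∧ disp γ b f ≤ D * L

/-- (8a) at most one good `β` is `< t / (2 k D)` -/
theorem sparse_small {k : ℕ} {t D : ℝ} (hL : 0 < L) (hD : 0 < D) {β β' : ℕ}
    (h : Good γ L k t D β) (h' : Good γ L k t D β') (hs : (β : ℝ) < t / (2 * k * D))
    (hs' : (β' : ℝ) < t / (2 * k * D)) : β = β' := by
  have key : ∀ (b b' : ℕ) (f f' : ℚ), 0 < b → b ≤ b' → kd b f = k → kd b' f' = k →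
      t ≤ (gf b f : ℝ) / L → disp γ b f ≤ D * L → disp γ b' f' ≤ D * L →
      (bet b' f' : ℝ) < t / (2 * k * D) → bet b f = bet b' f' := by
    intro b b' f f' hb hbb hk hk' ht hD1 hD2 hlt
    have hb' : 0 < b' := hb.trans_le hbb
    have hk0 : (0 : ℝ) < k := by exact_mod_cast (hk ▸ kd_pos hb f : 0 < k)
    by_cases hne : f = f'
    · subst hne
      exact bet_eq_of_eq hb hb' (hk.trans hk'.symm)
    · exfalso
      have h1 := (dichotomy hb hbb hL hD hk hk' hD1 hD2 hne).1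
      have h2 : ((bet b' f' / Nat.gcd (bet b f) (bet b' f') : ℕ) : ℝ) ≤ bet b' f' := by
        exact_mod_cast Nat.div_le_self _ _
      have h3 : t / (2 * k * D) ≤ (gf b f : ℝ) / L / (2 * k * D) :=
        div_le_div_of_nonneg_right ht (by positivity)
      linarith
  obtain ⟨b, f, hb, hβ, hk, ht, hd⟩ := h
  obtain ⟨b', f', hb', hβ', hk', ht', hd'⟩ := h'
  rcases le_total b b' with h1 | h1
  · rw [← hβ, ← hβ']
    exact key b b' f f' hb h1 hk hk' ht hd hd' (hβ' ▸ hs')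
  · rw [← hβ, ← hβ']
    exact (key b' b f' f hb' h1 hk' hk ht' hd' hd (hβ ▸ hs)).symm

/-- number of points of an interval with gaps `≥ δ` -/
lemma card_gap (S : Finset ℕ) (F : ℕ → ℝ) {c r δ : ℝ} (hδ : 0 < δ) (hr0 : 0 ≤ r)
    (hr : ∀ i ∈ S, |F i - c| ≤ r) (hgap : ∀ i ∈ S, ∀ j ∈ S, i ≠ j → δ ≤ |F i - F j|) :
    (S.card : ℝ) ≤ 1 + 2 * r / δ := by
  set φ : ℕ → ℕ := fun i => ⌊(F i - c + r) / δ⌋₊ with hφ
  have hnn : ∀ i ∈ S, 0 ≤ (F i - c + r) / δ := by
    intro i hi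
    have := (abs_le.1 (hr i hi)).1
    exact div_nonneg (by linarith) hδ.le
  have hinj : Set.InjOn φ (S : Set ℕ) := by
    intro i hi j hj hij
    by_contra hne
    have h1 := hgap i hi j hj hne
    simp only [hφ] at hij
    have a1 := Nat.floor_le (hnn i hi)
    have a2 := Nat.lt_floor_add_one ((F i - c + r) / δ)
    have b1 := Nat.floor_le (hnn j hj)
    have b2 := Nat.lt_floor_add_one ((F j - c + r) / δ)
    rw [hij] at a1 a2
    have h2 : |(F i - c + r) / δ - (F j - c + r) / δ| < 1 := by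
      rw [abs_lt]
      constructor <;> linarith
    have h3 : (F i - c + r) / δ - (F j - c + r) / δ = (F i - F j) / δ := by ring
    rw [h3, abs_div, abs_of_pos hδ, div_lt_one hδ] at h2
    linarith
  have hsub : S.image φ ⊆ range (⌊2 * r / δ⌋₊ + 1) := by
    intro m hm
    rw [mem_image] at hm
    obtain ⟨i, hi, rfl⟩ := hm
    rw [mem_range, Nat.lt_succ_iff]
    refine Nat.floor_le_floor ?_
    have := (abs_le.1 (hr i hi)).2
    exact div_le_div_of_nonneg_right (by linarith) hδ.le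
  have h1 := card_le_card hsub
  rw [card_image_of_injOn hinj, card_range] at h1
  have h2 : (⌊2 * r / δ⌋₊ : ℝ) ≤ 2 * r / δ := Nat.floor_le (by positivity)
  have h3 : (S.card : ℝ) ≤ ((⌊2 * r / δ⌋₊ + 1 : ℕ) : ℝ) := by exact_mod_cast h1
  push_cast at h3
  linarith

/-- (8b) number of good `β` in `[X, 2X)` -/
theorem sparse_count {k : ℕ} {t D X : ℝ} (hL : 0 < L) (hD : 0 < D) (ht : 0 < t) (hX : 0 < X)
    (S : Finset ℕ) (hS : ∀ β ∈ S, X ≤ β ∧ (β : ℝ) < 2 * X ∧ Good γ L k t D β) :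
    (S.card : ℝ) ≤ 1 + 8 * k * D * X / t := by
  classical
  rcases S.eq_empty_or_nonempty with rfl | ⟨β0, hβ0⟩
  · rw [card_empty]
    have : (0 : ℝ) ≤ 1 + 8 * k * D * X / t := by positivity
    exact_mod_cast this
  obtain ⟨b0, f0, hb0, _, hk00, _⟩ := (hS β0 hβ0).2.2
  have hk0 : (0 : ℝ) < k := by exact_mod_cast (hk00 ▸ kd_pos hb0 f0 : 0 < k)
  have hch : ∀ β : ℕ, ∃ f : ℚ, β ∈ S → ∃ b : ℕ, 0 < b ∧ bet b f = β ∧ kd b f = k ∧
      t ≤ (gf b f : ℝ) / L ∧ disp γ b f ≤ D * L := by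
    intro β
    by_cases hβ : β ∈ S
    · obtain ⟨b, f, h⟩ := (hS β hβ).2.2
      exact ⟨f, fun _ => ⟨b, h⟩⟩
    · exact ⟨0, fun h => absurd h hβ⟩
  choose F hF using hch
  have h1 : ∀ β ∈ S, |((F β : ℚ) : ℝ) - γ| ≤ D / (X * t) := by
    intro β hβ
    obtain ⟨b, hb, hβe, _, htg, hd⟩ := hF β hβ
    have h2 := abs_sub_le_disp hb hd
    rw [abs_sub_comm]
    refine h2.trans ?_
    have hb0 : (0 : ℝ) < b := by exact_mod_cast hb
    have e : (b : ℝ) = β * gf b (F β) := by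
      have := bet_mul_gf b (F β)
      rw [hβe] at this
      exact_mod_cast this.symm
    rw [le_div_iff₀ hL] at htg
    have h3 : X * t * L ≤ b := by
      rw [e]
      calc X * t * L = X * (t * L) := by ring
        _ ≤ β * gf b (F β) := mul_le_mul (hS β hβ).1 htg (by positivity) (by positivity)
    rw [div_le_div_iff₀ hb0 (by positivity)]
    calc D * L * (X * t) = D * (X * t * L) := by ring
      _ ≤ D * b := mul_le_mul_of_nonneg_left h3 hD.le
  have h2 : ∀ β ∈ S, ∀ β' ∈ S, β ≠ β' → 1 / (4 * k * X ^ 2) ≤ |((F β : ℚ) : ℝ) - ((F β' : ℚ) : ℝ)| := by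
    intro β hβ β' hβ' hne
    obtain ⟨b, hb, hβe, hke, _⟩ := hF β hβ
    obtain ⟨b', hb', hβe', hke', _⟩ := hF β' hβ'
    have d1 : (F β).den = β * k := by rw [← bet_mul_kd b (F β), hβe, hke]
    have d2 : (F β').den = β' * k := by rw [← bet_mul_kd b' (F β'), hβe', hke']
    have hne' : F β ≠ F β' := by
      intro h3
      apply hne
      rw [h3, d2] at d1
      exact (Nat.eq_of_mul_eq_mul_right (by exact_mod_cast hk0) d1).symm
    refine le_trans ?_ (dist_ge hne')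
    have hβ0 : 0 < β := hβe ▸ bet_pos hb _
    have hβ0' : 0 < β' := hβe' ▸ bet_pos hb' _
    have hl : Nat.lcm (F β).den (F β').den ≤ k * (β * β') := by
      rw [d1, d2, Nat.mul_comm β, Nat.mul_comm β', Nat.lcm_mul_left]
      exact Nat.mul_le_mul_left _ (Nat.le_of_dvd (Nat.mul_pos hβ0 hβ0')
        (Nat.lcm_dvd (dvd_mul_right _ _) (dvd_mul_left _ _)))
    have hl0 : (0 : ℝ) < (Nat.lcm (F β).den (F β').den : ℕ) := by
      exact_mod_cast Nat.lcm_pos (F β).den_pos (F β').den_pos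
    refine one_div_le_one_div_of_le hl0 ?_
    have hl' : ((Nat.lcm (F β).den (F β').den : ℕ) : ℝ) ≤ k * (β * β') := by exact_mod_cast hl
    refine hl'.trans ?_
    have h3 : (β : ℝ) * β' ≤ (2 * X) * (2 * X) :=
      mul_le_mul (hS β hβ).2.1.le (hS β' hβ').2.1.le (by positivity) (by positivity)
    calc (k : ℝ) * (β * β') ≤ k * ((2 * X) * (2 * X)) := mul_le_mul_of_nonneg_left h3 hk0.le
      _ = _ := by ring
  have h3 := card_gap S (fun β => ((F β : ℚ) : ℝ)) (c := γ) (r := D / (X * t))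
    (δ := 1 / (4 * k * X ^ 2)) (by positivity) (by positivity) h1 h2
  refine h3.trans (le_of_eq ?_)
  field_simp
  ring

/-- (8b), large blocks -/
theorem sparse_count' {k : ℕ} {t D X : ℝ} (hL : 0 < L) (hD : 0 < D) (ht : 0 < t) (hX : 0 < X)
    (hXt : t ≤ 4 * k * D * X)
    (S : Finset ℕ) (hS : ∀ β ∈ S, X ≤ β ∧ (β : ℝ) < 2 * X ∧ Good γ L k t D β) :
    (S.card : ℝ) ≤ 12 * k * D * X / t := by
  have h := sparse_count hL hD ht hX S hS
  have h1 : 1 ≤ 4 * k * D * X / t := by rw [le_div_iff₀ ht]; linarith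
  have e : 12 * (k : ℝ) * D * X / t = 4 * k * D * X / t + 8 * k * D * X / t := by ring
  rw [e]
  linarith

/-- (8c) reciprocal sum of the good `β ≥ t / (2 k D)` up to `S` -/
theorem sparse_recip {k : ℕ} {t D : ℝ} (hL : 0 < L) (hD : 0 < D) (ht : 0 < t) {N : ℕ} (hN : 1 ≤ N)
    (S : Finset ℕ) (hS : ∀ β ∈ S, 1 ≤ β ∧ β ≤ N ∧ t / (2 * k * D) ≤ β ∧ Good γ L k t D β) :
    ∑ β ∈ S, (1 : ℝ) / β ≤ 12 * k * D / t * (1 + Real.log N / Real.log 2) := by
  classical
  have hl2 : 0 < Real.log 2 := Real.log_pos (by norm_num)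
  have hmaps : ∀ β ∈ S, Nat.log 2 β ∈ range (Nat.log 2 N + 1) := by
    intro β hβ
    rw [mem_range, Nat.lt_succ_iff]
    exact Nat.log_mono_right (hS β hβ).2.1
  rw [← sum_fiberwise_of_maps_to hmaps]
  have hblock : ∀ j ∈ range (Nat.log 2 N + 1), ∑ β ∈ S.filter (fun β => Nat.log 2 β = j), (1 : ℝ) / β ≤
      12 * k * D / t := by
    intro j _
    set Sj := S.filter (fun β => Nat.log 2 β = j) with hSj
    rcases Sj.eq_empty_or_nonempty with he | ⟨β0, hβ0⟩
    · rw [he, sum_empty]; positivity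
    have hmem : ∀ β ∈ Sj, ((2 : ℝ) ^ j) ≤ β ∧ (β : ℝ) < 2 * 2 ^ j ∧ Good γ L k t D β := by
      intro β hβ
      rw [hSj, mem_filter] at hβ
      obtain ⟨hβS, hlog⟩ := hβ
      obtain ⟨h1, _, _, h4⟩ := hS β hβS
      refine ⟨?_, ?_, h4⟩
      · have := Nat.pow_log_le_self 2 (show β ≠ 0 by omega)
        rw [hlog] at this
        exact_mod_cast this
      · have := Nat.lt_pow_succ_log_self (b := 2) (by norm_num) β
        rw [hlog, Nat.succ_eq_add_one, pow_succ] at this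
        have h5 : (β : ℝ) < ((2 ^ j * 2 : ℕ) : ℝ) := by exact_mod_cast this
        push_cast at h5
        linarith
    have hX : t ≤ 4 * k * D * 2 ^ j := by
      have h1 := (hmem β0 hβ0)
      rw [hSj, mem_filter] at hβ0
      have h2 := (hS β0 hβ0.1).2.2.1
      obtain ⟨b0, f0, hb0, _, hk00, _⟩ := h1.2.2
      have hk0 : (0 : ℝ) < k := by exact_mod_cast (hk00 ▸ kd_pos hb0 f0 : 0 < k)
      rw [div_le_iff₀ (by positivity)] at h2
      have h3 : (β0 : ℝ) * (2 * k * D) ≤ (2 * 2 ^ j) * (2 * k * D) :=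
        mul_le_mul_of_nonneg_right h1.2.1.le (by positivity)
      calc t ≤ (β0 : ℝ) * (2 * k * D) := h2
        _ ≤ _ := h3
        _ = _ := by ring
    have hc := sparse_count' hL hD ht (X := 2 ^ j) (by positivity) hX Sj hmem
    calc ∑ β ∈ Sj, (1 : ℝ) / β ≤ ∑ _β ∈ Sj, 1 / (2 : ℝ) ^ j :=
          sum_le_sum fun β hβ => one_div_le_one_div_of_le (by positivity) (hmem β hβ).1
      _ = (Sj.card : ℝ) * (1 / 2 ^ j) := by rw [sum_const, nsmul_eq_mul]
      _ ≤ (12 * k * D * 2 ^ j / t) * (1 / 2 ^ j) := mul_le_mul_of_nonneg_right hc (by positivity)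
      _ = _ := by field_simp
  refine (sum_le_sum hblock).trans ?_
  rw [sum_const, card_range, nsmul_eq_mul, mul_comm]
  refine mul_le_mul_of_nonneg_left ?_ (by positivity)
  push_cast
  have h1 : ((Nat.log 2 N : ℕ) : ℝ) * Real.log 2 ≤ Real.log N := by
    have h2 := Nat.pow_log_le_self 2 (show N ≠ 0 by omega)
    have h3 : ((2 : ℝ) ^ (Nat.log 2 N)) ≤ N := by exact_mod_cast h2
    have h4 := Real.log_le_log (by positivity) h3
    rwa [Real.log_pow] at h4
  have h2 : ((Nat.log 2 N : ℕ) : ℝ) ≤ Real.log N / Real.log 2 := by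
    rw [le_div_iff₀ hl2]; exact h1
  linarith

lemma sum_biUnion_le'' {ι : Type*} (s : Finset ι) (W : ι → Finset ℕ) (g : ℕ → ℝ)
    (hg : ∀ n, 0 ≤ g n) : ∑ n ∈ s.biUnion W, g n ≤ ∑ j ∈ s, ∑ n ∈ W j, g n := by
  classical
  induction s using Finset.induction_on with
  | empty => simp
  | insert a s ha ih =>
    rw [biUnion_insert, sum_insert ha]
    have h1 := sum_union_inter (s₁ := W a) (s₂ := s.biUnion W) (f := g)
    have h2 : 0 ≤ ∑ n ∈ W a ∩ s.biUnion W, g n := sum_nonneg fun n _ => hg n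
    linarith

open Classical in
/-- multiples: `∑_{s ≤ N, ∃ β ∈ S, β ∣ s} 1/s ≤ (∑_{β ∈ S} 1/β) (1 + log N)` -/
theorem sum_multiples {N : ℕ} (S : Finset ℕ) (hS : ∀ β ∈ S, 1 ≤ β) :
    ∑ s ∈ (Icc 1 N).filter (fun s => ∃ β ∈ S, β ∣ s), (1 : ℝ) / s ≤
      (∑ β ∈ S, (1 : ℝ) / β) * (1 + Real.log N) := by
  classical
  have h1 : (Icc 1 N).filter (fun s => ∃ β ∈ S, β ∣ s) ⊆
      S.biUnion (fun β => (Icc 1 N).filter (β ∣ ·)) := by
    intro s hs
    rw [mem_filter] at hs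
    obtain ⟨hs1, β, hβ, hd⟩ := hs
    rw [mem_biUnion]
    exact ⟨β, hβ, mem_filter.2 ⟨hs1, hd⟩⟩
  refine (sum_le_sum_of_subset_of_nonneg h1 fun _ _ _ => by positivity).trans ?_
  refine (sum_biUnion_le'' S _ _ fun _ => by positivity).trans ?_
  rw [sum_mul]
  refine sum_le_sum fun β hβ => ?_
  have hβ1 := hS β hβ
  have hβ0 : (0 : ℝ) < β := by exact_mod_cast hβ1
  have h2 : ∑ s ∈ (Icc 1 N).filter (β ∣ ·), (1 : ℝ) / s ≤ ∑ m ∈ Icc 1 N, (1 : ℝ) / β * (1 / m) := by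
    have hinj : Set.InjOn (fun s => s / β) ((Icc 1 N).filter (β ∣ ·) : Set ℕ) := by
      intro a ha c hc hac
      simp only [coe_filter, Set.mem_ofPred_eq] at ha hc
      obtain ⟨u, rfl⟩ := ha.2
      obtain ⟨v, rfl⟩ := hc.2
      simp only [Nat.mul_div_cancel_left _ hβ1] at hac
      rw [hac]
    have h3 : ∑ s ∈ (Icc 1 N).filter (β ∣ ·), (1 : ℝ) / s =
        ∑ m ∈ ((Icc 1 N).filter (β ∣ ·)).image (fun s => s / β), (1 : ℝ) / β * (1 / m) := by
      rw [sum_image hinj]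
      refine sum_congr rfl fun s hs => ?_
      rw [mem_filter] at hs
      obtain ⟨m, rfl⟩ := hs.2
      rw [Nat.mul_div_cancel_left _ hβ1]
      push_cast
      rw [one_div_mul_one_div]
    rw [h3]
    refine sum_le_sum_of_subset_of_nonneg ?_ fun _ _ _ => by positivity
    intro m hm
    rw [mem_image] at hm
    obtain ⟨s, hs, rfl⟩ := hm
    rw [mem_filter, mem_Icc] at hs
    rw [mem_Icc]
    exact ⟨Nat.div_pos (Nat.le_of_dvd (by omega) hs.2) hβ1, (Nat.div_le_self _ _).trans hs.1.2⟩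
  refine h2.trans ?_
  rw [← mul_sum]
  refine mul_le_mul_of_nonneg_left ?_ (by positivity)
  have h4 := harmonic_le_one_add_log N
  have h5 : ((harmonic N : ℚ) : ℝ) = ∑ m ∈ Icc 1 N, (1 : ℝ) / m := by
    rw [harmonic_eq_sum_Icc]
    push_cast
    exact sum_congr rfl fun m _ => by rw [one_div]
  rw [← h5]
  exact h4

end Crest.Agent.R4C.CentreS4x952
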