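import Mathlib

/-!
# Row 4: centres (helper949), S4 in `q`-language, arbitrary `q`

A *centre* of the item `q` is a rational number `f` close to `γ`; in `y`-language it is the
point `b (f + n)`.  For a pair `q = G s'`, `q' = G s` and an offset `h`
(`h = s n - s' n'`, `|(s - s') γ + h| < Δ`) the two centres `f, f'` are the *same point*
iff `s f - s' f' + h = 0`.

* `same_point`   : two labels at the precision of the pair are the same point;
* `kill`         : at a differing prime a common centre kills;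
* `far_apart`    : two different centres of one item differ by at least `1/(k₁ k₂ lcm(s₁,s₂))`;
* `unique_centre`: uniqueness of the centre of an item.
-/

set_option autoImplicit false

namespace Crest.Agent.R4C.Centrex949

/-- two rationals `N/k`, `N'/k'` and an integer `h`: if `N/k - N'/k' + h` is smaller than
`1/(k k')` then it is zero -/
lemma eq_of_close {N N' h : ℤ} {k k' : ℕ} (hk : 0 < k) (hk' : 0 < k')
    (hc : |(N : ℝ) / k - N' / k' + h| < 1 / (k * k')) : (N : ℝ) / k - N' / k' + h = 0 := by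
  have hk0 : (0 : ℝ) < k := by exact_mod_cast hk
  have hk0' : (0 : ℝ) < k' := by exact_mod_cast hk'
  have e : (N : ℝ) / k - N' / k' + h = ((N * k' - N' * k + h * (k * k') : ℤ) : ℝ) / (k * k') := by
    push_cast
    field_simp
  rw [e] at hc ⊢
  rw [abs_div, abs_of_pos (mul_pos hk0 hk0'), div_lt_div_iff_of_pos_right (mul_pos hk0 hk0')] at hc
  have h1 : |(N * k' - N' * k + h * (k * k') : ℤ)| < 1 := by exact_mod_cast hc
  rw [Int.abs_lt_one_iff.1 h1]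
  simp

/-- **common centre**: if `s γ` is within `ε` of `N/k`, `s' γ` is within `ε'` of `N'/k'`, the pair
is linked with precision `Δ` through the offset `h`, and `ε + ε' + Δ ≤ 1/(k k')` (one strict),
then the two labels are the same point. -/
theorem same_point {γ Δ ε ε' : ℝ} {s s' : ℝ} {N N' h : ℤ} {k k' : ℕ} (hk : 0 < k) (hk' : 0 < k')
    (hl : |(s - s') * γ + h| < Δ) (h1 : |s * γ - N / k| ≤ ε) (h2 : |s' * γ - N' / k'| ≤ ε')
    (hsm : ε + ε' + Δ ≤ 1 / (k * k')) : (N : ℝ) / k - N' / k' + h = 0 := by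
  refine eq_of_close hk hk' ?_
  have e : (N : ℝ) / k - N' / k' + h = ((s - s') * γ + h) - (s * γ - N / k) + (s' * γ - N' / k') := by
    ring
  rw [e]
  have h3 := abs_add_le (((s - s') * γ + h) - (s * γ - N / k)) (s' * γ - N' / k')
  have h4 := abs_sub (((s - s') * γ + h)) (s * γ - N / k)
  linarith

/-- the denominators of a common centre agree (labels in lowest terms) -/
theorem den_eq {N N' h : ℤ} {k k' : ℕ} (hk : 0 < k) (hk' : 0 < k') (hc : IsCoprime N (k : ℤ))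
    (hc' : IsCoprime N' (k' : ℤ)) (h0 : (N : ℝ) / k - N' / k' + h = 0) : k = k' := by
  have hk0 : (k : ℝ) ≠ 0 := by exact_mod_cast hk.ne'
  have hk0' : (k' : ℝ) ≠ 0 := by exact_mod_cast hk'.ne'
  have e : N * k' - N' * k + h * (k * k') = 0 := by
    have : ((N * k' - N' * k + h * (k * k') : ℤ) : ℝ) = 0 := by
      push_cast
      have := h0
      field_simp at this
      linarith
    exact_mod_cast this
  have d1 : (k : ℤ) ∣ k' := by
    refine hc.symm.dvd_of_dvd_mul_left ?_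
    exact ⟨N' - h * k', by linear_combination e⟩
  have d2 : (k' : ℤ) ∣ k := by
    refine hc'.symm.dvd_of_dvd_mul_left ?_
    exact ⟨N + h * k, by linear_combination -e⟩
  exact Nat.dvd_antisymm (Int.natCast_dvd_natCast.1 d1) (Int.natCast_dvd_natCast.1 d2)

/-- **kill lemma**, integer form.  Centres `f = A/D` of `q`, `f' = A'/D'` of `q'`, the same point
(`s f - s' f' + h = 0`), `p ∣ s'`, `p ∤ D`, `p ∤ D'`, label `a` of `q` at `p` : `p ∣ A + D a`.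
Then the pair is killed at `p`. -/
theorem kill {A A' D D' s s' h a : ℤ} {p : ℤ} (hp : Prime p)
    (hz : s * A * D' - s' * A' * D + h * D * D' = 0) (hs' : p ∣ s') (hD : ¬ p ∣ D) (hD' : ¬ p ∣ D')
    (ha : p ∣ A + D * a) : p ∣ h - s * a := by
  have h1 : p ∣ D' * (D * (h - s * a)) := by
    have e : D' * (D * (h - s * a)) = s' * (A' * D) - (A + D * a) * (s * D') := by
      linear_combination hz
    rw [e]
    exact dvd_sub (hs'.mul_right _) (ha.mul_right _)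
  rcases hp.dvd_or_dvd h1 with h2 | h2
  · exact absurd h2 hD'
  · rcases hp.dvd_or_dvd h2 with h3 | h3
    · exact absurd h3 hD
    · exact h3

/-- the mirrored kill lemma (`p ∣ s`, label of `q'`) -/
theorem kill' {A A' D D' s s' h b : ℤ} {p : ℤ} (hp : Prime p)
    (hz : s * A * D' - s' * A' * D + h * D * D' = 0) (hs : p ∣ s) (hD : ¬ p ∣ D) (hD' : ¬ p ∣ D')
    (hb : p ∣ A' + D' * b) : p ∣ h + s' * b := by
  have hz' : s' * A' * D - s * A * D' + (-h) * D' * D = 0 := by linear_combination -hz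
  have := kill (a := b) hp hz' hs hD' hD hb
  have e : h + s' * b = -(-h - s' * b) := by ring
  rw [e]
  exact (dvd_neg).2 this

/-- two different rationals `N₁/(k₁ s₁)`, `N₂/(k₂ s₂)` differ by at least
`1/(k₁ k₂ lcm(s₁,s₂))` -/
theorem far_apart {N₁ N₂ : ℤ} {k₁ k₂ s₁ s₂ : ℕ} (hk₁ : 0 < k₁) (hk₂ : 0 < k₂) (hs₁ : 0 < s₁)
    (hs₂ : 0 < s₂) (hne : (N₁ : ℝ) / (k₁ * s₁) ≠ N₂ / (k₂ * s₂)) :
    1 / ((k₁ : ℝ) * k₂ * (Nat.lcm s₁ s₂ : ℕ)) ≤ |(N₁ : ℝ) / (k₁ * s₁) - N₂ / (k₂ * s₂)| := by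
  obtain ⟨c₁, hc₁⟩ := Nat.dvd_lcm_left s₁ s₂
  obtain ⟨c₂, hc₂⟩ := Nat.dvd_lcm_right s₁ s₂
  set l := Nat.lcm s₁ s₂ with hl
  have hl0 : 0 < l := Nat.lcm_pos hs₁ hs₂
  have hk₁0 : (0 : ℝ) < k₁ := by exact_mod_cast hk₁
  have hk₂0 : (0 : ℝ) < k₂ := by exact_mod_cast hk₂
  have hs₁0 : (0 : ℝ) < s₁ := by exact_mod_cast hs₁
  have hs₂0 : (0 : ℝ) < s₂ := by exact_mod_cast hs₂
  have hl0' : (0 : ℝ) < l := by exact_mod_cast hl0
  have e₁ : (l : ℝ) = s₁ * c₁ := by exact_mod_cast hc₁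
  have e₂ : (l : ℝ) = s₂ * c₂ := by exact_mod_cast hc₂
  have e : (N₁ : ℝ) / (k₁ * s₁) - N₂ / (k₂ * s₂) =
      ((N₁ * k₂ * c₁ - N₂ * k₁ * c₂ : ℤ) : ℝ) / (k₁ * k₂ * l) := by
    push_cast
    have h1 : (N₁ : ℝ) / (k₁ * s₁) = N₁ * k₂ * c₁ / (k₁ * k₂ * l) := by
      rw [e₁, div_eq_div_iff (by positivity) (by rw [← e₁]; positivity)]
      ring
    have h2 : (N₂ : ℝ) / (k₂ * s₂) = N₂ * k₁ * c₂ / (k₁ * k₂ * l) := by
      rw [e₂, div_eq_div_iff (by positivity) (by rw [← e₂]; positivity)]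
      ring
    rw [h1, h2]
    ring
  have hne' : (N₁ * k₂ * c₁ - N₂ * k₁ * c₂ : ℤ) ≠ 0 := by
    intro h0
    apply hne
    have : (N₁ : ℝ) / (k₁ * s₁) - N₂ / (k₂ * s₂) = 0 := by rw [e, h0]; simp
    linarith
  rw [e, abs_div, abs_of_pos (show (0 : ℝ) < k₁ * k₂ * l by positivity)]
  refine div_le_div_of_nonneg_right ?_ (by positivity)
  have := Int.one_le_abs hne'
  exact_mod_cast this

/-- **uniqueness of the centre of an item**: fractions `fᵢ = Nᵢ/(kᵢ sᵢ)` with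
`|γ - fᵢ| ≤ εᵢ/sᵢ`; if `k₁ k₂ lcm(s₁,s₂) (ε₁/s₁ + ε₂/s₂) < 1` then `f₁ = f₂`. -/
theorem unique_centre {γ ε₁ ε₂ : ℝ} {N₁ N₂ : ℤ} {k₁ k₂ s₁ s₂ : ℕ} (hk₁ : 0 < k₁) (hk₂ : 0 < k₂)
    (hs₁ : 0 < s₁) (hs₂ : 0 < s₂) (h₁ : |γ - N₁ / (k₁ * s₁)| ≤ ε₁ / s₁)
    (h₂ : |γ - N₂ / (k₂ * s₂)| ≤ ε₂ / s₂)
    (hsm : (k₁ : ℝ) * k₂ * (Nat.lcm s₁ s₂ : ℕ) * (ε₁ / s₁ + ε₂ / s₂) < 1) :
    (N₁ : ℝ) / (k₁ * s₁) = N₂ / (k₂ * s₂) := by
  by_contra hne
  have h3 := far_apart hk₁ hk₂ hs₁ hs₂ hne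
  have hl0 : (0 : ℝ) < (Nat.lcm s₁ s₂ : ℕ) := by exact_mod_cast Nat.lcm_pos hs₁ hs₂
  have hk₁0 : (0 : ℝ) < k₁ := by exact_mod_cast hk₁
  have hk₂0 : (0 : ℝ) < k₂ := by exact_mod_cast hk₂
  have h4 : |(N₁ : ℝ) / (k₁ * s₁) - N₂ / (k₂ * s₂)| ≤ ε₁ / s₁ + ε₂ / s₂ := by
    have e : (N₁ : ℝ) / (k₁ * s₁) - N₂ / (k₂ * s₂) =
        (γ - N₂ / (k₂ * s₂)) - (γ - N₁ / (k₁ * s₁)) := by ring
    rw [e]
    have := abs_sub (γ - N₂ / (k₂ * s₂)) (γ - N₁ / (k₁ * s₁))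
    linarith
  have h5 := h3.trans h4
  rw [div_le_iff₀ (by positivity)] at h5
  have : (ε₁ / s₁ + ε₂ / s₂) * ((k₁ : ℝ) * k₂ * (Nat.lcm s₁ s₂ : ℕ)) =
      (k₁ : ℝ) * k₂ * (Nat.lcm s₁ s₂ : ℕ) * (ε₁ / s₁ + ε₂ / s₂) := by ring
  linarith

end Crest.Agent.R4C.Centrex949
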