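import Mathlib

/-!
# Row 4, BLOCK S2 (note 2736 of helper284): classification of linked pairs, number theory half

`Lk t ξ ξ' u v` : `‖u ξ - v ξ'‖ < 1/t`.

* `lemma1` : more than `8U/D` integers `u ∈ [U,2U)` with `‖uξ-η‖ < 1/t` force a label of `ξ`;
* `lemma2` : a box with more than `8UV/D` linked words and `max(U,V) ≥ D²` forces two labels;
* `lemma3` : two different short coprime linked words force two labels;
* `classification` : rare box | special word | labelled.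
-/

set_option autoImplicit false

namespace Crest.Agent.R4C.Classx992

/-- the word `(u,v)` is linked at scale `t` for the frequencies `ξ, ξ'` -/
def Lk (t ξ ξ' : ℝ) (u v : ℕ) : Prop := ∃ h : ℤ, |(u : ℝ) * ξ - v * ξ' + h| < 1 / t

/-- `ξ` has the label `a/k` with `k ≤ κ` and error at most `ε` -/
def Lab (ξ κ ε : ℝ) : Prop :=
  ∃ (a : ℤ) (k : ℕ), 0 < k ∧ IsCoprime a (k : ℤ) ∧ (k : ℝ) ≤ κ ∧ |ξ - a / k| ≤ ε

/-- reduction of a fraction to lowest terms -/
lemma lab_of_frac {ξ κ ε : ℝ} {A : ℤ} {k : ℕ} (hk : 0 < k) (hκ : (k : ℝ) ≤ κ)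
    (h : |ξ - A / k| ≤ ε) : Lab ξ κ ε := by
  set g := Int.gcd A k with hg
  have hg0 : 0 < g := Int.gcd_pos_of_ne_zero_right A (by exact_mod_cast hk.ne')
  obtain ⟨a, ha⟩ : (g : ℤ) ∣ A := Int.gcd_dvd_left A k
  obtain ⟨m, hm⟩ : (g : ℤ) ∣ (k : ℤ) := Int.gcd_dvd_right A k
  have hm0 : 0 < m := by
    by_contra hc
    push Not at hc
    have : (k : ℤ) ≤ 0 := by
      rw [hm]
      exact mul_nonpos_of_nonneg_of_nonpos (by positivity) hc
    omega
  lift m to ℕ using hm0.le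
  have hmk : k = g * m := by exact_mod_cast hm
  have hm0' : 0 < m := by exact_mod_cast hm0
  refine ⟨a, m, hm0', ?_, ?_, ?_⟩
  · have h1 : Int.gcd A k = g * Int.gcd a m := by
      conv_lhs => rw [ha, hm]
      rw [Int.gcd_mul_left]
      simp
    have h2 : Int.gcd a m = 1 := by
      have : g * Int.gcd a m = g * 1 := by rw [← h1, mul_one]
      exact Nat.eq_of_mul_eq_mul_left hg0 this
    exact Int.isCoprime_iff_gcd_eq_one.2 h2
  · refine le_trans ?_ hκ
    rw [hmk]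
    push_cast
    have : (1 : ℝ) ≤ g := by exact_mod_cast hg0
    nlinarith [show (0 : ℝ) < m by exact_mod_cast hm0']
  · have hgR : (g : ℝ) ≠ 0 := by exact_mod_cast hg0.ne'
    have hmR : (m : ℝ) ≠ 0 := by exact_mod_cast hm0'.ne'
    have e : (a : ℝ) / m = A / k := by
      have e1 : (A : ℝ) = g * a := by exact_mod_cast ha
      have e2 : (k : ℝ) = g * m := by exact_mod_cast hmk
      rw [e1, e2, mul_div_mul_left _ _ hgR]
    rw [e]
    exact h

/-- pigeonhole: many integers of `[U,2U)` contain two at distance `< D/4` -/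
lemma close_pair {D : ℝ} (hD : 4 ≤ D) {U : ℕ} (hU : D ^ 2 ≤ U) {S : Finset ℕ}
    (hS : S ⊆ Finset.Ico U (2 * U)) (hn : 8 * U / D < (S.card : ℝ)) :
    ∃ u ∈ S, ∃ v ∈ S, u < v ∧ ((v - u : ℕ) : ℝ) < D / 4 := by
  have hD0 : 0 < D := by linarith
  have hU0 : (0 : ℝ) < U := by nlinarith
  set N := ⌊4 * (U : ℝ) / D⌋₊ + 1 with hN
  have hNc : (N : ℝ) < S.card := by
    have h1 : (⌊4 * (U : ℝ) / D⌋₊ : ℝ) ≤ 4 * U / D := Nat.floor_le (by positivity)
    have h2 : (4 : ℝ) ≤ U / D := by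
      rw [le_div_iff₀ hD0]
      nlinarith
    have h3 : 8 * (U : ℝ) / D = 4 * U / D + 4 * (U / D) := by ring
    push_cast [hN]
    linarith
  have hNc' : (Finset.range N).card < S.card := by
    rw [Finset.card_range]
    exact_mod_cast hNc
  let f : ℕ → ℕ := fun u => ⌊4 * ((u - U : ℕ) : ℝ) / D⌋₊
  obtain ⟨x, hx, y, hy, hxy, hf⟩ := Finset.exists_ne_map_eq_of_card_lt_of_maps_to (f := f) hNc' (by
    intro u hu
    have hu' := Finset.mem_Ico.1 (hS hu)
    simp only [Finset.coe_range, Set.mem_Iio]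
    show ⌊4 * ((u - U : ℕ) : ℝ) / D⌋₊ < N
    rw [hN, Nat.lt_succ_iff]
    apply Nat.floor_le_floor
    apply div_le_div_of_nonneg_right _ hD0.le
    have : u - U ≤ U := by omega
    have : ((u - U : ℕ) : ℝ) ≤ U := by exact_mod_cast this
    linarith)
  wlog hlt : x < y generalizing x y with H
  · exact H y hy x hx (Ne.symm hxy) hf.symm (by omega)
  refine ⟨x, hx, y, hy, hlt, ?_⟩
  have hx' := Finset.mem_Ico.1 (hS hx)
  have hy' := Finset.mem_Ico.1 (hS hy)
  have h1 : 4 * ((y - U : ℕ) : ℝ) / D < f y + 1 := Nat.lt_floor_add_one _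
  have h2 : (f x : ℝ) ≤ 4 * ((x - U : ℕ) : ℝ) / D := Nat.floor_le (by positivity)
  have hf' : (f x : ℝ) = f y := by exact_mod_cast hf
  have h3 : 4 * ((y - U : ℕ) : ℝ) / D < 4 * ((x - U : ℕ) : ℝ) / D + 1 := by linarith
  have h4 : 4 * ((y - U : ℕ) : ℝ) < 4 * ((x - U : ℕ) : ℝ) + D := by
    rw [div_lt_iff₀ hD0] at h3
    have : (4 * ((x - U : ℕ) : ℝ) / D + 1) * D = 4 * ((x - U : ℕ) : ℝ) + D := by
      field_simp
    linarith
  have e1 : ((y - U : ℕ) : ℝ) = y - U := by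
    rw [Nat.cast_sub hy'.1]
  have e2 : ((x - U : ℕ) : ℝ) = x - U := by
    rw [Nat.cast_sub hx'.1]
  rw [Nat.cast_sub hlt.le]
  rw [e1, e2] at h4
  linarith

/-- the disjoint shift argument: if `k ξ = a + ε` with `2/t ≤ J|ε|` and `N J |ε| ≤ 1 - 2/t`, then
the solutions of `‖uξ-η‖ < 1/t` in `[U,2U)` number at most `(U + N J k)/(N+1)` -/
lemma shift_count {t ξ η ε : ℝ} (ht : 0 < t) {a : ℤ} {k J N U : ℕ} (hk : 0 < k)
    (hkξ : (k : ℝ) * ξ = a + ε)
    (hJ : 2 / t ≤ J * |ε|) (hN : N * (J * |ε|) ≤ 1 - 2 / t) {S : Finset ℕ}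
    (hS : S ⊆ Finset.Ico U (2 * U)) (hlk : ∀ u ∈ S, ∃ h : ℤ, |(u : ℝ) * ξ - η - h| < 1 / t) :
    S.card * (N + 1) ≤ U + N * J * k := by
  have hJ0 : 0 < J := by
    rcases Nat.eq_zero_or_pos J with h0 | h0
    · exfalso
      rw [h0] at hJ
      have : 0 < 2 / t := by positivity
      simp at hJ
      linarith
    · exact h0
  have hε : 0 < |ε| := by
    by_contra hc
    have : |ε| = 0 := le_antisymm (not_lt.1 hc) (abs_nonneg _)
    rw [this] at hJ
    have : 0 < 2 / t := by positivity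
    simp at hJ
    linarith
  -- key injectivity
  have key : ∀ u ∈ S, ∀ u' ∈ S, ∀ i i' : ℕ, i < i' → i' ≤ N → u + i * (J * k) ≠ u' + i' * (J * k) := by
    intro u hu u' hu' i i' hii hiN heq
    obtain ⟨h, hh⟩ := hlk u hu
    obtain ⟨h', hh'⟩ := hlk u' hu'
    set j := (i' - i) * J with hj
    have hjr : (j : ℝ) = ((i' : ℝ) - i) * J := by
      rw [hj]; push_cast; rw [Nat.cast_sub hii.le]
    have huu : (u : ℝ) - u' = j * k := by
      have : (u : ℝ) + i * (J * k) = u' + i' * (J * k) := by exact_mod_cast heq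
      rw [hjr]
      linear_combination this
    have hi1 : (1 : ℝ) ≤ (i' : ℝ) - i := by
      have : i + 1 ≤ i' := hii
      have : ((i + 1 : ℕ) : ℝ) ≤ i' := by exact_mod_cast this
      push_cast at this
      linarith
    have hi2 : (i' : ℝ) - i ≤ N := by
      have h1 : (i' : ℝ) ≤ N := by exact_mod_cast hiN
      have h2 : (0 : ℝ) ≤ i := by positivity
      linarith
    have hJε : 0 < (J : ℝ) * |ε| := by positivity
    have hj1 : 2 / t ≤ |(j : ℝ) * ε| := by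
      rw [abs_mul, hjr, abs_of_nonneg (by positivity : (0 : ℝ) ≤ ((i' : ℝ) - i) * J)]
      nlinarith
    have hj2 : |(j : ℝ) * ε| ≤ 1 - 2 / t := by
      rw [abs_mul, hjr, abs_of_nonneg (by positivity : (0 : ℝ) ≤ ((i' : ℝ) - i) * J)]
      nlinarith
    -- the integer
    set z : ℤ := (h - h') - j * a with hz
    have hzr : (z : ℝ) = j * ε - (((u : ℝ) * ξ - η - h) - ((u' : ℝ) * ξ - η - h')) := by
      have e1 : ((u : ℝ) - u') * ξ = j * (a + ε) := by
        rw [huu, mul_assoc, hkξ]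
      rw [hz]
      push_cast
      linear_combination e1
    have hα : |((u : ℝ) * ξ - η - h) - ((u' : ℝ) * ξ - η - h')| < 2 / t := by
      have := abs_sub ((u : ℝ) * ξ - η - h) ((u' : ℝ) * ξ - η - h')
      have e : 2 / t = 1 / t + 1 / t := by ring
      linarith
    have hzabs : |(z : ℝ)| < 1 := by
      rw [hzr]
      have := abs_sub ((j : ℝ) * ε) (((u : ℝ) * ξ - η - h) - ((u' : ℝ) * ξ - η - h'))
      linarith
    have hz0 : z = 0 := by
      have : |z| < 1 := by exact_mod_cast hzabs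
      exact Int.abs_lt_one_iff.1 this
    rw [hz0] at hzr
    have : (j : ℝ) * ε = ((u : ℝ) * ξ - η - h) - ((u' : ℝ) * ξ - η - h') := by
      push_cast at hzr
      linarith
    rw [this] at hj1
    linarith
  have hinj : Set.InjOn (fun x : ℕ × ℕ => x.1 + x.2 * (J * k))
      (S ×ˢ Finset.range (N + 1) : Finset (ℕ × ℕ)) := by
    rintro ⟨u, i⟩ hx ⟨u', i'⟩ hx' heq
    simp only [Finset.coe_product, Set.mem_prod, Finset.mem_coe, Finset.coe_range, Set.mem_Iio]
      at hx hx'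
    simp only at heq
    rcases lt_trichotomy i i' with h | h | h
    · exact absurd heq (key u hx.1 u' hx'.1 i i' h (by omega))
    · subst h
      have : u = u' := by omega
      rw [this]
    · exact absurd heq.symm (key u' hx'.1 u hx.1 i' i h (by omega))
  have himg : (S ×ˢ Finset.range (N + 1)).image (fun x : ℕ × ℕ => x.1 + x.2 * (J * k)) ⊆
      Finset.Ico U (2 * U + N * J * k) := by
    intro y hy
    rw [Finset.mem_image] at hy
    obtain ⟨⟨u, i⟩, hx, rfl⟩ := hy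
    rw [Finset.mem_product, Finset.mem_range] at hx
    have hu := Finset.mem_Ico.1 (hS hx.1)
    rw [Finset.mem_Ico]
    simp only at hu hx ⊢
    have hi : i ≤ N := by omega
    have : i * (J * k) ≤ N * J * k := by
      rw [mul_assoc]
      exact Nat.mul_le_mul_right _ hi
    omega
  have hc := Finset.card_le_card himg
  rw [Finset.card_image_of_injOn hinj, Finset.card_product, Finset.card_range, Nat.card_Ico] at hc
  omega

/-- the least `k ≥ 1` with `‖kξ‖ < 2/t` -/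
lemma least_den {ξ t : ℝ} (ht : 0 < t) {d : ℕ} (hd : 0 < d) {A : ℤ} (hA : |(d : ℝ) * ξ - A| < 2 / t) :
    ∃ (a : ℤ) (k : ℕ), 0 < k ∧ k ≤ d ∧ IsCoprime a (k : ℤ) ∧ |(k : ℝ) * ξ - a| < 2 / t := by
  classical
  have hex : ∃ k : ℕ, 0 < k ∧ ∃ A : ℤ, |(k : ℝ) * ξ - A| < 2 / t := ⟨d, hd, A, hA⟩
  obtain ⟨hk0, a, ha⟩ := Nat.find_spec hex
  have hkd : Nat.find hex ≤ d := Nat.find_min' hex ⟨hd, A, hA⟩
  have hmin : ∀ m : ℕ, m < Nat.find hex → 0 < m → ∀ A : ℤ, 2 / t ≤ |(m : ℝ) * ξ - A| := by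
    intro m hm hm0 A
    have := Nat.find_min hex hm
    push Not at this
    exact this hm0 A
  generalize Nat.find hex = k at hk0 ha hkd hmin
  refine ⟨a, k, hk0, hkd, ?_, ha⟩
  rw [Int.isCoprime_iff_gcd_eq_one]
  by_contra hne
  set g := Int.gcd a k with hg
  have hg0 : 0 < g := Int.gcd_pos_of_ne_zero_right a (by exact_mod_cast hk0.ne')
  have hg2 : 2 ≤ g := by omega
  obtain ⟨a', ha'⟩ : (g : ℤ) ∣ a := Int.gcd_dvd_left a k
  obtain ⟨m, hm⟩ : g ∣ k := by
    have := Int.gcd_dvd_right a k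
    exact_mod_cast this
  have hm0 : 0 < m := by
    rcases Nat.eq_zero_or_pos m with h | h
    · rw [h] at hm; omega
    · exact h
  have hmk : m < k := by
    rw [hm]
    nlinarith
  have h1 := hmin m hmk hm0 a'
  have hgR : (2 : ℝ) ≤ g := by exact_mod_cast hg2
  have e : (k : ℝ) * ξ - a = g * (m * ξ - a') := by
    have e1 : (k : ℝ) = g * m := by exact_mod_cast hm
    have e2 : (a : ℝ) = g * a' := by exact_mod_cast ha'
    rw [e1, e2]
    ring
  rw [e, abs_mul, abs_of_nonneg (by linarith : (0 : ℝ) ≤ g)] at ha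
  have h3 : 0 < 2 / t := by positivity
  have h4 : 2 * |(m : ℝ) * ξ - a'| ≤ g * |(m : ℝ) * ξ - a'| :=
    mul_le_mul_of_nonneg_right hgR (abs_nonneg _)
  linarith

/-- the numerical end of Lemma 1 -/
lemma end_count {D U k J N n : ℝ} (hD : 4 ≤ D) (hU : D ^ 2 ≤ U) (hk : 0 < k) (hkD : k < D / 4)
    (hN : 0 ≤ N) (hJ : 0 ≤ J) (hN3 : (D - 1) / 2 < N + 1)
    (hJk : J * k ≤ 2 * (U / D) + k)
    (hc : n * (N + 1) ≤ U + N * J * k) : n ≤ 8 * U / D := by
  have hD0 : 0 < D := by linarith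
  have hU0 : (0 : ℝ) < U := by nlinarith
  set X := U / D with hX
  have hX0 : 0 < X := by positivity
  have hUX : U = X * D := by rw [hX]; field_simp
  have hkX : k ≤ X / 4 := by
    have : D ≤ X := by
      rw [hX, le_div_iff₀ hD0]
      nlinarith
    linarith
  have hJk' : J * k ≤ 9 / 4 * X := by linarith
  have hNp : (0 : ℝ) < N + 1 := by linarith
  have h6 : N * J * k ≤ (N + 1) * (9 / 4 * X) := by
    have h8 : (0 : ℝ) ≤ J * k := by positivity
    calc N * J * k = N * (J * k) := by ring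
      _ ≤ (N + 1) * (J * k) := by nlinarith
      _ ≤ (N + 1) * (9 / 4 * X) := mul_le_mul_of_nonneg_left hJk' hNp.le
  have h9 : U ≤ (N + 1) * (8 / 3 * X) := by
    have h10 : (D - 1) / 2 * (8 / 3 * X) ≤ (N + 1) * (8 / 3 * X) :=
      mul_le_mul_of_nonneg_right hN3.le (by positivity)
    have h11 : U ≤ (D - 1) / 2 * (8 / 3 * X) := by
      rw [hUX]
      nlinarith
    linarith
  have h13 : n * (N + 1) ≤ (8 * X) * (N + 1) := by nlinarith
  have h14 := le_of_mul_le_mul_right h13 hNp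
  have e : 8 * U / D = 8 * X := by rw [hX]; ring
  rw [e]
  exact h14

/-- **Lemma 1** of 2736 -/
theorem lemma1 {D : ℝ} (hD : 4 ≤ D) {U : ℕ} (hU : D ^ 2 ≤ U) {t : ℝ} (ht : 2 * D ≤ t) {ξ η : ℝ}
    {S : Finset ℕ} (hS : S ⊆ Finset.Ico U (2 * U))
    (hlk : ∀ u ∈ S, ∃ h : ℤ, |(u : ℝ) * ξ - η - h| < 1 / t) (hn : 8 * U / D < (S.card : ℝ)) :
    ∃ (a : ℤ) (k : ℕ), 0 < k ∧ IsCoprime a (k : ℤ) ∧ (k : ℝ) < D / 4 ∧
      |ξ - a / k| < D / (t * U) := by
  have hD0 : 0 < D := by linarith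
  have ht0 : 0 < t := by linarith
  have hU0 : (0 : ℝ) < U := by nlinarith
  obtain ⟨u, hu, v, hv, huv, hd⟩ := close_pair hD hU hS hn
  obtain ⟨h, hh⟩ := hlk u hu
  obtain ⟨h', hh'⟩ := hlk v hv
  have hA : |((v - u : ℕ) : ℝ) * ξ - (h' - h : ℤ)| < 2 / t := by
    rw [Nat.cast_sub huv.le]
    push_cast
    have e : ((v : ℝ) - u) * ξ - (h' - h) = ((v : ℝ) * ξ - η - h') - ((u : ℝ) * ξ - η - h) := by
      ring
    rw [e]
    have := abs_sub ((v : ℝ) * ξ - η - h') ((u : ℝ) * ξ - η - h)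
    have e : 2 / t = 1 / t + 1 / t := by ring
    linarith
  obtain ⟨a, k, hk0, hkle, hcop, ha⟩ := least_den ht0 (by omega) hA
  have hkd : (k : ℝ) < D / 4 := lt_of_le_of_lt (by exact_mod_cast hkle) hd
  have hk0R : (0 : ℝ) < k := by exact_mod_cast hk0
  refine ⟨a, k, hk0, hcop, hkd, ?_⟩
  by_contra hbig
  push Not at hbig
  obtain ⟨ε, hε⟩ : ∃ ε : ℝ, ε = (k : ℝ) * ξ - a := ⟨_, rfl⟩
  rw [← hε] at ha
  have hεk : |ε| = k * |ξ - a / k| := by
    have : ε = k * (ξ - a / k) := by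
      rw [hε]; field_simp
    rw [this, abs_mul, abs_of_pos hk0R]
  have hε1 : (k : ℝ) * (D / (t * U)) ≤ |ε| := by
    rw [hεk]
    exact mul_le_mul_of_nonneg_left hbig hk0R.le
  have hε0 : 0 < |ε| := lt_of_lt_of_le (by positivity) hε1
  obtain ⟨J, hJ1, hJ2⟩ : ∃ J : ℕ, 2 / (t * |ε|) ≤ J ∧ (J : ℝ) < 2 / (t * |ε|) + 1 :=
    ⟨⌈2 / (t * |ε|)⌉₊, Nat.le_ceil _, Nat.ceil_lt_add_one (by positivity)⟩
  have hJε1 : 2 / t ≤ J * |ε| := by
    have := mul_le_mul_of_nonneg_right hJ1 hε0.le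
    have e : 2 / (t * |ε|) * |ε| = 2 / t := by field_simp
    linarith
  have hJε2 : (J : ℝ) * |ε| < 4 / t := by
    have := mul_lt_mul_of_pos_right hJ2 hε0
    have e : (2 / (t * |ε|) + 1) * |ε| = 2 / t + |ε| := by field_simp
    have e2 : 4 / t = 2 / t + 2 / t := by ring
    linarith
  obtain ⟨N, hN1, hN2⟩ : ∃ N : ℕ, (N : ℝ) ≤ (t - 2) / 4 ∧ (t - 2) / 4 < N + 1 :=
    ⟨⌊(t - 2) / 4⌋₊, Nat.floor_le (by linarith), Nat.lt_floor_add_one _⟩
  have hNJ : (N : ℝ) * (J * |ε|) ≤ 1 - 2 / t := by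
    have h1 : (N : ℝ) * (J * |ε|) ≤ (t - 2) / 4 * (4 / t) := by
      apply mul_le_mul hN1 hJε2.le (by positivity) (by linarith)
    have e : (t - 2) / 4 * (4 / t) = 1 - 2 / t := by field_simp
    linarith
  have hcount := shift_count (ξ := ξ) (η := η) (ε := ε) ht0 hk0 (by rw [hε]; ring) hJε1 hNJ hS hlk
  have hcR : (S.card : ℝ) * (N + 1) ≤ U + N * J * k := by exact_mod_cast hcount
  have hJk : (J : ℝ) * k ≤ 2 * (U / D) + k := by
    have h1 : (J : ℝ) * k ≤ (2 / (t * |ε|) + 1) * k :=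
      mul_le_mul_of_nonneg_right hJ2.le hk0R.le
    have h2 : 2 / (t * |ε|) * k ≤ 2 * (U / D) := by
      have e0 : 2 / (t * |ε|) * k = 2 * (k / (t * |ε|)) := by ring
      rw [e0]
      have h3 : (k : ℝ) / (t * |ε|) ≤ U / D := by
        rw [div_le_div_iff₀ (by positivity) hD0]
        have h3 : (k : ℝ) * (D / (t * U)) * (t * U) ≤ |ε| * (t * U) :=
          mul_le_mul_of_nonneg_right hε1 (by positivity)
        have e : (k : ℝ) * (D / (t * U)) * (t * U) = k * D := by field_simp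
        linarith
      linarith
    linarith
  have hN3 : (D - 1) / 2 < (N : ℝ) + 1 := by linarith
  have := end_count hD hU hk0R hkd (Nat.cast_nonneg N) (Nat.cast_nonneg J) hN3 hJk hcR
  linarith

end Crest.Agent.R4C.Classx992
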