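import Crest.Agent.R4C.SpineDef_946
import Crest.Agent.R4C.BoostAl_100
import Crest.Agent.R4C.B1Lev_52

/-!
# Row 4: energy of a class of case A from bilinear set bounds (helper590)

* `ES M S S' L i K` : energy of the kernel `K` on `S × S'` at the own scale
  `2^i L ≤ gcd < 2^(i+1) L`.
* `boost_far` : case A (`FarA`): `boostB ≤ e^1200 CM² log (cut (2i)) log (cut i) · B1_{> cut i}`.
* **`far_cls`** : class `R` of unkilled linked offsets, every one `FarA` at some `i` with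
  `1 ≤ K i b c`; if `ES M S S' L i (K i) ≤ E i √(ν S ν S')` for all `S, S' ⊆ B` and
  `∑ i² E i ≤ C₁`, then `EnR ≤ C (1 + sA η) A² C₁ · L ν(B)`.
-/

set_option autoImplicit false

open Finset

namespace Crest.Agent.R4C.ClsFarx590

open Crest.Agent.R4C.Basex935 Crest.Agent.R4C.CrCoinx935 Crest.Agent.R4C.Bridgex882
  Crest.Agent.R4C.FLDefx935 Crest.Agent.R4C.Rulex945 Crest.Agent.R4C.FLShx326
  Crest.Agent.R4C.CrCountx935 Crest.Agent.R4C.Spinex946 Crest.Agent.R4C.Splitx945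
  Crest.Agent.R4C.BoostCx972
open Crest.Agent.R4C.FLExx326 (ind)

/-- energy of the kernel `K` on `S × S'` at the own scale `2^i` -/
noncomputable def ES (M : ℕ) (S S' : Finset ℕ) (L : ℝ) (i : ℕ) (K : ℕ → ℕ → ℝ) : ℝ :=
  ∑ b ∈ S, ∑ c ∈ S', (if (2 : ℝ) ^ i * L ≤ (Nat.gcd b c : ℝ) ∧
    (Nat.gcd b c : ℝ) < 2 * ((2 : ℝ) ^ i * L) then
      (Nat.gcd b c : ℝ) * nu M b * nu M c * K b c else 0)

/-- the thresholds of the rule are `≤ exp (Y^(4/5))` -/
lemma thr_exp (cp : ℝ) (A m0 : ℕ) (γ L : ℝ) (M : ℕ) (B : Finset ℕ) (b i : ℕ) :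
    (ParOf cp A m0 γ L M B).thr b i ≤
      Real.exp (((ParOf cp A m0 γ L M B).Y (i - 1) : ℝ) ^ (4 / 5 : ℝ)) := min_le_right _ _

/-- `B1` split at the cut -/
lemma B1_split {X : ℕ} (hX : 2 ≤ X) (b c : ℕ) :
    PureL2x232.B1 b c ≤ CM * Real.log X * B1Levx52.B1 X b c := by
  classical
  have e : PureL2x232.B1 b c =
      (∏ p ∈ ((b / Nat.gcd b c) * (c / Nat.gcd b c)).primeFactors.filter (fun p => X < p), pf p) *
      ∏ p ∈ ((b / Nat.gcd b c) * (c / Nat.gcd b c)).primeFactors.filter (fun p => ¬ X < p),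
        pf p := (Finset.prod_filter_mul_prod_filter_not _ _ _).symm
  rw [e, mul_comm]
  have h0 : 0 ≤ B1Levx52.B1 X b c := B1Levx52.B1_nonneg X b c
  refine mul_le_mul (prod_pf_le_mertens (by exact_mod_cast hX) fun p hp => ?_) le_rfl
    (B1Levx52.B1_nonneg X b c) (mul_nonneg CM_pos.le (Real.log_nonneg ?_))
  · rw [Finset.mem_filter] at hp
    exact ⟨Nat.prime_of_mem_primeFactors hp.1, by exact_mod_cast not_lt.1 hp.2⟩
  · exact_mod_cast (by omega : 1 ≤ X)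

/-- **the boost in case A** -/
theorem boost_far {cp : ℝ} {A m0 : ℕ} (hA : 1 ≤ A) (hm0 : 1 ≤ m0) {γ L : ℝ} {M : ℕ}
    {B : Finset ℕ} {F : FL M} (hM : 0 < M) (hL : 0 < L) {i b c : ℕ} (hb : b ∣ M) (hc : c ∣ M)
    {h : ℤ} (hl : h ∈ Lnk γ L b c) (hF : FarA F (ParOf cp A m0 γ L M B) i b c h) :
    boostB M (lamOf cp A m0 γ L M B F) b c h ≤
      (Real.exp 1200 * CM ^ 2 * 2 * (A : ℝ) ^ 2) * (i : ℝ) ^ 2 * B1Levx52.B1 (2 ^ (A * i)) b c := by
  set P := ParOf cp A m0 γ L M B with hP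
  have hi : 1 ≤ i := hm0.trans hF.m0
  have hcut : ∀ m, P.cut m = 2 ^ (A * m) := fun m => rfl
  have hAi : 1 ≤ A * i := Nat.mul_pos hA hi
  have h2i : 2 ≤ 2 ^ (A * i) := by
    calc 2 = 2 ^ 1 := rfl
      _ ≤ 2 ^ (A * i) := Nat.pow_le_pow_right (by norm_num) hAi
  have h22i : 2 ≤ 2 ^ (A * (2 * i)) := by
    calc 2 = 2 ^ 1 := rfl
      _ ≤ 2 ^ (A * (2 * i)) := Nat.pow_le_pow_right (by norm_num) (by nlinarith)
  have hgood : F.good (P.cut (2 * i)) b c := by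
    refine FL.good_mono ?_ hF.good
    rw [hcut, hcut]
    exact Nat.pow_le_pow_right (by norm_num) (by nlinarith)
  have hgL : P.L ≤ (Nat.gcd b c : ℝ) := by
    have h1 : (1 : ℝ) ≤ 2 ^ i := one_le_pow₀ (by norm_num)
    have h2 := hF.lo
    have h3 : P.L = L := rfl
    rw [h3] at h2 ⊢
    nlinarith
  have h1 := BoostAlx100.boost_al_log (F := F) (P := P) hM hb hc hL (fun _ => rfl)
    (thr_exp cp A m0 γ L M B) (l := 2 * i) (by rw [hcut]; exact h22i) hgood hl hF.al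
    (Or.inr hgL)
  have h2 := B1_split h2i b c
  have hlog1 : Real.log ((P.cut (2 * i) : ℕ) : ℝ) ≤ 2 * (A * i) := by
    rw [hcut]
    push_cast
    rw [Real.log_pow]
    push_cast
    have h3 : Real.log 2 ≤ 1 := by
      have := Real.log_two_lt_d9
      linarith
    have h4 : (0 : ℝ) ≤ (A : ℝ) * (2 * i) := by positivity
    nlinarith
  have hlog2 : Real.log ((2 ^ (A * i) : ℕ) : ℝ) ≤ A * i := by
    push_cast
    rw [Real.log_pow]
    push_cast
    have h3 : Real.log 2 ≤ 1 := by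
      have := Real.log_two_lt_d9
      linarith
    have h4 : (0 : ℝ) ≤ (A : ℝ) * i := by positivity
    nlinarith
  have hB0 : 0 ≤ B1Levx52.B1 (2 ^ (A * i)) b c := B1Levx52.B1_nonneg _ b c
  have hC := CM_pos
  have hl1 : 0 ≤ Real.log ((P.cut (2 * i) : ℕ) : ℝ) := Real.log_natCast_nonneg _
  have hl2 : 0 ≤ Real.log ((2 ^ (A * i) : ℕ) : ℝ) := Real.log_natCast_nonneg _
  calc boostB M (lamOf cp A m0 γ L M B F) b c h
      ≤ Real.exp 1200 * CM * Real.log (P.cut (2 * i) : ℕ) * PureL2x232.B1 b c := h1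
    _ ≤ Real.exp 1200 * CM * Real.log (P.cut (2 * i) : ℕ) *
        (CM * Real.log ((2 ^ (A * i) : ℕ) : ℝ) * B1Levx52.B1 (2 ^ (A * i)) b c) :=
        mul_le_mul_of_nonneg_left h2 (by positivity)
    _ ≤ Real.exp 1200 * CM * (2 * (A * i)) *
        (CM * (A * i) * B1Levx52.B1 (2 ^ (A * i)) b c) := by
        refine mul_le_mul ?_ ?_ (by positivity) (by positivity)
        · exact mul_le_mul_of_nonneg_left hlog1 (by positivity)
        · exact mul_le_mul_of_nonneg_right (mul_le_mul_of_nonneg_left hlog2 hC.le) hB0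
    _ = _ := by ring

/-- at most one linked offset in case A -/
lemma lnk_unique {γ L : ℝ} {i b c : ℕ} (hi : 1 ≤ i) (hL : 0 < L) (hb : 0 < b)
    (hlo : 2 ^ i * L ≤ (Nat.gcd b c : ℝ)) {h h' : ℤ} (h1 : h ∈ Lnk γ L b c)
    (h2 : h' ∈ Lnk γ L b c) : h = h' := by
  unfold Lnk at h1 h2
  rw [mem_Hf] at h1 h2
  have hg : (0 : ℝ) < (Nat.gcd b c : ℕ) := by
    exact_mod_cast Nat.gcd_pos_of_pos_left _ hb
  have h3 : L / (Nat.gcd b c : ℕ) ≤ 1 / 2 := by
    rw [div_le_iff₀ hg]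
    have h4 : (2 : ℝ) ≤ 2 ^ i := by
      calc (2 : ℝ) = 2 ^ 1 := by norm_num
        _ ≤ 2 ^ i := pow_le_pow_right₀ (by norm_num) hi
    nlinarith
  have h4 : |((h - h' : ℤ) : ℝ)| < 1 := by
    push_cast
    have e : (h : ℝ) - h' = ((((b / Nat.gcd b c : ℕ) : ℝ) - (c / Nat.gcd b c : ℕ)) * γ + h) -
        ((((b / Nat.gcd b c : ℕ) : ℝ) - (c / Nat.gcd b c : ℕ)) * γ + h') := by ring
    rw [e]
    calc _ ≤ |(((b / Nat.gcd b c : ℕ) : ℝ) - (c / Nat.gcd b c : ℕ)) * γ + h| +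
          |(((b / Nat.gcd b c : ℕ) : ℝ) - (c / Nat.gcd b c : ℕ)) * γ + h'| := abs_sub _ _
      _ < 1 := by linarith
  have h5 : |h - h'| < 1 := by exact_mod_cast h4
  have h6 := Int.abs_lt_one_iff.1 h5
  omega

open Classical in
/-- **energy of a class of case A** -/
theorem far_cls : ∃ C : ℝ, 0 ≤ C ∧ ∀ {γ cp η : ℝ} {A m0 : ℕ}, 0 < η → η < 1 → 1 ≤ A → 1 ≤ m0 →
    ∀ {L : ℝ} {M : ℕ} {B : Finset ℕ} {F : FL M}, Setup η L M B F →
    ∀ (R : ℕ → ℕ → ℤ → Prop) (K : ℕ → ℕ → ℕ → ℝ) (E : ℕ → ℝ) (C1 : ℝ),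
      (∀ i b c, 0 ≤ K i b c) → (∀ i, 0 ≤ E i) →
      (∀ b ∈ B, ∀ c ∈ B, b ≠ c → ∀ h ∈ Lnk γ L b c,
        ¬ killedB (lamOf cp A m0 γ L M B F) b c h → R b c h →
        ∃ i, FarA F (ParOf cp A m0 γ L M B) i b c h ∧ 1 ≤ K i b c) →
      (∀ i, m0 ≤ i → ∀ S S' : Finset ℕ, S ⊆ B → S' ⊆ B →
        ES M S S' L i (fun b c => if F.good (2 ^ (A * i)) b c then K i b c else 0) ≤
          E i * √((∑ b ∈ S, nu M b) * ∑ c ∈ S', nu M c)) →
      (∀ N, ∑ i ∈ Ico m0 N, (i : ℝ) ^ 2 * E i ≤ C1) →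
      EnR γ L M B (lamOf cp A m0 γ L M B F) R ≤
        C * (1 + sA η) * (A : ℝ) ^ 2 * C1 * (L * ∑ b ∈ B, nu M b) := by
  obtain ⟨C5, hC5, H5⟩ := B1Levx52.good_B1
  refine ⟨16 * (1 + C5) * (Real.exp 1200 * CM ^ 2 * 2), by have := CM_pos; positivity, ?_⟩
  intro γ cp η A m0 hη hη1 hA hm0 L M B F S R K E C1 hK hE hR hset hsum
  have hM := S.hM
  have hL := S.hL
  have hT := (tree_spec hη hη1).1
  have hsA : 0 ≤ sA η := hT.A_pos.le
  obtain ⟨N, hN⟩ := pow_unbounded_of_one_lt ((M : ℝ) / L) (by norm_num : (1 : ℝ) < 2)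
  set lam := lamOf cp A m0 γ L M B F with hlam
  set P := ParOf cp A m0 γ L M B with hP
  set W : ℝ := Real.exp 1200 * CM ^ 2 * 2 * (A : ℝ) ^ 2 with hW
  have hW0 : 0 ≤ W := by have := CM_pos; positivity
  set K' : ℕ → ℕ → ℕ → ℝ := fun i b c =>
    (if (2 : ℝ) ^ i * L ≤ (Nat.gcd b c : ℝ) ∧ (Nat.gcd b c : ℝ) < 2 * ((2 : ℝ) ^ i * L) then
      (Nat.gcd b c : ℝ) * nu M b * nu M c * (if F.good (2 ^ (A * i)) b c then K i b c else 0)
      else 0) with hK'
  have hw0 : ∀ b c : ℕ, 0 ≤ (Nat.gcd b c : ℝ) * nu M b * nu M c := fun b c =>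
    mul_nonneg (mul_nonneg (Nat.cast_nonneg _) (nu_nonneg _ _)) (nu_nonneg _ _)
  have hK'0 : ∀ i b c, 0 ≤ K' i b c := by
    intro i b c
    rw [hK']
    simp only
    split_ifs
    · exact mul_nonneg (hw0 b c) (hK i b c)
    · rw [mul_zero]
    · exact le_rfl
  -- the pointwise bound
  have hpt : ∀ b ∈ B, ∀ c ∈ B.erase b, (Nat.gcd b c : ℝ) * nu M b * nu M c *
      ∑ h ∈ (Lnk γ L b c).filter (fun h => ¬ killedB lam b c h ∧ R b c h), boostB M lam b c h ≤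
      ∑ i ∈ Ico m0 N, W * (i : ℝ) ^ 2 * (K' i b c * B1Levx52.B1 (2 ^ (A * i)) b c) := by
    intro b hb c hc'
    have hc := Finset.mem_of_mem_erase hc'
    have hne : b ≠ c := fun h => (Finset.ne_of_mem_erase hc') h.symm
    have hb0 := S.pos hb
    have hn : ∀ i ∈ Ico m0 N,
        0 ≤ W * (i : ℝ) ^ 2 * (K' i b c * B1Levx52.B1 (2 ^ (A * i)) b c) := fun i _ =>
      mul_nonneg (by positivity) (mul_nonneg (hK'0 i b c) (B1Levx52.B1_nonneg _ _ _))
    rcases ((Lnk γ L b c).filter (fun h => ¬ killedB lam b c h ∧ R b c h)).eq_empty_or_nonempty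
      with he | ⟨h, hh⟩
    · rw [he, Finset.sum_empty, mul_zero]
      exact Finset.sum_nonneg hn
    · rw [Finset.mem_filter] at hh
      obtain ⟨hl, hk, hRh⟩ := hh
      obtain ⟨i, hF, hK1⟩ := hR b hb c hc hne h hl hk hRh
      have hi : 1 ≤ i := hm0.trans hF.m0
      have hlo : 2 ^ i * L ≤ (Nat.gcd b c : ℝ) := hF.lo
      have hhi : (Nat.gcd b c : ℝ) < 2 ^ (i + 1) * L := hF.hi
      have hgood : F.good (2 ^ (A * i)) b c := hF.good
      have hsub : (Lnk γ L b c).filter (fun h => ¬ killedB lam b c h ∧ R b c h) = {h} := by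
        ext h'
        rw [Finset.mem_filter, Finset.mem_singleton]
        constructor
        · intro h1
          exact lnk_unique hi hL hb0 hlo h1.1 hl
        · rintro rfl
          exact ⟨hl, hk, hRh⟩
      rw [hsub, Finset.sum_singleton]
      have hiN : i ∈ Ico m0 N := by
        rw [Finset.mem_Ico]
        refine ⟨hF.m0, ?_⟩
        by_contra hcon
        have h1 : (2 : ℝ) ^ N ≤ 2 ^ i := pow_le_pow_right₀ (by norm_num) (not_lt.1 hcon)
        have h2 : (Nat.gcd b c : ℝ) ≤ M := by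
          exact_mod_cast Nat.le_of_dvd hM ((Nat.gcd_dvd_left _ _).trans (S.dvd hb))
        have h3 : (M : ℝ) < 2 ^ N * L := by
          rwa [div_lt_iff₀ hL] at hN
        nlinarith
      refine le_trans ?_ (Finset.single_le_sum hn hiN)
      have hbo := boost_far hA hm0 hM hL (S.dvd hb) (S.dvd hc) hl hF
      have hK'e : (Nat.gcd b c : ℝ) * nu M b * nu M c ≤ K' i b c := by
        rw [hK']
        simp only
        rw [if_pos ⟨hlo, by rw [pow_succ] at hhi; linarith⟩, if_pos hgood]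
        exact le_mul_of_one_le_right (hw0 b c) hK1
      calc (Nat.gcd b c : ℝ) * nu M b * nu M c * boostB M lam b c h
          ≤ K' i b c * (W * (i : ℝ) ^ 2 * B1Levx52.B1 (2 ^ (A * i)) b c) :=
            mul_le_mul hK'e hbo (boostB_nonneg _ _ _ _ _) (hK'0 i b c)
        _ = _ := by ring
  -- the energies
  have hEi : ∀ i ∈ Ico m0 N, ∑ b ∈ B, ∑ c ∈ B, K' i b c * B1Levx52.B1 (2 ^ (A * i)) b c ≤
      16 * (1 + C5 * sA η) * E i * ∑ b ∈ B, nu M b := by
    intro i hi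
    rw [Finset.mem_Ico] at hi
    refine H5 M F B (sA η) (sE η) hM S.hB S.shares hsA hT.s_gt.le (2 ^ (A * i)) (K' i) (E i) (hE i)
      (fun b _ c _ => hK'0 i b c) ?_ ?_
    · intro b _ c _ hne
      by_contra hg
      apply hne
      rw [hK']
      simp only
      rw [if_neg hg, mul_zero, ite_self]
    · intro T T' hTB hTB'
      exact hset i hi.1 T T' hTB hTB'
  have hν0 : 0 ≤ ∑ b ∈ B, nu M b := Finset.sum_nonneg fun b _ => nu_nonneg M b
  have hnn : ∀ b ∈ B, ∀ c ∈ B,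
      0 ≤ ∑ i ∈ Ico m0 N, W * (i : ℝ) ^ 2 * (K' i b c * B1Levx52.B1 (2 ^ (A * i)) b c) :=
    fun b _ c _ => Finset.sum_nonneg fun i _ =>
      mul_nonneg (by positivity) (mul_nonneg (hK'0 i b c) (B1Levx52.B1_nonneg _ _ _))
  unfold EnR
  calc L * ∑ b ∈ B, ∑ c ∈ B.erase b, (Nat.gcd b c : ℝ) * nu M b * nu M c *
        ∑ h ∈ (Lnk γ L b c).filter (fun h => ¬ killedB lam b c h ∧ R b c h), boostB M lam b c h
      ≤ L * ∑ b ∈ B, ∑ c ∈ B, ∑ i ∈ Ico m0 N,
          W * (i : ℝ) ^ 2 * (K' i b c * B1Levx52.B1 (2 ^ (A * i)) b c) := by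
        refine mul_le_mul_of_nonneg_left (Finset.sum_le_sum fun b hb => ?_) hL.le
        refine (Finset.sum_le_sum fun c hc => hpt b hb c hc).trans ?_
        exact Finset.sum_le_sum_of_subset_of_nonneg (Finset.erase_subset _ _)
          fun c hc _ => hnn b hb c hc
    _ = L * ∑ i ∈ Ico m0 N, W * (i : ℝ) ^ 2 *
          ∑ b ∈ B, ∑ c ∈ B, K' i b c * B1Levx52.B1 (2 ^ (A * i)) b c := by
        congr 1
        rw [Finset.sum_congr rfl fun b _ => Finset.sum_comm, Finset.sum_comm]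
        refine Finset.sum_congr rfl fun i _ => ?_
        rw [Finset.mul_sum]
        refine Finset.sum_congr rfl fun b _ => ?_
        rw [Finset.mul_sum]
    _ ≤ L * ∑ i ∈ Ico m0 N, W * (i : ℝ) ^ 2 *
          (16 * (1 + C5 * sA η) * E i * ∑ b ∈ B, nu M b) := by
        refine mul_le_mul_of_nonneg_left (Finset.sum_le_sum fun i hi => ?_) hL.le
        exact mul_le_mul_of_nonneg_left (hEi i hi) (by positivity)
    _ = W * (16 * (1 + C5 * sA η)) * (∑ i ∈ Ico m0 N, (i : ℝ) ^ 2 * E i) *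
          (L * ∑ b ∈ B, nu M b) := by
        rw [Finset.mul_sum, Finset.mul_sum, Finset.sum_mul]
        exact Finset.sum_congr rfl fun i _ => by ring
    _ ≤ W * (16 * (1 + C5 * sA η)) * C1 * (L * ∑ b ∈ B, nu M b) := by
        refine mul_le_mul_of_nonneg_right ?_ (by positivity)
        exact mul_le_mul_of_nonneg_left (hsum N) (by positivity)
    _ ≤ 16 * (1 + C5) * (Real.exp 1200 * CM ^ 2 * 2) * (1 + sA η) * (A : ℝ) ^ 2 * C1 *
          (L * ∑ b ∈ B, nu M b) := by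
        have hC1 : 0 ≤ C1 := by
          refine le_trans ?_ (hsum N)
          exact Finset.sum_nonneg fun i _ => mul_nonneg (by positivity) (hE i)
        refine mul_le_mul_of_nonneg_right ?_ (by positivity)
        refine mul_le_mul_of_nonneg_right ?_ hC1
        have e1 : 1 + C5 * sA η ≤ (1 + C5) * (1 + sA η) := by nlinarith
        calc W * (16 * (1 + C5 * sA η)) ≤ W * (16 * ((1 + C5) * (1 + sA η))) :=
              mul_le_mul_of_nonneg_left (by linarith) hW0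
          _ = _ := by rw [hW]; ring

end Crest.Agent.R4C.ClsFarx590
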