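import Crest.Agent.R4C.GWwt_360
import Crest.Agent.R4C.LBoxDef_662

/-!
# Row 4, class (L), arrow D (boost), for an arbitrary cut `y` (helper360)

* `prod_pf_card` : `∏_{p ∈ S} (1-1/p)⁻¹ ≤ card S + 1`;
* `card_pf_le` : `∏_{p ∣ m} (1-1/p)⁻¹ ≤ log2 m + 1`;
* **`boost_word`** : a pair good at `cut t`, aligned primes `≤ cut (2t)`, `X1 < cut t`,
  `upp y b = κ z`, `upp y c = κ' z'`, `z, z'` with equal letters in `(y, cut t]`:
  `boostB ≤ C (1 + log y)² (log2 κ + 1) (log2 κ' + 1) offW b offW c bst (Qt y t z z')`.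
* **`tgtD`** : `TgtD γ` of `LBoxDef_662`.
-/

set_option autoImplicit false

namespace Crest.Agent.R4C.LBstx360

open Finset Crest.Agent.R4C.Basex935 Crest.Agent.R4C.FLDefx935 Crest.Agent.R4C.BoostCx972
  Crest.Agent.R4C.CrCoinx935 Crest.Agent.R4C.CrCountx935 Crest.Agent.R4C.Bridgex882
  Crest.Agent.R4C.PrefixMx882 Crest.Agent.R4C.Rulex945 Crest.Agent.R4C.Sharedx11
  Crest.Agent.R4C.Splitx945 Crest.Agent.R4C.BoostTopx19 Crest.Agent.R4C.BoostAlx100
  Crest.Agent.R4C.GWwtx360 Crest.Agent.R4C.Cutx50 Crest.Agent.R4C.LBoxDefx662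
  Crest.Agent.R4C.Spinex946
open Crest.Agent.R4C.LBxx500 (tw)

/-! ### elementary products -/

lemma prod_pf_card (S : Finset ℕ) (hS : ∀ p ∈ S, 2 ≤ p) :
    ∏ p ∈ S, pf p ≤ (S.card : ℝ) + 1 := by
  classical
  revert hS
  refine Finset.induction_on_max S ?_ ?_
  · intro _; simp
  · intro a S ha ih hS
    have haS : a ∉ S := fun h => lt_irrefl a (ha a h)
    rw [prod_insert haS, card_insert_of_notMem haS]
    have h1 := ih fun p hp => hS p (mem_insert_of_mem hp)
    have h2 : 2 ≤ a := hS a (mem_insert_self _ _)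
    -- `card S + 2 ≤ a`
    have h3 : S.card + 2 ≤ a := by
      have h4 : S ⊆ Ico 2 a := fun p hp =>
        mem_Ico.2 ⟨hS p (mem_insert_of_mem hp), ha p hp⟩
      have h5 := card_le_card h4
      rw [Nat.card_Ico] at h5
      omega
    have h3' : (S.card : ℝ) + 2 ≤ a := by exact_mod_cast h3
    have hc0 : (0 : ℝ) ≤ S.card := Nat.cast_nonneg _
    have h6 : pf a ≤ ((S.card : ℝ) + 2) / (S.card + 1) := by
      unfold pf
      have ha0 : (0 : ℝ) < a := by linarith
      have h7 : (1 - 1 / (a : ℝ))⁻¹ = a / (a - 1) := by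
        have : (a : ℝ) - 1 ≠ 0 := by linarith
        field_simp
      rw [h7, div_le_div_iff₀ (by linarith) (by linarith)]
      nlinarith
    have h7 : 0 ≤ pf a := by
      unfold pf
      have : 1 / (a : ℝ) ≤ 1 := by
        rw [div_le_one (by linarith)]
        linarith
      exact inv_nonneg.2 (by linarith)
    have h8 : 0 ≤ ∏ p ∈ S, pf p := prod_nonneg fun p hp => by
      have h9 : (2 : ℝ) ≤ p := by exact_mod_cast hS p (mem_insert_of_mem hp)
      unfold pf
      have : 1 / (p : ℝ) ≤ 1 := by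
        rw [div_le_one (by linarith)]
        linarith
      exact inv_nonneg.2 (by linarith)
    calc pf a * ∏ p ∈ S, pf p ≤ (((S.card : ℝ) + 2) / (S.card + 1)) * ((S.card : ℝ) + 1) :=
          mul_le_mul h6 h1 h8 (by positivity)
      _ = _ := by
        push_cast
        field_simp
        ring

lemma two_pow_omega (m : ℕ) (hm : 0 < m) : 2 ^ m.primeFactors.card ≤ m := by
  calc 2 ^ m.primeFactors.card = ∏ _p ∈ m.primeFactors, 2 := by rw [prod_const]
    _ ≤ ∏ p ∈ m.primeFactors, p :=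
        prod_le_prod' fun p hp => (Nat.prime_of_mem_primeFactors hp).two_le
    _ ≤ m := Nat.le_of_dvd hm (Nat.prod_primeFactors_dvd m)

lemma prod_pf_dvd (m : ℕ) (hm : 0 < m) {S : Finset ℕ} (hS : S ⊆ m.primeFactors) :
    ∏ p ∈ S, pf p ≤ (Nat.log 2 m : ℝ) + 1 := by
  refine (prod_pf_mono (fun p hp => Nat.prime_of_mem_primeFactors hp) hS).trans ?_
  refine (prod_pf_card _ fun p hp => (Nat.prime_of_mem_primeFactors hp).two_le).trans ?_
  have h1 : m.primeFactors.card ≤ Nat.log 2 m :=
    Nat.le_log_of_pow_le (by norm_num) (two_pow_omega m hm)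
  have h2 : (m.primeFactors.card : ℝ) ≤ Nat.log 2 m := by exact_mod_cast h1
  linarith

section word

variable {M : ℕ} {F : FL M} {P : Par}

lemma CM_nonneg : 0 ≤ CM := by
  have h1 := prod_pf_le_mertens (y := 2) le_rfl (S := ∅) (by simp)
  rw [Finset.prod_empty] at h1
  have h2 : 0 < Real.log 2 := Real.log_pos (by norm_num)
  by_contra hcon
  push Not at hcon
  nlinarith

/-- primes `≤ y` -/
lemma prod_low (y : ℕ) {S : Finset ℕ} (hS : ∀ p ∈ S, p.Prime ∧ p ≤ y) :
    ∏ p ∈ S, pf p ≤ (1 + CM) * (1 + Real.log y) := by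
  have hCM := CM_nonneg
  rcases Nat.lt_or_ge y 2 with hy | hy
  · have hS0 : S = ∅ := by
      rw [eq_empty_iff_forall_notMem]
      intro p hp
      have h1 := (hS p hp).1.two_le
      have h2 := (hS p hp).2
      omega
    rw [hS0, prod_empty]
    have h3 : 0 ≤ Real.log y := Real.log_natCast_nonneg y
    nlinarith
  · have h1 := prod_pf_le_mertens (y := (y : ℝ)) (by exact_mod_cast hy) (S := S) fun p hp =>
      ⟨(hS p hp).1, by exact_mod_cast (hS p hp).2⟩
    have h3 : 0 ≤ Real.log y := Real.log_natCast_nonneg y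
    nlinarith

set_option maxHeartbeats 1000000 in
open Classical in
/-- **arrow D for an arbitrary cut** -/
theorem boost_word (hM : 0 < M) {b c : ℕ} (hb : b ∣ M) (hc : c ∣ M) (hL : 0 < P.L)
    (hY : ∀ i, P.Y i = 2 ^ i)
    (hthr : ∀ b i, P.thr b i ≤ Real.exp ((P.Y (i - 1) : ℝ) ^ (4 / 5 : ℝ))) {x Q : ℕ} (hx : 2 ≤ x)
    (hxQ : x ≤ Q) (hgood : F.good x b c) {h : ℤ} (hl : h ∈ Lnk P.γ P.L b c)
    (hal : AlLe F P b c h Q) (hX : X1 P b c ≤ Q) {y κ κ' z z' : ℕ}
    (eb : upp y b = κ * z) (ec : upp y c = κ' * z')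
    (heq : ∀ q, q.Prime → y < q → q ≤ x → z.factorization q = z'.factorization q) :
    boostB M (lamR F P) b c h ≤ (Real.exp 1100 * (Real.exp (22 / Real.log 2) *
      (Real.log Q / Real.log x)) * (1 + CM) ^ 2) * (1 + Real.log y) ^ 2 *
      (((Nat.log 2 κ : ℝ) + 1) * ((Nat.log 2 κ' : ℝ) + 1)) *
      (B1Levx52.offW F x b * B1Levx52.offW F x c) *
      ∏ q ∈ (upp y M).primeFactors.filter (fun q => q ≤ x ∧
        z.factorization q < (upp y M).factorization q ∧
        z'.factorization q < (upp y M).factorization q), pf q := by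
  have hb0 : 0 < b := Nat.pos_of_dvd_of_pos hb hM
  have hc0 : 0 < c := Nat.pos_of_dvd_of_pos hc hM
  have hub : 0 < upp y b := upp_pos y b
  have huc : 0 < upp y c := upp_pos y c
  have hκ0 : 0 < κ := Nat.pos_of_ne_zero fun h0 => by rw [h0, zero_mul] at eb; omega
  have hκ0' : 0 < κ' := Nat.pos_of_ne_zero fun h0 => by rw [h0, zero_mul] at ec; omega
  have hz0 : 0 < z := Nat.pos_of_ne_zero fun h0 => by rw [h0, mul_zero] at eb; omega
  have hz0' : 0 < z' := Nat.pos_of_ne_zero fun h0 => by rw [h0, mul_zero] at ec; omega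
  have hκL : Lam P.L (Nat.gcd b c : ℕ) / Q ≤ 10 := by
    have := Lam_X1 hX
    exact this
  have h1 := boost_lab hM hb hc hL hY hthr hx hxQ hgood hl hal hκL
  have e100 : (100 : ℝ) * (1 + 10) = 1100 := by norm_num
  rw [e100] at h1
  set g := Nat.gcd b c with hg
  have hg0 : 0 < g := Nat.gcd_pos_of_pos_left c hb0
  -- factorizations
  have fb : ∀ q, y < q → b.factorization q = κ.factorization q + z.factorization q := by
    intro q hq
    have e1 : (upp y b).factorization q = b.factorization q := by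
      rw [fact_upp, if_pos (by omega)]
    rw [← e1, eb, Nat.factorization_mul hκ0.ne' hz0.ne', Finsupp.add_apply]
  have fc : ∀ q, y < q → c.factorization q = κ'.factorization q + z'.factorization q := by
    intro q hq
    have e1 : (upp y c).factorization q = c.factorization q := by
      rw [fact_upp, if_pos (by omega)]
    rw [← e1, ec, Nat.factorization_mul hκ0'.ne' hz0'.ne', Finsupp.add_apply]
  -- differing primes
  have hB1 : PureL2x232.B1 b c ≤ ((1 + CM) * (1 + Real.log y)) *
      ((((Nat.log 2 κ : ℝ) + 1) * ((Nat.log 2 κ' : ℝ) + 1)) *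
        (B1Levx52.offW F x b * B1Levx52.offW F x c)) := by
    set D := ((b / g) * (c / g)).primeFactors with hD
    have e1 : PureL2x232.B1 b c = ∏ p ∈ D, pf p := rfl
    have hDp : ∀ p ∈ D, p.Prime := fun p hp => Nat.prime_of_mem_primeFactors hp
    set D1 := D.filter fun p => p ≤ y with hD1
    set D2 := D.filter fun p => ¬ p ≤ y with hD2
    set D3 := D2.filter fun p => x < p with hD3
    set D4 := D2.filter fun p => ¬ x < p with hD4
    have e2 : ∏ p ∈ D, pf p = (∏ p ∈ D1, pf p) * ((∏ p ∈ D3, pf p) * ∏ p ∈ D4, pf p) := by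
      rw [hD3, hD4, prod_filter_mul_prod_filter_not D2 (fun p => x < p) pf, hD1, hD2,
        prod_filter_mul_prod_filter_not D (fun p => p ≤ y) pf]
    have f1 : ∏ p ∈ D1, pf p ≤ (1 + CM) * (1 + Real.log y) :=
      prod_low y fun p hp => ⟨hDp p (mem_filter.1 hp).1, (mem_filter.1 hp).2⟩
    have f3 : ∏ p ∈ D3, pf p ≤ B1Levx52.offW F x b * B1Levx52.offW F x c := by
      refine le_trans ?_ (B1Levx52.B1_le (F := F) hM hb hc hgood)
      unfold B1Levx52.B1
      refine prod_pf_mono (fun p hp => Nat.prime_of_mem_primeFactors (mem_filter.1 hp).1) ?_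
      intro p hp
      rw [mem_filter]
      exact ⟨(mem_filter.1 (mem_filter.1 hp).1).1, (mem_filter.1 hp).2⟩
    have f4 : ∏ p ∈ D4, pf p ≤ ((Nat.log 2 κ : ℝ) + 1) * ((Nat.log 2 κ' : ℝ) + 1) := by
      have hsub : D4 ⊆ κ.primeFactors ∪ κ'.primeFactors := by
        intro p hp
        rw [hD4, mem_filter, hD2, mem_filter] at hp
        obtain ⟨⟨h2, h3⟩, h4⟩ := hp
        have hpp := hDp p h2
        have hyp : y < p := not_le.1 h3
        have hpx : p ≤ x := not_lt.1 h4
        have h5 := heq p hpp hyp hpx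
        rw [mem_union]
        by_contra hcon
        push Not at hcon
        have h6 : κ.factorization p = 0 := by
          rw [← Finsupp.notMem_support_iff, Nat.support_factorization]
          exact hcon.1
        have h7 : κ'.factorization p = 0 := by
          rw [← Finsupp.notMem_support_iff, Nat.support_factorization]
          exact hcon.2
        have h8 : b.factorization p = c.factorization p := by
          rw [fb p hyp, fc p hyp, h5, h6, h7]
        -- `p` divides `b/g` or `c/g`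
        have h9 := Nat.dvd_of_mem_primeFactors h2
        rcases (Nat.Prime.dvd_mul hpp).1 h9 with h10 | h10
        · have h11 : 0 < (b / g).factorization p :=
            hpp.factorization_pos_of_dvd (Nat.div_pos (Nat.le_of_dvd hb0 (Nat.gcd_dvd_left b c))
              hg0).ne' h10
          rw [Nat.factorization_div (Nat.gcd_dvd_left b c), Finsupp.tsub_apply,
            Nat.factorization_gcd hb0.ne' hc0.ne', Finsupp.inf_apply] at h11
          omega
        · have h11 : 0 < (c / g).factorization p :=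
            hpp.factorization_pos_of_dvd (Nat.div_pos (Nat.le_of_dvd hc0 (Nat.gcd_dvd_right b c))
              hg0).ne' h10
          rw [Nat.factorization_div (Nat.gcd_dvd_right b c), Finsupp.tsub_apply,
            Nat.factorization_gcd hb0.ne' hc0.ne', Finsupp.inf_apply] at h11
          omega
      have e3 := prod_filter_mul_prod_filter_not D4 (fun p => p ∈ κ.primeFactors) pf
      rw [← e3]
      refine mul_le_mul (prod_pf_dvd κ hκ0 fun p hp => (mem_filter.1 hp).2)
        (prod_pf_dvd κ' hκ0' fun p hp => ?_)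
        (prod_nonneg fun p hp => (GWwtx360.pf_pos (hDp p (mem_filter.1 (mem_filter.1
          (mem_filter.1 hp).1).1).1)).le) (by positivity)
      rw [mem_filter] at hp
      rcases mem_union.1 (hsub hp.1) with h12 | h12
      · exact absurd h12 hp.2
      · exact h12
    have n1 : ∀ T : Finset ℕ, T ⊆ D → 0 ≤ ∏ p ∈ T, pf p := fun T hT =>
      prod_nonneg fun p hp => (GWwtx360.pf_pos (hDp p (hT hp))).le
    have n3 := n1 D3 fun p hp => (mem_filter.1 (mem_filter.1 hp).1).1
    have n4 := n1 D4 fun p hp => (mem_filter.1 (mem_filter.1 hp).1).1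
    have n0 := n1 D1 fun p hp => (mem_filter.1 hp).1
    rw [e1, e2, mul_comm (∏ p ∈ D3, pf p)]
    exact mul_le_mul f1 (mul_le_mul f4 f3 n3 (n4.trans f4)) (mul_nonneg n4 n3) (n0.trans f1)
  -- labelled common primes
  have hLab : ∏ p ∈ LabS F P x b c, pf p ≤ ((1 + CM) * (1 + Real.log y)) *
      ∏ q ∈ (upp y M).primeFactors.filter (fun q => q ≤ x ∧
        z.factorization q < (upp y M).factorization q ∧
        z'.factorization q < (upp y M).factorization q), pf q := by
    have hp0 : ∀ p ∈ LabS F P x b c, p.Prime ∧ p ≤ x ∧ Com M b c p := by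
      intro p hp
      unfold LabS at hp
      rw [mem_filter] at hp
      have h2 := mem_prQ.1 hp.1
      exact ⟨h2.2, h2.1, hp.2.1⟩
    rw [← prod_filter_mul_prod_filter_not (LabS F P x b c) (fun p => p ≤ y) pf]
    refine mul_le_mul (prod_low y fun p hp => ⟨(hp0 p (mem_filter.1 hp).1).1,
      (mem_filter.1 hp).2⟩) ?_ (prod_nonneg fun p hp => (GWwtx360.pf_pos (hp0 p (mem_filter.1 hp).1).1).le)
      ?_
    · refine prod_pf_mono (fun p hp => Nat.prime_of_mem_primeFactors (mem_filter.1 hp).1) ?_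
      intro p hp
      rw [mem_filter] at hp
      obtain ⟨h2, h3, h4⟩ := hp0 p hp.1
      have hyp : y < p := not_le.1 hp.2
      have e1 : (upp y M).factorization p = M.factorization p := by
        rw [fact_upp, if_pos (by omega)]
      have h5 := fb p hyp
      have h6 := fc p hyp
      have h7 := h4.1
      have h8 := h4.2
      rw [mem_filter, e1]
      refine ⟨?_, h3, by omega, by omega⟩
      rw [← Nat.support_factorization, Finsupp.mem_support_iff, e1]
      omega
    · have := Real.log_natCast_nonneg y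
      have := CM_nonneg
      positivity
  have hlx : 0 < Real.log x := Real.log_pos (by exact_mod_cast (by omega : 1 < x))
  have hlQ : 0 < Real.log Q := Real.log_pos (by exact_mod_cast (by omega : 1 < Q))
  have hly := Real.log_natCast_nonneg y
  have hCM := CM_nonneg
  have hB0 : 0 ≤ PureL2x232.B1 b c := B1_nonneg b c
  have hLab0 : 0 ≤ ∏ p ∈ LabS F P x b c, pf p := prod_nonneg fun p hp => by
    unfold LabS at hp
    exact (GWwtx360.pf_pos (mem_prQ.1 (mem_filter.1 hp).1).2).le
  have hK : 0 ≤ Real.exp 1100 * (Real.exp (22 / Real.log 2) * (Real.log Q / Real.log x)) := by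
    positivity
  calc boostB M (lamR F P) b c h ≤ Real.exp 1100 * (Real.exp (22 / Real.log 2) *
      (Real.log Q / Real.log x)) * PureL2x232.B1 b c * ∏ p ∈ LabS F P x b c, pf p := h1
    _ ≤ Real.exp 1100 * (Real.exp (22 / Real.log 2) * (Real.log Q / Real.log x)) *
        (((1 + CM) * (1 + Real.log y)) *
      ((((Nat.log 2 κ : ℝ) + 1) * ((Nat.log 2 κ' : ℝ) + 1)) *
        (B1Levx52.offW F x b * B1Levx52.offW F x c))) * (((1 + CM) * (1 + Real.log y)) *
      ∏ q ∈ (upp y M).primeFactors.filter (fun q => q ≤ x ∧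
        z.factorization q < (upp y M).factorization q ∧
        z'.factorization q < (upp y M).factorization q), pf q) := by
        refine mul_le_mul (mul_le_mul_of_nonneg_left hB1 hK) hLab hLab0 ?_
        exact mul_nonneg hK (hB0.trans hB1)
    _ = _ := by ring

end word

/-- **TARGET D** -/
theorem tgtD (γ : ℝ) : TgtD γ := by
  refine Ev.basic.mono ?_
  rintro cp η A m0 ⟨_, _, _, _, _, hA, hm0⟩
  refine ⟨Real.exp 1100 * (Real.exp (22 / Real.log 2) * 2) * (1 + CM) ^ 2, ?_, ?_⟩
  · have := CM_nonneg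
    positivity
  intro L M B F S x t b c h f f' p hb hc hl H z0 z0' eb ec heq
  set P := ParOf cp A m0 γ L M B with hP
  have ht : m0 ≤ t := H.lp.m0
  have ht1 : 1 ≤ t := hm0.trans ht
  have hcut : ∀ m, P.cut m = 2 ^ (A * m) := fun m => rfl
  have hxQ : P.cut t ≤ P.cut (2 * t) := by
    rw [hcut, hcut]
    exact Nat.pow_le_pow_right (by norm_num) (Nat.mul_le_mul_left _ (by omega))
  have hx2 : 2 ≤ P.cut t := by
    rw [hcut]
    calc 2 = 2 ^ 1 := by norm_num
      _ ≤ 2 ^ (A * t) := Nat.pow_le_pow_right (by norm_num) (Nat.mul_pos hA ht1)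
  have hX : X1 P b c ≤ P.cut (2 * t) := by
    have h1 := H.lp.near.le
    refine h1.trans ?_
    exact_mod_cast hxQ
  have hmain := boost_word (F := F) (P := P) S.hM hb hc S.hL (fun _ => rfl)
    (fun b i => min_le_right _ _) hx2 hxQ H.lp.good hl H.lp.al hX eb ec heq
  have hr : Real.log ((P.cut (2 * t) : ℕ) : ℝ) / Real.log ((P.cut t : ℕ) : ℝ) = 2 := by
    rw [hcut, hcut]
    exact log_ratio hA ht1
  rw [hr] at hmain
  -- the twists are small
  have hκ : ∀ (d d' : ℕ) (e e' : ℚ) (n : ℕ), dep F P t d e < 2 ^ (n + 1) →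
      (Nat.log 2 (tw F P (P.Y x.v) t d d' e e') : ℝ) + 1 ≤ (n : ℝ) + 1 := by
    intro d d' e e' n hn
    have h1 : tw F P (P.Y x.v) t d d' e e' ≤ k0 F (P.cut t) d e := by
      unfold tw
      refine (Nat.le_of_dvd ?_ (upp_dvd_self _ _)).trans (Nat.div_le_self _ _)
      exact Nat.div_pos (Nat.le_of_dvd (Rulex945.k0_pos _ _ _) (Nat.gcd_dvd_left _ _))
        (Nat.gcd_pos_of_pos_left _ (Rulex945.k0_pos _ _ _))
    have h2 : (k0 F (P.cut t) d e : ℝ) ≤ dep F P t d e := by
      unfold dep
      exact le_mul_of_one_le_right (Nat.cast_nonneg _) (le_max_left _ _)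
    have h3 : (tw F P (P.Y x.v) t d d' e e' : ℝ) < 2 ^ (n + 1) := by
      have : (tw F P (P.Y x.v) t d d' e e' : ℝ) ≤ k0 F (P.cut t) d e := by exact_mod_cast h1
      linarith
    have h4 : tw F P (P.Y x.v) t d d' e e' < 2 ^ (n + 1) := by exact_mod_cast h3
    have h5 : Nat.log 2 (tw F P (P.Y x.v) t d d' e e') ≤ n := by
      rcases Nat.eq_zero_or_pos (tw F P (P.Y x.v) t d d' e e') with h0 | h0
      · rw [h0]; simp
      · have := Nat.log_lt_of_lt_pow h0.ne' h4
        omega
    have h6 : (Nat.log 2 (tw F P (P.Y x.v) t d d' e e') : ℝ) ≤ n := by exact_mod_cast h5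
    linarith
  have hk1 := hκ b c f f' x.n H.dn1
  have hk2 := hκ c b f' f x.n' H.dn1'
  have hmx : (x.n : ℝ) ≤ x.mx := by exact_mod_cast le_max_left _ _
  have hmx' : (x.n' : ℝ) ≤ x.mx := by exact_mod_cast le_max_right _ _
  have hly0 := Real.log_natCast_nonneg (P.Y x.v)
  have hly : 1 + Real.log (P.Y x.v : ℝ) ≤ (x.v : ℝ) + 1 := by
    have e : (P.Y x.v : ℝ) = 2 ^ x.v := by
      have : P.Y x.v = 2 ^ x.v := rfl
      rw [this]; push_cast; rfl
    rw [e, Real.log_pow]
    have h1 := Real.log_two_lt_d9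
    have h2 : (0 : ℝ) ≤ x.v := Nat.cast_nonneg _
    nlinarith
  have ho1 : B1Levx52.offW F (P.cut t) b * B1Levx52.offW F (P.cut t) c ≤
      B1Levx52.offW F 1 b * B1Levx52.offW F 1 c := by
    refine mul_le_mul (B1Levx52.offW_anti (by omega) b) (B1Levx52.offW_anti (by omega) c) ?_ ?_
    · linarith [B1Levx52.one_le_offW (F := F) (P.cut t) c]
    · linarith [B1Levx52.one_le_offW (F := F) 1 b]
  have hoff0 : 0 ≤ B1Levx52.offW F (P.cut t) b * B1Levx52.offW F (P.cut t) c :=
    mul_nonneg (by linarith [B1Levx52.one_le_offW (F := F) (P.cut t) b])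
      (by linarith [B1Levx52.one_le_offW (F := F) (P.cut t) c])
  have hCM := CM_nonneg
  have hQ0 : 0 ≤ HighWx899.bst (Qt (M := M) P (P.Y x.v) t z0 z0') := by
    unfold HighWx899.bst
    refine Finset.prod_nonneg fun q hq => ?_
    unfold Qt at hq
    exact (GWwtx360.pf_pos (Nat.prime_of_mem_primeFactors (Finset.mem_filter.1 hq).1)).le
  refine hmain.trans ?_
  have eQ : ∏ q ∈ (upp (P.Y x.v) M).primeFactors.filter (fun q => q ≤ P.cut t ∧
        z0.factorization q < (upp (P.Y x.v) M).factorization q ∧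
        z0'.factorization q < (upp (P.Y x.v) M).factorization q), pf q =
      HighWx899.bst (Qt (M := M) P (P.Y x.v) t z0 z0') := rfl
  rw [eQ]
  refine mul_le_mul_of_nonneg_right ?_ hQ0
  have h1 : ((Nat.log 2 (tw F P (P.Y x.v) t b c f f') : ℝ) + 1) *
      ((Nat.log 2 (tw F P (P.Y x.v) t c b f' f) : ℝ) + 1) ≤ ((x.mx : ℝ) + 1) ^ 4 := by
    have h2 : (1 : ℝ) ≤ (x.mx : ℝ) + 1 := by
      have : (0 : ℝ) ≤ x.mx := Nat.cast_nonneg _
      linarith
    calc _ ≤ ((x.mx : ℝ) + 1) * ((x.mx : ℝ) + 1) :=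
          mul_le_mul (by linarith) (by linarith) (by positivity) (by linarith)
      _ = ((x.mx : ℝ) + 1) ^ 2 := by ring
      _ ≤ ((x.mx : ℝ) + 1) ^ 4 := pow_le_pow_right₀ h2 (by norm_num)
  have h2 : (1 + Real.log (P.Y x.v : ℝ)) ^ 2 ≤ ((x.v : ℝ) + 1) ^ 2 :=
    pow_le_pow_left₀ (by linarith) hly 2
  have hK : 0 ≤ Real.exp 1100 * (Real.exp (22 / Real.log 2) * 2) * (1 + CM) ^ 2 := by positivity
  refine mul_le_mul (mul_le_mul (mul_le_mul_of_nonneg_left h2 hK) h1 (by positivity)
    (by positivity)) ho1 hoff0 (by positivity)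

end Crest.Agent.R4C.LBstx360
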