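import Crest.Agent.R4C.ClsLow_662
import Crest.Agent.R4C.LBst_360
import Crest.Agent.R4C.TgtC_7

/-!
# Row 4: CLASS (L) TOTAL (helper662)

* `cls_low_S` : `ClsOK γ (nH γ (cLow γ))` from the arrow S (arrow C: helper7, arrow D: helper360).
-/

set_option autoImplicit false

namespace Crest.Agent.R4C.ClsLowx662

open Crest.Agent.R4C.LBoxDefx662 Crest.Agent.R4C.Spinex946 Crest.Agent.R4C.Coverx946

/-- **CLASS (L)** from the arrow S -/
theorem cls_low_S (γ : ℝ) (hS : TgtS γ) : ClsOK γ (nH γ (cLow γ)) :=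
  cls_low_CDS γ (TgtCx7.tgtC γ) (LBstx360.tgtD γ) hS

end Crest.Agent.R4C.ClsLowx662
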