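import Crest.Agent.R4C.ClsLowB_662
import Crest.Agent.R4C.TgtS_398

/-!
# Row 4: CLASS (L) TOTAL, final (helper662)

* **`cls_low`** : `ClsOK γ (nH γ (cLow γ))`.

Arrows: A (500), B (217), C (7, 899), D (360), U, K (11), X (14), S (398, 808), mirror (350),
kit (179), sums (251), composition (662).
-/

set_option autoImplicit false

namespace Crest.Agent.R4C.ClsLowx662

open Crest.Agent.R4C.Spinex946 Crest.Agent.R4C.Coverx946

/-- **CLASS (L)** -/
theorem cls_low (γ : ℝ) : ClsOK γ (nH γ (cLow γ)) := cls_low_S γ (TgtSx398.tgtS γ)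

end Crest.Agent.R4C.ClsLowx662
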