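import Crest.Agent.R4C.ClsLowB_662
import Crest.Agent.R4C.TgtS_398

/-!
# Row 4: CLASS (L) IS A THEOREM (composition 662, arrows 500, 217, 7, 360, 11, 14, 398)
-/

set_option autoImplicit false

namespace Crest.Agent.R4C.ClsLowx398

open Crest.Agent.R4C.Spinex946 Crest.Agent.R4C.Coverx946

/-- **CLASS (L)** -/
theorem cls_low (γ : ℝ) : ClsOK γ (nH γ (cLow γ)) :=
  ClsLowx662.cls_low_S γ (TgtSx398.tgtS γ)

end Crest.Agent.R4C.ClsLowx398
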