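import Crest.Agent.R4C.EnRareA_179
import Crest.Agent.R4C.Cover_946

/-!
# Row 4: `ClsOK γ (cRareA γ)`, literal form of `Cover_946` (helper179)
-/

set_option autoImplicit false

namespace Crest.Agent.R4C.ClsRareAx179

open Crest.Agent.R4C.Spinex946 Crest.Agent.R4C.Coverx946

/-- **class `cRareA`** -/
theorem cRareA_ok (γ : ℝ) : ClsOK γ (cRareA γ) := by
  have h := EnRareAx179.clsOK_rareA (γ := γ) (c := fun cp => min (cp / 16) 1)
    (fun cp hcp => ⟨lt_min (by linarith) one_pos, min_le_right _ _⟩)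
    (D := HyOfx281.DD) (fun cp hcp m => by
      unfold HyOfx281.DD
      refine Real.rpow_le_rpow_of_exponent_le (by norm_num) ?_
      have h1 : min (cp / 16) 1 ≤ cp / 16 := min_le_left _ _
      have h2 := mul_le_mul_of_nonneg_right h1 (Nat.cast_nonneg (α := ℝ) m)
      linarith)
  exact h

/-- the same outside the heavy class -/
theorem cRareA_nH (γ : ℝ) : ClsOK γ (nH γ (cRareA γ)) := nH_ok (cRareA_ok γ)

end Crest.Agent.R4C.ClsRareAx179
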