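import Crest.Agent.R4C.RareFin_590

/-!
# Row 4: RARE pairs, all scales together, for a set `B` of mass `≤ 1` (helper590)

Scale `T = 2^m`, `m0 ≤ m < N`, cut `P₀ = 2^(A m)`, boost `(log P₀)^{C₀}`:
`∑_m (log P₀)^{C₀} L ∑_{b,c ∈ B, TL ≤ gcd < 2TL} gcd ν ν K_m(b,c) ≤ C 2^{-c' m0} L ν(B)`
for `gen_total`, `box_total`, `word_total`, `deep_total`.
-/

set_option autoImplicit false

open Finset

namespace Crest.Agent.R4C.RareTotx590

open Basex935 Cutx50 MXlowx808 RelTailx808 RelRarex808 LowTaux808 S2x232 RareCorx590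

/-- energy of `K` on `B × B` at the scale `T` (without boost) -/
noncomputable def EK (M : ℕ) (B : Finset ℕ) (L T : ℝ) (K : ℕ → ℕ → ℝ) : ℝ :=
  L * ∑ b ∈ B, ∑ c ∈ B, (if T * L ≤ (Nat.gcd b c : ℝ) ∧ (Nat.gcd b c : ℝ) < 2 * (T * L) then
    (Nat.gcd b c : ℝ) * nu M b * nu M c * K b c else 0)

open Classical in
lemma EK_eq {M : ℕ} {B : Finset ℕ} (hB : B ⊆ M.divisors) (L T : ℝ) (K : ℕ → ℕ → ℝ) :
    EK M B L T K = L * ∑ b ∈ M.divisors, ∑ c ∈ M.divisors,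
      (if T * L ≤ (Nat.gcd b c : ℝ) ∧ (Nat.gcd b c : ℝ) < 2 * (T * L) then
        (Nat.gcd b c : ℝ) * nu M b * nu M c *
          ((if b ∈ B then (1 : ℝ) else 0) * (if c ∈ B then (1 : ℝ) else 0) * K b c) else 0) := by
  unfold EK
  congr 1
  rw [← Finset.sum_filter_add_sum_filter_not M.divisors (fun b => b ∈ B)]
  have h0 : ∑ b ∈ M.divisors.filter (fun b => ¬ b ∈ B), ∑ c ∈ M.divisors,
      (if T * L ≤ (Nat.gcd b c : ℝ) ∧ (Nat.gcd b c : ℝ) < 2 * (T * L) then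
        (Nat.gcd b c : ℝ) * nu M b * nu M c *
          ((if b ∈ B then (1 : ℝ) else 0) * (if c ∈ B then (1 : ℝ) else 0) * K b c) else 0) = 0 := by
    refine Finset.sum_eq_zero fun b hb => Finset.sum_eq_zero fun c _ => ?_
    rw [if_neg (Finset.mem_filter.1 hb).2]
    split_ifs <;> ring
  rw [h0, add_zero]
  have hf : M.divisors.filter (fun b => b ∈ B) = B := by
    ext b; rw [Finset.mem_filter]
    exact ⟨fun h => h.2, fun h => ⟨hB h, h⟩⟩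
  rw [hf]
  refine Finset.sum_congr rfl fun b hb => ?_
  rw [← Finset.sum_filter_add_sum_filter_not M.divisors (fun c => c ∈ B)]
  have h1 : ∑ c ∈ M.divisors.filter (fun c => ¬ c ∈ B),
      (if T * L ≤ (Nat.gcd b c : ℝ) ∧ (Nat.gcd b c : ℝ) < 2 * (T * L) then
        (Nat.gcd b c : ℝ) * nu M b * nu M c *
          ((if b ∈ B then (1 : ℝ) else 0) * (if c ∈ B then (1 : ℝ) else 0) * K b c) else 0) = 0 := by
    refine Finset.sum_eq_zero fun c hc => ?_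
    rw [if_neg (Finset.mem_filter.1 hc).2]
    split_ifs <;> ring
  rw [h1, add_zero, hf]
  refine Finset.sum_congr rfl fun c hc => ?_
  rw [if_pos hb, if_pos hc]
  split_ifs <;> ring

open Classical in
lemma Ex_ind {M : ℕ} {B : Finset ℕ} (hB : B ⊆ M.divisors) :
    Ex M (fun b => if b ∈ B then (1 : ℝ) else 0) = ∑ b ∈ B, nu M b := by
  unfold Ex
  have hf : M.divisors.filter (fun b => b ∈ B) = B := by
    ext b; rw [Finset.mem_filter]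
    exact ⟨fun h => h.2, fun h => ⟨hB h, h⟩⟩
  calc ∑ b ∈ M.divisors, nu M b * (if b ∈ B then (1 : ℝ) else 0)
      = ∑ b ∈ M.divisors, (if b ∈ B then nu M b else 0) :=
        Finset.sum_congr rfl fun b _ => by split_ifs <;> ring
    _ = ∑ b ∈ B, nu M b := by rw [← Finset.sum_filter, hf]

lemma pow_mass {m κ : ℝ} (h0 : 0 ≤ m) (h1 : m ≤ 1) (hκ : 1 / 2 ≤ κ) : (m * m) ^ κ ≤ m := by
  have e : (m * m) ^ κ = m ^ (2 * κ) := by
    rw [show m * m = m ^ (2 : ℝ) by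
      rw [show (2 : ℝ) = ((2 : ℕ) : ℝ) by norm_num, Real.rpow_natCast]; ring, ← Real.rpow_mul h0]
  rw [e]
  rcases h0.eq_or_lt with h | h
  · rw [← h, Real.zero_rpow (by linarith)]
  · calc m ^ (2 * κ) ≤ m ^ (1 : ℝ) := Real.rpow_le_rpow_of_exponent_ge h h1 (by linarith)
      _ = m := Real.rpow_one m

/-- sum over the dyadic scales -/
lemma sum_scales {c' C' μ : ℝ} (hc : 0 < c') (hC : 0 ≤ C') (hμ : 0 ≤ μ) (E : ℕ → ℝ) (m0 N : ℕ)
    (hE : ∀ m, m0 ≤ m → m < N → E m ≤ C' * ((2 : ℝ) ^ m) ^ (-c') * μ) :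
    ∑ m ∈ Ico m0 N, E m ≤ C' / (1 - 2 ^ (-c')) * ((2 : ℝ) ^ m0) ^ (-c') * μ := by
  set r : ℝ := (2 : ℝ) ^ (-c') with hr
  have hr0 : 0 < r := by rw [hr]; positivity
  have hr1 : r < 1 := Real.rpow_lt_one_of_one_lt_of_neg (by norm_num) (by linarith)
  have hpow : ∀ m : ℕ, ((2 : ℝ) ^ m) ^ (-c') = r ^ m := by
    intro m
    rw [hr, ← Real.rpow_natCast, ← Real.rpow_natCast, ← Real.rpow_mul (by norm_num),
      ← Real.rpow_mul (by norm_num), mul_comm]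
  rw [hpow m0]
  calc ∑ m ∈ Ico m0 N, E m ≤ ∑ m ∈ Ico m0 N, C' * r ^ m * μ := by
        refine Finset.sum_le_sum fun m hm => ?_
        rw [Finset.mem_Ico] at hm
        have := hE m hm.1 hm.2
        rwa [hpow m] at this
    _ = C' * μ * ∑ m ∈ Ico m0 N, r ^ m := by
        rw [Finset.mul_sum]; exact Finset.sum_congr rfl fun m _ => by ring
    _ ≤ C' * μ * (r ^ m0 / (1 - r)) := by
        refine mul_le_mul_of_nonneg_left ?_ (mul_nonneg hC hμ)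
        rcases Nat.lt_or_ge N m0 with h | h
        · rw [Finset.Ico_eq_empty (by omega), Finset.sum_empty]
          exact div_nonneg (by positivity) (by linarith)
        · rw [Finset.sum_Ico_eq_sum_range]
          have e : ∀ i ∈ range (N - m0), r ^ (m0 + i) = r ^ m0 * r ^ i := fun i _ => pow_add r m0 i
          rw [Finset.sum_congr rfl e, ← Finset.mul_sum, div_eq_mul_one_div]
          refine mul_le_mul_of_nonneg_left ?_ (by positivity)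
          have := (summable_geometric_of_lt_one hr0.le hr1).sum_le_tsum (range (N - m0))
            (fun i _ => pow_nonneg hr0.le i)
          rwa [tsum_geometric_of_lt_one hr0.le hr1, ← one_div] at this
    _ = C' / (1 - r) * r ^ m0 * μ := by ring

/-- facts about the scale `2^m` and the cut `2^(A m)` -/
lemma scale_facts {A m : ℕ} (hA : 3 ≤ A) (hm : 1 ≤ m) :
    8 ≤ 2 ^ (A * m) ∧ (1 : ℝ) ≤ (2 : ℝ) ^ m ∧
      Real.log ((2 ^ (A * m) : ℕ) : ℝ) ≤ A * Real.log ((2 : ℝ) ^ m) := by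
  refine ⟨?_, one_le_pow₀ (by norm_num), ?_⟩
  · calc 8 = 2 ^ 3 := by norm_num
      _ ≤ 2 ^ (A * m) := Nat.pow_le_pow_right (by norm_num) (by nlinarith)
  · push_cast
    rw [Real.log_pow, Real.log_pow]
    push_cast
    exact le_of_eq (by ring)

/-- **generic total** -/
theorem gen_total {c : ℝ} (hc : 0 < c) (hc1 : c ≤ 1) {A : ℕ} (hA : 3 ≤ A) {B₀ b₀ C₀ : ℝ}
    (hB₀ : 1 ≤ B₀) (hb₀ : 0 ≤ b₀) (hC₀ : 0 ≤ C₀) :
    ∃ C : ℝ, 0 < C ∧ ∀ (M : ℕ) (B : Finset ℕ) (L : ℝ) (m0 N : ℕ) (K : ℕ → ℕ → ℕ → ℝ)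
      (k : ℕ → ℕ → ℕ → ℕ → ℕ → ℝ), 0 < M → B ⊆ M.divisors → 0 < L → L * ∑ b ∈ B, nu M b ≤ 1 →
      1 ≤ m0 → (∀ m b c, 0 ≤ K m b c) → (∀ m U U' s t, 0 ≤ k m U U' s t) →
      (∀ m U U' s t, k m U U' s t ≤ 1) →
      (∀ m, m0 ≤ m → m < N → ∀ U U', U ∣ upp (2 ^ (A * m)) M → U' ∣ upp (2 ^ (A * m)) M →
        MXlowx808.dens (low (2 ^ (A * m)) M) (k m U U') ≤
          B₀ * Real.log ((2 ^ (A * m) : ℕ) : ℝ) ^ b₀ * ((2 : ℝ) ^ m) ^ (-c)) →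
      (∀ m, m0 ≤ m → m < N → ∀ U U' n n', U ∣ upp (2 ^ (A * m)) M → U' ∣ upp (2 ^ (A * m)) M →
        n ∣ low (2 ^ (A * m)) M → n' ∣ low (2 ^ (A * m)) M →
        K m (n * U) (n' * U') ≤ k m U U' (n / Nat.gcd n n') (n' / Nat.gcd n n')) →
      ∑ m ∈ Ico m0 N, Real.log ((2 ^ (A * m) : ℕ) : ℝ) ^ C₀ * EK M B L ((2 : ℝ) ^ m) (K m) ≤
        C * ((2 : ℝ) ^ m0) ^ (-(c / 100)) * (L * ∑ b ∈ B, nu M b) := by
  classical
  obtain ⟨C', hC', H⟩ := RareFinx590.gen hc hc1 (A₁ := A) (B := B₀) (b := b₀) (C₀ := C₀)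
    (Nat.cast_nonneg A) hB₀ hb₀ hC₀
  have hden : 0 < 1 - (2 : ℝ) ^ (-(c / 100)) := by
    have := Real.rpow_lt_one_of_one_lt_of_neg (by norm_num : (1 : ℝ) < 2)
      (by linarith : -(c / 100) < 0)
    linarith
  refine ⟨C' / (1 - 2 ^ (-(c / 100))), by positivity, ?_⟩
  intro M B L m0 N K k hM hB hL hmass hm0 hK hk hk1 hdens hKk
  have hμ0 : 0 ≤ L * ∑ b ∈ B, nu M b :=
    mul_nonneg hL.le (Finset.sum_nonneg fun b _ => nu_nonneg _ _)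
  refine sum_scales (by positivity) hC'.le hμ0 _ m0 N fun m hm hmN => ?_
  obtain ⟨h8, h1, hlog⟩ := scale_facts hA (hm0.trans hm)
  have h := H M (2 ^ (A * m)) (fun b => if b ∈ B then (1 : ℝ) else 0)
    (fun b => if b ∈ B then (1 : ℝ) else 0) (K m) (k m) ((2 : ℝ) ^ m) L hM h8 h1 hL hlog
    (fun b => by split_ifs <;> norm_num)
    (fun b => by split_ifs <;> norm_num)
    (fun b => by split_ifs <;> norm_num)
    (fun b => by split_ifs <;> norm_num) (hK m) (hk m) (hk1 m) (hdens m hm hmN)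
    (hKk m hm hmN)
  rw [EK_eq hB]
  refine h.trans ?_
  rw [Ex_ind hB]
  exact mul_le_mul_of_nonneg_left (pow_mass hμ0 hmass (by linarith)) (by positivity)

/-- **rare boxes, all scales** -/
theorem box_total {c : ℝ} (hc : 0 < c) (hc1 : c ≤ 1) {A : ℕ} (hA : 3 ≤ A) {C₀ : ℝ} (hC₀ : 0 ≤ C₀) :
    ∃ C : ℝ, 0 < C ∧ ∀ (M : ℕ) (B : Finset ℕ) (L γ : ℝ) (m0 N : ℕ) (t D : ℕ → ℝ), 0 < M →
      B ⊆ M.divisors → 0 < L → L * ∑ b ∈ B, nu M b ≤ 1 → 1 ≤ m0 →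
      (∀ m, m0 ≤ m → m < N → ((2 : ℝ) ^ m) ^ c ≤ D m) →
      ∑ m ∈ Ico m0 N, Real.log ((2 ^ (A * m) : ℕ) : ℝ) ^ C₀ * EK M B L ((2 : ℝ) ^ m) (fun b c =>
          KRare γ (t m) (D m) (2 ^ (A * m)) (b / Nat.gcd b c) (c / Nat.gcd b c)) ≤
        C * ((2 : ℝ) ^ m0) ^ (-(c / 200)) * (L * ∑ b ∈ B, nu M b) := by
  classical
  obtain ⟨C', hC', H⟩ := RareFinx590.box hc hc1 (A₁ := A) (C₀ := C₀) (Nat.cast_nonneg A) hC₀
  have hden : 0 < 1 - (2 : ℝ) ^ (-(c / 200)) := by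
    have := Real.rpow_lt_one_of_one_lt_of_neg (by norm_num : (1 : ℝ) < 2)
      (by linarith : -(c / 200) < 0)
    linarith
  refine ⟨C' / (1 - 2 ^ (-(c / 200))), by positivity, ?_⟩
  intro M B L γ m0 N t D hM hB hL hmass hm0 hD
  have hμ0 : 0 ≤ L * ∑ b ∈ B, nu M b :=
    mul_nonneg hL.le (Finset.sum_nonneg fun b _ => nu_nonneg _ _)
  refine sum_scales (by positivity) hC'.le hμ0 _ m0 N fun m hm hmN => ?_
  obtain ⟨h8, h1, hlog⟩ := scale_facts hA (hm0.trans hm)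
  have h := H M (2 ^ (A * m)) (fun b => if b ∈ B then (1 : ℝ) else 0)
    (fun b => if b ∈ B then (1 : ℝ) else 0) γ (t m) (D m) ((2 : ℝ) ^ m) L hM h8 h1 hL hlog
    (hD m hm hmN)
    (fun b => by split_ifs <;> norm_num)
    (fun b => by split_ifs <;> norm_num)
    (fun b => by split_ifs <;> norm_num)
    (fun b => by split_ifs <;> norm_num)
  rw [EK_eq hB]
  refine h.trans ?_
  rw [Ex_ind hB]
  exact mul_le_mul_of_nonneg_left (pow_mass hμ0 hmass (by linarith)) (by positivity)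

/-- **one heavy word, all scales** -/
theorem word_total {c : ℝ} (hc : 0 < c) (hc1 : c ≤ 1) {A : ℕ} (hA : 3 ≤ A) {C₀ : ℝ}
    (hC₀ : 0 ≤ C₀) :
    ∃ C : ℝ, 0 < C ∧ ∀ (M : ℕ) (B : Finset ℕ) (L : ℝ) (m0 N : ℕ) (K : ℕ → ℕ → ℕ → ℝ)
      (w : ℕ → ℕ → ℕ → ℕ × ℕ), 0 < M → B ⊆ M.divisors → 0 < L → L * ∑ b ∈ B, nu M b ≤ 1 →
      1 ≤ m0 → (∀ m b c, 0 ≤ K m b c) → (∀ m b c, K m b c ≤ 1) →
      (∀ m, m0 ≤ m → m < N → ∀ U U', ((2 : ℝ) ^ m) ^ c ≤ ((w m U U').1 : ℝ) * (w m U U').2) →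
      (∀ m, m0 ≤ m → m < N → ∀ U U' n n', U ∣ upp (2 ^ (A * m)) M → U' ∣ upp (2 ^ (A * m)) M →
        n ∣ low (2 ^ (A * m)) M → n' ∣ low (2 ^ (A * m)) M →
        K m (n * U) (n' * U') ≠ 0 → (n / Nat.gcd n n', n' / Nat.gcd n n') = w m U U') →
      ∑ m ∈ Ico m0 N, Real.log ((2 ^ (A * m) : ℕ) : ℝ) ^ C₀ * EK M B L ((2 : ℝ) ^ m) (K m) ≤
        C * ((2 : ℝ) ^ m0) ^ (-(c / 100)) * (L * ∑ b ∈ B, nu M b) := by
  classical
  obtain ⟨C', hC', H⟩ := RareFinx590.word hc hc1 (A₁ := A) (C₀ := C₀) (Nat.cast_nonneg A) hC₀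
  have hden : 0 < 1 - (2 : ℝ) ^ (-(c / 100)) := by
    have := Real.rpow_lt_one_of_one_lt_of_neg (by norm_num : (1 : ℝ) < 2)
      (by linarith : -(c / 100) < 0)
    linarith
  refine ⟨C' / (1 - 2 ^ (-(c / 100))), by positivity, ?_⟩
  intro M B L m0 N K w hM hB hL hmass hm0 hK hK1 hw hKw
  have hμ0 : 0 ≤ L * ∑ b ∈ B, nu M b :=
    mul_nonneg hL.le (Finset.sum_nonneg fun b _ => nu_nonneg _ _)
  refine sum_scales (by positivity) hC'.le hμ0 _ m0 N fun m hm hmN => ?_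
  obtain ⟨h8, h1, hlog⟩ := scale_facts hA (hm0.trans hm)
  have h := H M (2 ^ (A * m)) (fun b => if b ∈ B then (1 : ℝ) else 0)
    (fun b => if b ∈ B then (1 : ℝ) else 0) (K m) (w m) ((2 : ℝ) ^ m) L hM h8 h1 hL hlog
    (hw m hm hmN)
    (fun b => by split_ifs <;> norm_num)
    (fun b => by split_ifs <;> norm_num)
    (fun b => by split_ifs <;> norm_num)
    (fun b => by split_ifs <;> norm_num) (hK m) (hK1 m) (hKw m hm hmN)
  rw [EK_eq hB]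
  refine h.trans ?_
  rw [Ex_ind hB]
  exact mul_le_mul_of_nonneg_left (pow_mass hμ0 hmass (by linarith)) (by positivity)

/-- **deep labelled words, all scales** -/
theorem deep_total {c : ℝ} (hc : 0 < c) (hc1 : c ≤ 1) {A : ℕ} (hA : 3 ≤ A) {C₀ : ℝ}
    (hC₀ : 0 ≤ C₀) :
    ∃ C : ℝ, 0 < C ∧ ∀ (M : ℕ) (B : Finset ℕ) (L γ : ℝ) (m0 N : ℕ) (t E Kd : ℕ → ℝ), 0 < M →
      B ⊆ M.divisors → 0 < L → L * ∑ b ∈ B, nu M b ≤ 1 → 1 ≤ m0 →
      (∀ m, m0 ≤ m → m < N → ((2 : ℝ) ^ m) ^ c ≤ Kd m ∧ 64 ≤ Kd m ∧ 8 * E m ^ 5 ≤ t m ∧ 0 ≤ t m) →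
      ∑ m ∈ Ico m0 N, Real.log ((2 ^ (A * m) : ℕ) : ℝ) ^ C₀ * EK M B L ((2 : ℝ) ^ m) (fun b c =>
          KDeep γ (t m) (E m) (Kd m) (2 ^ (A * m)) (b / Nat.gcd b c) (c / Nat.gcd b c)) ≤
        C * ((2 : ℝ) ^ m0) ^ (-(c / 600)) * (L * ∑ b ∈ B, nu M b) := by
  classical
  obtain ⟨C', hC', H⟩ := RareFinx590.deep hc hc1 (A₁ := A) (C₀ := C₀) (Nat.cast_nonneg A) hC₀
  have hden : 0 < 1 - (2 : ℝ) ^ (-(c / 600)) := by
    have := Real.rpow_lt_one_of_one_lt_of_neg (by norm_num : (1 : ℝ) < 2)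
      (by linarith : -(c / 600) < 0)
    linarith
  refine ⟨C' / (1 - 2 ^ (-(c / 600))), by positivity, ?_⟩
  intro M B L γ m0 N t E Kd hM hB hL hmass hm0 hh
  have hμ0 : 0 ≤ L * ∑ b ∈ B, nu M b :=
    mul_nonneg hL.le (Finset.sum_nonneg fun b _ => nu_nonneg _ _)
  refine sum_scales (by positivity) hC'.le hμ0 _ m0 N fun m hm hmN => ?_
  obtain ⟨h8, h1, hlog⟩ := scale_facts hA (hm0.trans hm)
  obtain ⟨a1, a2, a3, a4⟩ := hh m hm hmN
  have h := H M (2 ^ (A * m)) (fun b => if b ∈ B then (1 : ℝ) else 0)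
    (fun b => if b ∈ B then (1 : ℝ) else 0) γ (t m) (E m) (Kd m) ((2 : ℝ) ^ m) L hM h8 h1 hL hlog
    a1 a2 a3 a4
    (fun b => by split_ifs <;> norm_num)
    (fun b => by split_ifs <;> norm_num)
    (fun b => by split_ifs <;> norm_num)
    (fun b => by split_ifs <;> norm_num)
  rw [EK_eq hB]
  refine h.trans ?_
  rw [Ex_ind hB]
  exact mul_le_mul_of_nonneg_left (pow_mass hμ0 hmass (by linarith)) (by positivity)

end Crest.Agent.R4C.RareTotx590
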