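import Crest.Agent.R4C.ClsFar_590
import Crest.Agent.R4C.RareTot_590

/-!
# Row 4: THE CLASS `CRareA` HAS BOUNDED ENERGY (helper590)

* bilinear set bounds `ES M S S' L i K ≤ C (2^i)^(-c') √(ν S ν S')` for `S, S' ⊆ B` (mass `≤ 1`):
  `set_gen`, `set_box`, `set_word`, `set_deep` (the hypothesis of `ClsFarx590.far_cls`);
* `far_ok` : `ClsOK` from a power saving for the sets;
* **`clsOK_rare`** : `ClsOK γ CRareA`, for every `D` with `D m ≥ (2^m)^c` eventually.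
-/

set_option autoImplicit false

open Finset

namespace Crest.Agent.R4C.ClsRarex590

open Crest.Agent.R4C.Basex935 Crest.Agent.R4C.CrCoinx935 Crest.Agent.R4C.Bridgex882
  Crest.Agent.R4C.FLDefx935 Crest.Agent.R4C.Rulex945 Crest.Agent.R4C.CrCountx935
  Crest.Agent.R4C.Spinex946 Crest.Agent.R4C.Splitx945 Crest.Agent.R4C.ClsFarx590
  Crest.Agent.R4C.RareTotx590 Crest.Agent.R4C.Cutx50 Crest.Agent.R4C.RelRarex808
  Crest.Agent.R4C.S2x232 Crest.Agent.R4C.MXlowx808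

/-! ### from `RareFin_590` to sets -/

open Classical in
/-- sets as functions -/
lemma ES_eq {M : ℕ} {S S' : Finset ℕ} (hS : S ⊆ M.divisors) (hS' : S' ⊆ M.divisors) (L : ℝ)
    (i : ℕ) (K : ℕ → ℕ → ℝ) :
    ES M S S' L i K = ∑ b ∈ M.divisors, ∑ c ∈ M.divisors,
      (if (2 : ℝ) ^ i * L ≤ (Nat.gcd b c : ℝ) ∧ (Nat.gcd b c : ℝ) < 2 * ((2 : ℝ) ^ i * L) then
        (Nat.gcd b c : ℝ) * nu M b * nu M c *
          ((if b ∈ S then (1 : ℝ) else 0) * (if c ∈ S' then (1 : ℝ) else 0) * K b c) else 0) := by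
  unfold ES
  have e1 : ∀ (T : Finset ℕ), T ⊆ M.divisors → ∀ g : ℕ → ℝ,
      ∑ b ∈ T, g b = ∑ b ∈ M.divisors, (if b ∈ T then g b else 0) := by
    intro T hT g
    rw [← Finset.sum_filter]
    congr 1
    ext b
    rw [Finset.mem_filter]
    exact ⟨fun h => ⟨hT h, h⟩, fun h => h.2⟩
  rw [e1 S hS]
  refine Finset.sum_congr rfl fun b _ => ?_
  by_cases hb : b ∈ S
  · rw [if_pos hb, e1 S' hS']
    refine Finset.sum_congr rfl fun c _ => ?_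
    by_cases hc : c ∈ S'
    · rw [if_pos hc, if_pos hc, if_pos hb]
      split_ifs <;> ring
    · rw [if_neg hc, if_neg hc]
      split_ifs <;> ring
  · rw [if_neg hb]
    symm
    refine Finset.sum_eq_zero fun c _ => ?_
    rw [if_neg hb]
    split_ifs <;> ring

/-- `((L a)(L b))^κ ≤ L √(a b)` for masses `≤ 1`, `κ ≥ 1/2` -/
lemma mass_half {L a b κ : ℝ} (hL : 0 < L) (ha : 0 ≤ a) (hb : 0 ≤ b) (ha1 : L * a ≤ 1)
    (hb1 : L * b ≤ 1) (hκ : 1 / 2 ≤ κ) : ((L * a) * (L * b)) ^ κ ≤ L * √(a * b) := by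
  have h0 : 0 ≤ (L * a) * (L * b) := by positivity
  have h1 : (L * a) * (L * b) ≤ 1 := mul_le_one₀ ha1 (by positivity) hb1
  have e : L * √(a * b) = ((L * a) * (L * b)) ^ (1 / 2 : ℝ) := by
    rw [← Real.sqrt_eq_rpow, show (L * a) * (L * b) = L ^ 2 * (a * b) by ring,
      Real.sqrt_mul (sq_nonneg L) (a * b), Real.sqrt_sq hL.le]
  rw [e]
  rcases h0.eq_or_lt with h | h
  · rw [← h, Real.zero_rpow (by linarith), Real.zero_rpow (by norm_num)]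
  · exact Real.rpow_le_rpow_of_exponent_ge h h1 hκ

lemma set_mass {L : ℝ} {M : ℕ} {B S : Finset ℕ} (hL : 0 < L) (hmass : L * ∑ b ∈ B, nu M b ≤ 1)
    (hS : S ⊆ B) : L * ∑ b ∈ S, nu M b ≤ 1 := by
  refine le_trans (mul_le_mul_of_nonneg_left ?_ hL.le) hmass
  exact Finset.sum_le_sum_of_subset_of_nonneg hS fun b _ _ => nu_nonneg M b

open Classical in
/-- from functions to sets -/
lemma set_of {c' C' κ : ℝ} (hC' : 0 < C') (hκ : 1 / 2 ≤ κ) {M Y : ℕ} {B : Finset ℕ} {L : ℝ}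
    {i : ℕ} {K : ℕ → ℕ → ℝ} (hL : 0 < L) (hB : B ⊆ M.divisors)
    (hmass : L * ∑ b ∈ B, nu M b ≤ 1)
    (H : ∀ f f' : ℕ → ℝ, (∀ b, 0 ≤ f b) → (∀ b, f b ≤ 1) → (∀ b, 0 ≤ f' b) → (∀ b, f' b ≤ 1) →
      Real.log Y ^ (0 : ℝ) * (L * ∑ b ∈ M.divisors, ∑ c ∈ M.divisors,
        (if (2 : ℝ) ^ i * L ≤ (Nat.gcd b c : ℝ) ∧ (Nat.gcd b c : ℝ) < 2 * ((2 : ℝ) ^ i * L) then
          (Nat.gcd b c : ℝ) * nu M b * nu M c * (f b * f' c * K b c) else 0)) ≤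
        C' * ((2 : ℝ) ^ i) ^ (-c') * ((L * Ex M f) * (L * Ex M f')) ^ κ)
    {S S' : Finset ℕ} (hS : S ⊆ B) (hS' : S' ⊆ B) :
    ES M S S' L i K ≤ C' * ((2 : ℝ) ^ i) ^ (-c') *
      √((∑ b ∈ S, nu M b) * ∑ c ∈ S', nu M c) := by
  have h := H (fun b => if b ∈ S then (1 : ℝ) else 0) (fun b => if b ∈ S' then (1 : ℝ) else 0)
    (fun b => by split_ifs <;> norm_num) (fun b => by split_ifs <;> norm_num)
    (fun b => by split_ifs <;> norm_num) (fun b => by split_ifs <;> norm_num)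
  rw [Real.rpow_zero, one_mul] at h
  rw [Ex_ind (hS.trans hB), Ex_ind (hS'.trans hB)] at h
  have e := ES_eq (hS.trans hB) (hS'.trans hB) L i K
  have h1 : L * ES M S S' L i K ≤ C' * ((2 : ℝ) ^ i) ^ (-c') *
      ((L * ∑ b ∈ S, nu M b) * (L * ∑ c ∈ S', nu M c)) ^ κ := by
    rw [e]
    exact h
  have h2 := mass_half (κ := κ) hL (Finset.sum_nonneg fun b (_ : b ∈ S) => nu_nonneg M b)
    (Finset.sum_nonneg fun b (_ : b ∈ S') => nu_nonneg M b) (set_mass hL hmass hS)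
    (set_mass hL hmass hS') hκ
  have h3 : L * ES M S S' L i K ≤ L * (C' * ((2 : ℝ) ^ i) ^ (-c') *
      √((∑ b ∈ S, nu M b) * ∑ c ∈ S', nu M c)) := by
    refine h1.trans ?_
    calc _ ≤ C' * ((2 : ℝ) ^ i) ^ (-c') * (L * √((∑ b ∈ S, nu M b) * ∑ c ∈ S', nu M c)) :=
          mul_le_mul_of_nonneg_left h2 (by positivity)
      _ = _ := by ring
  exact le_of_mul_le_mul_left h3 hL

/-- **relation of natural density `≤ B₀ (log Y)^b₀ (2^i)^(-c)`** -/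
theorem set_gen {c : ℝ} (hc : 0 < c) (hc1 : c ≤ 1) {A : ℕ} (hA : 3 ≤ A) {B₀ b₀ : ℝ}
    (hB₀ : 1 ≤ B₀) (hb₀ : 0 ≤ b₀) :
    ∃ C : ℝ, 0 < C ∧ ∀ (M : ℕ) (B : Finset ℕ) (L : ℝ) (i : ℕ) (K : ℕ → ℕ → ℝ)
      (k : ℕ → ℕ → ℕ → ℕ → ℝ), 0 < M → B ⊆ M.divisors → 0 < L → L * ∑ b ∈ B, nu M b ≤ 1 →
      1 ≤ i → (∀ b c, 0 ≤ K b c) → (∀ U U' s t, 0 ≤ k U U' s t) → (∀ U U' s t, k U U' s t ≤ 1) →
      (∀ U U', U ∣ upp (2 ^ (A * i)) M → U' ∣ upp (2 ^ (A * i)) M →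
        MXlowx808.dens (low (2 ^ (A * i)) M) (k U U') ≤
          B₀ * Real.log ((2 ^ (A * i) : ℕ) : ℝ) ^ b₀ * ((2 : ℝ) ^ i) ^ (-c)) →
      (∀ U U' n n', U ∣ upp (2 ^ (A * i)) M → U' ∣ upp (2 ^ (A * i)) M →
        n ∣ low (2 ^ (A * i)) M → n' ∣ low (2 ^ (A * i)) M →
        K (n * U) (n' * U') ≤ k U U' (n / Nat.gcd n n') (n' / Nat.gcd n n')) →
      ∀ S S' : Finset ℕ, S ⊆ B → S' ⊆ B →
      ES M S S' L i K ≤ C * ((2 : ℝ) ^ i) ^ (-(c / 100)) *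
        √((∑ b ∈ S, nu M b) * ∑ c ∈ S', nu M c) := by
  obtain ⟨C', hC', H⟩ := RareFinx590.gen hc hc1 (A₁ := A) (B := B₀) (b := b₀) (C₀ := 0)
    (Nat.cast_nonneg A) hB₀ hb₀ le_rfl
  refine ⟨C', hC', ?_⟩
  intro M B L i K k hM hB hL hmass hi hK hk hk1 hdens hKk S S' hS hS'
  obtain ⟨h8, h1, hlog⟩ := scale_facts hA hi
  exact set_of (Y := 2 ^ (A * i)) hC' (by linarith) hL hB hmass
    (fun f f' a1 a2 a3 a4 => H M (2 ^ (A * i)) f f' K k ((2 : ℝ) ^ i) L hM h8 h1 hL hlog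
      a1 a2 a3 a4 hK hk hk1 hdens hKk) hS hS'

/-- **rare boxes** -/
theorem set_box {c : ℝ} (hc : 0 < c) (hc1 : c ≤ 1) {A : ℕ} (hA : 3 ≤ A) :
    ∃ C : ℝ, 0 < C ∧ ∀ (M : ℕ) (B : Finset ℕ) (L γ : ℝ) (i : ℕ) (t D : ℝ), 0 < M →
      B ⊆ M.divisors → 0 < L → L * ∑ b ∈ B, nu M b ≤ 1 → 1 ≤ i → ((2 : ℝ) ^ i) ^ c ≤ D →
      ∀ S S' : Finset ℕ, S ⊆ B → S' ⊆ B →
      ES M S S' L i (fun b c => KRare γ t D (2 ^ (A * i)) (b / Nat.gcd b c) (c / Nat.gcd b c)) ≤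
        C * ((2 : ℝ) ^ i) ^ (-(c / 200)) * √((∑ b ∈ S, nu M b) * ∑ c ∈ S', nu M c) := by
  obtain ⟨C', hC', H⟩ := RareFinx590.box hc hc1 (A₁ := A) (C₀ := 0) (Nat.cast_nonneg A) le_rfl
  refine ⟨C', hC', ?_⟩
  intro M B L γ i t D hM hB hL hmass hi hD S S' hS hS'
  obtain ⟨h8, h1, hlog⟩ := scale_facts hA hi
  exact set_of (Y := 2 ^ (A * i)) hC' (by linarith) hL hB hmass
    (fun f f' a1 a2 a3 a4 => H M (2 ^ (A * i)) f f' γ t D ((2 : ℝ) ^ i) L hM h8 h1 hL hlog hD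
      a1 a2 a3 a4) hS hS'

/-- **one heavy word** -/
theorem set_word {c : ℝ} (hc : 0 < c) (hc1 : c ≤ 1) {A : ℕ} (hA : 3 ≤ A) :
    ∃ C : ℝ, 0 < C ∧ ∀ (M : ℕ) (B : Finset ℕ) (L : ℝ) (i : ℕ) (K : ℕ → ℕ → ℝ)
      (w : ℕ → ℕ → ℕ × ℕ), 0 < M → B ⊆ M.divisors → 0 < L → L * ∑ b ∈ B, nu M b ≤ 1 →
      1 ≤ i → (∀ b c, 0 ≤ K b c) → (∀ b c, K b c ≤ 1) →
      (∀ U U', ((2 : ℝ) ^ i) ^ c ≤ ((w U U').1 : ℝ) * (w U U').2) →
      (∀ U U' n n', U ∣ upp (2 ^ (A * i)) M → U' ∣ upp (2 ^ (A * i)) M →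
        n ∣ low (2 ^ (A * i)) M → n' ∣ low (2 ^ (A * i)) M →
        K (n * U) (n' * U') ≠ 0 → (n / Nat.gcd n n', n' / Nat.gcd n n') = w U U') →
      ∀ S S' : Finset ℕ, S ⊆ B → S' ⊆ B →
      ES M S S' L i K ≤ C * ((2 : ℝ) ^ i) ^ (-(c / 100)) *
        √((∑ b ∈ S, nu M b) * ∑ c ∈ S', nu M c) := by
  obtain ⟨C', hC', H⟩ := RareFinx590.word hc hc1 (A₁ := A) (C₀ := 0) (Nat.cast_nonneg A) le_rfl
  refine ⟨C', hC', ?_⟩
  intro M B L i K w hM hB hL hmass hi hK hK1 hw hKw S S' hS hS'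
  obtain ⟨h8, h1, hlog⟩ := scale_facts hA hi
  exact set_of (Y := 2 ^ (A * i)) hC' (by linarith) hL hB hmass
    (fun f f' a1 a2 a3 a4 => H M (2 ^ (A * i)) f f' K w ((2 : ℝ) ^ i) L hM h8 h1 hL hlog hw
      a1 a2 a3 a4 hK hK1 hKw) hS hS'

/-- **deep labelled words** -/
theorem set_deep {c : ℝ} (hc : 0 < c) (hc1 : c ≤ 1) {A : ℕ} (hA : 3 ≤ A) :
    ∃ C : ℝ, 0 < C ∧ ∀ (M : ℕ) (B : Finset ℕ) (L γ : ℝ) (i : ℕ) (t E Kd : ℝ), 0 < M →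
      B ⊆ M.divisors → 0 < L → L * ∑ b ∈ B, nu M b ≤ 1 → 1 ≤ i → ((2 : ℝ) ^ i) ^ c ≤ Kd →
      64 ≤ Kd → 8 * E ^ 5 ≤ t → 0 ≤ t →
      ∀ S S' : Finset ℕ, S ⊆ B → S' ⊆ B →
      ES M S S' L i (fun b c => KDeep γ t E Kd (2 ^ (A * i)) (b / Nat.gcd b c) (c / Nat.gcd b c)) ≤
        C * ((2 : ℝ) ^ i) ^ (-(c / 600)) * √((∑ b ∈ S, nu M b) * ∑ c ∈ S', nu M c) := by
  obtain ⟨C', hC', H⟩ := RareFinx590.deep hc hc1 (A₁ := A) (C₀ := 0) (Nat.cast_nonneg A) le_rfl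
  refine ⟨C', hC', ?_⟩
  intro M B L γ i t E Kd hM hB hL hmass hi hKd h64 hE ht S S' hS hS'
  obtain ⟨h8, h1, hlog⟩ := scale_facts hA hi
  exact set_of (Y := 2 ^ (A * i)) hC' (by linarith) hL hB hmass
    (fun f f' a1 a2 a3 a4 => H M (2 ^ (A * i)) f f' γ t E Kd ((2 : ℝ) ^ i) L hM h8 h1 hL hlog hKd
      h64 hE ht a1 a2 a3 a4) hS hS'

/-! ### the sum over the scales -/

/-- `∑ i² C r^i` converges -/
lemma sum_sq {c' : ℝ} (hc' : 0 < c') : ∃ C : ℝ, 0 ≤ C ∧ ∀ m0 N : ℕ,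
    ∑ i ∈ Ico m0 N, (i : ℝ) ^ 2 * ((2 : ℝ) ^ i) ^ (-c') ≤ C := by
  set r : ℝ := (2 : ℝ) ^ (-c') with hr
  have hr0 : 0 < r := by rw [hr]; positivity
  have hr1 : r < 1 := Real.rpow_lt_one_of_one_lt_of_neg (by norm_num) (by linarith)
  have hpow : ∀ m : ℕ, ((2 : ℝ) ^ m) ^ (-c') = r ^ m := by
    intro m
    rw [hr, ← Real.rpow_natCast, ← Real.rpow_natCast, ← Real.rpow_mul (by norm_num),
      ← Real.rpow_mul (by norm_num), mul_comm]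
  have hs : Summable (fun n : ℕ => (n : ℝ) ^ 2 * r ^ n) := by
    refine summable_pow_mul_geometric_of_norm_lt_one 2 ?_
    rw [Real.norm_eq_abs, abs_of_pos hr0]
    exact hr1
  refine ⟨∑' n : ℕ, (n : ℝ) ^ 2 * r ^ n, tsum_nonneg fun n => by positivity, ?_⟩
  intro m0 N
  have h := hs.sum_le_tsum (Ico m0 N) (fun i _ => by positivity)
  refine le_trans (Finset.sum_le_sum fun i _ => ?_) h
  rw [hpow i]

open Classical in
/-- **`ClsOK` for a class of case A with a power saving for the sets** -/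
theorem far_ok {γ : ℝ} {R : Cls} {K : ℝ → ℝ → ℕ → ℝ → ∀ M : ℕ, Finset ℕ → FL M → ℕ → ℕ → ℕ → ℝ}
    (hK : ∀ cp η A L M B F i b c, 0 ≤ K cp η A L M B F i b c)
    (hR : ∀ cp η A m0 L M B F, Setup η L M B F → 1 ≤ m0 → ∀ b ∈ B, ∀ c ∈ B, b ≠ c →
      ∀ h ∈ Lnk γ L b c, ¬ killedB (lamOf cp A m0 γ L M B F) b c h → R cp η A m0 L M B F b c h →
      ∃ i, FarA F (ParOf cp A m0 γ L M B) i b c h ∧ 1 ≤ K cp η A L M B F i b c)
    (hset : Ev fun cp η A m0 => ∃ C' c' : ℝ, 0 ≤ C' ∧ 0 < c' ∧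
      ∀ (L : ℝ) (M : ℕ) (B : Finset ℕ) (F : FL M), Setup η L M B F → ∀ i, m0 ≤ i →
        ∀ S S' : Finset ℕ, S ⊆ B → S' ⊆ B →
        ES M S S' L i (fun b c => if F.good (2 ^ (A * i)) b c then K cp η A L M B F i b c else 0) ≤
          C' * ((2 : ℝ) ^ i) ^ (-c') * √((∑ b ∈ S, nu M b) * ∑ c ∈ S', nu M c)) :
    ClsOK γ R := by
  obtain ⟨C0, hC0, H⟩ := far_cls
  refine (hset.and Ev.basic).mono ?_
  rintro cp η A m0 ⟨⟨C', c', hC', hc', hs⟩, _, _, hη, _, hη1, hA, hm0⟩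
  obtain ⟨C2, hC2, hsum⟩ := sum_sq hc'
  have hsA : 0 ≤ sA η := (tree_spec hη hη1).1.A_pos.le
  refine ⟨C0 * (1 + sA η) * (A : ℝ) ^ 2 * (C' * C2) * 1, fun L M B F S => ?_⟩
  have h := H hη hη1 hA hm0 S (R cp η A m0 L M B F) (K cp η A L M B F)
    (fun i => C' * ((2 : ℝ) ^ i) ^ (-c')) (C' * C2) (hK cp η A L M B F)
    (fun i => by positivity) (hR cp η A m0 L M B F S hm0) (hs L M B F S) (fun N => by
      calc ∑ i ∈ Ico m0 N, (i : ℝ) ^ 2 * (C' * ((2 : ℝ) ^ i) ^ (-c'))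
          = C' * ∑ i ∈ Ico m0 N, (i : ℝ) ^ 2 * ((2 : ℝ) ^ i) ^ (-c') := by
            rw [Finset.mul_sum]; exact Finset.sum_congr rfl fun i _ => by ring
        _ ≤ C' * C2 := mul_le_mul_of_nonneg_left (hsum m0 N) hC')
  refine h.trans (mul_le_mul_of_nonneg_left S.mass ?_)
  positivity

/-! ### the class `CRareA` -/

/-- **THE CLASS `CRareA` HAS BOUNDED ENERGY** -/
theorem clsOK_rare {γ : ℝ} {D : ℝ → ℝ → ℕ → ℕ → ℝ}
    (hD : ∀ (cp η : ℝ) (A : ℕ), 0 < cp → 0 < η → ∃ c : ℝ, 0 < c ∧ ∃ m1 : ℕ, ∀ m, m1 ≤ m →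
      ((2 : ℝ) ^ m) ^ c ≤ D cp η A m) :
    ClsOK γ (fun cp η A m0 L M B F => CRareA F (ParOf cp A m0 γ L M B) (D cp η A)) := by
  classical
  refine far_ok (K := fun cp η A L M B F i b c =>
    KRare γ ((2 : ℝ) ^ i) (D cp η A i) (2 ^ (A * i)) (b / Nat.gcd b c) (c / Nat.gcd b c))
    (fun cp η A L M B F i b c => KRare_nonneg _ _ _ _ _ _) ?_ ?_
  · intro cp η A m0 L M B F S hm0 b hb c hc hne h hl hk hR
    obtain ⟨i, hF, hr⟩ := hR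
    refine ⟨i, hF, ?_⟩
    have hg : (0 : ℝ) < (Nat.gcd b c : ℕ) := by
      exact_mod_cast Nat.gcd_pos_of_pos_left _ (S.pos hb)
    have hlo : 2 ^ i * L ≤ (Nat.gcd b c : ℝ) := hF.lo
    unfold KRare
    rw [if_pos]
    refine ⟨⟨-h, ?_⟩, hr⟩
    unfold Lnk at hl
    rw [mem_Hf] at hl
    have h1 : L / (Nat.gcd b c : ℕ) ≤ 1 / 2 ^ i := by
      rw [div_le_div_iff₀ hg (by positivity)]
      linarith
    have e : (((b / Nat.gcd b c : ℕ) : ℝ) - (c / Nat.gcd b c : ℕ)) * γ - ((-h : ℤ) : ℝ) =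
        (((b / Nat.gcd b c : ℕ) : ℝ) - (c / Nat.gcd b c : ℕ)) * γ + h := by
      push_cast; ring
    rw [e]
    exact hl.trans_le h1
  · have hev : Ev (fun cp η A m0 => ∃ c : ℝ, 0 < c ∧ c ≤ 1 ∧ ∀ m, m0 ≤ m →
        ((2 : ℝ) ^ m) ^ c ≤ D cp η A m) := by
      refine Ev.of_m0 fun cp η A hcp hη => ?_
      obtain ⟨c, hc, m1, hm1⟩ := hD cp η A hcp hη
      refine ⟨m1, fun m0 hm0 => ⟨min c 1, lt_min hc one_pos, min_le_right _ _, fun m hm => ?_⟩⟩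
      refine le_trans ?_ (hm1 m (hm0.trans hm))
      exact Real.rpow_le_rpow_of_exponent_le (one_le_pow₀ (by norm_num)) (min_le_left _ _)
    refine ((hev.and (Ev.le_A fun _ _ => 3)).and Ev.basic).mono ?_
    rintro cp η A m0 ⟨⟨⟨c, hc, hc1, hDm⟩, hA3⟩, _, _, hη, _, hη1, hA, hm0⟩
    have hA3' : 3 ≤ A := by exact_mod_cast hA3
    obtain ⟨C', hC', H⟩ := set_box hc hc1 hA3'
    refine ⟨C', c / 200, hC'.le, by positivity, ?_⟩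
    intro L M B F S i hi T T' hT hT'
    refine le_trans ?_ (H M B L γ i ((2 : ℝ) ^ i) (D cp η A i) S.hM S.hB S.hL S.mass
      (hm0.trans hi) (hDm i hi) T T' hT hT')
    unfold ES
    refine Finset.sum_le_sum fun b _ => Finset.sum_le_sum fun c _ => ?_
    by_cases hw : (2 : ℝ) ^ i * L ≤ (Nat.gcd b c : ℝ) ∧
        (Nat.gcd b c : ℝ) < 2 * ((2 : ℝ) ^ i * L)
    · rw [if_pos hw, if_pos hw]
      refine mul_le_mul_of_nonneg_left ?_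
        (mul_nonneg (mul_nonneg (Nat.cast_nonneg _) (nu_nonneg _ _)) (nu_nonneg _ _))
      show (if F.good (2 ^ (A * i)) b c then _ else (0 : ℝ)) ≤ _
      by_cases hg : F.good (2 ^ (A * i)) b c
      · rw [if_pos hg]
      · rw [if_neg hg]
        exact KRare_nonneg _ _ _ _ _ _
    · rw [if_neg hw, if_neg hw]

end Crest.Agent.R4C.ClsRarex590
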