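import Crest.Agent.R4C.BoxKit_179
import Crest.Agent.R4C.NPTot_52

/-!
# Row 4, GW section, vector case: sums over the windows and over the classes (helper252)

* `sum_cls` : `∑_{(a,a')} (1 + a + a')^k 2^{-(a+a')/2} ≤ C`.
* `card_windows`, `sum_sqrt`, `sum_windows` : windows `v` of the low gcd (863's `V = 2^v`).
* `clsOK_of_classes` : `ClsOK` from bilinear set bounds of the classes `(a,a')`.
-/

set_option autoImplicit false

open Finset

namespace Crest.Agent.R4C.ClsSumVx252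

open Crest.Agent.R4C.Basex935 Crest.Agent.R4C.CrCoinx935 Crest.Agent.R4C.CrCountx935
  Crest.Agent.R4C.Bridgex882 Crest.Agent.R4C.FLDefx935
  Crest.Agent.R4C.Rulex945 Crest.Agent.R4C.Spinex946 Crest.Agent.R4C.FarKitx179
  Crest.Agent.R4C.BoxKitx179
open Crest.Agent.R4C.B1Levx52 (offW)
open Crest.Agent.R4C.Cutx50 Crest.Agent.R4C.VecNPx50
open Crest.Agent.R4C.NPTotx52 (poly_geo sqrt2_inv_lt)

/-- sum over the classes -/
lemma sum_cls (k : ℕ) : ∃ C : ℝ, 0 ≤ C ∧ ∀ T : Finset (ℕ × ℕ),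
    ∑ x ∈ T, (1 + (x.1 : ℝ) + x.2) ^ k * ((√2)⁻¹) ^ (x.1 + x.2) ≤ C := by
  have hr : (0 : ℝ) < (√2)⁻¹ := by positivity
  have hr1 := sqrt2_inv_lt
  obtain ⟨C, hC, h⟩ := poly_geo k hr (ρ := ((√2)⁻¹ + 1) / 2) (by linarith) (by linarith)
  refine ⟨C * C, by positivity, fun T => ?_⟩
  obtain ⟨N, hN⟩ : ∃ N : ℕ, ∀ x ∈ T, x.1 < N ∧ x.2 < N := by
    refine ⟨(T.sup fun x => x.1 + x.2) + 1, fun x hx => ?_⟩
    have := Finset.le_sup (f := fun x : ℕ × ℕ => x.1 + x.2) hx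
    constructor <;> omega
  have hsub : T ⊆ range N ×ˢ range N := by
    intro x hx
    rw [mem_product, mem_range, mem_range]
    exact hN x hx
  refine (Finset.sum_le_sum_of_subset_of_nonneg hsub fun x _ _ => by positivity).trans ?_
  have h1 : ∑ x ∈ range N ×ˢ range N, (1 + (x.1 : ℝ) + x.2) ^ k * ((√2)⁻¹) ^ (x.1 + x.2) ≤
      ∑ x ∈ range N ×ˢ range N, (((x.1 : ℝ) + 1) ^ k * ((√2)⁻¹) ^ x.1) *
        (((x.2 : ℝ) + 1) ^ k * ((√2)⁻¹) ^ x.2) := by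
    refine Finset.sum_le_sum fun x _ => ?_
    have e : (((x.1 : ℝ) + 1) ^ k * ((√2)⁻¹) ^ x.1) * (((x.2 : ℝ) + 1) ^ k * ((√2)⁻¹) ^ x.2) =
        (((x.1 : ℝ) + 1) * ((x.2 : ℝ) + 1)) ^ k * ((√2)⁻¹) ^ (x.1 + x.2) := by
      rw [mul_pow, pow_add]; ring
    rw [e]
    refine mul_le_mul_of_nonneg_right (pow_le_pow_left₀ (by positivity) ?_ k) (by positivity)
    have h1 : (0 : ℝ) ≤ x.1 := Nat.cast_nonneg _
    have h2 : (0 : ℝ) ≤ x.2 := Nat.cast_nonneg _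
    nlinarith [mul_nonneg h1 h2]
  refine h1.trans ?_
  rw [Finset.sum_product' (range N) (range N) (fun a b => (((a : ℝ) + 1) ^ k * ((√2)⁻¹) ^ a) *
        (((b : ℝ) + 1) ^ k * ((√2)⁻¹) ^ b)), ← Finset.sum_mul_sum]
  have h2 : ∑ j ∈ range N, ((j : ℝ) + 1) ^ k * ((√2)⁻¹ : ℝ) ^ j ≤ C := by
    have := h 0 N
    rw [pow_zero, mul_one] at this
    rwa [← Nat.Ico_zero_eq_range]
  exact mul_le_mul h2 h2 (Finset.sum_nonneg fun j _ => by positivity) hC.le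

/-- a number lies in at most three windows -/
lemma card_windows (a x : ℕ) (V : Finset ℕ) :
    (V.filter fun v => 2 ^ (a + v) < 2 * x ∧ x < 2 ^ (a + v + 2)).card ≤ 3 := by
  rcases (V.filter fun v => 2 ^ (a + v) < 2 * x ∧ x < 2 ^ (a + v + 2)).eq_empty_or_nonempty
    with he | hne
  · rw [he, card_empty]; omega
  · set W := V.filter fun v => 2 ^ (a + v) < 2 * x ∧ x < 2 ^ (a + v + 2) with hW
    have hm := (mem_filter.1 (W.min'_mem hne)).2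
    have hsub : W ⊆ Icc (W.min' hne) (W.min' hne + 2) := by
      intro v hv
      rw [mem_Icc]
      refine ⟨W.min'_le v hv, ?_⟩
      have h1 := (mem_filter.1 hv).2.1
      have h2 : 2 ^ (a + v) < 2 ^ (a + W.min' hne + 3) := by
        refine lt_of_lt_of_le h1 ?_
        rw [pow_succ 2 (a + W.min' hne + 2)]
        have := hm.2.le
        omega
      have h3 := (Nat.pow_lt_pow_iff_right (by norm_num : 1 < 2)).1 h2
      omega
    refine (card_le_card hsub).trans (le_of_eq ?_)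
    rw [Nat.card_Icc]; omega

/-- Cauchy over windows: at most `m` windows per word -/
lemma sum_sqrt {ι : Type*} {M : ℕ} (V : Finset ι) {m : ℝ} (hm : 0 ≤ m) (f g : ι → ℕ → ℝ)
    (F G : ℕ → ℝ) (hf : ∀ v b, 0 ≤ f v b) (hg : ∀ v b, 0 ≤ g v b)
    (hF : ∀ b, b ∣ M → ∑ v ∈ V, f v b ≤ m * F b) (hG : ∀ b, b ∣ M → ∑ v ∈ V, g v b ≤ m * G b) :
    ∑ v ∈ V, √(Ex M (f v)) * √(Ex M (g v)) ≤ m * (√(Ex M F) * √(Ex M G)) := by
  have h1 := Real.sum_sqrt_mul_sqrt_le V (f := fun v => Ex M (f v)) (g := fun v => Ex M (g v))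
    (fun v => Ex_nonneg _ (hf v)) (fun v => Ex_nonneg _ (hg v))
  refine h1.trans ?_
  have h2 : ∑ v ∈ V, Ex M (f v) ≤ m * Ex M F := by
    rw [Ex_sum, ← Ex_mul_left]
    exact Ex_mono _ fun b hb => hF b hb
  have h3 : ∑ v ∈ V, Ex M (g v) ≤ m * Ex M G := by
    rw [Ex_sum, ← Ex_mul_left]
    exact Ex_mono _ fun b hb => hG b hb
  calc √(∑ v ∈ V, Ex M (f v)) * √(∑ v ∈ V, Ex M (g v)) ≤ √(m * Ex M F) * √(m * Ex M G) :=
        mul_le_mul (Real.sqrt_le_sqrt h2) (Real.sqrt_le_sqrt h3) (Real.sqrt_nonneg _)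
          (Real.sqrt_nonneg _)
    _ = (√m * √m) * (√(Ex M F) * √(Ex M G)) := by
        rw [Real.sqrt_mul hm, Real.sqrt_mul hm]; ring
    _ = _ := by rw [Real.mul_self_sqrt hm]

open Classical in
/-- **windows of the class `(a,a')`** : `b` in the window `v` iff
`2^(a+v) < 2 low y b`, `low y b < 2^(a+v+2)` -/
lemma sum_windows {M : ℕ} (y a a' : ℕ) (V : Finset ℕ) {f g : ℕ → ℝ} (hf : ∀ b, 0 ≤ f b)
    (hg : ∀ b, 0 ≤ g b) :
    ∑ v ∈ V,
      √(Ex M (fun b => if 2 ^ (a + v) < 2 * low y b ∧ low y b < 2 ^ (a + v + 2) then f b else 0)) *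
      √(Ex M (fun c => if 2 ^ (a' + v) < 2 * low y c ∧ low y c < 2 ^ (a' + v + 2) then g c
        else 0)) ≤ 3 * (√(Ex M f) * √(Ex M g)) := by
  have key : ∀ (a : ℕ) (f : ℕ → ℝ), (∀ b, 0 ≤ f b) → ∀ b : ℕ,
      ∑ v ∈ V, (if 2 ^ (a + v) < 2 * low y b ∧ low y b < 2 ^ (a + v + 2) then f b else 0) ≤
      3 * f b := by
    intro a f hf b
    rw [← Finset.sum_filter, Finset.sum_const, nsmul_eq_mul]
    refine mul_le_mul_of_nonneg_right ?_ (hf b)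
    exact_mod_cast card_windows a (low y b) V
  refine sum_sqrt V (by norm_num) _ _ f g (fun v b => ?_) (fun v b => ?_)
    (fun b _ => key a f hf b) (fun b _ => key a' g hg b)
  · split_ifs
    exacts [hf b, le_rfl]
  · split_ifs
    exacts [hg b, le_rfl]

/-- **`ClsOK` from the classes `(a, a')`** -/
theorem clsOK_of_classes {γ : ℝ} {R : Cls} (X0 k : ℕ) (H : Ev fun cp η A m0 =>
    ∃ C : ℝ, 0 ≤ C ∧
      ∀ (L : ℝ) (M : ℕ) (B : Finset ℕ) (F : FL M), Setup η L M B F →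
      ∃ (q : ℕ → ℕ → ℕ → ℕ → ℤ → Prop) (W : ℕ → ℕ → ℕ → ℕ → ℝ), (∀ a a' b c, 0 ≤ W a a' b c) ∧
      (∀ b ∈ B, ∀ c ∈ B, b ≠ c → ∀ h ∈ Lnk γ L b c,
        ¬ killedB (lamOf cp A m0 γ L M B F) b c h → R cp η A m0 L M B F b c h →
        ∃ a a', q a a' b c h) ∧
      (∀ a a', ∀ b ∈ B, ∀ c ∈ B, b ≠ c → ∀ h₁ ∈ Lnk γ L b c, ∀ h₂ ∈ Lnk γ L b c,
        ¬ killedB (lamOf cp A m0 γ L M B F) b c h₁ → ¬ killedB (lamOf cp A m0 γ L M B F) b c h₂ →
        q a a' b c h₁ → q a a' b c h₂ → h₁ = h₂) ∧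
      (∀ a a', ∀ b ∈ B, ∀ c ∈ B, b ≠ c → ∀ h ∈ Lnk γ L b c,
        ¬ killedB (lamOf cp A m0 γ L M B F) b c h → q a a' b c h →
        boostB M (lamOf cp A m0 γ L M B F) b c h ≤ W a a' b c * (offW F X0 b * offW F X0 c)) ∧
      (∀ a a', ∀ S S' : Finset ℕ, S ⊆ B → S' ⊆ B →
        L * ∑ b ∈ S, ∑ c ∈ S', kerW γ L M (lamOf cp A m0 γ L M B F) (q a a') (W a a') b c ≤
          C * ((1 + (a : ℝ) + a') ^ k * ((√2)⁻¹) ^ (a + a')) *
            √((L * ∑ b ∈ S, nu M b) * (L * ∑ c ∈ S', nu M c)))) : ClsOK γ R := by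
  obtain ⟨C0, hC0, hsum⟩ := sum_cls k
  refine clsOK_of_boxes (ι := ℕ × ℕ) X0 (H.mono ?_)
  rintro cp η A m0 ⟨C, hC, H⟩
  refine ⟨C * C0, by positivity, fun _ => True,
    fun x => C * ((1 + (x.1 : ℝ) + x.2) ^ k * ((√2)⁻¹) ^ (x.1 + x.2)),
    fun x => by positivity, fun T _ => ?_, fun L M B F hS => ?_⟩
  · rw [← Finset.mul_sum]
    exact mul_le_mul_of_nonneg_left (hsum T) hC
  · obtain ⟨q, W, hW, hcov, huniq, hboost, hset⟩ := H L M B F hS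
    refine ⟨fun x => q x.1 x.2, fun x => W x.1 x.2, fun x b c => hW _ _ b c, ?_, ?_, ?_, ?_⟩
    · intro b hb c hc hne h hh hk hR
      obtain ⟨a, a', h1⟩ := hcov b hb c hc hne h hh hk hR
      exact ⟨(a, a'), trivial, h1⟩
    · intro x _
      exact huniq x.1 x.2
    · intro x _
      exact hboost x.1 x.2
    · intro x _
      exact hset x.1 x.2

end Crest.Agent.R4C.ClsSumVx252
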