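import Crest.Agent.R4C.Core_251

/-!
# Row 4: the inductive predicate `Val` and the core theorem (helper251)
-/

set_option autoImplicit false

namespace Crest.Agent.R4C.Corex251

open Finset Crest.Agent.R4C.Basex935

/-- exact coefficient of the letters `v, v'` of one prime -/
noncomputable def cf (ρ L : ℝ) (p a v v' : ℕ) : ℝ :=
  ((p : ℝ) ^ (min v v')) ^ (2 - 2 * ρ) * (nup p a v * nup p a v') ^ (1 - ρ) *
    (lw L p v * lw L p v') ^ (-ρ)

/-- one-prime inequality: for all shares, either split or make `p` passive with a centre in `P` -/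
def Scal (ρ L e : ℝ) (p a : ℕ) (u : ℝ) (uc : ℕ → ℕ → ℝ) (P : Finset ℕ) (up : ℕ → ℝ) : Prop :=
  ∀ x y : ℕ → ℝ, (∀ v, 0 ≤ x v) → (∀ v, 0 ≤ y v) → ∑ v ∈ range (a + 1), x v = 1 →
    ∑ v ∈ range (a + 1), y v = 1 →
    (∑ v ∈ range (a + 1), ∑ v' ∈ range (a + 1), cf ρ L p a v v' * (x v * y v') ^ ρ * uc v v'
      ≤ (1 + e) * u) ∨
    (∃ v0 ∈ P, ∑ v ∈ (range (a + 1)).erase v0, ∑ v' ∈ (range (a + 1)).erase v0,
      cf ρ L p a v v' * (x v * y v') ^ ρ * uc v v' + up v0 ≤ (1 + e) * u)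

/-- `Val ρ θ Lam e M Z z0 K u`: `u` is an upper value of the state `(M, Z, z0, K)` -/
inductive Val (ρ θ : ℝ) (Lam e : ℕ → ℝ) : ℕ → Finset ℕ → (ℕ → ℕ) → (ℕ → ℕ → ℝ) → ℝ → Prop
  | base (M : ℕ) (Z : Finset ℕ) (z0 : ℕ → ℕ) (K : ℕ → ℕ → ℝ) (u d : ℝ)
      (hZ : M.primeFactors ⊆ Z) (hg : ∀ q ∈ M.primeFactors, z0 q ≤ M.factorization q)
      (hd : 0 ≤ d) (hdens : ∀ i k, dens M Z z0 K i k ≤ 4 ^ (i + k) / (Hc M z0 : ℝ) ^ 2 * d)
      (hdu : d ^ θ ≤ u) : Val ρ θ Lam e M Z z0 K u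
  | step (p a M1 : ℕ) (Z : Finset ℕ) (z0 : ℕ → ℕ) (K : ℕ → ℕ → ℝ) (u : ℝ)
      (hp : p.Prime) (hM1 : 0 < M1) (hpM : ¬ p ∣ M1) (hpZ : p ∉ Z) (ha : 0 < a)
      (uc : ℕ → ℕ → ℝ) (P : Finset ℕ) (up : ℕ → ℝ)
      (h1 : ∀ v ≤ a, ∀ v' ≤ a, Val ρ θ Lam e M1 Z z0 (slc p v v' K) (uc v v'))
      (h2 : ∀ v0 ∈ P, Val ρ θ Lam e (p ^ a * M1) (insert p Z) (Function.update z0 p v0) K (up v0))
      (h3 : Scal ρ (Lam p) (e p) p a u uc P up) :
      Val ρ θ Lam e (p ^ a * M1) Z z0 K u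

/-- algebra of one pair of letters -/
lemma cf_alg {ρ L : ℝ} (hL : 0 ≤ L) {p : ℕ} (hp : p.Prime) (a v v' : ℕ) {X e e' : ℝ}
    (hX : 0 < X) (he : 0 ≤ e) (he' : 0 ≤ e') :
    (p : ℝ) ^ (min v v') * nup p a v * nup p a v' *
      ((X / (p : ℝ) ^ (min v v')) ^ (2 * ρ - 1) * (e * e') ^ ρ) =
    X ^ (2 * ρ - 1) * (cf ρ L p a v v' *
      ((nup p a v * lw L p v * e) * (nup p a v' * lw L p v' * e')) ^ ρ) := by
  have hp0 : (0:ℝ) < p := by exact_mod_cast hp.pos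
  have hnp : ∀ v, 0 < nup p a v := by
    intro v
    have h1 : (1 : ℝ) / p < 1 := by
      rw [div_lt_one hp0]; exact_mod_cast hp.one_lt
    unfold nup
    split_ifs
    · have : (0 : ℝ) < 1 - 1 / p := by linarith
      positivity
    · positivity
  set P : ℝ := (p : ℝ) ^ (min v v') with hP
  have hP0 : 0 < P := by positivity
  set n := nup p a v * nup p a v' with hn
  have hn0 : 0 < n := mul_pos (hnp v) (hnp v')
  set l := lw L p v * lw L p v' with hl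
  have hl0 : 0 < l := mul_pos (lw_pos hL p v) (lw_pos hL p v')
  have e1 : (nup p a v * lw L p v * e) * (nup p a v' * lw L p v' * e') = n * l * (e * e') := by
    rw [hn, hl]; ring
  rw [e1]
  unfold cf
  rw [← hP, ← hn, ← hl]
  have hee : 0 ≤ e * e' := mul_nonneg he he'
  rw [Real.mul_rpow (by positivity) hee, Real.mul_rpow hn0.le hl0.le,
    Real.div_rpow hX.le hP0.le]
  have h1 : l ^ (-ρ) * l ^ ρ = 1 := by
    rw [← Real.rpow_add hl0]; simp
  have h2 : n ^ (1 - ρ) * n ^ ρ = n := by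
    rw [← Real.rpow_add hn0]; simp
  have h3 : P ^ (2 - 2 * ρ) * P ^ (2 * ρ - 1) = P := by
    rw [← Real.rpow_add hP0]
    rw [show 2 - 2 * ρ + (2 * ρ - 1) = 1 by ring, Real.rpow_one]
  have hPp : 0 < P ^ (2 * ρ - 1) := Real.rpow_pos_of_pos hP0 _
  have h4 : P / P ^ (2 * ρ - 1) = P ^ (2 - 2 * ρ) := by
    rw [div_eq_iff hPp.ne']; exact h3.symm
  calc P * nup p a v * nup p a v' * (X ^ (2 * ρ - 1) / P ^ (2 * ρ - 1) * (e * e') ^ ρ)
      = (P / P ^ (2 * ρ - 1)) * n * X ^ (2 * ρ - 1) * (e * e') ^ ρ := by rw [hn]; ring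
    _ = P ^ (2 - 2 * ρ) * (n ^ (1 - ρ) * n ^ ρ) * X ^ (2 * ρ - 1) * (e * e') ^ ρ := by
        rw [h4, h2]
    _ = P ^ (2 - 2 * ρ) * (n ^ (1 - ρ) * n ^ ρ) * X ^ (2 * ρ - 1) * (e * e') ^ ρ *
          (l ^ (-ρ) * l ^ ρ) := by rw [h1, mul_one]
    _ = _ := by ring

lemma slf_mem {p v : ℕ} {f : ℕ → ℝ} (h0 : ∀ b, 0 ≤ f b) (h1 : ∀ b, f b ≤ 1) :
    (∀ b, 0 ≤ slf p v f b) ∧ (∀ b, slf p v f b ≤ 1) := ⟨fun _ => h0 _, fun _ => h1 _⟩

lemma unproc_split {p : ℕ} (hp : p.Prime) {a : ℕ} (ha : 0 < a) {M1 : ℕ} (hM : 0 < M1)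
    (h : ¬ p ∣ M1) {Z : Finset ℕ} (hpZ : p ∉ Z) :
    (p ^ a * M1).primeFactors \ Z = insert p (M1.primeFactors \ Z) ∧
      p ∉ M1.primeFactors \ Z ∧
      (p ^ a * M1).primeFactors \ (insert p Z) = M1.primeFactors \ Z := by
  have e : (p ^ a * M1).primeFactors = insert p M1.primeFactors := by
    rw [Nat.primeFactors_mul (pow_ne_zero _ hp.ne_zero) hM.ne', Nat.primeFactors_prime_pow ha.ne' hp]
    rfl
  have hn : p ∉ M1.primeFactors := fun hc => h (Nat.dvd_of_mem_primeFactors hc)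
  refine ⟨?_, ?_, ?_⟩
  · rw [e]; ext q; simp only [mem_sdiff, mem_insert]
    constructor
    · rintro ⟨h1 | h1, h2⟩
      · exact Or.inl h1
      · exact Or.inr ⟨h1, h2⟩
    · rintro (h1 | ⟨h1, h2⟩)
      · exact ⟨Or.inl h1, h1 ▸ hpZ⟩
      · exact ⟨Or.inr h1, h2⟩
  · intro hc; exact hn (mem_sdiff.1 hc).1
  · rw [e]; ext q; simp only [mem_sdiff, mem_insert]
    constructor
    · rintro ⟨h1 | h1, h2⟩
      · exact absurd (Or.inl h1) h2
      · exact ⟨h1, fun h3 => h2 (Or.inr h3)⟩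
    · rintro ⟨h1, h2⟩
      refine ⟨Or.inr h1, ?_⟩
      rintro (h3 | h3)
      · exact hn (h3 ▸ h1)
      · exact h2 h3

set_option maxHeartbeats 1000000 in
/-- **THE CORE THEOREM** -/
theorem core {ρ θ : ℝ} (hρ : 1/2 < ρ) (hθ : 0 < θ) (hρθ : ρ + θ ≤ 1) {Lam e : ℕ → ℝ}
    (hL : ∀ q, 0 ≤ Lam q) (he : ∀ q, 0 ≤ e q) {M : ℕ} {Z : Finset ℕ} {z0 : ℕ → ℕ}
    {K : ℕ → ℕ → ℝ} {u : ℝ} (hV : Val ρ θ Lam e M Z z0 K u) :
    0 < M → (∀ b c, 0 ≤ K b c) → (∀ b c, K b c ≤ 1) → ∀ X : ℝ, 0 < X → ∀ f f' : ℕ → ℝ,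
      (∀ b, 0 ≤ f b) → (∀ b, f b ≤ 1) → (∀ b, 0 ≤ f' b) → (∀ b, f' b ≤ 1) →
      S M Z z0 X K f f' ≤ 96 * (∏ q ∈ M.primeFactors \ Z, (1 + e q)) *
        (X ^ (2 * ρ - 1) * (E Lam M f * E Lam M f') ^ ρ * u) := by
  induction hV with
  | base M Z z0 K u d hZ hg hd hdens hdu =>
    intro hM hK0 hK1 X hX f f' hf0 hf1 hf0' hf1'
    have hu : 0 ≤ u := (Real.rpow_nonneg hd θ).trans hdu
    have hemp : M.primeFactors \ Z = ∅ := sdiff_eq_empty_iff_subset.2 hZ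
    rw [hemp, prod_empty, mul_one]
    refine (base hρ hθ hρθ hM hZ hg hK0 hK1 hd hdens hdu hX hf0 hf1 hf0' hf1').trans ?_
    have h1 := mass_le_E hL M hf0
    have h2 := mass_le_E hL M hf0'
    have h3 : 0 ≤ ∑ b ∈ M.divisors, nu M b * f b :=
      sum_nonneg fun b _ => mul_nonneg (nu_nonneg _ _) (hf0 b)
    have h4 : 0 ≤ ∑ b ∈ M.divisors, nu M b * f' b :=
      sum_nonneg fun b _ => mul_nonneg (nu_nonneg _ _) (hf0' b)
    have h5 : ((∑ b ∈ M.divisors, nu M b * f b) * (∑ b ∈ M.divisors, nu M b * f' b)) ^ ρ ≤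
        (E Lam M f * E Lam M f') ^ ρ :=
      Real.rpow_le_rpow (mul_nonneg h3 h4) (mul_le_mul h1 h2 h4 (h3.trans h1)) (by linarith)
    have h6 := Real.rpow_nonneg hX.le (2 * ρ - 1)
    apply mul_le_mul_of_nonneg_left _ (by norm_num : (0:ℝ) ≤ 96)
    exact mul_le_mul_of_nonneg_right (mul_le_mul_of_nonneg_left h5 h6) hu
  | step p a M1 Z z0 K u hp hM1 hpM hpZ ha uc P up h1 h2 h3 ih1 ih2 =>
    intro hM hK0 hK1 X hX f f' hf0 hf1 hf0' hf1'
    obtain ⟨u1, u2, u3⟩ := unproc_split hp ha hM1 hpM hpZ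
    set Pq := ∏ q ∈ M1.primeFactors \ Z, (1 + e q) with hPq
    have hPq0 : 0 ≤ Pq := prod_nonneg fun q _ => by have := he q; linarith
    rw [u1, prod_insert u2]
    have hρ0 : 0 < ρ := by linarith
    have hp0 : (0:ℝ) < p := by exact_mod_cast hp.pos
    have hnp : ∀ v, 0 ≤ nup p a v := fun v => nup_nonneg hp.pos a v
    set A : ℕ → ℝ := fun v => nup p a v * lw (Lam p) p v * E Lam M1 (slf p v f) with hA
    set A' : ℕ → ℝ := fun v => nup p a v * lw (Lam p) p v * E Lam M1 (slf p v f') with hA'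
    have hA0 : ∀ v, 0 ≤ A v := fun v => mul_nonneg (mul_nonneg (hnp v) (lw_pos (hL p) p v).le)
      (E_nonneg hL M1 (slf_mem hf0 hf1).1)
    have hA0' : ∀ v, 0 ≤ A' v := fun v => mul_nonneg (mul_nonneg (hnp v) (lw_pos (hL p) p v).le)
      (E_nonneg hL M1 (slf_mem hf0' hf1').1)
    have eA : E Lam (p ^ a * M1) f = ∑ v ∈ range (a + 1), A v := E_split Lam hp a hM1 hpM f
    have eA' : E Lam (p ^ a * M1) f' = ∑ v ∈ range (a + 1), A' v := E_split Lam hp a hM1 hpM f'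
    have hXη : 0 ≤ X ^ (2 * ρ - 1) := Real.rpow_nonneg hX.le _
    -- one pair of letters
    have hpair : ∀ v ≤ a, ∀ v' ≤ a, (p : ℝ) ^ (min v v') * nup p a v * nup p a v' *
        S M1 Z z0 (X / (p : ℝ) ^ (min v v')) (slc p v v' K) (slf p v f) (slf p v' f') ≤
        96 * Pq * (X ^ (2 * ρ - 1) * (cf ρ (Lam p) p a v v' * (A v * A' v') ^ ρ * uc v v')) := by
      intro v hv v' hv'
      have hs := ih1 v hv v' hv' hM1 (fun b c => hK0 _ _) (fun b c => hK1 _ _)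
        (X / (p : ℝ) ^ (min v v')) (by positivity) (slf p v f) (slf p v' f')
        (slf_mem hf0 hf1).1 (slf_mem hf0 hf1).2 (slf_mem hf0' hf1').1 (slf_mem hf0' hf1').2
      have hal := cf_alg (ρ := ρ) (hL p) hp a v v' hX (E_nonneg hL M1 (slf_mem (p := p) (v := v) hf0 hf1).1)
        (E_nonneg hL M1 (slf_mem (p := p) (v := v') hf0' hf1').1)
      calc (p : ℝ) ^ (min v v') * nup p a v * nup p a v' *
            S M1 Z z0 (X / (p : ℝ) ^ (min v v')) (slc p v v' K) (slf p v f) (slf p v' f')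
          ≤ (p : ℝ) ^ (min v v') * nup p a v * nup p a v' *
            (96 * Pq * ((X / (p : ℝ) ^ (min v v')) ^ (2 * ρ - 1) *
              (E Lam M1 (slf p v f) * E Lam M1 (slf p v' f')) ^ ρ * uc v v')) := by
            apply mul_le_mul_of_nonneg_left hs
            have := hnp v; have := hnp v'
            positivity
        _ = 96 * Pq * (((p : ℝ) ^ (min v v') * nup p a v * nup p a v' *
            ((X / (p : ℝ) ^ (min v v')) ^ (2 * ρ - 1) *
              (E Lam M1 (slf p v f) * E Lam M1 (slf p v' f')) ^ ρ)) * uc v v') := by ring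
        _ = 96 * Pq * ((X ^ (2 * ρ - 1) * (cf ρ (Lam p) p a v v' * (A v * A' v') ^ ρ)) *
              uc v v') := by rw [hal]
        _ = _ := by ring
    -- degenerate case
    set SA := ∑ v ∈ range (a + 1), A v with hSA
    set SA' := ∑ v ∈ range (a + 1), A' v with hSA'
    have hSA0 : 0 ≤ SA := sum_nonneg fun v _ => hA0 v
    have hSA0' : 0 ≤ SA' := sum_nonneg fun v _ => hA0' v
    rw [eA, eA']
    by_cases hdeg : SA = 0 ∨ SA' = 0
    · have hz : (SA * SA') ^ ρ = 0 := by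
        rcases hdeg with h | h
        · rw [h, zero_mul, Real.zero_rpow hρ0.ne']
        · rw [h, mul_zero, Real.zero_rpow hρ0.ne']
      rw [hz]
      rw [S_split hp a hM1 hpM hpZ]
      have hall : ∀ v ∈ range (a + 1), ∀ v' ∈ range (a + 1), (A v * A' v') ^ ρ = 0 := by
        intro v hv v' hv'
        have : A v * A' v' = 0 := by
          rcases hdeg with h | h
          · have := (sum_eq_zero_iff_of_nonneg (fun v _ => hA0 v)).1 h v hv
            rw [this, zero_mul]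
          · have := (sum_eq_zero_iff_of_nonneg (fun v _ => hA0' v)).1 h v' hv'
            rw [this, mul_zero]
        rw [this, Real.zero_rpow hρ0.ne']
      calc _ ≤ ∑ v ∈ range (a + 1), ∑ v' ∈ range (a + 1),
            96 * Pq * (X ^ (2 * ρ - 1) * (cf ρ (Lam p) p a v v' * (A v * A' v') ^ ρ * uc v v')) :=
            sum_le_sum fun v hv => sum_le_sum fun v' hv' =>
              hpair v (by rw [mem_range] at hv; omega) v' (by rw [mem_range] at hv'; omega)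
        _ = 0 := by
            apply sum_eq_zero; intro v hv
            apply sum_eq_zero; intro v' hv'
            rw [hall v hv v' hv']; ring
        _ ≤ _ := by simp
    push Not at hdeg
    have hSA1 : 0 < SA := lt_of_le_of_ne hSA0 (Ne.symm hdeg.1)
    have hSA1' : 0 < SA' := lt_of_le_of_ne hSA0' (Ne.symm hdeg.2)
    have hm0 : 0 < (SA * SA') ^ ρ := Real.rpow_pos_of_pos (mul_pos hSA1 hSA1') _
    have hnorm : ∀ v v', (A v * A' v') ^ ρ = (SA * SA') ^ ρ * ((A v / SA) * (A' v' / SA')) ^ ρ := by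
      intro v v'
      rw [← Real.mul_rpow (mul_pos hSA1 hSA1').le
        (mul_nonneg (div_nonneg (hA0 v) hSA1.le) (div_nonneg (hA0' v') hSA1'.le))]
      congr 1
      field_simp
    have hsc := h3 (fun v => A v / SA) (fun v => A' v / SA') (fun v => div_nonneg (hA0 v) hSA1.le)
      (fun v => div_nonneg (hA0' v) hSA1'.le) (by rw [← sum_div, ← hSA, div_self hSA1.ne'])
      (by rw [← sum_div, ← hSA', div_self hSA1'.ne'])
    have hcoef : 0 ≤ 96 * Pq * (X ^ (2 * ρ - 1) * (SA * SA') ^ ρ) := by positivity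
    -- general sum over letters
    have hletters : ∀ s ⊆ range (a + 1), ∑ v ∈ s, ∑ v' ∈ s,
        (p : ℝ) ^ (min v v') * nup p a v * nup p a v' *
        S M1 Z z0 (X / (p : ℝ) ^ (min v v')) (slc p v v' K) (slf p v f) (slf p v' f') ≤
        96 * Pq * (X ^ (2 * ρ - 1) * (SA * SA') ^ ρ) *
          ∑ v ∈ s, ∑ v' ∈ s, cf ρ (Lam p) p a v v' * ((A v / SA) * (A' v' / SA')) ^ ρ * uc v v' := by
      intro s hs
      rw [mul_sum]
      apply sum_le_sum
      intro v hv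
      rw [mul_sum]
      apply sum_le_sum
      intro v' hv'
      have hv1 := hs hv
      have hv2 := hs hv'
      rw [mem_range] at hv1 hv2
      refine (hpair v (by omega) v' (by omega)).trans (le_of_eq ?_)
      rw [hnorm]; ring
    rcases hsc with hsc | ⟨v0, hv0, hsc⟩
    · rw [S_split hp a hM1 hpM hpZ]
      refine (hletters _ subset_rfl).trans ?_
      refine (mul_le_mul_of_nonneg_left hsc hcoef).trans (le_of_eq ?_)
      ring
    · rw [S_pass hp a hM1 hpM hpZ z0 X K f f' v0]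
      have hpas := ih2 v0 hv0 hM hK0 hK1 X hX f f' hf0 hf1 hf0' hf1'
      rw [u3, ← hPq, eA, eA'] at hpas
      have hrem := hletters ((range (a + 1)).erase v0) (erase_subset _ _)
      calc _ ≤ 96 * Pq * (X ^ (2 * ρ - 1) * (SA * SA') ^ ρ * up v0) +
            96 * Pq * (X ^ (2 * ρ - 1) * (SA * SA') ^ ρ) *
            ∑ v ∈ (range (a + 1)).erase v0, ∑ v' ∈ (range (a + 1)).erase v0,
              cf ρ (Lam p) p a v v' * ((A v / SA) * (A' v' / SA')) ^ ρ * uc v v' :=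
            add_le_add hpas hrem
        _ = 96 * Pq * (X ^ (2 * ρ - 1) * (SA * SA') ^ ρ) *
            (∑ v ∈ (range (a + 1)).erase v0, ∑ v' ∈ (range (a + 1)).erase v0,
              cf ρ (Lam p) p a v v' * ((A v / SA) * (A' v' / SA')) ^ ρ * uc v v' + up v0) := by ring
        _ ≤ 96 * Pq * (X ^ (2 * ρ - 1) * (SA * SA') ^ ρ) * ((1 + e p) * u) :=
            mul_le_mul_of_nonneg_left hsc hcoef
        _ = _ := by ring

end Crest.Agent.R4C.Corex251
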