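import Crest.Agent.R4C.ScalD_251

/-!
# Row 4: 2459 for general `M`, with `Q` (always active primes), helper251

`Gm Q M Z z0 K D`: game value of the kernel `K` is `≤ D`.
`hvw_game`: energy at exact scale `X` is `≤ C X^(2ρ-1) (E_Q f * E_Q f')^ρ D^θ`.
-/

set_option autoImplicit false

namespace Crest.Agent.R4C.Corex251

open Finset Crest.Agent.R4C.Basex935

/-- `Gm Q M Z z0 K D` : the value of the relation game is at most `D` -/
inductive Gm (Q : ℕ → Prop) : ℕ → Finset ℕ → (ℕ → ℕ) → (ℕ → ℕ → ℝ) → ℝ → Prop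
  | base (M : ℕ) (Z : Finset ℕ) (z0 : ℕ → ℕ) (K : ℕ → ℕ → ℝ) (D : ℝ)
      (hZ : M.primeFactors ⊆ Z) (hg : ∀ q ∈ M.primeFactors, z0 q ≤ M.factorization q)
      (hD : 0 ≤ D) (hdens : ∀ i k, dens M Z z0 K i k ≤ 4 ^ (i + k) / (Hc M z0 : ℝ) ^ 2 * D) :
      Gm Q M Z z0 K D
  | step (p a M1 : ℕ) (Z : Finset ℕ) (z0 : ℕ → ℕ) (K : ℕ → ℕ → ℝ) (D D0 : ℝ) (Dp Dm : ℕ → ℝ)
      (hp : p.Prime) (hM1 : 0 < M1) (hpM : ¬ p ∣ M1) (hpZ : p ∉ Z) (ha : 0 < a)
      (hD : 0 ≤ D) (hD0 : 0 ≤ D0) (hDp : ∀ j, 0 ≤ Dp j) (hDm : ∀ j, 0 ≤ Dm j)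
      (h1 : ∀ v ≤ a, ∀ v' ≤ a, Gm Q M1 Z z0 (slc p v v' K) (jv D0 Dp Dm v v'))
      (h2 : ¬ Q p → ∀ v0, 1 ≤ v0 → v0 ≤ a →
        Gm Q (p ^ a * M1) (insert p Z) (Function.update z0 p v0) K D)
      (havg : avg p a D0 Dp Dm ≤ D) : Gm Q (p ^ a * M1) Z z0 K D

lemma Gm.mono {Q : ℕ → Prop} {M : ℕ} {Z : Finset ℕ} {z0 : ℕ → ℕ} {K : ℕ → ℕ → ℝ} {D : ℝ}
    (h : Gm Q M Z z0 K D) : ∀ {D' : ℝ}, D ≤ D' → Gm Q M Z z0 K D' := by
  induction h with
  | base M Z z0 K D hZ hg hD hdens =>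
    intro D' hDD
    refine Gm.base M Z z0 K D' hZ hg (hD.trans hDD) fun i k => (hdens i k).trans ?_
    exact mul_le_mul_of_nonneg_left hDD (by positivity)
  | step p a M1 Z z0 K D D0 Dp Dm hp hM1 hpM hpZ ha hD hD0 hDp hDm h1 h2 havg ih1 ih2 =>
    intro D' hDD
    exact Gm.step p a M1 Z z0 K D' D0 Dp Dm hp hM1 hpM hpZ ha (hD.trans hDD) hD0 hDp hDm h1
      (fun hq v0 hv1 hv2 => ih2 hq v0 hv1 hv2 hDD) (havg.trans hDD)

/-- weights -/
noncomputable def LamQ (Q : ℕ → Prop) [DecidablePred Q] (LL : ℝ) : ℕ → ℝ :=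
  fun q => if Q q then LL else 0

theorem val_of_gm {ρ θ C LL : ℝ} (hLL : 0 ≤ LL) (Q : ℕ → Prop) [DecidablePred Q]
    (H : ∀ (p : ℕ), p.Prime → ∀ a : ℕ, 0 < a → ∀ L : ℝ, 0 ≤ L →
      ∀ (D D0 : ℝ) (Dp Dm : ℕ → ℝ), 0 ≤ D → 0 ≤ D0 → (∀ j, 0 ≤ Dp j) → (∀ j, 0 ≤ Dm j) →
      avg p a D0 Dp Dm ≤ D → ∀ (P : Finset ℕ) (up : ℕ → ℝ),
      (LL ≤ L ∨ (∀ v0, 1 ≤ v0 → v0 ≤ a → v0 ∈ P ∧ up v0 ≤ D ^ θ)) →
      Scal ρ L (C * (1 / (p : ℝ)) ^ (2 * ρ)) p a (D ^ θ) (fun v v' => (jv D0 Dp Dm v v') ^ θ)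
        P up)
    {M : ℕ} {Z : Finset ℕ} {z0 : ℕ → ℕ} {K : ℕ → ℕ → ℝ} {D : ℝ} (h : Gm Q M Z z0 K D) :
    Val ρ θ (LamQ Q LL) (fun q => C * (1 / (q : ℝ)) ^ (2 * ρ)) M Z z0 K (D ^ θ) := by
  induction h with
  | base M Z z0 K D hZ hg hD hdens =>
    exact Val.base M Z z0 K (D ^ θ) D hZ hg hD hdens le_rfl
  | step p a M1 Z z0 K D D0 Dp Dm hp hM1 hpM hpZ ha hD hD0 hDp hDm h1 h2 havg ih1 ih2 =>
    by_cases hQ : Q p
    · refine Val.step p a M1 Z z0 K (D ^ θ) hp hM1 hpM hpZ ha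
        (fun v v' => (jv D0 Dp Dm v v') ^ θ) ∅ (fun _ => D ^ θ) ih1 (by simp) ?_
      have e : LamQ Q LL p = LL := if_pos hQ
      rw [e]
      exact H p hp a ha LL hLL D D0 Dp Dm hD hD0 hDp hDm havg ∅ _ (Or.inl le_rfl)
    · refine Val.step p a M1 Z z0 K (D ^ θ) hp hM1 hpM hpZ ha
        (fun v v' => (jv D0 Dp Dm v v') ^ θ) (Icc 1 a) (fun _ => D ^ θ) ih1 ?_ ?_
      · intro v0 hv0
        rw [mem_Icc] at hv0
        exact ih2 hQ v0 hv0.1 hv0.2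
      · have e : LamQ Q LL p = 0 := if_neg hQ
        rw [e]
        exact H p hp a ha 0 le_rfl D D0 Dp Dm hD hD0 hDp hDm havg (Icc 1 a) _
          (Or.inr fun v0 hv1 hv2 => ⟨mem_Icc.2 ⟨hv1, hv2⟩, le_rfl⟩)

/-- bounded product -/
lemma prod_bdd {ρ C : ℝ} (hρ : 1/2 < ρ) (hC : 0 ≤ C) :
    ∃ B : ℝ, 0 < B ∧ ∀ s : Finset ℕ, ∏ q ∈ s, (1 + C * (1 / (q : ℝ)) ^ (2 * ρ)) ≤ B := by
  have hs : Summable (fun n : ℕ => (1 / (n : ℝ)) ^ (2 * ρ)) := by
    have h1 := Real.summable_one_div_nat_rpow.2 (by linarith : 1 < 2 * ρ)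
    refine h1.congr fun n => ?_
    rw [Real.div_rpow zero_le_one (Nat.cast_nonneg n), Real.one_rpow]
  refine ⟨Real.exp (C * ∑' n : ℕ, (1 / (n : ℝ)) ^ (2 * ρ)), Real.exp_pos _, fun s => ?_⟩
  have hnn : ∀ n : ℕ, 0 ≤ (1 / (n : ℝ)) ^ (2 * ρ) := fun n => Real.rpow_nonneg (by positivity) _
  calc ∏ q ∈ s, (1 + C * (1 / (q : ℝ)) ^ (2 * ρ))
      ≤ ∏ q ∈ s, Real.exp (C * (1 / (q : ℝ)) ^ (2 * ρ)) := by
        apply prod_le_prod
        · intro q _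
          have := hnn q
          positivity
        · intro q _
          have := Real.add_one_le_exp (C * (1 / (q : ℝ)) ^ (2 * ρ))
          linarith
    _ = Real.exp (C * ∑ q ∈ s, (1 / (q : ℝ)) ^ (2 * ρ)) := by
        rw [← Real.exp_sum, mul_sum]
    _ ≤ _ := by
        apply Real.exp_le_exp.2
        exact mul_le_mul_of_nonneg_left (hs.sum_le_tsum _ fun n _ => hnn n) hC

/-- **2459 FOR GENERAL `M`, WITH `Q`.** -/
theorem hvw_game {ρ θ : ℝ} (hρ : 1/2 < ρ) (hθ : 0 < θ) (hρθ : ρ + θ < 1) :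
    ∃ C LL : ℝ, 0 < C ∧ 0 ≤ LL ∧ ∀ (Q : ℕ → Prop) [DecidablePred Q] (M : ℕ), 0 < M →
      ∀ (z0 : ℕ → ℕ) (K : ℕ → ℕ → ℝ), (∀ b c, 0 ≤ K b c) → (∀ b c, K b c ≤ 1) →
      ∀ D : ℝ, Gm Q M ∅ z0 K D → ∀ X : ℝ, 0 < X → ∀ f f' : ℕ → ℝ,
      (∀ b, 0 ≤ f b) → (∀ b, f b ≤ 1) → (∀ b, 0 ≤ f' b) → (∀ b, f' b ≤ 1) →
      S M ∅ z0 X K f f' ≤
        C * (X ^ (2 * ρ - 1) * (E (LamQ Q LL) M f * E (LamQ Q LL) M f') ^ ρ * D ^ θ) := by
  obtain ⟨C, LL, hC, hLL, H⟩ := scal_game hρ hθ hρθ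
  obtain ⟨B, hB, hBs⟩ := prod_bdd hρ hC
  refine ⟨96 * B, LL, by positivity, hLL, ?_⟩
  intro Q _ M hM z0 K hK0 hK1 D hG X hX f f' hf0 hf1 hf0' hf1'
  have hLQ : ∀ q, 0 ≤ LamQ Q LL q := fun q => by unfold LamQ; split_ifs; exacts [hLL, le_rfl]
  have he : ∀ q : ℕ, 0 ≤ C * (1 / (q : ℝ)) ^ (2 * ρ) := fun q =>
    mul_nonneg hC (Real.rpow_nonneg (by positivity) _)
  have hV := val_of_gm (ρ := ρ) (θ := θ) hLL Q H hG
  have hc := core hρ hθ hρθ.le hLQ he hV hM hK0 hK1 X hX f f' hf0 hf1 hf0' hf1'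
  refine hc.trans ?_
  have hD0 : 0 ≤ D := by
    cases hG with
    | base _ _ _ _ _ _ _ hD _ => exact hD
    | step _ _ _ _ _ _ _ _ _ _ _ _ _ _ _ hD _ _ _ _ _ _ => exact hD
  have hR : 0 ≤ X ^ (2 * ρ - 1) * (E (LamQ Q LL) M f * E (LamQ Q LL) M f') ^ ρ * D ^ θ := by
    have h1 := E_nonneg hLQ M hf0
    have h2 := E_nonneg hLQ M hf0'
    have := Real.rpow_nonneg (mul_nonneg h1 h2) ρ
    have := Real.rpow_nonneg hX.le (2 * ρ - 1)
    have := Real.rpow_nonneg hD0 θ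
    positivity
  apply mul_le_mul_of_nonneg_right _ hR
  exact mul_le_mul_of_nonneg_left (hBs _) (by norm_num)

/-- average of constants -/
lemma avg_const {p : ℕ} (hp : p.Prime) (a : ℕ) {c : ℝ} (hc : 0 ≤ c) :
    avg p a c (fun _ => c) (fun _ => c) ≤ c := by
  obtain ⟨hw0, hw1⟩ := w_bounds hp
  unfold avg kap0
  set w : ℝ := 1 / (p : ℝ) with hw
  have hgeo : ∑ j ∈ Icc 1 a, w ^ j ≤ w / (1 - w) := by
    have e : Icc 1 a = (range a).image (fun j => j + 1) := by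
      ext j; simp only [mem_Icc, mem_image, mem_range]
      constructor
      · rintro ⟨h1, h2⟩; exact ⟨j - 1, by omega, by omega⟩
      · rintro ⟨i, h1, rfl⟩; omega
    rw [e, sum_image (fun i _ j _ h => by omega)]
    calc ∑ j ∈ range a, w ^ (j + 1) = w * ∑ j ∈ range a, w ^ j := by
          rw [mul_sum]; exact sum_congr rfl fun j _ => by rw [pow_succ, mul_comm]
      _ ≤ w * ∑' j, w ^ j := by
          apply mul_le_mul_of_nonneg_left _ hw0.le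
          exact (summable_geometric_of_lt_one hw0.le (by linarith)).sum_le_tsum _
            (fun j _ => pow_nonneg hw0.le j)
      _ = w / (1 - w) := by rw [tsum_geometric_of_lt_one hw0.le (by linarith)]; rfl
  have e1 : ∑ j ∈ Icc 1 a, (1 - w) / (1 + w) * w ^ j * (c + c) =
      (1 - w) / (1 + w) * (2 * c) * ∑ j ∈ Icc 1 a, w ^ j := by
    rw [mul_sum]; exact sum_congr rfl fun j _ => by ring
  rw [e1]
  have h1w : 0 < 1 - w := by linarith
  have h2w : 0 < 1 + w := by linarith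
  have hk : 0 ≤ (1 - w) / (1 + w) * (2 * c) := by positivity
  calc (1 - w) / (1 + w) * c + (1 - w) / (1 + w) * (2 * c) * ∑ j ∈ Icc 1 a, w ^ j
      ≤ (1 - w) / (1 + w) * c + (1 - w) / (1 + w) * (2 * c) * (w / (1 - w)) := by
        have := mul_le_mul_of_nonneg_left hgeo hk
        linarith
    _ = c := by field_simp; ring

/-- trivial value: every kernel `≤ 1` has value `≤ 4` -/
theorem gm_four (Q : ℕ → Prop) : ∀ (n M : ℕ) (Z : Finset ℕ) (z0 : ℕ → ℕ) (K : ℕ → ℕ → ℝ),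
    (M.primeFactors \ Z).card = n → 0 < M →
    (∀ q ∈ M.primeFactors, q ∈ Z → z0 q ≤ M.factorization q) → (∀ b c, 0 ≤ K b c) →
    (∀ b c, K b c ≤ 1) → Gm Q M Z z0 K 4 := by
  classical
  intro n
  induction n with
  | zero =>
    intro M Z z0 K hcard hM hg hK0 hK1
    have hZ : M.primeFactors ⊆ Z := by
      rw [card_eq_zero, sdiff_eq_empty_iff_subset] at hcard; exact hcard
    have hg' : ∀ q ∈ M.primeFactors, z0 q ≤ M.factorization q := fun q hq => hg q hq (hZ hq)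
    refine Gm.base M Z z0 K 4 hZ hg' (by norm_num) fun i k => ?_
    have hH : (0 : ℝ) < Hc M z0 := by exact_mod_cast Hc_pos M z0
    calc dens M Z z0 K i k ≤ ∑ b ∈ cls M z0 i, ∑ c ∈ cls M z0 k, nu M b * nu M c := by
          unfold dens
          refine sum_le_sum fun b _ => sum_le_sum fun c _ => ?_
          have := nu_nonneg M b; have := nu_nonneg M c
          split_ifs
          · calc nu M b * nu M c * K b c ≤ nu M b * nu M c * 1 :=
                mul_le_mul_of_nonneg_left (hK1 b c) (by positivity)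
              _ = _ := mul_one _
          · positivity
      _ = (∑ b ∈ cls M z0 i, nu M b) * (∑ c ∈ cls M z0 k, nu M c) := by rw [sum_mul_sum]
      _ ≤ (2 * 4 ^ i / (Hc M z0 : ℝ)) * (2 * 4 ^ k / (Hc M z0 : ℝ)) :=
          mul_le_mul (mass_cls hM hg' i) (mass_cls hM hg' k)
            (sum_nonneg fun c _ => nu_nonneg _ _) (by positivity)
      _ = 4 ^ (i + k) / (Hc M z0 : ℝ) ^ 2 * 4 := by rw [pow_add]; ring
  | succ n ih =>
    intro M Z z0 K hcard hM hg hK0 hK1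
    obtain ⟨p, hpm⟩ := card_pos.1 (by rw [hcard]; omega : 0 < (M.primeFactors \ Z).card)
    rw [mem_sdiff] at hpm
    obtain ⟨hpM, hpZ⟩ := hpm
    have hp := Nat.prime_of_mem_primeFactors hpM
    have hpd := Nat.dvd_of_mem_primeFactors hpM
    obtain ⟨a, M1, hnd, he⟩ := Nat.exists_eq_pow_mul_and_not_dvd hM.ne' p hp.ne_one
    have hM1 : 0 < M1 := by
      rcases Nat.eq_zero_or_pos M1 with h | h
      · rw [h] at hnd; exact absurd (dvd_zero _) hnd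
      · exact h
    have ha : 0 < a := by
      rcases Nat.eq_zero_or_pos a with h | h
      · exfalso; rw [h, pow_zero, one_mul] at he; exact hnd (he ▸ hpd)
      · exact h
    obtain ⟨u1, u2, u3⟩ := unproc_split hp ha hM1 hnd hpZ
    rw [he] at hcard hg hM ⊢
    have hc1 : (M1.primeFactors \ Z).card = n := by
      rw [u1, card_insert_of_notMem u2] at hcard; omega
    have hfac : ∀ q, q ≠ p → (p ^ a * M1).factorization q = M1.factorization q := fun q hq =>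
      fac_ne hp hq a hM1.ne'
    have hg1 : ∀ q ∈ M1.primeFactors, q ∈ Z → z0 q ≤ M1.factorization q := by
      intro q hq hqZ
      have hqp : q ≠ p := fun h => hpZ (h ▸ hqZ)
      rw [← hfac q hqp]
      apply hg q _ hqZ
      rw [Nat.primeFactors_mul (pow_ne_zero _ hp.ne_zero) hM1.ne']
      exact mem_union_right _ hq
    refine Gm.step p a M1 Z z0 K 4 4 (fun _ => 4) (fun _ => 4) hp hM1 hnd hpZ ha (by norm_num)
      (by norm_num) (fun _ => by norm_num) (fun _ => by norm_num) ?_ ?_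
      (avg_const hp a (by norm_num))
    · intro v _ v' _
      have : jv 4 (fun _ => 4) (fun _ => 4) v v' = (4:ℝ) := by unfold jv; split_ifs <;> rfl
      rw [this]
      exact ih M1 Z z0 _ hc1 hM1 hg1 (fun b c => hK0 _ _) (fun b c => hK1 _ _)
    · intro _ v0 _ hv0
      refine ih (p ^ a * M1) (insert p Z) (Function.update z0 p v0) K ?_ hM ?_ hK0 hK1
      · rw [u3]; exact hc1
      · intro q hq hqZ
        by_cases hqp : q = p
        · subst hqp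
          rw [Function.update_self]
          have : (q ^ a * M1).factorization q = a := fac_eq hp a hnd
          rw [this]; exact hv0
        · rw [Function.update_of_ne hqp]
          exact hg q hq ((mem_insert.1 hqZ).resolve_left hqp)

end Crest.Agent.R4C.Corex251
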