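import Crest.Agent.R4C.SpineKit_946

/-!
# Row 4: from the classes to S0004 (helper946)

`top` : if for every shift there is a finite list of classes which covers and whose energies are
bounded, the literal statement of S0004 holds.
-/

set_option autoImplicit false

open MeasureTheory Filter

namespace Crest.Agent.R4C.Topx946

open Crest.Agent.R4C.Spinex946 Crest.Agent.R4C.Bridgex882 Crest.Agent.R4C.CrCoinx935

theorem top {γ : ℝ} (Rs : List Cls) (hcov : CoverOK γ Rs) (hcls : ∀ R ∈ Rs, ClsOK γ R)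
    (ψ : ℕ → ℝ) (hψ : ∀ q, 0 ≤ ψ q)
    (hdiv : ¬ Summable fun q : ℕ => (Nat.totient q : ℝ) / q * ψ q) :
    ∀ᵐ x : ℝ, ∃ᶠ q : ℕ in atTop, |(q : ℝ) * x - γ - round ((q : ℝ) * x - γ)| < ψ q :=
  main_KCl (KCl_of_KCb (KCb_of Rs hcov hcls)) ψ hψ hdiv

/-- dropping good classes from the cover -/
theorem cover_mono {γ : ℝ} {Rs Rs' : List Cls} (h : CoverOK γ Rs) (hs : ∀ R ∈ Rs, R ∈ Rs') :
    CoverOK γ Rs' := by
  refine Ev.mono h fun cp η A m0 h1 L M B F S b hb c hc hne x hx hk => ?_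
  obtain ⟨R, hR, h2⟩ := h1 L M B F S b hb c hc hne x hx hk
  exact ⟨R, hs R hR, h2⟩

end Crest.Agent.R4C.Topx946
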