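import Crest.Agent.R4C.Split_945
import Crest.Agent.R4C.HyOf_281
import Crest.Agent.R4C.Top_946

/-!
# Row 4: the cover of the spine and S0004 from the ten classes (helper79)

* `cNear … cDomN : ℝ → Cls` : the ten classes of `SplitDef_945` at the parameters `ParOf` of
  `SpineDef_946` (`w = 1_B`, `ε = 1/20`, `D = DD cp` of `HyOf_281`);
* `cover_ok` : `CoverOK γ (classes γ)` (from `split_all` and `hyOf`);
* `main_of` : the literal statement of S0004 from the ten bounds `ClsOK γ (cX γ)`.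
-/

set_option autoImplicit false

open MeasureTheory Filter

namespace Crest.Agent.R4C.Coverx79

open Crest.Agent.R4C.Spinex946 Crest.Agent.R4C.Splitx945 Crest.Agent.R4C.FLDefx935
  Crest.Agent.R4C.HyOfx281 Crest.Agent.R4C.Rulex945
open Crest.Agent.R4C.FLExx326 (ind)

/-- near pairs -/
def cNear (γ : ℝ) : Cls := fun cp _ A m0 L M B F b c h =>
  CNear F (ParOf cp A m0 γ L M B) b c h

/-- bad pairs -/
def cBad (γ : ℝ) : Cls := fun cp _ A m0 L M B F b c h =>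
  CBad F (ParOf cp A m0 γ L M B) b c h

/-- heavy member -/
def cHvy (γ : ℝ) : Cls := fun cp _ A m0 L M B F b c h =>
  CHvy F (ParOf cp A m0 γ L M B) (ind B) (1 / 20) b c h

/-- big twist -/
def cTw (γ : ℝ) : Cls := fun cp _ A m0 L M B F b c h =>
  CTw F (ParOf cp A m0 γ L M B) b c h

/-- common point, non-pure -/
def cNP (γ : ℝ) : Cls := fun cp _ A m0 L M B F b c h =>
  CNP F (ParOf cp A m0 γ L M B) b c h

/-- class (L) -/
def cLow (γ : ℝ) : Cls := fun cp _ A m0 L M B F b c h =>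
  CLow F (ParOf cp A m0 γ L M B) b c h

/-- rare boxes -/
def cRare (γ : ℝ) : Cls := fun cp _ A m0 L M B F b c h =>
  CRareA F (ParOf cp A m0 γ L M B) (DD cp) b c h

/-- unexplained deficit -/
def cUD (γ : ℝ) : Cls := fun cp _ A m0 L M B F b c h =>
  CUD F (ParOf cp A m0 γ L M B) (DD cp) b c h

/-- dominant word, pure -/
def cDomP (γ : ℝ) : Cls := fun cp _ A m0 L M B F b c h =>
  CDomP F (ParOf cp A m0 γ L M B) b c h

/-- dominant word, non-pure -/
def cDomN (γ : ℝ) : Cls := fun cp _ A m0 L M B F b c h =>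
  CDomN F (ParOf cp A m0 γ L M B) b c h

/-- every class but the heavy one may be intersected with `¬ CHvy` -/
def nH (γ : ℝ) (R : Cls) : Cls := fun cp η A m0 L M B F b c h =>
  ¬ cHvy γ cp η A m0 L M B F b c h ∧ R cp η A m0 L M B F b c h

/-- the ten classes -/
def classes (γ : ℝ) : List Cls := [cNear γ, cBad γ, cHvy γ, nH γ (cTw γ), nH γ (cNP γ),
  nH γ (cLow γ), nH γ (cRare γ), nH γ (cUD γ), nH γ (cDomP γ), nH γ (cDomN γ)]

/-- **the cover** -/
theorem cover_ok (γ : ℝ) : CoverOK γ (classes γ) := by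
  refine hyOf.mono fun cp η A m0 H L M B F S b hb c hc _ h hh hk => ?_
  have h1 := split_all (H γ L M B F S) (S.dvd hb) (S.dvd hc) hh hk
  simp only [classes, List.mem_cons, List.mem_nil_iff, or_false, exists_eq_or_imp,
    exists_eq_left]
  rcases h1 with h1 | h1 | h1 | ⟨h2, h1⟩
  · exact Or.inl h1
  · exact Or.inr (Or.inl h1)
  · exact Or.inr (Or.inr (Or.inl h1))
  · rcases h1 with h1 | h1 | h1 | h1 | h1 | h1 | h1
    · exact Or.inr (Or.inr (Or.inr (Or.inl ⟨h2, h1⟩)))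
    · exact Or.inr (Or.inr (Or.inr (Or.inr (Or.inl ⟨h2, h1⟩))))
    · exact Or.inr (Or.inr (Or.inr (Or.inr (Or.inr (Or.inl ⟨h2, h1⟩)))))
    · exact Or.inr (Or.inr (Or.inr (Or.inr (Or.inr (Or.inr (Or.inl ⟨h2, h1⟩))))))
    · exact Or.inr (Or.inr (Or.inr (Or.inr (Or.inr (Or.inr (Or.inr (Or.inl ⟨h2, h1⟩)))))))
    · exact Or.inr (Or.inr (Or.inr (Or.inr (Or.inr (Or.inr (Or.inr (Or.inr
        (Or.inl ⟨h2, h1⟩))))))))
    · exact Or.inr (Or.inr (Or.inr (Or.inr (Or.inr (Or.inr (Or.inr (Or.inr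
        (Or.inr ⟨h2, h1⟩))))))))

/-- a bound for the class gives the bound for its intersection with `¬ CHvy` -/
theorem nH_ok {γ : ℝ} {R : Cls} (h : ClsOK γ R) : ClsOK γ (nH γ R) :=
  ClsOK.mono h (Ev.of_forall fun _ _ _ _ _ _ _ _ _ _ _ _ _ _ _ _ _ h2 => h2.2)

/-- **S0004 from the ten classes** -/
theorem main_of {γ : ℝ} (h1 : ClsOK γ (cNear γ)) (h2 : ClsOK γ (cBad γ)) (h3 : ClsOK γ (cHvy γ))
    (h4 : ClsOK γ (nH γ (cTw γ))) (h5 : ClsOK γ (nH γ (cNP γ))) (h6 : ClsOK γ (nH γ (cLow γ)))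
    (h7 : ClsOK γ (nH γ (cRare γ))) (h8 : ClsOK γ (nH γ (cUD γ)))
    (h9 : ClsOK γ (nH γ (cDomP γ))) (h10 : ClsOK γ (nH γ (cDomN γ)))
    (ψ : ℕ → ℝ) (hψ : ∀ q, 0 ≤ ψ q)
    (hdiv : ¬ Summable fun q : ℕ => (Nat.totient q : ℝ) / q * ψ q) :
    ∀ᵐ x : ℝ, ∃ᶠ q : ℕ in atTop, |(q : ℝ) * x - γ - round ((q : ℝ) * x - γ)| < ψ q := by
  refine Topx946.top (classes γ) (cover_ok γ) ?_ ψ hψ hdiv
  intro R hR
  simp only [classes, List.mem_cons, List.mem_nil_iff, or_false] at hR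
  rcases hR with rfl | rfl | rfl | rfl | rfl | rfl | rfl | rfl | rfl | rfl
  all_goals assumption

end Crest.Agent.R4C.Coverx79
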