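import Crest.Agent.R4C.CutSum_492

/-!
# Row 4: cut-sum lemma for BLOCK NH (3754), power form and block form (helper492)

* `tail_pow`     : `∑_{ρ ∈ P} ρ^{-c}/ρ ≤ (2^c/c) y^{-c}` if all `ρ ≥ y ≥ 2`
* `cut_sum_pow`  : `cut_sum` with `w ρ = K ρ^{-c}`: `law E ≤ 2 (2^c/c) K y^{-c}`
* `block_sum`    : `(mass in (X,X²]) ≤ K min(τ,X)^{-c}` for `ρ ≤ X ≤ τ^B` gives
  `mass ≤ D(B,c) K ρ^{-c}`
-/

set_option autoImplicit false

namespace Crest.Agent.R4C.CutSumx492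

open Finset Crest.Agent.R4C.GWhx656

lemma pow_step {c : ℝ} (hc : 0 < c) {n : ℕ} (hn : 2 ≤ n) :
    ((n : ℝ) ^ (-c)) / n ≤ (1 / c) * (((n : ℝ) - 1) ^ (-c) - (n : ℝ) ^ (-c)) := by
  have hn2 : (2 : ℝ) ≤ n := by exact_mod_cast hn
  have hn0 : (0 : ℝ) < n := by linarith
  have hx0 : (0 : ℝ) < 1 - 1 / (n : ℝ) := by
    have : 1 / (n : ℝ) ≤ 1 / 2 := one_div_le_one_div_of_le (by norm_num) hn2
    linarith
  have e1 : ((n : ℝ) - 1) = (n : ℝ) * (1 - 1 / n) := by field_simp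
  have e2 : ((n : ℝ) - 1) ^ (-c) = (n : ℝ) ^ (-c) * (1 - 1 / (n : ℝ)) ^ (-c) := by
    rw [e1, Real.mul_rpow hn0.le hx0.le]
  have h1 : 1 + c / n ≤ (1 - 1 / (n : ℝ)) ^ (-c) := by
    rw [Real.rpow_def_of_pos hx0]
    have h2 : Real.log (1 - 1 / (n : ℝ)) ≤ -(1 / (n : ℝ)) := by
      have := Real.log_le_sub_one_of_pos hx0
      linarith
    have h3 : c / n ≤ Real.log (1 - 1 / (n : ℝ)) * -c := by
      have : c / n = (1 / (n : ℝ)) * c := by ring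
      rw [this]
      nlinarith
    have h4 := Real.add_one_le_exp (Real.log (1 - 1 / (n : ℝ)) * -c)
    linarith
  have h5 : 0 < (n : ℝ) ^ (-c) := Real.rpow_pos_of_pos hn0 _
  rw [e2]
  have h6 : (n : ℝ) ^ (-c) * (c / n) ≤ (n : ℝ) ^ (-c) * (1 - 1 / (n : ℝ)) ^ (-c) - (n : ℝ) ^ (-c) := by
    have := mul_le_mul_of_nonneg_left h1 h5.le
    linarith
  have h7 : (n : ℝ) ^ (-c) / n = (1 / c) * ((n : ℝ) ^ (-c) * (c / n)) := by
    field_simp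
  rw [h7]
  exact mul_le_mul_of_nonneg_left h6 (by positivity)

lemma pow_tele (c : ℝ) (N : ℕ) : ∀ K : ℕ, N ≤ K →
    ∑ n ∈ Ico N K, (((n : ℝ) - 1) ^ (-c) - (n : ℝ) ^ (-c)) =
      ((N : ℝ) - 1) ^ (-c) - ((K : ℝ) - 1) ^ (-c) := by
  intro K hK
  induction K, hK using Nat.le_induction with
  | base => simp
  | succ k hk ih =>
    rw [sum_Ico_succ_top hk, ih]
    push_cast
    ring

/-- tail of `∑ ρ^{-1-c}` -/
theorem tail_pow {c y : ℝ} (hc : 0 < c) (hy : 2 ≤ y) {P : Finset ℕ} (hP : ∀ p ∈ P, y ≤ (p : ℝ)) :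
    ∑ p ∈ P, ((p : ℝ) ^ (-c)) / p ≤ (2 ^ c / c) * y ^ (-c) := by
  classical
  set N := ⌈y⌉₊ with hN
  have hyN : y ≤ N := Nat.le_ceil y
  have hN2 : 2 ≤ N := by
    have : (2 : ℝ) ≤ N := hy.trans hyN
    exact_mod_cast this
  set K := max N (P.sup id + 1) with hK
  have hsub : P ⊆ Ico N K := by
    intro p hp
    rw [mem_Ico]
    refine ⟨Nat.ceil_le.2 (hP p hp), ?_⟩
    have h1 : p ≤ P.sup id := le_sup (f := id) hp
    have h2 : P.sup id + 1 ≤ K := le_max_right _ _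
    omega
  have hnn : ∀ n ∈ Ico N K, 0 ≤ ((n : ℝ) ^ (-c)) / n := fun n _ => by positivity
  have h1 : ∑ p ∈ P, ((p : ℝ) ^ (-c)) / p ≤ ∑ p ∈ Ico N K, ((p : ℝ) ^ (-c)) / p :=
    sum_le_sum_of_subset_of_nonneg hsub fun n hn _ => hnn n hn
  have h2 : ∑ p ∈ Ico N K, ((p : ℝ) ^ (-c)) / p ≤
      ∑ n ∈ Ico N K, (1 / c) * (((n : ℝ) - 1) ^ (-c) - (n : ℝ) ^ (-c)) :=
    sum_le_sum fun n hn => pow_step hc (hN2.trans (mem_Ico.1 hn).1)
  rw [← mul_sum, pow_tele c N K (le_max_left _ _)] at h2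
  have hK1 : (2 : ℝ) ≤ K := by
    have : 2 ≤ K := hN2.trans (le_max_left _ _)
    exact_mod_cast this
  have h3 : 0 ≤ ((K : ℝ) - 1) ^ (-c) := Real.rpow_nonneg (by linarith) _
  have h4 : ((N : ℝ) - 1) ^ (-c) ≤ (y / 2) ^ (-c) :=
    Real.rpow_le_rpow_of_nonpos (by linarith) (by linarith) (by linarith)
  have h5 : (y / 2) ^ (-c) = 2 ^ c * y ^ (-c) := by
    rw [Real.div_rpow (by linarith) (by norm_num), Real.rpow_neg (by norm_num : (0 : ℝ) ≤ 2),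
      div_inv_eq_mul, mul_comm]
  have h6 : 0 ≤ 1 / c := by positivity
  calc ∑ p ∈ P, ((p : ℝ) ^ (-c)) / p ≤ (1 / c) * (((N : ℝ) - 1) ^ (-c) - ((K : ℝ) - 1) ^ (-c)) :=
        h1.trans h2
    _ ≤ (1 / c) * (2 ^ c * y ^ (-c)) := by
        refine mul_le_mul_of_nonneg_left ?_ h6
        rw [← h5]
        linarith
    _ = _ := by ring

/-- cut-sum lemma, power form -/
theorem cut_sum_pow {c y K : ℝ} (hc : 0 < c) (hy : 2 ≤ y) (hK : 0 ≤ K) {P : Finset ℕ}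
    (hP : ∀ p ∈ P, y ≤ (p : ℝ)) (E : Finset (Finset ℕ))
    (hE : ∀ S ∈ E, S ⊆ P) (pos : Finset ℕ → ℕ) (hpos : ∀ S ∈ E, pos S ∈ S)
    (hlo : ∀ S ∈ E, ∃ q ∈ S, q < pos S)
    (H : ∀ S0 : Finset ℕ, S0 ⊆ P → ∀ ρ ∈ S0,
      ∑ p ∈ cutc P E pos S0 ρ, (1 : ℝ) / p ≤ K * (ρ : ℝ) ^ (-c)) :
    ∑ S ∈ E, law P S ≤ 2 * (2 ^ c / c) * K * y ^ (-c) := by
  have hP2 : ∀ p ∈ P, 2 ≤ p := fun p hp => by
    have : (2 : ℝ) ≤ p := hy.trans (hP p hp)
    exact_mod_cast this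
  refine (cut_sum hP2 E hE pos hpos hlo (fun ρ => K * (ρ : ℝ) ^ (-c)) H).trans ?_
  have h1 : ∑ ρ ∈ P, K * (ρ : ℝ) ^ (-c) / ρ = K * ∑ ρ ∈ P, (ρ : ℝ) ^ (-c) / ρ := by
    rw [mul_sum]
    refine sum_congr rfl fun ρ _ => ?_
    ring
  rw [h1]
  have h2 := mul_le_mul_of_nonneg_left (tail_pow hc hy hP) hK
  calc 2 * (K * ∑ ρ ∈ P, (ρ : ℝ) ^ (-c) / ρ) ≤ 2 * (K * ((2 ^ c / c) * y ^ (-c))) := by linarith
    _ = _ := by ring

section blocks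

variable {F : Finset ℕ} {K τ c B : ℝ}

/-- tail of the mass above `X` -/
noncomputable def tailF (F : Finset ℕ) (X : ℝ) : ℝ := ∑ p ∈ F with X < (p : ℕ), (1 : ℝ) / p

lemma tailF_nonneg (F : Finset ℕ) (X : ℝ) : 0 ≤ tailF F X :=
  sum_nonneg fun p _ => by positivity

lemma tailF_step (F : Finset ℕ) (X : ℝ) :
    tailF F X ≤ (∑ p ∈ F with X < (p : ℕ) ∧ ((p : ℕ) : ℝ) ≤ X ^ 2, (1 : ℝ) / p) + tailF F (X ^ 2) := by
  classical
  unfold tailF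
  rw [← sum_filter_add_sum_filter_not (F.filter fun p : ℕ => X < (p : ℝ))
    (fun p : ℕ => (p : ℝ) ≤ X ^ 2)]
  refine add_le_add ?_ ?_
  · rw [filter_filter]
  · refine sum_le_sum_of_subset_of_nonneg ?_ fun p _ _ => by positivity
    intro p hp
    simp only [mem_filter, not_le] at hp ⊢
    exact ⟨hp.1.1, hp.2⟩

lemma tailF_zero {X : ℝ} (hF : ∀ p ∈ F, (p : ℝ) ≤ τ ^ B) (h : τ ^ B ≤ X) : tailF F X = 0 := by
  unfold tailF
  refine sum_eq_zero fun p hp => ?_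
  rw [mem_filter] at hp
  exact absurd (lt_of_lt_of_le hp.2 ((hF p hp.1).trans h)) (lt_irrefl _)

lemma tailF_high (hK : 0 ≤ K) (hF : ∀ p ∈ F, (p : ℝ) ≤ τ ^ B) (hτ : 2 ≤ τ)
    (H : ∀ X : ℝ, τ ≤ X → X ≤ τ ^ B →
      ∑ p ∈ F with X < (p : ℕ) ∧ ((p : ℕ) : ℝ) ≤ X ^ 2, (1 : ℝ) / p ≤ K * τ ^ (-c)) :
    ∀ (n : ℕ) (X : ℝ), τ ≤ X → τ ^ B ≤ X ^ (2 ^ n) → tailF F X ≤ n * (K * τ ^ (-c)) := by
  intro n
  have h0 : 0 ≤ K * τ ^ (-c) := mul_nonneg hK (Real.rpow_nonneg (by linarith) _)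
  induction n with
  | zero =>
    intro X hX h
    rw [pow_zero, pow_one] at h
    rw [tailF_zero hF h]
    simp
  | succ n ih =>
    intro X hX h
    by_cases h1 : τ ^ B ≤ X
    · rw [tailF_zero hF h1]
      positivity
    · have h2 := tailF_step F X
      have h3 := H X hX (not_le.1 h1).le
      have h4 : τ ≤ X ^ 2 := by nlinarith
      have h5 : τ ^ B ≤ (X ^ 2) ^ (2 ^ n) := by
        rw [← pow_mul, mul_comm 2, ← pow_succ]
        exact h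
      have h6 := ih (X ^ 2) h4 h5
      push_cast
      linarith

/-- **block form** -/
theorem block_sum {B c : ℝ} (hc : 0 < c) : ∃ D : ℝ, 0 < D ∧ ∀ (K ρ τ : ℝ) (F : Finset ℕ),
    0 ≤ K → 2 ≤ ρ → ρ ≤ τ → (∀ p ∈ F, ρ < (p : ℝ) ∧ (p : ℝ) ≤ τ ^ B) →
    (∀ X : ℝ, ρ ≤ X → X ≤ τ ^ B →
      ∑ p ∈ F with X < (p : ℕ) ∧ ((p : ℕ) : ℝ) ≤ X ^ 2, (1 : ℝ) / p ≤ K * (min τ X) ^ (-c)) →
    ∑ p ∈ F, (1 : ℝ) / p ≤ D * K * ρ ^ (-c) := by
  obtain ⟨n0, hn0⟩ : ∃ n0 : ℕ, B ≤ 2 ^ n0 := by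
    obtain ⟨n, hn⟩ := exists_nat_gt B
    refine ⟨n, ?_⟩
    have h1 : (n : ℝ) < 2 ^ n := by exact_mod_cast Nat.lt_two_pow_self
    linarith
  have hq : (2 : ℝ) ^ (-c) < 1 := Real.rpow_lt_one_of_one_lt_of_neg (by norm_num) (by linarith)
  have hq0 : (0 : ℝ) < 2 ^ (-c) := Real.rpow_pos_of_pos (by norm_num) _
  set D : ℝ := (1 + n0) / (1 - 2 ^ (-c)) with hD
  have hD1 : 1 + (n0 : ℝ) ≤ D := by
    rw [hD, le_div_iff₀ (by linarith)]
    nlinarith [hq0, (Nat.cast_nonneg n0 : (0 : ℝ) ≤ n0)]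
  have hD2 : 1 + D * 2 ^ (-c) ≤ D := by
    have h1 : D * (1 - 2 ^ (-c)) = 1 + n0 := by
      rw [hD, div_mul_cancel₀ _ (by linarith)]
    have h2 : (0 : ℝ) ≤ n0 := Nat.cast_nonneg _
    linarith
  have hD0 : 0 < D := by
    have h2 : (0 : ℝ) ≤ n0 := Nat.cast_nonneg _
    linarith
  refine ⟨D, hD0, fun K ρ τ F hK hρ hρτ hF H => ?_⟩
  have hFB : ∀ p ∈ F, (p : ℝ) ≤ τ ^ B := fun p hp => (hF p hp).2
  have hτ2 : 2 ≤ τ := hρ.trans hρτ
  have hhigh : ∀ X : ℝ, τ ≤ X → tailF F X ≤ n0 * (K * τ ^ (-c)) := by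
    intro X hX
    refine tailF_high hK hFB hτ2 ?_ n0 X hX ?_
    · intro X' h1 h2
      have := H X' (hρτ.trans h1) h2
      rwa [min_eq_left h1] at this
    · have h1 : (1 : ℝ) ≤ X := by linarith
      calc τ ^ B ≤ τ ^ ((2 : ℝ) ^ n0) := Real.rpow_le_rpow_of_exponent_le (by linarith) hn0
        _ ≤ X ^ ((2 : ℝ) ^ n0) := Real.rpow_le_rpow (by linarith) hX (by positivity)
        _ = X ^ (2 ^ n0) := by
            rw [← Real.rpow_natCast X]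
            push_cast
            rfl
  have hmain : ∀ (m : ℕ) (X : ℝ), ρ ≤ X → X ≤ τ → τ ≤ X ^ (2 ^ m) →
      tailF F X ≤ D * K * X ^ (-c) := by
    intro m
    induction m with
    | zero =>
      intro X h1 h2 h3
      rw [pow_zero, pow_one] at h3
      have h4 : X = τ := le_antisymm h2 h3
      rw [h4]
      refine (hhigh τ le_rfl).trans ?_
      have h5 : 0 ≤ K * τ ^ (-c) := mul_nonneg hK (Real.rpow_nonneg (by linarith) _)
      have h6 : (n0 : ℝ) ≤ D := by linarith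
      calc (n0 : ℝ) * (K * τ ^ (-c)) ≤ D * (K * τ ^ (-c)) := mul_le_mul_of_nonneg_right h6 h5
        _ = _ := by ring
    | succ m ih =>
      intro X h1 h2 h3
      have hX2 : 2 ≤ X := hρ.trans h1
      have hX0 : 0 < X := by linarith
      have hXc : 0 < X ^ (-c) := Real.rpow_pos_of_pos hX0 _
      have hstep := tailF_step F X
      have hs : ∑ p ∈ F with X < (p : ℕ) ∧ ((p : ℕ) : ℝ) ≤ X ^ 2, (1 : ℝ) / p ≤ K * X ^ (-c) ∨
          tailF F X = 0 := by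
        by_cases h4 : X ≤ τ ^ B
        · left
          have := H X h1 h4
          rwa [min_eq_right h2] at this
        · right
          exact tailF_zero hFB (not_le.1 h4).le
      rcases hs with hs | hs
      swap
      · rw [hs]; positivity
      by_cases h5 : X ^ 2 ≤ τ
      · have h6 : τ ≤ (X ^ 2) ^ (2 ^ m) := by
          rw [← pow_mul, mul_comm 2, ← pow_succ]
          exact h3
        have h7 := ih (X ^ 2) (by nlinarith) h5 h6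
        have h8 : (X ^ 2) ^ (-c) ≤ 2 ^ (-c) * X ^ (-c) := by
          rw [sq, Real.mul_rpow hX0.le hX0.le]
          refine mul_le_mul_of_nonneg_right ?_ hXc.le
          exact Real.rpow_le_rpow_of_nonpos (by norm_num) hX2 (by linarith)
        have h9 : D * K * (X ^ 2) ^ (-c) ≤ D * K * (2 ^ (-c) * X ^ (-c)) :=
          mul_le_mul_of_nonneg_left h8 (by positivity)
        have h10 : K * X ^ (-c) * (1 + D * 2 ^ (-c)) ≤ K * X ^ (-c) * D :=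
          mul_le_mul_of_nonneg_left hD2 (by positivity)
        nlinarith
      · have h6 := hhigh (X ^ 2) (not_le.1 h5).le
        have h7 : τ ^ (-c) ≤ X ^ (-c) := Real.rpow_le_rpow_of_nonpos hX0 h2 (by linarith)
        have h8 : (n0 : ℝ) * (K * τ ^ (-c)) ≤ n0 * (K * X ^ (-c)) :=
          mul_le_mul_of_nonneg_left (mul_le_mul_of_nonneg_left h7 hK) (Nat.cast_nonneg _)
        have h9 : (1 + (n0 : ℝ)) * (K * X ^ (-c)) ≤ D * (K * X ^ (-c)) :=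
          mul_le_mul_of_nonneg_right hD1 (by positivity)
        nlinarith
  obtain ⟨m, hm⟩ : ∃ m : ℕ, τ ≤ ρ ^ (2 ^ m) := by
    obtain ⟨m, hm⟩ := exists_nat_gt τ
    refine ⟨m, ?_⟩
    have h1 : (m : ℝ) ≤ 2 ^ m := by exact_mod_cast Nat.lt_two_pow_self.le
    have h2 : ((2 ^ m : ℕ) : ℝ) ≤ ρ ^ (2 ^ m) := by
      have h3 : ((2 ^ m : ℕ) : ℝ) ≤ 2 ^ (2 ^ m) := by exact_mod_cast Nat.lt_two_pow_self.le
      exact h3.trans (pow_le_pow_left₀ (by norm_num) hρ _)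
    push_cast at h2
    linarith
  have hfin := hmain m ρ le_rfl hρτ hm
  have e : tailF F ρ = ∑ p ∈ F, (1 : ℝ) / p := by
    unfold tailF
    rw [filter_true_of_mem fun p hp => (hF p hp).1]
  rwa [e] at hfin

end blocks

end Crest.Agent.R4C.CutSumx492
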