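import Crest.Agent.R4C.GWhyp_656

/-!
# Row 4: cut-sum lemma of the natural hypothesis (helper119, for helper656's BLOCK NH 3754)

`E` = a set of words `S ⊆ P`, each with a letter `pos S ∈ S`.  If, for every rest `S0`, the density
of the letters `p` which can be inserted *directly above* the letter `ρ ∈ S0` is `≤ h ρ` (and `≤ h0`
below all letters of `S0`), then `∑_{S ∈ E} law P S ≤ 2 (h0 + ∑_{ρ ∈ P} h ρ / ρ)`.
-/

set_option autoImplicit false

namespace Crest.Agent.R4C.CutSumx119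

open Finset Crest.Agent.R4C.GWhx656

/-- natural mass of the words which contain `ρ` -/
lemma sum_law_mem {P : Finset ℕ} {ρ : ℕ} (hρ : ρ ∈ P) :
    ∑ S ∈ P.powerset, (if ρ ∈ S then law P S else 0) = 1 / (ρ : ℝ) := by
  classical
  have h := Finset.prod_add (fun p : ℕ => 1 / (p : ℝ))
    (fun p : ℕ => if p = ρ then (0 : ℝ) else 1 - 1 / (p : ℝ)) P
  have h2 : ∏ p ∈ P, (1 / (p : ℝ) + (if p = ρ then (0 : ℝ) else 1 - 1 / (p : ℝ))) =
      1 / (ρ : ℝ) := by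
    rw [← mul_prod_erase P _ hρ, if_pos rfl, add_zero]
    have : ∏ p ∈ P.erase ρ, (1 / (p : ℝ) + (if p = ρ then (0 : ℝ) else 1 - 1 / (p : ℝ))) = 1 := by
      refine prod_eq_one fun p hp => ?_
      rw [if_neg (ne_of_mem_erase hp)]
      ring
    rw [this, mul_one]
  rw [← h2, h]
  refine sum_congr rfl fun S hS => ?_
  by_cases hm : ρ ∈ S
  · rw [if_pos hm]
    unfold law
    congr 1
    refine prod_congr rfl fun p hp => ?_
    rw [if_neg]
    rintro rfl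
    exact (mem_sdiff.1 hp).2 hm
  · rw [if_neg hm]
    have hz : ∏ p ∈ P \ S, (if p = ρ then (0 : ℝ) else 1 - 1 / (p : ℝ)) = 0 :=
      prod_eq_zero (mem_sdiff.2 ⟨hρ, hm⟩) (if_pos rfl)
    rw [hz, mul_zero]

/-- mean of a sum over the letters -/
lemma mean_letters {P : Finset ℕ} (h : ℕ → ℝ) :
    ∑ S ∈ P.powerset, law P S * ∑ ρ ∈ S, h ρ = ∑ ρ ∈ P, h ρ / ρ := by
  classical
  have e1 : ∀ S ∈ P.powerset, law P S * ∑ ρ ∈ S, h ρ =
      ∑ ρ ∈ P, h ρ * (if ρ ∈ S then law P S else 0) := by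
    intro S hS
    have hS' := mem_powerset.1 hS
    rw [mul_sum]
    have e : ∑ ρ ∈ P, h ρ * (if ρ ∈ S then law P S else 0) =
        ∑ ρ ∈ P with ρ ∈ S, h ρ * law P S := by
      rw [sum_filter]
      refine sum_congr rfl fun ρ _ => ?_
      split_ifs <;> simp
    rw [e]
    have e' : P.filter (fun ρ => ρ ∈ S) = S := by
      ext q
      simp only [mem_filter]
      exact ⟨fun h => h.2, fun h => ⟨hS' h, h⟩⟩
    rw [e']
    exact sum_congr rfl fun ρ _ => mul_comm _ _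
  rw [sum_congr rfl e1, sum_comm]
  refine sum_congr rfl fun ρ hρ => ?_
  rw [← mul_sum, sum_law_mem hρ]
  ring

/-- the letters which can be inserted in `S0` -/
noncomputable def ins (P : Finset ℕ) (E : Finset (Finset ℕ)) (pos : Finset ℕ → ℕ)
    (S0 : Finset ℕ) : Finset ℕ := by
  classical
  exact P.filter fun p => p ∉ S0 ∧ insert p S0 ∈ E ∧ pos (insert p S0) = p

lemma mem_ins {P : Finset ℕ} {E : Finset (Finset ℕ)} {pos : Finset ℕ → ℕ} {S0 : Finset ℕ}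
    {p : ℕ} : p ∈ ins P E pos S0 ↔ p ∈ P ∧ p ∉ S0 ∧ insert p S0 ∈ E ∧ pos (insert p S0) = p := by
  unfold ins
  rw [mem_filter]

/-- `E` in terms of the rest -/
lemma sum_le_ins {P : Finset ℕ} (hP : ∀ p ∈ P, 2 ≤ p) (E : Finset (Finset ℕ))
    (hE : ∀ S ∈ E, S ⊆ P) (pos : Finset ℕ → ℕ) (hpos : ∀ S ∈ E, pos S ∈ S) :
    ∑ S ∈ E, law P S ≤
      ∑ S0 ∈ P.powerset, law P S0 * (2 * ∑ p ∈ ins P E pos S0, 1 / (p : ℝ)) := by
  classical
  have h1 : ∀ S ∈ E, law P S = law P (S.erase (pos S)) * od (pos S) := by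
    intro S hS
    have e : S.erase (pos S) ∪ {pos S} = S := by
      rw [union_comm, ← insert_eq, insert_erase (hpos S hS)]
    have hd : Disjoint (S.erase (pos S)) {pos S} := by
      rw [disjoint_singleton_right]
      exact notMem_erase _ _
    have := law_union hP (S := S.erase (pos S)) (T := {pos S})
      (singleton_subset_iff.2 (hE S hS (hpos S hS))) hd
    rw [e, prod_singleton] at this
    exact this
  rw [sum_congr rfl h1]
  have h2 : ∀ S ∈ E, S.erase (pos S) ∈ P.powerset := fun S hS =>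
    mem_powerset.2 ((erase_subset _ _).trans (hE S hS))
  rw [← sum_fiberwise_of_maps_to h2]
  refine sum_le_sum fun S0 hS0 => ?_
  have e2 : ∑ S ∈ E with S.erase (pos S) = S0, law P (S.erase (pos S)) * od (pos S) =
      law P S0 * ∑ S ∈ E with S.erase (pos S) = S0, od (pos S) := by
    rw [mul_sum]
    refine sum_congr rfl fun S hS => ?_
    rw [(mem_filter.1 hS).2]
  rw [e2]
  refine mul_le_mul_of_nonneg_left ?_ (law_nonneg fun p hp => by have := hP p hp; omega)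
  have hinj : ∀ S ∈ E.filter (fun S => S.erase (pos S) = S0),
      ∀ S' ∈ E.filter (fun S => S.erase (pos S) = S0), pos S = pos S' → S = S' := by
    intro S hS S' hS' he
    rw [mem_filter] at hS hS'
    rw [← insert_erase (hpos S hS.1), ← insert_erase (hpos S' hS'.1), hS.2, hS'.2, he]
  calc ∑ S ∈ E with S.erase (pos S) = S0, od (pos S)
      = ∑ p ∈ (E.filter (fun S => S.erase (pos S) = S0)).image pos, od p :=
        (sum_image (f := od) hinj).symm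
    _ ≤ ∑ p ∈ (E.filter (fun S => S.erase (pos S) = S0)).image pos, 2 * (1 / (p : ℝ)) := by
        refine sum_le_sum fun p hp => od_le ?_
        obtain ⟨S, hS, rfl⟩ := mem_image.1 hp
        have hS' := (mem_filter.1 hS).1
        exact hP _ (hE S hS' (hpos S hS'))
    _ ≤ ∑ p ∈ ins P E pos S0, 2 * (1 / (p : ℝ)) := by
        refine sum_le_sum_of_subset_of_nonneg ?_ fun _ _ _ => by positivity
        intro p hp
        obtain ⟨S, hS, rfl⟩ := mem_image.1 hp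
        obtain ⟨hSE, hS0'⟩ := mem_filter.1 hS
        have e3 : insert (pos S) S0 = S := by rw [← hS0', insert_erase (hpos S hSE)]
        rw [mem_ins, e3]
        refine ⟨hE S hSE (hpos S hSE), ?_, hSE, rfl⟩
        rw [← hS0']
        exact notMem_erase _ _
    _ = 2 * ∑ p ∈ ins P E pos S0, 1 / (p : ℝ) := by rw [← mul_sum]

lemma sum_biUnion_le' {ι : Type*} [DecidableEq ι] (s : Finset ι) (t : ι → Finset ℕ) (f : ℕ → ℝ)
    (hf : ∀ x, 0 ≤ f x) : ∑ x ∈ s.biUnion t, f x ≤ ∑ i ∈ s, ∑ x ∈ t i, f x := by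
  classical
  induction s using Finset.induction_on with
  | empty => simp
  | insert a s ha ih =>
    rw [biUnion_insert, sum_insert ha]
    refine le_trans ?_ (add_le_add le_rfl ih)
    rw [← sum_union_inter]
    exact le_add_of_nonneg_right (sum_nonneg fun x _ => hf x)

/-- split by the cut -/
lemma ins_split {P : Finset ℕ} (E : Finset (Finset ℕ)) (pos : Finset ℕ → ℕ) (S0 : Finset ℕ) :
    ∑ p ∈ ins P E pos S0, 1 / (p : ℝ) ≤
      ∑ p ∈ (ins P E pos S0).filter (fun p => ∀ q ∈ S0, p < q), 1 / (p : ℝ) +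
      ∑ ρ ∈ S0, ∑ p ∈ (ins P E pos S0).filter
        (fun p => ρ < p ∧ ∀ q ∈ S0, q ≤ ρ ∨ p < q), 1 / (p : ℝ) := by
  classical
  rw [← sum_filter_add_sum_filter_not (ins P E pos S0) (fun p => ∀ q ∈ S0, p < q)]
  refine add_le_add le_rfl ?_
  have h1 : (ins P E pos S0).filter (fun p => ¬ ∀ q ∈ S0, p < q) ⊆
      S0.biUnion fun ρ => (ins P E pos S0).filter (fun p => ρ < p ∧ ∀ q ∈ S0, q ≤ ρ ∨ p < q) := by
    intro p hp
    rw [mem_filter] at hp
    obtain ⟨hp1, hp2⟩ := hp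
    push Not at hp2
    obtain ⟨q, hq, hqp⟩ := hp2
    have hpS : p ∉ S0 := (mem_ins.1 hp1).2.1
    have hne : (S0.filter (· < p)).Nonempty := by
      refine ⟨q, mem_filter.2 ⟨hq, lt_of_le_of_ne hqp ?_⟩⟩
      rintro rfl
      exact hpS hq
    have hmax := max'_mem _ hne
    rw [mem_filter] at hmax
    rw [mem_biUnion]
    refine ⟨(S0.filter (· < p)).max' hne, hmax.1, mem_filter.2 ⟨hp1, hmax.2, fun q' hq' => ?_⟩⟩
    by_cases hlt : q' < p
    · exact Or.inl (le_max' _ _ (mem_filter.2 ⟨hq', hlt⟩))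
    · right
      refine lt_of_le_of_ne (not_lt.1 hlt) ?_
      rintro rfl
      exact hpS hq'
  exact (sum_le_sum_of_subset_of_nonneg h1 fun _ _ _ => by positivity).trans
    (sum_biUnion_le' S0 _ _ fun x => by positivity)

/-- **CUT-SUM LEMMA**: `h0` = density of the letters inserted below all letters of the rest,
`h ρ` = density of the letters inserted directly above `ρ` -/
theorem cut_sum {P : Finset ℕ} (hP : ∀ p ∈ P, 2 ≤ p) (E : Finset (Finset ℕ))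
    (hE : ∀ S ∈ E, S ⊆ P) (pos : Finset ℕ → ℕ) (hpos : ∀ S ∈ E, pos S ∈ S) (h0 : ℝ) (h : ℕ → ℝ)
    (H0 : ∀ S0 ⊆ P, ∑ p ∈ (ins P E pos S0).filter (fun p => ∀ q ∈ S0, p < q),
      1 / (p : ℝ) ≤ h0)
    (H1 : ∀ S0 ⊆ P, ∀ ρ ∈ S0, ∑ p ∈ (ins P E pos S0).filter
      (fun p => ρ < p ∧ ∀ q ∈ S0, q ≤ ρ ∨ p < q), 1 / (p : ℝ) ≤ h ρ) :
    ∑ S ∈ E, law P S ≤ 2 * (h0 + ∑ ρ ∈ P, h ρ / ρ) := by
  classical
  refine (sum_le_ins hP E hE pos hpos).trans ?_
  have hlaw : ∀ S0, 0 ≤ law P S0 := fun S0 => law_nonneg fun p hp => by have := hP p hp; omega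
  calc ∑ S0 ∈ P.powerset, law P S0 * (2 * ∑ p ∈ ins P E pos S0, 1 / (p : ℝ))
      ≤ ∑ S0 ∈ P.powerset, law P S0 * (2 * (h0 + ∑ ρ ∈ S0, h ρ)) := by
        refine sum_le_sum fun S0 hS0 => mul_le_mul_of_nonneg_left ?_ (hlaw S0)
        have hS0' := mem_powerset.1 hS0
        refine mul_le_mul_of_nonneg_left ?_ zero_le_two
        exact (ins_split E pos S0).trans
          (add_le_add (H0 S0 hS0') (sum_le_sum fun ρ hρ => H1 S0 hS0' ρ hρ))
    _ = 2 * (h0 * ∑ S0 ∈ P.powerset, law P S0 +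
          ∑ S0 ∈ P.powerset, law P S0 * ∑ ρ ∈ S0, h ρ) := by
        rw [mul_sum, ← sum_add_distrib, mul_sum]
        refine sum_congr rfl fun S0 _ => ?_
        ring
    _ = 2 * (h0 + ∑ ρ ∈ P, h ρ / ρ) := by rw [sum_law, mul_one, mean_letters]

/-! ### `∑_{n ≥ y} n^(-1-c)` -/

lemma tele_pow {c : ℝ} (hc : 0 < c) {n : ℕ} (hn : 2 ≤ n) :
    ((n : ℝ) ^ (-c)) / n ≤ (1 / c) * (((n : ℝ) - 1) ^ (-c) - (n : ℝ) ^ (-c)) := by
  have hn' : (2 : ℝ) ≤ n := by exact_mod_cast hn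
  have h1 : (0 : ℝ) < n := by linarith
  have h2 : (0 : ℝ) < (n : ℝ) - 1 := by linarith
  have h3 : ((n : ℝ) - 1) ^ (-c) = (n : ℝ) ^ (-c) * (1 - 1 / (n : ℝ)) ^ (-c) := by
    rw [← Real.mul_rpow h1.le (by rw [sub_nonneg, div_le_one h1]; linarith)]
    congr 1
    field_simp
  have h4 : 1 + c / n ≤ (1 - 1 / (n : ℝ)) ^ (-c) := by
    have hu : 0 < 1 - 1 / (n : ℝ) := by rw [sub_pos, div_lt_one h1]; linarith
    rw [Real.rpow_def_of_pos hu]
    have h5 : Real.log (1 - 1 / (n : ℝ)) ≤ - (1 / (n : ℝ)) := by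
      have := Real.log_le_sub_one_of_pos hu
      linarith
    have h6 := Real.add_one_le_exp (Real.log (1 - 1 / (n : ℝ)) * (-c))
    have h7 : c / n ≤ Real.log (1 - 1 / (n : ℝ)) * (-c) := by
      have := mul_le_mul_of_nonneg_left h5 hc.le
      have e : c / n = c * (1 / (n : ℝ)) := by ring
      rw [e]
      nlinarith
    linarith
  have h5 : 0 < (n : ℝ) ^ (-c) := Real.rpow_pos_of_pos h1 _
  rw [h3]
  have h6 : (n : ℝ) ^ (-c) * (1 - 1 / (n : ℝ)) ^ (-c) - (n : ℝ) ^ (-c) ≥ (n : ℝ) ^ (-c) * (c / n) := by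
    have := mul_le_mul_of_nonneg_left h4 h5.le
    linarith
  calc (n : ℝ) ^ (-c) / n = (1 / c) * ((n : ℝ) ^ (-c) * (c / n)) := by field_simp
    _ ≤ _ := mul_le_mul_of_nonneg_left h6 (by positivity)

lemma tail_range {c : ℝ} (hc : 0 < c) (m : ℕ) (hm : 1 ≤ m) :
    ∀ N : ℕ, m ≤ N → ∑ n ∈ Finset.Ioc m N, ((n : ℝ) ^ (-c)) / n ≤
      (1 / c) * ((m : ℝ) ^ (-c) - (N : ℝ) ^ (-c)) := by
  intro N hN
  induction N, hN using Nat.le_induction with
  | base => simp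
  | succ N hN ih =>
    rw [Finset.sum_Ioc_succ_top (by omega)]
    have h1 := tele_pow hc (n := N + 1) (by omega)
    have e : ((N + 1 : ℕ) : ℝ) - 1 = N := by push_cast; ring
    rw [e] at h1
    calc _ ≤ (1 / c) * ((m : ℝ) ^ (-c) - (N : ℝ) ^ (-c)) +
          (1 / c) * ((N : ℝ) ^ (-c) - ((N + 1 : ℕ) : ℝ) ^ (-c)) := add_le_add ih h1
      _ = _ := by ring

/-- `∑_{ρ ∈ P} ρ^(-c)/ρ ≤ (1+1/c) y^(-c)` if all letters are `≥ y` -/
lemma sum_pow_le {c y : ℝ} (hc : 0 < c) (hy : 1 ≤ y) (P : Finset ℕ) (hP : ∀ p ∈ P, y ≤ (p : ℝ)) :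
    ∑ ρ ∈ P, ((ρ : ℝ) ^ (-c)) / ρ ≤ (1 + 1 / c) * y ^ (-c) := by
  classical
  set m : ℕ := ⌈y⌉₊ with hm
  have hym : y ≤ m := Nat.le_ceil y
  have hm1 : 1 ≤ m := by
    have : (1 : ℝ) ≤ m := hy.trans hym
    exact_mod_cast this
  have hm0 : (0 : ℝ) < m := by exact_mod_cast hm1
  have hsub : P ⊆ insert m (Finset.Ioc m (max m (P.sup id))) := by
    intro p hp
    have h1 : m ≤ p := Nat.ceil_le.2 (hP p hp)
    have h2 : p ≤ P.sup id := Finset.le_sup (f := id) hp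
    rw [mem_insert, Finset.mem_Ioc]
    rcases h1.eq_or_lt with h | h
    · exact Or.inl h.symm
    · exact Or.inr ⟨h, h2.trans (le_max_right _ _)⟩
  have hmy : (m : ℝ) ^ (-c) ≤ y ^ (-c) :=
    Real.rpow_le_rpow_of_nonpos (by linarith) hym (by linarith)
  calc ∑ ρ ∈ P, ((ρ : ℝ) ^ (-c)) / ρ
      ≤ ∑ ρ ∈ insert m (Finset.Ioc m (max m (P.sup id))), ((ρ : ℝ) ^ (-c)) / ρ :=
        sum_le_sum_of_subset_of_nonneg hsub fun _ _ _ => by positivity
    _ = (m : ℝ) ^ (-c) / m + ∑ ρ ∈ Finset.Ioc m (max m (P.sup id)), ((ρ : ℝ) ^ (-c)) / ρ := by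
        rw [sum_insert]
        rw [Finset.mem_Ioc]
        omega
    _ ≤ (m : ℝ) ^ (-c) + (1 / c) * (m : ℝ) ^ (-c) := by
        refine add_le_add (div_le_self (by positivity) (by exact_mod_cast hm1)) ?_
        refine (tail_range hc m hm1 _ (le_max_left _ _)).trans ?_
        refine mul_le_mul_of_nonneg_left ?_ (by positivity)
        have : (0 : ℝ) ≤ ((max m (P.sup id) : ℕ) : ℝ) ^ (-c) := by positivity
        linarith
    _ = (1 + 1 / c) * (m : ℝ) ^ (-c) := by ring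
    _ ≤ _ := mul_le_mul_of_nonneg_left hmy (by positivity)

/-- cut-sum lemma with powers: letters `≥ y`, `h0 = C (1 ⊔ t)^(-c)`-like constant, `h ρ = C ρ^(-c)` -/
theorem cut_sum_pow {P : Finset ℕ} {c y C h0 : ℝ} (hc : 0 < c) (hy : 1 ≤ y) (hC : 0 ≤ C)
    (hP2 : ∀ p ∈ P, 2 ≤ p) (hP : ∀ p ∈ P, y ≤ (p : ℝ)) (E : Finset (Finset ℕ))
    (hE : ∀ S ∈ E, S ⊆ P) (pos : Finset ℕ → ℕ) (hpos : ∀ S ∈ E, pos S ∈ S)
    (H0 : ∀ S0 ⊆ P, ∑ p ∈ (ins P E pos S0).filter (fun p => ∀ q ∈ S0, p < q),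
      1 / (p : ℝ) ≤ h0)
    (H1 : ∀ S0 ⊆ P, ∀ ρ ∈ S0, ∑ p ∈ (ins P E pos S0).filter
      (fun p => ρ < p ∧ ∀ q ∈ S0, q ≤ ρ ∨ p < q), 1 / (p : ℝ) ≤ C * (ρ : ℝ) ^ (-c)) :
    ∑ S ∈ E, law P S ≤ 2 * (h0 + C * (1 + 1 / c) * y ^ (-c)) := by
  refine (cut_sum hP2 E hE pos hpos h0 (fun ρ => C * (ρ : ℝ) ^ (-c)) H0 H1).trans ?_
  refine mul_le_mul_of_nonneg_left (add_le_add le_rfl ?_) zero_le_two
  have e : ∑ ρ ∈ P, C * (ρ : ℝ) ^ (-c) / ρ = C * ∑ ρ ∈ P, ((ρ : ℝ) ^ (-c)) / ρ := by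
    rw [mul_sum]
    exact sum_congr rfl fun ρ _ => by ring
  rw [e, mul_assoc]
  exact mul_le_mul_of_nonneg_left (sum_pow_le hc hy P hP) hC

end Crest.Agent.R4C.CutSumx119
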