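import Crest.Agent.R4C.GWhyp_656

/-!
# Row 4, GW section, block NH (656, note 3754): the cut-sum lemma (helper129)

`E` = a set of words `S ⊆ P`, each with a distinguished letter `pp S ∈ S` which is not the smallest
one.  If for every rest `S0` and every `ρ ∈ S0` the letters `p` that can be inserted directly above
`ρ` (with `pp = p`) have `∑ 1/(p-1) ≤ bd ρ`, then `∑_{S ∈ E} law P S ≤ ∑_{ρ ∈ P} bd ρ / ρ`.

* `sum_law_mem` : `∑_{S ∋ ρ} law P S = 1/ρ`.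
* `cut_sum`, `cut_sum'` (hypothesis with `1/p`), `cut_sum_rpow` (`bd ρ = C ρ^{-c}`: `≤ 4C/c y^{-c}`).
* `tail_rpow` : `∑_{n ∈ P} n^{-c}/n ≤ (2/c) y^{-c}` for `P` above `y ≥ 2`.
* `blocks_min` : `∑_{X < p ≤ X²} 1/p ≤ C₀ min(τ,X)^{-c}` for all `ρ ≤ X ≤ τ^A` gives
  `∑_{ρ < p ≤ τ^A} 1/p ≤ C(A,c) C₀ ρ^{-c}`.
-/

set_option autoImplicit false

namespace Crest.Agent.R4C.CutSumx129

open Finset Crest.Agent.R4C.GWhx656

/-- natural probability of a letter -/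
lemma sum_law_mem {P : Finset ℕ} {ρ : ℕ} (hρ : ρ ∈ P) :
    ∑ S ∈ P.powerset with ρ ∈ S, law P S = 1 / (ρ : ℝ) := by
  classical
  have h1 : (P.powerset.filter (fun S => ρ ∈ S)) =
      ((P.erase ρ).powerset).image (fun S => insert ρ S) := by
    ext S
    rw [mem_filter, mem_powerset, mem_image]
    constructor
    · rintro ⟨h, h'⟩
      refine ⟨S.erase ρ, ?_, insert_erase h'⟩
      rw [mem_powerset]
      exact erase_subset_erase ρ h
    · rintro ⟨S', h, rfl⟩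
      rw [mem_powerset] at h
      refine ⟨insert_subset hρ (h.trans (erase_subset _ _)), mem_insert_self _ _⟩
  have hnot : ∀ S ∈ (P.erase ρ).powerset, ρ ∉ S := by
    intro S hS h
    exact (mem_erase.1 ((mem_powerset.1 hS) h)).1 rfl
  have hinj : ∀ S ∈ (P.erase ρ).powerset, ∀ S' ∈ (P.erase ρ).powerset,
      insert ρ S = insert ρ S' → S = S' := by
    intro S hS S' hS' h
    rw [← erase_insert (hnot S hS), ← erase_insert (hnot S' hS'), h]
  rw [h1, sum_image hinj]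
  have h2 : ∀ S ∈ (P.erase ρ).powerset, law P (insert ρ S) = 1 / (ρ : ℝ) * law (P.erase ρ) S := by
    intro S hS
    have h3 : P \ insert ρ S = P.erase ρ \ S := by
      ext q
      simp only [mem_sdiff, mem_insert, mem_erase, not_or]
      tauto
    unfold law
    rw [prod_insert (hnot S hS), h3, mul_assoc]
  rw [sum_congr rfl h2, ← mul_sum, sum_law, mul_one]

/-- removal of one letter -/
lemma law_erase {P S : Finset ℕ} (hP : ∀ p ∈ P, 2 ≤ p) (hS : S ⊆ P) {p : ℕ} (hp : p ∈ S) :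
    law P S = law P (S.erase p) * od p := by
  classical
  have h := law_union (P := P) (S := S.erase p) (T := {p}) hP (singleton_subset_iff.2 (hS hp))
    (by rw [disjoint_singleton_right]; exact notMem_erase _ _)
  have e : S.erase p ∪ {p} = S := by
    rw [union_comm, ← insert_eq, insert_erase hp]
  rw [e, prod_singleton] at h
  exact h

/-- the possible insertions of a distinguished letter directly above `ρ` -/
noncomputable def ins (P : Finset ℕ) (E : Finset (Finset ℕ)) (pp : Finset ℕ → ℕ)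
    (S0 : Finset ℕ) (ρ : ℕ) : Finset ℕ := by
  classical
  exact P.filter fun p => ρ < p ∧ p ∉ S0 ∧ (∀ q ∈ S0, q < p → q ≤ ρ) ∧ insert p S0 ∈ E ∧
    pp (insert p S0) = p

lemma mem_ins {P : Finset ℕ} {E : Finset (Finset ℕ)} {pp : Finset ℕ → ℕ} {S0 : Finset ℕ}
    {ρ p : ℕ} : p ∈ ins P E pp S0 ρ ↔ p ∈ P ∧ ρ < p ∧ p ∉ S0 ∧ (∀ q ∈ S0, q < p → q ≤ ρ) ∧
      insert p S0 ∈ E ∧ pp (insert p S0) = p := by
  unfold ins
  rw [mem_filter]

/-- **cut-sum lemma** -/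
theorem cut_sum {P : Finset ℕ} (hP : ∀ p ∈ P, 2 ≤ p) (E : Finset (Finset ℕ))
    (hE : ∀ S ∈ E, S ⊆ P) (pp : Finset ℕ → ℕ) (hpp : ∀ S ∈ E, pp S ∈ S)
    (hlow : ∀ S ∈ E, ∃ q ∈ S, q < pp S) (bd : ℕ → ℝ)
    (H : ∀ S0 ⊆ P, ∀ ρ ∈ S0, ∑ p ∈ ins P E pp S0 ρ, od p ≤ bd ρ) :
    ∑ S ∈ E, law P S ≤ ∑ ρ ∈ P, bd ρ / ρ := by
  classical
  -- the letter below
  have hne : ∀ S ∈ E, (S.filter (· < pp S)).Nonempty := fun S hS => by
    obtain ⟨q, hq, h⟩ := hlow S hS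
    exact ⟨q, mem_filter.2 ⟨hq, h⟩⟩
  let m : Finset ℕ → ℕ := fun S => if h : (S.filter (· < pp S)).Nonempty then
    (S.filter (· < pp S)).max' h else 0
  have hm1 : ∀ S ∈ E, m S ∈ S ∧ m S < pp S := fun S hS => by
    simp only [m, dif_pos (hne S hS)]
    exact mem_filter.1 (max'_mem _ _)
  have hm2 : ∀ S ∈ E, ∀ q ∈ S, q < pp S → q ≤ m S := fun S hS q hq h => by
    simp only [m, dif_pos (hne S hS)]
    exact le_max' _ _ (mem_filter.2 ⟨hq, h⟩)
  have hod : ∀ p ∈ P, 0 ≤ od p := fun p hp => od_nonneg (by have := hP p hp; omega)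
  have hlaw : ∀ S, 0 ≤ law P S := fun S => law_nonneg fun p hp => by have := hP p hp; omega
  have hmaps : ∀ S ∈ E, (S.erase (pp S), m S) ∈ P.powerset ×ˢ P := fun S hS =>
    mem_product.2 ⟨mem_powerset.2 ((erase_subset _ _).trans (hE S hS)), hE S hS (hm1 S hS).1⟩
  rw [← sum_fiberwise_of_maps_to hmaps]
  have hfib : ∀ x ∈ P.powerset ×ˢ P, ∑ S ∈ E with (S.erase (pp S), m S) = x, law P S ≤
      if x.2 ∈ x.1 then law P x.1 * bd x.2 else 0 := by
    rintro ⟨S0, ρ⟩ hx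
    rw [mem_product, mem_powerset] at hx
    simp only
    by_cases hρ : ρ ∈ S0
    · rw [if_pos hρ]
      have e1 : ∀ S ∈ E.filter (fun S => (S.erase (pp S), m S) = (S0, ρ)),
          law P S = law P S0 * od (pp S) := by
        intro S hS
        rw [mem_filter, Prod.mk.injEq] at hS
        rw [law_erase hP (hE S hS.1) (hpp S hS.1), hS.2.1]
      rw [sum_congr rfl e1, ← mul_sum]
      refine mul_le_mul_of_nonneg_left ?_ (hlaw S0)
      have hrec : ∀ S ∈ E.filter (fun S => (S.erase (pp S), m S) = (S0, ρ)),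
          insert (pp S) S0 = S := by
        intro S hS
        rw [mem_filter, Prod.mk.injEq] at hS
        rw [← hS.2.1, insert_erase (hpp S hS.1)]
      have hinj : ∀ S ∈ E.filter (fun S => (S.erase (pp S), m S) = (S0, ρ)),
          ∀ S' ∈ E.filter (fun S => (S.erase (pp S), m S) = (S0, ρ)), pp S = pp S' → S = S' := by
        intro S hS S' hS' h
        rw [← hrec S hS, ← hrec S' hS', h]
      calc ∑ S ∈ E with (S.erase (pp S), m S) = (S0, ρ), od (pp S)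
          = ∑ p ∈ (E.filter (fun S => (S.erase (pp S), m S) = (S0, ρ))).image pp, od p :=
            (sum_image (f := fun p => od p) hinj).symm
        _ ≤ ∑ p ∈ ins P E pp S0 ρ, od p := by
            refine sum_le_sum_of_subset_of_nonneg ?_ fun p hp _ => hod p (mem_ins.1 hp).1
            intro p hp
            obtain ⟨S, hS, rfl⟩ := mem_image.1 hp
            have hr := hrec S hS
            rw [mem_filter, Prod.mk.injEq] at hS
            obtain ⟨hSE, h1, h2⟩ := hS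
            rw [mem_ins, hr]
            have h3 := hm1 S hSE
            rw [h2] at h3
            refine ⟨hE S hSE (hpp S hSE), h3.2, ?_, ?_, hSE, rfl⟩
            · rw [← h1]; exact notMem_erase _ _
            · intro q hq hqp
              rw [← h2]
              rw [← h1] at hq
              exact hm2 S hSE q (mem_of_mem_erase hq) hqp
        _ ≤ bd ρ := H S0 hx.1 ρ hρ
    · rw [if_neg hρ]
      refine le_of_eq (sum_eq_zero fun S hS => ?_)
      exfalso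
      rw [mem_filter, Prod.mk.injEq] at hS
      apply hρ
      rw [← hS.2.1, ← hS.2.2]
      exact mem_erase.2 ⟨(hm1 S hS.1).2.ne, (hm1 S hS.1).1⟩
  refine (sum_le_sum hfib).trans (le_of_eq ?_)
  rw [sum_product_right]
  refine sum_congr rfl fun ρ hρ => ?_
  rw [← sum_filter]
  dsimp only
  rw [← sum_mul, sum_law_mem hρ]
  ring

/-- with `1/p` in the hypothesis -/
theorem cut_sum' {P : Finset ℕ} (hP : ∀ p ∈ P, 2 ≤ p) (E : Finset (Finset ℕ))
    (hE : ∀ S ∈ E, S ⊆ P) (pp : Finset ℕ → ℕ) (hpp : ∀ S ∈ E, pp S ∈ S)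
    (hlow : ∀ S ∈ E, ∃ q ∈ S, q < pp S) (bd : ℕ → ℝ)
    (H : ∀ S0 ⊆ P, ∀ ρ ∈ S0, ∑ p ∈ ins P E pp S0 ρ, (1 : ℝ) / p ≤ bd ρ) :
    ∑ S ∈ E, law P S ≤ 2 * ∑ ρ ∈ P, bd ρ / ρ := by
  classical
  have h := cut_sum hP E hE pp hpp hlow (fun ρ => 2 * bd ρ) ?_
  · refine h.trans (le_of_eq ?_)
    rw [mul_sum]
    refine sum_congr rfl fun ρ _ => by ring
  · intro S0 hS0 ρ hρ
    calc ∑ p ∈ ins P E pp S0 ρ, od p ≤ ∑ p ∈ ins P E pp S0 ρ, 2 * ((1 : ℝ) / p) :=
          sum_le_sum fun p hp => od_le (hP p (mem_ins.1 hp).1)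
      _ = 2 * ∑ p ∈ ins P E pp S0 ρ, (1 : ℝ) / p := by rw [mul_sum]
      _ ≤ 2 * bd ρ := mul_le_mul_of_nonneg_left (H S0 hS0 ρ hρ) (by norm_num)

/-! ### the tail of `∑ n^{-1-c}` -/

lemma one_step {c : ℝ} (hc : 0 < c) {n : ℕ} (hn : 2 ≤ n) :
    c * ((n : ℝ) ^ (-c) / n) ≤ ((n - 1 : ℕ) : ℝ) ^ (-c) - (n : ℝ) ^ (-c) := by
  have hn' : (2 : ℝ) ≤ n := by exact_mod_cast hn
  have hn0 : (0 : ℝ) < n := by linarith
  have e1 : ((n - 1 : ℕ) : ℝ) = (n : ℝ) - 1 := by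
    rw [Nat.cast_sub (by omega)]; norm_num
  rw [e1]
  -- `(n-1)^{-c} = n^{-c} (1 - 1/n)^{-c} ≥ n^{-c} (1 + c/n)`
  have h1 : ((n : ℝ) - 1) ^ (-c) = (n : ℝ) ^ (-c) * (1 - 1 / (n : ℝ)) ^ (-c) := by
    rw [← Real.mul_rpow hn0.le]
    · congr 1
      field_simp
    · rw [sub_nonneg, div_le_one hn0]; linarith
  have hx : 0 < 1 - 1 / (n : ℝ) := by
    rw [sub_pos, div_lt_one hn0]; linarith
  have h2 : 1 + c * (1 / (n : ℝ)) ≤ (1 - 1 / (n : ℝ)) ^ (-c) := by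
    rw [Real.rpow_def_of_pos hx]
    have h3 : Real.log (1 - 1 / (n : ℝ)) ≤ -(1 / (n : ℝ)) := by
      have := Real.log_le_sub_one_of_pos hx
      linarith
    have h4 : c * (1 / (n : ℝ)) ≤ Real.log (1 - 1 / (n : ℝ)) * (-c) := by nlinarith
    calc 1 + c * (1 / (n : ℝ)) ≤ Real.exp (c * (1 / (n : ℝ))) := by
          have := Real.add_one_le_exp (c * (1 / (n : ℝ)))
          linarith
      _ ≤ Real.exp (Real.log (1 - 1 / (n : ℝ)) * (-c)) := Real.exp_le_exp.2 h4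
  rw [h1]
  have h5 : 0 < (n : ℝ) ^ (-c) := Real.rpow_pos_of_pos hn0 _
  have h6 := mul_le_mul_of_nonneg_left h2 h5.le
  have e2 : (n : ℝ) ^ (-c) * (1 + c * (1 / (n : ℝ))) =
      (n : ℝ) ^ (-c) + c * ((n : ℝ) ^ (-c) / n) := by ring
  linarith

lemma sum_Ioc_rpow {c : ℝ} (hc : 0 < c) (a : ℕ) (ha : 1 ≤ a) : ∀ d : ℕ,
    c * ∑ n ∈ Ioc a (a + d), (n : ℝ) ^ (-c) / n ≤ (a : ℝ) ^ (-c) - ((a + d : ℕ) : ℝ) ^ (-c) := by
  intro d
  induction d with
  | zero => simp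
  | succ d ih =>
    have e : Ioc a (a + (d + 1)) = insert (a + (d + 1)) (Ioc a (a + d)) := by
      ext x
      simp only [mem_Ioc, mem_insert]
      omega
    have hnot : a + (d + 1) ∉ Ioc a (a + d) := by
      rw [mem_Ioc]; omega
    rw [e, sum_insert hnot, mul_add]
    have h := one_step hc (n := a + (d + 1)) (by omega)
    have e2 : a + (d + 1) - 1 = a + d := by omega
    rw [e2] at h
    linarith

/-- tail of `∑ n^{-1-c}` -/
lemma tail_rpow {c y : ℝ} (hc : 0 < c) (hc1 : c ≤ 1) (hy : 2 ≤ y) (P : Finset ℕ)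
    (hP : ∀ p ∈ P, y ≤ (p : ℝ)) : ∑ n ∈ P, (n : ℝ) ^ (-c) / n ≤ 2 / c * y ^ (-c) := by
  classical
  set a : ℕ := ⌈y⌉₊ - 1 with ha
  have h1 : 2 ≤ ⌈y⌉₊ := by
    have : (1 : ℝ) < y := by linarith
    have h2 : 1 < ⌈y⌉₊ := Nat.lt_ceil.2 (by exact_mod_cast this)
    omega
  have ha1 : 1 ≤ a := by omega
  have hac : (a : ℝ) = (⌈y⌉₊ : ℝ) - 1 := by
    rw [ha, Nat.cast_sub (by omega)]; norm_num
  have hay : y / 2 ≤ a := by
    rw [hac]
    have := Nat.le_ceil y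
    linarith
  have hsub : P ⊆ Ioc a (a + P.sup id) := by
    intro p hp
    rw [mem_Ioc]
    have h2 : ⌈y⌉₊ ≤ p := Nat.ceil_le.2 (hP p hp)
    have h3 : p ≤ P.sup id := Finset.le_sup (f := id) hp
    omega
  have hy0 : 0 < y := by linarith
  have h3 : ∑ n ∈ P, (n : ℝ) ^ (-c) / n ≤ ∑ n ∈ Ioc a (a + P.sup id), (n : ℝ) ^ (-c) / n :=
    sum_le_sum_of_subset_of_nonneg hsub fun n _ _ => by positivity
  have h4 := sum_Ioc_rpow hc a ha1 (P.sup id)
  have h5 : (0 : ℝ) ≤ ((a + P.sup id : ℕ) : ℝ) ^ (-c) := by positivity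
  have h6 : (a : ℝ) ^ (-c) ≤ 2 * y ^ (-c) := by
    calc (a : ℝ) ^ (-c) ≤ (y / 2) ^ (-c) :=
          Real.rpow_le_rpow_of_nonpos (by linarith) hay (by linarith)
      _ = y ^ (-c) * 2 ^ c := by
          rw [Real.div_rpow hy0.le (by norm_num), Real.rpow_neg (by norm_num : (0 : ℝ) ≤ 2)]
          field_simp
      _ ≤ y ^ (-c) * 2 := by
          refine mul_le_mul_of_nonneg_left ?_ (Real.rpow_nonneg hy0.le _)
          calc (2 : ℝ) ^ c ≤ 2 ^ (1 : ℝ) := Real.rpow_le_rpow_of_exponent_le (by norm_num) hc1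
            _ = 2 := Real.rpow_one _
      _ = _ := mul_comm _ _
  have h7 : c * ∑ n ∈ P, (n : ℝ) ^ (-c) / n ≤ 2 * y ^ (-c) :=
    (mul_le_mul_of_nonneg_left h3 hc.le).trans (by linarith)
  rw [div_mul_eq_mul_div, le_div_iff₀ hc]
  linarith

/-- **cut-sum lemma**, power form -/
theorem cut_sum_rpow {P : Finset ℕ} {y c C : ℝ} (hc : 0 < c) (hc1 : c ≤ 1) (hy : 2 ≤ y)
    (hC : 0 ≤ C) (hPy : ∀ p ∈ P, y ≤ (p : ℝ)) (E : Finset (Finset ℕ))
    (hE : ∀ S ∈ E, S ⊆ P) (pp : Finset ℕ → ℕ) (hpp : ∀ S ∈ E, pp S ∈ S)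
    (hlow : ∀ S ∈ E, ∃ q ∈ S, q < pp S)
    (H : ∀ S0 ⊆ P, ∀ ρ ∈ S0, ∑ p ∈ ins P E pp S0 ρ, (1 : ℝ) / p ≤ C * (ρ : ℝ) ^ (-c)) :
    ∑ S ∈ E, law P S ≤ 4 * C / c * y ^ (-c) := by
  have hP : ∀ p ∈ P, 2 ≤ p := fun p hp => by
    have := hPy p hp
    exact_mod_cast hy.trans this
  refine (cut_sum' hP E hE pp hpp hlow (fun ρ => C * (ρ : ℝ) ^ (-c)) H).trans ?_
  have h1 : ∑ ρ ∈ P, C * (ρ : ℝ) ^ (-c) / ρ = C * ∑ ρ ∈ P, (ρ : ℝ) ^ (-c) / ρ := by
    rw [mul_sum]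
    refine sum_congr rfl fun ρ _ => by ring
  rw [h1]
  have h2 := mul_le_mul_of_nonneg_left (tail_rpow hc hc1 hy P hPy) hC
  calc 2 * (C * ∑ ρ ∈ P, (ρ : ℝ) ^ (-c) / ρ) ≤ 2 * (C * (2 / c * y ^ (-c))) := by linarith
    _ = _ := by ring

/-! ### loglog blocks with the bound `min(τ, X)^{-c}` -/

section blocks

variable {c τ C₀ ρ : ℝ} {A : ℕ} {F : Finset ℕ}

/-- blocks above `τ` -/
lemma blocks_high (hτ : 1 ≤ τ) (hC : 0 ≤ C₀) (hF : ∀ p ∈ F, (p : ℝ) ≤ τ ^ A)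
    (hb : ∀ X : ℝ, τ ≤ X → X ≤ τ ^ A →
      ∑ p ∈ F.filter (fun p : ℕ => X < (p : ℝ) ∧ (p : ℝ) ≤ X ^ 2), (1 : ℝ) / p ≤ C₀ * τ ^ (-c)) :
    ∀ (n : ℕ) (X : ℝ), τ ≤ X → τ ^ A ≤ X ^ (2 ^ n) →
      ∑ p ∈ F.filter (fun p : ℕ => X < (p : ℝ)), (1 : ℝ) / p ≤ n * (C₀ * τ ^ (-c)) := by
  have hτ0 : 0 < τ := by linarith
  have hpos : 0 ≤ C₀ * τ ^ (-c) := mul_nonneg hC (Real.rpow_nonneg hτ0.le _)
  have hempty : ∀ X : ℝ, τ ^ A ≤ X → F.filter (fun p : ℕ => X < (p : ℝ)) = ∅ := by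
    intro X hX
    rw [filter_eq_empty_iff]
    intro p hp h
    have := hF p hp
    linarith
  intro n
  induction n with
  | zero =>
    intro X _ hX
    rw [pow_zero, pow_one] at hX
    rw [hempty X hX, sum_empty]
    simp
  | succ n ih =>
    intro X hX hXn
    rcases le_total (τ ^ A) X with hXA | hXA
    · rw [hempty X hXA, sum_empty]
      positivity
    · have hX1 : 1 ≤ X := hτ.trans hX
      have h1 : F.filter (fun p : ℕ => X < (p : ℝ)) ⊆
          F.filter (fun p : ℕ => X < (p : ℝ) ∧ (p : ℝ) ≤ X ^ 2) ∪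
            F.filter (fun p : ℕ => X ^ 2 < (p : ℝ)) := by
        intro p hp
        rw [mem_filter] at hp
        rw [mem_union, mem_filter, mem_filter]
        rcases le_or_gt (p : ℝ) (X ^ 2) with h | h
        · exact Or.inl ⟨hp.1, hp.2, h⟩
        · exact Or.inr ⟨hp.1, h⟩
      have h2 := ih (X ^ 2) (by nlinarith) (by rw [← pow_mul, ← pow_succ']; exact hXn)
      calc ∑ p ∈ F.filter (fun p : ℕ => X < (p : ℝ)), (1 : ℝ) / p
          ≤ ∑ p ∈ F.filter (fun p : ℕ => X < (p : ℝ) ∧ (p : ℝ) ≤ X ^ 2) ∪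
            F.filter (fun p : ℕ => X ^ 2 < (p : ℝ)), (1 : ℝ) / p :=
            sum_le_sum_of_subset_of_nonneg h1 fun p _ _ => by positivity
        _ ≤ ∑ p ∈ F.filter (fun p : ℕ => X < (p : ℝ) ∧ (p : ℝ) ≤ X ^ 2), (1 : ℝ) / p +
            ∑ p ∈ F.filter (fun p : ℕ => X ^ 2 < (p : ℝ)), (1 : ℝ) / p := by
            rw [← sum_union_inter]
            exact le_add_of_nonneg_right (sum_nonneg fun p _ => by positivity)
        _ ≤ C₀ * τ ^ (-c) + n * (C₀ * τ ^ (-c)) := add_le_add (hb X hX hXA) h2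
        _ = _ := by push_cast; ring

/-- **all blocks from `ρ` to `τ^A`** -/
theorem blocks_min (hc : 0 < c) (hC : 0 ≤ C₀) (hρ : 2 ≤ ρ) (hρτ : ρ ≤ τ)
    (hF : ∀ p ∈ F, ρ < (p : ℝ) ∧ (p : ℝ) ≤ τ ^ A)
    (hb : ∀ X : ℝ, ρ ≤ X → X ≤ τ ^ A →
      ∑ p ∈ F.filter (fun p : ℕ => X < (p : ℝ) ∧ (p : ℝ) ≤ X ^ 2), (1 : ℝ) / p ≤
        C₀ * (min τ X) ^ (-c)) :
    ∑ p ∈ F, (1 : ℝ) / p ≤ C₀ * (1 / (1 - (2 : ℝ) ^ (-c)) + A) * ρ ^ (-c) := by
  have hτ1 : 1 ≤ τ := by linarith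
  have hτ0 : 0 < τ := by linarith
  have hρ0 : 0 < ρ := by linarith
  set κ : ℝ := 1 / (1 - (2 : ℝ) ^ (-c)) with hκ
  have h2c : (2 : ℝ) ^ (-c) < 1 := Real.rpow_lt_one_of_one_lt_of_neg (by norm_num) (by linarith)
  have h2c0 : 0 < (2 : ℝ) ^ (-c) := Real.rpow_pos_of_pos (by norm_num) _
  have hκ0 : 0 < κ := by
    rw [hκ]
    exact one_div_pos.2 (by linarith)
  have hκe : κ * (2 : ℝ) ^ (-c) = κ - 1 := by
    have : κ * (1 - (2 : ℝ) ^ (-c)) = 1 := by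
      rw [hκ]
      field_simp
      rw [div_self (by linarith)]
    linarith
  have hτc : 0 ≤ τ ^ (-c) := Real.rpow_nonneg hτ0.le _
  -- blocks above `τ`
  have hhigh : ∀ X : ℝ, τ ≤ X →
      ∑ p ∈ F.filter (fun p : ℕ => X < (p : ℝ)), (1 : ℝ) / p ≤ A * (C₀ * τ ^ (-c)) := by
    intro X hX
    refine blocks_high (c := c) hτ1 hC (fun p hp => (hF p hp).2) (fun X' hX' hXA => ?_) A X hX ?_
    · have := hb X' (hρτ.trans hX') hXA
      rwa [min_eq_left hX'] at this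
    · calc τ ^ A ≤ X ^ A := pow_le_pow_left₀ hτ0.le hX A
        _ ≤ X ^ (2 ^ A) := pow_le_pow_right₀ (hτ1.trans hX) (Nat.lt_two_pow_self).le
  have key : ∀ (J : ℕ) (X : ℝ), ρ ≤ X → τ < X ^ (2 ^ J) →
      ∑ p ∈ F.filter (fun p : ℕ => X < (p : ℝ)), (1 : ℝ) / p ≤
        C₀ * (κ * X ^ (-c) + A * τ ^ (-c)) := by
    intro J
    induction J with
    | zero =>
      intro X hX hXJ
      rw [pow_zero, pow_one] at hXJ
      have h1 := hhigh X hXJ.le
      have h2 : 0 ≤ C₀ * (κ * X ^ (-c)) :=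
        mul_nonneg hC (mul_nonneg hκ0.le (Real.rpow_nonneg (hρ0.le.trans hX) _))
      calc _ ≤ A * (C₀ * τ ^ (-c)) := h1
        _ ≤ C₀ * (κ * X ^ (-c)) + A * (C₀ * τ ^ (-c)) := by linarith
        _ = _ := by ring
    | succ J ih =>
      intro X hX hXJ
      have hX0 : 0 < X := hρ0.trans_le hX
      have hX2 : 2 ≤ X := hρ.trans hX
      rcases lt_or_ge τ X with hτX | hτX
      · have h1 := hhigh X hτX.le
        have h2 : 0 ≤ C₀ * (κ * X ^ (-c)) :=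
          mul_nonneg hC (mul_nonneg hκ0.le (Real.rpow_nonneg hX0.le _))
        calc _ ≤ A * (C₀ * τ ^ (-c)) := h1
          _ ≤ C₀ * (κ * X ^ (-c)) + A * (C₀ * τ ^ (-c)) := by linarith
          _ = _ := by ring
      · rcases lt_or_ge (τ ^ A) X with hXA | hXA
        · -- nothing above
          have hemp : F.filter (fun p : ℕ => X < (p : ℝ)) = ∅ := by
            rw [filter_eq_empty_iff]
            intro p hp h
            have := (hF p hp).2
            linarith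
          rw [hemp, sum_empty]
          exact mul_nonneg hC (add_nonneg (mul_nonneg hκ0.le (Real.rpow_nonneg hX0.le _))
            (mul_nonneg (Nat.cast_nonneg _) hτc))
        · have h1 : F.filter (fun p : ℕ => X < (p : ℝ)) ⊆
              F.filter (fun p : ℕ => X < (p : ℝ) ∧ (p : ℝ) ≤ X ^ 2) ∪
                F.filter (fun p : ℕ => X ^ 2 < (p : ℝ)) := by
            intro p hp
            rw [mem_filter] at hp
            rw [mem_union, mem_filter, mem_filter]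
            rcases le_or_gt (p : ℝ) (X ^ 2) with h | h
            · exact Or.inl ⟨hp.1, hp.2, h⟩
            · exact Or.inr ⟨hp.1, h⟩
          have h2 := ih (X ^ 2) (by nlinarith) (by rw [← pow_mul, ← pow_succ']; exact hXJ)
          have h3 := hb X hX hXA
          rw [min_eq_right hτX] at h3
          have h4 : κ * (X ^ 2) ^ (-c) ≤ (κ - 1) * X ^ (-c) := by
            have e1 : (X ^ 2) ^ (-c) = X ^ (-c) * X ^ (-c) := by
              rw [sq, Real.mul_rpow hX0.le hX0.le]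
            have e2 : X ^ (-c) ≤ (2 : ℝ) ^ (-c) :=
              Real.rpow_le_rpow_of_nonpos (by norm_num) hX2 (by linarith)
            have e3 : 0 ≤ X ^ (-c) := Real.rpow_nonneg hX0.le _
            rw [e1, ← hκe]
            calc κ * (X ^ (-c) * X ^ (-c)) = κ * X ^ (-c) * X ^ (-c) := by ring
              _ ≤ κ * (2 : ℝ) ^ (-c) * X ^ (-c) := by
                  refine mul_le_mul_of_nonneg_right ?_ e3
                  exact mul_le_mul_of_nonneg_left e2 hκ0.le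
          calc ∑ p ∈ F.filter (fun p : ℕ => X < (p : ℝ)), (1 : ℝ) / p
              ≤ ∑ p ∈ F.filter (fun p : ℕ => X < (p : ℝ) ∧ (p : ℝ) ≤ X ^ 2) ∪
                F.filter (fun p : ℕ => X ^ 2 < (p : ℝ)), (1 : ℝ) / p :=
                sum_le_sum_of_subset_of_nonneg h1 fun p _ _ => by positivity
            _ ≤ ∑ p ∈ F.filter (fun p : ℕ => X < (p : ℝ) ∧ (p : ℝ) ≤ X ^ 2), (1 : ℝ) / p +
                ∑ p ∈ F.filter (fun p : ℕ => X ^ 2 < (p : ℝ)), (1 : ℝ) / p := by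
                rw [← sum_union_inter]
                exact le_add_of_nonneg_right (sum_nonneg fun p _ => by positivity)
            _ ≤ C₀ * X ^ (-c) + C₀ * (κ * (X ^ 2) ^ (-c) + A * τ ^ (-c)) := add_le_add h3 h2
            _ ≤ C₀ * X ^ (-c) + C₀ * ((κ - 1) * X ^ (-c) + A * τ ^ (-c)) := by
                refine add_le_add le_rfl (mul_le_mul_of_nonneg_left ?_ hC)
                linarith
            _ = _ := by ring
  -- a large `J`
  obtain ⟨J, hJ⟩ : ∃ J : ℕ, τ < ρ ^ (2 ^ J) := by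
    obtain ⟨n, hn⟩ := pow_unbounded_of_one_lt τ (show (1 : ℝ) < ρ by linarith)
    refine ⟨n, hn.trans_le (pow_le_pow_right₀ (by linarith) (Nat.lt_two_pow_self).le)⟩
  have h1 := key J ρ le_rfl hJ
  have h2 : F.filter (fun p : ℕ => ρ < (p : ℝ)) = F := filter_true_of_mem fun p hp => (hF p hp).1
  rw [h2] at h1
  refine h1.trans ?_
  have h3 : τ ^ (-c) ≤ ρ ^ (-c) := Real.rpow_le_rpow_of_nonpos hρ0 hρτ (by linarith)
  have h4 : (A : ℝ) * τ ^ (-c) ≤ A * ρ ^ (-c) := mul_le_mul_of_nonneg_left h3 (Nat.cast_nonneg _)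
  calc C₀ * (κ * ρ ^ (-c) + A * τ ^ (-c)) ≤ C₀ * (κ * ρ ^ (-c) + A * ρ ^ (-c)) :=
        mul_le_mul_of_nonneg_left (by linarith) hC
    _ = _ := by ring

end blocks

end Crest.Agent.R4C.CutSumx129
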