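import Crest.Agent.R4C.GWhyp_656

/-!
# Row 4: cut-sum lemma for BLOCK NH (3754) (helper492)

Words = finite sets `S ⊆ P` of primes, natural law `law P S` of `GWhyp_656`.
Each word of `E` has a distinguished letter `pos S` with at least one letter below it
(`ρ` = the largest letter below `pos S`).

* `mean_letters` : `E[∑_{ρ ∈ S} w ρ] = ∑_{ρ ∈ P} w ρ / ρ`
* `cut_sum`      : if for every rest `S0` and every `ρ ∈ S0` the possible letters `p` (directly
  above `ρ`) have `∑ 1/p ≤ w ρ`, then `law E ≤ 2 ∑_{ρ ∈ P} w ρ / ρ`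
* `cut_sum_pow`  : the same with `w ρ = K ρ^{-c}`: `law E ≤ C(c) K y^{-c}`
* `block_sum`    : `(mass in (X,X²]) ≤ K min(τ,X)^{-c}` for `ρ ≤ X ≤ τ^B` gives
  `mass in (ρ, τ^B] ≤ C(B,c) K ρ^{-c}`
-/

set_option autoImplicit false

namespace Crest.Agent.R4C.CutSumx492

open Finset Crest.Agent.R4C.GWhx656

lemma sum_biUnion_le'' {ι : Type*} (s : Finset ι) (t : ι → Finset ℕ) (f : ℕ → ℝ)
    (hf : ∀ i ∈ s, ∀ a ∈ t i, 0 ≤ f a) :
    ∑ a ∈ s.biUnion t, f a ≤ ∑ i ∈ s, ∑ a ∈ t i, f a := by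
  classical
  induction s using Finset.induction_on with
  | empty => simp
  | insert i s hi ih =>
    rw [biUnion_insert, sum_insert hi]
    have h1 : ∑ a ∈ t i ∪ s.biUnion t, f a ≤ ∑ a ∈ t i, f a + ∑ a ∈ s.biUnion t, f a := by
      rw [← sum_union_inter]
      refine le_add_of_nonneg_right (sum_nonneg fun a ha => ?_)
      exact hf i (mem_insert_self _ _) a (mem_inter.1 ha).1
    exact h1.trans (add_le_add le_rfl (ih fun j hj => hf j (mem_insert_of_mem hj)))

/-- probability of a letter -/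
lemma law_letter {P : Finset ℕ} {ρ : ℕ} (hρ : ρ ∈ P) :
    ∑ S ∈ P.powerset with ρ ∈ S, law P S = 1 / (ρ : ℝ) := by
  classical
  have hP : insert ρ (P.erase ρ) = P := insert_erase hρ
  have e1 : P.powerset.filter (fun S => ρ ∈ S) = (P.erase ρ).powerset.image (fun S => insert ρ S) := by
    ext S
    rw [mem_filter, mem_powerset, mem_image]
    constructor
    · rintro ⟨h1, h2⟩
      exact ⟨S.erase ρ, mem_powerset.2 (erase_subset_erase _ h1), insert_erase h2⟩
    · rintro ⟨S', h1, rfl⟩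
      rw [mem_powerset] at h1
      exact ⟨insert_subset hρ (h1.trans (erase_subset _ _)), mem_insert_self _ _⟩
  have hinj : ∀ S ∈ (P.erase ρ).powerset, ∀ S' ∈ (P.erase ρ).powerset,
      insert ρ S = insert ρ S' → S = S' := by
    intro S hS S' hS' he
    rw [mem_powerset] at hS hS'
    have h1 : ρ ∉ S := fun h => (notMem_erase ρ P) (hS h)
    have h2 : ρ ∉ S' := fun h => (notMem_erase ρ P) (hS' h)
    rw [← erase_insert h1, ← erase_insert h2, he]
  rw [e1, sum_image hinj]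
  have e2 : ∀ S ∈ (P.erase ρ).powerset, law P (insert ρ S) = 1 / (ρ : ℝ) * law (P.erase ρ) S := by
    intro S hS
    rw [mem_powerset] at hS
    have h1 : ρ ∉ S := fun h => (notMem_erase ρ P) (hS h)
    unfold law
    rw [prod_insert h1]
    have h3 : P \ insert ρ S = (P.erase ρ) \ S := by
      ext q
      simp only [mem_sdiff, mem_insert, mem_erase]
      tauto
    rw [h3]
    ring
  rw [sum_congr rfl e2, ← mul_sum, sum_law, mul_one]

/-- mean of a sum over the letters of the word -/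
lemma mean_letters (P : Finset ℕ) (w : ℕ → ℝ) :
    ∑ S ∈ P.powerset, law P S * ∑ ρ ∈ S, w ρ = ∑ ρ ∈ P, w ρ / ρ := by
  classical
  have h1 : ∀ S ∈ P.powerset, law P S * ∑ ρ ∈ S, w ρ =
      ∑ ρ ∈ P, if ρ ∈ S then law P S * w ρ else 0 := by
    intro S hS
    rw [mem_powerset] at hS
    rw [mul_sum, ← sum_filter, filter_mem_eq_inter, inter_eq_right.2 hS]
  rw [sum_congr rfl h1, sum_comm]
  refine sum_congr rfl fun ρ hρ => ?_
  rw [← sum_filter, ← sum_mul, law_letter hρ]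
  ring

/-- the possible distinguished letters for the rest `S0`, directly above `ρ` -/
noncomputable def cutc (P : Finset ℕ) (E : Finset (Finset ℕ)) (pos : Finset ℕ → ℕ)
    (S0 : Finset ℕ) (ρ : ℕ) : Finset ℕ := by
  classical
  exact P.filter fun p : ℕ => p ∉ S0 ∧ insert p S0 ∈ E ∧ pos (insert p S0) = p ∧ ρ < p ∧
    ∀ q ∈ S0, q < p → q ≤ ρ

lemma mem_cutc {P : Finset ℕ} {E : Finset (Finset ℕ)} {pos : Finset ℕ → ℕ} {S0 : Finset ℕ}
    {ρ p : ℕ} : p ∈ cutc P E pos S0 ρ ↔ p ∈ P ∧ p ∉ S0 ∧ insert p S0 ∈ E ∧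
      pos (insert p S0) = p ∧ ρ < p ∧ ∀ q ∈ S0, q < p → q ≤ ρ := by
  unfold cutc
  rw [mem_filter]

/-- **cut-sum lemma**, 656's literal form (odds `od p = 1/(p-1)`) -/
theorem cut_sum_od {P : Finset ℕ} (hP : ∀ p ∈ P, 2 ≤ p) (E : Finset (Finset ℕ))
    (hE : ∀ S ∈ E, S ⊆ P) (pos : Finset ℕ → ℕ) (hpos : ∀ S ∈ E, pos S ∈ S)
    (hlo : ∀ S ∈ E, ∃ q ∈ S, q < pos S) (φ : ℕ → ℝ)
    (H : ∀ S0 : Finset ℕ, S0 ⊆ P → ∀ ρ ∈ S0, ∑ p ∈ cutc P E pos S0 ρ, od p ≤ φ ρ) :
    ∑ S ∈ E, law P S ≤ ∑ ρ ∈ P, φ ρ / ρ := by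
  classical
  have hl : ∀ S ∈ E, law P S = law P (S.erase (pos S)) * od (pos S) := by
    intro S hS
    have h1 := law_union (P := P) (S := S.erase (pos S)) (T := {pos S}) hP
      (singleton_subset_iff.2 (hE S hS (hpos S hS)))
      (disjoint_singleton_right.2 (notMem_erase _ _))
    rw [prod_singleton, union_comm, ← insert_eq, insert_erase (hpos S hS)] at h1
    exact h1
  rw [sum_congr rfl hl]
  have hmaps : ∀ S ∈ E, S.erase (pos S) ∈ P.powerset := fun S hS =>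
    mem_powerset.2 ((erase_subset _ _).trans (hE S hS))
  rw [← sum_fiberwise_of_maps_to hmaps]
  have key : ∀ S0 ∈ P.powerset,
      ∑ S ∈ E with S.erase (pos S) = S0, law P (S.erase (pos S)) * od (pos S) ≤
        law P S0 * ∑ ρ ∈ S0, φ ρ := by
    intro S0 hS0
    rw [mem_powerset] at hS0
    have e1 : ∀ S ∈ E.filter (fun S => S.erase (pos S) = S0),
        law P (S.erase (pos S)) * od (pos S) = law P S0 * od (pos S) := by
      intro S hS
      rw [(mem_filter.1 hS).2]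
    rw [sum_congr rfl e1, ← mul_sum]
    refine mul_le_mul_of_nonneg_left ?_ (law_nonneg fun p hp => by have := hP p hp; omega)
    -- words of the fibre correspond to their letter
    have hinj : ∀ S ∈ E.filter (fun S => S.erase (pos S) = S0),
        ∀ S' ∈ E.filter (fun S => S.erase (pos S) = S0), pos S = pos S' → S = S' := by
      intro S hS S' hS' he
      rw [mem_filter] at hS hS'
      rw [← insert_erase (hpos S hS.1), ← insert_erase (hpos S' hS'.1), hS.2, hS'.2, he]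
    have e2 : ∑ S ∈ E.filter (fun S => S.erase (pos S) = S0), od (pos S) =
        ∑ p ∈ (E.filter (fun S => S.erase (pos S) = S0)).image pos, od p := (sum_image hinj).symm
    rw [e2]
    have hsub : (E.filter (fun S => S.erase (pos S) = S0)).image pos ⊆
        S0.biUnion fun ρ => cutc P E pos S0 ρ := by
      intro p hp
      obtain ⟨S, hS, rfl⟩ := mem_image.1 hp
      rw [mem_filter] at hS
      have hins : insert (pos S) S0 = S := by
        rw [← hS.2, insert_erase (hpos S hS.1)]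
      have hnot : pos S ∉ S0 := by
        rw [← hS.2]; exact notMem_erase _ _
      -- largest letter below `pos S`
      have hne : (S0.filter (· < pos S)).Nonempty := by
        obtain ⟨q, h1, h2⟩ := hlo S hS.1
        refine ⟨q, mem_filter.2 ⟨?_, h2⟩⟩
        rw [← hS.2]
        exact mem_erase.2 ⟨h2.ne, h1⟩
      have hmax := max'_mem _ hne
      rw [mem_filter] at hmax
      refine mem_biUnion.2 ⟨_, hmax.1, ?_⟩
      rw [mem_cutc]
      refine ⟨hE S hS.1 (hpos S hS.1), hnot, by rw [hins]; exact hS.1, by rw [hins], hmax.2,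
        fun q hq h => le_max' _ _ (mem_filter.2 ⟨hq, h⟩)⟩
    have hod : ∀ p ∈ S0.biUnion (fun ρ => cutc P E pos S0 ρ), 0 ≤ od p := by
      intro p hp
      obtain ⟨ρ, _, h2⟩ := mem_biUnion.1 hp
      exact od_nonneg (by have := hP p (mem_cutc.1 h2).1; omega)
    calc ∑ p ∈ (E.filter (fun S => S.erase (pos S) = S0)).image pos, od p
        ≤ ∑ p ∈ S0.biUnion (fun ρ => cutc P E pos S0 ρ), od p :=
          sum_le_sum_of_subset_of_nonneg hsub fun p hp _ => hod p hp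
      _ ≤ ∑ ρ ∈ S0, ∑ p ∈ cutc P E pos S0 ρ, od p := by
          refine sum_biUnion_le'' _ _ _ fun ρ hρ p hp => ?_
          exact hod p (mem_biUnion.2 ⟨ρ, hρ, hp⟩)
      _ ≤ ∑ ρ ∈ S0, φ ρ := sum_le_sum fun ρ hρ => H S0 hS0 ρ hρ
  refine (sum_le_sum key).trans ?_
  rw [mean_letters P φ]

/-- cut-sum lemma with `1/p` -/
theorem cut_sum {P : Finset ℕ} (hP : ∀ p ∈ P, 2 ≤ p) (E : Finset (Finset ℕ))
    (hE : ∀ S ∈ E, S ⊆ P) (pos : Finset ℕ → ℕ) (hpos : ∀ S ∈ E, pos S ∈ S)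
    (hlo : ∀ S ∈ E, ∃ q ∈ S, q < pos S) (w : ℕ → ℝ)
    (H : ∀ S0 : Finset ℕ, S0 ⊆ P → ∀ ρ ∈ S0, ∑ p ∈ cutc P E pos S0 ρ, (1 : ℝ) / p ≤ w ρ) :
    ∑ S ∈ E, law P S ≤ 2 * ∑ ρ ∈ P, w ρ / ρ := by
  refine (cut_sum_od hP E hE pos hpos hlo (fun ρ => 2 * w ρ) fun S0 hS0 ρ hρ => ?_).trans
    (le_of_eq ?_)
  · calc ∑ p ∈ cutc P E pos S0 ρ, od p ≤ ∑ p ∈ cutc P E pos S0 ρ, 2 * ((1 : ℝ) / p) :=
          sum_le_sum fun p hp => od_le (hP p (mem_cutc.1 hp).1)
      _ = 2 * ∑ p ∈ cutc P E pos S0 ρ, (1 : ℝ) / p := (mul_sum _ _ _).symm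
      _ ≤ 2 * w ρ := by linarith [H S0 hS0 ρ hρ]
  · rw [mul_sum]
    refine sum_congr rfl fun ρ _ => ?_
    ring

end Crest.Agent.R4C.CutSumx492
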