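import Crest.Agent.R4C.IIIR_256
import Crest.Agent.R4C.S7d_14
import Crest.Agent.R4C.Rule_945

/-!
# III-R(X) for "a prime `> X` divides `k_X(b)`" (helper256; 3460, 3495 (3), 3600)

Part A.  Linked pair with the same point (centres `f` of `b`, `f'` of `c`), good above `x`.
If `q > x` does not divide `k0 F x c f'` then `v_q (k0 F x b f) ≤ v_q (F.ell x c)`:
the primes of `k0 F x b f` above `x` are deficits of `c` (`upp_k0_dvd_ell`).

Part B.  `DK F P m b c`: good above `cut m`, `b` has a centre `f` with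
`2 dep^2 L < uu (cut m) b` (such `f` is unique), `k0` has a prime above `cut m`, and the part of `k0`
above `cut m` divides `F.ell (cut m) c`.  Energy of all these pairs, all `t = 2^m ≥ 2^m0`, all pair
scales `T ≤ t^2`, with any weight `≤ 2^(θ m)`: `defK_total`.
-/

set_option autoImplicit false
set_option linter.unusedVariables false

namespace Crest.Agent.R4C.DefKx256

open Finset Crest.Agent.R4C.Basex935 Crest.Agent.R4C.Cutx50 Crest.Agent.R4C.FLDefx935
  Crest.Agent.R4C.BoostCx972 Crest.Agent.R4C.CrCoinx935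
  Crest.Agent.R4C.S7cx14 Crest.Agent.R4C.S7dx14 Crest.Agent.R4C.Rulex945 Crest.Agent.R4C.IIIRx256
open scoped Classical

/-! ## Part A: the point -/

section point

variable {g s s' : ℕ} {h : ℤ} {f f' : ℚ}

/-- equality of the reduced fractions of the common point -/
lemma point_eq (hg : 0 < g) (hs : 0 < s) (hs' : 0 < s')
    (h0 : gap f f' s s' h = 0) {n n' : ℤ} (hn : h = s * n - s' * n') :
    kden (g * s) f = kden (g * s') f' ∧
    (gnum (g * s) f : ℤ) * (f.num + n * f.den) = gnum (g * s') f' * (f'.num + n' * f'.den) := by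
  set b := g * s with hb
  set c := g * s' with hc
  have hb0 : 0 < b := Nat.mul_pos hg hs
  have hc0 : 0 < c := Nat.mul_pos hg hs'
  -- the rational equality
  have e1 : (b : ℚ) * (f + n) = c * (f' + n') := by
    have : (g : ℚ) * gap f f' s s' h = 0 := by rw [h0, mul_zero]
    unfold gap at this
    rw [hn] at this
    push_cast at this
    rw [hb, hc]
    push_cast
    linear_combination this
  have hf : (f.num : ℚ) = f * f.den := (Rat.mul_den_eq_num f).symm
  have hf' : (f'.num : ℚ) = f' * f'.den := (Rat.mul_den_eq_num f').symm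
  have hd : (f.den : ℚ) = Nat.gcd b f.den * kden b f := by exact_mod_cast (kden_mul b f).symm
  have hd' : (f'.den : ℚ) = Nat.gcd c f'.den * kden c f' := by
    exact_mod_cast (kden_mul c f').symm
  have hbq : (b : ℚ) = Nat.gcd b f.den * gnum b f := by exact_mod_cast (gnum_mul b f).symm
  have hcq : (c : ℚ) = Nat.gcd c f'.den * gnum c f' := by exact_mod_cast (gnum_mul c f').symm
  have hβ : (Nat.gcd b f.den : ℚ) ≠ 0 := by exact_mod_cast (beta_pos b f).ne'
  have hβ' : (Nat.gcd c f'.den : ℚ) ≠ 0 := by exact_mod_cast (beta_pos c f').ne'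
  -- `gnum · P̃ · kden' = gnum' · P̃' · kden`
  have e2 : (gnum b f : ℚ) * (f.num + n * f.den) * kden c f' =
      gnum c f' * (f'.num + n' * f'.den) * kden b f := by
    have h1 : (gnum b f : ℚ) * (f.num + n * f.den) = kden b f * (b * (f + n)) := by
      have h2 : (Nat.gcd b f.den : ℚ) * ((gnum b f : ℚ) * (f.num + n * f.den)) =
          Nat.gcd b f.den * (kden b f * (b * (f + n))) := by
        rw [hf]
        linear_combination (-(f + n) * f.den) * hbq + (b * (f + n)) * hd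
      exact mul_left_cancel₀ hβ h2
    have h1' : (gnum c f' : ℚ) * (f'.num + n' * f'.den) = kden c f' * (c * (f' + n')) := by
      have h2 : (Nat.gcd c f'.den : ℚ) * ((gnum c f' : ℚ) * (f'.num + n' * f'.den)) =
          Nat.gcd c f'.den * (kden c f' * (c * (f' + n'))) := by
        rw [hf']
        linear_combination (-(f' + n') * f'.den) * hcq + (c * (f' + n')) * hd'
      exact mul_left_cancel₀ hβ' h2
    rw [h1, h1', e1]
    ring
  have e3 : (gnum b f : ℤ) * (f.num + n * f.den) * kden c f' =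
      gnum c f' * (f'.num + n' * f'.den) * kden b f := by exact_mod_cast e2
  have hcopP : ∀ (d : ℕ) (u : ℚ) (m : ℤ), IsCoprime ((gnum d u : ℤ) * (u.num + m * u.den))
      (kden d u : ℤ) := by
    intro d u m
    refine IsCoprime.mul_left ?_ ?_
    · rw [Nat.isCoprime_iff_coprime]
      exact gnum_kden_coprime u
    · have h1 : IsCoprime (u.num + m * u.den) (u.den : ℤ) := by
        have h2 : IsCoprime u.num (u.den : ℤ) := by
          rw [Int.isCoprime_iff_gcd_eq_one]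
          exact u.reduced
        exact (IsCoprime.add_mul_left_left h2 m |> fun h => by
          rwa [mul_comm (u.den : ℤ) m] at h)
      exact h1.of_isCoprime_of_dvd_right (Int.natCast_dvd_natCast.2 (kden_dvd d u))
  have hkk : kden b f = kden c f' := by
    have h1 : (kden b f : ℤ) ∣ kden c f' := by
      refine (hcopP b f n).symm.dvd_of_dvd_mul_left ?_
      rw [e3]
      exact dvd_mul_left _ _
    have h2 : (kden c f' : ℤ) ∣ kden b f := by
      refine (hcopP c f' n').symm.dvd_of_dvd_mul_left ?_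
      rw [← e3]
      exact dvd_mul_left _ _
    exact Nat.dvd_antisymm (Int.natCast_dvd_natCast.1 h1) (Int.natCast_dvd_natCast.1 h2)
  refine ⟨hkk, ?_⟩
  rw [hkk] at e3
  exact mul_right_cancel₀ (by exact_mod_cast (kden_pos c f').ne') e3

variable {M : ℕ} {F : FL M} {x : ℕ}

/-- valuation of `k0` -/
lemma fact_k0 {b q : ℕ} (hM : 0 < M) (f : ℚ) :
    (k0 F x b f).factorization q + min (f.den.factorization q) ((F.lam x b).factorization q) =
      f.den.factorization q := by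
  have h := k0_mul (F := F) x b f
  have hg : Nat.gcd f.den (F.lam x b) ≠ 0 := (Nat.gcd_pos_of_pos_left _ f.den_pos).ne'
  have h1 := congrArg (fun n => n.factorization q) h
  rw [Nat.factorization_mul (k0_pos x b f).ne' hg, Finsupp.add_apply,
    Nat.factorization_gcd f.den_pos.ne' (FL.lam_pos x b).ne'] at h1
  simpa using h1

/-- valuation of `gnum` -/
lemma fact_gnum {b q : ℕ} (hb : 0 < b) (f : ℚ) :
    (gnum b f).factorization q + min (b.factorization q) (f.den.factorization q) =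
      b.factorization q := by
  have h := gnum_mul b f
  have h1 := congrArg (fun n => n.factorization q) h
  rw [Nat.factorization_mul (beta_pos b f).ne' (gnum_pos hb f).ne', Finsupp.add_apply,
    Nat.factorization_gcd hb.ne' f.den_pos.ne'] at h1
  have h2 : ((b.factorization ⊓ f.den.factorization) q) =
      min (b.factorization q) (f.den.factorization q) := by simp
  rw [h2] at h1
  omega

lemma fact_kden {b q : ℕ} (hb : 0 < b) (f : ℚ) :
    (kden b f).factorization q + min (b.factorization q) (f.den.factorization q) =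
      f.den.factorization q := by
  have h := kden_mul b f
  have h1 := congrArg (fun n => n.factorization q) h
  rw [Nat.factorization_mul (beta_pos b f).ne' (kden_pos b f).ne', Finsupp.add_apply,
    Nat.factorization_gcd hb.ne' f.den_pos.ne'] at h1
  have h2 : ((b.factorization ⊓ f.den.factorization) q) =
      min (b.factorization q) (f.den.factorization q) := by simp
  rw [h2] at h1
  omega

lemma kden_dvd_k0 {b : ℕ} (hM : 0 < M) (hb : b ∣ M) (f : ℚ) : kden b f ∣ k0 F x b f :=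
  (dvd_mul_right _ _).trans (kden_mul_dvd hM hb (isC_k0 (F := F) x b f))

/-- numerators: the exponent of `q` in the unexplained part -/
theorem fact_uu_le (hM : 0 < M) (hb : g * s ∣ M) (hc : g * s' ∣ M) (hg : 0 < g) (hs : 0 < s)
    (hs' : 0 < s') (hcop : Nat.Coprime s s') (h0 : gap f f' s s' h = 0) {q : ℕ} (hq : q.Prime)
    (hkc : ¬ q ∣ k0 F x (g * s') f') (he : q ∣ k0 F x (g * s) f) :
    (F.uu x (g * s')).factorization q + (k0 F x (g * s) f).factorization q ≤
      (F.uu x (g * s)).factorization q := by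
  obtain ⟨n, n', hn⟩ := exists_shift hcop h
  obtain ⟨e1, e2⟩ := point_eq hg hs hs' h0 hn
  set b := g * s with hbdef
  set c := g * s' with hcdef
  have hb0 : 0 < b := Nat.mul_pos hg hs
  have hc0 : 0 < c := Nat.mul_pos hg hs'
  set e := (k0 F x b f).factorization q with hedef
  have he1 : 1 ≤ e := hq.factorization_pos_of_dvd (k0_pos x b f).ne' he
  have a1 := fact_k0 (F := F) (x := x) (b := b) (q := q) hM f
  have a2 := fact_k0 (F := F) (x := x) (b := c) (q := q) hM f'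
  have a3 : (k0 F x c f').factorization q = 0 := Nat.factorization_eq_zero_of_not_dvd hkc
  -- `q ∤ kden`
  have hk : ¬ q ∣ kden b f := by
    rw [e1]
    exact fun hh => hkc (hh.trans (kden_dvd_k0 hM hc f'))
  have a4 : (kden b f).factorization q = 0 := Nat.factorization_eq_zero_of_not_dvd hk
  have a5 := fact_kden (q := q) hb0 f
  have a6 := fact_gnum (q := q) hb0 f
  have a7 := fact_gnum (q := q) hc0 f'
  have b1 := FL.uu_mul_lam (F := F) (x := x) hM hb
  have b2 := FL.uu_mul_lam (F := F) (x := x) hM hc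
  have c1 : (F.uu x b).factorization q + (F.lam x b).factorization q = b.factorization q := by
    have := congrArg (fun n => n.factorization q) b1
    rwa [Nat.factorization_mul (FL.uu_pos x b).ne' (FL.lam_pos x b).ne', Finsupp.add_apply] at this
  have c2 : (F.uu x c).factorization q + (F.lam x c).factorization q = c.factorization q := by
    have := congrArg (fun n => n.factorization q) b2
    rwa [Nat.factorization_mul (FL.uu_pos x c).ne' (FL.lam_pos x c).ne', Finsupp.add_apply] at this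
  -- the shifted numerator of `f` is prime to `q`
  have hqd : q ∣ f.den := he.trans (Dvd.intro _ (k0_mul (F := F) x b f))
  set W : ℤ := f.num + n * f.den with hW
  set W' : ℤ := f'.num + n' * f'.den with hW'
  have hcopW : IsCoprime W (f.den : ℤ) := by
    have h2 : IsCoprime f.num (f.den : ℤ) := by
      rw [Int.isCoprime_iff_gcd_eq_one]
      exact f.reduced
    exact (IsCoprime.add_mul_left_left h2 n |> fun h => by rwa [mul_comm (f.den : ℤ) n] at h)
  have hqW : ¬ q ∣ W.natAbs := by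
    intro hc
    have h3 : (q : ℤ) ∣ W := Int.natCast_dvd.2 hc
    have h4 : (q : ℤ) ∣ f.den := Int.natCast_dvd_natCast.2 hqd
    have h5 := (hcopW.isUnit_of_dvd' h3 h4)
    exact hq.one_lt.ne' (by simpa using Int.isUnit_iff_natAbs_eq.1 h5)
  have hW0 : W.natAbs ≠ 0 := fun hc => hqW (hc ▸ dvd_zero q)
  have e3 : gnum b f * W.natAbs = gnum c f' * W'.natAbs := by
    have := congrArg Int.natAbs e2
    rwa [Int.natAbs_mul, Int.natAbs_mul, Int.natAbs_natCast, Int.natAbs_natCast] at this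
  have hN : gnum b f * W.natAbs ≠ 0 := mul_ne_zero (gnum_pos hb0 f).ne' hW0
  have hW0' : W'.natAbs ≠ 0 := by
    intro hc
    rw [e3, hc, mul_zero] at hN
    exact hN rfl
  have e4 : (gnum b f).factorization q = (gnum c f').factorization q + W'.natAbs.factorization q := by
    have := congrArg (fun n => n.factorization q) e3
    rw [Nat.factorization_mul (gnum_pos hb0 f).ne' hW0,
      Nat.factorization_mul (gnum_pos hc0 f').ne' hW0', Finsupp.add_apply, Finsupp.add_apply,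
      Nat.factorization_eq_zero_of_not_dvd hqW] at this
    omega
  omega

/-- **unexplained deficits** (251, 3460): same point, good above `x`, `q > x`,
`q ∤ k0 F x c f'` -/
theorem fact_k0_le_ell (hM : 0 < M) (hb : g * s ∣ M) (hc : g * s' ∣ M) (hg : 0 < g) (hs : 0 < s)
    (hs' : 0 < s') (hcop : Nat.Coprime s s') (h0 : gap f f' s s' h = 0)
    (hx : F.good x (g * s) (g * s')) {q : ℕ} (hq : q.Prime) (hxq : x < q)
    (hkc : ¬ q ∣ k0 F x (g * s') f') :
    (k0 F x (g * s) f).factorization q ≤ (F.ell x (g * s')).factorization q := by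
  by_cases he : q ∣ k0 F x (g * s) f
  · have h1 := fact_uu_le (F := F) (x := x) hM hb hc hg hs hs' hcop h0 hq hkc he
    have he1 : 1 ≤ (k0 F x (g * s) f).factorization q :=
      hq.factorization_pos_of_dvd (k0_pos x _ f).ne' he
    rw [FL.fact_uu, FL.fact_uu] at h1
    rw [FL.fact_ell]
    by_cases hqM : q ∈ M.primeFactors
    · simp only [hqM, if_true] at h1 ⊢
      unfold FL.uuE at h1
      unfold FL.ellE
      simp only [hxq, if_true] at h1 ⊢
      rw [← FL.ctr_eq hb hc hx.1 hq hxq.le] at h1 ⊢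
      cases hcc : F.ctr (g * s) q with
      | none =>
        rw [hcc] at h1
        have h2 := hx.1 q hq hxq hcc
        simp only at h1
        omega
      | some v0 =>
        rw [hcc] at h1
        simp only at h1 ⊢
        omega
    · simp only [hqM, if_false] at h1
      omega
  · rw [Nat.factorization_eq_zero_of_not_dvd he]
    exact Nat.zero_le _

/-- the part of `k0` above the cut divides the deficit of the partner -/
theorem upp_k0_dvd_ell (hM : 0 < M) (hb : g * s ∣ M) (hc : g * s' ∣ M) (hg : 0 < g) (hs : 0 < s)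
    (hs' : 0 < s') (hcop : Nat.Coprime s s') (h0 : gap f f' s s' h = 0)
    (hx : F.good x (g * s) (g * s')) (hkc : k0 F x (g * s') f' ≤ x) :
    upp x (k0 F x (g * s) f) ∣ F.ell x (g * s') := by
  rw [← Nat.factorization_le_iff_dvd (upp_pos x _).ne' (FL.ell_pos x _).ne']
  intro q
  rw [fact_upp]
  split_ifs with h1
  · exact Nat.zero_le _
  · by_cases hq : q.Prime
    · refine fact_k0_le_ell hM hb hc hg hs hs' hcop h0 hx hq (by omega) fun hd => ?_
      have := Nat.le_of_dvd (k0_pos x _ f') hd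
      omega
    · rw [Nat.factorization_eq_zero_of_not_prime _ hq]
      exact Nat.zero_le _

end point

/-! ## Part B: the relation and its energy -/

section energy

variable {M : ℕ}

/-- depth small against `uu`: such a centre is unique (251's M2) -/
def Uc (F : FL M) (P : Par) (m b : ℕ) (f : ℚ) : Prop :=
  2 * dep F P m b f ^ 2 * P.L < F.uu (P.cut m) b

lemma Uc.unique {F : FL M} {P : Par} (hL : 0 < P.L) (hM : 0 < M) {m b : ℕ}
    (hb : b ∣ M) {f₁ f₂ : ℚ} (h₁ : Uc F P m b f₁) (h₂ : Uc F P m b f₂) : f₁ = f₂ := by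
  by_contra hne
  have h := conflict (γ := P.γ) (F := F) hM hb (le_refl (P.cut m)) (isC_k0 (F := F) (P.cut m) b f₁)
    (isC_k0 (F := F) (P.cut m) b f₂) hne
  have d1 := one_le_dep (F := F) (P := P) m b f₁
  have d2 := one_le_dep (F := F) (P := P) m b f₂
  have k1 := k0_le_dep (F := F) (P := P) m b f₁
  have k2 := k0_le_dep (F := F) (P := P) m b f₂
  have h' : (F.uu (P.cut m) b : ℝ) ≤ 2 * dep F P m b f₁ * dep F P m b f₂ * P.L := by
    refine h.trans ?_
    unfold dep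
    set K₁ : ℝ := (k0 F (P.cut m) b f₁ : ℝ) with hK₁
    set K₂ : ℝ := (k0 F (P.cut m) b f₂ : ℝ) with hK₂
    set e₁ : ℝ := (b : ℝ) * |P.γ - f₁| with he₁
    set e₂ : ℝ := (b : ℝ) * |P.γ - f₂| with he₂
    have a1 : 1 ≤ K₁ := k0_pos' m b f₁
    have a2 : 1 ≤ K₂ := k0_pos' m b f₂
    have g1 : e₁ ≤ max 1 (e₁ / P.L) * P.L := by
      calc e₁ = e₁ / P.L * P.L := by field_simp
        _ ≤ _ := mul_le_mul_of_nonneg_right (le_max_right _ _) hL.le
    have g2 : e₂ ≤ max 1 (e₂ / P.L) * P.L := by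
      calc e₂ = e₂ / P.L * P.L := by field_simp
        _ ≤ _ := mul_le_mul_of_nonneg_right (le_max_right _ _) hL.le
    set x₁ := max 1 (e₁ / P.L) with hx₁
    set x₂ := max 1 (e₂ / P.L) with hx₂
    have b1 : 1 ≤ x₁ := le_max_left _ _
    have b2 : 1 ≤ x₂ := le_max_left _ _
    have e3 : e₁ + e₂ ≤ 2 * (x₁ * x₂) * P.L := by
      have : x₁ + x₂ ≤ 2 * (x₁ * x₂) := by nlinarith
      calc e₁ + e₂ ≤ (x₁ + x₂) * P.L := by linarith
        _ ≤ _ := mul_le_mul_of_nonneg_right this hL.le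
    calc K₁ * K₂ * (e₁ + e₂) ≤ K₁ * K₂ * (2 * (x₁ * x₂) * P.L) :=
          mul_le_mul_of_nonneg_left e3 (by positivity)
      _ = _ := by ring
  unfold Uc at h₁ h₂
  rcases le_total (dep F P m b f₁) (dep F P m b f₂) with h3 | h3
  · have : 2 * dep F P m b f₁ * dep F P m b f₂ * P.L ≤ 2 * dep F P m b f₂ ^ 2 * P.L := by
      have h4 : 2 * dep F P m b f₁ * dep F P m b f₂ ≤ 2 * dep F P m b f₂ ^ 2 := by nlinarith
      exact mul_le_mul_of_nonneg_right h4 hL.le
    linarith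
  · have : 2 * dep F P m b f₁ * dep F P m b f₂ * P.L ≤ 2 * dep F P m b f₁ ^ 2 * P.L := by
      have h4 : 2 * dep F P m b f₁ * dep F P m b f₂ ≤ 2 * dep F P m b f₁ ^ 2 := by nlinarith
      exact mul_le_mul_of_nonneg_right h4 hL.le
    linarith

/-- the relation: `l` is a multiple of the part of `k0` above the cut -/
def RK (F : FL M) (P : Par) (m b l : ℕ) : Prop :=
  ∃ f : ℚ, Uc F P m b f ∧ upp (P.cut m) (k0 F (P.cut m) b f) ≠ 1 ∧
    upp (P.cut m) (k0 F (P.cut m) b f) ∣ l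

/-- **the class** -/
def DK (F : FL M) (P : Par) (m b c : ℕ) : Prop :=
  F.good (P.cut m) b c ∧ RK F P m b (F.ell (P.cut m) c)

/-- pairs with the same point are in the class as soon as `k0` of `b` has a prime above the cut -/
theorem DK_of_point {F : FL M} {P : Par} {g s s' m : ℕ} {h : ℤ} {f f' : ℚ} (hM : 0 < M)
    (hb : g * s ∣ M) (hc : g * s' ∣ M) (hg : 0 < g) (hs : 0 < s)
    (hs' : 0 < s') (hcop : Nat.Coprime s s') (h0 : gap f f' s s' h = 0)
    (hx : F.good (P.cut m) (g * s) (g * s')) (hu : Uc F P m (g * s) f)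
    (hkb : upp (P.cut m) (k0 F (P.cut m) (g * s) f) ≠ 1)
    (hkc : k0 F (P.cut m) (g * s') f' ≤ P.cut m) : DK F P m (g * s) (g * s') :=
  ⟨hx, f, hu, hkb, upp_k0_dvd_ell hM hb hc hg hs hs' hcop h0 hx hkc⟩

lemma upp_gt {x k : ℕ} (h : upp x k ≠ 1) : x < upp x k := by
  obtain ⟨p, hp, hpd⟩ := Nat.exists_prime_and_dvd h
  have h1 := prime_dvd_part (S := fun p => ¬ p ≤ x) hp hpd
  have h2 := Nat.le_of_dvd (upp_pos x k) hpd
  omega

lemma RK_card {F : FL M} {P : Par} (hL : 0 < P.L) (hM : 0 < M) {m b : ℕ} (hb : b ∣ M)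
    (hx : 0 < P.cut m) (N : ℕ) :
    (((Finset.Icc 1 N).filter (fun n => Rough (P.cut m) n ∧ RK F P m b n)).card : ℝ) ≤
      1 / (P.cut m : ℝ) * N := by
  have hx0 : (0 : ℝ) < P.cut m := by exact_mod_cast hx
  by_cases hex : ∃ f : ℚ, Uc F P m b f ∧ upp (P.cut m) (k0 F (P.cut m) b f) ≠ 1
  · obtain ⟨f, hf, hne⟩ := hex
    set d := upp (P.cut m) (k0 F (P.cut m) b f) with hd
    have hdx : P.cut m < d := upp_gt hne
    have hsub : (Finset.Icc 1 N).filter (fun n => Rough (P.cut m) n ∧ RK F P m b n) ⊆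
        (Finset.Ioc 0 N).filter (fun n => d ∣ n) := by
      intro n hn
      rw [mem_filter, Finset.mem_Icc] at hn
      rw [mem_filter, Finset.mem_Ioc]
      obtain ⟨h1, _, f2, hf2, _, hdv⟩ := hn
      have he : f2 = f := Uc.unique hL hM hb hf2 hf
      rw [he] at hdv
      exact ⟨⟨by omega, h1.2⟩, hdv⟩
    have h1 := card_le_card hsub
    rw [Nat.Ioc_filter_dvd_card_eq_div] at h1
    have h2 : (((Finset.Icc 1 N).filter (fun n => Rough (P.cut m) n ∧ RK F P m b n)).card : ℝ) ≤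
        ((N / d : ℕ) : ℝ) := by exact_mod_cast h1
    have h3 : ((N / d : ℕ) : ℝ) ≤ (N : ℝ) / d := Nat.cast_div_le
    have h4 : (N : ℝ) / d ≤ (N : ℝ) / P.cut m :=
      div_le_div_of_nonneg_left (Nat.cast_nonneg _) hx0 (by exact_mod_cast hdx.le)
    calc _ ≤ _ := h2
      _ ≤ _ := h3
      _ ≤ _ := h4
      _ = _ := by ring
  · have : (Finset.Icc 1 N).filter (fun n => Rough (P.cut m) n ∧ RK F P m b n) = ∅ := by
      refine Finset.filter_eq_empty_iff.2 fun n _ hn => ?_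
      obtain ⟨_, f2, h1, h2, _⟩ := hn
      exact hex ⟨f2, h1, h2⟩
    rw [this, card_empty]
    push_cast
    positivity

lemma Sm_le {x : ℕ} (hx : 2 ≤ x) : Sm x ≤ CM * Real.log x := by
  have h := prod_pf_le_mertens (y := (x : ℝ)) (by exact_mod_cast hx)
    (S := (x + 1).primesBelow) (fun p hp => by
      have h1 := Nat.prime_of_mem_primesBelow hp
      have h2 := Nat.lt_of_mem_primesBelow hp
      exact ⟨h1, by exact_mod_cast (by omega : p ≤ x)⟩)
  refine le_trans (le_of_eq ?_) h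
  unfold Sm
  refine Finset.prod_congr rfl fun p _ => ?_
  unfold pf
  rw [Real.rpow_neg_one, one_div]

/-- the gain is a power of the cut -/
lemma gain_le {κ δ : ℝ} (hκ1 : κ < 1) (hκ0 : 0 ≤ κ) (hδ0 : 0 < δ) {x : ℕ} (hx : 2 ≤ x) :
    (12 / (x : ℝ) + 2 * Sm x * (1 / (x : ℝ))) ^ (1 - κ) + (x : ℝ) ^ (-δ) ≤
      (13 + 4 * CM) * (x : ℝ) ^ (-(min δ ((1 - κ) / 2))) := by
  have hx0 : (0 : ℝ) < x := by exact_mod_cast (by omega : 0 < x)
  have hx1 : (1 : ℝ) ≤ x := by exact_mod_cast (by omega : 1 ≤ x)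
  have hC := CM_pos
  have hS := Sm_le hx
  have hS0 := Sm_nonneg x
  have hlog : Real.log x ≤ 2 * (x : ℝ) ^ (1 / 2 : ℝ) := by
    have := Real.log_le_rpow_div hx0.le (by norm_num : (0 : ℝ) < 1 / 2)
    linarith
  set r : ℝ := (x : ℝ) ^ (-(1 / 2 : ℝ)) with hr
  have hr0 : 0 < r := Real.rpow_pos_of_pos hx0 _
  have e1 : 1 / (x : ℝ) ≤ r := by
    rw [hr, one_div, ← Real.rpow_neg_one]
    exact Real.rpow_le_rpow_of_exponent_le hx1 (by norm_num)
  have e0 : 1 / (x : ℝ) = (x : ℝ) ^ (-1 : ℝ) := by rw [Real.rpow_neg_one, one_div]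
  have e2 : (x : ℝ) ^ (1 / 2 : ℝ) * (1 / (x : ℝ)) = r := by
    rw [e0, hr, ← Real.rpow_add hx0]
    norm_num
  have hbase : 12 / (x : ℝ) + 2 * Sm x * (1 / (x : ℝ)) ≤ (12 + 4 * CM) * r := by
    have h1 : 12 / (x : ℝ) = 12 * (1 / (x : ℝ)) := by ring
    have h2 : 2 * Sm x * (1 / (x : ℝ)) ≤ 4 * CM * r := by
      calc 2 * Sm x * (1 / (x : ℝ)) ≤ 2 * (CM * (2 * (x : ℝ) ^ (1 / 2 : ℝ))) * (1 / (x : ℝ)) := by
            have : Sm x ≤ CM * (2 * (x : ℝ) ^ (1 / 2 : ℝ)) :=
              hS.trans (mul_le_mul_of_nonneg_left hlog hC.le)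
            gcongr
        _ = 4 * CM * ((x : ℝ) ^ (1 / 2 : ℝ) * (1 / (x : ℝ))) := by ring
        _ = _ := by rw [e2]
    rw [h1]
    linarith
  have h12 : (1 : ℝ) ≤ 12 + 4 * CM := by linarith
  have hκ : 0 < 1 - κ := by linarith
  have h3 : (12 / (x : ℝ) + 2 * Sm x * (1 / (x : ℝ))) ^ (1 - κ) ≤
      (12 + 4 * CM) * (x : ℝ) ^ (-((1 - κ) / 2)) := by
    calc _ ≤ ((12 + 4 * CM) * r) ^ (1 - κ) :=
          Real.rpow_le_rpow (by positivity) hbase hκ.le
      _ = (12 + 4 * CM) ^ (1 - κ) * r ^ (1 - κ) := Real.mul_rpow (by linarith) hr0.le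
      _ ≤ (12 + 4 * CM) ^ (1 : ℝ) * r ^ (1 - κ) := by
          refine mul_le_mul_of_nonneg_right ?_ (by positivity)
          exact Real.rpow_le_rpow_of_exponent_le h12 (by linarith)
      _ = (12 + 4 * CM) * (x : ℝ) ^ (-((1 - κ) / 2)) := by
          rw [Real.rpow_one, hr, ← Real.rpow_mul hx0.le]
          congr 2
          ring
  have h4 : (x : ℝ) ^ (-((1 - κ) / 2)) ≤ (x : ℝ) ^ (-(min δ ((1 - κ) / 2))) :=
    Real.rpow_le_rpow_of_exponent_le hx1 (neg_le_neg (min_le_right _ _))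
  have h5 : (x : ℝ) ^ (-δ) ≤ (x : ℝ) ^ (-(min δ ((1 - κ) / 2))) :=
    Real.rpow_le_rpow_of_exponent_le hx1 (neg_le_neg (min_le_left _ _))
  calc _ ≤ (12 + 4 * CM) * (x : ℝ) ^ (-((1 - κ) / 2)) + (x : ℝ) ^ (-δ) := by linarith
    _ ≤ (12 + 4 * CM) * (x : ℝ) ^ (-(min δ ((1 - κ) / 2))) +
        (x : ℝ) ^ (-(min δ ((1 - κ) / 2))) :=
        add_le_add (mul_le_mul_of_nonneg_left h4 (by linarith)) h5
    _ = _ := by ring

lemma exists_win {x Y : ℝ} (hx : 0 < x) (hxY : x ≤ Y) :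
    ∃ n : ℕ, Y / 2 ^ (n + 1) < x ∧ x ≤ Y / 2 ^ n := by
  have hex : ∃ n : ℕ, Y / 2 ^ (n + 1) < x := by
    obtain ⟨n, hn⟩ := pow_unbounded_of_one_lt (Y / x) (by norm_num : (1 : ℝ) < 2)
    refine ⟨n, ?_⟩
    rw [div_lt_iff₀ (by positivity)]
    rw [div_lt_iff₀ hx] at hn
    have : (2 : ℝ) ^ n * x ≤ x * 2 ^ (n + 1) := by
      rw [pow_succ]
      have h2 : (0 : ℝ) < 2 ^ n := by positivity
      nlinarith
    linarith
  classical
  refine ⟨Nat.find hex, Nat.find_spec hex, ?_⟩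
  rcases Nat.eq_zero_or_pos (Nat.find hex) with h0 | h0
  · rw [h0, pow_zero, div_one]; exact hxY
  · have h1 := Nat.find_min hex (m := Nat.find hex - 1) (by omega)
    rw [Nat.sub_add_cancel h0] at h1
    exact not_lt.1 h1

/-- energy of the class at one `m`, all pair scales below `Y` -/
theorem defK_m {η : ℝ} (hη : 0 < η) (hη1 : η < 1) :
    ∃ δ C : ℝ, 0 < δ ∧ δ ≤ 1 ∧ 0 < C ∧
      ∀ (M : ℕ) (F : FL M) (P : Par) (m : ℕ) (Y : ℝ) (f f' : ℕ → ℝ), 0 < M → 0 < P.L →
      2 ≤ P.cut m → 0 < Y →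
      (∀ b, 0 ≤ f b) → (∀ b, f b ≤ 1) → (∀ b, 0 ≤ f' b) → (∀ b, f' b ≤ 1) →
      frm M (fun b c => if DK F P m b c ∧ (Nat.gcd b c : ℝ) ≤ Y then f b * f' c else 0) ≤
        C * Y ^ η * (P.cut m : ℝ) ^ (-δ) *
          ((∑ b ∈ M.divisors, nu M b * f b) ^ ((1 + η) / 2) *
            (∑ b ∈ M.divisors, nu M b * f' b) ^ ((1 + η) / 2)) := by
  obtain ⟨δ, C, hδ0, hδ1, hC, h⟩ := IIIR (κ := (1 + η) / 2) (by linarith) (by linarith)
  set κ : ℝ := (1 + η) / 2 with hκ
  have h2κ : 2 * κ - 1 = η := by rw [hκ]; ring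
  set r : ℝ := (2 : ℝ) ^ (-η) with hr
  have hr0 : 0 < r := by positivity
  have hr1 : r < 1 := Real.rpow_lt_one_of_one_lt_of_neg (by norm_num) (by linarith)
  have hCM := CM_pos
  refine ⟨min δ ((1 - κ) / 2), C * (13 + 4 * CM) * (1 / (1 - r)), lt_min hδ0 (by
    rw [hκ]; linarith), (min_le_left _ _).trans hδ1, by
      have : 0 < 1 - r := by linarith
      positivity, ?_⟩
  intro M F P m Y f f' hM hL hx hY hf hf1 hf' hf1'
  have hx0 : 0 < P.cut m := by omega
  set G : ℝ := (12 / (P.cut m : ℝ) + 2 * Sm (P.cut m) * (1 / (P.cut m : ℝ))) ^ (1 - κ) +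
    (P.cut m : ℝ) ^ (-δ) with hG
  have hSm := Sm_nonneg (P.cut m)
  have hG0 : 0 ≤ G := by rw [hG]; positivity
  have hGle := gain_le (κ := κ) (δ := δ) (by rw [hκ]; linarith) (by rw [hκ]; linarith) hδ0 hx
  set Z : ℝ := (∑ b ∈ M.divisors, nu M b * f b) ^ κ * (∑ b ∈ M.divisors, nu M b * f' b) ^ κ with hZ
  have hs : 0 ≤ ∑ b ∈ M.divisors, nu M b * f b := sum_nonneg fun b _ => mul_nonneg (nu_nonneg _ _) (hf b)
  have hs' : 0 ≤ ∑ b ∈ M.divisors, nu M b * f' b :=
    sum_nonneg fun b _ => mul_nonneg (nu_nonneg _ _) (hf' b)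
  have hZ0 : 0 ≤ Z := by rw [hZ]; positivity
  obtain ⟨N, hN⟩ := pow_unbounded_of_one_lt Y (by norm_num : (1 : ℝ) < 2)
  -- one window
  have hw : ∀ n : ℕ, ∑ b ∈ M.divisors, ∑ c ∈ M.divisors,
      (if Y / 2 ^ (n + 1) < (Nat.gcd b c : ℝ) ∧ (Nat.gcd b c : ℝ) ≤ 2 * (Y / 2 ^ (n + 1)) then
        (Nat.gcd b c : ℝ) * nu M b * nu M c * (f b * f' c *
          (if F.good (P.cut m) b c ∧ RK F P m b (F.ell (P.cut m) c) then 1 else 0))
        else 0) ≤ C * G * Z * (Y ^ η * r ^ (n + 1)) := by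
    intro n
    have h1 := h M F (P.cut m) (Y / 2 ^ (n + 1)) (1 / (P.cut m : ℝ)) f f' (RK F P m) hM.ne' hx0
      (by positivity) (by positivity) hf hf1 hf' hf1' (fun b hb N => RK_card hL hM hb hx0 N)
    refine h1.trans (le_of_eq ?_)
    rw [h2κ]
    have e : (Y / 2 ^ (n + 1)) ^ η = Y ^ η * r ^ (n + 1) := by
      rw [Real.div_rpow hY.le (by positivity), hr, ← Real.rpow_natCast (2 : ℝ) (n + 1),
        ← Real.rpow_mul (by norm_num), ← Real.rpow_natCast ((2 : ℝ) ^ (-η)),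
        ← Real.rpow_mul (by norm_num), div_eq_mul_inv, ← Real.rpow_neg (by norm_num)]
      congr 2
      ring
    rw [e]
    ring
  have hpt : frm M (fun b c => if DK F P m b c ∧ (Nat.gcd b c : ℝ) ≤ Y then f b * f' c else 0) ≤
      ∑ n ∈ range N, ∑ b ∈ M.divisors, ∑ c ∈ M.divisors,
      (if Y / 2 ^ (n + 1) < (Nat.gcd b c : ℝ) ∧ (Nat.gcd b c : ℝ) ≤ 2 * (Y / 2 ^ (n + 1)) then
        (Nat.gcd b c : ℝ) * nu M b * nu M c * (f b * f' c *
          (if F.good (P.cut m) b c ∧ RK F P m b (F.ell (P.cut m) c) then 1 else 0))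
        else 0) := by
    unfold frm
    rw [sum_comm (s := range N)]
    refine sum_le_sum fun b hb => ?_
    rw [sum_comm (s := range N)]
    refine sum_le_sum fun c hc => ?_
    have hbM := Nat.dvd_of_mem_divisors hb
    have hb0 : b ≠ 0 := ne_zero_of_dvd_ne_zero hM.ne' hbM
    have hg0 : 0 < Nat.gcd b c := Nat.gcd_pos_of_pos_left _ (Nat.pos_of_ne_zero hb0)
    have hg1 : (1 : ℝ) ≤ Nat.gcd b c := by exact_mod_cast hg0
    have hnn : ∀ n ∈ range N, 0 ≤
        (if Y / 2 ^ (n + 1) < (Nat.gcd b c : ℝ) ∧ (Nat.gcd b c : ℝ) ≤ 2 * (Y / 2 ^ (n + 1)) then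
        (Nat.gcd b c : ℝ) * nu M b * nu M c * (f b * f' c *
          (if F.good (P.cut m) b c ∧ RK F P m b (F.ell (P.cut m) c) then 1 else 0))
        else 0) := by
      intro n _
      have a1 := nu_nonneg M b
      have a2 := nu_nonneg M c
      have a3 := hf b
      have a4 := hf' c
      split_ifs <;> positivity
    beta_reduce
    by_cases hD : DK F P m b c ∧ (Nat.gcd b c : ℝ) ≤ Y
    · rw [if_pos hD]
      obtain ⟨n, hn1, hn2⟩ := exists_win (by linarith) hD.2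
      have hnN : n ∈ range N := by
        rw [mem_range]
        by_contra hcon
        have h3 : (2 : ℝ) ^ N ≤ 2 ^ n := pow_le_pow_right₀ (by norm_num) (not_lt.1 hcon)
        have h4 : (1 : ℝ) ≤ Y / 2 ^ n := hg1.trans hn2
        rw [le_div_iff₀ (by positivity), one_mul] at h4
        linarith
      refine le_trans (le_of_eq ?_) (Finset.single_le_sum hnn hnN)
      have h5 : Y / 2 ^ (n + 1) < (Nat.gcd b c : ℝ) ∧
          (Nat.gcd b c : ℝ) ≤ 2 * (Y / 2 ^ (n + 1)) := by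
        refine ⟨hn1, hn2.trans (le_of_eq ?_)⟩
        rw [pow_succ]
        field_simp
      have h6 : F.good (P.cut m) b c ∧ RK F P m b (F.ell (P.cut m) c) := hD.1
      rw [if_pos h5, if_pos h6, mul_one]
    · rw [if_neg hD, mul_zero]
      exact sum_nonneg hnn
  have hr1' : 0 < 1 - r := by linarith
  calc _ ≤ _ := hpt
    _ ≤ ∑ n ∈ range N, C * G * Z * (Y ^ η * r ^ (n + 1)) := sum_le_sum fun n _ => hw n
    _ = C * G * Z * Y ^ η * (r * ∑ n ∈ range N, r ^ n) := by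
        rw [mul_sum, mul_sum]
        refine sum_congr rfl fun n _ => ?_
        rw [pow_succ]
        ring
    _ ≤ C * G * Z * Y ^ η * (1 * (1 / (1 - r))) := by
        refine mul_le_mul_of_nonneg_left ?_ (by positivity)
        exact mul_le_mul hr1.le (OnePx19.geom_le r hr0.le hr1 N)
          (sum_nonneg fun n _ => by positivity) (by norm_num)
    _ ≤ C * ((13 + 4 * CM) * (P.cut m : ℝ) ^ (-(min δ ((1 - κ) / 2)))) * Z * Y ^ η *
        (1 * (1 / (1 - r))) := by
        have : C * G ≤ C * ((13 + 4 * CM) * (P.cut m : ℝ) ^ (-(min δ ((1 - κ) / 2)))) :=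
          mul_le_mul_of_nonneg_left hGle hC.le
        gcongr
    _ = _ := by ring

lemma sum_half_le (m0 N : ℕ) : ∑ m ∈ Finset.Ico m0 N, ((1 : ℝ) / 2) ^ m ≤ 2 * (1 / 2) ^ m0 := by
  rw [Finset.sum_Ico_eq_sum_range]
  calc ∑ k ∈ range (N - m0), ((1 : ℝ) / 2) ^ (m0 + k)
      = (1 / 2) ^ m0 * ∑ k ∈ range (N - m0), ((1 : ℝ) / 2) ^ k := by
        rw [mul_sum]
        exact sum_congr rfl fun k _ => pow_add _ _ _
    _ ≤ (1 / 2) ^ m0 * (1 / (1 - 1 / 2)) :=
        mul_le_mul_of_nonneg_left (OnePx19.geom_le _ (by norm_num) (by norm_num) _) (by positivity)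
    _ = _ := by ring

/-- **CLASS TOTAL.**  `cut m = 2^(A m)`, `A δ ≥ 2 η + θ + 1`.  All pairs of the class at some
`t = 2^m ≥ 2^m0`, all pair scales `T ≤ t²`, any weight `≤ 2^(θ m)`. -/
theorem defK_total {η : ℝ} (hη : 0 < η) (hη1 : η < 1) :
    ∃ δ C : ℝ, 0 < δ ∧ δ ≤ 1 ∧ 0 < C ∧
      ∀ (A m0 : ℕ) (θ : ℝ), 0 ≤ θ → 2 * η + θ + 1 ≤ A * δ → 1 ≤ m0 →
      ∀ (M : ℕ) (F : FL M) (P : Par) (f f' : ℕ → ℝ), 0 < M → 0 < P.L →
      (∀ m, P.cut m = 2 ^ (A * m)) →
      (∀ b, 0 ≤ f b) → (∀ b, f b ≤ 1) → (∀ b, 0 ≤ f' b) → (∀ b, f' b ≤ 1) →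
      ∀ K : ℕ → ℕ → ℝ, (∀ b c, b ∣ M → c ∣ M → K b c ≤ 0 ∨ ∃ m ≥ m0, DK F P m b c ∧
        (Nat.gcd b c : ℝ) ≤ 4 ^ m * P.L ∧ K b c ≤ 2 ^ (θ * m) * (f b * f' c)) →
      P.L * frm M K ≤ C * (1 / 2) ^ m0 *
          ((P.L * ∑ b ∈ M.divisors, nu M b * f b) ^ ((1 + η) / 2) *
            (P.L * ∑ b ∈ M.divisors, nu M b * f' b) ^ ((1 + η) / 2)) := by
  obtain ⟨δ, C, hδ0, hδ1, hC, h⟩ := defK_m hη hη1
  refine ⟨δ, 2 * C, hδ0, hδ1, by positivity, ?_⟩
  intro A m0 θ hθ hA hm0 M F P f f' hM hL hcut hf hf1 hf' hf1' K hK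
  set s : ℝ := ∑ b ∈ M.divisors, nu M b * f b with hs
  set s' : ℝ := ∑ b ∈ M.divisors, nu M b * f' b with hs'
  have hs0 : 0 ≤ s := sum_nonneg fun b _ => mul_nonneg (nu_nonneg _ _) (hf b)
  have hs0' : 0 ≤ s' := sum_nonneg fun b _ => mul_nonneg (nu_nonneg _ _) (hf' b)
  set κ : ℝ := (1 + η) / 2 with hκ
  have hA1 : 1 ≤ A := by
    rcases Nat.eq_zero_or_pos A with h0 | h0
    · rw [h0, Nat.cast_zero, zero_mul] at hA
      linarith
    · exact h0
  -- one `m`
  set E : ℕ → ℝ := fun m => frm M (fun b c => if DK F P m b c ∧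
    (Nat.gcd b c : ℝ) ≤ 4 ^ m * P.L then f b * f' c else 0) with hE
  have hEm : ∀ m : ℕ, 1 ≤ m → P.L * ((2 : ℝ) ^ (θ * m) * E m) ≤
      C * (1 / 2) ^ m * ((P.L * s) ^ κ * (P.L * s') ^ κ) := by
    intro m hm
    have hx : 2 ≤ P.cut m := by
      rw [hcut]
      calc 2 = 2 ^ 1 := (pow_one 2).symm
        _ ≤ 2 ^ (A * m) := Nat.pow_le_pow_right (by norm_num) (Nat.mul_pos hA1 hm)
    have h1 := h M F P m (4 ^ m * P.L) f f' hM hL hx (by positivity) hf hf1 hf' hf1'
    have h2 : E m ≤ C * (4 ^ m * P.L) ^ η * (P.cut m : ℝ) ^ (-δ) * (s ^ κ * s' ^ κ) := h1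
    have hcutr : (P.cut m : ℝ) = (2 : ℝ) ^ ((A : ℝ) * m) := by
      rw [hcut]
      push_cast
      rw [← Real.rpow_natCast]
      push_cast
      rfl
    have h4m : (4 : ℝ) ^ m = (2 : ℝ) ^ (2 * (m : ℝ)) := by
      rw [← Real.rpow_natCast, show (4 : ℝ) = 2 ^ (2 : ℝ) by norm_num, ← Real.rpow_mul (by norm_num)]
    have e1 : (4 ^ m * P.L) ^ η = (2 : ℝ) ^ (2 * (m : ℝ) * η) * P.L ^ η := by
      rw [Real.mul_rpow (by positivity) hL.le, h4m, ← Real.rpow_mul (by norm_num)]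
    have e2 : (P.cut m : ℝ) ^ (-δ) = (2 : ℝ) ^ ((A : ℝ) * m * (-δ)) := by
      rw [hcutr, ← Real.rpow_mul (by norm_num)]
    have e3 : P.L * (P.L ^ η * (s ^ κ * s' ^ κ)) = (P.L * s) ^ κ * (P.L * s') ^ κ := by
      rw [Real.mul_rpow hL.le hs0, Real.mul_rpow hL.le hs0']
      have : P.L ^ κ * P.L ^ κ = P.L * P.L ^ η := by
        rw [← Real.rpow_add hL]
        have e : κ + κ = 1 + η := by rw [hκ]; ring
        rw [e, Real.rpow_add hL, Real.rpow_one]
      calc P.L * (P.L ^ η * (s ^ κ * s' ^ κ)) = (P.L * P.L ^ η) * (s ^ κ * s' ^ κ) := by ring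
        _ = (P.L ^ κ * P.L ^ κ) * (s ^ κ * s' ^ κ) := by rw [this]
        _ = _ := by ring
    have e4 : (2 : ℝ) ^ (θ * m) * ((2 : ℝ) ^ (2 * (m : ℝ) * η) * (2 : ℝ) ^ ((A : ℝ) * m * (-δ))) ≤
        (1 / 2) ^ m := by
      rw [← Real.rpow_add (by norm_num), ← Real.rpow_add (by norm_num)]
      have e5 : ((1 : ℝ) / 2) ^ m = (2 : ℝ) ^ (-(m : ℝ)) := by
        rw [Real.rpow_neg (by norm_num), Real.rpow_natCast, one_div, inv_pow]
      rw [e5]
      refine Real.rpow_le_rpow_of_exponent_le (by norm_num) ?_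
      have hm0' : (0 : ℝ) ≤ m := Nat.cast_nonneg m
      nlinarith
    have hp0 : 0 ≤ (P.L * s) ^ κ * (P.L * s') ^ κ := by positivity
    calc P.L * ((2 : ℝ) ^ (θ * m) * E m)
        ≤ P.L * ((2 : ℝ) ^ (θ * m) *
          (C * (4 ^ m * P.L) ^ η * (P.cut m : ℝ) ^ (-δ) * (s ^ κ * s' ^ κ))) := by
          have : (0 : ℝ) ≤ (2 : ℝ) ^ (θ * m) := by positivity
          gcongr
      _ = C * ((2 : ℝ) ^ (θ * m) * ((2 : ℝ) ^ (2 * (m : ℝ) * η) * (2 : ℝ) ^ ((A : ℝ) * m * (-δ)))) *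
          (P.L * (P.L ^ η * (s ^ κ * s' ^ κ))) := by
          rw [e1, e2]; ring
      _ ≤ C * (1 / 2) ^ m * ((P.L * s) ^ κ * (P.L * s') ^ κ) := by
          rw [e3]
          gcongr
  -- all `m`
  have hm : ∀ b c : ℕ, ∃ m : ℕ, b ∣ M → c ∣ M → 0 < K b c → m0 ≤ m ∧ DK F P m b c ∧
      (Nat.gcd b c : ℝ) ≤ 4 ^ m * P.L ∧ K b c ≤ 2 ^ (θ * m) * (f b * f' c) := by
    intro b c
    by_cases hb : b ∣ M ∧ c ∣ M ∧ 0 < K b c
    · rcases hK b c hb.1 hb.2.1 with h1 | ⟨m, h1, h2, h3, h4⟩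
      · exact absurd hb.2.2 (not_lt.2 h1)
      · exact ⟨m, fun _ _ _ => ⟨h1, h2, h3, h4⟩⟩
    · exact ⟨0, fun h1 h2 h3 => absurd ⟨h1, h2, h3⟩ hb⟩
  choose μ hμ using hm
  set N : ℕ := (M.divisors.sup fun b => M.divisors.sup fun c => μ b c) + 1 with hN
  have hμN : ∀ b ∈ M.divisors, ∀ c ∈ M.divisors, μ b c < N := by
    intro b hb c hc
    have h1 : μ b c ≤ M.divisors.sup fun c => μ b c := Finset.le_sup (f := fun c => μ b c) hc
    have h2 : (M.divisors.sup fun c => μ b c) ≤ M.divisors.sup fun b => M.divisors.sup fun c => μ b c :=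
      Finset.le_sup (f := fun b => M.divisors.sup fun c => μ b c) hb
    omega
  have hsum : frm M K ≤ ∑ m ∈ Finset.Ico m0 N, (2 : ℝ) ^ (θ * m) * E m := by
    have e : ∑ m ∈ Finset.Ico m0 N, (2 : ℝ) ^ (θ * m) * E m =
        frm M (fun b c => ∑ m ∈ Finset.Ico m0 N, (2 : ℝ) ^ (θ * m) *
          (if DK F P m b c ∧ (Nat.gcd b c : ℝ) ≤ 4 ^ m * P.L then f b * f' c else 0)) := by
      simp only [hE, frm, mul_sum]
      rw [sum_comm]
      refine sum_congr rfl fun b _ => ?_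
      rw [sum_comm]
      refine sum_congr rfl fun c _ => sum_congr rfl fun m _ => ?_
      ring
    rw [e]
    unfold frm
    refine sum_le_sum fun b hb => sum_le_sum fun c hc => ?_
    refine mul_le_mul_of_nonneg_left ?_
      (mul_nonneg (mul_nonneg (Nat.cast_nonneg _) (nu_nonneg _ _)) (nu_nonneg _ _))
    beta_reduce
    have hnn : ∀ m ∈ Finset.Ico m0 N, 0 ≤ (2 : ℝ) ^ (θ * m) *
          (if DK F P m b c ∧ (Nat.gcd b c : ℝ) ≤ 4 ^ m * P.L then f b * f' c else 0) := by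
      intro m _
      have a3 := hf b
      have a4 := hf' c
      split_ifs <;> positivity
    rcases le_or_gt (K b c) 0 with h1 | h1
    · exact h1.trans (sum_nonneg hnn)
    · obtain ⟨g1, g2, g3, g4⟩ := hμ b c (Nat.dvd_of_mem_divisors hb) (Nat.dvd_of_mem_divisors hc) h1
      have hmem : μ b c ∈ Finset.Ico m0 N := Finset.mem_Ico.2 ⟨g1, hμN b hb c hc⟩
      refine le_trans (le_trans g4 (le_of_eq ?_)) (Finset.single_le_sum hnn hmem)
      rw [if_pos ⟨g2, g3⟩]
  have hp0 : 0 ≤ (P.L * s) ^ κ * (P.L * s') ^ κ := by positivity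
  calc P.L * frm M K ≤ P.L * ∑ m ∈ Finset.Ico m0 N, (2 : ℝ) ^ (θ * m) * E m :=
        mul_le_mul_of_nonneg_left hsum hL.le
    _ = ∑ m ∈ Finset.Ico m0 N, P.L * ((2 : ℝ) ^ (θ * m) * E m) := mul_sum _ _ _
    _ ≤ ∑ m ∈ Finset.Ico m0 N, C * (1 / 2) ^ m * ((P.L * s) ^ κ * (P.L * s') ^ κ) :=
        sum_le_sum fun m hm => hEm m (hm0.trans (Finset.mem_Ico.1 hm).1)
    _ = C * (∑ m ∈ Finset.Ico m0 N, ((1 : ℝ) / 2) ^ m) * ((P.L * s) ^ κ * (P.L * s') ^ κ) := by
        have e : ∀ Z : ℝ, ∑ m ∈ Finset.Ico m0 N, C * (1 / 2) ^ m * Z =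
            C * (∑ m ∈ Finset.Ico m0 N, ((1 : ℝ) / 2) ^ m) * Z := by
          intro Z
          rw [mul_sum, sum_mul]
        exact e _
    _ ≤ C * (2 * (1 / 2) ^ m0) * ((P.L * s) ^ κ * (P.L * s') ^ κ) := by
        have := sum_half_le m0 N
        gcongr
    _ = _ := by ring

end energy

end Crest.Agent.R4C.DefKx256
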