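import Crest.Agent.R4C.DBirth_617

/-!
# Row 4: displacement is rare given the node (656's BLOCK NH 3754, case (a2); helper12)

`disp_rare` : `K ^ 64 ≤ τ`, `δ ≤ 1/8`; the primes `p > τ ^ 8` such that
* `p y` has depth `< K` at scale `τ`,
* `y` has not depth `< K` at scale `τ p`,
* `y` has a fraction `a / k`, `k ≤ √τ`, with `k * max 1 (τ p |y - a/k|) < 3 p ^ δ`,
have `∑ 1/p ≤ C τ ^ (-7/16)` (no restriction to a block).
Proof: `a / k` is unique; `p |y - a/k| ≥ 1 / (2 √τ K)`; all `p` lie in one window `(X, X²]`; for each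
of the `≤ 4 K²` possible fractions of `p y` mod 1 apply 617's `dbirth`.
-/

set_option autoImplicit false

namespace Crest.Agent.R4C.DispRarex12

open Finset Crest.Agent.R4C.DBirthx617

/-- two different fractions -/
lemma frac_sep {a₁ a₂ : ℤ} {k₁ k₂ : ℕ} (h₁ : 1 ≤ k₁) (h₂ : 1 ≤ k₂)
    (hne : (a₁ : ℝ) / k₁ ≠ a₂ / k₂) : 1 ≤ (k₁ : ℝ) * k₂ * |(a₁ : ℝ) / k₁ - a₂ / k₂| := by
  have e1 : (0:ℝ) < k₁ := by exact_mod_cast h₁
  have e2 : (0:ℝ) < k₂ := by exact_mod_cast h₂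
  have e3 : (k₁ : ℝ) * k₂ * |(a₁ : ℝ) / k₁ - a₂ / k₂| = |((a₁ * k₂ - a₂ * k₁ : ℤ) : ℝ)| := by
    rw [← abs_of_pos (mul_pos e1 e2), ← abs_mul]
    congr 1
    push_cast
    field_simp
  rw [e3, ← Int.cast_abs]
  have e4 : a₁ * k₂ - a₂ * k₁ ≠ 0 := by
    intro h
    apply hne
    rw [div_eq_div_iff e1.ne' e2.ne']
    have : ((a₁ * k₂ - a₂ * k₁ : ℤ) : ℝ) = 0 := by rw [h]; simp
    push_cast at this
    linarith
  exact_mod_cast Int.one_le_abs e4

/-- reduction of a fraction -/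
lemma reduce (a : ℤ) {k : ℕ} (hk : 1 ≤ k) : ∃ (u : ℤ) (w : ℕ), 1 ≤ w ∧ w ≤ k ∧
    IsCoprime u (w:ℤ) ∧ (u : ℝ) / w = a / k := by
  set q : ℚ := (a : ℚ) / (k : ℤ) with hq
  refine ⟨q.num, q.den, q.den_pos, ?_, ?_, ?_⟩
  · have h := Rat.den_dvd a (k:ℤ)
    have h2 : (q.den : ℤ) ∣ (k:ℤ) := by
      rw [Rat.divInt_eq_div, ← hq] at h
      exact h
    exact Nat.le_of_dvd (by omega) (Int.natCast_dvd_natCast.1 h2)
  · rw [Int.isCoprime_iff_gcd_eq_one]
    exact q.reduced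
  · have h : (q : ℝ) = (q.num : ℝ) / (q.den : ℝ) := Rat.cast_def q
    rw [← h, hq]
    push_cast
    rfl

/-- denominator of `p u / w` -/
lemma den_le {u a : ℤ} {w k p : ℕ} (hw : 1 ≤ w) (hk : 1 ≤ k) (huw : IsCoprime u (w:ℤ))
    (hp : p.Prime) (hwp : w < p) (h : (p : ℝ) * (u / w) = a / k) : w ≤ k := by
  have e1 : (0:ℝ) < w := by exact_mod_cast hw
  have e2 : (0:ℝ) < k := by exact_mod_cast hk
  have h1 : (p : ℤ) * u * k = a * w := by
    have h2 : (p : ℝ) * u * k = a * w := by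
      field_simp at h
      linarith
    exact_mod_cast h2
  have h3 : IsCoprime (w:ℤ) ((p:ℤ) * u) := by
    refine IsCoprime.mul_right ?_ huw.symm
    rw [Nat.isCoprime_iff_coprime]
    refine (Nat.Coprime.symm ((Nat.Prime.coprime_iff_not_dvd hp).2 fun hd => ?_))
    exact absurd (Nat.le_of_dvd hw hd) (not_le.2 hwp)
  have h4 : (w:ℤ) ∣ (k:ℤ) := h3.dvd_of_dvd_mul_left ⟨a, by rw [h1]; ring⟩
  exact Nat.le_of_dvd (by omega) (Int.natCast_dvd_natCast.1 h4)

set_option maxHeartbeats 1600000 in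
/-- **displacement is rare** -/
theorem disp_rare : ∃ C : ℝ, 0 < C ∧ ∀ (y τ K δ : ℝ), 16 ≤ τ → 1 ≤ K → K ^ 64 ≤ τ → δ ≤ 1 / 8 →
    ∀ F : Finset ℕ, (∀ p ∈ F, p.Prime ∧ τ ^ 8 < (p:ℝ) ∧
      (∃ (a : ℤ) (k : ℕ), 1 ≤ k ∧ (k:ℝ) * max 1 (τ * |(p:ℝ) * y - a / k|) < K) ∧
      (¬ ∃ (a : ℤ) (k : ℕ), 1 ≤ k ∧ (k:ℝ) * max 1 (τ * p * |y - a / k|) < K) ∧
      (∃ (a : ℤ) (k : ℕ), 1 ≤ k ∧ (k:ℝ) ≤ Real.sqrt τ ∧
        (k:ℝ) * max 1 (τ * p * |y - a / k|) < 3 * (p:ℝ) ^ δ)) →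
    ∑ p ∈ F, (1:ℝ) / p ≤ C * τ ^ (-(7 / 16) : ℝ) := by
  classical
  obtain ⟨C, hC, hdb⟩ := dbirth
  refine ⟨8 * C, by positivity, fun y τ K δ hτ hK hKτ hδ F hF => ?_⟩
  have hτ0 : 0 < τ := by linarith
  have hK0 : 0 < K := by linarith
  rcases F.eq_empty_or_nonempty with rfl | ⟨p0, hp0⟩
  · simp only [Finset.sum_empty]; positivity
  -- sizes
  set s : ℝ := Real.sqrt τ with hs
  have hs0 : 0 < s := Real.sqrt_pos.2 hτ0
  have hs2 : s ^ 2 = τ := Real.sq_sqrt hτ0.le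
  have hs4 : 4 ≤ s := by rw [hs]; exact Real.le_sqrt_of_sq_le (by linarith)
  have hK8 : K ^ 8 ≤ τ := (pow_le_pow_right₀ hK (by norm_num)).trans hKτ
  have hK1 : K ≤ τ := by
    calc K = K ^ 1 := (pow_one K).symm
      _ ≤ K ^ 64 := pow_le_pow_right₀ hK (by norm_num)
      _ ≤ τ := hKτ
  have h4K : 4 * K ^ 4 ≤ τ := by
    have h1 : (4 * K ^ 4) ^ 2 ≤ τ ^ 2 := by
      calc (4 * K ^ 4) ^ 2 = 16 * K ^ 8 := by ring
        _ ≤ τ * τ := mul_le_mul hτ hK8 (by positivity) hτ0.le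
        _ = τ ^ 2 := by ring
    exact le_of_pow_le_pow_left₀ (by norm_num) hτ0.le h1
  have h2K : 2 * K ^ 2 ≤ s := by
    have h1 : (2 * K ^ 2) ^ 2 ≤ s ^ 2 := by rw [hs2]; calc (2 * K ^ 2) ^ 2 = 4 * K ^ 4 := by ring
      _ ≤ τ := h4K
    exact le_of_pow_le_pow_left₀ (by norm_num) hs0.le h1
  have hKs : K ≤ s := by nlinarith
  have h2Ks : 2 * K * s ≤ τ := by
    rw [← hs2]
    have : 2 * K ≤ s := by nlinarith
    nlinarith
  -- the root `r = p^(1/8)`
  have hr : ∀ p ∈ F, ∃ r : ℝ, 0 < r ∧ τ < r ∧ r ^ 8 = p ∧ (p:ℝ) ^ δ ≤ r ∧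
      r ^ 2 = (p:ℝ) ^ (1 / 4 : ℝ) := by
    intro p hp
    have hp1 : (1:ℝ) ≤ p := by exact_mod_cast (hF p hp).1.one_lt.le
    refine ⟨(p:ℝ) ^ (1 / 8 : ℝ), by positivity, ?_, ?_, ?_, ?_⟩
    · have h1 := (hF p hp).2.1
      have h2 : (τ ^ 8) ^ (1 / 8 : ℝ) < (p:ℝ) ^ (1 / 8 : ℝ) :=
        Real.rpow_lt_rpow (by positivity) h1 (by norm_num)
      have h3 : (τ ^ 8) ^ (1 / 8 : ℝ) = τ := by
        rw [← Real.rpow_natCast, ← Real.rpow_mul hτ0.le]; norm_num
      rwa [h3] at h2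
    · rw [← Real.rpow_natCast, ← Real.rpow_mul (by linarith)]; norm_num
    · exact Real.rpow_le_rpow_of_exponent_le hp1 hδ
    · rw [← Real.rpow_natCast, ← Real.rpow_mul (by linarith)]; norm_num
  -- the fraction
  obtain ⟨a0, k0, hk0, hk0s, hak0⟩ := (hF p0 hp0).2.2.2.2
  obtain ⟨u, w, hw, hwk, huw, huwq⟩ := reduce a0 hk0
  have hw0 : (0:ℝ) < w := by exact_mod_cast hw
  have hw1 : (1:ℝ) ≤ w := by exact_mod_cast hw
  have hws : (w:ℝ) ≤ s := le_trans (by exact_mod_cast hwk) hk0s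
  -- small displacement
  have hsmall : ∀ p ∈ F, ∀ (a : ℤ) (k : ℕ), 1 ≤ k →
      (k:ℝ) * max 1 (τ * p * |y - a / k|) < 3 * (p:ℝ) ^ δ → (k:ℝ) * |y - a / k| ≤ 1 / (4 * τ) := by
    intro p hp a k hk h
    obtain ⟨r, hr0, hτr, hr8, hpδ, _⟩ := hr p hp
    have hk0' : (0:ℝ) < k := by exact_mod_cast hk
    have h1 : (k:ℝ) * (τ * p * |y - a / k|) < 3 * r :=
      lt_of_le_of_lt (mul_le_mul_of_nonneg_left (le_max_right _ _) hk0'.le)
        (lt_of_lt_of_le h (by linarith))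
    rw [← hr8] at h1
    have h2 : (k:ℝ) * |y - a / k| * (τ * r ^ 7) < 3 := by
      have h3 : (k:ℝ) * |y - a / k| * (τ * r ^ 7) * r < 3 * r := by
        calc (k:ℝ) * |y - a / k| * (τ * r ^ 7) * r = (k:ℝ) * (τ * r ^ 8 * |y - a / k|) := by ring
          _ < 3 * r := h1
      exact lt_of_mul_lt_mul_right h3 hr0.le
    rw [le_div_iff₀ (by positivity)]
    have h4 : 0 ≤ (k:ℝ) * |y - a / k| := by positivity
    have h5 : (16:ℝ) ≤ r ^ 7 := by
      calc (16:ℝ) ≤ r := by linarith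
        _ = r ^ 1 := (pow_one r).symm
        _ ≤ r ^ 7 := pow_le_pow_right₀ (by linarith) (by norm_num)
    have h6 : (k:ℝ) * |y - a / k| * (τ * 16) ≤ (k:ℝ) * |y - a / k| * (τ * r ^ 7) :=
      mul_le_mul_of_nonneg_left (mul_le_mul_of_nonneg_left h5 hτ0.le) h4
    nlinarith
  have h0small : (w:ℝ) * |y - u / w| ≤ 1 / (4 * τ) := by
    rw [huwq]
    exact (mul_le_mul_of_nonneg_right (by exact_mod_cast hwk) (abs_nonneg _)).trans
      (hsmall p0 hp0 a0 k0 hk0 hak0)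
  -- uniqueness
  have huniq : ∀ p ∈ F, (w:ℝ) * max 1 (τ * p * |y - u / w|) < 3 * (p:ℝ) ^ δ := by
    intro p hp
    obtain ⟨a, k, hk, hks, hak⟩ := (hF p hp).2.2.2.2
    have hk0' : (0:ℝ) < k := by exact_mod_cast hk
    by_cases hne : (u:ℝ) / w = a / k
    · obtain ⟨u', w', hw', hwk', huw', huwq'⟩ := reduce a hk
      have : w ≤ k := by
        have h1 : (u:ℤ) * k = a * w := by
          have h2 : (u:ℝ) * k = a * w := by
            rw [div_eq_div_iff hw0.ne' hk0'.ne'] at hne; exact hne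
          exact_mod_cast h2
        have h4 : (w:ℤ) ∣ (k:ℤ) := huw.symm.dvd_of_dvd_mul_left ⟨a, by rw [h1]; ring⟩
        exact Nat.le_of_dvd (by omega) (Int.natCast_dvd_natCast.1 h4)
      rw [hne]
      refine lt_of_le_of_lt (mul_le_mul_of_nonneg_right (by exact_mod_cast this) ?_) hak
      exact zero_le_one.trans (le_max_left _ _)
    · exfalso
      have h1 := frac_sep hw hk hne
      have h2 := hsmall p hp a k hk hak
      have h3 : |(u:ℝ) / w - a / k| ≤ |y - u / w| + |y - a / k| := by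
        rw [abs_sub_comm y (u / w)]
        have : (u:ℝ) / w - a / k = (u / w - y) + (y - a / k) := by ring
        rw [this]
        exact abs_add_le _ _
      have h4 : (w:ℝ) * k * |(u:ℝ) / w - a / k| ≤ k * (w * |y - u / w|) + w * (k * |y - a / k|) := by
        calc (w:ℝ) * k * |(u:ℝ) / w - a / k| ≤ w * k * (|y - u / w| + |y - a / k|) :=
              mul_le_mul_of_nonneg_left h3 (by positivity)
          _ = _ := by ring
      have h5 : (k:ℝ) * (w * |y - u / w|) ≤ s * (1 / (4 * τ)) :=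
        mul_le_mul hks h0small (by positivity) hs0.le
      have h6 : (w:ℝ) * (k * |y - a / k|) ≤ s * (1 / (4 * τ)) :=
        mul_le_mul hws h2 (by positivity) hs0.le
      have h7 : s * (1 / (4 * τ)) ≤ 1 / 4 := by
        rw [← hs2]
        rw [mul_one_div, div_le_iff₀ (by positivity)]
        nlinarith
      linarith
  set η : ℝ := |y - u / w| with hη
  have hη0 : 0 ≤ η := abs_nonneg _
  -- lower bound of the displacement
  choose! a1 k1 hk1 hak1 using fun p (hp : p ∈ F) => (hF p hp).2.2.1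
  have hk1K : ∀ p ∈ F, (k1 p : ℝ) < K := by
    intro p hp
    have h1 := hak1 p hp
    have h2 : (k1 p : ℝ) * 1 ≤ (k1 p : ℝ) * max 1 (τ * |(p:ℝ) * y - a1 p / k1 p|) :=
      mul_le_mul_of_nonneg_left (le_max_left _ _) (Nat.cast_nonneg _)
    linarith
  have hlow : ∀ p ∈ F, 1 / (2 * s * K) ≤ p * η := by
    intro p hp
    have hk0' : (0:ℝ) < k1 p := by exact_mod_cast hk1 p hp
    have h1 := hak1 p hp
    have h2 : (k1 p : ℝ) * (τ * |(p:ℝ) * y - a1 p / k1 p|) < K :=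
      lt_of_le_of_lt (mul_le_mul_of_nonneg_left (le_max_right _ _) hk0'.le) h1
    have hpp := (hF p hp).1
    have hp0' : (0:ℝ) < p := by exact_mod_cast hpp.pos
    by_cases hne : (p:ℝ) * (u / w) = a1 p / k1 p
    · exfalso
      have hwp : w < p := by
        obtain ⟨r, hr0, hτr, hr8, _, _⟩ := hr p hp
        have h3 : (w:ℝ) < p := by
          calc (w:ℝ) ≤ s := hws
            _ ≤ τ := by nlinarith
            _ < r := hτr
            _ = r ^ 1 := (pow_one r).symm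
            _ ≤ r ^ 8 := pow_le_pow_right₀ (by linarith) (by norm_num)
            _ = p := hr8
        exact_mod_cast h3
      have h3 := den_le hw (hk1 p hp) huw hpp hwp hne
      apply (hF p hp).2.2.2.1
      refine ⟨u, w, hw, ?_⟩
      refine lt_of_le_of_lt ?_ h1
      have h4 : |(p:ℝ) * y - a1 p / k1 p| = p * |y - u / w| := by
        rw [← hne, ← mul_sub, abs_mul, abs_of_pos hp0']
      rw [h4]
      have h5 : τ * p * |y - u / w| = τ * (p * |y - u / w|) := by ring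
      rw [h5]
      refine mul_le_mul_of_nonneg_right (by exact_mod_cast h3) ?_
      exact zero_le_one.trans (le_max_left _ _)
    · have e0 : (p:ℝ) * (u / w) = ((p * u : ℤ) : ℝ) / w := by push_cast; ring
      rw [e0] at hne
      have h3 := frac_sep hw (hk1 p hp) hne
      rw [← e0] at h3
      have h4 : |(p:ℝ) * (u / w) - a1 p / k1 p| ≤ p * η + |(p:ℝ) * y - a1 p / k1 p| := by
        have e1 : (p:ℝ) * (u / w) - a1 p / k1 p = -(p * (y - u / w)) +
            (p * y - a1 p / k1 p) := by ring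
        rw [e1]
        refine (abs_add_le _ _).trans ?_
        rw [abs_neg, abs_mul, abs_of_pos hp0']
      have h5 : (w:ℝ) * k1 p * |(p:ℝ) * (u / w) - a1 p / k1 p| ≤
          w * k1 p * (p * η) + w * (k1 p * |(p:ℝ) * y - a1 p / k1 p|) := by
        calc _ ≤ (w:ℝ) * k1 p * (p * η + |(p:ℝ) * y - a1 p / k1 p|) :=
              mul_le_mul_of_nonneg_left h4 (by positivity)
          _ = _ := by ring
      have h6 : (k1 p:ℝ) * |(p:ℝ) * y - a1 p / k1 p| ≤ K / τ := by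
        rw [le_div_iff₀ hτ0]
        have : (k1 p : ℝ) * |(p:ℝ) * y - a1 p / k1 p| * τ =
          (k1 p : ℝ) * (τ * |(p:ℝ) * y - a1 p / k1 p|) := by ring
        rw [this]; exact h2.le
      have h7 : (w:ℝ) * (k1 p * |(p:ℝ) * y - a1 p / k1 p|) ≤ s * (K / τ) :=
        mul_le_mul hws h6 (by positivity) hs0.le
      have h8 : s * (K / τ) ≤ 1 / 2 := by
        rw [← mul_div_assoc, div_le_iff₀ hτ0]; linarith
      have h9 : (w:ℝ) * k1 p * (p * η) ≤ s * K * (p * η) := by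
        refine mul_le_mul_of_nonneg_right ?_ (by positivity)
        exact mul_le_mul hws (hk1K p hp).le hk0'.le hs0.le
      rw [div_le_iff₀ (by positivity)]
      nlinarith
  have hη1 : 0 < η := by
    have h1 := hlow p0 hp0
    have h2 : 0 < 1 / (2 * s * K) := by positivity
    rcases hη0.lt_or_eq with h | h
    · exact h
    · rw [← h, mul_zero] at h1; linarith
  -- the window
  set X : ℝ := 1 / (4 * s * K * η) with hX
  have hX0 : 0 < X := by positivity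
  have hXp : ∀ p ∈ F, X < p := by
    intro p hp
    have h1 := hlow p hp
    rw [hX, div_lt_iff₀ (by positivity)]
    rw [div_le_iff₀ (by positivity)] at h1
    have h2 : (p:ℝ) * (4 * s * K * η) = 2 * (p * η * (2 * s * K)) := by ring
    rw [h2]; linarith
  have hrX : ∀ p ∈ F, ∃ r : ℝ, τ < r ∧ r ^ 8 = (p:ℝ) ∧ r ^ 2 = (p:ℝ) ^ (1 / 4 : ℝ) ∧
      r ^ 6 ≤ 3 * X ∧ τ * p * η < 3 * r := by
    intro p hp
    obtain ⟨r, hr0, hτr, hr8, hpδ, hr2⟩ := hr p hp
    have h1 := huniq p hp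
    have h2 : τ * p * η < 3 * r := by
      have h3 : τ * p * η ≤ (w:ℝ) * max 1 (τ * p * η) := by
        calc τ * p * η ≤ max 1 (τ * p * η) := le_max_right _ _
          _ = 1 * max 1 (τ * p * η) := (one_mul _).symm
          _ ≤ _ := mul_le_mul_of_nonneg_right hw1 (zero_le_one.trans (le_max_left _ _))
      linarith
    refine ⟨r, hτr, hr8, hr2, ?_, h2⟩
    rw [← hr8] at h2
    have h3 : τ * r ^ 7 * η < 3 := by
      have h4 : τ * r ^ 7 * η * r < 3 * r := by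
        calc τ * r ^ 7 * η * r = τ * r ^ 8 * η := by ring
          _ < 3 * r := h2
      exact lt_of_mul_lt_mul_right h4 hr0.le
    have e1 : 3 * X = 3 / (4 * s * K * η) := by rw [hX]; ring
    rw [e1, le_div_iff₀ (by positivity)]
    -- r^6 * 4 s K η ≤ 3
    have h5 : 4 * s * K ≤ τ * r := by
      have h6 : 4 * s ≤ τ := by rw [← hs2]; nlinarith
      have h7 : K ≤ r := by linarith
      exact mul_le_mul h6 h7 hK0.le hτ0.le
    calc r ^ 6 * (4 * s * K * η) = 4 * s * K * (r ^ 6 * η) := by ring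
      _ ≤ τ * r * (r ^ 6 * η) := mul_le_mul_of_nonneg_right h5 (by positivity)
      _ = τ * r ^ 7 * η := by ring
      _ ≤ 3 := h3.le
  have hXp2 : ∀ p ∈ F, (p:ℝ) ≤ X ^ 2 := by
    intro p hp
    obtain ⟨r, hτr, hr8, _, hr6, _⟩ := hrX p hp
    have hr16 : 16 ≤ r := by linarith
    have h1 : (r ^ 6) ^ 2 ≤ (3 * X) ^ 2 := pow_le_pow_left₀ (by positivity) hr6 2
    have h2 : 9 * r ^ 8 ≤ (r ^ 6) ^ 2 := by
      have h3 : (9:ℝ) ≤ r ^ 4 := by
        calc (9:ℝ) ≤ 16 ^ 4 := by norm_num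
          _ ≤ r ^ 4 := pow_le_pow_left₀ (by norm_num) hr16 4
      calc 9 * r ^ 8 ≤ r ^ 4 * r ^ 8 := mul_le_mul_of_nonneg_right h3 (by positivity)
        _ = _ := by ring
    rw [← hr8]
    nlinarith
  -- sizes of t, K0
  set t : ℝ := τ / K with ht
  set Q : ℝ := s / (2 * K ^ 2) with hQ
  have htτ : t ≤ τ := div_le_self hτ0.le hK
  have ht0 : 0 < t := by positivity
  have hQ1 : 1 ≤ Q := by rw [hQ, le_div_iff₀ (by positivity)]; linarith
  have hQt : Q ≤ t := by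
    rw [hQ, ht, div_le_div_iff₀ (by positivity) hK0, ← hs2]
    have h1 : K ≤ K ^ 2 := by nlinarith
    have h2 : s ≤ s ^ 2 := by nlinarith
    nlinarith [mul_le_mul h2 h1 hK0.le (by positivity)]
  have hwt : (w:ℝ) ≤ t := by
    rw [ht, le_div_iff₀ hK0]
    calc (w:ℝ) * K ≤ s * K := mul_le_mul_of_nonneg_right hws hK0.le
      _ ≤ τ := by nlinarith
  have hX6 : τ ^ 4 ≤ X ∧ 16 ≤ X := by
    obtain ⟨r, hτr, _, _, hr6, _⟩ := hrX p0 hp0
    have h1 : τ ^ 6 ≤ r ^ 6 := pow_le_pow_left₀ hτ0.le hτr.le 6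
    have h2 : 3 * τ ^ 4 ≤ τ ^ 6 := by
      have h3 : (3:ℝ) ≤ τ ^ 2 := by nlinarith
      calc 3 * τ ^ 4 ≤ τ ^ 2 * τ ^ 4 := mul_le_mul_of_nonneg_right h3 (by positivity)
        _ = _ := by ring
    have h4 : τ ^ 4 ≤ X := by linarith
    refine ⟨h4, le_trans ?_ h4⟩
    calc (16:ℝ) ≤ τ := hτ
      _ = τ ^ 1 := (pow_one τ).symm
      _ ≤ τ ^ 4 := pow_le_pow_right₀ (by linarith) (by norm_num)
  have htX : t ^ 4 ≤ X := (pow_le_pow_left₀ ht0.le htτ 4).trans hX6.1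
  -- the classes
  set N : ℕ := ⌈K⌉₊ with hN
  have hNK : (N:ℝ) ≤ 2 * K := by
    have := Nat.ceil_lt_add_one hK0.le
    rw [← hN] at this
    linarith
  have hcl : ∀ p ∈ F, (k1 p, (a1 p % (k1 p : ℤ)).toNat) ∈ Finset.range N ×ˢ Finset.range N := by
    intro p hp
    have h1 : k1 p < N := by
      have h2 : (k1 p : ℝ) < N := lt_of_lt_of_le (hk1K p hp) (Nat.le_ceil K)
      exact_mod_cast h2
    have hk := hk1 p hp
    have h3 := Int.emod_lt_of_pos (a1 p) (show (0:ℤ) < k1 p by exact_mod_cast hk)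
    have h4 := Int.emod_nonneg (a1 p) (show (k1 p : ℤ) ≠ 0 by
      have : (0:ℤ) < k1 p := by exact_mod_cast hk
      omega)
    rw [Finset.mem_product, Finset.mem_range, Finset.mem_range]
    refine ⟨h1, ?_⟩
    show (a1 p % (k1 p : ℤ)).toNat < N
    omega
  have hsum : ∑ p ∈ F, (1:ℝ) / p = ∑ c ∈ Finset.range N ×ˢ Finset.range N,
      ∑ p ∈ F with (k1 p, (a1 p % (k1 p : ℤ)).toNat) = c, (1:ℝ) / p :=
    (Finset.sum_fiberwise_of_maps_to hcl _).symm
  rw [hsum]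
  have hone : ∀ c ∈ Finset.range N ×ˢ Finset.range N,
      ∑ p ∈ F with (k1 p, (a1 p % (k1 p : ℤ)).toNat) = c, (1:ℝ) / p ≤ C / Q := by
    intro c _
    refine hdb y ((c.2 : ℝ) / c.1) t Q X u w hw hwt hQ1 hQt htX hX6.2 _ fun p hp => ?_
    rw [Finset.mem_filter] at hp
    obtain ⟨hp, hc⟩ := hp
    obtain ⟨r, hτr, hr8, hr2, hr6, hup⟩ := hrX p hp
    have hp0' : (0:ℝ) < p := by exact_mod_cast (hF p hp).1.pos
    refine ⟨(hF p hp).1, hXp p hp, hXp2 p hp, ?_, ?_, ?_⟩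
    · refine ⟨a1 p / (k1 p : ℤ), ?_⟩
      have hk := hk1 p hp
      have hk0' : (0:ℝ) < k1 p := by exact_mod_cast hk
      have hc1 : k1 p = c.1 := by rw [← hc]
      have hc2 : (a1 p % (k1 p : ℤ)).toNat = c.2 := by rw [← hc]
      have h4 := Int.emod_nonneg (a1 p) (show (k1 p : ℤ) ≠ 0 by
        have : (0:ℤ) < k1 p := by exact_mod_cast hk
        omega)
      have h5 : ((c.2 : ℕ) : ℤ) = a1 p % (k1 p : ℤ) := by rw [← hc2]; exact Int.toNat_of_nonneg h4
      have h6 : (a1 p : ℝ) = (k1 p : ℝ) * ((a1 p / (k1 p : ℤ) : ℤ) : ℝ) + (c.2 : ℝ) := by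
        have h7 := Int.mul_ediv_add_emod (a1 p) (k1 p : ℤ)
        rw [← h5] at h7
        exact_mod_cast h7.symm
      have h8 : (p:ℝ) * y - (c.2 : ℝ) / c.1 - ((a1 p / (k1 p : ℤ) : ℤ) : ℝ) =
          (p:ℝ) * y - a1 p / k1 p := by
        rw [← hc1]
        rw [h6]
        field_simp
        ring
      rw [h8]
      have h9 := hak1 p hp
      have h10 : τ * |(p:ℝ) * y - a1 p / k1 p| < K := by
        have h11 : (1:ℝ) ≤ k1 p := by exact_mod_cast hk
        calc τ * |(p:ℝ) * y - a1 p / k1 p| ≤ max 1 (τ * |(p:ℝ) * y - a1 p / k1 p|) :=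
              le_max_right _ _
          _ = 1 * max 1 (τ * |(p:ℝ) * y - a1 p / k1 p|) := (one_mul _).symm
          _ ≤ k1 p * max 1 (τ * |(p:ℝ) * y - a1 p / k1 p|) :=
              mul_le_mul_of_nonneg_right h11 (zero_le_one.trans (le_max_left _ _))
          _ < K := h9
      rw [ht, one_div_div, le_div_iff₀ hτ0]
      linarith
    · have h1 := hlow p hp
      rw [hQ, ht]
      calc s / (2 * K ^ 2) = (τ / K) * (1 / (2 * s * K)) := by
            rw [← hs2]; field_simp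
        _ ≤ (τ / K) * (p * η) := mul_le_mul_of_nonneg_left h1 (by positivity)
        _ = τ / K * p * |y - u / w| := by rw [hη]; ring
    · rw [← hr2]
      calc t * p * |y - u / w| ≤ τ * p * |y - u / w| :=
            mul_le_mul_of_nonneg_right (mul_le_mul_of_nonneg_right htτ hp0'.le) (abs_nonneg _)
        _ ≤ 3 * r := hup.le
        _ ≤ r ^ 2 := by nlinarith
  have hK4 : K ^ 4 ≤ τ ^ (1 / 16 : ℝ) := by
    calc K ^ 4 = (K ^ 64) ^ (1 / 16 : ℝ) := by
          rw [← Real.rpow_natCast, ← Real.rpow_natCast, ← Real.rpow_mul hK0.le]; norm_num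
      _ ≤ τ ^ (1 / 16 : ℝ) := Real.rpow_le_rpow (by positivity) hKτ (by norm_num)
  have hsr : s = τ ^ (1 / 2 : ℝ) := by rw [hs, Real.sqrt_eq_rpow]
  calc _ ≤ ∑ _c ∈ Finset.range N ×ˢ Finset.range N, C / Q := Finset.sum_le_sum hone
    _ = (N:ℝ) ^ 2 * (C / Q) := by
        rw [Finset.sum_const, Finset.card_product, Finset.card_range, nsmul_eq_mul]
        push_cast; ring
    _ ≤ (2 * K) ^ 2 * (C / Q) :=
        mul_le_mul_of_nonneg_right (pow_le_pow_left₀ (Nat.cast_nonneg _) hNK 2) (by positivity)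
    _ = 8 * C * (K ^ 4 / s) := by rw [hQ]; field_simp; ring
    _ ≤ 8 * C * (τ ^ (1 / 16 : ℝ) / τ ^ (1 / 2 : ℝ)) := by
        rw [hsr]
        exact mul_le_mul_of_nonneg_left (div_le_div_of_nonneg_right hK4 (by positivity))
          (by positivity)
    _ = 8 * C * τ ^ (-(7 / 16) : ℝ) := by
        rw [← Real.rpow_sub hτ0]; norm_num

end Crest.Agent.R4C.DispRarex12
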