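import Crest.Agent.R4C.GWK_821

/-!
# Row 4: primes `p` with `p (u/k + η)` in a short arc and with large displacement (helper821)

`disp` : for `k^4 ≤ X`, the primes `p ∈ (X, X²]` with `‖p (u/k + η) - α‖ ≤ 1/t`,
`Δ ≤ t p |η|` and `(t p |η|)^4 ≤ p` have `∑ 1/p ≤ C (1/t + 1/Δ)` (displacement-heavy births of the
GW section: `t p |η| = D/L`).

`disp_all` : the same without the window `(X, X²]`: the two bounds on `t p |η|` leave only
two windows.
-/

set_option autoImplicit false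

namespace Crest.Agent.R4C.Dispx821

open Finset Crest.Agent.R4P.BTs18 Crest.Agent.R4C.GWKx821

/-- summation over dyadic blocks -/
lemma sum_blocks {A X : ℝ} (hA : 0 ≤ A) (hX : 16 ≤ X) (F : Finset ℕ)
    (hF : ∀ p ∈ F, X < p ∧ (p:ℝ) ≤ X ^ 2)
    (hbl : ∀ Y : ℝ, X ≤ Y → ∀ G : Finset ℕ, G ⊆ F → (∀ p ∈ G, Y < p ∧ (p:ℝ) ≤ 2 * Y) →
      (G.card : ℝ) ≤ A * (Y / Real.log Y)) :
    ∑ p ∈ F, (1:ℝ) / p ≤ 3 * A := by
  classical
  have hX0 : 0 < X := by linarith
  have hlogX : 0 < Real.log X := Real.log_pos (by linarith)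
  set n : ℕ := ⌈Real.logb 2 X⌉₊ with hn
  have hXn : X ≤ 2 ^ n := by
    have h1 := Nat.le_ceil (Real.logb 2 X)
    have h2 : Real.logb 2 X ≤ n := h1
    rw [Real.logb_le_iff_le_rpow (by norm_num) hX0] at h2
    rwa [Real.rpow_natCast] at h2
  have hn1 : (n:ℝ) ≤ 3 * Real.log X := by
    have h1 := Nat.ceil_lt_add_one (Real.logb_nonneg (by norm_num : (1:ℝ) < 2) (by linarith : 1 ≤ X))
    have h2 : Real.logb 2 X = Real.log X / Real.log 2 := rfl
    have h3 : Real.log X / Real.log 2 ≤ 3 / 2 * Real.log X := by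
      rw [div_le_iff₀ (Real.log_pos (by norm_num))]
      have := Real.log_two_gt_d9
      nlinarith
    have h4 : 1 ≤ Real.log X := by
      rw [← Real.log_exp 1]
      exact Real.log_le_log (Real.exp_pos _) (by linarith [Real.exp_one_lt_d9])
    linarith
  have hex : ∀ p ∈ F, ∃ i, (p:ℝ) ≤ 2 ^ (i + 1) * X := by
    intro p hp
    refine ⟨n, ?_⟩
    have h1 := (hF p hp).2
    have h2 : X ^ 2 ≤ 2 ^ n * X := by nlinarith
    have h3 : (2:ℝ) ^ (n + 1) * X = 2 * (2 ^ n * X) := by ring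
    rw [h3]; nlinarith [show 0 ≤ (2:ℝ) ^ n * X by positivity]
  set f : ℕ → ℕ := fun p => if h : ∃ i, (p:ℝ) ≤ 2 ^ (i + 1) * X then Nat.find h else 0 with hf
  have hfs : ∀ p ∈ F, (p:ℝ) ≤ 2 * (2 ^ f p * X) ∧ 2 ^ f p * X < p ∧ f p < n := by
    intro p hp
    have h := hex p hp
    have e : f p = Nat.find h := by rw [hf]; simp only [dif_pos h]
    rw [e]
    have h1 := Nat.find_spec h
    obtain ⟨h2, h3⟩ := hF p hp
    have hn0 : 0 < n := by
      rcases Nat.eq_zero_or_pos n with h0 | h0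
      · rw [h0] at hXn; norm_num at hXn; linarith
      · exact h0
    refine ⟨by rw [pow_succ] at h1; linarith, ?_, ?_⟩
    · rcases Nat.eq_zero_or_pos (Nat.find h) with h0 | h0
      · rw [h0]; simpa using h2
      · have h4 := Nat.find_min h (show Nat.find h - 1 < Nat.find h by omega)
        rw [show Nat.find h - 1 + 1 = Nat.find h by omega] at h4
        exact not_le.1 h4
    · have h4 : Nat.find h ≤ n - 1 := by
        refine Nat.find_min' h ?_
        rw [show n - 1 + 1 = n by omega]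
        calc (p:ℝ) ≤ X ^ 2 := h3
          _ = X * X := by ring
          _ ≤ 2 ^ n * X := mul_le_mul_of_nonneg_right hXn hX0.le
      omega
  have h1 : ∑ p ∈ F, (1:ℝ) / p = ∑ i ∈ Finset.range n, ∑ p ∈ F.filter (fun p => f p = i), (1:ℝ) / p :=
    (Finset.sum_fiberwise_of_maps_to (fun p hp => Finset.mem_range.2 (hfs p hp).2.2) _).symm
  rw [h1]
  have h2 : ∀ i ∈ Finset.range n, ∑ p ∈ F.filter (fun p => f p = i), (1:ℝ) / p ≤
      A * (1 / Real.log X) := by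
    intro i _
    have hpi : (1:ℝ) ≤ 2 ^ i := one_le_pow₀ (by norm_num)
    set Y : ℝ := 2 ^ i * X with hY
    have hYX : X ≤ Y := by rw [hY]; nlinarith
    have hY0 : 0 < Y := by linarith
    have h3 := hbl Y hYX (F.filter (fun p => f p = i)) (Finset.filter_subset _ _) fun p hp => by
        rw [Finset.mem_filter] at hp
        obtain ⟨h4, h5, _⟩ := hfs p hp.1
        rw [hp.2] at h4 h5
        exact ⟨h5, h4⟩
    have h4 : ∑ p ∈ F.filter (fun p => f p = i), (1:ℝ) / p ≤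
        (F.filter (fun p => f p = i)).card * (1 / Y) := by
      rw [← nsmul_eq_mul]
      refine Finset.sum_le_card_nsmul _ _ _ fun p hp => ?_
      rw [Finset.mem_filter] at hp
      have h5 := (hfs p hp.1).2.1
      rw [hp.2] at h5
      exact one_div_le_one_div_of_le hY0 h5.le
    calc _ ≤ _ := h4
      _ ≤ (A * (Y / Real.log Y)) * (1 / Y) :=
          mul_le_mul_of_nonneg_right h3 (by positivity)
      _ = A * (1 / Real.log Y) := by field_simp
      _ ≤ _ := by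
          refine mul_le_mul_of_nonneg_left ?_ hA
          exact one_div_le_one_div_of_le hlogX (Real.log_le_log hX0 hYX)
  calc _ ≤ ∑ _i ∈ Finset.range n, A * (1 / Real.log X) := Finset.sum_le_sum h2
    _ = n * (A * (1 / Real.log X)) := by
        rw [Finset.sum_const, Finset.card_range, nsmul_eq_mul]
    _ ≤ (3 * Real.log X) * (A * (1 / Real.log X)) :=
        mul_le_mul_of_nonneg_right hn1 (by positivity)
    _ = _ := by field_simp

/-- one dyadic block -/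
theorem disp_block : ∃ C : ℝ, 0 < C ∧ ∀ (k : ℕ) (u : ℤ) (η α t Δ Y : ℝ), 1 ≤ k → 1 ≤ t → 1 ≤ Δ →
    16 ≤ Y → (k:ℝ) ^ 4 ≤ 2 * Y → Δ ≤ 2 * (t * Y * |η|) → (t * Y * |η|) ^ 4 ≤ 2 * Y →
    ∀ F : Finset ℕ, (∀ p ∈ F, p.Prime ∧ Y < p ∧ (p:ℝ) ≤ 2 * Y ∧
      ∃ m : ℤ, |(p:ℝ) * (u / k + η) - α - m| ≤ 1 / t) →
    (F.card : ℝ) ≤ C * (1 / t + 1 / Δ) * (Y / Real.log Y) := by
  classical
  obtain ⟨C, hC, hap⟩ := ap_count
  refine ⟨36 * C, by positivity, fun k u η α t Δ Y hk ht hΔ hY hk4 hΔD hD4 F hF => ?_⟩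
  have hk0 : (0:ℝ) < k := by exact_mod_cast hk
  have hY0 : 0 < Y := by linarith
  have ht0 : 0 < t := by linarith
  have hφ : (0:ℝ) < Nat.totient k := by exact_mod_cast Nat.totient_pos.2 hk
  set D : ℝ := t * Y * |η| with hD
  have hD0 : 0 < D := by linarith
  have hη0 : 0 < |η| := by
    by_contra h
    have h1 : |η| = 0 := le_antisymm (not_lt.1 h) (abs_nonneg _)
    rw [hD, h1, mul_zero] at hD0
    exact lt_irrefl _ hD0
  have hηne : η ≠ 0 := abs_pos.1 hη0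
  -- fourth root of `2 Y`
  set r : ℝ := (2 * Y) ^ (1 / 4 : ℝ) with hr
  have hr0 : 0 < r := by positivity
  have hr4 : r ^ 4 = 2 * Y := by
    rw [hr, ← Real.rpow_natCast, ← Real.rpow_mul (by positivity)]
    norm_num
  have hkr : (k:ℝ) ≤ r := by
    by_contra h
    have := pow_lt_pow_left₀ (not_le.1 h) hr0.le (n := 4) (by norm_num)
    linarith
  have hDr : D ≤ r := by
    by_contra h
    have := pow_lt_pow_left₀ (not_le.1 h) hr0.le (n := 4) (by norm_num)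
    linarith
  have hr2 : 2 ≤ r := by
    by_contra h
    have := pow_lt_pow_left₀ (not_le.1 h) hr0.le (n := 4) (by norm_num)
    norm_num at this
    linarith
  set H : ℝ := 3 * (Y / D) with hH
  have hH0 : 0 < H := by positivity
  have hHη : 3 / (t * |η|) = H := by
    rw [hH, hD]
    field_simp
  have hYr : Y / D ≥ r ^ 3 / 2 := by
    rw [ge_iff_le, le_div_iff₀ hD0]
    calc r ^ 3 / 2 * D ≤ r ^ 3 / 2 * r := mul_le_mul_of_nonneg_left hDr (by positivity)
      _ = Y := by linarith [hr4, show r ^ 3 / 2 * r = r ^ 4 / 2 by ring]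
  have hHk : r ^ 2 ≤ H / k := by
    rw [le_div_iff₀ hk0]
    calc r ^ 2 * k ≤ r ^ 2 * r := mul_le_mul_of_nonneg_left hkr (by positivity)
      _ ≤ H := by rw [hH]; nlinarith [show 0 < r ^ 3 by positivity]
  have h2k : 2 * (k:ℝ) ≤ H := by
    have h1 : 2 ≤ H / k := by nlinarith
    rw [le_div_iff₀ hk0] at h1
    exact h1
  have hlogY : 0 < Real.log Y := Real.log_pos (by linarith)
  have hlogr : Real.log Y / 2 ≤ Real.log (r ^ 2) := by
    have h1 : Real.log (r ^ 4) = 4 * Real.log r := by rw [Real.log_pow]; norm_num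
    have h2 : Real.log (r ^ 2) = 2 * Real.log r := by rw [Real.log_pow]; norm_num
    have h3 : Real.log Y ≤ Real.log (r ^ 4) := by
      rw [hr4]; exact Real.log_le_log hY0 (by linarith)
    linarith
  have hlogH : Real.log Y / 2 ≤ Real.log (H / k) :=
    hlogr.trans (Real.log_le_log (by positivity) hHk)
  have hq : H / Real.log (H / k) ≤ 2 * (H / Real.log Y) := by
    calc H / Real.log (H / k) ≤ H / (Real.log Y / 2) :=
          div_le_div_of_nonneg_left hH0.le (by positivity) hlogH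
      _ = 2 * (H / Real.log Y) := by field_simp
  -- choice of the integer
  have hex : ∀ p ∈ F, ∃ m : ℤ, |((p % k : ℕ) : ℝ) * (u / k) + p * η - α - m| ≤ 1 / t := by
    intro p hp
    obtain ⟨_, _, _, m, hm⟩ := hF p hp
    have hdm := Nat.div_add_mod p k
    obtain ⟨j, hj⟩ : ∃ j, j = p / k := ⟨_, rfl⟩
    rw [← hj] at hdm
    refine ⟨m - (j : ℤ) * u, ?_⟩
    have e1 : ((p % k : ℕ) : ℝ) = p - (j : ℝ) * k := by
      have h2 : ((k * j + p % k : ℕ) : ℝ) = p := by rw [hdm]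
      rw [Nat.cast_add, Nat.cast_mul] at h2
      linarith
    have e2 : ((p % k : ℕ) : ℝ) * (u / k) + p * η - α - ((m - (j : ℤ) * u : ℤ) : ℝ) =
        (p:ℝ) * (u / k + η) - α - m := by
      rw [e1]
      push_cast
      field_simp
      ring
    rw [e2]
    exact hm
  choose! mm hmm using hex
  -- the residue classes
  set S : Finset ℕ := (Finset.range k).filter (fun c => Nat.Coprime k c) with hS
  have hSc : (S.card : ℝ) ≤ Nat.totient k := by
    rw [hS, ← Nat.totient_eq_card_coprime]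
  have hmem : ∀ p ∈ F, p % k ∈ S := by
    intro p hp
    obtain ⟨hpp, hYp, _⟩ := hF p hp
    rw [hS, Finset.mem_filter, Finset.mem_range]
    refine ⟨Nat.mod_lt _ (by omega), ?_⟩
    have h1 : Nat.Coprime p k := by
      rw [Nat.Prime.coprime_iff_not_dvd hpp]
      intro hd
      have h2 := Nat.le_of_dvd (by omega) hd
      have h3 : (p:ℝ) ≤ k := by exact_mod_cast h2
      have h4 : r ≤ Y := by
        have : r * 8 ≤ r ^ 4 := by nlinarith [pow_le_pow_left₀ (by norm_num) hr2 3]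
        linarith
      linarith
    unfold Nat.Coprime at h1 ⊢
    rw [Nat.gcd_comm, ← Nat.gcd_rec, Nat.gcd_comm]
    exact h1
  have hfib : ∀ c ∈ S, ((F.filter (fun p => p % k = c)).card : ℝ) ≤
      (Y * |η| + 2 / t + 1) * (C / Nat.totient k * (2 * (H / Real.log Y))) := by
    intro c _
    set G := F.filter (fun p => p % k = c) with hG
    set M : Finset ℤ := G.image mm with hM
    have hMc : (M.card : ℝ) ≤ 2 * (Y * |η| / 2 + 1 / t) + 1 := by
      refine card_int_le M ((c:ℝ) * (u / k) + 3 / 2 * Y * η - α) _ (by positivity) ?_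
      intro m hm
      obtain ⟨p, hp, rfl⟩ := Finset.mem_image.1 hm
      rw [hG, Finset.mem_filter] at hp
      have h1 := hmm p hp.1
      obtain ⟨_, h2, h3, _⟩ := hF p hp.1
      rw [hp.2] at h1
      have e : ((mm p : ℤ) : ℝ) - ((c:ℝ) * (u / k) + 3 / 2 * Y * η - α) =
          (p - 3 / 2 * Y) * η - ((c:ℝ) * (u / k) + p * η - α - mm p) := by ring
      rw [e]
      have h4 : |((p:ℝ) - 3 / 2 * Y) * η| ≤ Y * |η| / 2 := by
        rw [abs_mul]
        have h5 : |(p:ℝ) - 3 / 2 * Y| ≤ Y / 2 := abs_le.2 ⟨by linarith, by linarith⟩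
        calc _ ≤ Y / 2 * |η| := mul_le_mul_of_nonneg_right h5 (abs_nonneg _)
          _ = _ := by ring
      calc _ ≤ |((p:ℝ) - 3 / 2 * Y) * η| + |(c:ℝ) * (u / k) + p * η - α - mm p| := abs_sub _ _
        _ ≤ _ := add_le_add h4 h1
    have h5 : (G.card : ℝ) ≤ M.card * (C / Nat.totient k * (2 * (H / Real.log Y))) := by
      refine card_le_real G M mm (fun p hp => Finset.mem_image_of_mem _ hp) _ ?_
      intro m _
      set x : ℝ := (α + m - (c:ℝ) * (u / k)) / η with hx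
      set Z : ℝ := max 0 (x - H / 2) with hZ
      have hZ0 : 0 ≤ Z := le_max_left _ _
      have h6 := hap k c hk Z H hZ0 h2k (G.filter (fun p => mm p = m)) fun p hp => by
        rw [Finset.mem_filter, hG, Finset.mem_filter] at hp
        obtain ⟨⟨hpF, hpc⟩, hpm⟩ := hp
        obtain ⟨hpp, hYp, hpY, _⟩ := hF p hpF
        have h7 := hmm p hpF
        rw [hpc, hpm] at h7
        have h8 : |(p:ℝ) - x| ≤ H / 3 := by
          have e : (p:ℝ) - x = ((c:ℝ) * (u / k) + p * η - α - m) / η := by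
            rw [hx]; field_simp; ring
          rw [e, abs_div, ← hHη]
          calc _ ≤ (1 / t) / |η| := div_le_div_of_nonneg_right h7 hη0.le
            _ = _ := by field_simp
        have h9 := abs_le.1 h8
        have hp0 : (0:ℝ) < p := by linarith
        refine ⟨hpp, ?_, ?_, ?_⟩
        · rw [hZ, max_lt_iff]
          constructor
          · exact hp0
          · linarith [h9.1]
        · have : x - H / 2 ≤ Z := le_max_right _ _
          linarith [h9.2]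
        · rw [← hpc, Nat.mod_mod]
      refine h6.trans ?_
      exact mul_le_mul_of_nonneg_left hq (by positivity)
    refine h5.trans ?_
    refine mul_le_mul_of_nonneg_right ?_ (by positivity)
    calc (M.card : ℝ) ≤ _ := hMc
      _ = Y * |η| + 2 / t + 1 := by ring
  have h1 : (F.card : ℝ) ≤ S.card *
      ((Y * |η| + 2 / t + 1) * (C / Nat.totient k * (2 * (H / Real.log Y)))) :=
    card_le_real F S (fun p => p % k) hmem _ hfib
  have h2 : (F.card : ℝ) ≤ Nat.totient k *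
      ((Y * |η| + 2 / t + 1) * (C / Nat.totient k * (2 * (H / Real.log Y)))) :=
    h1.trans (mul_le_mul_of_nonneg_right hSc (by positivity))
  have e1 : Nat.totient k * ((Y * |η| + 2 / t + 1) * (C / Nat.totient k * (2 * (H / Real.log Y)))) =
      6 * C * ((Y * |η| + 2 / t + 1) / D) * (Y / Real.log Y) := by
    rw [hH]
    field_simp
    ring
  rw [e1] at h2
  refine h2.trans ?_
  refine mul_le_mul_of_nonneg_right ?_ (by positivity)
  have e2 : Y * |η| / D = 1 / t := by rw [hD]; field_simp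
  have h3 : (Y * |η| + 2 / t + 1) / D ≤ 1 / t + 6 / Δ := by
    have h4 : (2 / t + 1) / D ≤ 3 / D := by
      refine div_le_div_of_nonneg_right ?_ hD0.le
      have : 1 / t ≤ 1 := by rw [div_le_one ht0]; exact ht
      have e : 2 / t = 2 * (1 / t) := by ring
      rw [e]; linarith
    have h5 : 3 / D ≤ 6 / Δ := by
      rw [div_le_div_iff₀ hD0 (by linarith)]
      linarith
    have e3 : (Y * |η| + 2 / t + 1) / D = Y * |η| / D + (2 / t + 1) / D := by ring
    rw [e3, e2]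
    linarith
  calc 6 * C * ((Y * |η| + 2 / t + 1) / D) ≤ 6 * C * (1 / t + 6 / Δ) :=
        mul_le_mul_of_nonneg_left h3 (by positivity)
    _ ≤ 36 * C * (1 / t + 1 / Δ) := by
        have h4 : 0 < 1 / t := by positivity
        have e3 : 6 / Δ = 6 * (1 / Δ) := by ring
        rw [e3]
        nlinarith [mul_pos hC h4]

/-- **primes with large displacement, one window `(X, X²]`** -/
theorem disp : ∃ C : ℝ, 0 < C ∧ ∀ (k : ℕ) (u : ℤ) (η α t Δ X : ℝ), 1 ≤ k → 1 ≤ t → 1 ≤ Δ →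
    16 ≤ X → (k:ℝ) ^ 4 ≤ X →
    ∀ F : Finset ℕ, (∀ p ∈ F, p.Prime ∧ X < p ∧ (p:ℝ) ≤ X ^ 2 ∧
      (∃ m : ℤ, |(p:ℝ) * (u / k + η) - α - m| ≤ 1 / t) ∧ Δ ≤ t * p * |η| ∧
      (t * p * |η|) ^ 4 ≤ p) →
    ∑ p ∈ F, (1:ℝ) / p ≤ C * (1 / t + 1 / Δ) := by
  classical
  obtain ⟨C, hC, hbl⟩ := disp_block
  refine ⟨3 * C, by positivity, fun k u η α t Δ X hk ht hΔ hX hkX F hF => ?_⟩
  have ht0 : 0 < t := by linarith
  have hΔ0 : 0 < Δ := by linarith
  rw [mul_assoc]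
  refine sum_blocks (by positivity) hX F (fun p hp => ⟨(hF p hp).2.1, (hF p hp).2.2.1⟩) ?_
  intro Y hXY G hGF hG
  have hY0 : 0 < Y := by linarith
  have hlogY : 0 < Real.log Y := Real.log_pos (by linarith)
  rcases G.eq_empty_or_nonempty with h0 | ⟨q, hq⟩
  · rw [h0]; simp only [Finset.card_empty, Nat.cast_zero]; positivity
  obtain ⟨h1, h2⟩ := hG q hq
  obtain ⟨_, _, _, _, h3, h4⟩ := hF q (hGF hq)
  refine hbl k u η α t Δ Y hk ht hΔ (hX.trans hXY) (by linarith) ?_ ?_ G fun p hp => ?_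
  · calc Δ ≤ t * (q:ℝ) * |η| := h3
      _ ≤ t * (2 * Y) * |η| :=
          mul_le_mul_of_nonneg_right (mul_le_mul_of_nonneg_left h2 ht0.le) (abs_nonneg _)
      _ = _ := by ring
  · calc (t * Y * |η|) ^ 4 ≤ (t * (q:ℝ) * |η|) ^ 4 := by
          refine pow_le_pow_left₀ (by positivity) ?_ 4
          exact mul_le_mul_of_nonneg_right (mul_le_mul_of_nonneg_left h1.le ht0.le) (abs_nonneg _)
      _ ≤ (q:ℝ) := h4
      _ ≤ 2 * Y := h2
  · obtain ⟨h5, _, _, h6, _⟩ := hF p (hGF hp)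
    exact ⟨h5, (hG p hp).1, (hG p hp).2, h6⟩

/-- **the same without the window**: `Δ ≤ t p |η|` and `(t p |η|)^4 ≤ p` leave one window -/
theorem disp_all : ∃ C : ℝ, 0 < C ∧ ∀ (k : ℕ) (u : ℤ) (η α t Δ : ℝ), 1 ≤ k → 1 ≤ t → 1 ≤ Δ →
    ∀ F : Finset ℕ, (∀ p ∈ F, p.Prime ∧ 1024 ≤ (p:ℝ) ∧ 4 * (k:ℝ) ^ 8 ≤ p ∧
      (∃ m : ℤ, |(p:ℝ) * (u / k + η) - α - m| ≤ 1 / t) ∧ Δ ≤ t * p * |η| ∧
      (t * p * |η|) ^ 4 ≤ p) →
    ∑ p ∈ F, (1:ℝ) / p ≤ C * (1 / t + 1 / Δ) := by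
  classical
  obtain ⟨C, hC, hd⟩ := disp
  refine ⟨C, hC, fun k u η α t Δ hk ht hΔ F hF => ?_⟩
  have ht0 : 0 < t := by linarith
  have hΔ0 : 0 < Δ := by linarith
  rcases F.eq_empty_or_nonempty with h0 | ⟨q, hq⟩
  · rw [h0, Finset.sum_empty]; positivity
  have hk1 : (1:ℝ) ≤ k := by exact_mod_cast hk
  set e : ℝ := t * |η| with he
  have he0 : 0 < e := by
    obtain ⟨_, h1, _, _, h2, _⟩ := hF q hq
    have h3 : t * q * |η| = q * e := by rw [he]; ring
    rw [h3] at h2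
    by_contra h
    have : (q:ℝ) * e ≤ 0 := mul_nonpos_of_nonneg_of_nonpos (by linarith) (not_lt.1 h)
    linarith
  set X0 : ℝ := Δ / e with hX0
  have hX00 : 0 < X0 := by positivity
  have hkey : ∀ p ∈ F, X0 ≤ p ∧ (p:ℝ) ^ 3 ≤ X0 ^ 4 := by
    intro p hp
    obtain ⟨_, h1, _, _, h2, h3⟩ := hF p hp
    have h4 : t * p * |η| = p * e := by rw [he]; ring
    rw [h4] at h2 h3
    have hp0 : (0:ℝ) < p := by linarith
    refine ⟨by rw [hX0, div_le_iff₀ he0]; exact h2, ?_⟩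
    have h5 : (p:ℝ) ^ 3 * e ^ 4 ≤ 1 := by
      have h6 : (p:ℝ) * ((p:ℝ) ^ 3 * e ^ 4) ≤ (p:ℝ) * 1 := by
        calc (p:ℝ) * ((p:ℝ) ^ 3 * e ^ 4) = (p * e) ^ 4 := by ring
          _ ≤ (p:ℝ) := h3
          _ = (p:ℝ) * 1 := by ring
      exact le_of_mul_le_mul_left h6 hp0
    have h6 : (p:ℝ) ^ 3 ≤ 1 / e ^ 4 := by
      rw [le_div_iff₀ (by positivity)]; exact h5
    refine h6.trans ?_
    rw [hX0, div_pow]
    refine div_le_div_of_nonneg_right ?_ (by positivity)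
    exact one_le_pow₀ hΔ
  have hbig : 32 ≤ X0 ∧ 2 * (k:ℝ) ^ 4 ≤ X0 := by
    obtain ⟨_, h1, h2, _⟩ := hF q hq
    obtain ⟨_, h3⟩ := hkey q hq
    constructor
    · by_contra h
      have h4 := pow_lt_pow_left₀ (not_le.1 h) hX00.le (n := 4) (by norm_num)
      have h5 := pow_le_pow_left₀ (by norm_num) h1 3
      norm_num at h4 h5
      linarith
    · by_contra h
      have h4 := pow_lt_pow_left₀ (not_le.1 h) hX00.le (n := 4) (by norm_num)
      have h5 := pow_le_pow_left₀ (by positivity) h2 3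
      have h6 : (2 * (k:ℝ) ^ 4) ^ 4 = 16 * (k:ℝ) ^ 16 := by ring
      have h7 : (4 * (k:ℝ) ^ 8) ^ 3 = 64 * (k:ℝ) ^ 24 := by ring
      rw [h6] at h4
      rw [h7] at h5
      have h8 : (k:ℝ) ^ 16 ≤ (k:ℝ) ^ 24 := pow_le_pow_right₀ hk1 (by norm_num)
      have h9 : 0 < (k:ℝ) ^ 16 := by positivity
      linarith
  refine hd k u η α t Δ (X0 / 2) hk ht hΔ (by linarith [hbig.1]) (by linarith [hbig.2]) F
    fun p hp => ?_
  obtain ⟨h1, h2, h3, h4, h5, h6⟩ := hF p hp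
  obtain ⟨h7, h8⟩ := hkey p hp
  refine ⟨h1, by linarith, ?_, h4, h5, h6⟩
  by_contra h
  have h9 := pow_lt_pow_left₀ (not_le.1 h) (by positivity) (n := 3) (by norm_num)
  have h10 : ((X0 / 2) ^ 2) ^ 3 = X0 ^ 4 * (X0 ^ 2 / 64) := by ring
  rw [h10] at h9
  have h11 : 1 ≤ X0 ^ 2 / 64 := by nlinarith [hbig.1]
  have h12 : X0 ^ 4 ≤ X0 ^ 4 * (X0 ^ 2 / 64) := le_mul_of_one_le_right (by positivity) h11
  linarith

/-- **displacement-heavy births**, label chosen prime by prime: `φ` real, `p φ` in a fixed arc of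
length `2/t` mod 1, `φ` has a fraction `u/k`, `k ≤ K1` (depending on `p`), with displacement
`Δ ≤ t p |φ - u/k| ≤ p^(1/4)` -/
theorem disp_phi : ∃ C : ℝ, 0 < C ∧ ∀ (φ α t Δ K1 : ℝ), 1 ≤ t → 1 ≤ Δ → 1 ≤ K1 →
    ∀ F : Finset ℕ, (∀ p ∈ F, p.Prime ∧ 1024 ≤ (p:ℝ) ∧ 4 * K1 ^ 8 ≤ p ∧
      (∃ m : ℤ, |(p:ℝ) * φ - α - m| ≤ 1 / t) ∧ ∃ (k : ℕ) (u : ℤ), 1 ≤ k ∧ (k:ℝ) ≤ K1 ∧
        Δ ≤ t * p * |φ - u / k| ∧ (t * p * |φ - u / k|) ^ 4 ≤ p) →
    ∑ p ∈ F, (1:ℝ) / p ≤ C * (1 / t + 1 / Δ) := by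
  classical
  obtain ⟨C, hC, hd⟩ := disp_all
  refine ⟨C, hC, fun φ α t Δ K1 ht hΔ hK1 F hF => ?_⟩
  have ht0 : 0 < t := by linarith
  have hΔ0 : 0 < Δ := by linarith
  rcases F.eq_empty_or_nonempty with h0 | ⟨q, hq⟩
  · rw [h0, Finset.sum_empty]; positivity
  obtain ⟨_, hq1, hq2, _, k0, u0, hk0, hkK, hq3, hq4⟩ := hF q hq
  -- the bound of the displacement
  have hbd : ∀ (p : ℕ) (x : ℝ), 1024 ≤ (p:ℝ) → 4 * K1 ^ 8 ≤ p → 0 ≤ x → (t * p * x) ^ 4 ≤ p →
      x < 1 / (2 * K1 ^ 2) := by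
    intro p x h1 h2 hx h3
    have hp0 : (0:ℝ) < p := by linarith
    have h4 : (p * x) ^ 4 ≤ p := by
      refine le_trans (pow_le_pow_left₀ (by positivity) ?_ 4) h3
      have : (p:ℝ) * x ≤ t * (p * x) := le_mul_of_one_le_left (by positivity) ht
      linarith [this, show t * p * x = t * (p * x) by ring]
    have h5 : (p:ℝ) ^ 3 * x ^ 4 ≤ 1 := by
      have h6 : (p:ℝ) * ((p:ℝ) ^ 3 * x ^ 4) ≤ p * 1 := by
        calc (p:ℝ) * ((p:ℝ) ^ 3 * x ^ 4) = (p * x) ^ 4 := by ring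
          _ ≤ (p:ℝ) := h4
          _ = (p:ℝ) * 1 := by ring
      exact le_of_mul_le_mul_left h6 hp0
    by_contra h
    rw [not_lt, div_le_iff₀ (by positivity)] at h
    -- `1 ≤ x · 2 K1²`
    have h7 : 1 ≤ (x * (2 * K1 ^ 2)) ^ 4 := one_le_pow₀ h
    have h8 : (x * (2 * K1 ^ 2)) ^ 4 = 16 * K1 ^ 8 * x ^ 4 := by ring
    rw [h8] at h7
    have h9 : 16 * K1 ^ 8 < (p:ℝ) ^ 3 := by
      have h10 : 4 * (4 * K1 ^ 8) ≤ 4 * (p:ℝ) := by linarith
      have h11 : 4 * (p:ℝ) < (p:ℝ) ^ 3 := by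
        have : (1024:ℝ) ^ 2 ≤ (p:ℝ) ^ 2 := pow_le_pow_left₀ (by norm_num) h1 2
        nlinarith
      linarith
    have hx4 : 0 < x ^ 4 := by
      rcases hx.lt_or_eq with h10 | h10
      · positivity
      · rw [← h10] at h; norm_num at h
    nlinarith
  have huniq : ∀ p ∈ F, ∀ (k : ℕ) (u : ℤ), 1 ≤ k → (k:ℝ) ≤ K1 → (t * p * |φ - u / k|) ^ 4 ≤ p →
      (u:ℝ) / k = u0 / k0 := by
    intro p hp k u hk hk2 h3
    obtain ⟨_, h1, h2, _⟩ := hF p hp
    have h4 := hbd p _ h1 h2 (abs_nonneg _) h3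
    have h5 := hbd q _ hq1 hq2 (abs_nonneg _) hq4
    have h6 : |(u:ℝ) / k - u0 / k0| < 1 / K1 ^ 2 := by
      have e : (u:ℝ) / k - u0 / k0 = (φ - u0 / k0) - (φ - u / k) := by ring
      rw [e]
      calc _ ≤ |φ - u0 / k0| + |φ - u / k| := abs_sub _ _
        _ < 1 / (2 * K1 ^ 2) + 1 / (2 * K1 ^ 2) := add_lt_add h5 h4
        _ = _ := by field_simp; norm_num
    have hk' : (0:ℝ) < k := by exact_mod_cast hk
    have hk0' : (0:ℝ) < k0 := by exact_mod_cast hk0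
    have e2 : (u:ℝ) / k - u0 / k0 = ((u * k0 - u0 * k : ℤ) : ℝ) / (k * k0) := by
      push_cast; field_simp
    rw [e2, abs_div, abs_of_pos (by positivity : (0:ℝ) < k * k0), div_lt_div_iff₀ (by positivity)
      (by positivity)] at h6
    have h7 : (k:ℝ) * k0 ≤ K1 ^ 2 := by
      calc (k:ℝ) * k0 ≤ K1 * K1 := mul_le_mul hk2 hkK hk0'.le (by linarith)
        _ = _ := by ring
    have h8 : u * k0 - u0 * k = 0 := by
      by_contra hne
      have h9 : 1 ≤ |u * k0 - u0 * k| := Int.one_le_abs hne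
      have h10 : (1:ℝ) ≤ |((u * k0 - u0 * k : ℤ) : ℝ)| := by exact_mod_cast h9
      have : K1 ^ 2 ≤ |((u * k0 - u0 * k : ℤ) : ℝ)| * K1 ^ 2 :=
        le_mul_of_one_le_left (by positivity) h10
      linarith
    have h9 : (u:ℝ) * k0 = u0 * k := by
      have h11 : ((u * k0 - u0 * k : ℤ) : ℝ) = 0 := by rw [h8]; norm_num
      push_cast at h11
      linarith
    rw [div_eq_div_iff hk'.ne' hk0'.ne']
    exact h9
  refine hd k0 u0 (φ - u0 / k0) α t Δ hk0 ht hΔ F fun p hp => ?_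
  obtain ⟨h1, h2, h3, ⟨m, hm⟩, k, u, hk, hkK', h4, h5⟩ := hF p hp
  have e := huniq p hp k u hk hkK' h5
  rw [e] at h4 h5
  refine ⟨h1, h2, ?_, ⟨m, ?_⟩, h4, h5⟩
  · have h6 : (k0:ℝ) ^ 8 ≤ K1 ^ 8 := pow_le_pow_left₀ (Nat.cast_nonneg _) hkK 8
    linarith
  · have e3 : (u0:ℝ) / k0 + (φ - u0 / k0) = φ := by ring
    rw [e3]
    exact hm

end Crest.Agent.R4C.Dispx821
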