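import Crest.Agent.R4C.VDef_24
import Crest.Agent.R4C.DomPc_284
import Crest.Agent.R4C.ClsExc_634
import Crest.Agent.R4C.Cover_946

/-!
# Row 4: the class `nH cDomP` from the vector classes `VC` (helper634)

Pairs of `cDomP` = large low word (`cls_domP_large`, 284), or a member heavy above `cut (i-1)`
(`cls_exc`, 634), or `CHvy` (excluded by `nH`), or `VC F P QQ a a' e` with `e ≤ 1` (24).
-/

set_option autoImplicit false

open Finset

namespace Crest.Agent.R4C.DomFinx634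

open Crest.Agent.R4C.Basex935 Crest.Agent.R4C.FLDefx935 Crest.Agent.R4C.Rulex945
open Crest.Agent.R4C.Splitx945 Crest.Agent.R4C.Spinex946 Crest.Agent.R4C.Bridgex882
open Crest.Agent.R4C.CrCoinx935 Crest.Agent.R4C.Coverx946 Crest.Agent.R4C.PureClsx863
open Crest.Agent.R4C.VDefx24
open Crest.Agent.R4C.Cutx50 (low)

/-- the exceptions of `VDef_24` (exponent `⌊k/A⌋`) are exceptions of `ExcRow_634` (exponent `k/A`) -/
lemma hvyR_of {M : ℕ} {F : FL M} {B : Finset ℕ} {L : ℝ} {A i b : ℕ} {R : ℝ} (hL : 0 ≤ L)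
    (hR : 0 ≤ R) (h : VDefx24.HvyR F B L A R i b) : ExcRowx634.HvyR F B L A R i b := by
  obtain ⟨k, h1, h2, h3, h4⟩ := h
  refine ⟨k, h1, h2, h3.trans (mul_le_mul_of_nonneg_right ?_ hL), h4⟩
  refine mul_le_mul_of_nonneg_left ?_ (by positivity)
  rw [← Real.rpow_natCast]
  refine Real.rpow_le_rpow_of_exponent_le (by norm_num) ?_
  have h5 := @Nat.cast_div_le ℝ _ _ _ k A
  calc ((k / A : ℕ) : ℝ) ≤ (k : ℝ) / A := h5
    _ = 1 / (A : ℝ) * k := by ring

/-- the union of the vector classes -/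
def clsVC (γ : ℝ) : Cls := fun cp _ A m0 L M B F b c h =>
  ∃ a a' e, e ≤ 1 ∧ VC F (ParOf cp A m0 γ L M B) (QQ cp A m0 γ L M B F) a a' e b c h

/-- **the class `nH cDomP` from the union of the vector classes** -/
theorem dom_fin {γ : ℝ} (h : ClsOK γ (clsVC γ)) : ClsOK γ (nH γ (cDomP γ)) := by
  have h1 : ClsOK γ (fun cp η A m0 L M B F b c x =>
      DomPcx284.clsDomPL γ cp η A m0 L M B F b c x ∨
        (ClsExcx634.clsExc γ cp η A m0 L M B F b c x ∨ clsVC γ cp η A m0 L M B F b c x)) :=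
    ClsOK.or (DomPcx284.cls_domP_large γ) (ClsOK.or (ClsExcx634.cls_exc γ) h)
  refine ClsOK.mono h1 (Ev.of_forall fun cp η A m0 L M B F S b hb c hc hbc x hx hk hR => ?_)
  obtain ⟨hH, hD⟩ := hR
  rcases DomPcx284.cDomP_split hD with hD | hD
  · exact Or.inl hD
  refine Or.inr ?_
  obtain ⟨i, hfar, hdom, hpure, hsm⟩ := hD
  have hR0 : (0 : ℝ) ≤ 4 * ((i : ℝ) + 1) ^ 8 := by positivity
  by_cases hE : HvyR F B L A (4 * ((i : ℝ) + 1) ^ 8) (i - 1) b ∨
      HvyR F B L A (4 * ((i : ℝ) + 1) ^ 8) (i - 1) c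
  · refine Or.inl ⟨i, hfar, hpure, ?_, ?_⟩
    · have h5 : ((low ((ParOf cp A m0 γ L M B).cut i) (b / Nat.gcd b c) *
          low ((ParOf cp A m0 γ L M B).cut i) (c / Nat.gcd b c) : ℕ) : ℝ) <
          (((i + 1) ^ 8 : ℕ) : ℝ) := by
        push_cast
        exact hsm
      exact (Nat.cast_lt.1 h5).le
    · exact hE.imp (hvyR_of S.hL.le hR0) (hvyR_of S.hL.le hR0)
  · rw [not_or] at hE
    obtain ⟨a, a', e, he, hcl⟩ := VecPairx19.exists_vcl (P := ParOf cp A m0 γ L M B) (i := i)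
      (b := b) (c := c)
    exact Or.inr ⟨a, a', e, he, i, hfar, hdom, hpure, hsm, hcl, hE.1, hE.2, hH⟩

end Crest.Agent.R4C.DomFinx634
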