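import Crest.Agent.R4C.F5d_634
import Crest.Agent.R4C.ClsUD_208

/-!
# Row 4, class CDomP: a HEAVY member is harmless (helper18; V4 of note 4130)

* `HvyV F B L A i b` : heavy exception of `b` at the index `i` (some full dyadic block above
  `2^(A i)`, prefix `≤ 2 * 2^(2k/A) L`, has `ThS ≥ V^(5/A)`); contains `F5dx634.Hvy` (which has
  the shorter prefix `2 * 2^(k/A) L`), so that a factor `Π^C ≤ 2^i` of the scales is allowed.
* `HvA` : pure pair at its own scale, low words `≤ E i`, one member heavy.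
* **`cls_hvA`** : the class `HvA` is bounded.
* `thr_of_not_hvyV` : outside `HvyV` the threshold of the rule is `≤ V^(1/(4A))`.
-/

set_option autoImplicit false

open Finset

namespace Crest.Agent.R4C.DomPHx18

open Crest.Agent.R4C.Basex935 Crest.Agent.R4C.Cutx50 Crest.Agent.R4C.Lawx69
  Crest.Agent.R4C.FLDefx935 Crest.Agent.R4C.FLShx326 Crest.Agent.R4C.NodeMassx634
  Crest.Agent.R4C.Rulex945 Crest.Agent.R4C.NodeMassRx634 Crest.Agent.R4C.Splitx945
  Crest.Agent.R4C.Spinex946 Crest.Agent.R4C.FarKitx179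
open Crest.Agent.R4C.FLExx326 (ind ind_nonneg)

/-- heavy exception of `b` at the index `i`, long prefixes -/
def HvyV {M : ℕ} (F : FL M) (B : Finset ℕ) (L : ℝ) (A i b : ℕ) : Prop :=
  ExcF F (ind B) L (fun k => 2 * (2 : ℝ) ^ (2 / (A : ℝ) * k)) (HU (5 / (A : ℝ))) (A * i + 1)
    (M + 1) b

lemma HvyV.mono {M : ℕ} {F : FL M} {B : Finset ℕ} {L : ℝ} {A i j b : ℕ} (h : HvyV F B L A j b)
    (hij : i ≤ j) : HvyV F B L A i b := by
  obtain ⟨k, h1, h2, h3⟩ := h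
  exact ⟨k, le_trans (by have := Nat.mul_le_mul_left A hij; omega) h1, h2, h3⟩

/-- 634's heavy words are heavy -/
lemma HvyV.of_Hvy {M : ℕ} {F : FL M} {B : Finset ℕ} {L : ℝ} (hL : 0 ≤ L) {A i b : ℕ}
    (h : F5dx634.Hvy F B L A i b) : HvyV F B L A i b := by
  obtain ⟨k, h1, h2, h3, h4⟩ := h
  refine ⟨k, h1, h2, h3.trans (mul_le_mul_of_nonneg_right ?_ hL), h4⟩
  refine mul_le_mul_of_nonneg_left ?_ (by norm_num)
  refine Real.rpow_le_rpow_of_exponent_le (by norm_num) (mul_le_mul_of_nonneg_right ?_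
    (Nat.cast_nonneg _))
  rcases Nat.eq_zero_or_pos A with rfl | hA
  · simp
  · have : (0 : ℝ) < A := by exact_mod_cast hA
    rw [div_le_div_iff_of_pos_right this]
    norm_num

/-- **outside `HvyV` the threshold of the rule is small** -/
theorem thr_of_not_hvyV {cp γ L : ℝ} {A m0 M : ℕ} {B : Finset ℕ} {F : FL M} (hA : 1 ≤ A)
    {i b k : ℕ} (hn : ¬ HvyV F B L A i b) (hk : A * i < k) (hkM : k ≤ M)
    (huu : (F.uu (2 ^ k) b : ℝ) ≤ 2 * (2 : ℝ) ^ (2 / (A : ℝ) * k) * L) :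
    (ParOf cp A m0 γ L M B).thr b k ≤ (((2 : ℕ) ^ (k - 1) : ℕ) : ℝ) ^ (1 / (4 * (A : ℝ))) := by
  have hE : HU ((1 / (4 * (A : ℝ))) / (1 / 20)) = HU (5 / (A : ℝ)) := by
    rw [F5dx634.div_eps hA]
  refine thr_of_not_exc (F := F) (L := L) (h := fun k => 2 * (2 : ℝ) ^ (2 / (A : ℝ) * k))
    (k0 := A * i + 1) (K := M + 1) (ind_nonneg B) (by norm_num) ?_ hk (by omega) huu
  rw [hE]
  exact hn

/-! ### rows over a cell -/

/-- the mass of a cell -/
lemma uu_cm_le {M : ℕ} (hM : 0 < M) {F : FL M} {x b : ℕ} (hb : b ∣ M) (hl : F.ell x b = 1) :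
    (F.uu x b : ℝ) * cm F x b ≤ 1 := by
  classical
  have hu : (0 : ℝ) < F.uu x b := by exact_mod_cast FL.uu_pos x b
  have hself := self_mem_Cell hM hb hl
  have hsub : Cell F x b ⊆ M.divisors.filter (fun c => F.uu x b ∣ c) := by
    intro c hc
    have hcM : c ∣ M := (mem_Cell.1 hc).1.1
    rw [Finset.mem_filter, Nat.mem_divisors]
    refine ⟨⟨hcM, hM.ne'⟩, ?_⟩
    have h1 := (cell_cen hM hb hcM le_rfl hc).2
    have h2 := (cell_cen hM hb hb le_rfl hself).2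
    have h3 := ((mem_Cell_iff hM hb hcM).1 hc).1
    rw [h3, ← h2] at h1
    rw [← h1]
    exact Dvd.intro _ (FL.uu_mul_lam hM hcM)
  have h1 : cm F x b ≤ 1 / (F.uu x b : ℝ) := by
    unfold cm
    exact (Finset.sum_le_sum_of_subset_of_nonneg hsub fun c _ _ => nu_nonneg _ _).trans
      (prob_dvd_le hM _)
  calc (F.uu x b : ℝ) * cm F x b ≤ (F.uu x b : ℝ) * (1 / (F.uu x b : ℝ)) :=
        mul_le_mul_of_nonneg_left h1 hu.le
    _ = 1 := mul_one_div_cancel hu.ne'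

open Classical in
/-- row over the pure partners with a given low word, inside an event of small mass in every
cell -/
lemma row_cell {M : ℕ} (hM : 0 < M) {F : FL M} {x c : ℕ} (hc : c ∣ M) {E : ℕ → Prop} {κ : ℝ}
    (hκ : 0 ≤ κ) (hE : ∀ b, b ∣ M → F.ell x b = 1 →
      ∑ d ∈ (Cell F x b).filter E, nu M d ≤ κ * cm F x b) (a : ℕ) :
    ∑ b ∈ M.divisors with (F.good x b c ∧ F.ell x b = 1 ∧ low x b = a ∧ E b),
      (Nat.gcd b c : ℝ) * nu M b ≤ κ := by
  set T := M.divisors.filter (fun b => F.good x b c ∧ F.ell x b = 1 ∧ low x b = a ∧ E b) with hT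
  rcases T.eq_empty_or_nonempty with h0 | ⟨b0, hb0⟩
  · rw [h0, Finset.sum_empty]
    exact hκ
  · rw [hT, Finset.mem_filter, Nat.mem_divisors] at hb0
    obtain ⟨⟨hb0M, _⟩, hg0, hl0, ha0, _⟩ := hb0
    have hself := self_mem_Cell hM hb0M hl0
    have hu0 := (cell_cen hM hb0M hb0M le_rfl hself).2
    have hmem : ∀ b ∈ T, b ∣ M ∧ b ∈ Cell F x b0 ∧ E b ∧
        (Nat.gcd b c : ℝ) ≤ F.uu x b0 := by
      intro b hb
      rw [hT, Finset.mem_filter, Nat.mem_divisors] at hb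
      obtain ⟨⟨hbM, _⟩, hg, hl, ha, hEb⟩ := hb
      have hcell : b ∈ Cell F x b0 := by
        rw [mem_Cell_iff hM hb0M hbM]
        refine ⟨ha.trans ha0.symm, ?_, hl⟩
        exact FL.same_trans hb0M hc hg0.1 (FL.same_symm hbM hc hg.1)
      refine ⟨hbM, hcell, hEb, ?_⟩
      have h1 := (cell_cen hM hb0M hbM le_rfl hcell).2
      rw [ha, ← ha0, ← hu0] at h1
      have h2 := FL.good_gcd_dvd_uu hM hbM hc hg
      rw [h1] at h2
      exact_mod_cast Nat.le_of_dvd (FL.uu_pos x b0) h2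
    have hu : (0 : ℝ) ≤ F.uu x b0 := Nat.cast_nonneg _
    calc ∑ b ∈ T, (Nat.gcd b c : ℝ) * nu M b
        ≤ ∑ b ∈ T, (F.uu x b0 : ℝ) * nu M b := Finset.sum_le_sum fun b hb =>
          mul_le_mul_of_nonneg_right (hmem b hb).2.2.2 (nu_nonneg _ _)
      _ = (F.uu x b0 : ℝ) * ∑ b ∈ T, nu M b := by rw [Finset.mul_sum]
      _ ≤ (F.uu x b0 : ℝ) * ∑ d ∈ (Cell F x b0).filter E, nu M d := by
          refine mul_le_mul_of_nonneg_left ?_ hu
          refine Finset.sum_le_sum_of_subset_of_nonneg ?_ fun _ _ _ => nu_nonneg _ _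
          intro b hb
          rw [Finset.mem_filter]
          exact ⟨(hmem b hb).2.1, (hmem b hb).2.2.1⟩
      _ ≤ (F.uu x b0 : ℝ) * (κ * cm F x b0) := mul_le_mul_of_nonneg_left (hE b0 hb0M hl0) hu
      _ = κ * ((F.uu x b0 : ℝ) * cm F x b0) := by ring
      _ ≤ κ * 1 := mul_le_mul_of_nonneg_left (uu_cm_le hM hb0M hl0) hκ
      _ = κ := mul_one κ

/-- pure pair with low words `≤ N` -/
structure PW {M : ℕ} (F : FL M) (x N b c : ℕ) : Prop where
  good : F.good x b c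
  eb : F.ell x b = 1
  ec : F.ell x c = 1
  nb : low x (b / Nat.gcd b c) ≤ N
  nc : low x (c / Nat.gcd b c) ≤ N

lemma PW.symm {M : ℕ} {F : FL M} {x N b c : ℕ} (hb : b ∣ M) (hc : c ∣ M) (h : PW F x N b c) :
    PW F x N c b :=
  ⟨FL.good_symm hb hc h.good, h.ec, h.eb, by rw [Nat.gcd_comm]; exact h.nc,
    by rw [Nat.gcd_comm]; exact h.nb⟩

/-- the low word of the partner is determined by the two low words of the pair -/
lemma low_eq {b c : ℕ} (hb : 0 < b) (hc : 0 < c) (x : ℕ) :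
    low x b = low x c * low x (b / Nat.gcd b c) / low x (c / Nat.gcd b c) := by
  have hg : 0 < Nat.gcd b c := Nat.gcd_pos_of_pos_left _ hb
  have e1 : Nat.gcd b c * (b / Nat.gcd b c) = b := Nat.mul_div_cancel' (Nat.gcd_dvd_left b c)
  have e2 : Nat.gcd b c * (c / Nat.gcd b c) = c := Nat.mul_div_cancel' (Nat.gcd_dvd_right b c)
  have hb1 : b / Nat.gcd b c ≠ 0 := by
    intro h; rw [h, mul_zero] at e1; omega
  have hc1 : c / Nat.gcd b c ≠ 0 := by
    intro h; rw [h, mul_zero] at e2; omega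
  have h1 : low x b = low x (Nat.gcd b c) * low x (b / Nat.gcd b c) := by
    conv_lhs => rw [← e1]
    exact Sharedx11.low_mul x hg.ne' hb1
  have h2 : low x c = low x (Nat.gcd b c) * low x (c / Nat.gcd b c) := by
    conv_lhs => rw [← e2]
    exact Sharedx11.low_mul x hg.ne' hc1
  rw [h1, h2]
  symm
  refine Nat.div_eq_of_eq_mul_left (low_pos _ _) ?_
  ring

open Classical in
/-- **row sum** over the partners of `c` -/
lemma row_PW {M : ℕ} (hM : 0 < M) {F : FL M} {x c N : ℕ} (hc : c ∣ M) {E : ℕ → Prop} {κ : ℝ}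
    (hκ : 0 ≤ κ) (hE : ∀ b, b ∣ M → F.ell x b = 1 →
      ∑ d ∈ (Cell F x b).filter E, nu M d ≤ κ * cm F x b) :
    ∑ b ∈ M.divisors with (PW F x N b c ∧ E b), (Nat.gcd b c : ℝ) * nu M b ≤
      ((N : ℝ) + 1) ^ 2 * κ := by
  set W : Finset ℕ := (range (N + 1) ×ˢ range (N + 1)).image
    (fun w => low x c * w.1 / w.2) with hW
  have hc0 : 0 < c := Nat.pos_of_dvd_of_pos hc hM
  have hcard : (W.card : ℝ) ≤ ((N : ℝ) + 1) ^ 2 := by
    have h1 : W.card ≤ (N + 1) ^ 2 := by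
      refine Finset.card_image_le.trans ?_
      rw [Finset.card_product, Finset.card_range, sq]
    exact_mod_cast h1
  have h2 : ∑ b ∈ M.divisors with (PW F x N b c ∧ E b), (Nat.gcd b c : ℝ) * nu M b ≤
      ∑ a ∈ W, ∑ b ∈ M.divisors with (F.good x b c ∧ F.ell x b = 1 ∧ low x b = a ∧ E b),
        (Nat.gcd b c : ℝ) * nu M b := by
    have hn : ∀ b, 0 ≤ (Nat.gcd b c : ℝ) * nu M b := fun b =>
      mul_nonneg (Nat.cast_nonneg _) (nu_nonneg _ _)
    have e : ∀ a ∈ W, ∑ b ∈ M.divisors with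
        (F.good x b c ∧ F.ell x b = 1 ∧ low x b = a ∧ E b), (Nat.gcd b c : ℝ) * nu M b =
        ∑ b ∈ M.divisors, if (F.good x b c ∧ F.ell x b = 1 ∧ low x b = a ∧ E b) then
          (Nat.gcd b c : ℝ) * nu M b else 0 := fun a _ => Finset.sum_filter _ _
    rw [Finset.sum_congr rfl e, Finset.sum_comm, Finset.sum_filter]
    refine Finset.sum_le_sum fun b hb => ?_
    rw [Nat.mem_divisors] at hb
    have hb0 : 0 < b := Nat.pos_of_dvd_of_pos hb.1 hM
    have hnn : ∀ a ∈ W, 0 ≤ (if (F.good x b c ∧ F.ell x b = 1 ∧ low x b = a ∧ E b) then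
          (Nat.gcd b c : ℝ) * nu M b else 0) := fun a _ => by
      split_ifs
      · exact hn b
      · exact le_rfl
    by_cases h : PW F x N b c ∧ E b
    · rw [if_pos h]
      have hmem : low x b ∈ W := by
        rw [hW, Finset.mem_image]
        refine ⟨(low x (b / Nat.gcd b c), low x (c / Nat.gcd b c)), ?_, (low_eq hb0 hc0 x).symm⟩
        rw [Finset.mem_product, Finset.mem_range, Finset.mem_range]
        have h3 := h.1.nb
        have h4 := h.1.nc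
        exact ⟨by show _ < _; omega, by show _ < _; omega⟩
      have h3 := Finset.single_le_sum hnn hmem
      rwa [if_pos ⟨h.1.good, h.1.eb, rfl, h.2⟩] at h3
    · rw [if_neg h]
      exact Finset.sum_nonneg hnn
  refine h2.trans ((Finset.sum_le_sum fun a _ => row_cell hM hc hκ hE a).trans ?_)
  rw [Finset.sum_const, nsmul_eq_mul]
  exact mul_le_mul_of_nonneg_right hcard hκ

/-! ### set bounds -/

open Classical in
/-- **set bound**: pure pairs with low words `≤ N`, the FIRST member in a thin event -/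
theorem set_one {M : ℕ} (hM : 0 < M) {F : FL M} {x N : ℕ} {E : ℕ → Prop} {κ : ℝ}
    (hκ : 0 ≤ κ) (hE : ∀ b, b ∣ M → F.ell x b = 1 →
      ∑ d ∈ (Cell F x b).filter E, nu M d ≤ κ * cm F x b) {S S' : Finset ℕ}
    (hS : S ⊆ M.divisors) (hS' : S' ⊆ M.divisors) :
    ∑ b ∈ S, ∑ c ∈ S', ker M (fun b c => PW F x N b c ∧ E b) b c ≤
      ((N : ℝ) + 1) ^ 2 * √κ * √((∑ b ∈ S, nu M b) * ∑ c ∈ S', nu M c) := by
  have hnu : ∀ T : Finset ℕ, 0 ≤ ∑ b ∈ T, nu M b := fun T =>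
    Finset.sum_nonneg fun b _ => nu_nonneg M b
  set q : ℕ → ℕ → Prop := fun b c => PW F x N b c ∧ E b with hq
  set X := ∑ b ∈ S, ∑ c ∈ S', ker M q b c with hX
  have hX0 : 0 ≤ X := Finset.sum_nonneg fun b _ => Finset.sum_nonneg fun c _ => ker_nonneg _ _ _ _
  set N2 : ℝ := ((N : ℝ) + 1) ^ 2 with hN2
  have hN0 : 0 ≤ N2 := by positivity
  -- sum over the first member
  have hrow : ∀ c ∈ S', ∑ b ∈ S, ker M q b c ≤ N2 * κ * nu M c := by
    intro c hc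
    have hcM := Nat.dvd_of_mem_divisors (hS' hc)
    have h1 := row_PW (N := N) hM hcM hκ hE
    calc ∑ b ∈ S, ker M q b c ≤ ∑ b ∈ M.divisors, ker M q b c :=
          Finset.sum_le_sum_of_subset_of_nonneg hS fun b _ _ => ker_nonneg _ _ _ _
      _ = (∑ b ∈ M.divisors with (PW F x N b c ∧ E b), (Nat.gcd b c : ℝ) * nu M b) * nu M c := by
          rw [Finset.sum_filter, Finset.sum_mul]
          refine Finset.sum_congr rfl fun b _ => ?_
          unfold ker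
          by_cases h : PW F x N b c ∧ E b
          · rw [if_pos h, if_pos h]
          · rw [if_neg h, if_neg h, zero_mul]
      _ ≤ N2 * κ * nu M c := mul_le_mul_of_nonneg_right h1 (nu_nonneg _ _)
  -- sum over the second member
  have hcol : ∀ b ∈ S, ∑ c ∈ S', ker M q b c ≤ N2 * nu M b := by
    intro b hb
    have hbM := Nat.dvd_of_mem_divisors (hS hb)
    obtain ⟨T, hT⟩ : ∃ T : ℕ → Prop, ∀ n, T n := ⟨fun _ => True, fun _ => trivial⟩
    have h1 := row_PW (N := N) hM hbM (E := T) zero_le_one (F := F) (x := x)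
      (fun c _ _ => by
        rw [one_mul]
        unfold cm
        exact Finset.sum_le_sum_of_subset_of_nonneg (Finset.filter_subset _ _)
          fun _ _ _ => nu_nonneg _ _)
    calc ∑ c ∈ S', ker M q b c ≤ ∑ c ∈ M.divisors, ker M q b c :=
          Finset.sum_le_sum_of_subset_of_nonneg hS' fun c _ _ => ker_nonneg _ _ _ _
      _ ≤ (∑ c ∈ M.divisors with (PW F x N c b ∧ T c), (Nat.gcd c b : ℝ) * nu M c) *
            nu M b := by
          rw [Finset.sum_filter, Finset.sum_mul]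
          refine Finset.sum_le_sum fun c hc => ?_
          have hcM := Nat.dvd_of_mem_divisors hc
          unfold ker
          by_cases h : q b c
          · rw [if_pos h, if_pos ⟨h.1.symm hbM hcM, hT c⟩, Nat.gcd_comm]
            exact le_of_eq (by ring)
          · rw [if_neg h]
            split_ifs
            · exact mul_nonneg (mul_nonneg (Nat.cast_nonneg _) (nu_nonneg _ _)) (nu_nonneg _ _)
            · rw [zero_mul]
      _ ≤ N2 * 1 * nu M b := mul_le_mul_of_nonneg_right h1 (nu_nonneg _ _)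
      _ = N2 * nu M b := by rw [mul_one]
  have h1 : X ≤ N2 * ∑ b ∈ S, nu M b := by
    rw [hX, Finset.mul_sum]
    exact Finset.sum_le_sum hcol
  have h2 : X ≤ N2 * κ * ∑ c ∈ S', nu M c := by
    rw [hX, Finset.sum_comm, Finset.mul_sum]
    exact Finset.sum_le_sum hrow
  have h3 : X ^ 2 ≤ (N2 * √κ * √((∑ b ∈ S, nu M b) * ∑ c ∈ S', nu M c)) ^ 2 := by
    rw [mul_pow, mul_pow, Real.sq_sqrt hκ, Real.sq_sqrt (mul_nonneg (hnu _) (hnu _))]
    calc X ^ 2 = X * X := sq X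
      _ ≤ (N2 * ∑ b ∈ S, nu M b) * (N2 * κ * ∑ c ∈ S', nu M c) :=
          mul_le_mul h1 h2 hX0 (mul_nonneg hN0 (hnu _))
      _ = _ := by ring
  exact le_of_sq_le_sq h3 (by positivity)

open Classical in
/-- **set bound**: pure pairs with low words `≤ N`, one member in a thin event -/
theorem set_two {M : ℕ} (hM : 0 < M) {F : FL M} {x N : ℕ} {E : ℕ → Prop} {κ : ℝ}
    (hκ : 0 ≤ κ) (hE : ∀ b, b ∣ M → F.ell x b = 1 →
      ∑ d ∈ (Cell F x b).filter E, nu M d ≤ κ * cm F x b) {S S' : Finset ℕ}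
    (hS : S ⊆ M.divisors) (hS' : S' ⊆ M.divisors) :
    ∑ b ∈ S, ∑ c ∈ S', ker M (fun b c => PW F x N b c ∧ (E b ∨ E c)) b c ≤
      2 * ((N : ℝ) + 1) ^ 2 * √κ * √((∑ b ∈ S, nu M b) * ∑ c ∈ S', nu M c) := by
  have h1 := set_one (N := N) hM hκ hE hS hS'
  have h2 := set_one (N := N) hM hκ hE hS' hS
  rw [mul_comm (∑ b ∈ S', nu M b)] at h2
  have h3 : ∑ b ∈ S, ∑ c ∈ S', ker M (fun b c => PW F x N b c ∧ (E b ∨ E c)) b c ≤
      ∑ b ∈ S, ∑ c ∈ S', ker M (fun b c => PW F x N b c ∧ E b) b c +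
      ∑ b ∈ S', ∑ c ∈ S, ker M (fun b c => PW F x N b c ∧ E b) b c := by
    rw [Finset.sum_comm (s := S') (t := S), ← Finset.sum_add_distrib]
    refine Finset.sum_le_sum fun b hb => ?_
    rw [← Finset.sum_add_distrib]
    refine Finset.sum_le_sum fun c hc => ?_
    have hbM := Nat.dvd_of_mem_divisors (hS hb)
    have hcM := Nat.dvd_of_mem_divisors (hS' hc)
    have k1 := ker_nonneg M (fun b c => PW F x N b c ∧ E b) b c
    have k2 := ker_nonneg M (fun b c => PW F x N b c ∧ E b) c b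
    by_cases h : PW F x N b c ∧ (E b ∨ E c)
    · have e0 : ker M (fun b c => PW F x N b c ∧ (E b ∨ E c)) b c =
          (Nat.gcd b c : ℝ) * nu M b * nu M c := if_pos h
      rcases h.2 with hE1 | hE1
      · have e1 : ker M (fun b c => PW F x N b c ∧ E b) b c =
          (Nat.gcd b c : ℝ) * nu M b * nu M c := if_pos ⟨h.1, hE1⟩
        rw [e0]
        linarith
      · have e1 : ker M (fun b c => PW F x N b c ∧ E b) c b =
          (Nat.gcd c b : ℝ) * nu M c * nu M b := if_pos ⟨h.1.symm hbM hcM, hE1⟩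
        have e2 : (Nat.gcd c b : ℝ) * nu M c * nu M b = (Nat.gcd b c : ℝ) * nu M b * nu M c := by
          rw [Nat.gcd_comm]
          ring
        rw [e0]
        linarith
    · have e0 : ker M (fun b c => PW F x N b c ∧ (E b ∨ E c)) b c = 0 := if_neg h
      rw [e0]
      linarith
  linarith

/-! ### the class -/

/-- pure pair at the own scale, low words `≤ E i`, one member heavy -/
def HvA {M : ℕ} (F : FL M) (P : Par) (B : Finset ℕ) (A : ℕ) (b c : ℕ) (h : ℤ) : Prop :=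
  ∃ i, FarA F P i b c h ∧ (low (P.cut i) (b / Nat.gcd b c) : ℝ) ≤ P.E i ∧
    (low (P.cut i) (c / Nat.gcd b c) : ℝ) ≤ P.E i ∧ Pure F (P.cut i) b c ∧
    (HvyV F B P.L A i b ∨ HvyV F B P.L A i c)

open Classical in
/-- the heavy words are thin in every cell -/
theorem hvy_cell {A : ℕ} (hA : 1 ≤ A) : ∃ C : ℝ, 0 ≤ C ∧
    ∀ (η L : ℝ) (m0 M : ℕ) (B : Finset ℕ) (F : FL M) (x0 : ℕ), Setup η L M B F →
      (∀ q : ℕ, q.Prime → x0 < q → 1 / (q : ℝ) ≤ sA η * (q : ℝ) ^ (-(sE η))) →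
      x0 ≤ 2 ^ (A * m0) → ∀ i, m0 ≤ i → ∀ b, b ∣ M →
      ∑ d ∈ (Cell F (2 ^ (A * i)) b).filter (HvyV F B L A i), nu M d ≤
        C * (2 : ℝ) ^ (-((i : ℝ) * (3 / 2))) * cm F (2 ^ (A * i)) b := by
  have hA0 : (0 : ℝ) < A := by exact_mod_cast hA
  obtain ⟨C, hC, h⟩ := exc_cell_pow (a := 2 / (A : ℝ)) (U := 5 / (A : ℝ)) (Ch := 2)
    (by rw [div_lt_div_iff₀ hA0 hA0]; linarith) (by norm_num)
  refine ⟨C, hC, fun η L m0 M B F x0 S hq hx0 i hi b hb => ?_⟩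
  have hcm := cm_nonneg F (2 ^ (A * i)) b
  have hx0' : x0 ≤ 2 ^ (A * i) :=
    hx0.trans (Nat.pow_le_pow_right (by norm_num) (Nat.mul_le_mul_left _ hi))
  have h1 := h M F B (sA η) (sE η) x0 (2 ^ (A * i)) b (A * i + 1) (M + 1) L S.hM S.hB S.node hq hb
    hx0' (Nat.pow_le_pow_right (by norm_num) (Nat.le_succ _)) (Nat.succ_le_succ (Nat.zero_le _))
    S.hL.le
  have hexp : (2 : ℝ) ^ (-((5 / (A : ℝ) - 2 / (A : ℝ)) * ((A * i + 1 : ℕ) : ℝ) / 2)) ≤
      (2 : ℝ) ^ (-((i : ℝ) * (3 / 2))) := by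
    refine Real.rpow_le_rpow_of_exponent_le (by norm_num) (neg_le_neg ?_)
    push_cast
    have e : (5 / (A : ℝ) - 2 / (A : ℝ)) * ((A : ℝ) * i + 1) / 2 = i * (3 / 2) + 3 / (2 * A) := by
      field_simp
      ring
    rw [e]
    have : 0 ≤ 3 / (2 * (A : ℝ)) := by positivity
    linarith
  have h2 : ∑ d ∈ (Cell F (2 ^ (A * i)) b).filter (HvyV F B L A i), nu M d ≤
      cm F (2 ^ (A * i)) b * (L * ∑ c ∈ B, nu M c) *
        (C * (2 : ℝ) ^ (-((5 / (A : ℝ) - 2 / (A : ℝ)) * ((A * i + 1 : ℕ) : ℝ) / 2))) := h1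
  refine h2.trans ?_
  have h3 : cm F (2 ^ (A * i)) b * (L * ∑ c ∈ B, nu M c) ≤ cm F (2 ^ (A * i)) b :=
    mul_le_of_le_one_right hcm S.mass
  calc cm F (2 ^ (A * i)) b * (L * ∑ c ∈ B, nu M c) *
        (C * (2 : ℝ) ^ (-((5 / (A : ℝ) - 2 / (A : ℝ)) * ((A * i + 1 : ℕ) : ℝ) / 2)))
      ≤ cm F (2 ^ (A * i)) b * (C * (2 : ℝ) ^ (-((i : ℝ) * (3 / 2)))) :=
        mul_le_mul h3 (mul_le_mul_of_nonneg_left hexp hC) (by positivity) hcm
    _ = _ := by ring

open Classical in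
/-- **the class `HvA` is bounded** -/
theorem cls_hvA (γ : ℝ) :
    ClsOK γ (fun cp _ A m0 L M B F => HvA F (ParOf cp A m0 γ L M B) B A) := by
  have hex : ∀ A : ℕ, ∃ C : ℝ, 0 ≤ C ∧ (1 ≤ A → ∀ (η L : ℝ) (m0 M : ℕ) (B : Finset ℕ) (F : FL M)
      (x0 : ℕ), Setup η L M B F →
      (∀ q : ℕ, q.Prime → x0 < q → 1 / (q : ℝ) ≤ sA η * (q : ℝ) ^ (-(sE η))) →
      x0 ≤ 2 ^ (A * m0) → ∀ i, m0 ≤ i → ∀ b, b ∣ M →
      ∑ d ∈ (Cell F (2 ^ (A * i)) b).filter (HvyV F B L A i), nu M d ≤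
        C * (2 : ℝ) ^ (-((i : ℝ) * (3 / 2))) * cm F (2 ^ (A * i)) b) := by
    intro A
    by_cases hA : 1 ≤ A
    · obtain ⟨C, hC, h⟩ := hvy_cell hA
      exact ⟨C, hC, fun _ => h⟩
    · exact ⟨0, le_rfl, fun h => absurd h hA⟩
  choose C hC0 hC using hex
  refine clsOK_of_sets (((Ev.basic.and (Ev.le_m0 fun _ _ _ => 3)).and F5dx634.ev_x0).mono ?_)
  rintro cp η A m0 ⟨⟨⟨hcp, hcp2, hη, hη2, hη1, hA, _⟩, hm0⟩, x0, hx0, hx0m⟩
  have hm3 : 3 ≤ m0 := by exact_mod_cast hm0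
  refine ⟨1 / 2, by norm_num, 8 * √(C A), by positivity, 0, ?_⟩
  intro L M B F hS
  set P := ParOf cp A m0 γ L M B with hP
  refine ⟨fun t b c => PW F (2 ^ (A * t)) ⌊(2 : ℝ) ^ (cp * t)⌋₊ b c ∧
    (HvyV F B L A t b ∨ HvyV F B L A t c), ?_, ?_⟩
  · intro b hb c hcB hne h hh hk hR
    obtain ⟨i, hF, h1, h2, h3, h4⟩ := hR
    refine ⟨i, hF.m0, ⟨⟨hF.good, h3.1, h3.2, Nat.le_floor h1, Nat.le_floor h2⟩, h4⟩,
      ClsUDx208.lvl_of_far hS hA hm3 hb hF⟩
  · intro t ht S S' hSB hSB'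
    have hκ : 0 ≤ C A * (2 : ℝ) ^ (-((t : ℝ) * (3 / 2))) := mul_nonneg (hC0 A) (by positivity)
    have h1 := set_two (N := ⌊(2 : ℝ) ^ (cp * t)⌋₊) hS.hM (F := F) (x := 2 ^ (A * t))
      (E := HvyV F B L A t) hκ
      (fun b hb _ => hC A hA η L m0 M B F x0 hS hx0 hx0m t ht b hb) (hSB.trans hS.hB)
      (hSB'.trans hS.hB)
    have hL := hS.hL.le
    have hn : ∀ T : Finset ℕ, 0 ≤ ∑ b ∈ T, nu M b := fun T =>
      Finset.sum_nonneg fun b _ => nu_nonneg M b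
    have e1 : √((L * ∑ b ∈ S, nu M b) * (L * ∑ c ∈ S', nu M c)) =
        L * √((∑ b ∈ S, nu M b) * ∑ c ∈ S', nu M c) := by
      rw [show (L * ∑ b ∈ S, nu M b) * (L * ∑ c ∈ S', nu M c) =
        L ^ 2 * ((∑ b ∈ S, nu M b) * ∑ c ∈ S', nu M c) by ring,
        Real.sqrt_mul (by positivity), Real.sqrt_sq hL]
    have hE1 : (1 : ℝ) ≤ (2 : ℝ) ^ (cp * t) :=
      Real.one_le_rpow (by norm_num) (by positivity)
    have hfl : ((⌊(2 : ℝ) ^ (cp * t)⌋₊ : ℕ) : ℝ) + 1 ≤ 2 * (2 : ℝ) ^ (cp * t) := by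
      have := Nat.floor_le (show (0 : ℝ) ≤ (2 : ℝ) ^ (cp * t) by positivity)
      linarith
    have hnum : 2 * (((⌊(2 : ℝ) ^ (cp * t)⌋₊ : ℕ) : ℝ) + 1) ^ 2 *
        √(C A * (2 : ℝ) ^ (-((t : ℝ) * (3 / 2)))) ≤ 8 * √(C A) * (2 : ℝ) ^ (-(1 / 2 * (t : ℝ))) := by
      have h2 : (((⌊(2 : ℝ) ^ (cp * t)⌋₊ : ℕ) : ℝ) + 1) ^ 2 ≤ (2 * (2 : ℝ) ^ (cp * t)) ^ 2 :=
        pow_le_pow_left₀ (by positivity) hfl 2
      have h3 : √(C A * (2 : ℝ) ^ (-((t : ℝ) * (3 / 2)))) =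
          √(C A) * (2 : ℝ) ^ (-((t : ℝ) * (3 / 4))) := by
        rw [Real.sqrt_mul (hC0 A)]
        congr 1
        rw [Real.sqrt_eq_rpow, ← Real.rpow_mul (by norm_num)]
        congr 1
        ring
      have h4 : (2 * (2 : ℝ) ^ (cp * t)) ^ 2 = 4 * (2 : ℝ) ^ (2 * (cp * t)) := by
        rw [mul_pow, ← Real.rpow_natCast ((2 : ℝ) ^ (cp * t)) 2, ← Real.rpow_mul (by norm_num)]
        push_cast
        rw [mul_comm (cp * (t : ℝ)) 2]
        norm_num
      have hsC : 0 ≤ √(C A) := Real.sqrt_nonneg _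
      rw [h3]
      calc 2 * (((⌊(2 : ℝ) ^ (cp * t)⌋₊ : ℕ) : ℝ) + 1) ^ 2 *
            (√(C A) * (2 : ℝ) ^ (-((t : ℝ) * (3 / 4))))
          ≤ 2 * (4 * (2 : ℝ) ^ (2 * (cp * t))) * (√(C A) * (2 : ℝ) ^ (-((t : ℝ) * (3 / 4)))) := by
            refine mul_le_mul_of_nonneg_right ?_ (by positivity)
            rw [← h4]
            linarith
        _ = 8 * √(C A) * ((2 : ℝ) ^ (2 * (cp * t)) * (2 : ℝ) ^ (-((t : ℝ) * (3 / 4)))) := by ring
        _ = 8 * √(C A) * (2 : ℝ) ^ (2 * (cp * t) + -((t : ℝ) * (3 / 4))) := by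
            rw [Real.rpow_add (by norm_num)]
        _ ≤ 8 * √(C A) * (2 : ℝ) ^ (-(1 / 2 * (t : ℝ))) := by
            refine mul_le_mul_of_nonneg_left ?_ (by positivity)
            refine Real.rpow_le_rpow_of_exponent_le (by norm_num) ?_
            have h5 : cp * t ≤ 1 / 200 * t := mul_le_mul_of_nonneg_right hcp2 (Nat.cast_nonneg t)
            have h6 : (0 : ℝ) ≤ t := Nat.cast_nonneg t
            linarith
    rw [e1, pow_zero, mul_one]
    calc L * ∑ b ∈ S, ∑ c ∈ S', ker M _ b c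
        ≤ L * (2 * (((⌊(2 : ℝ) ^ (cp * t)⌋₊ : ℕ) : ℝ) + 1) ^ 2 *
          √(C A * (2 : ℝ) ^ (-((t : ℝ) * (3 / 2)))) *
          √((∑ b ∈ S, nu M b) * ∑ c ∈ S', nu M c)) := mul_le_mul_of_nonneg_left h1 hL
      _ ≤ L * (8 * √(C A) * (2 : ℝ) ^ (-(1 / 2 * (t : ℝ))) *
          √((∑ b ∈ S, nu M b) * ∑ c ∈ S', nu M c)) :=
          mul_le_mul_of_nonneg_left (mul_le_mul_of_nonneg_right hnum (Real.sqrt_nonneg _)) hL
      _ = _ := by ring

end Crest.Agent.R4C.DomPHx18
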