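import Crest.Agent.R4C.GWinst_982
import Crest.Agent.R4C.GWasm_982
import Crest.Agent.R4C.KyCls_971
import Crest.Agent.R4C.Cover_946

/-!
# Row 4: reduction of the class `nH cDomP` to the worlds of the cores (helper244)

* `ScP F P i b c h` : pure pair of own scale `i` with low word `(1, 1)`.
* `cSc γ` : the scalar pairs outside `CHvy` and `CKyP`; `cVc γ` : the other pairs of `cDomP`
  outside `CHvy` and `CKyP`.
* **`dom_red`** : `ClsOK (cSc γ) → ClsOK (cVc γ) → ClsOK (nH γ (cDomP γ))`.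
* `ShareOK`, `LeaveOK`, `WeightOK`, `FactsOK` : the facts about the worlds `GWinstx982.inst`
  (same cell; one of the two words leaves the zone; weight; `GWasmx982.Facts`).
* **`cls_sc`** : these four facts imply `ClsOK (cSc γ)`.
-/

set_option autoImplicit false

open Finset

namespace Crest.Agent.R4C.DomRedx244

open Crest.Agent.R4C.Basex935 Crest.Agent.R4C.Cutx50 Crest.Agent.R4C.FLDefx935
  Crest.Agent.R4C.CrCoinx935 Crest.Agent.R4C.Bridgex882 Crest.Agent.R4C.Rulex945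
  Crest.Agent.R4C.Splitx945 Crest.Agent.R4C.Spinex946 Crest.Agent.R4C.Coverx946
  Crest.Agent.R4C.KyClsx971 Crest.Agent.R4C.PureClsx863 Crest.Agent.R4C.PureL2x232
  Crest.Agent.R4C.GWdefx982 Crest.Agent.R4C.GWinstx982 Crest.Agent.R4C.GWasmx982
open Crest.Agent.R4C.FLExx326 (ind ind_nonneg ind_le_one Ex_ind)

/-! ### the classes -/

/-- a pure pair of own scale `2^i` with low word `(1, 1)` -/
structure ScP {M : ℕ} (F : FL M) (P : Par) (i b c : ℕ) (h : ℤ) : Prop where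
  far : FarA F P i b c h
  pure : Pure F (P.cut i) b c
  low_b : low (P.cut i) (b / Nat.gcd b c) = 1
  low_c : low (P.cut i) (c / Nat.gcd b c) = 1

/-- outside the heavy class and outside the event `K_y` -/
def Off {M : ℕ} (F : FL M) (P : Par) (B : Finset ℕ) (b c : ℕ) (h : ℤ) : Prop :=
  ¬ CHvy F P (ind B) (1 / 20) b c h ∧ ¬ CKyP F P b c h

/-- the scalar class -/
def cSc (γ : ℝ) : Cls := fun cp _ A m0 L M B F b c h =>
  (∃ i, ScP F (ParOf cp A m0 γ L M B) i b c h) ∧ Off F (ParOf cp A m0 γ L M B) B b c h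

/-- the vector class: the low word is dominant and different from `(1, 1)` -/
def cVc (γ : ℝ) : Cls := fun cp _ A m0 L M B F b c h =>
  (∃ i, FarA F (ParOf cp A m0 γ L M B) i b c h ∧ DomA (ParOf cp A m0 γ L M B) i b c ∧
    Pure F ((ParOf cp A m0 γ L M B).cut i) b c ∧
    ¬ (low ((ParOf cp A m0 γ L M B).cut i) (b / Nat.gcd b c) = 1 ∧
      low ((ParOf cp A m0 γ L M B).cut i) (c / Nat.gcd b c) = 1)) ∧
    Off F (ParOf cp A m0 γ L M B) B b c h

/-- **the class `cDomP` from its scalar part and its vector part** -/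
theorem dom_red {γ : ℝ} (h1 : ClsOK γ (cSc γ)) (h2 : ClsOK γ (cVc γ)) :
    ClsOK γ (nH γ (cDomP γ)) := by
  refine ClsOK_off ((h1.or h2).mono (Ev.of_forall
    fun cp η A m0 L M B F _ b _ c _ _ x _ _ hx => ?_))
  obtain ⟨⟨h3, i, h4, h5, h6⟩, h7⟩ := hx
  have hoff : Off F (ParOf cp A m0 γ L M B) B b c x := ⟨h3, h7⟩
  by_cases h8 : low ((ParOf cp A m0 γ L M B).cut i) (b / Nat.gcd b c) = 1 ∧
      low ((ParOf cp A m0 γ L M B).cut i) (c / Nat.gcd b c) = 1
  · exact Or.inl ⟨⟨i, h4, h6, h8.1, h8.2⟩, hoff⟩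
  · exact Or.inr ⟨⟨i, h4, h5, h6, h8⟩, hoff⟩

/-! ### the facts about the worlds -/

/-- the pairs of words of the scalar class (`x` = the unkilled linked offset) -/
structure PairW (cp γ L : ℝ) (A m0 M : ℕ) (B : Finset ℕ) (F : FL M) (G i w w' : ℕ) (x : ℤ) :
    Prop where
  core : G ∈ cores F
  dvd : w ∣ PM F G
  dvd' : w' ∣ PM F G
  mem : G * w ∈ B
  mem' : G * w' ∈ B
  ne : w ≠ w'
  lnk : x ∈ Lnk γ L (G * w) (G * w')
  unk : ¬ killedB (lamOf cp A m0 γ L M B F) (G * w) (G * w') x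
  sc : ScP F (ParOf cp A m0 γ L M B) i (G * w) (G * w') x
  off : Off F (ParOf cp A m0 γ L M B) B (G * w) (G * w') x

/-- the two words share a node for one of the two shifts (owner: 284) -/
def ShareOK (γ : ℝ) : Prop := Ev fun cp η A m0 => ∀ (K1 c L : ℝ) (M : ℕ) (B : Finset ℕ) (F : FL M),
  Setup η L M B F → ∀ G i w w' x, PairW cp γ L A m0 M B F G i w w' x →
    ∃ σ : ℝ, (σ = 0 ∨ σ = 1 / 2) ∧ (inst F (ParOf cp A m0 γ L M B) G σ K1 c).nd i w ∧
      (inst F (ParOf cp A m0 γ L M B) G σ K1 c).nd i w' ∧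
      (inst F (ParOf cp A m0 γ L M B) G σ K1 c).lab i w =
        (inst F (ParOf cp A m0 γ L M B) G σ K1 c).lab i w'

/-- one of the two words leaves the zone (owners: 262, 264, 22) -/
def LeaveOK (γ : ℝ) : Prop := Ev fun cp η A m0 => ∀ (K1 c σ L : ℝ) (M : ℕ) (B : Finset ℕ)
  (F : FL M), (σ = 0 ∨ σ = 1 / 2) → 1 ≤ K1 → 0 < c →
  Setup η L M B F → ∀ G i w w' x, PairW cp γ L A m0 M B F G i w w' x →
    (inst F (ParOf cp A m0 γ L M B) G σ K1 c).nd i w →
    (inst F (ParOf cp A m0 γ L M B) G σ K1 c).nd i w' →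
    (inst F (ParOf cp A m0 γ L M B) G σ K1 c).lab i w =
      (inst F (ParOf cp A m0 γ L M B) G σ K1 c).lab i w' →
    w ∈ (inst F (ParOf cp A m0 γ L M B) G σ K1 c).A
      ((inst F (ParOf cp A m0 γ L M B) G σ K1 c).zone i w)
      ((inst F (ParOf cp A m0 γ L M B) G σ K1 c).lab i w) ∨
    w' ∈ (inst F (ParOf cp A m0 γ L M B) G σ K1 c).A
      ((inst F (ParOf cp A m0 γ L M B) G σ K1 c).zone i w)
      ((inst F (ParOf cp A m0 γ L M B) G σ K1 c).lab i w)

/-- the weight of a pair (owners: 360, 115) -/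
def WeightOK (γ : ℝ) : Prop := Ev fun cp η A m0 => ∃ Cw : ℝ, 0 ≤ Cw ∧
  ∀ (K1 c σ L : ℝ) (M : ℕ) (B : Finset ℕ)
  (F : FL M), (σ = 0 ∨ σ = 1 / 2) → 1 ≤ K1 → 0 < c →
  Setup η L M B F → ∀ G i w w' x, PairW cp γ L A m0 M B F G i w w' x →
    (inst F (ParOf cp A m0 γ L M B) G σ K1 c).nd i w →
    (inst F (ParOf cp A m0 γ L M B) G σ K1 c).nd i w' →
    (inst F (ParOf cp A m0 γ L M B) G σ K1 c).lab i w =
      (inst F (ParOf cp A m0 γ L M B) G σ K1 c).lab i w' →
    VR F G * ((Nat.gcd w w' : ℝ) * nu (PM F G) w * nu (PM F G) w' *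
        boostB M (lamOf cp A m0 γ L M B F) (G * w) (G * w') x) ≤
      Cw * (nu (PM F G) w * nu (PM F G) w' /
        (inst F (ParOf cp A m0 γ L M B) G σ K1 c).g
          ((inst F (ParOf cp A m0 γ L M B) G σ K1 c).lab i w)) *
      min ((inst F (ParOf cp A m0 γ L M B) G σ K1 c).W
          ((inst F (ParOf cp A m0 γ L M B) G σ K1 c).zone i w) w)
        ((inst F (ParOf cp A m0 γ L M B) G σ K1 c).W
          ((inst F (ParOf cp A m0 γ L M B) G σ K1 c).zone i w) w')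

/-- laminarity, masses, budget, natural hypothesis (owners: 863, 5, 966, 473/438/33) -/
def FactsOK (γ : ℝ) : Prop := Ev fun cp η A m0 => ∃ K1 c C1 T : ℝ, 1 ≤ K1 ∧ 0 < c ∧ 1 ≤ C1 ∧
  0 ≤ T ∧ ∀ (L : ℝ) (M : ℕ) (B : Finset ℕ) (F : FL M), Setup η L M B F →
    ∀ G ∈ cores F, ∀ σ : ℝ, (σ = 0 ∨ σ = 1 / 2) →
      Facts (inst F (ParOf cp A m0 γ L M B) G σ K1 c) C1 T

/-! ### nodes of a world -/

section world

variable {Z : World}

lemma i_le_top (hZ : Z.Ok) {i w : ℕ} (hw : w ∈ Z.N.divisors) (h : Z.nd i w) : i ≤ Z.top := by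
  have hwN : w ∣ Z.N := Nat.dvd_of_mem_divisors hw
  have hw0 : 0 < w := Nat.pos_of_dvd_of_pos hwN hZ.hN
  have h1 : Z.e i w ≤ Z.G0 * Z.N := by
    unfold World.e
    refine Nat.mul_le_mul_left _ ((Nat.le_of_dvd hw0 ?_).trans (Nat.le_of_dvd hZ.hN hwN))
    exact Dvd.intro _ (low_mul_upp (Z.cut i) hw0.ne')
  have h2 : (Z.e i w : ℝ) ≤ ((Z.G0 * Z.N : ℕ) : ℝ) := by exact_mod_cast h1
  have h3 : (2 : ℝ) ^ i * Z.L < 2 ^ (Z.top + 1) * Z.L := lt_of_le_of_lt (h.2.1.trans h2) hZ.htop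
  have h4 : (2 : ℝ) ^ i < 2 ^ (Z.top + 1) := lt_of_mul_lt_mul_right h3 hZ.hL.le
  have h5 : i < Z.top + 1 := (pow_lt_pow_iff_right₀ (by norm_num : (1 : ℝ) < 2)).1 h4
  omega

/-- below every node index there is a birth -/
lemma exists_birth {i w : ℕ} (h : Z.nd i w) : ∃ j ≤ i, Z.birth j w := by
  classical
  have hex : ∃ j, Z.nd j w := ⟨i, h⟩
  refine ⟨Nat.find hex, Nat.find_min' hex h, Nat.find_spec hex, fun hc => ?_⟩
  obtain ⟨⟨j, hj, hjn⟩, _⟩ := hc
  exact Nat.find_min hex hj hjn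

lemma birth_bi {i w : ℕ} (h : Z.nd i w) : Z.birth (Z.bi i w) w ∧ Z.bi i w ≤ i := by
  classical
  obtain ⟨j, hj, hb⟩ := exists_birth h
  unfold World.bi
  exact ⟨Nat.findGreatest_spec (P := fun i' => Z.birth i' w) hj hb, Nat.findGreatest_le _⟩

lemma zone_mem (hZ : Z.Ok) {i w : ℕ} (hw : w ∈ Z.N.divisors) (h : Z.nd i w) :
    Z.zone i w ∈ Z.Zs := by
  classical
  obtain ⟨h1, h2⟩ := birth_bi h
  have h3 : Z.bi i w ≤ Z.top := h2.trans (i_le_top hZ hw h)
  unfold World.Zs World.zone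
  rw [mem_image]
  exact ⟨(Z.bi i w, w), mem_filter.2 ⟨mem_product.2 ⟨mem_range.2 (by omega), hw⟩, h1⟩, rfl⟩

lemma lab_mem (hZ : Z.Ok) {i w : ℕ} (hw : w ∈ Z.N.divisors) (h : Z.nd i w) :
    Z.lab i w ∈ Z.Nd (Z.zone i w) := by
  classical
  have h3 : i ≤ Z.top := i_le_top hZ hw h
  unfold World.Nd
  rw [mem_image]
  exact ⟨(i, w), mem_filter.2 ⟨mem_product.2 ⟨mem_range.2 (by omega), hw⟩, h, rfl⟩, rfl⟩

lemma mem_S {i w : ℕ} (hw : w ∈ Z.N.divisors) (h : Z.nd i w) : w ∈ Z.S (Z.lab i w) := by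
  classical
  unfold World.S
  exact mem_filter.2 ⟨hw, h, rfl⟩

end world

/-! ### the scalar class -/

section scalar

variable {cp γ L η : ℝ} {A m0 M : ℕ} {B : Finset ℕ} {F : FL M}

/-- equal lower parts -/
lemma low_eq_of_one {x b c : ℕ} (hb : 0 < b) (h1 : low x (b / Nat.gcd b c) = 1)
    (h2 : low x (c / Nat.gcd b c) = 1) (hc : 0 < c) : low x b = low x c := by
  have hg : 0 < Nat.gcd b c := Nat.gcd_pos_of_pos_left _ hb
  have e1 : low x b = low x (Nat.gcd b c) * low x (b / Nat.gcd b c) := by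
    conv_lhs => rw [← Nat.mul_div_cancel' (Nat.gcd_dvd_left b c)]
    exact Sharedx11.low_mul x hg.ne' (Nat.div_pos (Nat.le_of_dvd hb (Nat.gcd_dvd_left b c)) hg).ne'
  have e2 : low x c = low x (Nat.gcd b c) * low x (c / Nat.gcd b c) := by
    conv_lhs => rw [← Nat.mul_div_cancel' (Nat.gcd_dvd_right b c)]
    exact Sharedx11.low_mul x hg.ne' (Nat.div_pos (Nat.le_of_dvd hc (Nat.gcd_dvd_right b c)) hg).ne'
  rw [e1, e2, h1, h2]

/-- scalar pairs are pure -/
lemma pureG_of_ScP {P : Par} {i b c : ℕ} {h : ℤ} (hM : 0 < M) (hb : b ∣ M) (hc : c ∣ M)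
    (hne : b ≠ c) (H : ScP F P i b c h) : PureG F b c :=
  pureG_of_good F hb hc hM hne H.far.good
    (low_eq_of_one (Nat.pos_of_dvd_of_pos hb hM) H.low_b H.low_c (Nat.pos_of_dvd_of_pos hc hM))
    H.pure.1 H.pure.2

open Classical in
/-- the kernel: the sum over the (at most one) offsets of the scalar class -/
noncomputable def KS (cp γ L : ℝ) (A m0 M : ℕ) (B : Finset ℕ) (F : FL M) (b c : ℕ) : ℝ :=
  if (b ∈ B ∧ c ∈ B) ∧ b ≠ c then
    oS γ L M (lamOf cp A m0 γ L M B F) (cSc γ cp 0 A m0 L M B F) b c else 0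

lemma KS_nonneg (b c : ℕ) : 0 ≤ KS cp γ L A m0 M B F b c := by
  unfold KS
  split_ifs
  · exact oS_nonneg _ _ _
  · exact le_rfl

/-- an offset of the scalar class gives a pair of words -/
lemma pairW_of {G w w' : ℕ} {x : ℤ} (hG : G ∈ cores F) (hw : w ∣ PM F G) (hw' : w' ∣ PM F G)
    (hB : G * w ∈ B) (hB' : G * w' ∈ B) (hne : G * w ≠ G * w') (hx : x ∈ Lnk γ L (G * w) (G * w'))
    (hk : ¬ killedB (lamOf cp A m0 γ L M B F) (G * w) (G * w') x)
    (hc : cSc γ cp η A m0 L M B F (G * w) (G * w') x) :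
    ∃ i, PairW cp γ L A m0 M B F G i w w' x := by
  obtain ⟨⟨i, hi⟩, hoff⟩ := hc
  exact ⟨i, ⟨hG, hw, hw', hB, hB', fun h => hne (by rw [h]), hx, hk, hi, hoff⟩⟩

/-- the kernel at a pair of words with an offset of the class is at most the boost -/
lemma KS_le {G i w w' : ℕ} {x : ℤ} (hL : 0 < L) (hm0 : 1 ≤ m0)
    (H : PairW cp γ L A m0 M B F G i w w' x) :
    KS cp γ L A m0 M B F (G * w) (G * w') ≤
      boostB M (lamOf cp A m0 γ L M B F) (G * w) (G * w') x := by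
  classical
  have hg : 2 * L ≤ (Nat.gcd (G * w) (G * w') : ℝ) := by
    have h1 := H.sc.far.lo
    have h2 : (ParOf cp A m0 γ L M B).L = L := rfl
    rw [h2] at h1
    have h3 : m0 ≤ i := H.sc.far.m0
    have h4 : (2 : ℝ) ≤ 2 ^ i := by
      calc (2 : ℝ) = 2 ^ 1 := (pow_one _).symm
        _ ≤ 2 ^ i := pow_le_pow_right₀ (by norm_num) (by omega)
    have h5 := mul_le_mul_of_nonneg_right h4 hL.le
    linarith
  unfold KS
  split_ifs with h1
  · refine (oS_le_one (γ := γ) (M := M) (lam := lamOf cp A m0 γ L M B F)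
      (R := cSc γ cp 0 A m0 L M B F) hL hg
      (w := boostB M (lamOf cp A m0 γ L M B F) (G * w) (G * w') x)
      (fun y hy _ _ => ?_)).trans ?_
    · have h2 := Finset.card_le_one.1 (Lnk_card_le_one (γ := γ) hL hg) y hy x H.lnk
      rw [h2]
    · split_ifs
      · exact le_rfl
      · exact boostB_nonneg _ _ _ _ _
  · exact boostB_nonneg _ _ _ _ _

end scalar

/-! ### the world of one core -/

open Classical in
/-- **one core** -/
theorem core_sc {cp γ L : ℝ} {A m0 M : ℕ} {B : Finset ℕ} {F : FL M} {G : ℕ}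
    {K1 c C1 T Cw : ℝ} (hL : 0 < L) (hm0 : 1 ≤ m0) (hG : G ∈ cores F)
    (hZ : ∀ σ : ℝ, (σ = 0 ∨ σ = 1 / 2) → (inst F (ParOf cp A m0 γ L M B) G σ K1 c).Ok)
    (hC1 : 1 ≤ C1) (hCw : 0 ≤ Cw)
    (hF : ∀ σ : ℝ, (σ = 0 ∨ σ = 1 / 2) → Facts (inst F (ParOf cp A m0 γ L M B) G σ K1 c) C1 T)
    (hS : ∀ i w w' x, PairW cp γ L A m0 M B F G i w w' x →
      ∃ σ : ℝ, (σ = 0 ∨ σ = 1 / 2) ∧ (inst F (ParOf cp A m0 γ L M B) G σ K1 c).nd i w ∧
        (inst F (ParOf cp A m0 γ L M B) G σ K1 c).nd i w' ∧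
        (inst F (ParOf cp A m0 γ L M B) G σ K1 c).lab i w =
          (inst F (ParOf cp A m0 γ L M B) G σ K1 c).lab i w')
    (hA : ∀ σ : ℝ, (σ = 0 ∨ σ = 1 / 2) → ∀ i w w' x, PairW cp γ L A m0 M B F G i w w' x →
      (inst F (ParOf cp A m0 γ L M B) G σ K1 c).nd i w →
      (inst F (ParOf cp A m0 γ L M B) G σ K1 c).nd i w' →
      (inst F (ParOf cp A m0 γ L M B) G σ K1 c).lab i w =
        (inst F (ParOf cp A m0 γ L M B) G σ K1 c).lab i w' →
      w ∈ (inst F (ParOf cp A m0 γ L M B) G σ K1 c).A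
        ((inst F (ParOf cp A m0 γ L M B) G σ K1 c).zone i w)
        ((inst F (ParOf cp A m0 γ L M B) G σ K1 c).lab i w) ∨
      w' ∈ (inst F (ParOf cp A m0 γ L M B) G σ K1 c).A
        ((inst F (ParOf cp A m0 γ L M B) G σ K1 c).zone i w)
        ((inst F (ParOf cp A m0 γ L M B) G σ K1 c).lab i w))
    (hW : ∀ σ : ℝ, (σ = 0 ∨ σ = 1 / 2) → ∀ i w w' x, PairW cp γ L A m0 M B F G i w w' x →
      (inst F (ParOf cp A m0 γ L M B) G σ K1 c).nd i w →
      (inst F (ParOf cp A m0 γ L M B) G σ K1 c).nd i w' →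
      (inst F (ParOf cp A m0 γ L M B) G σ K1 c).lab i w =
        (inst F (ParOf cp A m0 γ L M B) G σ K1 c).lab i w' →
      VR F G * ((Nat.gcd w w' : ℝ) * nu (PM F G) w * nu (PM F G) w' *
          boostB M (lamOf cp A m0 γ L M B F) (G * w) (G * w') x) ≤
        Cw * (nu (PM F G) w * nu (PM F G) w' /
          (inst F (ParOf cp A m0 γ L M B) G σ K1 c).g
            ((inst F (ParOf cp A m0 γ L M B) G σ K1 c).lab i w)) *
        min ((inst F (ParOf cp A m0 γ L M B) G σ K1 c).W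
            ((inst F (ParOf cp A m0 γ L M B) G σ K1 c).zone i w) w)
          ((inst F (ParOf cp A m0 γ L M B) G σ K1 c).W
            ((inst F (ParOf cp A m0 γ L M B) G σ K1 c).zone i w) w')) :
    VR F G * frm (PM F G) (fun w w' => if PP w w' then
      KS cp γ L A m0 M B F (G * w) (G * w') else 0) ≤
        64 * Cw * C1 * T * Ex (PM F G) (fun w => ind B (G * w)) := by
  set BG : Finset ℕ := (PM F G).divisors.filter (fun w => G * w ∈ B) with hBG
  have hVR : 0 ≤ VR F G := by unfold VR; positivity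
  -- the kernel
  set Kt : ℕ → ℕ → ℝ := fun w w' => VR F G * ((Nat.gcd w w' : ℝ) * nu (PM F G) w *
    nu (PM F G) w' * KS cp γ L A m0 M B F (G * w) (G * w')) with hKt
  have hKt0 : ∀ w w', 0 ≤ Kt w w' := by
    intro w w'
    simp only [hKt]
    exact mul_nonneg hVR (mul_nonneg (mul_nonneg (mul_nonneg (by positivity) (nu_nonneg _ _))
      (nu_nonneg _ _)) (KS_nonneg _ _))
  have step1 : VR F G * frm (PM F G) (fun w w' => if PP w w' then
      KS cp γ L A m0 M B F (G * w) (G * w') else 0) ≤ ∑ w ∈ BG, ∑ w' ∈ BG, Kt w w' := by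
    unfold frm
    rw [mul_sum]
    have e1 : ∑ w ∈ BG, ∑ w' ∈ BG, Kt w w' = ∑ w ∈ (PM F G).divisors, ∑ w' ∈ (PM F G).divisors,
        if G * w ∈ B ∧ G * w' ∈ B then Kt w w' else 0 := by
      rw [hBG, sum_filter]
      refine sum_congr rfl fun w _ => ?_
      by_cases h1 : G * w ∈ B
      · rw [if_pos h1, sum_filter]
        refine sum_congr rfl fun w' _ => ?_
        by_cases h2 : G * w' ∈ B
        · rw [if_pos h2, if_pos ⟨h1, h2⟩]
        · rw [if_neg h2, if_neg fun h => h2 h.2]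
      · rw [if_neg h1]
        exact (sum_eq_zero fun w' _ => if_neg fun h => h1 h.1).symm
    rw [e1]
    refine sum_le_sum fun w _ => ?_
    rw [mul_sum]
    refine sum_le_sum fun w' _ => ?_
    beta_reduce
    have hn := hKt0 w w'
    by_cases h1 : G * w ∈ B ∧ G * w' ∈ B
    · rw [if_pos h1]
      split_ifs with h2
      · exact le_rfl
      · rw [mul_zero, mul_zero]; exact hn
    · rw [if_neg h1]
      have : KS cp γ L A m0 M B F (G * w) (G * w') = 0 := by
        unfold KS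
        exact if_neg fun h => h1 h.1
      rw [this]
      simp
  refine step1.trans ?_
  -- the two shifts
  set Ks : ℝ → ℕ → ℕ → ℝ := fun σ w w' => if ∃ i x, PairW cp γ L A m0 M B F G i w w' x ∧
      (inst F (ParOf cp A m0 γ L M B) G σ K1 c).nd i w ∧
      (inst F (ParOf cp A m0 γ L M B) G σ K1 c).nd i w' ∧
      (inst F (ParOf cp A m0 γ L M B) G σ K1 c).lab i w =
        (inst F (ParOf cp A m0 γ L M B) G σ K1 c).lab i w' then Kt w w' else 0 with hKs
  have hKs0 : ∀ σ w w', 0 ≤ Ks σ w w' := by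
    intro σ w w'
    simp only [hKs]
    split_ifs
    · exact hKt0 _ _
    · exact le_rfl
  have step2 : ∀ w ∈ BG, ∀ w' ∈ BG, Kt w w' ≤ Ks 0 w w' + Ks (1 / 2) w w' := by
    intro w hw w' hw'
    rw [hBG, mem_filter] at hw hw'
    by_cases h0 : KS cp γ L A m0 M B F (G * w) (G * w') = 0
    · have : Kt w w' = 0 := by simp only [hKt]; rw [h0]; simp
      rw [this]
      exact add_nonneg (hKs0 _ _ _) (hKs0 _ _ _)
    · have h1 : ((G * w ∈ B ∧ G * w' ∈ B) ∧ G * w ≠ G * w') ∧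
          oS γ L M (lamOf cp A m0 γ L M B F) (cSc γ cp 0 A m0 L M B F) (G * w) (G * w') ≠ 0 := by
        by_contra hcon
        apply h0
        unfold KS
        split_ifs with h2
        · by_contra h3
          exact hcon ⟨h2, h3⟩
        · rfl
      obtain ⟨h2, h3⟩ := h1
      have h4 : ∃ x ∈ Lnk γ L (G * w) (G * w'),
          ¬ killedB (lamOf cp A m0 γ L M B F) (G * w) (G * w') x ∧
          cSc γ cp 0 A m0 L M B F (G * w) (G * w') x := by
        by_contra hcon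
        push Not at hcon
        apply h3
        unfold oS
        refine sum_eq_zero fun x hx => ?_
        rw [mem_filter] at hx
        exact absurd hx.2.2 (hcon x hx.1 hx.2.1)
      obtain ⟨x, hx, hk, hcx⟩ := h4
      obtain ⟨i, hi⟩ := pairW_of hG (Nat.dvd_of_mem_divisors hw.1) (Nat.dvd_of_mem_divisors hw'.1)
        h2.1.1 h2.1.2 h2.2 hx hk hcx
      obtain ⟨σ, hσ, h5, h6, h7⟩ := hS i w w' x hi
      have h8 : Ks σ w w' = Kt w w' := by
        simp only [hKs]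
        exact if_pos ⟨i, x, hi, h5, h6, h7⟩
      rcases hσ with rfl | rfl
      · have := hKs0 (1 / 2) w w'
        linarith
      · have := hKs0 0 w w'
        linarith
  have step3 : ∀ σ : ℝ, (σ = 0 ∨ σ = 1 / 2) → ∑ w ∈ BG, ∑ w' ∈ BG, Ks σ w w' ≤
      32 * Cw * C1 * T * ∑ w ∈ BG, nu (PM F G) w := by
    intro σ hσ
    refine gw_pairs (Z := inst F (ParOf cp A m0 γ L M B) G σ K1 c) (hZ σ hσ) hC1 hCw (hF σ hσ)
      (B := BG) (filter_subset _ _) (Ks σ) fun w hw w' hw' => ?_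
    rw [hBG, mem_filter] at hw hw'
    by_cases hex : ∃ i x, PairW cp γ L A m0 M B F G i w w' x ∧
      (inst F (ParOf cp A m0 γ L M B) G σ K1 c).nd i w ∧
      (inst F (ParOf cp A m0 γ L M B) G σ K1 c).nd i w' ∧
      (inst F (ParOf cp A m0 γ L M B) G σ K1 c).lab i w =
        (inst F (ParOf cp A m0 γ L M B) G σ K1 c).lab i w'
    · right
      have hval : Ks σ w w' = Kt w w' := if_pos hex
      obtain ⟨i, x, hi, h5, h6, h7⟩ := hex
      refine ⟨_, zone_mem (hZ σ hσ) hw.1 h5, _, lab_mem (hZ σ hσ) hw.1 h5, mem_S hw.1 h5, ?_,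
        hA σ hσ i w w' x hi h5 h6 h7, ?_⟩
      · rw [h7]
        exact mem_S hw'.1 h6
      · rw [hval]
        refine le_trans ?_ (hW σ hσ i w w' x hi h5 h6 h7)
        simp only [hKt]
        refine mul_le_mul_of_nonneg_left (mul_le_mul_of_nonneg_left (KS_le hL hm0 hi) ?_) hVR
        exact mul_nonneg (mul_nonneg (by positivity) (nu_nonneg _ _)) (nu_nonneg _ _)
    · left
      exact (if_neg hex).le
  have step4 : ∑ w ∈ BG, ∑ w' ∈ BG, Kt w w' ≤ 64 * Cw * C1 * T * ∑ w ∈ BG, nu (PM F G) w := by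
    have h1 : ∑ w ∈ BG, ∑ w' ∈ BG, Kt w w' ≤
        ∑ w ∈ BG, ∑ w' ∈ BG, (Ks 0 w w' + Ks (1 / 2) w w') :=
      sum_le_sum fun w hw => sum_le_sum fun w' hw' => step2 w hw w' hw'
    have h2 : ∑ w ∈ BG, ∑ w' ∈ BG, (Ks 0 w w' + Ks (1 / 2) w w') =
        ∑ w ∈ BG, ∑ w' ∈ BG, Ks 0 w w' + ∑ w ∈ BG, ∑ w' ∈ BG, Ks (1 / 2) w w' := by
      rw [← sum_add_distrib]
      exact sum_congr rfl fun w _ => sum_add_distrib
    have h3 := step3 0 (Or.inl rfl)
    have h4 := step3 (1 / 2) (Or.inr rfl)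
    linarith
  refine step4.trans (le_of_eq ?_)
  congr 1
  unfold Ex
  rw [hBG, sum_filter]
  refine sum_congr rfl fun w _ => ?_
  unfold ind
  beta_reduce
  by_cases h : G * w ∈ B
  · rw [if_pos h, if_pos h, mul_one]
  · rw [if_neg h, if_neg h, mul_zero]

/-- **the scalar class** -/
theorem cls_sc {γ : ℝ} (hS : ShareOK γ) (hA : LeaveOK γ) (hW : WeightOK γ) (hF : FactsOK γ) :
    ClsOK γ (cSc γ) := by
  classical
  have hev : Ev fun cp _ _ m0 => 16 < (2 : ℝ) ^ (cp * m0) ∧ 3 ≤ m0 := by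
    refine (Ev.of_m0 (P := fun cp _ _ m0 => 16 < (2 : ℝ) ^ (cp * m0) ∧ 3 ≤ m0) ?_)
    intro cp η A hcp _
    refine ⟨max 3 (⌈5 / cp⌉₊), fun m0 hm0 => ⟨?_, (le_max_left _ _).trans hm0⟩⟩
    have h1 : 5 / cp ≤ m0 := (Nat.le_ceil _).trans (by
      exact_mod_cast (le_max_right _ _).trans hm0)
    have h2 : 5 ≤ cp * m0 := by
      rw [div_le_iff₀ hcp] at h1
      linarith
    calc (16 : ℝ) < 2 ^ (5 : ℝ) := by norm_num
      _ ≤ 2 ^ (cp * m0) := Real.rpow_le_rpow_of_exponent_le (by norm_num) h2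
  refine ((((hS.and hA).and hW).and hF).and (hev.and Ev.basic)).mono ?_
  rintro cp η A m0 ⟨⟨⟨⟨hS, hA⟩, Cw, hCw, hW⟩, K1, c, C1, T, hK1, hc, hC1, hT, hF⟩, ⟨hE, hm0⟩,
    hcp, _, hη, _, hη1, hA1, _⟩
  refine ⟨64 * Cw * C1 * T, fun L M B F S => ?_⟩
  have hL := S.hL
  set P := ParOf cp A m0 γ L M B with hP
  -- passage to `frm`
  have h1 : EnR γ L M B (lamOf cp A m0 γ L M B F) (cSc γ cp η A m0 L M B F) ≤
      L * frm M (fun b c => if b ∈ B ∧ c ∈ B then
        (if b ≠ c then oS γ L M (lamOf cp A m0 γ L M B F) (cSc γ cp η A m0 L M B F) b c else 0)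
        else 0) :=
    EnR_le_frm hL.le S.hB (fun b _ => by simp) fun b _ c _ hne => by rw [if_pos hne]
  have h2 : frm M (fun b c => if b ∈ B ∧ c ∈ B then
        (if b ≠ c then oS γ L M (lamOf cp A m0 γ L M B F) (cSc γ cp η A m0 L M B F) b c else 0)
        else 0) = frm M (fun b c => if PureG F b c then KS cp γ L A m0 M B F b c else 0) := by
    unfold frm
    refine sum_congr rfl fun b hb => sum_congr rfl fun c hc => ?_
    congr 1
    beta_reduce
    have hbM := Nat.dvd_of_mem_divisors hb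
    have hcM := Nat.dvd_of_mem_divisors hc
    by_cases h3 : b ∈ B ∧ c ∈ B
    · by_cases h4 : b ≠ c
      · have e1 : KS cp γ L A m0 M B F b c =
            oS γ L M (lamOf cp A m0 γ L M B F) (cSc γ cp η A m0 L M B F) b c := by
          unfold KS
          exact if_pos ⟨h3, h4⟩
        rw [if_pos h3, if_pos h4, e1]
        by_cases h5 : PureG F b c
        · rw [if_pos h5]
        · rw [if_neg h5]
          unfold oS
          refine sum_eq_zero fun x hx => ?_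
          rw [mem_filter] at hx
          obtain ⟨⟨i, hi⟩, _⟩ := hx.2.2
          exact absurd (pureG_of_ScP S.hM hbM hcM h4 hi) h5
      · have e1 : KS cp γ L A m0 M B F b c = 0 := by
          unfold KS
          exact if_neg fun h => h4 h.2
        rw [if_pos h3, if_neg h4, e1]
        split_ifs <;> rfl
    · have e1 : KS cp γ L A m0 M B F b c = 0 := by
        unfold KS
        exact if_neg fun h => h3 h.1
      rw [if_neg h3, e1]
      split_ifs <;> rfl
  rw [h2] at h1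
  have hcore : ∀ G ∈ cores F, VR F G * frm (PM F G) (fun w w' => if PP w w' then
      KS cp γ L A m0 M B F (G * w) (G * w') else 0) ≤
        64 * Cw * C1 * T * Ex (PM F G) (fun w => ind B (G * w)) := by
    intro G hG
    refine core_sc (K1 := K1) (c := c) hL (by omega) hG (fun σ hσ => ?_) hC1 hCw
      (fun σ hσ => hF L M B F S G hG σ hσ) (fun i w w' x hi => hS K1 c L M B F S G i w w' x hi)
      (fun σ hσ i w w' x hi => hA K1 c σ L M B F hσ hK1 hc S G i w w' x hi)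
      (fun σ hσ i w w' x hi => hW K1 c σ L M B F hσ hK1 hc S G i w w' x hi)
    refine inst_ok S.hM hG hL ?_ ?_ (by exact hm0) ?_ ?_ ?_ hK1 hc
    · exact cut_mono'
    · intro i
      show 2 ^ i ≤ 2 ^ (A * i)
      exact Nat.pow_le_pow_right (by norm_num) (Nat.le_mul_of_pos_left i hA1)
    · exact Nat.le_ceil _
    · rcases hσ with rfl | rfl <;> norm_num
    · intro i hi
      have h3 : (m0 : ℝ) ≤ i := by exact_mod_cast hi
      show (16 : ℝ) < 2 ^ (cp * (i : ℝ))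
      refine hE.trans_le (Real.rpow_le_rpow_of_exponent_le (by norm_num) ?_)
      exact mul_le_mul_of_nonneg_left h3 hcp.le
  have h3 := transfer F S.hM (KS cp γ L A m0 M B F) (ind B) (64 * Cw * C1 * T) hcore
  refine h1.trans ((mul_le_mul_of_nonneg_left h3 hL.le).trans ?_)
  have h4 : Ex M (ind B) = ∑ b ∈ B, nu M b := by
    unfold Ex ind
    rw [← sum_subset S.hB]
    · refine sum_congr rfl fun b hb => ?_
      rw [if_pos hb, mul_one]
    · intro b _ hb
      rw [if_neg hb, mul_zero]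
  have h5 : 0 ≤ 64 * Cw * C1 * T := by positivity
  calc L * (64 * Cw * C1 * T * Ex M (ind B)) = 64 * Cw * C1 * T * (L * ∑ b ∈ B, nu M b) := by
        rw [h4]; ring
    _ ≤ 64 * Cw * C1 * T * 1 := mul_le_mul_of_nonneg_left S.mass h5
    _ = _ := mul_one _

/-- **`cDomP` from the facts about the worlds and the vector part** -/
theorem cls_domp {γ : ℝ} (hS : ShareOK γ) (hA : LeaveOK γ) (hW : WeightOK γ) (hF : FactsOK γ)
    (hV : ClsOK γ (cVc γ)) : ClsOK γ (nH γ (cDomP γ)) :=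
  dom_red (cls_sc hS hA hW hF) hV

end Crest.Agent.R4C.DomRedx244
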