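import Mathlib
import Crest.Agent.R4C.Base_935

/-!
# Row 4, input (H2) of EFF (note 2694), general `M` (helper538)

For `κ ≥ 0` (`κ = 1 - η`):
* `Jk κ d ≥ 0`, multiplicative, `∑_{d ∣ n} Jk κ d = n^κ` (`n ≥ 1`);
* `ip κ M f f' = ∑_{b,c ∣ M} gcd(b,c)^κ ν(b) ν(c) f(b) f'(c)` is positive semidefinite and
  `ip_sq_le : (ip f f')² ≤ ip f f * ip f' f'`;
* `frk_split` / `ip_split` : splitting at one prime, all exponents;
* `cross_le : |cross v v'| ≤ p^(-κ|v-v'|/2) * sqrt (Psi v f) * sqrt (Psi v' f')`.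
-/

namespace Crest.Agent.R4C.Psdx538

open Finset ArithmeticFunction
open Crest.Agent.R4C.Basex935
open scoped ArithmeticFunction.Moebius ArithmeticFunction.zeta

/-- `n ↦ n^κ` (real `κ`) as an arithmetic function. -/
noncomputable def powR (κ : ℝ) : ArithmeticFunction ℝ :=
  ⟨fun n => if n = 0 then 0 else (n : ℝ) ^ κ, by simp⟩

lemma powR_apply (κ : ℝ) {n : ℕ} (hn : n ≠ 0) : powR κ n = (n : ℝ) ^ κ := by
  simp [powR, hn]

lemma powR_mult (κ : ℝ) : (powR κ).IsMultiplicative := by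
  rw [IsMultiplicative.iff_ne_zero]
  refine ⟨by simp [powR], fun {m n} hm hn _ => ?_⟩
  rw [powR_apply κ hm, powR_apply κ hn, powR_apply κ (mul_ne_zero hm hn), Nat.cast_mul,
    Real.mul_rpow (Nat.cast_nonneg _) (Nat.cast_nonneg _)]

/-- the Jordan type function `J_κ = μ * n^κ`. -/
noncomputable def Jk (κ : ℝ) : ArithmeticFunction ℝ := (μ : ArithmeticFunction ℝ) * powR κ

lemma Jk_mult (κ : ℝ) : (Jk κ).IsMultiplicative :=
  isMultiplicative_moebius.intCast.mul (powR_mult κ)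

lemma zeta_mul_Jk (κ : ℝ) : (ζ : ArithmeticFunction ℝ) * Jk κ = powR κ := by
  rw [Jk, ← mul_assoc, coe_zeta_mul_coe_moebius, one_mul]

theorem sum_Jk (κ : ℝ) {n : ℕ} (hn : n ≠ 0) : ∑ d ∈ n.divisors, Jk κ d = (n : ℝ) ^ κ := by
  rw [← powR_apply κ hn, ← zeta_mul_Jk, coe_zeta_mul_apply]

lemma Jk_prime_pow (κ : ℝ) {p : ℕ} (hp : p.Prime) (k : ℕ) :
    Jk κ (p ^ (k + 1)) = ((p ^ (k + 1) : ℕ) : ℝ) ^ κ - ((p ^ k : ℕ) : ℝ) ^ κ := by
  have h1 := sum_Jk κ (n := p ^ (k + 1)) (pow_ne_zero _ hp.ne_zero)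
  have h2 := sum_Jk κ (n := p ^ k) (pow_ne_zero _ hp.ne_zero)
  rw [Nat.sum_divisors_prime_pow hp] at h1 h2
  rw [Finset.sum_range_succ, h2] at h1
  linarith

theorem Jk_nonneg {κ : ℝ} (hκ : 0 ≤ κ) (n : ℕ) : 0 ≤ Jk κ n := by
  rcases eq_or_ne n 0 with rfl | hn
  · simp
  rw [IsMultiplicative.multiplicative_factorization (Jk κ) (Jk_mult κ) hn]
  refine Finset.prod_nonneg fun p hp => ?_
  have hpp : p.Prime := Nat.prime_of_mem_primeFactors (by simpa using hp)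
  show 0 ≤ Jk κ (p ^ n.factorization p)
  rcases hk : n.factorization p with _ | k
  · rw [pow_zero, (Jk_mult κ).1]; exact zero_le_one
  · rw [Jk_prime_pow κ hpp k, sub_nonneg]
    refine Real.rpow_le_rpow (Nat.cast_nonneg _) ?_ hκ
    exact_mod_cast Nat.pow_le_pow_right hpp.pos (Nat.le_succ k)

/-- bilinear form with an arbitrary pair weight `F`, weight `gcd^κ`. -/
noncomputable def frk (κ : ℝ) (M : ℕ) (F : ℕ → ℕ → ℝ) : ℝ :=
  ∑ b ∈ M.divisors, ∑ c ∈ M.divisors, (Nat.gcd b c : ℝ) ^ κ * nu M b * nu M c * F b c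

/-- the inner product `<f, f'>_M` -/
noncomputable def ip (κ : ℝ) (M : ℕ) (f f' : ℕ → ℝ) : ℝ := frk κ M fun b c => f b * f' c

lemma frk_one (M : ℕ) (F : ℕ → ℕ → ℝ) : frk 1 M F = frm M F := by
  unfold frk frm
  simp only [Real.rpow_one]

/-- `∑_{b ∣ M, d ∣ b} ν(b) f(b)` -/
noncomputable def Sd (M : ℕ) (f : ℕ → ℝ) (d : ℕ) : ℝ :=
  ∑ b ∈ M.divisors.filter (fun b => d ∣ b), nu M b * f b

/-- diagonalisation -/
theorem ip_eq_sum (κ : ℝ) (M : ℕ) (f f' : ℕ → ℝ) :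
    ip κ M f f' = ∑ d ∈ M.divisors, Jk κ d * Sd M f d * Sd M f' d := by
  classical
  have h0 : ∀ d, Sd M f d = ∑ b ∈ M.divisors, if d ∣ b then nu M b * f b else 0 := fun d => by
    rw [Sd, Finset.sum_filter]
  have h0' : ∀ d, Sd M f' d = ∑ b ∈ M.divisors, if d ∣ b then nu M b * f' b else 0 := fun d => by
    rw [Sd, Finset.sum_filter]
  have hL : ∑ d ∈ M.divisors, Jk κ d * Sd M f d * Sd M f' d
      = ∑ d ∈ M.divisors, ∑ b ∈ M.divisors, ∑ c ∈ M.divisors,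
        Jk κ d * ((if d ∣ b then nu M b * f b else 0) *
          (if d ∣ c then nu M c * f' c else 0)) := by
    refine Finset.sum_congr rfl fun d _ => ?_
    rw [h0, h0', mul_assoc, Finset.sum_mul_sum, Finset.mul_sum]
    exact Finset.sum_congr rfl fun b _ => by rw [Finset.mul_sum]
  rw [hL, ip, frk]
  have : ∑ d ∈ M.divisors, ∑ b ∈ M.divisors, ∑ c ∈ M.divisors,
        Jk κ d * ((if d ∣ b then nu M b * f b else 0) * (if d ∣ c then nu M c * f' c else 0))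
      = ∑ b ∈ M.divisors, ∑ c ∈ M.divisors, ∑ d ∈ M.divisors,
        Jk κ d * ((if d ∣ b then nu M b * f b else 0) * (if d ∣ c then nu M c * f' c else 0)) := by
    rw [Finset.sum_comm]
    refine Finset.sum_congr rfl fun b _ => ?_
    rw [Finset.sum_comm]
  rw [this]
  refine Finset.sum_congr rfl fun b hb => ?_
  refine Finset.sum_congr rfl fun c hc => ?_
  rw [Nat.mem_divisors] at hb hc
  have hg : Nat.gcd b c ≠ 0 := fun h => by
    have := Nat.eq_zero_of_gcd_eq_zero_left h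
    rw [this] at hb
    exact hb.2 (Nat.eq_zero_of_zero_dvd hb.1)
  have hsub : (Nat.gcd b c).divisors = M.divisors.filter (fun d => d ∣ b ∧ d ∣ c) := by
    ext d
    rw [Finset.mem_filter, Nat.mem_divisors, Nat.mem_divisors, Nat.dvd_gcd_iff]
    constructor
    · rintro ⟨⟨h1, h2⟩, _⟩
      exact ⟨⟨h1.trans hb.1, hb.2⟩, h1, h2⟩
    · rintro ⟨_, h1, h2⟩
      exact ⟨⟨h1, h2⟩, hg⟩
  have e1 : ∑ d ∈ M.divisors,
        Jk κ d * ((if d ∣ b then nu M b * f b else 0) * (if d ∣ c then nu M c * f' c else 0))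
      = ∑ d ∈ (Nat.gcd b c).divisors, Jk κ d * ((nu M b * f b) * (nu M c * f' c)) := by
    rw [hsub, Finset.sum_filter]
    refine Finset.sum_congr rfl fun d _ => ?_
    by_cases h1 : d ∣ b
    · by_cases h2 : d ∣ c
      · simp [h1, h2]
      · simp [h1, h2]
    · simp [h1]
  rw [e1, ← Finset.sum_mul, sum_Jk κ hg]
  ring

theorem ip_comm (κ : ℝ) (M : ℕ) (f f' : ℕ → ℝ) : ip κ M f f' = ip κ M f' f := by
  rw [ip_eq_sum, ip_eq_sum]
  exact Finset.sum_congr rfl fun d _ => by ring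

theorem ip_self_nonneg {κ : ℝ} (hκ : 0 ≤ κ) (M : ℕ) (f : ℕ → ℝ) : 0 ≤ ip κ M f f := by
  rw [ip_eq_sum]
  refine Finset.sum_nonneg fun d _ => ?_
  have := Jk_nonneg hκ d
  have e : Jk κ d * Sd M f d * Sd M f d = Jk κ d * (Sd M f d) ^ 2 := by ring
  rw [e]
  positivity

/-- **Cauchy-Schwarz** (H2) -/
theorem ip_sq_le {κ : ℝ} (hκ : 0 ≤ κ) (M : ℕ) (f f' : ℕ → ℝ) :
    (ip κ M f f') ^ 2 ≤ ip κ M f f * ip κ M f' f' := by
  rw [ip_eq_sum, ip_eq_sum, ip_eq_sum]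
  have h := Finset.sum_mul_sq_le_sq_mul_sq M.divisors
    (fun d => Real.sqrt (Jk κ d) * Sd M f d) (fun d => Real.sqrt (Jk κ d) * Sd M f' d)
  have hs : ∀ d, Real.sqrt (Jk κ d) ^ 2 = Jk κ d := fun d => Real.sq_sqrt (Jk_nonneg hκ d)
  have e1 : ∀ d, Real.sqrt (Jk κ d) * Sd M f d * (Real.sqrt (Jk κ d) * Sd M f' d)
      = Jk κ d * Sd M f d * Sd M f' d := fun d => by
    linear_combination (Sd M f d * Sd M f' d) * hs d
  have e2 : ∀ d, (Real.sqrt (Jk κ d) * Sd M f d) ^ 2 = Jk κ d * Sd M f d * Sd M f d := fun d => by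
    linear_combination (Sd M f d * Sd M f d) * hs d
  have e3 : ∀ d, (Real.sqrt (Jk κ d) * Sd M f' d) ^ 2 = Jk κ d * Sd M f' d * Sd M f' d :=
    fun d => by linear_combination (Sd M f' d * Sd M f' d) * hs d
  simp only [e1, e2, e3] at h
  exact h

theorem abs_ip_le {κ : ℝ} (hκ : 0 ≤ κ) (M : ℕ) (f f' : ℕ → ℝ) :
    |ip κ M f f'| ≤ Real.sqrt (ip κ M f f) * Real.sqrt (ip κ M f' f') := by
  rw [← Real.sqrt_mul (ip_self_nonneg hκ M f)]
  exact Real.abs_le_sqrt (ip_sq_le hκ M f f')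

/-- monotonicity for nonnegative functions -/
theorem ip_mono {κ : ℝ} {M : ℕ} {f f' g g' : ℕ → ℝ} (hf : ∀ b, b ∣ M → 0 ≤ f b)
    (hg' : ∀ b, b ∣ M → 0 ≤ g' b)
    (h : ∀ b, b ∣ M → f b ≤ g b) (h' : ∀ b, b ∣ M → f' b ≤ g' b)  :
    ip κ M f f' ≤ ip κ M g g' := by
  unfold ip frk
  refine Finset.sum_le_sum fun b hb => Finset.sum_le_sum fun c hc => ?_
  have hb' := Nat.dvd_of_mem_divisors hb
  have hc' := Nat.dvd_of_mem_divisors hc
  have h0 : 0 ≤ (Nat.gcd b c : ℝ) ^ κ * nu M b * nu M c :=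
    mul_nonneg (mul_nonneg (Real.rpow_nonneg (Nat.cast_nonneg _) _) (nu_nonneg _ _)) (nu_nonneg _ _)
  refine mul_le_mul_of_nonneg_left ?_ h0
  calc f b * f' c ≤ f b * g' c := mul_le_mul_of_nonneg_left (h' c hc') (hf b hb')
    _ ≤ g b * g' c := mul_le_mul_of_nonneg_right (h b hb') (hg' c hc')

/-- **splitting at one prime, all exponents**, weight `gcd^κ` -/
theorem frk_split (κ : ℝ) {p : ℕ} (hp : p.Prime) (a : ℕ) {M1 : ℕ} (hM : 0 < M1) (h : ¬ p ∣ M1)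
    (F : ℕ → ℕ → ℝ) :
    frk κ (p ^ a * M1) F = ∑ v ∈ range (a + 1), ∑ v' ∈ range (a + 1),
      (p : ℝ) ^ (κ * (min v v' : ℕ)) * nup p a v * nup p a v' *
        frk κ M1 (fun b c => F (p ^ v * b) (p ^ v' * c)) := by
  unfold frk
  rw [sum_split hp a hM h]
  refine Finset.sum_congr rfl fun v hv => ?_
  rw [Finset.mem_range] at hv
  have hcop : Nat.Coprime (p ^ a) M1 :=
    Nat.Coprime.pow_left a ((Nat.Prime.coprime_iff_not_dvd hp).2 h)
  calc ∑ b ∈ M1.divisors, ∑ c ∈ (p ^ a * M1).divisors,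
        (Nat.gcd (p ^ v * b) c : ℝ) ^ κ * nu (p ^ a * M1) (p ^ v * b) * nu (p ^ a * M1) c *
          F (p ^ v * b) c
      = ∑ b ∈ M1.divisors, ∑ v' ∈ range (a + 1), ∑ c ∈ M1.divisors,
        (Nat.gcd (p ^ v * b) (p ^ v' * c) : ℝ) ^ κ * nu (p ^ a * M1) (p ^ v * b) *
          nu (p ^ a * M1) (p ^ v' * c) * F (p ^ v * b) (p ^ v' * c) :=
        Finset.sum_congr rfl fun b _ => sum_split hp a hM h _
    _ = ∑ v' ∈ range (a + 1), ∑ b ∈ M1.divisors, ∑ c ∈ M1.divisors,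
        (Nat.gcd (p ^ v * b) (p ^ v' * c) : ℝ) ^ κ * nu (p ^ a * M1) (p ^ v * b) *
          nu (p ^ a * M1) (p ^ v' * c) * F (p ^ v * b) (p ^ v' * c) := Finset.sum_comm
    _ = _ := by
        refine Finset.sum_congr rfl fun v' hv' => ?_
        rw [Finset.mem_range] at hv'
        rw [Finset.mul_sum]
        refine Finset.sum_congr rfl fun b hb => ?_
        rw [Finset.mul_sum]
        refine Finset.sum_congr rfl fun c hc => ?_
        rw [Nat.mem_divisors] at hb hc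
        rw [nu_mul hcop (pow_dvd_pow p (by omega)) hb.1, nu_mul hcop (pow_dvd_pow p (by omega)) hc.1,
          nu_prime_pow hp (by omega), nu_prime_pow hp (by omega),
          gcd_split hp v v' (fun hc' => h (hc'.trans hb.1)) (fun hc' => h (hc'.trans hc.1))]
        have e : ((p ^ min v v' * Nat.gcd b c : ℕ) : ℝ) ^ κ
            = (p : ℝ) ^ (κ * (min v v' : ℕ)) * (Nat.gcd b c : ℝ) ^ κ := by
          rw [Nat.cast_mul, Real.mul_rpow (Nat.cast_nonneg _) (Nat.cast_nonneg _), Nat.cast_pow,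
            ← Real.rpow_natCast, ← Real.rpow_mul (Nat.cast_nonneg _), mul_comm κ]
        rw [e]
        ring

/-- the one prime term `v, v'` -/
noncomputable def cross (κ : ℝ) (p a M1 : ℕ) (f f' : ℕ → ℝ) (v v' : ℕ) : ℝ :=
  (p : ℝ) ^ (κ * (min v v' : ℕ)) * nup p a v * nup p a v' *
    ip κ M1 (fun b => f (p ^ v * b)) (fun c => f' (p ^ v' * c))

/-- `Psi v f = p^(κ v) nup(v)^2 <f_v, f_v>` (exactly the diagonal term). -/
noncomputable def Psi (κ : ℝ) (p a M1 : ℕ) (f : ℕ → ℝ) (v : ℕ) : ℝ :=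
  (p : ℝ) ^ (κ * (v : ℝ)) * nup p a v ^ 2 *
    ip κ M1 (fun b => f (p ^ v * b)) (fun b => f (p ^ v * b))

lemma cross_self (κ : ℝ) (p a M1 : ℕ) (f : ℕ → ℝ) (v : ℕ) :
    cross κ p a M1 f f v v = Psi κ p a M1 f v := by
  unfold cross Psi
  rw [min_self]
  ring

theorem ip_split (κ : ℝ) {p : ℕ} (hp : p.Prime) (a : ℕ) {M1 : ℕ} (hM : 0 < M1) (h : ¬ p ∣ M1)
    (f f' : ℕ → ℝ) :
    ip κ (p ^ a * M1) f f' =
      ∑ v ∈ range (a + 1), ∑ v' ∈ range (a + 1), cross κ p a M1 f f' v v' := by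
  unfold ip cross
  rw [frk_split κ hp a hM h]
  rfl

lemma Psi_nonneg {κ : ℝ} (hκ : 0 ≤ κ) (p a M1 : ℕ) (f : ℕ → ℝ) (v : ℕ) :
    0 ≤ Psi κ p a M1 f v := by
  unfold Psi
  have h1 := ip_self_nonneg hκ M1 (fun b => f (p ^ v * b))
  have h2 : 0 ≤ (p : ℝ) ^ (κ * (v : ℝ)) := Real.rpow_nonneg (Nat.cast_nonneg _) _
  positivity

/-- **one prime cross bound** -/
theorem cross_le {κ : ℝ} (hκ : 0 ≤ κ) {p : ℕ} (hp : 0 < p) (a M1 : ℕ) (f f' : ℕ → ℝ)
    (v v' : ℕ) :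
    |cross κ p a M1 f f' v v'| ≤ (p : ℝ) ^ (-(κ * |(v : ℝ) - v'| / 2)) *
      (Real.sqrt (Psi κ p a M1 f v) * Real.sqrt (Psi κ p a M1 f' v')) := by
  have hp0 : (0 : ℝ) < p := by exact_mod_cast hp
  have hn : 0 ≤ nup p a v := nup_nonneg hp a v
  have hn' : 0 ≤ nup p a v' := nup_nonneg hp a v'
  have hS : ∀ (g : ℕ → ℝ) (u : ℕ), Real.sqrt (Psi κ p a M1 g u)
      = (p : ℝ) ^ (κ * (u : ℝ) / 2) * nup p a u *
        Real.sqrt (ip κ M1 (fun b => g (p ^ u * b)) (fun b => g (p ^ u * b))) := by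
    intro g u
    have hu : 0 ≤ nup p a u := nup_nonneg hp a u
    have e : Psi κ p a M1 g u = ((p : ℝ) ^ (κ * (u : ℝ) / 2) * nup p a u) ^ 2 *
        ip κ M1 (fun b => g (p ^ u * b)) (fun b => g (p ^ u * b)) := by
      unfold Psi
      have : (p : ℝ) ^ (κ * (u : ℝ)) = ((p : ℝ) ^ (κ * (u : ℝ) / 2)) ^ 2 := by
        rw [← Real.rpow_natCast, ← Real.rpow_mul hp0.le]
        congr 1
        push_cast
        ring
      rw [this]
      ring
    rw [e, Real.sqrt_mul (sq_nonneg _), Real.sqrt_sq (by positivity)]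
  rw [hS, hS]
  unfold cross
  rw [abs_mul, abs_of_nonneg (by positivity)]
  have hI := abs_ip_le hκ M1 (fun b => f (p ^ v * b)) (fun c => f' (p ^ v' * c))
  have hexp : (p : ℝ) ^ (κ * ((min v v' : ℕ) : ℝ))
      = (p : ℝ) ^ (-(κ * |(v : ℝ) - v'| / 2)) * ((p : ℝ) ^ (κ * (v : ℝ) / 2) *
        (p : ℝ) ^ (κ * (v' : ℝ) / 2)) := by
    rw [← Real.rpow_add hp0, ← Real.rpow_add hp0]
    congr 1
    rcases le_total v v' with h | h
    · have h' : (v : ℝ) ≤ v' := by exact_mod_cast h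
      rw [min_eq_left h, abs_of_nonpos (by linarith)]
      ring
    · have h' : (v' : ℝ) ≤ v := by exact_mod_cast h
      rw [min_eq_right h, abs_of_nonneg (by linarith)]
      ring
  rw [hexp]
  calc (p : ℝ) ^ (-(κ * |(v : ℝ) - v'| / 2)) * ((p : ℝ) ^ (κ * (v : ℝ) / 2) *
        (p : ℝ) ^ (κ * (v' : ℝ) / 2)) * nup p a v * nup p a v' *
        |ip κ M1 (fun b => f (p ^ v * b)) (fun c => f' (p ^ v' * c))|
      ≤ (p : ℝ) ^ (-(κ * |(v : ℝ) - v'| / 2)) * ((p : ℝ) ^ (κ * (v : ℝ) / 2) *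
        (p : ℝ) ^ (κ * (v' : ℝ) / 2)) * nup p a v * nup p a v' *
        (Real.sqrt (ip κ M1 (fun b => f (p ^ v * b)) (fun b => f (p ^ v * b))) *
         Real.sqrt (ip κ M1 (fun b => f' (p ^ v' * b)) (fun b => f' (p ^ v' * b)))) :=
        mul_le_mul_of_nonneg_left hI (by positivity)
    _ = _ := by ring

end Crest.Agent.R4C.Psdx538
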