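import Mathlib
import Crest.Agent.R4.HVWCor560
import Crest.Agent.R4C.Base_935
import Crest.Agent.R4C.Psd_538

/-!
# The HVW inequality in the `b`-language (helper538 for 935 / 104 / 489)

`560`'s Hauke–Vazquez Saez–Walker inequality (`R4/HVWCor560`, any denominators, any finite sets of
pairs, multiplicative anatomy weight) restated for divisors `b, c ∣ M` with the law
`nu M b = φ(M/b)/M` of `Base_935`:

* `hvw_b`      : `∑_{(b,c) ∈ P} ν(b)ν(c) f(b)f'(c) A(b/g)A(c/g) ≤ C X^{-(1-2ε)} (Ef·Ef')^{1/2+ε}`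
  for every set `P` of pairs with `g = gcd(b,c) ≥ X`;
* `exact_scale`, `below_scale` : `∑_{X ≤ g < 2X} g νν f f' ≤ 2C X^η (Ef·Ef')^{(1+η)/2}`;
* `ip_le` (input (H2) of EFF) : `∑ g^{1-η} νν f f' ≤ K_H(η) (Ef·Ef')^{(1+η)/2}`, every `0 < η < 1`.
-/

set_option autoImplicit false

namespace Crest.Agent.R4C.HKdiagx538

open Finset Crest.Agent.R4C.Basex935 Crest.Agent.R4C.Psdx538
open Crest.Agent.R4.HVW560 (cof GoodWt)

/-- the mass `∑_{b ∣ M} ν(b) f(b)` -/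
noncomputable def mass (M : ℕ) (f : ℕ → ℝ) : ℝ := ∑ b ∈ M.divisors, nu M b * f b

lemma mass_nonneg {M : ℕ} {f : ℕ → ℝ} (hf : ∀ b, b ∣ M → 0 ≤ f b) : 0 ≤ mass M f :=
  Finset.sum_nonneg fun b hb => mul_nonneg (nu_nonneg M b) (hf b (Nat.dvd_of_mem_divisors hb))

lemma mass_le_one {M : ℕ} (hM : 0 < M) {f : ℕ → ℝ} (hf : ∀ b, b ∣ M → f b ≤ 1) :
    mass M f ≤ 1 := by
  rw [← sum_nu hM]
  refine Finset.sum_le_sum fun b hb => ?_
  have := hf b (Nat.dvd_of_mem_divisors hb)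
  have h0 := nu_nonneg M b
  nlinarith

/-- the function on denominators -/
noncomputable def psi (M : ℕ) (f : ℕ → ℝ) (v : ℕ) : ℝ := f (M / v) * ((v : ℝ) / M)

lemma psi_div {M b : ℕ} (hM : 0 < M) (hb : b ∣ M) (f : ℕ → ℝ) :
    psi M f (M / b) = f b / b := by
  have hb0 : 0 < b := Nat.pos_of_dvd_of_pos hb hM
  have hM0 : (M : ℝ) ≠ 0 := by exact_mod_cast hM.ne'
  have hb0' : (b : ℝ) ≠ 0 := by exact_mod_cast hb0.ne'
  unfold psi
  rw [Nat.div_div_self hb hM.ne', Nat.cast_div hb hb0']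
  field_simp

lemma wt_div {M b : ℕ} (hM : 0 < M) (hb : b ∣ M) (f : ℕ → ℝ) :
    psi M f (M / b) * ((Nat.totient (M / b) : ℝ) / (M / b : ℕ)) = nu M b * f b := by
  have hb0 : 0 < b := Nat.pos_of_dvd_of_pos hb hM
  have hM0 : (M : ℝ) ≠ 0 := by exact_mod_cast hM.ne'
  have hb0' : (b : ℝ) ≠ 0 := by exact_mod_cast hb0.ne'
  rw [psi_div hM hb, Nat.cast_div hb hb0']
  unfold nu
  field_simp

lemma cof_div_div {M b c : ℕ} (hM : 0 < M) (hb : b ∣ M) (hc : c ∣ M) :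
    cof (M / b) (M / c) = c / Nat.gcd b c := cof_div hM hb hc

lemma mass_eq {M : ℕ} (hM : 0 < M) (f : ℕ → ℝ) :
    ∑ v ∈ M.divisors, psi M f v * ((Nat.totient v : ℝ) / v) = mass M f := by
  rw [← Nat.sum_div_divisors M (fun v => psi M f v * ((Nat.totient v : ℝ) / v))]
  refine Finset.sum_congr rfl fun b hb => ?_
  exact wt_div hM (Nat.dvd_of_mem_divisors hb) f

/-- **HVW in the `b`-language**, with the multiplicative anatomy factor. -/
theorem hvw_b {A : ℕ →* ℝ} {L Λ ε : ℝ} (h : GoodWt A L Λ) (hε : 0 < ε) (hε4 : ε ≤ 1 / 4)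
    {M : ℕ} (hM : 0 < M) (P : Finset (ℕ × ℕ)) (hP : P ⊆ M.divisors ×ˢ M.divisors)
    {X : ℝ} (hX : 0 < X) (hg : ∀ e ∈ P, X ≤ Nat.gcd e.1 e.2) {f f' : ℕ → ℝ}
    (hf0 : ∀ b, b ∣ M → 0 ≤ f b) (hf1 : ∀ b, b ∣ M → f b ≤ 1)
    (hf0' : ∀ b, b ∣ M → 0 ≤ f' b) (hf1' : ∀ b, b ∣ M → f' b ≤ 1) :
    ∑ e ∈ P, (nu M e.1 * f e.1) * (nu M e.2 * f' e.2) *
        (A (e.2 / Nat.gcd e.1 e.2) * A (e.1 / Nat.gcd e.1 e.2))
      ≤ Real.exp (16 * L ^ 3 * Λ + 10 ^ 12 * (L / ε) ^ 7) *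
        (X⁻¹ ^ (1 - 2 * ε) * (mass M f * mass M f') ^ (1 / 2 + ε)) := by
  classical
  have hd : ∀ e ∈ P, e.1 ∣ M ∧ e.2 ∣ M := fun e he => by
    have := Finset.mem_product.1 (hP he)
    exact ⟨Nat.dvd_of_mem_divisors this.1, Nat.dvd_of_mem_divisors this.2⟩
  have hinj : Set.InjOn (fun e : ℕ × ℕ => (M / e.1, M / e.2)) P := by
    intro e he e' he' hh
    have h1 := hd e he
    have h2 := hd e' he'
    simp only [Prod.mk.injEq] at hh
    have a1 := Nat.div_div_self h1.1 hM.ne'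
    have a2 := Nat.div_div_self h1.2 hM.ne'
    have b1 := Nat.div_div_self h2.1 hM.ne'
    have b2 := Nat.div_div_self h2.2 hM.ne'
    rw [hh.1, b1] at a1
    rw [hh.2, b2] at a2
    exact Prod.ext a1.symm a2.symm
  have hposd : ∀ v ∈ M.divisors, 0 < v := fun v hv => Nat.pos_of_mem_divisors hv
  have hdd : ∀ v ∈ M.divisors, M / v ∣ M := fun v hv => Nat.div_dvd_of_dvd (Nat.dvd_of_mem_divisors hv)
  have key := Crest.Agent.R4.HVW560.hvw_totient h hε hε4 M.divisors M.divisors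
    (P.image fun e : ℕ × ℕ => (M / e.1, M / e.2)) (psi M f) (psi M f') X⁻¹ (inv_pos.2 hX)
    hposd hposd
    (fun v hv => mul_nonneg (hf0 _ (hdd v hv)) (by positivity))
    (fun v hv => mul_nonneg (hf0' _ (hdd v hv)) (by positivity))
    (by
      intro e he
      obtain ⟨e', he', rfl⟩ := Finset.mem_image.1 he
      have := hd e' he'
      simp only [Finset.mem_product, Nat.mem_divisors]
      exact ⟨⟨Nat.div_dvd_of_dvd this.1, hM.ne'⟩, ⟨Nat.div_dvd_of_dvd this.2, hM.ne'⟩⟩)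
    (by
      intro e he
      obtain ⟨e', he', rfl⟩ := Finset.mem_image.1 he
      have h1 := hd e' he'
      simp only
      rw [cof_div_div hM h1.1 h1.2, psi_div hM h1.2]
      have hc0 : 0 < e'.2 := Nat.pos_of_dvd_of_pos h1.2 hM
      have hg0 : 0 < Nat.gcd e'.1 e'.2 := Nat.gcd_pos_of_pos_right _ hc0
      have hg0' : (0 : ℝ) < (Nat.gcd e'.1 e'.2 : ℕ) := by exact_mod_cast hg0
      rw [Nat.cast_div (Nat.gcd_dvd_right _ _) hg0'.ne']
      have e1 : (e'.2 : ℝ) / (Nat.gcd e'.1 e'.2 : ℕ) * (f' e'.2 / e'.2)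
          = f' e'.2 / (Nat.gcd e'.1 e'.2 : ℕ) := by
        have : (e'.2 : ℝ) ≠ 0 := by exact_mod_cast hc0.ne'
        field_simp
      rw [e1, ← one_div]
      exact div_le_div₀ zero_le_one (hf1' _ h1.2) hX (hg e' he'))
    (by
      intro e he
      obtain ⟨e', he', rfl⟩ := Finset.mem_image.1 he
      have h1 := hd e' he'
      simp only
      rw [cof_div_div hM h1.2 h1.1, psi_div hM h1.1]
      have hc0 : 0 < e'.1 := Nat.pos_of_dvd_of_pos h1.1 hM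
      have hg0 : 0 < Nat.gcd e'.1 e'.2 := Nat.gcd_pos_of_pos_left _ hc0
      have hg0' : (0 : ℝ) < (Nat.gcd e'.1 e'.2 : ℕ) := by exact_mod_cast hg0
      rw [Nat.gcd_comm e'.2 e'.1, Nat.cast_div (Nat.gcd_dvd_left _ _) hg0'.ne']
      have e1 : (e'.1 : ℝ) / (Nat.gcd e'.1 e'.2 : ℕ) * (f e'.1 / e'.1)
          = f e'.1 / (Nat.gcd e'.1 e'.2 : ℕ) := by
        have : (e'.1 : ℝ) ≠ 0 := by exact_mod_cast hc0.ne'
        field_simp
      rw [e1, ← one_div]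
      exact div_le_div₀ zero_le_one (hf1 _ h1.1) hX (hg e' he'))
  rw [mass_eq hM f, mass_eq hM f', Finset.sum_image hinj] at key
  refine le_trans (le_of_eq ?_) key
  refine Finset.sum_congr rfl fun e he => ?_
  have h1 := hd e he
  rw [wt_div hM h1.1, wt_div hM h1.2, cof_div_div hM h1.1 h1.2, cof_div_div hM h1.2 h1.1,
    Nat.gcd_comm e.2 e.1]

/-- the constant of the plain inequality, `η = 2ε ≤ 1/2` -/
noncomputable def CH (η : ℝ) : ℝ := Real.exp (10 ^ 12 * (1 / (η / 2)) ^ 7)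

lemma CH_pos (η : ℝ) : 0 < CH η := Real.exp_pos _

lemma one_le_CH {η : ℝ} (hη : 0 < η) : 1 ≤ CH η := Real.one_le_exp (by positivity)

/-- plain version, exponent `0 < η ≤ 1/2`. -/
theorem plain_b {η : ℝ} (hη : 0 < η) (hη2 : η ≤ 1 / 2)
    {M : ℕ} (hM : 0 < M) (P : Finset (ℕ × ℕ)) (hP : P ⊆ M.divisors ×ˢ M.divisors)
    {X : ℝ} (hX : 0 < X) (hg : ∀ e ∈ P, X ≤ Nat.gcd e.1 e.2) {f f' : ℕ → ℝ}
    (hf0 : ∀ b, b ∣ M → 0 ≤ f b) (hf1 : ∀ b, b ∣ M → f b ≤ 1)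
    (hf0' : ∀ b, b ∣ M → 0 ≤ f' b) (hf1' : ∀ b, b ∣ M → f' b ≤ 1) :
    ∑ e ∈ P, (nu M e.1 * f e.1) * (nu M e.2 * f' e.2)
      ≤ CH η * (X ^ (-(1 - η)) * (mass M f * mass M f') ^ ((1 + η) / 2)) := by
  have key := hvw_b Crest.Agent.R4.HVW560.goodWt_one (ε := η / 2) (by linarith) (by linarith)
    hM P hP hX hg hf0 hf1 hf0' hf1'
  have e1 : (1 : ℝ) - 2 * (η / 2) = 1 - η := by ring
  have e2 : (1 : ℝ) / 2 + η / 2 = (1 + η) / 2 := by ring
  rw [e1, e2, Real.inv_rpow hX.le, ← Real.rpow_neg hX.le] at key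
  simpa [CH] using key

lemma term_nonneg {M : ℕ} {f f' : ℕ → ℝ} (hf0 : ∀ b, b ∣ M → 0 ≤ f b)
    (hf0' : ∀ b, b ∣ M → 0 ≤ f' b) {b c : ℕ} (hb : b ∣ M) (hc : c ∣ M) :
    0 ≤ (nu M b * f b) * (nu M c * f' c) :=
  mul_nonneg (mul_nonneg (nu_nonneg M b) (hf0 b hb)) (mul_nonneg (nu_nonneg M c) (hf0' c hc))

/-- exact scale: all pairs of `P` have `X ≤ gcd ≤ Y`. -/
theorem exact_scale {η : ℝ} (hη : 0 < η) (hη2 : η ≤ 1 / 2)
    {M : ℕ} (hM : 0 < M) (P : Finset (ℕ × ℕ)) (hP : P ⊆ M.divisors ×ˢ M.divisors)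
    {X Y : ℝ} (hX : 0 < X) (hY0 : 0 ≤ Y) (hg : ∀ e ∈ P, X ≤ Nat.gcd e.1 e.2)
    (hY : ∀ e ∈ P, (Nat.gcd e.1 e.2 : ℝ) ≤ Y) {f f' : ℕ → ℝ}
    (hf0 : ∀ b, b ∣ M → 0 ≤ f b) (hf1 : ∀ b, b ∣ M → f b ≤ 1)
    (hf0' : ∀ b, b ∣ M → 0 ≤ f' b) (hf1' : ∀ b, b ∣ M → f' b ≤ 1) :
    ∑ e ∈ P, (Nat.gcd e.1 e.2 : ℝ) * ((nu M e.1 * f e.1) * (nu M e.2 * f' e.2))
      ≤ (Y / X) * (CH η * (X ^ η * (mass M f * mass M f') ^ ((1 + η) / 2))) := by
  have key := plain_b hη hη2 hM P hP hX hg hf0 hf1 hf0' hf1'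
  have h1 : ∑ e ∈ P, (Nat.gcd e.1 e.2 : ℝ) * ((nu M e.1 * f e.1) * (nu M e.2 * f' e.2))
      ≤ Y * ∑ e ∈ P, (nu M e.1 * f e.1) * (nu M e.2 * f' e.2) := by
    rw [Finset.mul_sum]
    refine Finset.sum_le_sum fun e he => ?_
    have hd := Finset.mem_product.1 (hP he)
    exact mul_le_mul_of_nonneg_right (hY e he) (term_nonneg hf0 hf0'
      (Nat.dvd_of_mem_divisors hd.1) (Nat.dvd_of_mem_divisors hd.2))
  refine h1.trans ((mul_le_mul_of_nonneg_left key hY0).trans (le_of_eq ?_))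
  have e1 : X ^ (-(1 - η)) = X ^ η / X := by
    rw [show -(1 - η) = η - 1 by ring, Real.rpow_sub_one hX.ne']
  rw [e1]
  field_simp

/-- two-sided geometric sum over the dyadic scales -/
lemma dyadic_sum {κ θ C μ : ℝ} (hκ : 0 < κ) (hθ : 0 < θ) (hC : 0 ≤ C) (hμ0 : 0 < μ)
    (hμ1 : μ ≤ 1) (W : ℕ → ℝ) (h1 : ∀ k, W k ≤ μ)
    (h2 : ∀ k, W k ≤ C * (((2 : ℝ) ^ k) ^ (-(κ + θ)) * μ ^ (1 - (κ + θ) / 2))) (N : ℕ) :
    ∑ k ∈ range N, ((2 : ℝ) ^ k) ^ κ * W k ≤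
      (1 / (1 - (2 : ℝ) ^ (-κ)) + C / (1 - (2 : ℝ) ^ (-θ))) * μ ^ (1 - κ / 2) := by
  set r : ℝ := (2 : ℝ) ^ (-κ) with hr
  set s : ℝ := (2 : ℝ) ^ (-θ) with hs
  have hr0 : 0 < r := Real.rpow_pos_of_pos two_pos _
  have hs0 : 0 < s := Real.rpow_pos_of_pos two_pos _
  have hr1 : r < 1 := Real.rpow_lt_one_of_one_lt_of_neg one_lt_two (by linarith)
  have hs1 : s < 1 := Real.rpow_lt_one_of_one_lt_of_neg one_lt_two (by linarith)
  have hx1 : (1 : ℝ) ≤ μ ^ (-(1 / 2) : ℝ) :=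
    Real.one_le_rpow_of_pos_of_le_one_of_nonpos hμ0 hμ1 (by norm_num)
  obtain ⟨K, hK1, hK2⟩ := exists_nat_pow_near hx1 one_lt_two
  have hx0 : 0 < μ ^ (-(1 / 2) : ℝ) := Real.rpow_pos_of_pos hμ0 _
  set t : ℕ → ℝ := fun k => if k ≤ K then r ^ (K - k) else C * s ^ (k - (K + 1)) with ht
  have ht0 : ∀ k, 0 ≤ t k := by
    intro k
    simp only [ht]
    split_ifs
    · positivity
    · positivity
  have hB0 : 0 < μ ^ (1 - κ / 2) := Real.rpow_pos_of_pos hμ0 _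
  -- termwise
  have hterm : ∀ k, ((2 : ℝ) ^ k) ^ κ * W k ≤ t k * μ ^ (1 - κ / 2) := by
    intro k
    have hp0 : (0 : ℝ) < (2 : ℝ) ^ k := by positivity
    by_cases hk : k ≤ K
    · simp only [ht, if_pos hk]
      have e1 : ((2 : ℝ) ^ k) ^ κ = r ^ (K - k) * ((2 : ℝ) ^ K) ^ κ := by
        rw [hr, ← Real.rpow_natCast (2 : ℝ) k, ← Real.rpow_mul two_pos.le,
          ← Real.rpow_natCast ((2 : ℝ) ^ (-κ)) (K - k), ← Real.rpow_mul two_pos.le,
          ← Real.rpow_natCast (2 : ℝ) K, ← Real.rpow_mul two_pos.le, ← Real.rpow_add two_pos]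
        congr 1
        rw [Nat.cast_sub hk]
        ring
      have e2 : ((2 : ℝ) ^ K) ^ κ * μ ≤ μ ^ (1 - κ / 2) := by
        have h3 : ((2 : ℝ) ^ K) ^ κ ≤ (μ ^ (-(1 / 2) : ℝ)) ^ κ :=
          Real.rpow_le_rpow (by positivity) hK1 hκ.le
        have h4 : (μ ^ (-(1 / 2) : ℝ)) ^ κ * μ = μ ^ (1 - κ / 2) := by
          rw [← Real.rpow_mul hμ0.le]
          conv_lhs => rw [← Real.rpow_one μ, ← Real.rpow_mul hμ0.le, ← Real.rpow_add hμ0]
          congr 1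
          ring
        rw [← h4]
        exact mul_le_mul_of_nonneg_right h3 hμ0.le
      calc ((2 : ℝ) ^ k) ^ κ * W k ≤ ((2 : ℝ) ^ k) ^ κ * μ :=
            mul_le_mul_of_nonneg_left (h1 k) (by positivity)
        _ = r ^ (K - k) * (((2 : ℝ) ^ K) ^ κ * μ) := by rw [e1]; ring
        _ ≤ r ^ (K - k) * μ ^ (1 - κ / 2) := mul_le_mul_of_nonneg_left e2 (by positivity)
    · simp only [ht, if_neg hk]
      have hk' : K + 1 ≤ k := by omega
      have e1 : ((2 : ℝ) ^ k) ^ κ * ((2 : ℝ) ^ k) ^ (-(κ + θ)) = s ^ (k - (K + 1)) *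
          ((2 : ℝ) ^ (K + 1)) ^ (-θ) := by
        rw [← Real.rpow_add hp0, hs, ← Real.rpow_natCast (2 : ℝ) k, ← Real.rpow_mul two_pos.le,
          ← Real.rpow_natCast ((2 : ℝ) ^ (-θ)) (k - (K + 1)), ← Real.rpow_mul two_pos.le,
          ← Real.rpow_natCast (2 : ℝ) (K + 1), ← Real.rpow_mul two_pos.le, ← Real.rpow_add two_pos]
        congr 1
        rw [Nat.cast_sub hk']
        ring
      have e2 : ((2 : ℝ) ^ (K + 1)) ^ (-θ) * μ ^ (1 - (κ + θ) / 2) ≤ μ ^ (1 - κ / 2) := by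
        have h3 : ((2 : ℝ) ^ (K + 1)) ^ (-θ) ≤ (μ ^ (-(1 / 2) : ℝ)) ^ (-θ) :=
          Real.rpow_le_rpow_of_nonpos hx0 hK2.le (by linarith)
        have h4 : (μ ^ (-(1 / 2) : ℝ)) ^ (-θ) * μ ^ (1 - (κ + θ) / 2) = μ ^ (1 - κ / 2) := by
          rw [← Real.rpow_mul hμ0.le, ← Real.rpow_add hμ0]
          congr 1
          ring
        rw [← h4]
        exact mul_le_mul_of_nonneg_right h3 (Real.rpow_nonneg hμ0.le _)
      calc ((2 : ℝ) ^ k) ^ κ * W k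
          ≤ ((2 : ℝ) ^ k) ^ κ * (C * (((2 : ℝ) ^ k) ^ (-(κ + θ)) * μ ^ (1 - (κ + θ) / 2))) :=
            mul_le_mul_of_nonneg_left (h2 k) (by positivity)
        _ = C * (((2 : ℝ) ^ k) ^ κ * ((2 : ℝ) ^ k) ^ (-(κ + θ))) * μ ^ (1 - (κ + θ) / 2) := by ring
        _ = C * s ^ (k - (K + 1)) * (((2 : ℝ) ^ (K + 1)) ^ (-θ) * μ ^ (1 - (κ + θ) / 2)) := by
            rw [e1]; ring
        _ ≤ C * s ^ (k - (K + 1)) * μ ^ (1 - κ / 2) :=
            mul_le_mul_of_nonneg_left e2 (by positivity)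
  have hgeo : ∀ (x : ℝ), 0 < x → x < 1 → ∀ n : ℕ, ∑ j ∈ range n, x ^ j ≤ 1 / (1 - x) := by
    intro x hx hx' n
    rw [le_div_iff₀ (by linarith), mul_comm, mul_neg_geom_sum]
    have : 0 ≤ x ^ n := by positivity
    linarith
  have hsum : ∑ k ∈ range N, t k ≤ 1 / (1 - r) + C / (1 - s) := by
    calc ∑ k ∈ range N, t k ≤ ∑ k ∈ range (K + 1 + N), t k :=
          Finset.sum_le_sum_of_subset_of_nonneg (Finset.range_subset_range.2 (by omega))
            fun k _ _ => ht0 k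
      _ = ∑ k ∈ range (K + 1), t k + ∑ j ∈ range N, t (K + 1 + j) := Finset.sum_range_add _ _ _
      _ ≤ 1 / (1 - r) + C / (1 - s) := by
          refine add_le_add ?_ ?_
          · have e1 : ∑ k ∈ range (K + 1), t k = ∑ k ∈ range (K + 1), r ^ k := by
              rw [← Finset.sum_range_reflect (fun k => r ^ k)]
              refine Finset.sum_congr rfl fun k hk => ?_
              rw [Finset.mem_range] at hk
              simp only [ht]
              rw [if_pos (by omega)]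
              congr 1
            rw [e1]
            exact hgeo r hr0 hr1 _
          · have e1 : ∑ j ∈ range N, t (K + 1 + j) = C * ∑ j ∈ range N, s ^ j := by
              rw [Finset.mul_sum]
              refine Finset.sum_congr rfl fun j _ => ?_
              simp only [ht]
              rw [if_neg (by omega)]
              congr 2
              omega
            rw [e1, div_eq_mul_one_div]
            exact mul_le_mul_of_nonneg_left (hgeo s hs0 hs1 N) hC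
  calc ∑ k ∈ range N, ((2 : ℝ) ^ k) ^ κ * W k ≤ ∑ k ∈ range N, t k * μ ^ (1 - κ / 2) :=
        Finset.sum_le_sum fun k _ => hterm k
    _ = (∑ k ∈ range N, t k) * μ ^ (1 - κ / 2) := by rw [Finset.sum_mul]
    _ ≤ _ := mul_le_mul_of_nonneg_right hsum hB0.le

/-- the constant of (H2) -/
noncomputable def KH (η : ℝ) : ℝ :=
  2 ^ (1 - η) * (1 / (1 - (2 : ℝ) ^ (-(1 - η))) + CH (η / 2) / (1 - (2 : ℝ) ^ (-(η / 2))))

lemma KH_pos {η : ℝ} (hη : 0 < η) (hη1 : η < 1) : 0 < KH η := by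
  unfold KH
  have h1 : (2 : ℝ) ^ (-(1 - η)) < 1 :=
    Real.rpow_lt_one_of_one_lt_of_neg one_lt_two (by linarith)
  have h2 : (2 : ℝ) ^ (-(η / 2)) < 1 :=
    Real.rpow_lt_one_of_one_lt_of_neg one_lt_two (by linarith)
  have h3 : (0 : ℝ) < 1 - (2 : ℝ) ^ (-(1 - η)) := by linarith
  have h4 : (0 : ℝ) < 1 - (2 : ℝ) ^ (-(η / 2)) := by linarith
  have := CH_pos (η / 2)
  have h5 : (0 : ℝ) < 2 ^ (1 - η) := Real.rpow_pos_of_pos two_pos _
  positivity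

/-- **Input (H2) of EFF**, for every set of pairs (`K = 1`): `0 < η < 1`, all `M`. -/
theorem H2 {η : ℝ} (hη : 0 < η) (hη1 : η < 1) {M : ℕ} (hM : 0 < M) {f f' : ℕ → ℝ}
    (hf0 : ∀ b, b ∣ M → 0 ≤ f b) (hf1 : ∀ b, b ∣ M → f b ≤ 1)
    (hf0' : ∀ b, b ∣ M → 0 ≤ f' b) (hf1' : ∀ b, b ∣ M → f' b ≤ 1) :
    ip (1 - η) M f f' ≤ KH η * (mass M f * mass M f') ^ ((1 + η) / 2) := by
  classical
  set κ : ℝ := 1 - η with hκdef
  have hκ : 0 < κ := by rw [hκdef]; linarith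
  set μ : ℝ := mass M f * mass M f' with hμdef
  have hm0 := mass_nonneg hf0
  have hm0' := mass_nonneg hf0'
  have hm1 := mass_le_one hM hf1
  have hm1' := mass_le_one hM hf1'
  have hμ0 : 0 ≤ μ := mul_nonneg hm0 hm0'
  have hμ1 : μ ≤ 1 := mul_le_one₀ hm1 hm0' hm1'
  set D := M.divisors ×ˢ M.divisors with hD
  set w : ℕ × ℕ → ℝ := fun e => (nu M e.1 * f e.1) * (nu M e.2 * f' e.2) with hw
  have hw0 : ∀ e ∈ D, 0 ≤ w e := by
    intro e he
    have hd := Finset.mem_product.1 he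
    exact term_nonneg hf0 hf0' (Nat.dvd_of_mem_divisors hd.1) (Nat.dvd_of_mem_divisors hd.2)
  have hwsum : ∑ e ∈ D, w e = μ := by
    rw [hD, Finset.sum_product, hμdef, mass, mass, Finset.sum_mul_sum]
  have hip : ip κ M f f' = ∑ e ∈ D, ((Nat.gcd e.1 e.2 : ℕ) : ℝ) ^ κ * w e := by
    rw [ip, frk, hD, Finset.sum_product]
    refine Finset.sum_congr rfl fun b _ => Finset.sum_congr rfl fun c _ => ?_
    simp only [hw]
    ring
  rcases hμ0.eq_or_lt with h0 | hpos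
  · have hz : ∀ e ∈ D, w e = 0 := by
      have := (Finset.sum_eq_zero_iff_of_nonneg hw0).1 (hwsum.trans h0.symm)
      exact this
    rw [hip, Finset.sum_eq_zero fun e he => by rw [hz e he, mul_zero]]
    have h1 := KH_pos hη hη1
    have h2 : 0 ≤ μ ^ ((1 + η) / 2) := Real.rpow_nonneg hμ0 _
    positivity
  set W : ℕ → ℝ := fun k => ∑ e ∈ D.filter (fun e => 2 ^ k ≤ Nat.gcd e.1 e.2), w e with hW
  have hW1 : ∀ k, W k ≤ μ := by
    intro k
    rw [← hwsum]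
    exact Finset.sum_le_sum_of_subset_of_nonneg (Finset.filter_subset _ _) fun e he _ => hw0 e he
  have hW2 : ∀ k, W k ≤ CH (η / 2) *
      (((2 : ℝ) ^ k) ^ (-(κ + η / 2)) * μ ^ (1 - (κ + η / 2) / 2)) := by
    intro k
    have hp0 : (0 : ℝ) < (2 : ℝ) ^ k := by positivity
    have key := plain_b (η := η / 2) (by linarith) (by linarith) hM
      (D.filter (fun e => 2 ^ k ≤ Nat.gcd e.1 e.2)) (Finset.filter_subset _ _) hp0
      (fun e he => by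
        have := (Finset.mem_filter.1 he).2
        exact_mod_cast this) hf0 hf1 hf0' hf1'
    refine key.trans (le_of_eq ?_)
    have e1 : -(1 - η / 2) = -(κ + η / 2) := by rw [hκdef]; ring
    have e2 : (1 + η / 2) / 2 = 1 - (κ + η / 2) / 2 := by rw [hκdef]; ring
    rw [e1, e2]
  have hds := dyadic_sum hκ (show 0 < η / 2 by linarith) (CH_pos (η / 2)).le hpos hμ1 W hW1 hW2
    (M + 1)
  -- pointwise
  have hpt : ∀ e ∈ D, ((Nat.gcd e.1 e.2 : ℕ) : ℝ) ^ κ ≤ 2 ^ κ *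
      ∑ k ∈ range (M + 1), if 2 ^ k ≤ Nat.gcd e.1 e.2 then ((2 : ℝ) ^ k) ^ κ else 0 := by
    intro e he
    have hd := Finset.mem_product.1 he
    have hb0 : 0 < e.1 := Nat.pos_of_mem_divisors hd.1
    have hg0 : 0 < Nat.gcd e.1 e.2 := Nat.gcd_pos_of_pos_left _ hb0
    have hgM : Nat.gcd e.1 e.2 ≤ M := Nat.le_of_dvd hM
      ((Nat.gcd_dvd_left _ _).trans (Nat.dvd_of_mem_divisors hd.1))
    set g := Nat.gcd e.1 e.2 with hgdef
    set k := Nat.log 2 g with hk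
    have hk1 : 2 ^ k ≤ g := Nat.pow_log_le_self 2 hg0.ne'
    have hk2 : g < 2 ^ (k + 1) := Nat.lt_pow_succ_log_self one_lt_two g
    have hkM : k < M + 1 := by
      have : k < 2 ^ k := Nat.lt_two_pow_self
      omega
    have h1 : (g : ℝ) ^ κ ≤ (2 * (2 : ℝ) ^ k) ^ κ := by
      refine Real.rpow_le_rpow (Nat.cast_nonneg _) ?_ hκ.le
      have : (g : ℝ) < ((2 ^ (k + 1) : ℕ) : ℝ) := by exact_mod_cast hk2
      push_cast at this
      rw [pow_succ] at this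
      linarith
    rw [Real.mul_rpow two_pos.le (by positivity)] at h1
    refine h1.trans (mul_le_mul_of_nonneg_left ?_ (by positivity))
    have h2 := Finset.single_le_sum (f := fun k => if 2 ^ k ≤ g then ((2 : ℝ) ^ k) ^ κ else 0)
      (fun j _ => by
        show 0 ≤ if 2 ^ j ≤ g then ((2 : ℝ) ^ j) ^ κ else 0
        split_ifs
        · positivity
        · exact le_refl _) (Finset.mem_range.2 hkM)
    simp only [if_pos hk1] at h2
    exact h2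
  have hmain : ip κ M f f' ≤ 2 ^ κ * ∑ k ∈ range (M + 1), ((2 : ℝ) ^ k) ^ κ * W k := by
    rw [hip]
    calc ∑ e ∈ D, ((Nat.gcd e.1 e.2 : ℕ) : ℝ) ^ κ * w e
        ≤ ∑ e ∈ D, (2 ^ κ * ∑ k ∈ range (M + 1),
            if 2 ^ k ≤ Nat.gcd e.1 e.2 then ((2 : ℝ) ^ k) ^ κ else 0) * w e :=
          Finset.sum_le_sum fun e he => mul_le_mul_of_nonneg_right (hpt e he) (hw0 e he)
      _ = 2 ^ κ * ∑ k ∈ range (M + 1), ((2 : ℝ) ^ k) ^ κ * W k := by
          simp only [hW, Finset.sum_filter, Finset.mul_sum, Finset.sum_mul]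
          rw [Finset.sum_comm]
          refine Finset.sum_congr rfl fun k _ => Finset.sum_congr rfl fun e _ => ?_
          split_ifs
          · ring
          · ring
  refine hmain.trans ?_
  have e3 : 1 - κ / 2 = (1 + η) / 2 := by rw [hκdef]; ring
  rw [e3] at hds
  calc 2 ^ κ * ∑ k ∈ range (M + 1), ((2 : ℝ) ^ k) ^ κ * W k
      ≤ 2 ^ κ * ((1 / (1 - (2 : ℝ) ^ (-κ)) + CH (η / 2) / (1 - (2 : ℝ) ^ (-(η / 2)))) *
          μ ^ ((1 + η) / 2)) := mul_le_mul_of_nonneg_left hds (by positivity)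
    _ = KH η * μ ^ ((1 + η) / 2) := by rw [KH, ← hκdef]; ring

/-- (H2) with larger masses on the right. -/
theorem H2' {η : ℝ} (hη : 0 < η) (hη1 : η < 1) {M : ℕ} (hM : 0 < M) {f f' : ℕ → ℝ}
    (hf0 : ∀ b, b ∣ M → 0 ≤ f b) (hf1 : ∀ b, b ∣ M → f b ≤ 1)
    (hf0' : ∀ b, b ∣ M → 0 ≤ f' b) (hf1' : ∀ b, b ∣ M → f' b ≤ 1) {m m' : ℝ}
    (hm : mass M f ≤ m) (hm' : mass M f' ≤ m') :
    ip (1 - η) M f f' ≤ KH η * (m * m') ^ ((1 + η) / 2) := by
  refine (H2 hη hη1 hM hf0 hf1 hf0' hf1').trans ?_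
  have h0 := mass_nonneg hf0
  have h0' := mass_nonneg hf0'
  refine mul_le_mul_of_nonneg_left ?_ (KH_pos hη hη1).le
  refine Real.rpow_le_rpow (mul_nonneg h0 h0') ?_ (by linarith)
  exact mul_le_mul hm hm' h0' (h0.trans hm)

end Crest.Agent.R4C.HKdiagx538
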