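import Crest.Agent.R4C.Eff_104
import Crest.Agent.R4C.HKdiag_538

/-!
# Row 4: THEOREM EFF with (H2) discharged, and its forms at small effective scale (helper104)
-/

set_option autoImplicit false

open Finset

namespace Crest.Agent.R4C.EffHx104

open Basex935 Psdx538 EffScx104 Effx104

variable {η : ℝ} {lam : ℕ → ℝ} {y : ℕ}

lemma one_le_al (h : ∀ p, 1 ≤ lam p) (b : ℕ) : 1 ≤ al lam b := by
  unfold al
  induction b.primeFactors using Finset.induction_on with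
  | empty => simp
  | insert p s hp ih =>
    rw [Finset.prod_insert hp]
    exact one_le_mul_of_one_le_of_one_le (h p) ih

lemma mass_le_Dl (h : ∀ p, 1 ≤ lam p) (M : ℕ) {f : ℕ → ℝ} (hf : ∀ b, 0 ≤ f b) :
    HKdiagx538.mass M f ≤ Dl lam M f := by
  unfold HKdiagx538.mass Dl
  refine Finset.sum_le_sum fun b _ => ?_
  have h1 := one_le_al h b
  have h2 : 0 ≤ nu M b * f b := mul_nonneg (nu_nonneg _ _) (hf b)
  calc nu M b * f b = 1 * (nu M b * f b) := by ring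
    _ ≤ al lam b * (nu M b * f b) := mul_le_mul_of_nonneg_right h1 h2
    _ = _ := by ring

/-- the constant of (H2), at least one -/
noncomputable def KH1 (η : ℝ) : ℝ := max 1 (HKdiagx538.KH η)

/-- **(H2) for all weights `≥ 1`** -/
theorem H2_all (hη : 0 < η) (hη1 : η < 1) (h : ∀ p, 1 ≤ lam p) {M : ℕ} (hM : 0 < M) {K0 : ℝ}
    (hK0 : KH1 η ≤ K0) : H2 η K0 lam M := by
  intro M' hd f g hf hg
  have hM' : 0 < M' := Nat.pos_of_dvd_of_pos hd hM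
  have hf0 := ind_nonneg hf
  have hg0 := ind_nonneg hg
  have hf1 : ∀ n, f n ≤ 1 := fun n => by rcases hf n with h | h <;> rw [h]; exact zero_le_one
  have hg1 : ∀ n, g n ≤ 1 := fun n => by rcases hg n with h | h <;> rw [h]; exact zero_le_one
  have h1 := HKdiagx538.H2' hη hη1 hM' (fun b _ => hf0 b) (fun b _ => hf1 b) (fun b _ => hg0 b)
    (fun b _ => hg1 b) (mass_le_Dl h M' hf0) (mass_le_Dl h M' hg0)
  refine h1.trans (mul_le_mul_of_nonneg_right ((le_max_right _ _).trans hK0) ?_)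
  have hl : ∀ p, 0 ≤ lam p := fun p => zero_le_one.trans (h p)
  exact Real.rpow_nonneg (mul_nonneg (Dl_nonneg hl _ hf0) (Dl_nonneg hl _ hg0)) _

/-- **THEOREM EFF**, (H2) discharged -/
theorem effH {η K0 : ℝ} (hη : 0 < η) (hη1 : η < 1) (hK0 : KH1 η ≤ K0) :
    ∃ C : ℝ, 1 ≤ C ∧ ∀ (lam : ℕ → ℝ) (y : ℕ), (∀ p, 1 ≤ lam p) →
      (∀ p : ℕ, p.Prime → y < p → 1 ≤ lam p * (1 - 1 / (p : ℝ))) →
      ∀ τ : ℝ, 0 < τ → τ ≤ 1 → ∀ M : ℕ, 0 < M →
      ∀ (f : ℕ → ℝ) (K : ℕ → ℕ → ℝ), (∀ n, f n = 0 ∨ f n = 1) →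
      (∀ b c, 0 ≤ K b c) → (∀ b c, K b c ≤ 1) →
      HKnode η K0 τ lam y M f K → HKleaf η K0 τ lam y M f K →
      SE η lam y M f K ≤ C * τ ^ ((1 - η) / 3) * Dl lam M f := by
  obtain ⟨C, hC, h⟩ := eff hη hη1 ((le_max_left _ _).trans hK0)
  refine ⟨C, hC, ?_⟩
  intro lam y hlam hlam1 τ hτ hτ1 M hM
  exact h lam y (fun p => zero_le_one.trans (hlam p)) hlam1 τ hτ hτ1 M hM
    (H2_all hη hη1 hlam hM hK0)

/-- **THEOREM EFF without relation**, unconditional -/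
theorem effH_one {η : ℝ} (hη : 0 < η) (hη1 : η < 1) :
    ∃ C : ℝ, 1 ≤ C ∧ ∀ (lam : ℕ → ℝ) (y : ℕ), (∀ p, 1 ≤ lam p) →
      (∀ p : ℕ, p.Prime → y < p → 1 ≤ lam p * (1 - 1 / (p : ℝ))) →
      ∀ M : ℕ, 0 < M → ∀ f : ℕ → ℝ, (∀ n, f n = 0 ∨ f n = 1) →
      frm M (fun b c => f b * f c * (th lam y M f b c) ^ (-η)) ≤ C * Dl lam M f := by
  obtain ⟨C, hC, h⟩ := eff_one hη hη1 (le_max_left 1 (HKdiagx538.KH η))
  refine ⟨C, hC, ?_⟩
  intro lam y hlam hlam1 M hM f hf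
  exact h lam y (fun p => zero_le_one.trans (hlam p)) hlam1 M hM (H2_all hη hη1 hlam hM le_rfl) f hf

lemma lo_ne_zero (z : ℕ) {n : ℕ} (hn : n ≠ 0) : lo z n ≠ 0 := fun h => hn (by
  rw [← lo_mul_hi z hn, h, zero_mul])

lemma lo_dvd (z : ℕ) {b M : ℕ} (hM : M ≠ 0) (hb : b ∣ M) : lo z b ∣ lo z M := by
  obtain ⟨c, rfl⟩ := hb
  have hb0 : b ≠ 0 := left_ne_zero_of_mul hM
  have hc0 : c ≠ 0 := right_ne_zero_of_mul hM
  rw [lo_mul z hb0 hc0]
  exact Dvd.intro _ rfl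

/-- `θ(b,c) > 0` if `f b = 1` -/
lemma th_pos (hlam : ∀ p, 1 ≤ lam p) {M : ℕ} (hM : 0 < M) {f : ℕ → ℝ} (hf : ∀ n, 0 ≤ f n)
    {b c : ℕ} (hb : b ∣ M) (hfb : 0 < f b) : 0 < th lam y M f b c := by
  have hb0 : b ≠ 0 := (Nat.pos_of_dvd_of_pos hb hM).ne'
  unfold th
  set z := max y (tpn b c)
  have hg : 0 < (Nat.gcd (lo z b) (lo z c) : ℝ) := by
    have : 0 < Nat.gcd (lo z b) (lo z c) :=
      Nat.gcd_pos_of_pos_left _ (Nat.pos_of_ne_zero (lo_ne_zero z hb0))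
    exact_mod_cast this
  refine mul_pos hg ?_
  have hlo := lo_dvd z hM.ne' hb
  have hMz : 0 < lo z M := Nat.pos_of_ne_zero (lo_ne_zero z hM.ne')
  unfold Dl
  refine Finset.sum_pos' (fun u _ => ?_) ⟨lo z b, ?_, ?_⟩
  · exact mul_nonneg (mul_nonneg (nu_nonneg _ _) (zero_le_one.trans (one_le_al hlam u))) (hf _)
  · exact Nat.mem_divisors.2 ⟨hlo, hMz.ne'⟩
  · have h1 : hi z b * lo z b = b := by rw [mul_comm]; exact lo_mul_hi z hb0
    beta_reduce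
    rw [h1]
    exact mul_pos (mul_pos (nu_pos hMz hlo) (zero_lt_one.trans_le (one_le_al hlam _))) hfb

/-- from the weighted energy to the energy at effective scale `≤ θ0` -/
lemma frm_small (hη : 0 < η) (hlam : ∀ p, 1 ≤ lam p) {M : ℕ} (hM : 0 < M) {f : ℕ → ℝ}
    (hf : ∀ n, f n = 0 ∨ f n = 1) {K : ℕ → ℕ → ℝ} (hK0 : ∀ b c, 0 ≤ K b c) {θ0 : ℝ}
    (hθ : 0 < θ0) :
    frm M (fun b c => f b * f c * K b c * (if th lam y M f b c ≤ θ0 then 1 else 0)) ≤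
      θ0 ^ η * SE η lam y M f K := by
  classical
  unfold SE frm
  rw [Finset.mul_sum]
  refine Finset.sum_le_sum fun b hb => ?_
  rw [Finset.mul_sum]
  refine Finset.sum_le_sum fun c _ => ?_
  have hb' := Nat.dvd_of_mem_divisors hb
  have hw : 0 ≤ (Nat.gcd b c : ℝ) * nu M b * nu M c :=
    mul_nonneg (mul_nonneg (Nat.cast_nonneg _) (nu_nonneg _ _)) (nu_nonneg _ _)
  have hfK : 0 ≤ f b * f c * K b c :=
    mul_nonneg (mul_nonneg (ind_nonneg hf _) (ind_nonneg hf _)) (hK0 _ _)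
  have hmain : f b * f c * K b c * (if th lam y M f b c ≤ θ0 then 1 else 0) ≤
      θ0 ^ η * (f b * f c * K b c * th lam y M f b c ^ (-η)) := by
    rcases hf b with h0 | h1
    · rw [h0]; simp
    · have hpos := th_pos (lam := lam) (y := y) (c := c) hlam hM (ind_nonneg hf) hb'
        (by rw [h1]; exact one_pos)
      split_ifs with h
      · have e1 : 1 ≤ θ0 ^ η * th lam y M f b c ^ (-η) := by
          rw [Real.rpow_neg hpos.le, ← div_eq_mul_inv, le_div_iff₀ (Real.rpow_pos_of_pos hpos _),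
            one_mul]
          exact Real.rpow_le_rpow hpos.le h hη.le
        calc f b * f c * K b c * 1 ≤ f b * f c * K b c * (θ0 ^ η * th lam y M f b c ^ (-η)) :=
              mul_le_mul_of_nonneg_left e1 hfK
          _ = _ := by ring
      · rw [mul_zero]
        have := Real.rpow_nonneg hpos.le (-η)
        have := Real.rpow_nonneg hθ.le η
        positivity
  calc (Nat.gcd b c : ℝ) * nu M b * nu M c *
        (f b * f c * K b c * (if th lam y M f b c ≤ θ0 then 1 else 0))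
      ≤ (Nat.gcd b c : ℝ) * nu M b * nu M c *
        (θ0 ^ η * (f b * f c * K b c * th lam y M f b c ^ (-η))) :=
        mul_le_mul_of_nonneg_left hmain hw
    _ = _ := by ring

/-- energy of all pairs at effective scale `≤ θ0` -/
theorem small_scale {η : ℝ} (hη : 0 < η) (hη1 : η < 1) :
    ∃ C : ℝ, 1 ≤ C ∧ ∀ (lam : ℕ → ℝ) (y : ℕ), (∀ p, 1 ≤ lam p) →
      (∀ p : ℕ, p.Prime → y < p → 1 ≤ lam p * (1 - 1 / (p : ℝ))) →
      ∀ M : ℕ, 0 < M → ∀ f : ℕ → ℝ, (∀ n, f n = 0 ∨ f n = 1) → ∀ θ0 : ℝ, 0 < θ0 →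
      frm M (fun b c => f b * f c * (if th lam y M f b c ≤ θ0 then 1 else 0)) ≤
        C * θ0 ^ η * Dl lam M f := by
  obtain ⟨C, hC, h⟩ := effH_one hη hη1
  refine ⟨C, hC, ?_⟩
  intro lam y hlam hlam1 M hM f hf θ0 hθ
  have h1 := frm_small (y := y) hη hlam hM hf (K := fun _ _ => 1) (fun _ _ => zero_le_one) hθ
  have h2 := h lam y hlam hlam1 M hM f hf
  unfold SE at h1
  simp only [mul_one] at h1
  refine h1.trans ?_
  have h3 := mul_le_mul_of_nonneg_left h2 (Real.rpow_nonneg hθ.le η)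
  calc _ ≤ θ0 ^ η * (C * Dl lam M f) := h3
    _ = _ := by ring

/-- energy of a relation at effective scale `≤ θ0` -/
theorem small_scale_rel {η K0 : ℝ} (hη : 0 < η) (hη1 : η < 1) (hK0 : KH1 η ≤ K0) :
    ∃ C : ℝ, 1 ≤ C ∧ ∀ (lam : ℕ → ℝ) (y : ℕ), (∀ p, 1 ≤ lam p) →
      (∀ p : ℕ, p.Prime → y < p → 1 ≤ lam p * (1 - 1 / (p : ℝ))) →
      ∀ τ : ℝ, 0 < τ → τ ≤ 1 → ∀ M : ℕ, 0 < M →
      ∀ (f : ℕ → ℝ) (K : ℕ → ℕ → ℝ), (∀ n, f n = 0 ∨ f n = 1) →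
      (∀ b c, 0 ≤ K b c) → (∀ b c, K b c ≤ 1) →
      HKnode η K0 τ lam y M f K → HKleaf η K0 τ lam y M f K → ∀ θ0 : ℝ, 0 < θ0 →
      frm M (fun b c => f b * f c * K b c * (if th lam y M f b c ≤ θ0 then 1 else 0)) ≤
        C * θ0 ^ η * τ ^ ((1 - η) / 3) * Dl lam M f := by
  obtain ⟨C, hC, h⟩ := effH hη hη1 hK0
  refine ⟨C, hC, ?_⟩
  intro lam y hlam hlam1 τ hτ hτ1 M hM f K hf hK0' hK1 hn hl θ0 hθ
  have h1 := frm_small (y := y) hη hlam hM hf hK0' hθ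
  have h2 := h lam y hlam hlam1 τ hτ hτ1 M hM f K hf hK0' hK1 hn hl
  refine h1.trans ?_
  have h3 := mul_le_mul_of_nonneg_left h2 (Real.rpow_nonneg hθ.le η)
  calc _ ≤ θ0 ^ η * (C * τ ^ ((1 - η) / 3) * Dl lam M f) := h3
    _ = _ := by ring

end Crest.Agent.R4C.EffHx104
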