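import Mathlib

/-!
# Row 4: one-prime scalar inequality of the EFF theorem, all exponents (helper104)

Notes 2552, 2694, 2740 (B2).  Letters `v ∈ s`, shares `x v`, normalised forms `G v v'`, relation
forms `R v v'`, `ω = w^((1-η)/2)`, `σ = τ^((1-η)/3)`.
-/

set_option autoImplicit false

open Finset

namespace Crest.Agent.R4C.EffScx104

/-- sum over ordered pairs of different letters -/
noncomputable def off (t : Finset ℕ) (F : ℕ → ℕ → ℝ) : ℝ :=
  ∑ v ∈ t, ∑ v' ∈ t, if v = v' then 0 else F v v'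

lemma geom_right {ω : ℝ} (h0 : 0 ≤ ω) (h1 : ω < 1) (t : Finset ℕ) (v : ℕ) :
    ∑ v' ∈ t.filter (fun v' => v < v'), ω ^ (Nat.dist v v') ≤ ω / (1 - ω) := by
  have e : ∑ v' ∈ t.filter (fun v' => v < v'), ω ^ (Nat.dist v v')
      = ∑ j ∈ (t.filter (fun v' => v < v')).image (fun v' => v' - v - 1), ω ^ (j + 1) := by
    rw [sum_image]
    · apply sum_congr rfl
      intro a ha
      rw [mem_filter] at ha
      have : Nat.dist v a = a - v - 1 + 1 := by
        rw [Nat.dist_eq_sub_of_le ha.2.le]; omega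
      rw [this]
    · intro a ha b hb hab
      rw [mem_coe, mem_filter] at ha hb
      simp only at hab
      omega
  rw [e]
  have hs : Summable (fun j : ℕ => ω ^ (j + 1)) := by
    simp_rw [pow_succ]
    exact (summable_geometric_of_lt_one h0 h1).mul_right ω
  calc ∑ j ∈ (t.filter (fun v' => v < v')).image (fun v' => v' - v - 1), ω ^ (j + 1)
      ≤ ∑' j : ℕ, ω ^ (j + 1) := hs.sum_le_tsum _ (fun j _ => by positivity)
    _ = (1 - ω)⁻¹ * ω := by
        simp_rw [pow_succ]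
        rw [tsum_mul_right, tsum_geometric_of_lt_one h0 h1]
    _ = ω / (1 - ω) := by ring

lemma geom_left {ω : ℝ} (h0 : 0 ≤ ω) (h1 : ω < 1) (t : Finset ℕ) (v : ℕ) :
    ∑ v' ∈ t.filter (fun v' => v' < v), ω ^ (Nat.dist v v') ≤ ω / (1 - ω) := by
  have e : ∑ v' ∈ t.filter (fun v' => v' < v), ω ^ (Nat.dist v v')
      = ∑ j ∈ (t.filter (fun v' => v' < v)).image (fun v' => v - v' - 1), ω ^ (j + 1) := by
    rw [sum_image]
    · apply sum_congr rfl
      intro a ha
      rw [mem_filter] at ha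
      have : Nat.dist v a = v - a - 1 + 1 := by
        rw [Nat.dist_comm, Nat.dist_eq_sub_of_le ha.2.le]; omega
      rw [this]
    · intro a ha b hb hab
      rw [mem_coe, mem_filter] at ha hb
      simp only at hab
      omega
  rw [e]
  have hs : Summable (fun j : ℕ => ω ^ (j + 1)) := by
    simp_rw [pow_succ]
    exact (summable_geometric_of_lt_one h0 h1).mul_right ω
  calc ∑ j ∈ (t.filter (fun v' => v' < v)).image (fun v' => v - v' - 1), ω ^ (j + 1)
      ≤ ∑' j : ℕ, ω ^ (j + 1) := hs.sum_le_tsum _ (fun j _ => by positivity)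
    _ = (1 - ω)⁻¹ * ω := by
        simp_rw [pow_succ]
        rw [tsum_mul_right, tsum_geometric_of_lt_one h0 h1]
    _ = ω / (1 - ω) := by ring

/-- row sum of the geometric kernel -/
lemma geom_row {ω : ℝ} (h0 : 0 ≤ ω) (h1 : ω < 1) (t : Finset ℕ) (v : ℕ) :
    (∑ v' ∈ t, if v = v' then (0 : ℝ) else ω ^ (Nat.dist v v')) ≤ 2 * (ω / (1 - ω)) := by
  have e : (∑ v' ∈ t, if v = v' then (0 : ℝ) else ω ^ (Nat.dist v v')) =
      ∑ v' ∈ t.filter (fun v' => v < v'), ω ^ (Nat.dist v v')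
      + ∑ v' ∈ t.filter (fun v' => v' < v), ω ^ (Nat.dist v v') := by
    rw [sum_filter, sum_filter, ← sum_add_distrib]
    refine sum_congr rfl fun v' _ => ?_
    rcases lt_trichotomy v v' with h | h | h
    · rw [if_neg h.ne, if_pos h, if_neg (by omega), add_zero]
    · subst h; simp
    · rw [if_neg h.ne', if_neg (by omega), if_pos h, zero_add]
  rw [e]
  have := geom_right h0 h1 t v
  have := geom_left h0 h1 t v
  linarith

lemma off_mono {t : Finset ℕ} {F F' : ℕ → ℕ → ℝ} (h : ∀ v ∈ t, ∀ v' ∈ t, v ≠ v' → F v v' ≤ F' v v') :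
    off t F ≤ off t F' := by
  unfold off
  refine sum_le_sum fun v hv => sum_le_sum fun v' hv' => ?_
  split_ifs with hh
  · exact le_rfl
  · exact h v hv v' hv' hh

lemma off_add (t : Finset ℕ) (F F' : ℕ → ℕ → ℝ) :
    off t (fun v v' => F v v' + F' v v') = off t F + off t F' := by
  unfold off
  rw [← sum_add_distrib]
  refine sum_congr rfl fun v _ => ?_
  rw [← sum_add_distrib]
  refine sum_congr rfl fun v' _ => ?_
  split_ifs <;> ring

lemma off_smul (t : Finset ℕ) (c : ℝ) (F : ℕ → ℕ → ℝ) :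
    off t (fun v v' => c * F v v') = c * off t F := by
  unfold off
  rw [mul_sum]
  refine sum_congr rfl fun v _ => ?_
  rw [mul_sum]
  refine sum_congr rfl fun v' _ => ?_
  split_ifs <;> ring

/-- Schur test -/
lemma schur {ω : ℝ} (h0 : 0 ≤ ω) (h1 : ω < 1) (t : Finset ℕ) (a : ℕ → ℝ) (ha : ∀ v ∈ t, 0 ≤ a v) :
    off t (fun v v' => ω ^ (Nat.dist v v') * ((a v + a v') / 2)) ≤
      2 * (ω / (1 - ω)) * ∑ v ∈ t, a v := by
  have e : off t (fun v v' => ω ^ (Nat.dist v v') * ((a v + a v') / 2)) =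
      ∑ v ∈ t, a v * ∑ v' ∈ t, (if v = v' then (0 : ℝ) else ω ^ (Nat.dist v v')) := by
    have e1 : off t (fun v v' => ω ^ (Nat.dist v v') * ((a v + a v') / 2)) =
        ∑ v ∈ t, ∑ v' ∈ t, (a v / 2) * (if v = v' then (0 : ℝ) else ω ^ (Nat.dist v v'))
        + ∑ v ∈ t, ∑ v' ∈ t, (a v' / 2) * (if v = v' then (0 : ℝ) else ω ^ (Nat.dist v v')) := by
      unfold off
      rw [← sum_add_distrib]
      refine sum_congr rfl fun v _ => ?_
      rw [← sum_add_distrib]
      refine sum_congr rfl fun v' _ => ?_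
      split_ifs <;> ring
    have e2 : ∑ v ∈ t, ∑ v' ∈ t, (a v' / 2) * (if v = v' then (0 : ℝ) else ω ^ (Nat.dist v v')) =
        ∑ v ∈ t, ∑ v' ∈ t, (a v / 2) * (if v = v' then (0 : ℝ) else ω ^ (Nat.dist v v')) := by
      rw [sum_comm]
      refine sum_congr rfl fun v _ => sum_congr rfl fun v' _ => ?_
      rw [Nat.dist_comm]
      by_cases h : v = v'
      · subst h; simp
      · rw [if_neg h, if_neg (Ne.symm h)]
    rw [e1, e2, ← sum_add_distrib]
    refine sum_congr rfl fun v _ => ?_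
    rw [← sum_add_distrib, mul_sum]
    refine sum_congr rfl fun v' _ => ?_
    ring
  rw [e, mul_sum]
  refine sum_le_sum fun v hv => ?_
  have := mul_le_mul_of_nonneg_left (geom_row h0 h1 t v) (ha v hv)
  linarith

/-- the data at one prime -/
structure Dat (η KH τ : ℝ) (s : Finset ℕ) (x : ℕ → ℝ) (G R : ℕ → ℕ → ℝ) : Prop where
  x0 : ∀ v ∈ s, 0 ≤ x v
  x1 : ∑ v ∈ s, x v ≤ 1
  g0 : ∀ v ∈ s, ∀ v' ∈ s, 0 ≤ G v v'
  gg : ∀ v ∈ s, ∀ v' ∈ s, G v v' ^ 2 ≤ G v v * G v' v'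
  gx : ∀ v ∈ s, ∀ v' ∈ s, G v v' ≤ KH * (x v * x v') ^ ((1 + η) / 2)
  r0 : ∀ v ∈ s, ∀ v' ∈ s, v ≠ v' → 0 ≤ R v v'
  rg : ∀ v ∈ s, ∀ v' ∈ s, v ≠ v' → R v v' ≤ G v v'
  rx : ∀ v ∈ s, ∀ v' ∈ s, v ≠ v' → R v v' ≤ τ * (KH * (x v * x v') ^ ((1 + η) / 2))

variable {η KH τ : ℝ} {s : Finset ℕ} {x : ℕ → ℝ} {G R : ℕ → ℕ → ℝ}

lemma Dat.mono (D : Dat η KH τ s x G R) {t : Finset ℕ} (h : t ⊆ s) : Dat η KH τ t x G R where
  x0 := fun v hv => D.x0 v (h hv)
  x1 := (sum_le_sum_of_subset_of_nonneg h fun v hv _ => D.x0 v hv).trans D.x1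
  g0 := fun v hv v' hv' => D.g0 v (h hv) v' (h hv')
  gg := fun v hv v' hv' => D.gg v (h hv) v' (h hv')
  gx := fun v hv v' hv' => D.gx v (h hv) v' (h hv')
  r0 := fun v hv v' hv' => D.r0 v (h hv) v' (h hv')
  rg := fun v hv v' hv' => D.rg v (h hv) v' (h hv')
  rx := fun v hv v' hv' => D.rx v (h hv) v' (h hv')

lemma Dat.xle (D : Dat η KH τ s x G R) {v : ℕ} (hv : v ∈ s) : x v ≤ 1 :=
  (single_le_sum (fun u hu => D.x0 u hu) hv).trans D.x1

lemma Dat.gam (D : Dat η KH τ s x G R) {v v' : ℕ} (hv : v ∈ s) (hv' : v' ∈ s) :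
    G v v' ≤ (G v v + G v' v') / 2 := by
  have h1 := D.gg v hv v' hv'
  have h2 := D.g0 v hv v' hv'
  have h3 := D.g0 v hv v hv
  have h4 := D.g0 v' hv' v' hv'
  have h5 : G v v' ^ 2 ≤ ((G v v + G v' v') / 2) ^ 2 := by
    nlinarith [sq_nonneg (G v v - G v' v')]
  exact (sq_le_sq₀ h2 (by linarith)).1 h5

lemma prod_pow_le {a b : ℝ} (hη : 0 < η) (ha : 0 ≤ a) (hb : 0 ≤ b) (ha1 : a ≤ 1) (hb1 : b ≤ 1) :
    (a * b) ^ ((1 + η) / 2) ≤ (a + b) / 2 := by
  have h1 : (a * b) ^ ((1 + η) / 2) ≤ (a * b) ^ ((1 : ℝ) / 2) := by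
    have hab : a * b ≤ 1 := by nlinarith
    exact Real.rpow_le_rpow_of_exponent_ge' (mul_nonneg ha hb) hab (by norm_num) (by linarith)
  have h2 : (a * b) ^ ((1 : ℝ) / 2) ≤ (a + b) / 2 := by
    rw [← Real.sqrt_eq_rpow]
    rw [Real.sqrt_le_left (by linarith)]
    nlinarith [sq_nonneg (a - b)]
  exact h1.trans h2

lemma sig_pow (hη1 : η < 1) (hτ : 0 < τ) (hτ1 : τ ≤ 1) :
    τ ≤ (τ ^ ((1 - η) / 3)) ^ (2 / (1 - η)) := by
  rw [← Real.rpow_mul hτ.le]
  have h : (1 - η) / 3 * (2 / (1 - η)) = 2 / 3 := by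
    have : (1 - η) ≠ 0 := by linarith
    field_simp
  rw [h]
  have := Real.rpow_le_rpow_of_exponent_ge hτ hτ1 (show (2 / 3 : ℝ) ≤ 1 by norm_num)
  rwa [Real.rpow_one] at this

lemma exp_id (hη1 : η < 1) : 1 + (1 + η) / (1 - η) = 2 / (1 - η) := by
  have : (1 - η) ≠ 0 := by linarith
  field_simp; ring

/-- **block lemma**: all pairs of letters inside `t` -/
lemma block (hη : 0 < η) (hη1 : η < 1) (hKH : 1 ≤ KH) (hτ : 0 < τ) (hτ1 : τ ≤ 1)
    {e : ℝ} (he : 0 < e) {ω : ℝ} (hω : 0 < ω) (hω1 : ω ≤ 1 / 2) (hωe : 8 * ω ≤ e)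
    (D : Dat η KH τ s x G R) :
    off s (fun v v' => ω ^ (Nat.dist v v') * (R v v' + τ ^ ((1 - η) / 3) * G v v')) ≤
      τ ^ ((1 - η) / 3) * (4 * KH * (e / 8) ^ (-((1 + η) / (1 - η))) * ω ^ (2 / (1 - η))
        + e * ∑ v ∈ s, G v v) := by
  set σ : ℝ := τ ^ ((1 - η) / 3) with hσ
  have hσ0 : 0 < σ := Real.rpow_pos_of_pos hτ _
  have hGs : 0 ≤ ∑ v ∈ s, G v v := sum_nonneg fun v hv => D.g0 v hv v hv
  have hrow : 2 * (ω / (1 - ω)) ≤ 4 * ω := by
    have : ω / (1 - ω) ≤ 2 * ω := by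
      rw [div_le_iff₀ (by linarith)]
      nlinarith
    linarith
  -- G part
  have hG : off s (fun v v' => ω ^ (Nat.dist v v') * G v v') ≤ 4 * ω * ∑ v ∈ s, G v v := by
    refine (off_mono (F' := fun v v' => ω ^ (Nat.dist v v') * ((G v v + G v' v') / 2))
      fun v hv v' hv' _ => mul_le_mul_of_nonneg_left (D.gam hv hv') (by positivity)).trans ?_
    refine (schur hω.le (by linarith) s (fun v => G v v) fun v hv => D.g0 v hv v hv).trans ?_
    exact mul_le_mul_of_nonneg_right hrow hGs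
  have hG2 : σ * off s (fun v v' => ω ^ (Nat.dist v v') * G v v') ≤
      σ * (e / 2 * ∑ v ∈ s, G v v) := by
    refine mul_le_mul_of_nonneg_left (hG.trans ?_) hσ0.le
    exact mul_le_mul_of_nonneg_right (by linarith) hGs
  have hR : off s (fun v v' => ω ^ (Nat.dist v v') * R v v') ≤
      σ * (4 * KH * (e / 8) ^ (-((1 + η) / (1 - η))) * ω ^ (2 / (1 - η))
        + e / 2 * ∑ v ∈ s, G v v) := by
    by_cases hc : 8 * ω ≤ σ * e
    · have h1 : off s (fun v v' => ω ^ (Nat.dist v v') * R v v') ≤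
          off s (fun v v' => ω ^ (Nat.dist v v') * G v v') :=
        off_mono fun v hv v' hv' hne => mul_le_mul_of_nonneg_left (D.rg v hv v' hv' hne)
          (by positivity)
      have h2 : 4 * ω * ∑ v ∈ s, G v v ≤ σ * (e / 2 * ∑ v ∈ s, G v v) := by
        have := mul_le_mul_of_nonneg_right (by linarith : 4 * ω ≤ σ * e / 2) hGs
        linarith
      have h3 : 0 ≤ σ * (4 * KH * (e / 8) ^ (-((1 + η) / (1 - η))) * ω ^ (2 / (1 - η))) := by
        positivity
      rw [mul_add]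
      linarith
    · push Not at hc
      have h1 : off s (fun v v' => ω ^ (Nat.dist v v') * R v v') ≤
          off s (fun v v' => (τ * KH) * (ω ^ (Nat.dist v v') * ((x v + x v') / 2))) := by
        refine off_mono fun v hv v' hv' hne => ?_
        have h2 := D.rx v hv v' hv' hne
        have h3 := prod_pow_le (η := η) hη (D.x0 v hv) (D.x0 v' hv') (D.xle hv) (D.xle hv')
        have h4 : R v v' ≤ τ * KH * ((x v + x v') / 2) := by
          refine h2.trans ?_
          rw [← mul_assoc]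
          exact mul_le_mul_of_nonneg_left h3 (by positivity)
        have h5 := mul_le_mul_of_nonneg_left h4 (pow_nonneg hω.le (Nat.dist v v'))
        linarith
      rw [off_smul] at h1
      have h2 := schur hω.le (by linarith) s x D.x0
      have h3 : 2 * (ω / (1 - ω)) * ∑ v ∈ s, x v ≤ 4 * ω := by
        have h4 : 0 ≤ ∑ v ∈ s, x v := sum_nonneg D.x0
        calc 2 * (ω / (1 - ω)) * ∑ v ∈ s, x v ≤ 4 * ω * 1 :=
              mul_le_mul hrow D.x1 h4 (by positivity)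
          _ = 4 * ω := mul_one _
      have h4 : off s (fun v v' => ω ^ (Nat.dist v v') * R v v') ≤ τ * KH * (4 * ω) :=
        h1.trans (mul_le_mul_of_nonneg_left (h2.trans h3) (by positivity))
      -- compare
      set b : ℝ := (1 + η) / (1 - η) with hb
      have hb0 : 0 < b := by
        rw [hb]; have : 0 < 1 - η := by linarith
        positivity
      have h5 : ω ^ (2 / (1 - η)) = ω * ω ^ b := by
        rw [← exp_id hη1, Real.rpow_add hω, Real.rpow_one]
      have h6 : (σ * (e / 8)) ^ b ≤ ω ^ b :=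
        Real.rpow_le_rpow (by positivity) (by linarith) hb0.le
      rw [Real.mul_rpow hσ0.le (by positivity)] at h6
      have h7 : τ ≤ σ * σ ^ b := by
        have h8 := sig_pow (η := η) hη1 hτ hτ1
        rw [← exp_id hη1, Real.rpow_add (Real.rpow_pos_of_pos hτ _), Real.rpow_one] at h8
        exact h8
      have h8 : (e / 8) ^ (-b) * (e / 8) ^ b = 1 := by
        rw [← Real.rpow_add (by positivity)]
        simp
      have h9 : τ * KH * (4 * ω) ≤ σ * (4 * KH * (e / 8) ^ (-b) * ω ^ (2 / (1 - η))) := by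
        rw [h5]
        calc τ * KH * (4 * ω) ≤ (σ * σ ^ b) * KH * (4 * ω) := by
              have : 0 ≤ KH * (4 * ω) := by positivity
              have := mul_le_mul_of_nonneg_right h7 this
              linarith
          _ = σ * (4 * KH * (e / 8) ^ (-b) * (ω * (σ ^ b * (e / 8) ^ b))) := by
              calc (σ * σ ^ b) * KH * (4 * ω) = (σ * σ ^ b) * KH * (4 * ω) * 1 := by ring
                _ = (σ * σ ^ b) * KH * (4 * ω) * ((e / 8) ^ (-b) * (e / 8) ^ b) := by rw [h8]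
                _ = _ := by ring
          _ ≤ σ * (4 * KH * (e / 8) ^ (-b) * (ω * ω ^ b)) := by
              have h10 : 0 ≤ σ * (4 * KH * (e / 8) ^ (-b) * ω) := by positivity
              have := mul_le_mul_of_nonneg_left h6 h10
              linarith
      have h10 : 0 ≤ σ * (e / 2 * ∑ v ∈ s, G v v) := by positivity
      rw [mul_add]
      linarith
  have hsplit : off s (fun v v' => ω ^ (Nat.dist v v') * (R v v' + σ * G v v')) =
      off s (fun v v' => ω ^ (Nat.dist v v') * R v v')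
      + σ * off s (fun v v' => ω ^ (Nat.dist v v') * G v v') := by
    rw [← off_smul, ← off_add]
    unfold off
    refine sum_congr rfl fun v _ => sum_congr rfl fun v' _ => ?_
    split_ifs <;> ring
  rw [hsplit]
  rw [mul_add] at hR ⊢
  linarith

/-- **centre lemma**: one letter `v` against the centre -/
lemma centre (hη : 0 < η) (hη1 : η < 1) (hKH : 1 ≤ KH) (hτ : 0 < τ) (hτ1 : τ ≤ 1)
    {e' h' : ℝ} (he : 0 < e') (hh : 0 < h') {W y g gv g0 r : ℝ} (hW : 0 < W)
    (hy : 0 ≤ y) (hg : 0 ≤ g) (hgv : 0 ≤ gv) (hg0 : 0 ≤ g0)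
    (hgg : g ^ 2 ≤ gv * g0) (hgx : g ≤ KH * y ^ ((1 + η) / 2)) (hr0 : 0 ≤ r) (hrg : r ≤ g)
    (hrx : r ≤ τ * (KH * y ^ ((1 + η) / 2))) :
    W ^ ((1 - η) / 2) * (r + τ ^ ((1 - η) / 3) * g) ≤
      τ ^ ((1 - η) / 3) * (2 * KH * (Real.sqrt (e' * h')) ^ (-((1 + η) / (1 - η))) * W
        + (e' * y ^ (-η) * gv + h' * y * g0)) := by
  set σ : ℝ := τ ^ ((1 - η) / 3) with hσ
  have hσ0 : 0 < σ := Real.rpow_pos_of_pos hτ _
  set e5 : ℝ := Real.sqrt (e' * h') with he5
  have he50 : 0 < e5 := Real.sqrt_pos.2 (by positivity)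
  set b : ℝ := (1 + η) / (1 - η) with hb
  have hb0 : 0 < b := by
    rw [hb]; have : 0 < 1 - η := by linarith
    positivity
  have hy0' : 0 ≤ y ^ (-η) := Real.rpow_nonneg hy _
  have hgain0 : 0 ≤ e' * y ^ (-η) * gv + h' * y * g0 := by positivity
  rcases hy.eq_or_lt with h0 | hy0
  · have hz : y ^ ((1 + η) / 2) = 0 := by rw [← h0]; exact Real.zero_rpow (by linarith)
    rw [hz, mul_zero] at hgx
    have eg : g = 0 := le_antisymm hgx hg
    have er : r = 0 := by linarith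
    rw [eg, er, mul_zero, add_zero, mul_zero]
    have : 0 ≤ 2 * KH * e5 ^ (-b) * W := by positivity
    exact mul_nonneg hσ0.le (by linarith)
  set Y : ℝ := (y / W) ^ ((1 - η) / 2) with hY
  have hY0 : 0 < Y := Real.rpow_pos_of_pos (by positivity) _
  have hWη : 0 < W ^ ((1 - η) / 2) := Real.rpow_pos_of_pos hW _
  have hYW : Y * W ^ ((1 - η) / 2) = y ^ ((1 - η) / 2) := by
    rw [hY, ← Real.mul_rpow (by positivity) hW.le, div_mul_cancel₀ _ hW.ne']
  -- y^ρ W^{(1-η)/2} = W Y^b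
  have hYb : W ^ ((1 - η) / 2) * y ^ ((1 + η) / 2) = W * Y ^ b := by
    have h1 : Y ^ b = (y / W) ^ ((1 + η) / 2) := by
      rw [hY, ← Real.rpow_mul (by positivity)]
      congr 1
      rw [hb]
      have : (1 - η) ≠ 0 := by linarith
      field_simp
    rw [h1, Real.div_rpow hy hW.le]
    have h2 : W ^ ((1 - η) / 2) * W ^ ((1 + η) / 2) = W := by
      rw [← Real.rpow_add hW]
      have : (1 - η) / 2 + (1 + η) / 2 = 1 := by ring
      rw [this, Real.rpow_one]
    have h3 : 0 < W ^ ((1 + η) / 2) := Real.rpow_pos_of_pos hW _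
    rw [mul_div_assoc', eq_div_iff h3.ne']
    calc W ^ ((1 - η) / 2) * y ^ ((1 + η) / 2) * W ^ ((1 + η) / 2)
        = (W ^ ((1 - η) / 2) * W ^ ((1 + η) / 2)) * y ^ ((1 + η) / 2) := by ring
      _ = W * y ^ ((1 + η) / 2) := by rw [h2]
  -- the gain
  have hgain : 2 * e5 * (Y * W ^ ((1 - η) / 2)) * g ≤ e' * y ^ (-η) * gv + h' * y * g0 := by
    rw [hYW]
    have h1 : (2 * e5 * y ^ ((1 - η) / 2) * g) ^ 2 ≤ (e' * y ^ (-η) * gv + h' * y * g0) ^ 2 := by
      have hs : e5 ^ 2 = e' * h' := Real.sq_sqrt (by positivity)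
      have hp : (y ^ ((1 - η) / 2)) ^ 2 = y ^ (-η) * y := by
        rw [← Real.rpow_natCast, ← Real.rpow_mul hy]
        have : y ^ (-η) * y = y ^ (-η + 1) := by rw [Real.rpow_add hy0, Real.rpow_one]
        rw [this]
        congr 1; push_cast; ring
      have e1 : (2 * e5 * y ^ ((1 - η) / 2) * g) ^ 2 = 4 * (e' * h') * (y ^ (-η) * y) * g ^ 2 := by
        rw [← hs, ← hp]; ring
      rw [e1]
      have h2 : 4 * (e' * h') * (y ^ (-η) * y) * g ^ 2 ≤
          4 * (e' * h') * (y ^ (-η) * y) * (gv * g0) :=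
        mul_le_mul_of_nonneg_left hgg (by positivity)
      nlinarith [sq_nonneg (e' * y ^ (-η) * gv - h' * y * g0)]
    exact (sq_le_sq₀ (by positivity) hgain0).1 h1
  -- the two parts
  have hgpart : W ^ ((1 - η) / 2) * g ≤ KH * e5 ^ (-b) * W + e5 * (Y * W ^ ((1 - η) / 2)) * g := by
    by_cases hc : 1 ≤ e5 * Y
    · have h1 : W ^ ((1 - η) / 2) * g ≤ (e5 * Y) * (W ^ ((1 - η) / 2) * g) :=
        le_mul_of_one_le_left (by positivity) hc
      have h2 : 0 ≤ KH * e5 ^ (-b) * W := by positivity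
      linarith
    · push Not at hc
      have h1 : Y ^ b ≤ e5 ^ (-b) := by
        have h2 : Y ≤ e5⁻¹ := by
          rw [← one_div, le_div_iff₀ he50]; linarith
        have h3 := Real.rpow_le_rpow hY0.le h2 hb0.le
        rwa [Real.inv_rpow he50.le, ← Real.rpow_neg he50.le] at h3
      have h2 : W ^ ((1 - η) / 2) * g ≤ KH * e5 ^ (-b) * W := by
        calc W ^ ((1 - η) / 2) * g ≤ W ^ ((1 - η) / 2) * (KH * y ^ ((1 + η) / 2)) :=
              mul_le_mul_of_nonneg_left hgx hWη.le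
          _ = KH * (W * Y ^ b) := by rw [← hYb]; ring
          _ ≤ KH * (W * e5 ^ (-b)) := by
              refine mul_le_mul_of_nonneg_left (mul_le_mul_of_nonneg_left h1 hW.le) (by linarith)
          _ = _ := by ring
      have h3 : 0 ≤ e5 * (Y * W ^ ((1 - η) / 2)) * g := by positivity
      linarith
  have hrpart : W ^ ((1 - η) / 2) * r ≤
      σ * (KH * e5 ^ (-b) * W + e5 * (Y * W ^ ((1 - η) / 2)) * g) := by
    by_cases hc : 1 ≤ σ * (e5 * Y)
    · have h1 : W ^ ((1 - η) / 2) * r ≤ (σ * (e5 * Y)) * (W ^ ((1 - η) / 2) * g) := by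
        calc W ^ ((1 - η) / 2) * r ≤ W ^ ((1 - η) / 2) * g := mul_le_mul_of_nonneg_left hrg hWη.le
          _ ≤ _ := le_mul_of_one_le_left (by positivity) hc
      have h2 : 0 ≤ σ * (KH * e5 ^ (-b) * W) := by positivity
      rw [mul_add]
      linarith
    · push Not at hc
      have h1 : σ ^ b * Y ^ b ≤ e5 ^ (-b) := by
        have h2 : σ * Y ≤ e5⁻¹ := by
          rw [← one_div, le_div_iff₀ he50]; linarith
        have h3 := Real.rpow_le_rpow (by positivity) h2 hb0.le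
        rwa [Real.inv_rpow he50.le, ← Real.rpow_neg he50.le, Real.mul_rpow hσ0.le hY0.le] at h3
      have h7 : τ ≤ σ * σ ^ b := by
        have h8 := sig_pow (η := η) hη1 hτ hτ1
        rw [← exp_id hη1, Real.rpow_add (Real.rpow_pos_of_pos hτ _), Real.rpow_one] at h8
        exact h8
      have h2 : W ^ ((1 - η) / 2) * r ≤ σ * (KH * e5 ^ (-b) * W) := by
        calc W ^ ((1 - η) / 2) * r ≤ W ^ ((1 - η) / 2) * (τ * (KH * y ^ ((1 + η) / 2))) :=
              mul_le_mul_of_nonneg_left hrx hWη.le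
          _ = τ * (KH * (W * Y ^ b)) := by rw [← hYb]; ring
          _ ≤ (σ * σ ^ b) * (KH * (W * Y ^ b)) := mul_le_mul_of_nonneg_right h7 (by positivity)
          _ = σ * (KH * (W * (σ ^ b * Y ^ b))) := by ring
          _ ≤ σ * (KH * (W * e5 ^ (-b))) := by
              refine mul_le_mul_of_nonneg_left (mul_le_mul_of_nonneg_left
                (mul_le_mul_of_nonneg_left h1 hW.le) (by linarith)) hσ0.le
          _ = _ := by ring
      have h3 : 0 ≤ σ * (e5 * (Y * W ^ ((1 - η) / 2)) * g) := by positivity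
      rw [mul_add]
      linarith
  have h1 := mul_le_mul_of_nonneg_left hgpart hσ0.le
  have h2 := mul_le_mul_of_nonneg_left hgain hσ0.le
  calc W ^ ((1 - η) / 2) * (r + σ * g) = W ^ ((1 - η) / 2) * r + σ * (W ^ ((1 - η) / 2) * g) := by
        ring
    _ ≤ σ * (KH * e5 ^ (-b) * W + e5 * (Y * W ^ ((1 - η) / 2)) * g)
        + σ * (KH * e5 ^ (-b) * W + e5 * (Y * W ^ ((1 - η) / 2)) * g) := add_le_add hrpart h1
    _ = σ * (2 * KH * e5 ^ (-b) * W) + σ * (2 * e5 * (Y * W ^ ((1 - η) / 2)) * g) := by ring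
    _ ≤ σ * (2 * KH * e5 ^ (-b) * W) + σ * (e' * y ^ (-η) * gv + h' * y * g0) := by linarith
    _ = _ := by ring

lemma Dat.gdiag (hη : 0 < η) (hKH : 1 ≤ KH) (D : Dat η KH τ s x G R) {v : ℕ} (hv : v ∈ s) :
    G v v ≤ KH := by
  have h1 := D.gx v hv v hv
  have h2 : (x v * x v) ^ ((1 + η) / 2) ≤ 1 := by
    refine Real.rpow_le_one (mul_nonneg (D.x0 v hv) (D.x0 v hv)) ?_ (by linarith)
    nlinarith [D.x0 v hv, D.xle hv]
  nlinarith

lemma Dat.gzero (hη : 0 < η) (D : Dat η KH τ s x G R) {v : ℕ} (hv : v ∈ s) (h0 : x v = 0) :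
    G v v = 0 := by
  have h1 := D.gx v hv v hv
  rw [h0, mul_zero, Real.zero_rpow (by linarith), mul_zero] at h1
  exact le_antisymm h1 (D.g0 v hv v hv)

/-- one letter: the potential term is `≥ 0` when `c v ≥ 1` -/
lemma term_nonneg (hη : 0 < η) (D : Dat η KH τ s x G R) {v : ℕ} (hv : v ∈ s) {c : ℝ}
    (hc : 1 ≤ c) : 0 ≤ ((c / x v) ^ η - 1) * G v v := by
  rcases (D.x0 v hv).eq_or_lt with h0 | h0
  · rw [D.gzero hη hv h0.symm, mul_zero]
  · refine mul_nonneg ?_ (D.g0 v hv v hv)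
    have h1 : 1 ≤ c / x v := by
      rw [le_div_iff₀ h0]; linarith [D.xle hv]
    have := Real.one_le_rpow h1 hη.le
    linarith

/-- one letter: always `≥ -w G` -/
lemma term_ge (hη : 0 < η) (hη1 : η < 1) {w : ℝ} (hw : 0 < w) (hw1 : w ≤ 1 / 2)
    (D : Dat η KH τ s x G R) {v : ℕ} (hv : v ∈ s) {c : ℝ}
    (hc : 1 - w ≤ c) : -(w * G v v) ≤ ((c / x v) ^ η - 1) * G v v := by
  rcases (D.x0 v hv).eq_or_lt with h0 | h0
  · rw [D.gzero hη hv h0.symm]; simp
  · have h1 : 1 - w ≤ c / x v := by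
      rw [le_div_iff₀ h0]; nlinarith [D.xle hv]
    have h2 : (1 - w) ^ η ≤ (c / x v) ^ η := Real.rpow_le_rpow (by linarith) h1 hη.le
    have h3 : 1 - w ≤ (1 - w) ^ η := by
      have := Real.rpow_le_rpow_of_exponent_ge (x := 1 - w) (y := 1) (z := η) (by linarith)
        (by linarith) hη1.le
      rwa [Real.rpow_one] at this
    have h4 := mul_le_mul_of_nonneg_right (by linarith : -w ≤ (c / x v) ^ η - 1) (D.g0 v hv v hv)
    linarith

/-- small share: large gain -/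
lemma term_small (hη : 0 < η) (D : Dat η KH τ s x G R) {v : ℕ} (hv : v ∈ s) {c : ℝ}
    (hc : 7 / 8 ≤ c) (hx : x v ≤ 1 / 4) :
    (1 - (2 / 7 : ℝ) ^ η) * (7 / 8 : ℝ) ^ η * x v ^ (-η) * G v v ≤ ((c / x v) ^ η - 1) * G v v := by
  rcases (D.x0 v hv).eq_or_lt with h0 | h0
  · rw [D.gzero hη hv h0.symm]; simp
  · refine mul_le_mul_of_nonneg_right ?_ (D.g0 v hv v hv)
    have hcx : 7 / 8 / x v ≤ c / x v := div_le_div_of_nonneg_right hc h0.le
    have h1 : (7 / 8 / x v) ^ η ≤ (c / x v) ^ η := Real.rpow_le_rpow (by positivity) hcx hη.le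
    have h2 : (7 / 8 / x v) ^ η = (7 / 8 : ℝ) ^ η * x v ^ (-η) := by
      rw [Real.div_rpow (by norm_num) h0.le, Real.rpow_neg h0.le]; rfl
    have h3 : 1 ≤ (2 / 7 : ℝ) ^ η * (7 / 8 / x v) ^ η := by
      rw [← Real.mul_rpow (by norm_num) (by positivity)]
      refine Real.one_le_rpow ?_ hη.le
      rw [mul_div_assoc', le_div_iff₀ h0]
      norm_num
      linarith
    calc (1 - (2 / 7 : ℝ) ^ η) * (7 / 8 : ℝ) ^ η * x v ^ (-η)
        = (1 - (2 / 7 : ℝ) ^ η) * ((7 / 8 : ℝ) ^ η * x v ^ (-η)) := by ring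
      _ = (1 - (2 / 7 : ℝ) ^ η) * (7 / 8 / x v) ^ η := by rw [h2]
      _ = (7 / 8 / x v) ^ η - (2 / 7 : ℝ) ^ η * (7 / 8 / x v) ^ η := by ring
      _ ≤ (c / x v) ^ η - 1 := by linarith

/-- share at most `3/4` -/
lemma term_mid (hη : 0 < η) (D : Dat η KH τ s x G R) {v : ℕ} (hv : v ∈ s) {c : ℝ}
    (hc : 7 / 8 ≤ c) (hx : x v ≤ 3 / 4) :
    ((7 / 6 : ℝ) ^ η - 1) * G v v ≤ ((c / x v) ^ η - 1) * G v v := by
  rcases (D.x0 v hv).eq_or_lt with h0 | h0
  · rw [D.gzero hη hv h0.symm]; simp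
  · refine mul_le_mul_of_nonneg_right ?_ (D.g0 v hv v hv)
    have h1 : 7 / 6 ≤ c / x v := by
      rw [le_div_iff₀ h0]; linarith
    have := Real.rpow_le_rpow (by norm_num) h1 hη.le
    linarith

/-- share close to one -/
lemma term_big (hη : 0 < η) (hη1 : η < 1) {w : ℝ} (hw : 0 < w) (hw1 : w ≤ 1 / 2)
    (D : Dat η KH τ s x G R) {v : ℕ} (hv : v ∈ s) {c : ℝ}
    (hc : 1 - w ≤ c) (hx : 3 / 4 < x v) :
    (η * (1 - x v) - 2 * w) * G v v ≤ ((c / x v) ^ η - 1) * G v v := by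
  refine mul_le_mul_of_nonneg_right ?_ (D.g0 v hv v hv)
  have h0 : 0 < x v := by linarith
  have hX0 : 0 ≤ 1 - x v := by linarith [D.xle hv]
  have h1 : (1 - w) / x v ≤ c / x v := div_le_div_of_nonneg_right hc h0.le
  have h2 : ((1 - w) / x v) ^ η ≤ (c / x v) ^ η := Real.rpow_le_rpow
    (div_nonneg (by linarith) h0.le) h1 hη.le
  rw [Real.div_rpow (by linarith) h0.le] at h2
  have h3 : 1 - w ≤ (1 - w) ^ η := by
    have := Real.rpow_le_rpow_of_exponent_ge (x := 1 - w) (y := 1) (z := η) (by linarith)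
      (by linarith) hη1.le
    rwa [Real.rpow_one] at this
  have h4 : x v ^ η ≤ 1 - η * (1 - x v) := by
    have := _root_.rpow_one_add_le_one_add_mul_self (s := -(1 - x v)) (by linarith) hη.le hη1.le
    have e1 : (1 + -(1 - x v) : ℝ) = x v := by ring
    rw [e1] at this
    linarith
  have hxη : 0 < x v ^ η := Real.rpow_pos_of_pos h0 _
  have h5 : (1 - w) * (1 + η * (1 - x v)) ≤ (1 - w) ^ η / x v ^ η := by
    rw [le_div_iff₀ hxη]
    have h6 : (1 + η * (1 - x v)) * x v ^ η ≤ 1 := by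
      have h7 : (1 + η * (1 - x v)) * x v ^ η ≤ (1 + η * (1 - x v)) * (1 - η * (1 - x v)) :=
        mul_le_mul_of_nonneg_left h4 (by positivity)
      nlinarith [sq_nonneg (η * (1 - x v))]
    calc (1 - w) * (1 + η * (1 - x v)) * x v ^ η
        = (1 - w) * ((1 + η * (1 - x v)) * x v ^ η) := by ring
      _ ≤ (1 - w) * 1 := mul_le_mul_of_nonneg_left h6 (by linarith)
      _ ≤ (1 - w) ^ η := by linarith
  have h8 : w * (η * (1 - x v)) ≤ w * 1 := by
    refine mul_le_mul_of_nonneg_left ?_ hw.le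
    nlinarith
  nlinarith

lemma off_erase {t : Finset ℕ} {F : ℕ → ℕ → ℝ} {v0 : ℕ} (h : v0 ∈ t) :
    off t F = off (t.erase v0) F + ∑ v ∈ t.erase v0, (F v v0 + F v0 v) := by
  unfold off
  rw [← add_sum_erase t _ h]
  have h1 : ∀ v ∈ t.erase v0, (∑ v' ∈ t, if v = v' then 0 else F v v') =
      (∑ v' ∈ t.erase v0, if v = v' then 0 else F v v') + F v v0 := by
    intro v hv
    rw [← add_sum_erase t _ h, if_neg (mem_erase.1 hv).1, add_comm]
  rw [sum_congr rfl h1, sum_add_distrib, sum_add_distrib, ← add_sum_erase t _ h, if_pos rfl]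
  have h2 : (∑ v' ∈ t.erase v0, if v0 = v' then 0 else F v0 v') = ∑ v' ∈ t.erase v0, F v0 v' :=
    sum_congr rfl fun v' hv' => if_neg (Ne.symm (mem_erase.1 hv').1)
  rw [h2]
  ring

/-- large `w` -/
lemma case_large (hη : 0 < η) (hη1 : η < 1) (hKH : 1 ≤ KH) (hτ : 0 < τ) (hτ1 : τ ≤ 1)
    {w : ℝ} (hw : 0 < w) (hw1 : w ≤ 1 / 2) (D : Dat η KH τ s x G R) :
    off s (fun v v' => (w ^ ((1 - η) / 2)) ^ (Nat.dist v v') *
      (R v v' + τ ^ ((1 - η) / 3) * G v v')) ≤
      τ ^ ((1 - η) / 3) * (4 * KH / (1 - (1 / 2 : ℝ) ^ ((1 - η) / 2))) := by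
  set σ : ℝ := τ ^ ((1 - η) / 3) with hσ
  have hσ0 : 0 < σ := Real.rpow_pos_of_pos hτ _
  set ω : ℝ := w ^ ((1 - η) / 2) with hω
  set ω1 : ℝ := (1 / 2 : ℝ) ^ ((1 - η) / 2) with hω1
  have hω0 : 0 < ω := Real.rpow_pos_of_pos hw _
  have hωle : ω ≤ ω1 := Real.rpow_le_rpow hw.le hw1 (by linarith)
  have hω1lt : ω1 < 1 := Real.rpow_lt_one (by norm_num) (by norm_num) (by linarith)
  have hτσ : τ ≤ σ := by
    have := Real.rpow_le_rpow_of_exponent_ge hτ hτ1 (show (1 - η) / 3 ≤ 1 by linarith)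
    rwa [Real.rpow_one] at this
  have h1 : off s (fun v v' => ω ^ (Nat.dist v v') * (R v v' + σ * G v v')) ≤
      off s (fun v v' => (2 * σ * KH) * (ω ^ (Nat.dist v v') * ((x v + x v') / 2))) := by
    refine off_mono fun v hv v' hv' hne => ?_
    have h2 := D.rx v hv v' hv' hne
    have h2' := D.gx v hv v' hv'
    have h3 := prod_pow_le (η := η) hη (D.x0 v hv) (D.x0 v' hv') (D.xle hv) (D.xle hv')
    have h4 : 0 ≤ KH * ((x v + x v') / 2) := by
      have := D.x0 v hv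
      have := D.x0 v' hv'
      positivity
    have h5 : KH * (x v * x v') ^ ((1 + η) / 2) ≤ KH * ((x v + x v') / 2) :=
      mul_le_mul_of_nonneg_left h3 (by linarith)
    have h6 : R v v' ≤ σ * (KH * ((x v + x v') / 2)) := by
      have h7 : 0 ≤ KH * (x v * x v') ^ ((1 + η) / 2) := by
        have := Real.rpow_nonneg (mul_nonneg (D.x0 v hv) (D.x0 v' hv')) ((1 + η) / 2)
        positivity
      calc R v v' ≤ τ * (KH * (x v * x v') ^ ((1 + η) / 2)) := h2
        _ ≤ σ * (KH * (x v * x v') ^ ((1 + η) / 2)) := mul_le_mul_of_nonneg_right hτσ h7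
        _ ≤ _ := mul_le_mul_of_nonneg_left h5 hσ0.le
    have h7 : σ * G v v' ≤ σ * (KH * ((x v + x v') / 2)) :=
      mul_le_mul_of_nonneg_left (h2'.trans h5) hσ0.le
    have h8 := mul_le_mul_of_nonneg_left (add_le_add h6 h7) (pow_nonneg hω0.le (Nat.dist v v'))
    linarith
  rw [off_smul] at h1
  have h2 := schur hω0.le (by linarith) s x D.x0
  have h3 : 2 * (ω / (1 - ω)) * ∑ v ∈ s, x v ≤ 2 / (1 - ω1) := by
    have h4 : 0 ≤ ∑ v ∈ s, x v := sum_nonneg D.x0
    have h5 : ω / (1 - ω) ≤ 1 / (1 - ω1) :=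
      div_le_div₀ (by norm_num) (by linarith) (by linarith) (by linarith)
    calc 2 * (ω / (1 - ω)) * ∑ v ∈ s, x v ≤ 2 * (1 / (1 - ω1)) * 1 := by
          refine mul_le_mul (by linarith) D.x1 h4 ?_
          have : 0 < 1 - ω1 := by linarith
          positivity
      _ = _ := by ring
  calc _ ≤ 2 * σ * KH * (2 / (1 - ω1)) :=
        h1.trans (mul_le_mul_of_nonneg_left (h2.trans h3) (by positivity))
    _ = _ := by ring

set_option maxHeartbeats 2000000 in
/-- **one-prime inequality of EFF, all exponents** -/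
theorem scalarM {η KH : ℝ} (hη : 0 < η) (hη1 : η < 1) (hKH : 1 ≤ KH) :
    ∃ C1 : ℝ, 1 ≤ C1 ∧ ∀ τ : ℝ, 0 < τ → τ ≤ 1 → ∀ w : ℝ, 0 < w → w ≤ 1 / 2 →
      ∀ (s : Finset ℕ) (x : ℕ → ℝ) (G R : ℕ → ℕ → ℝ), Dat η KH τ s x G R →
      ∑ v ∈ s, x v = 1 → ∀ c : ℕ → ℝ, (∀ v ∈ s, 1 - w ≤ c v) → (∀ v ∈ s, v ≠ 0 → 1 ≤ c v) →
      off s (fun v v' => (w ^ ((1 - η) / 2)) ^ (Nat.dist v v') *
        (R v v' + τ ^ ((1 - η) / 3) * G v v')) ≤
        τ ^ ((1 - η) / 3) * (C1 * w + ∑ v ∈ s, ((c v / x v) ^ η - 1) * G v v) := by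
  set e2 : ℝ := (7 / 6 : ℝ) ^ η - 1 with he2
  set e4 : ℝ := (1 - (2 / 7 : ℝ) ^ η) * (7 / 8 : ℝ) ^ η with he4
  have he20 : 0 < e2 := by
    have := Real.one_lt_rpow (show (1 : ℝ) < 7 / 6 by norm_num) hη
    linarith
  have he40 : 0 < e4 := by
    have h1 := Real.rpow_lt_one (show (0 : ℝ) ≤ 2 / 7 by norm_num) (by norm_num) hη
    have h2 : 0 < (7 / 8 : ℝ) ^ η := Real.rpow_pos_of_pos (by norm_num) _
    rw [he4]
    exact mul_pos (by linarith) h2
  set b : ℝ := (1 + η) / (1 - η) with hb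
  set e0 : ℝ := min (min e2 (e4 / 2)) 4 with he0
  have he00 : 0 < e0 := lt_min (lt_min he20 (by positivity)) (by norm_num)
  set w0 : ℝ := min (1 / 8) ((e0 / 8) ^ (2 / (1 - η))) with hw0d
  have hw00 : 0 < w0 := lt_min (by norm_num) (Real.rpow_pos_of_pos (by positivity) _)
  have h1η : 0 < 1 - η := by linarith
  have hω1lt : (1 / 2 : ℝ) ^ ((1 - η) / 2) < 1 :=
    Real.rpow_lt_one (by norm_num) (by norm_num) (by linarith)
  set Cc : ℝ := 2 * KH * (Real.sqrt (e4 / 4 * (η / 2))) ^ (-b) with hCc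
  have hCc0 : 0 ≤ Cc := by positivity
  set CL : ℝ := KH + 4 * KH / (1 - (1 / 2 : ℝ) ^ ((1 - η) / 2)) / w0 with hCL
  have hCL0 : 0 ≤ 4 * KH / (1 - (1 / 2 : ℝ) ^ ((1 - η) / 2)) / w0 := by
    have : 0 < 1 - (1 / 2 : ℝ) ^ ((1 - η) / 2) := by linarith
    positivity
  set CA : ℝ := 4 * KH * (e2 / 8) ^ (-b) with hCA
  have hCA0 : 0 ≤ CA := by positivity
  set CB : ℝ := 4 * KH * (e4 / 2 / 8) ^ (-b) with hCB
  have hCB0 : 0 ≤ CB := by positivity
  refine ⟨CL + CA + CB + 8 * Cc + 2 * KH, by linarith, ?_⟩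
  intro τ hτ hτ1 w hw hw1 s x G R D hsum c hc0 hc1
  set σ : ℝ := τ ^ ((1 - η) / 3) with hσ
  have hσ0 : 0 < σ := Real.rpow_pos_of_pos hτ _
  -- lower bound for the potential terms
  have hterm_lb : -(w * KH) ≤ ∑ v ∈ s, ((c v / x v) ^ η - 1) * G v v := by
    by_cases h0 : 0 ∈ s
    · rw [← add_sum_erase s _ h0]
      have h1 := term_ge hη hη1 hw hw1 D h0 (hc0 0 h0)
      have h2 := mul_le_mul_of_nonneg_left (D.gdiag hη hKH h0) hw.le
      have h3 : 0 ≤ ∑ v ∈ s.erase 0, ((c v / x v) ^ η - 1) * G v v :=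
        sum_nonneg fun v hv => term_nonneg hη D (mem_of_mem_erase hv)
          (hc1 v (mem_of_mem_erase hv) (mem_erase.1 hv).1)
      linarith
    · have h3 : 0 ≤ ∑ v ∈ s, ((c v / x v) ^ η - 1) * G v v :=
        sum_nonneg fun v hv => term_nonneg hη D hv (hc1 v hv (fun h => h0 (h ▸ hv)))
      have : 0 ≤ w * KH := by positivity
      linarith
  rcases lt_or_ge w0 w with hww | hww
  · -- large w
    have h1 := case_large hη hη1 hKH hτ hτ1 hw hw1 D
    refine h1.trans (mul_le_mul_of_nonneg_left ?_ hσ0.le)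
    have h2 : 4 * KH / (1 - (1 / 2 : ℝ) ^ ((1 - η) / 2)) ≤
        4 * KH / (1 - (1 / 2 : ℝ) ^ ((1 - η) / 2)) / w0 * w := by
      rw [div_mul_eq_mul_div, le_div_iff₀ hw00]
      refine mul_le_mul_of_nonneg_left hww.le ?_
      have : 0 < 1 - (1 / 2 : ℝ) ^ ((1 - η) / 2) := by linarith
      positivity
    have h3 : (CL + CA + CB + 8 * Cc + 2 * KH) * w = KH * w
        + 4 * KH / (1 - (1 / 2 : ℝ) ^ ((1 - η) / 2)) / w0 * w
        + (CA + CB + 8 * Cc + 2 * KH) * w := by rw [hCL]; ring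
    have h4 : 0 ≤ (CA + CB + 8 * Cc + 2 * KH) * w := by positivity
    rw [h3]
    linarith
  · -- small w
    have hw8 : w ≤ 1 / 8 := hww.trans (min_le_left _ _)
    set ω : ℝ := w ^ ((1 - η) / 2) with hω
    have hω0 : 0 < ω := Real.rpow_pos_of_pos hw _
    have hωe : 8 * ω ≤ e0 := by
      have h1 : w ≤ (e0 / 8) ^ (2 / (1 - η)) := hww.trans (min_le_right _ _)
      have h2 : ω ≤ ((e0 / 8) ^ (2 / (1 - η))) ^ ((1 - η) / 2) :=
        Real.rpow_le_rpow hw.le h1 (by linarith)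
      rw [← Real.rpow_mul (by positivity)] at h2
      have h3 : 2 / (1 - η) * ((1 - η) / 2) = 1 := by field_simp
      rw [h3, Real.rpow_one] at h2
      linarith
    have hω2 : ω ≤ 1 / 2 := by
      have : e0 ≤ 4 := min_le_right _ _
      linarith
    have hωw : ω ^ (2 / (1 - η)) = w := by
      rw [hω, ← Real.rpow_mul hw.le]
      have h3 : (1 - η) / 2 * (2 / (1 - η)) = 1 := by field_simp
      rw [h3, Real.rpow_one]
    by_cases hbig : ∃ v0 ∈ s, 3 / 4 < x v0
    · obtain ⟨v0, hv0, hx0⟩ := hbig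
      have hsub : s.erase v0 ⊆ s := erase_subset _ _
      have De := D.mono hsub
      have hx1 : ∑ v ∈ s.erase v0, x v = 1 - x v0 := by
        have := add_sum_erase s x hv0
        linarith
      have hxs : ∀ v ∈ s.erase v0, x v ≤ 1 / 4 := by
        intro v hv
        have := single_le_sum (f := x) (fun u hu => D.x0 u (hsub hu)) hv
        linarith
      have h7 : ∀ v ∈ s, 7 / 8 ≤ c v := fun v hv => by linarith [hc0 v hv]
      -- potential terms
      have hT : e4 * ∑ v ∈ s.erase v0, x v ^ (-η) * G v v + (η * (1 - x v0) - 2 * w) * G v0 v0 ≤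
          ∑ v ∈ s, ((c v / x v) ^ η - 1) * G v v := by
        rw [← add_sum_erase s _ hv0, mul_sum, add_comm]
        refine add_le_add (term_big hη hη1 hw hw1 D hv0 (hc0 v0 hv0) hx0) (sum_le_sum fun v hv => ?_)
        have := term_small hη D (hsub hv) (h7 v (hsub hv)) (hxs v hv)
        rw [← he4] at this
        linarith
      -- block
      have hB := block hη hη1 hKH hτ hτ1 (e := e4 / 2) (by positivity) hω0 hω2
        (hωe.trans ((min_le_left _ _).trans (min_le_right _ _))) De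
      rw [hωw] at hB
      have hB2 : ∑ v ∈ s.erase v0, G v v ≤ ∑ v ∈ s.erase v0, x v ^ (-η) * G v v := by
        refine sum_le_sum fun v hv => ?_
        rcases (D.x0 v (hsub hv)).eq_or_lt with h0 | h0
        · rw [D.gzero hη (hsub hv) h0.symm]; simp
        · refine le_mul_of_one_le_left (D.g0 v (hsub hv) v (hsub hv)) ?_
          exact Real.one_le_rpow_of_pos_of_le_one_of_nonpos h0 (D.xle (hsub hv)) (by linarith)
      -- centre
      have hC : ∀ v ∈ s.erase v0, ω ^ (Nat.dist v v0) * (R v v0 + σ * G v v0)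
          + ω ^ (Nat.dist v0 v) * (R v0 v + σ * G v0 v) ≤
          σ * (2 * Cc * w ^ (Nat.dist v0 v) + (e4 / 2 * (x v ^ (-η) * G v v)
            + η * x v * G v0 v0)) := by
        intro v hv
        have hvs := hsub hv
        have hne := (mem_erase.1 hv).1
        have hdc : Nat.dist v v0 = Nat.dist v0 v := Nat.dist_comm _ _
        have hpw : ω ^ (Nat.dist v0 v) = (w ^ (Nat.dist v0 v)) ^ ((1 - η) / 2) := by
          rw [hω, ← Real.rpow_natCast, ← Real.rpow_natCast, ← Real.rpow_mul hw.le,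
            ← Real.rpow_mul hw.le]
          congr 1; ring
        have hx0le : x v0 ≤ 1 := D.xle hv0
        have hxv := D.x0 v hvs
        have hprod : ∀ y z : ℝ, 0 ≤ y → 0 ≤ z → z ≤ 1 →
            (y * z) ^ ((1 + η) / 2) ≤ y ^ ((1 + η) / 2) := fun y z hy hz hz1 =>
          Real.rpow_le_rpow (mul_nonneg hy hz) (by nlinarith) (by linarith)
        have hKH0 : 0 ≤ KH := by linarith
        have k1 := centre hη hη1 hKH hτ hτ1 (e' := e4 / 4) (h' := η / 2) (by positivity)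
          (by positivity) (W := w ^ (Nat.dist v0 v)) (y := x v) (g := G v v0) (gv := G v v)
          (g0 := G v0 v0) (r := R v v0) (by positivity) hxv (D.g0 v hvs v0 hv0)
          (D.g0 v hvs v hvs) (D.g0 v0 hv0 v0 hv0) (D.gg v hvs v0 hv0)
          ((D.gx v hvs v0 hv0).trans (mul_le_mul_of_nonneg_left
            (hprod _ _ hxv (by linarith) hx0le) hKH0))
          (D.r0 v hvs v0 hv0 hne) (D.rg v hvs v0 hv0 hne)
          ((D.rx v hvs v0 hv0 hne).trans (mul_le_mul_of_nonneg_left (mul_le_mul_of_nonneg_left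
            (hprod _ _ hxv (by linarith) hx0le) hKH0) hτ.le))
        have k2 := centre hη hη1 hKH hτ hτ1 (e' := e4 / 4) (h' := η / 2) (by positivity)
          (by positivity) (W := w ^ (Nat.dist v0 v)) (y := x v) (g := G v0 v) (gv := G v v)
          (g0 := G v0 v0) (r := R v0 v) (by positivity) hxv (D.g0 v0 hv0 v hvs)
          (D.g0 v hvs v hvs) (D.g0 v0 hv0 v0 hv0)
          (by have := D.gg v0 hv0 v hvs; linarith)
          ((D.gx v0 hv0 v hvs).trans (mul_le_mul_of_nonneg_left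
            (by rw [mul_comm]; exact hprod _ _ hxv (by linarith) hx0le) hKH0))
          (D.r0 v0 hv0 v hvs (Ne.symm hne)) (D.rg v0 hv0 v hvs (Ne.symm hne))
          ((D.rx v0 hv0 v hvs (Ne.symm hne)).trans (mul_le_mul_of_nonneg_left
            (mul_le_mul_of_nonneg_left
              (by rw [mul_comm]; exact hprod _ _ hxv (by linarith) hx0le) hKH0) hτ.le))
        rw [hdc, hpw]
        rw [← hb, ← hCc] at k1 k2
        calc _ ≤ _ := add_le_add k1 k2
          _ = _ := by ring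
      have hCs := sum_le_sum hC
      have hgeo : ∑ v ∈ s.erase v0, w ^ (Nat.dist v0 v) ≤ 4 * w := by
        have h1 := geom_row hw.le (by linarith : w < 1) (s.erase v0) v0
        have h2 : (∑ v ∈ s.erase v0, if v0 = v then (0 : ℝ) else w ^ (Nat.dist v0 v)) =
            ∑ v ∈ s.erase v0, w ^ (Nat.dist v0 v) :=
          sum_congr rfl fun v hv => if_neg (Ne.symm (mem_erase.1 hv).1)
        rw [h2] at h1
        have h3 : w / (1 - w) ≤ 2 * w := by
          rw [div_le_iff₀ (by linarith)]; nlinarith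
        linarith
      have hCs2 : ∑ v ∈ s.erase v0, σ * (2 * Cc * w ^ (Nat.dist v0 v)
          + (e4 / 2 * (x v ^ (-η) * G v v) + η * x v * G v0 v0)) =
          σ * (2 * Cc * ∑ v ∈ s.erase v0, w ^ (Nat.dist v0 v)
            + (e4 / 2 * ∑ v ∈ s.erase v0, x v ^ (-η) * G v v + η * (1 - x v0) * G v0 v0)) := by
        rw [← hx1, ← mul_sum, sum_add_distrib, sum_add_distrib, mul_sum, mul_sum, mul_sum, sum_mul]
      rw [hCs2] at hCs
      rw [off_erase hv0]
      have hG0 := mul_le_mul_of_nonneg_left (D.gdiag hη hKH hv0) (by positivity : (0 : ℝ) ≤ 2 * w)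
      have hfin : CB * w + e4 / 2 * ∑ v ∈ s.erase v0, G v v
          + (2 * Cc * ∑ v ∈ s.erase v0, w ^ (Nat.dist v0 v)
            + (e4 / 2 * ∑ v ∈ s.erase v0, x v ^ (-η) * G v v + η * (1 - x v0) * G v0 v0)) ≤
          (CL + CA + CB + 8 * Cc + 2 * KH) * w + ∑ v ∈ s, ((c v / x v) ^ η - 1) * G v v := by
        have h1 := mul_le_mul_of_nonneg_left hB2 (by positivity : (0 : ℝ) ≤ e4 / 2)
        have h2 := mul_le_mul_of_nonneg_left hgeo (by positivity : (0 : ℝ) ≤ 2 * Cc)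
        have h3 : 0 ≤ (CL + CA) * w := by
          have : 0 ≤ CL := by rw [hCL]; linarith
          positivity
        linarith
      calc _ ≤ σ * (CB * w + e4 / 2 * ∑ v ∈ s.erase v0, G v v)
          + σ * (2 * Cc * ∑ v ∈ s.erase v0, w ^ (Nat.dist v0 v)
            + (e4 / 2 * ∑ v ∈ s.erase v0, x v ^ (-η) * G v v + η * (1 - x v0) * G v0 v0)) :=
            add_le_add hB hCs
        _ = σ * (CB * w + e4 / 2 * ∑ v ∈ s.erase v0, G v v
          + (2 * Cc * ∑ v ∈ s.erase v0, w ^ (Nat.dist v0 v)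
            + (e4 / 2 * ∑ v ∈ s.erase v0, x v ^ (-η) * G v v + η * (1 - x v0) * G v0 v0))) := by
            ring
        _ ≤ _ := mul_le_mul_of_nonneg_left hfin hσ0.le
    · push Not at hbig
      have h7 : ∀ v ∈ s, 7 / 8 ≤ c v := fun v hv => by linarith [hc0 v hv]
      have hB := block hη hη1 hKH hτ hτ1 (e := e2) he20 hω0 hω2
        (hωe.trans ((min_le_left _ _).trans (min_le_left _ _))) D
      rw [hωw] at hB
      have hT : e2 * ∑ v ∈ s, G v v ≤ ∑ v ∈ s, ((c v / x v) ^ η - 1) * G v v := by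
        rw [mul_sum]
        exact sum_le_sum fun v hv => term_mid hη D hv (h7 v hv) (hbig v hv)
      refine hB.trans (mul_le_mul_of_nonneg_left ?_ hσ0.le)
      have h3 : 0 ≤ (CL + CB + 8 * Cc + 2 * KH) * w := by
        have : 0 ≤ CL := by rw [hCL]; linarith
        positivity
      linarith

end Crest.Agent.R4C.EffScx104
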