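import Crest.Agent.R4C.Base_935
import Crest.Agent.R4C.Psd_538
import Crest.Agent.R4C.EffSc_104

/-!
# Row 4: THEOREM EFF for general `M` (notes 2694, 2740, 2784), non-adaptive form (helper104)

Primes `> y` are read from the largest to the smallest; primes `≤ y` are never read.
`th b c = gcd (b_{≤z}) (c_{≤z}) * D(M_{≤z}, u ↦ f (b_{>z} u))`, `z = max y q`, `q` = largest prime
with different exponents in `b` and `c`.
-/

set_option autoImplicit false

open Finset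

namespace Crest.Agent.R4C.Effx104

open Basex935 Psdx538 EffScx104

/-- the scalar one-prime statement with a fixed constant -/
def Sc (η KH C1 : ℝ) : Prop :=
  ∀ τ : ℝ, 0 < τ → τ ≤ 1 → ∀ w : ℝ, 0 < w → w ≤ 1 / 2 →
      ∀ (s : Finset ℕ) (x : ℕ → ℝ) (G R : ℕ → ℕ → ℝ), Dat η KH τ s x G R →
      ∑ v ∈ s, x v = 1 → ∀ c : ℕ → ℝ, (∀ v ∈ s, 1 - w ≤ c v) → (∀ v ∈ s, v ≠ 0 → 1 ≤ c v) →
      off s (fun v v' => (w ^ ((1 - η) / 2)) ^ (Nat.dist v v') *
        (R v v' + τ ^ ((1 - η) / 3) * G v v')) ≤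
        τ ^ ((1 - η) / 3) * (C1 * w + ∑ v ∈ s, ((c v / x v) ^ η - 1) * G v v)

lemma sum_off (s : Finset ℕ) (F : ℕ → ℕ → ℝ) :
    ∑ v ∈ s, ∑ v' ∈ s, F v v' = ∑ v ∈ s, F v v + off s F := by
  unfold off
  rw [← sum_add_distrib]
  refine sum_congr rfl fun v hv => ?_
  rw [← add_sum_erase s _ hv, ← add_sum_erase s (fun v' => if v = v' then 0 else F v v') hv]
  rw [if_pos rfl, zero_add]
  congr 1
  refine sum_congr rfl fun v' hv' => ?_
  rw [if_neg (mem_erase.1 hv').1.symm]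

/-- one prime, real numbers only -/
lemma step_real {η KH C1 τ P D : ℝ} (hη : 0 < η) (hη1 : η < 1) (hKH : 1 ≤ KH)
    (hτ : 0 < τ) (hτ1 : τ ≤ 1) (hC1 : 1 ≤ C1) (hsc : Sc η KH C1) (hP : 2 ≤ P)
    (s : Finset ℕ) (nv lv Dv Sv : ℕ → ℝ) (H HK : ℕ → ℕ → ℝ)
    (hn0 : ∀ v ∈ s, 0 < nv v) (hn1 : ∀ v ∈ s, P ^ v * nv v ≤ 1) (hl1 : ∀ v ∈ s, 1 ≤ lv v)
    (hc0 : ∀ v ∈ s, 1 - 1 / P ≤ P ^ v * nv v * lv v)
    (hc1 : ∀ v ∈ s, v ≠ 0 → 1 ≤ P ^ v * nv v * lv v)
    (hdrop : ∀ v ∈ s, 1 / P * lv v ≤ lv v - P ^ v * nv v)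
    (hDv : ∀ v ∈ s, 0 ≤ Dv v) (hD : ∑ v ∈ s, nv v * lv v * Dv v = D) (hD0 : 0 < D)
    (hH0 : ∀ v ∈ s, ∀ v' ∈ s, 0 ≤ H v v')
    (hHg : ∀ v ∈ s, ∀ v' ∈ s, H v v' ^ 2 ≤ H v v * H v' v')
    (hHx : ∀ v ∈ s, ∀ v' ∈ s, H v v' ≤ KH * (Dv v * Dv v') ^ ((1 + η) / 2))
    (hK0 : ∀ v ∈ s, ∀ v' ∈ s, v ≠ v' → 0 ≤ HK v v')
    (hKg : ∀ v ∈ s, ∀ v' ∈ s, v ≠ v' → HK v v' ≤ H v v')
    (hKx : ∀ v ∈ s, ∀ v' ∈ s, v ≠ v' → HK v v' ≤ τ * (KH * (Dv v * Dv v') ^ ((1 + η) / 2)))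
    (hS : ∀ v ∈ s, Sv v ≤ τ ^ ((1 - η) / 3) * (C1 * Dv v - Dv v ^ (-η) * H v v)) :
    ∑ v ∈ s, P ^ v * nv v * nv v * Sv v
      + D ^ (-η) * off s (fun v v' => P ^ ((1 - η) * ((min v v' : ℕ) : ℝ)) * nv v * nv v' * HK v v')
      ≤ τ ^ ((1 - η) / 3) * (C1 * D - D ^ (-η) *
        (∑ v ∈ s, P ^ ((1 - η) * (v : ℝ)) * nv v * nv v * H v v
          + off s (fun v v' => P ^ ((1 - η) * ((min v v' : ℕ) : ℝ)) * nv v * nv v' * H v v'))) := by
  have hP0 : 0 < P := by linarith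
  set σ : ℝ := τ ^ ((1 - η) / 3) with hσ
  have hσ0 : 0 < σ := Real.rpow_pos_of_pos hτ _
  set w : ℝ := 1 / P with hw
  have hw0 : 0 < w := by positivity
  have hw2 : w ≤ 1 / 2 := by
    rw [hw]; exact one_div_le_one_div_of_le (by norm_num) hP
  -- shares
  set x : ℕ → ℝ := fun v => nv v * lv v * Dv v / D with hx
  set cf : ℕ → ℕ → ℝ := fun v v' => D ^ (-(1 + η)) *
    (P ^ ((1 - η) / 2 * (v : ℝ)) * nv v * (P ^ ((1 - η) / 2 * (v' : ℝ)) * nv v')) with hcf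
  set G : ℕ → ℕ → ℝ := fun v v' => cf v v' * H v v' with hG
  set R : ℕ → ℕ → ℝ := fun v v' => cf v v' * HK v v' with hR
  set c : ℕ → ℝ := fun v => P ^ v * nv v * lv v with hc
  have hcf0 : ∀ v ∈ s, ∀ v' ∈ s, 0 < cf v v' := by
    intro v hv v' hv'
    have h1 := hn0 v hv
    have h2 := hn0 v' hv'
    rw [hcf]
    positivity
  have hx0 : ∀ v ∈ s, 0 ≤ x v := by
    intro v hv
    have h1 := hn0 v hv
    have h2 := hl1 v hv
    have h3 := hDv v hv
    rw [hx]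
    positivity
  have hxs : ∑ v ∈ s, x v = 1 := by
    rw [hx]
    simp only
    rw [← sum_div, hD, div_self hD0.ne']
  -- the factor bound
  have hfac : ∀ v ∈ s, P ^ ((1 - η) / 2 * (v : ℝ)) * nv v ≤ (nv v * lv v) ^ ((1 + η) / 2) := by
    intro v hv
    have h1 := hn0 v hv
    have h2 := hl1 v hv
    have h3 := hn1 v hv
    have e1 : P ^ ((1 - η) / 2 * (v : ℝ)) = (P ^ v) ^ ((1 - η) / 2) := by
      rw [mul_comm, Real.rpow_mul hP0.le, Real.rpow_natCast]
    have e2 : nv v = nv v ^ ((1 - η) / 2) * nv v ^ ((1 + η) / 2) := by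
      rw [← Real.rpow_add h1]
      have : (1 - η) / 2 + (1 + η) / 2 = 1 := by ring
      rw [this, Real.rpow_one]
    calc P ^ ((1 - η) / 2 * (v : ℝ)) * nv v
        = (P ^ v) ^ ((1 - η) / 2) * (nv v ^ ((1 - η) / 2) * nv v ^ ((1 + η) / 2)) := by
          rw [e1, ← e2]
      _ = (P ^ v * nv v) ^ ((1 - η) / 2) * nv v ^ ((1 + η) / 2) := by
          rw [Real.mul_rpow (by positivity) h1.le]; ring
      _ ≤ 1 * (nv v * lv v) ^ ((1 + η) / 2) := by
          refine mul_le_mul (Real.rpow_le_one (by positivity) h3 (by linarith)) ?_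
            (by positivity) zero_le_one
          refine Real.rpow_le_rpow h1.le ?_ (by linarith)
          nlinarith
      _ = _ := one_mul _
  have hgx : ∀ v ∈ s, ∀ v' ∈ s, ∀ h B : ℝ, 0 ≤ B → h ≤ B * (KH * (Dv v * Dv v') ^ ((1 + η) / 2)) →
      cf v v' * h ≤ B * (KH * (x v * x v') ^ ((1 + η) / 2)) := by
    intro v hv v' hv' h B hB hh
    have h1 := hn0 v hv
    have h2 := hl1 v hv
    have h3 := hDv v hv
    have h1' := hn0 v' hv'
    have h2' := hl1 v' hv'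
    have h3' := hDv v' hv'
    have hL : 0 ≤ nv v * lv v := by positivity
    have hL' : 0 ≤ nv v' * lv v' := by positivity
    have e1 : (x v * x v') ^ ((1 + η) / 2) = D ^ (-(1 + η)) *
        ((nv v * lv v) ^ ((1 + η) / 2) * (nv v' * lv v') ^ ((1 + η) / 2)) *
          (Dv v * Dv v') ^ ((1 + η) / 2) := by
      have e0 : x v * x v' = ((nv v * lv v) * (nv v' * lv v') * (Dv v * Dv v')) * (D ^ 2)⁻¹ := by
        rw [hx]; field_simp
      have e3 : ((D ^ 2)⁻¹) ^ ((1 + η) / 2) = D ^ (-(1 + η)) := by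
        rw [← Real.rpow_natCast, ← Real.rpow_neg hD0.le, ← Real.rpow_mul hD0.le]
        congr 1
        push_cast
        ring
      rw [e0, Real.mul_rpow (by positivity) (by positivity), Real.mul_rpow (by positivity)
        (by positivity), Real.mul_rpow hL hL', e3]
      ring
    calc cf v v' * h ≤ cf v v' * (B * (KH * (Dv v * Dv v') ^ ((1 + η) / 2))) :=
          mul_le_mul_of_nonneg_left hh (hcf0 v hv v' hv').le
      _ ≤ (D ^ (-(1 + η)) * ((nv v * lv v) ^ ((1 + η) / 2) * (nv v' * lv v') ^ ((1 + η) / 2))) *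
            (B * (KH * (Dv v * Dv v') ^ ((1 + η) / 2))) := by
          refine mul_le_mul_of_nonneg_right ?_ (by positivity)
          rw [hcf]
          refine mul_le_mul_of_nonneg_left ?_ (by positivity)
          exact mul_le_mul (hfac v hv) (hfac v' hv') (by positivity) (by positivity)
      _ = _ := by rw [e1]; ring
  have hdat : Dat η KH τ s x G R := by
    refine ⟨hx0, hxs.le, ?_, ?_, ?_, ?_, ?_, ?_⟩
    · intro v hv v' hv'
      exact mul_nonneg (hcf0 v hv v' hv').le (hH0 v hv v' hv')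
    · intro v hv v' hv'
      have h1 := hHg v hv v' hv'
      have e1 : G v v' ^ 2 = cf v v' ^ 2 * H v v' ^ 2 := by rw [hG]; ring
      have e2 : G v v * G v' v' = cf v v' ^ 2 * (H v v * H v' v') := by rw [hG, hcf]; ring
      rw [e1, e2]
      exact mul_le_mul_of_nonneg_left h1 (sq_nonneg _)
    · intro v hv v' hv'
      have := hgx v hv v' hv' (H v v') 1 zero_le_one (by rw [one_mul]; exact hHx v hv v' hv')
      rw [one_mul] at this
      exact this
    · intro v hv v' hv' hne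
      exact mul_nonneg (hcf0 v hv v' hv').le (hK0 v hv v' hv' hne)
    · intro v hv v' hv' hne
      exact mul_le_mul_of_nonneg_left (hKg v hv v' hv' hne) (hcf0 v hv v' hv').le
    · intro v hv v' hv' hne
      exact hgx v hv v' hv' (HK v v') τ hτ.le (hKx v hv v' hv' hne)
  have hmain := hsc τ hτ hτ1 w hw0 hw2 s x G R hdat hxs c hc0 hc1
  -- rewrite the off diagonal part
  have hpw : ∀ v v' : ℕ, (w ^ ((1 - η) / 2)) ^ (Nat.dist v v') *
      (P ^ ((1 - η) / 2 * (v : ℝ)) * P ^ ((1 - η) / 2 * (v' : ℝ)))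
      = P ^ ((1 - η) * ((min v v' : ℕ) : ℝ)) := by
    intro v v'
    have e1 : (w ^ ((1 - η) / 2)) ^ (Nat.dist v v') = P ^ (-((1 - η) / 2 * (Nat.dist v v' : ℝ))) := by
      rw [hw, one_div, Real.inv_rpow hP0.le, ← Real.rpow_neg hP0.le, ← Real.rpow_natCast,
        ← Real.rpow_mul hP0.le]
      congr 1; ring
    rw [e1, ← Real.rpow_add hP0, ← Real.rpow_add hP0]
    congr 1
    rcases le_total v v' with h | h
    · rw [min_eq_left h, Nat.dist_eq_sub_of_le h, Nat.cast_sub h]; ring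
    · rw [min_eq_right h, Nat.dist_comm, Nat.dist_eq_sub_of_le h, Nat.cast_sub h]; ring
  have hDD : D * D ^ (-(1 + η)) = D ^ (-η) := by
    have : D * D ^ (-(1 + η)) = D ^ (1 : ℝ) * D ^ (-(1 + η)) := by rw [Real.rpow_one]
    rw [this, ← Real.rpow_add hD0]
    congr 1; ring
  have hoff : D * off s (fun v v' => (w ^ ((1 - η) / 2)) ^ (Nat.dist v v') *
        (R v v' + σ * G v v')) =
      D ^ (-η) * off s (fun v v' => P ^ ((1 - η) * ((min v v' : ℕ) : ℝ)) * nv v * nv v' * HK v v')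
      + σ * (D ^ (-η) *
        off s (fun v v' => P ^ ((1 - η) * ((min v v' : ℕ) : ℝ)) * nv v * nv v' * H v v')) := by
    rw [← off_smul, ← off_smul, ← off_smul, ← off_smul, ← off_add]
    congr 1
    funext v v'
    rw [hR, hG, hcf, ← hDD, ← hpw v v']
    ring
  have hdiag : D * ∑ v ∈ s, ((c v / x v) ^ η - 1) * G v v =
      ∑ v ∈ s, P ^ v * nv v * nv v * (Dv v ^ (-η) * H v v)
      - D ^ (-η) * ∑ v ∈ s, P ^ ((1 - η) * (v : ℝ)) * nv v * nv v * H v v := by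
    rw [mul_sum, mul_sum, ← sum_sub_distrib]
    refine sum_congr rfl fun v hv => ?_
    have h1 := hn0 v hv
    have h2 := hl1 v hv
    have h2' : 0 < lv v := by linarith
    have ePP : P ^ ((1 - η) / 2 * (v : ℝ)) * P ^ ((1 - η) / 2 * (v : ℝ)) =
        P ^ ((1 - η) * (v : ℝ)) := by
      rw [← Real.rpow_add hP0]; congr 1; ring
    rcases (hDv v hv).eq_or_lt with h0 | h0
    · have hH : H v v = 0 := by
        refine le_antisymm ?_ (hH0 v hv v hv)
        have := hHx v hv v hv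
        rw [← h0, mul_zero, Real.zero_rpow (by linarith : (1 + η) / 2 ≠ 0), mul_zero] at this
        exact this
      rw [hG]
      simp only
      rw [hH]
      ring
    · have e1 : c v / x v = P ^ v * (D * (Dv v)⁻¹) := by
        rw [hc, hx]
        field_simp
      have e2 : (c v / x v) ^ η = P ^ (η * (v : ℝ)) * (D ^ η * Dv v ^ (-η)) := by
        rw [e1, Real.mul_rpow (by positivity) (by positivity), Real.mul_rpow (by positivity)
          (by positivity), Real.rpow_neg h0.le, Real.inv_rpow h0.le, mul_comm η,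
          Real.rpow_mul hP0.le, Real.rpow_natCast]
      have e3 : P ^ (η * (v : ℝ)) * P ^ ((1 - η) * (v : ℝ)) = P ^ v := by
        rw [← Real.rpow_add hP0, ← Real.rpow_natCast P v]; congr 1; ring
      have e4 : D ^ η * D ^ (-η) = 1 := by
        rw [← Real.rpow_add hD0]; simp
      rw [e2, hG, hcf]
      simp only
      calc D * ((P ^ (η * (v : ℝ)) * (D ^ η * Dv v ^ (-η)) - 1) *
            (D ^ (-(1 + η)) * (P ^ ((1 - η) / 2 * (v : ℝ)) * nv v *
              (P ^ ((1 - η) / 2 * (v : ℝ)) * nv v)) * H v v))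
          = (P ^ (η * (v : ℝ)) * (D ^ η * Dv v ^ (-η)) - 1) * ((D * D ^ (-(1 + η))) *
            (P ^ ((1 - η) / 2 * (v : ℝ)) * P ^ ((1 - η) / 2 * (v : ℝ))) * nv v * nv v * H v v) := by
            ring
        _ = (P ^ (η * (v : ℝ)) * (D ^ η * Dv v ^ (-η)) - 1) * (D ^ (-η) *
            P ^ ((1 - η) * (v : ℝ)) * nv v * nv v * H v v) := by rw [hDD, ePP]
        _ = (P ^ (η * (v : ℝ)) * P ^ ((1 - η) * (v : ℝ))) * (D ^ η * D ^ (-η)) *
              nv v * nv v * (Dv v ^ (-η) * H v v)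
            - D ^ (-η) * (P ^ ((1 - η) * (v : ℝ)) * nv v * nv v * H v v) := by ring
        _ = _ := by rw [e3, e4]; ring
  -- drop
  have hdr : ∑ v ∈ s, P ^ v * nv v * nv v * Dv v + w * D ≤ D := by
    have e : ∑ v ∈ s, P ^ v * nv v * nv v * Dv v + w * D =
        ∑ v ∈ s, (P ^ v * nv v + w * lv v) * (nv v * Dv v) := by
      rw [← hD, mul_sum, ← sum_add_distrib]
      refine sum_congr rfl fun v _ => by ring
    rw [e, ← hD]
    refine sum_le_sum fun v hv => ?_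
    have h1 := hdrop v hv
    have h2 : 0 ≤ nv v * Dv v := mul_nonneg (hn0 v hv).le (hDv v hv)
    have h3 : P ^ v * nv v + w * lv v ≤ lv v := by linarith
    calc (P ^ v * nv v + w * lv v) * (nv v * Dv v) ≤ lv v * (nv v * Dv v) :=
          mul_le_mul_of_nonneg_right h3 h2
      _ = _ := by ring
  have hSs : ∑ v ∈ s, P ^ v * nv v * nv v * Sv v ≤
      σ * (C1 * ∑ v ∈ s, P ^ v * nv v * nv v * Dv v
        - ∑ v ∈ s, P ^ v * nv v * nv v * (Dv v ^ (-η) * H v v)) := by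
    rw [mul_sum, ← sum_sub_distrib, mul_sum]
    refine sum_le_sum fun v hv => ?_
    have h1 := hn0 v hv
    have h2 : 0 ≤ P ^ v * nv v * nv v := by positivity
    calc P ^ v * nv v * nv v * Sv v ≤ P ^ v * nv v * nv v *
          (σ * (C1 * Dv v - Dv v ^ (-η) * H v v)) := mul_le_mul_of_nonneg_left (hS v hv) h2
      _ = _ := by ring
  have hm2 := mul_le_mul_of_nonneg_left hmain hD0.le
  rw [hoff] at hm2
  have hm3 : D * (σ * (C1 * w + ∑ v ∈ s, ((c v / x v) ^ η - 1) * G v v)) =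
      σ * (C1 * (w * D) + (∑ v ∈ s, P ^ v * nv v * nv v * (Dv v ^ (-η) * H v v)
      - D ^ (-η) * ∑ v ∈ s, P ^ ((1 - η) * (v : ℝ)) * nv v * nv v * H v v)) := by
    rw [← hdiag]; ring
  rw [hm3] at hm2
  have h5 : σ * C1 * (∑ v ∈ s, P ^ v * nv v * nv v * Dv v + w * D) ≤ σ * C1 * D :=
    mul_le_mul_of_nonneg_left hdr (by positivity)
  have h6 : σ * (C1 * D - D ^ (-η) *
        (∑ v ∈ s, P ^ ((1 - η) * (v : ℝ)) * nv v * nv v * H v v
          + off s (fun v v' => P ^ ((1 - η) * ((min v v' : ℕ) : ℝ)) * nv v * nv v' * H v v')))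
      = σ * C1 * D - σ * (D ^ (-η) * ∑ v ∈ s, P ^ ((1 - η) * (v : ℝ)) * nv v * nv v * H v v)
        - σ * (D ^ (-η) *
        off s (fun v v' => P ^ ((1 - η) * ((min v v' : ℕ) : ℝ)) * nv v * nv v' * H v v')) := by
    ring
  rw [h6]
  nlinarith [hSs, hm2, h5]


/-! ### number-theoretic layer -/

/-- anatomy weight -/
noncomputable def al (lam : ℕ → ℝ) (b : ℕ) : ℝ := ∏ p ∈ b.primeFactors, lam p

/-- weighted mass `D(M,f)` -/
noncomputable def Dl (lam : ℕ → ℝ) (M : ℕ) (f : ℕ → ℝ) : ℝ :=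
  ∑ b ∈ M.divisors, nu M b * al lam b * f b

/-- part of `n` in the primes `≤ z` -/
def lo (z n : ℕ) : ℕ := n.factorization.prod fun p k => if p ≤ z then p ^ k else 1

/-- part of `n` in the primes `> z` -/
def hi (z n : ℕ) : ℕ := n.factorization.prod fun p k => if p ≤ z then 1 else p ^ k

/-- largest prime with different exponents in `b` and `c` (`0` if there is none) -/
def tpn (b c : ℕ) : ℕ := (Finsupp.neLocus b.factorization c.factorization).sup id

lemma lo_mul (z : ℕ) {m n : ℕ} (hm : m ≠ 0) (hn : n ≠ 0) : lo z (m * n) = lo z m * lo z n := by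
  unfold lo
  rw [Nat.factorization_mul hm hn]
  refine Finsupp.prod_add_index' (fun p => by simp) (fun p a b => ?_)
  split_ifs
  · rw [pow_add]
  · rfl

lemma hi_mul (z : ℕ) {m n : ℕ} (hm : m ≠ 0) (hn : n ≠ 0) : hi z (m * n) = hi z m * hi z n := by
  unfold hi
  rw [Nat.factorization_mul hm hn]
  refine Finsupp.prod_add_index' (fun p => by simp) (fun p a b => ?_)
  split_ifs
  · rfl
  · rw [pow_add]

lemma lo_mul_hi (z : ℕ) {n : ℕ} (hn : n ≠ 0) : lo z n * hi z n = n := by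
  unfold lo hi
  rw [← Finsupp.prod_mul]
  conv_rhs => rw [← Nat.prod_factorization_pow_eq_self hn]
  refine Finsupp.prod_congr fun p _ => ?_
  split_ifs <;> simp

lemma lo_prime_pow {z p : ℕ} (hp : p.Prime) (h : z < p) (v : ℕ) : lo z (p ^ v) = 1 := by
  unfold lo
  rw [hp.factorization_pow, Finsupp.prod_single_index (by simp), if_neg (by omega)]

lemma hi_prime_pow {z p : ℕ} (hp : p.Prime) (h : z < p) (v : ℕ) : hi z (p ^ v) = p ^ v := by
  unfold hi
  rw [hp.factorization_pow, Finsupp.prod_single_index (by simp), if_neg (by omega)]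

lemma lo_self {z n : ℕ} (hn : n ≠ 0) (h : ∀ r, r.Prime → r ∣ n → r ≤ z) : lo z n = n := by
  unfold lo
  conv_rhs => rw [← Nat.prod_factorization_pow_eq_self hn]
  refine Finsupp.prod_congr fun p hp => ?_
  rw [Nat.support_factorization] at hp
  rw [if_pos (h p (Nat.prime_of_mem_primeFactors hp) (Nat.dvd_of_mem_primeFactors hp))]

lemma hi_one {z n : ℕ} (h : ∀ r, r.Prime → r ∣ n → r ≤ z) : hi z n = 1 := by
  unfold hi
  rw [Finsupp.prod]
  refine Finset.prod_eq_one fun p hp => ?_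
  rw [Nat.support_factorization] at hp
  rw [if_pos (h p (Nat.prime_of_mem_primeFactors hp) (Nat.dvd_of_mem_primeFactors hp))]

lemma tpn_mul {m b c : ℕ} (hm : m ≠ 0) (hb : b ≠ 0) (hc : c ≠ 0) :
    tpn (m * b) (m * c) = tpn b c := by
  unfold tpn
  rw [Nat.factorization_mul hm hb, Nat.factorization_mul hm hc, Finsupp.neLocus_add_left]

lemma fac_ne {b p : ℕ} (h : b.factorization p ≠ 0) : p.Prime ∧ p ∣ b :=
  ⟨by
    by_contra hc
    exact h (Nat.factorization_eq_zero_of_not_prime b hc), Nat.dvd_of_factorization_pos h⟩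

lemma tpn_lt {p b c : ℕ} (hp : 0 < p) (hb : ∀ r, r.Prime → r ∣ b → r < p)
    (hc : ∀ r, r.Prime → r ∣ c → r < p) : tpn b c < p := by
  unfold tpn
  rw [Finset.sup_lt_iff (by simpa using hp)]
  intro q hq
  rw [Finsupp.mem_neLocus] at hq
  by_cases h : b.factorization q = 0
  · have h2 : c.factorization q ≠ 0 := fun h3 => hq (by rw [h, h3])
    exact hc q (fac_ne h2).1 (fac_ne h2).2
  · exact hb q (fac_ne h).1 (fac_ne h).2

lemma tpn_eq {p b c v v' : ℕ} (hp : p.Prime) (hb0 : b ≠ 0) (hc0 : c ≠ 0)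
    (hb : ∀ r, r.Prime → r ∣ b → r < p)
    (hc : ∀ r, r.Prime → r ∣ c → r < p) (hv : v ≠ v') : tpn (p ^ v * b) (p ^ v' * c) = p := by
  have hbp : b.factorization p = 0 :=
    Nat.factorization_eq_zero_of_not_dvd fun h => lt_irrefl p (hb p hp h)
  have hcp : c.factorization p = 0 :=
    Nat.factorization_eq_zero_of_not_dvd fun h => lt_irrefl p (hc p hp h)
  unfold tpn
  rw [Nat.factorization_mul (pow_ne_zero _ hp.ne_zero) hb0,
    Nat.factorization_mul (pow_ne_zero _ hp.ne_zero) hc0, hp.factorization_pow,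
    hp.factorization_pow]
  refine le_antisymm (Finset.sup_le ?_) (Finset.le_sup (f := id) ?_)
  · intro q hq
    rw [Finsupp.mem_neLocus] at hq
    simp only [Finsupp.add_apply] at hq
    by_cases hqp : q = p
    · rw [hqp]; rfl
    · rw [Finsupp.single_eq_of_ne hqp, Finsupp.single_eq_of_ne hqp] at hq
      by_cases h : b.factorization q = 0
      · have h2 : c.factorization q ≠ 0 := fun h3 => hq (by rw [h, h3])
        exact (hc q (fac_ne h2).1 (fac_ne h2).2).le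
      · exact (hb q (fac_ne h).1 (fac_ne h).2).le
  · rw [Finsupp.mem_neLocus]
    simp only [Finsupp.add_apply, Finsupp.single_eq_same, hbp, hcp, add_zero]
    exact hv

/-- `θ(b,c)` -/
noncomputable def th (lam : ℕ → ℝ) (y M : ℕ) (f : ℕ → ℝ) (b c : ℕ) : ℝ :=
  (Nat.gcd (lo (max y (tpn b c)) b) (lo (max y (tpn b c)) c) : ℝ) *
    Dl lam (lo (max y (tpn b c)) M) (fun u => f (hi (max y (tpn b c)) b * u))

/-- the weighted energy -/
noncomputable def SE (η : ℝ) (lam : ℕ → ℝ) (y M : ℕ) (f : ℕ → ℝ) (K : ℕ → ℕ → ℝ) : ℝ :=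
  frm M fun b c => f b * f c * K b c * (th lam y M f b c) ^ (-η)

variable {η KH τ : ℝ} {lam : ℕ → ℝ} {y : ℕ}

/-- `θ` of two words with the same letter at the largest prime -/
lemma th_same {p a M1 v b c : ℕ} (hp : p.Prime) (hy : y < p) (hM1 : 0 < M1)
    (hlt : ∀ r, r.Prime → r ∣ M1 → r < p) (f : ℕ → ℝ) (hb : b ∣ M1) (hc : c ∣ M1) :
    th lam y (p ^ a * M1) f (p ^ v * b) (p ^ v * c) = th lam y M1 (fun u => f (p ^ v * u)) b c := by
  have hb0 : b ≠ 0 := (Nat.pos_of_dvd_of_pos hb hM1).ne'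
  have hc0 : c ≠ 0 := (Nat.pos_of_dvd_of_pos hc hM1).ne'
  have hpv : p ^ v ≠ 0 := pow_ne_zero _ hp.ne_zero
  have hpa : p ^ a ≠ 0 := pow_ne_zero _ hp.ne_zero
  have ht : tpn b c < p := tpn_lt hp.pos (fun r hr h => hlt r hr (h.trans hb))
    (fun r hr h => hlt r hr (h.trans hc))
  have hz : max y (tpn b c) < p := max_lt hy ht
  unfold th
  rw [tpn_mul hpv hb0 hc0, lo_mul _ hpv hb0, lo_mul _ hpv hc0, lo_mul _ hpa hM1.ne',
    hi_mul _ hpv hb0, lo_prime_pow hp hz, lo_prime_pow hp hz, hi_prime_pow hp hz, one_mul, one_mul,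
    one_mul]
  simp only [mul_assoc]

/-- `θ` of two words with different letters at the largest prime -/
lemma th_diff {p a M1 v v' b c : ℕ} (hp : p.Prime) (_hy : y < p) (hM1 : 0 < M1)
    (hlt : ∀ r, r.Prime → r ∣ M1 → r < p) (f : ℕ → ℝ) (hb : b ∣ M1) (hc : c ∣ M1) (hv : v ≠ v') :
    th lam y (p ^ a * M1) f (p ^ v * b) (p ^ v' * c) =
      ((p : ℝ) ^ (min v v') * Nat.gcd b c) * Dl lam (p ^ a * M1) f := by
  have hb0 : b ≠ 0 := (Nat.pos_of_dvd_of_pos hb hM1).ne'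
  have hc0 : c ≠ 0 := (Nat.pos_of_dvd_of_pos hc hM1).ne'
  have hnb : ¬ p ∣ b := fun h => lt_irrefl p (hlt p hp (h.trans hb))
  have hnc : ¬ p ∣ c := fun h => lt_irrefl p (hlt p hp (h.trans hc))
  have hpw : ∀ u, p ^ u ≠ 0 := fun u => pow_ne_zero _ hp.ne_zero
  have hlp : ∀ (u n : ℕ), n ∣ M1 → ∀ r, r.Prime → r ∣ p ^ u * n → r ≤ max y p := by
    intro u n hn r hr hrd
    rcases (Nat.Prime.dvd_mul hr).1 hrd with h | h
    · exact (((Nat.prime_dvd_prime_iff_eq hr hp).1 (hr.dvd_of_dvd_pow h)).le).trans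
        (le_max_right _ _)
    · exact ((hlt r hr (h.trans hn)).le).trans (le_max_right _ _)
  unfold th
  rw [tpn_eq hp hb0 hc0 (fun r hr h => hlt r hr (h.trans hb)) (fun r hr h => hlt r hr (h.trans hc))
    hv, lo_self (mul_ne_zero (hpw v) hb0) (hlp v b hb),
    lo_self (mul_ne_zero (hpw v') hc0) (hlp v' c hc),
    lo_self (mul_ne_zero (hpw a) hM1.ne') (hlp a M1 dvd_rfl), hi_one (hlp v b hb),
    gcd_split hp v v' hnb hnc]
  simp only [one_mul]
  push_cast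
  ring

/-- `θ` when nothing is read -/
lemma th_base {M b c : ℕ} (hM : 0 < M) (hy : ∀ r, r.Prime → r ∣ M → r ≤ y) (f : ℕ → ℝ)
    (hb : b ∣ M) (hc : c ∣ M) : th lam y M f b c = Nat.gcd b c * Dl lam M f := by
  have hb0 : b ≠ 0 := (Nat.pos_of_dvd_of_pos hb hM).ne'
  have hc0 : c ≠ 0 := (Nat.pos_of_dvd_of_pos hc hM).ne'
  have h : ∀ z n, n ∣ M → ∀ r, r.Prime → r ∣ n → r ≤ max y z := fun z n hn r hr hrd =>
    (hy r hr (hrd.trans hn)).trans (le_max_left _ _)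
  unfold th
  rw [lo_self hb0 (h _ b hb), lo_self hc0 (h _ c hc), lo_self hM.ne' (h _ M dvd_rfl),
    hi_one (h _ b hb)]
  simp only [one_mul]

lemma al_mul {p v b : ℕ} (hp : p.Prime) (hb : ¬ p ∣ b) (hb0 : b ≠ 0) :
    al lam (p ^ v * b) = (if v = 0 then 1 else lam p) * al lam b := by
  unfold al
  by_cases hv : v = 0
  · rw [hv, pow_zero, one_mul, if_pos rfl, one_mul]
  · rw [if_neg hv, Nat.primeFactors_mul (pow_ne_zero _ hp.ne_zero) hb0,
      Nat.primeFactors_prime_pow hv hp, Finset.prod_union, Finset.prod_singleton]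
    rw [Finset.disjoint_singleton_left]
    intro h
    exact hb (Nat.dvd_of_mem_primeFactors h)

/-- splitting of the mass -/
lemma Dl_split {p : ℕ} (hp : p.Prime) (a : ℕ) {M1 : ℕ} (hM : 0 < M1) (h : ¬ p ∣ M1) (f : ℕ → ℝ) :
    Dl lam (p ^ a * M1) f = ∑ v ∈ range (a + 1), nup p a v * (if v = 0 then 1 else lam p) *
      Dl lam M1 (fun u => f (p ^ v * u)) := by
  have hcop : Nat.Coprime (p ^ a) M1 :=
    Nat.Coprime.pow_left a ((Nat.Prime.coprime_iff_not_dvd hp).2 h)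
  unfold Dl
  rw [sum_split hp a hM h]
  refine Finset.sum_congr rfl fun v hv => ?_
  rw [Finset.mem_range] at hv
  rw [Finset.mul_sum]
  refine Finset.sum_congr rfl fun b hb => ?_
  rw [Nat.mem_divisors] at hb
  have hb0 : b ≠ 0 := (Nat.pos_of_dvd_of_pos hb.1 hM).ne'
  rw [nu_mul hcop (pow_dvd_pow p (by omega)) hb.1, nu_prime_pow hp (by omega),
    al_mul hp (fun hc => h (hc.trans hb.1)) hb0]
  ring

lemma al_nonneg (hlam : ∀ p, 0 ≤ lam p) (b : ℕ) : 0 ≤ al lam b :=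
  Finset.prod_nonneg fun p _ => hlam p

lemma Dl_nonneg (hlam : ∀ p, 0 ≤ lam p) (M : ℕ) {f : ℕ → ℝ} (hf : ∀ b, 0 ≤ f b) :
    0 ≤ Dl lam M f :=
  Finset.sum_nonneg fun b _ => mul_nonneg (mul_nonneg (nu_nonneg _ _) (al_nonneg hlam b)) (hf b)

lemma frk_nonneg (κ : ℝ) (M : ℕ) {F : ℕ → ℕ → ℝ} (hF : ∀ b c, 0 ≤ F b c) : 0 ≤ frk κ M F :=
  Finset.sum_nonneg fun b _ => Finset.sum_nonneg fun c _ =>
    mul_nonneg (mul_nonneg (mul_nonneg (Real.rpow_nonneg (Nat.cast_nonneg _) _) (nu_nonneg _ _))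
      (nu_nonneg _ _)) (hF b c)

lemma frk_mono (κ : ℝ) (M : ℕ) {F F' : ℕ → ℕ → ℝ} (hF : ∀ b c, F b c ≤ F' b c) :
    frk κ M F ≤ frk κ M F' :=
  Finset.sum_le_sum fun b _ => Finset.sum_le_sum fun c _ =>
    mul_le_mul_of_nonneg_left (hF b c)
      (mul_nonneg (mul_nonneg (Real.rpow_nonneg (Nat.cast_nonneg _) _) (nu_nonneg _ _))
      (nu_nonneg _ _))

/-- relation hypothesis at the nodes -/
def HKnode (η KH τ : ℝ) (lam : ℕ → ℝ) (y M : ℕ) (f : ℕ → ℝ) (K : ℕ → ℕ → ℝ) : Prop :=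
  ∀ T0 q a M2 : ℕ, q.Prime → y < q → M = T0 * (q ^ a * M2) → ¬ q ∣ M2 →
    (∀ r, r.Prime → r ∣ M2 → r < q) → (∀ r, r.Prime → r ∣ T0 → q < r) →
    ∀ T, T ∣ T0 → ∀ v, v ≤ a → ∀ v', v' ≤ a → v ≠ v' →
      frk (1 - η) M2 (fun b c => f (T * (q ^ v * b)) * f (T * (q ^ v' * c)) *
          K (T * (q ^ v * b)) (T * (q ^ v' * c))) ≤
        τ * (KH * (Dl lam M2 (fun u => f (T * (q ^ v * u))) *
          Dl lam M2 (fun u => f (T * (q ^ v' * u)))) ^ ((1 + η) / 2))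

/-- relation hypothesis at the leaves -/
def HKleaf (η KH τ : ℝ) (lam : ℕ → ℝ) (y M : ℕ) (f : ℕ → ℝ) (K : ℕ → ℕ → ℝ) : Prop :=
  ∀ T0 M2 : ℕ, M = T0 * M2 → (∀ r, r.Prime → r ∣ M2 → r ≤ y) →
    (∀ r, r.Prime → r ∣ T0 → y < r) → ∀ T, T ∣ T0 →
      frk (1 - η) M2 (fun b c => f (T * b) * f (T * c) * K (T * b) (T * c)) ≤
        τ * (KH * (Dl lam M2 (fun u => f (T * u))) ^ (1 + η))

/-- hypothesis (H2) -/
def H2 (η KH : ℝ) (lam : ℕ → ℝ) (M : ℕ) : Prop :=
  ∀ M' : ℕ, M' ∣ M → ∀ f g : ℕ → ℝ, (∀ n, f n = 0 ∨ f n = 1) → (∀ n, g n = 0 ∨ g n = 1) →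
    frk (1 - η) M' (fun b c => f b * g c) ≤ KH * (Dl lam M' f * Dl lam M' g) ^ ((1 + η) / 2)


lemma frm_congr {M : ℕ} {F F' : ℕ → ℕ → ℝ} (h : ∀ b, b ∣ M → ∀ c, c ∣ M → F b c = F' b c) :
    frm M F = frm M F' :=
  Finset.sum_congr rfl fun b hb => Finset.sum_congr rfl fun c hc => by
    rw [h b (Nat.dvd_of_mem_divisors hb) c (Nat.dvd_of_mem_divisors hc)]

/-- `gcd * (x * gcd * D)^(-η)` -/
lemma frm_weight (η : ℝ) {M : ℕ} (F : ℕ → ℕ → ℝ) {A D : ℝ} (hA : 0 < A) (hD : 0 ≤ D) :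
    A * frm M (fun b c => F b c * ((A * (Nat.gcd b c : ℝ)) * D) ^ (-η)) =
      D ^ (-η) * (A ^ (1 - η) * frk (1 - η) M F) := by
  unfold frm frk
  rw [Finset.mul_sum, Finset.mul_sum, Finset.mul_sum]
  refine Finset.sum_congr rfl fun b hb => ?_
  rw [Finset.mul_sum, Finset.mul_sum, Finset.mul_sum]
  refine Finset.sum_congr rfl fun c hc => ?_
  have hb0 : b ≠ 0 := fun h => by
    rw [Nat.mem_divisors, h] at hb
    exact hb.2 (Nat.eq_zero_of_zero_dvd hb.1)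
  have hg : 0 < (Nat.gcd b c : ℝ) := by
    have : 0 < Nat.gcd b c := Nat.gcd_pos_of_pos_left _ (Nat.pos_of_ne_zero hb0)
    exact_mod_cast this
  show A * ((Nat.gcd b c : ℝ) * nu M b * nu M c *
      (F b c * (A * (Nat.gcd b c : ℝ) * D) ^ (-η))) = _
  rw [Real.mul_rpow (by positivity) hD, Real.mul_rpow hA.le hg.le]
  have e : ∀ x : ℝ, 0 < x → x * x ^ (-η) = x ^ (1 - η) := fun x hx => by
    have : x * x ^ (-η) = x ^ (1 : ℝ) * x ^ (-η) := by rw [Real.rpow_one]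
    rw [this, ← Real.rpow_add hx]
    congr 1
  rw [← e A hA, ← e _ hg]
  ring

lemma SE_base {M : ℕ} (hM : 0 < M) (hy : ∀ r, r.Prime → r ∣ M → r ≤ y)
    (hlam : ∀ p, 0 ≤ lam p) {f : ℕ → ℝ} (hf : ∀ n, 0 ≤ f n) (K : ℕ → ℕ → ℝ) :
    SE η lam y M f K =
      (Dl lam M f) ^ (-η) * frk (1 - η) M (fun b c => f b * f c * K b c) := by
  have h := frm_weight η (M := M) (fun b c => f b * f c * K b c) one_pos (Dl_nonneg hlam M hf)
  rw [one_mul, Real.one_rpow, one_mul] at h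
  rw [← h]
  unfold SE
  refine frm_congr fun b hb c hc => ?_
  rw [th_base hM hy f hb hc, one_mul]

lemma SE_step {p : ℕ} (hp : p.Prime) (hyp : y < p) (a : ℕ) {M1 : ℕ} (hM : 0 < M1)
    (hlt : ∀ r, r.Prime → r ∣ M1 → r < p) (hlam : ∀ p, 0 ≤ lam p) {f : ℕ → ℝ}
    (hf : ∀ n, 0 ≤ f n) (K : ℕ → ℕ → ℝ) :
    SE η lam y (p ^ a * M1) f K =
      ∑ v ∈ range (a + 1), (p : ℝ) ^ v * nup p a v * nup p a v *
        SE η lam y M1 (fun u => f (p ^ v * u)) (fun b c => K (p ^ v * b) (p ^ v * c))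
      + (Dl lam (p ^ a * M1) f) ^ (-η) * off (range (a + 1)) (fun v v' =>
        (p : ℝ) ^ ((1 - η) * ((min v v' : ℕ) : ℝ)) * nup p a v * nup p a v' *
          frk (1 - η) M1 (fun b c => f (p ^ v * b) * f (p ^ v' * c) * K (p ^ v * b) (p ^ v' * c))) := by
  have hnd : ¬ p ∣ M1 := fun h => lt_irrefl p (hlt p hp h)
  have hp0 : (0 : ℝ) < p := by exact_mod_cast hp.pos
  unfold SE
  rw [frm_split hp a hM hnd, sum_off, ← off_smul]
  congr 1
  · refine Finset.sum_congr rfl fun v _ => ?_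
    rw [min_self]
    congr 1
    refine frm_congr fun b hb c hc => ?_
    rw [th_same hp hyp hM hlt f hb hc]
  · unfold off
    refine Finset.sum_congr rfl fun v _ => Finset.sum_congr rfl fun v' _ => ?_
    split_ifs with hv
    · rfl
    · have h := frm_weight η (M := M1)
        (fun b c => f (p ^ v * b) * f (p ^ v' * c) * K (p ^ v * b) (p ^ v' * c))
        (A := (p : ℝ) ^ (min v v')) (by positivity) (Dl_nonneg hlam (p ^ a * M1) hf)
      have e1 : ((p : ℝ) ^ (min v v')) ^ (1 - η) = (p : ℝ) ^ ((1 - η) * ((min v v' : ℕ) : ℝ)) := by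
        rw [← Real.rpow_natCast, ← Real.rpow_mul hp0.le]
        congr 1; ring
      rw [e1] at h
      have e2 : frm M1 (fun b c => f (p ^ v * b) * f (p ^ v' * c) * K (p ^ v * b) (p ^ v' * c) *
          th lam y (p ^ a * M1) f (p ^ v * b) (p ^ v' * c) ^ (-η)) =
          frm M1 (fun b c => f (p ^ v * b) * f (p ^ v' * c) * K (p ^ v * b) (p ^ v' * c) *
          (((p : ℝ) ^ (min v v') * (Nat.gcd b c : ℝ)) * Dl lam (p ^ a * M1) f) ^ (-η)) := by
        refine frm_congr fun b hb c hc => ?_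
        rw [th_diff hp hyp hM hlt f hb hc hv]
      beta_reduce
      rw [e2]
      linear_combination (nup p a v * nup p a v') * h

lemma ip_step (κ : ℝ) {p : ℕ} (hp : p.Prime) (a : ℕ) {M1 : ℕ} (hM : 0 < M1) (h : ¬ p ∣ M1)
    (f : ℕ → ℝ) :
    ip κ (p ^ a * M1) f f =
      ∑ v ∈ range (a + 1), (p : ℝ) ^ (κ * (v : ℝ)) * nup p a v * nup p a v *
        ip κ M1 (fun u => f (p ^ v * u)) (fun u => f (p ^ v * u))
      + off (range (a + 1)) (fun v v' =>
        (p : ℝ) ^ (κ * ((min v v' : ℕ) : ℝ)) * nup p a v * nup p a v' *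
          ip κ M1 (fun u => f (p ^ v * u)) (fun u => f (p ^ v' * u))) := by
  rw [ip_split κ hp a hM h, sum_off]
  congr 1
  refine Finset.sum_congr rfl fun v _ => ?_
  unfold cross
  rw [min_self]

lemma H2.mono {M M' : ℕ} (h : H2 η KH lam M) (hd : M' ∣ M) : H2 η KH lam M' :=
  fun M2 h2 => h M2 (h2.trans hd)

lemma HKnode.step {p a M1 v : ℕ} {f : ℕ → ℝ} {K : ℕ → ℕ → ℝ} (hp : p.Prime)
    (hlt : ∀ r, r.Prime → r ∣ M1 → r < p) (hv : v ≤ a)
    (h : HKnode η KH τ lam y (p ^ a * M1) f K) :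
    HKnode η KH τ lam y M1 (fun u => f (p ^ v * u)) (fun b c => K (p ^ v * b) (p ^ v * c)) := by
  intro T0 q e M2 hq hyq hM hnd hl hg T hT u hu u' hu' hne
  by_cases he : e = 0
  · omega
  have hqM : q ∣ M1 := by
    rw [hM]
    exact dvd_mul_of_dvd_right (dvd_mul_of_dvd_left (dvd_pow_self q he) _) _
  have hqp : q < p := hlt q hq hqM
  have h1 := h (p ^ a * T0) q e M2 hq hyq (by rw [hM]; ring) hnd hl ?_ (p ^ v * T)
    (Nat.mul_dvd_mul (pow_dvd_pow p hv) hT) u hu u' hu' hne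
  · simp only [mul_assoc] at h1 ⊢
    exact h1
  · intro r hr hrd
    rcases (Nat.Prime.dvd_mul hr).1 hrd with h2 | h2
    · rw [(Nat.prime_dvd_prime_iff_eq hr hp).1 (hr.dvd_of_dvd_pow h2)]
      exact hqp
    · exact hg r hr h2

lemma HKleaf.step {p a M1 v : ℕ} {f : ℕ → ℝ} {K : ℕ → ℕ → ℝ} (hp : p.Prime) (hyp : y < p)
    (hv : v ≤ a)
    (h : HKleaf η KH τ lam y (p ^ a * M1) f K) :
    HKleaf η KH τ lam y M1 (fun u => f (p ^ v * u)) (fun b c => K (p ^ v * b) (p ^ v * c)) := by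
  intro T0 M2 hM hl hg T hT
  have h1 := h (p ^ a * T0) M2 (by rw [hM]; ring) hl ?_ (p ^ v * T)
    (Nat.mul_dvd_mul (pow_dvd_pow p hv) hT)
  · simp only [mul_assoc] at h1 ⊢
    exact h1
  · intro r hr hrd
    rcases (Nat.Prime.dvd_mul hr).1 hrd with h2 | h2
    · rw [(Nat.prime_dvd_prime_iff_eq hr hp).1 (hr.dvd_of_dvd_pow h2)]
      exact hyp
    · exact hg r hr h2

/-- the claim of the induction -/
def Claim (η KH τ C : ℝ) (lam : ℕ → ℝ) (y M : ℕ) : Prop :=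
  H2 η KH lam M → ∀ (f : ℕ → ℝ) (K : ℕ → ℕ → ℝ), (∀ n, f n = 0 ∨ f n = 1) →
    (∀ b c, 0 ≤ K b c) → (∀ b c, K b c ≤ 1) →
    HKnode η KH τ lam y M f K → HKleaf η KH τ lam y M f K →
    SE η lam y M f K ≤
      τ ^ ((1 - η) / 3) * (C * Dl lam M f - (Dl lam M f) ^ (-η) * ip (1 - η) M f f)

lemma ind_nonneg {f : ℕ → ℝ} (hf : ∀ n, f n = 0 ∨ f n = 1) (n : ℕ) : 0 ≤ f n := by
  rcases hf n with h | h <;> rw [h]
  exact zero_le_one

lemma claim_base {C : ℝ} (hη : 0 < η) (hη1 : η < 1) (hKH : 1 ≤ KH) (hτ : 0 < τ) (hτ1 : τ ≤ 1)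
    (hC : 2 * KH ≤ C) (hlam : ∀ p, 0 ≤ lam p) {M : ℕ} (hM : 0 < M)
    (hy : ∀ r, r.Prime → r ∣ M → r ≤ y) : Claim η KH τ C lam y M := by
  intro h2 f K hf _ _ _ hleaf
  have hf0 := ind_nonneg hf
  rw [SE_base hM hy hlam hf0]
  set D := Dl lam M f with hD
  have hD0 : 0 ≤ D := Dl_nonneg hlam M hf0
  set σ : ℝ := τ ^ ((1 - η) / 3) with hσ
  have hσ0 : 0 < σ := Real.rpow_pos_of_pos hτ _
  have hτσ : τ ≤ σ := by
    have : τ ^ (1 : ℝ) ≤ τ ^ ((1 - η) / 3) :=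
      Real.rpow_le_rpow_of_exponent_ge hτ hτ1 (by linarith)
    rwa [Real.rpow_one] at this
  have h1 : frk (1 - η) M (fun b c => f b * f c * K b c) ≤ τ * (KH * D ^ (1 + η)) := by
    have := hleaf 1 M (by ring) hy (fun r hr hrd => absurd (Nat.dvd_one.1 hrd) hr.ne_one) 1 dvd_rfl
    simpa only [one_mul] using this
  have h3 : ip (1 - η) M f f ≤ KH * D ^ (1 + η) := by
    have := h2 M dvd_rfl f f hf hf
    have e : (D * D) ^ ((1 + η) / 2) = D ^ (1 + η) := by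
      rw [← pow_two, ← Real.rpow_natCast, ← Real.rpow_mul hD0]
      congr 1; push_cast; ring
    rw [← hD, e] at this
    exact this
  have h4 : D ^ (-η) * D ^ (1 + η) = D := by
    rcases hD0.eq_or_lt with h | h
    · rw [← h, Real.zero_rpow (by linarith : (1 + η) ≠ 0), mul_zero]
    · rw [← Real.rpow_add h]
      have : -η + (1 + η) = 1 := by ring
      rw [this, Real.rpow_one]
  have hDn : 0 ≤ D ^ (-η) := Real.rpow_nonneg hD0 _
  have h5 := mul_le_mul_of_nonneg_left h1 hDn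
  have h6 := mul_le_mul_of_nonneg_left h3 hDn
  have e5 : D ^ (-η) * (τ * (KH * D ^ (1 + η))) = τ * (KH * D) := by
    rw [← h4]; rw [h4]; rw [mul_comm (D ^ (-η)), mul_assoc, mul_assoc, mul_comm (D ^ (1 + η)), h4]
  have e6 : D ^ (-η) * (KH * D ^ (1 + η)) = KH * D := by
    rw [mul_comm (D ^ (-η)), mul_assoc, mul_comm (D ^ (1 + η)), h4]
  rw [e5] at h5
  rw [e6] at h6
  have hKD : 0 ≤ KH * D := by positivity
  have h7 : τ * (KH * D) ≤ σ * (KH * D) := mul_le_mul_of_nonneg_right hτσ hKD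
  have h8 : σ * (2 * KH * D) ≤ σ * (C * D) :=
    mul_le_mul_of_nonneg_left (mul_le_mul_of_nonneg_right hC hD0) hσ0.le
  have h9 := mul_le_mul_of_nonneg_left h6 hσ0.le
  nlinarith

lemma ind_step {f : ℕ → ℝ} (hf : ∀ n, f n = 0 ∨ f n = 1) (m : ℕ) :
    ∀ n, (fun u => f (m * u)) n = 0 ∨ (fun u => f (m * u)) n = 1 := fun n => hf (m * n)

lemma nup_pos {p : ℕ} (hp : p.Prime) (a v : ℕ) : 0 < nup p a v := by
  have hp1 : (1 : ℝ) < p := by exact_mod_cast hp.one_lt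
  have h1 : 0 < 1 - 1 / (p : ℝ) := by
    rw [sub_pos, div_lt_one (by linarith)]; exact hp1
  unfold nup
  split_ifs <;> positivity

lemma pow_nup_le {p : ℕ} (hp : p.Prime) {a v : ℕ} (hv : v ≤ a) : (p : ℝ) ^ v * nup p a v ≤ 1 := by
  have hp0 : (0 : ℝ) < p := by exact_mod_cast hp.pos
  calc (p : ℝ) ^ v * nup p a v ≤ (p : ℝ) ^ v * (1 / (p : ℝ)) ^ v :=
        mul_le_mul_of_nonneg_left (nup_le hp.pos a v hv) (by positivity)
    _ = 1 := by rw [← mul_pow, mul_one_div_cancel hp0.ne', one_pow]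

lemma pow_nup_ge {p : ℕ} (hp : p.Prime) {a v : ℕ} (hv : v ≤ a) :
    1 - 1 / (p : ℝ) ≤ (p : ℝ) ^ v * nup p a v := by
  have hp0 : (0 : ℝ) < p := by exact_mod_cast hp.pos
  have h := mul_le_mul_of_nonneg_left (nup_ge hp.pos a v hv) (by positivity : (0 : ℝ) ≤ (p : ℝ) ^ v)
  have e : (p : ℝ) ^ v * ((1 - 1 / (p : ℝ)) * (1 / (p : ℝ)) ^ v) = 1 - 1 / (p : ℝ) := by
    rw [mul_left_comm, ← mul_pow, mul_one_div_cancel hp0.ne', one_pow, mul_one]
  rwa [e] at h

lemma claim_step {C : ℝ} (hη : 0 < η) (hη1 : η < 1) (hKH : 1 ≤ KH) (hτ : 0 < τ) (hτ1 : τ ≤ 1)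
    (hC : 1 ≤ C) (hsc : Sc η KH C) (hlam : ∀ p, 0 ≤ lam p)
    (hlam1 : ∀ p : ℕ, p.Prime → y < p → 1 ≤ lam p * (1 - 1 / (p : ℝ))) {p a M1 : ℕ}
    (hp : p.Prime) (hyp : y < p) (ha : 0 < a) (hM1 : 0 < M1)
    (hlt : ∀ r, r.Prime → r ∣ M1 → r < p) (ih : Claim η KH τ C lam y M1) :
    Claim η KH τ C lam y (p ^ a * M1) := by
  intro h2 f K hf hK0 hK1 hnode hleaf
  have hf0 := ind_nonneg hf
  have hnd : ¬ p ∣ M1 := fun h => lt_irrefl p (hlt p hp h)
  have hd1 : M1 ∣ p ^ a * M1 := Dvd.intro_left _ rfl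
  have hp2 : (2 : ℝ) ≤ p := by exact_mod_cast hp.two_le
  have hp0 : (0 : ℝ) < p := by linarith
  have hlp := hlam1 p hp hyp
  have hw1 : 0 < 1 - 1 / (p : ℝ) := by
    rw [sub_pos, div_lt_one hp0]; linarith
  have hlp1 : 1 ≤ lam p := by
    have : lam p * (1 - 1 / (p : ℝ)) ≤ lam p * 1 :=
      mul_le_mul_of_nonneg_left (by have : 0 < 1 / (p : ℝ) := by positivity
                                    linarith) (hlam p)
    linarith
  set D := Dl lam (p ^ a * M1) f with hD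
  have hD0 : 0 ≤ D := Dl_nonneg hlam _ hf0
  rcases hD0.eq_or_lt with hDz | hDpos
  · -- trivial case
    have hz : (0 : ℝ) ^ (-η) = 0 := Real.zero_rpow (neg_ne_zero.2 hη.ne')
    rw [SE_step hp hyp a hM1 hlt hlam hf0 K, ← hD, ← hDz, hz, zero_mul, zero_mul, mul_zero,
      sub_zero, mul_zero, add_zero]
    refine Finset.sum_nonpos fun v hv => ?_
    have hs := Dl_split (lam := lam) hp a hM1 hnd f
    rw [← hD, ← hDz] at hs
    have hl0 : 0 < (if v = 0 then (1 : ℝ) else lam p) := by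
      split_ifs
      · exact one_pos
      · linarith
    have hn := nup_pos hp a v
    have hv0 : Dl lam M1 (fun u => f (p ^ v * u)) = 0 := by
      have h5 := (Finset.sum_eq_zero_iff_of_nonneg (fun v _ => ?_)).1 hs.symm v hv
      · rcases mul_eq_zero.1 h5 with h6 | h6
        · exact absurd h6 (mul_pos hn hl0).ne'
        · exact h6
      · refine mul_nonneg (mul_nonneg (nup_pos hp a v).le ?_) (Dl_nonneg hlam _ fun n => hf0 _)
        split_ifs
        · exact zero_le_one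
        · linarith
    rw [mem_range] at hv
    have h6 := ih (h2.mono hd1) _ _ (ind_step hf (p ^ v)) (fun b c => hK0 _ _) (fun b c => hK1 _ _)
        (hnode.step hp hlt (by omega)) (hleaf.step hp hyp (by omega))
    rw [hv0, hz, zero_mul, mul_zero, sub_zero, mul_zero] at h6
    exact mul_nonpos_of_nonneg_of_nonpos (by positivity) h6
  · rw [SE_step hp hyp a hM1 hlt hlam hf0 K, ip_step (1 - η) hp a hM1 hnd f, ← hD]
    refine step_real hη hη1 hKH hτ hτ1 hC hsc hp2 (range (a + 1)) (nup p a)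
      (fun v => if v = 0 then 1 else lam p) (fun v => Dl lam M1 (fun u => f (p ^ v * u)))
      (fun v => SE η lam y M1 (fun u => f (p ^ v * u)) (fun b c => K (p ^ v * b) (p ^ v * c)))
      (fun v v' => ip (1 - η) M1 (fun u => f (p ^ v * u)) (fun u => f (p ^ v' * u)))
      (fun v v' => frk (1 - η) M1
        (fun b c => f (p ^ v * b) * f (p ^ v' * c) * K (p ^ v * b) (p ^ v' * c)))
      (fun v _ => nup_pos hp a v)
      (fun v hv => pow_nup_le hp (by rw [mem_range] at hv; omega))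
      ?_ ?_ ?_ ?_ (fun v _ => Dl_nonneg hlam _ fun n => hf0 _) (Dl_split hp a hM1 hnd f).symm hDpos
      ?_ ?_ ?_ ?_ ?_ ?_ ?_
    · intro v _
      split_ifs
      · exact le_rfl
      · exact hlp1
    · intro v hv
      rw [mem_range] at hv
      have h3 := pow_nup_ge hp (a := a) (v := v) (by omega)
      have h4 : 0 < (p : ℝ) ^ v * nup p a v := lt_of_lt_of_le hw1 h3
      split_ifs
      · linarith
      · nlinarith
    · intro v hv hv0
      rw [mem_range] at hv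
      have h3 := pow_nup_ge hp (a := a) (v := v) (by omega)
      rw [if_neg hv0]
      nlinarith
    · intro v hv
      rw [mem_range] at hv
      have h3 := pow_nup_le hp (a := a) (v := v) (by omega)
      split_ifs with hv0
      · subst hv0
        rw [pow_zero, one_mul]
        unfold nup
        rw [if_pos ha, pow_zero]
        linarith
      · nlinarith
    · intro v _ v' _
      exact frk_nonneg _ _ fun b c => mul_nonneg (hf0 _) (hf0 _)
    · intro v _ v' _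
      exact ip_sq_le (by linarith) M1 _ _
    · intro v _ v' _
      exact h2 M1 hd1 _ _ (ind_step hf _) (ind_step hf _)
    · intro v _ v' _ _
      exact frk_nonneg _ _ fun b c => mul_nonneg (mul_nonneg (hf0 _) (hf0 _)) (hK0 _ _)
    · intro v _ v' _ _
      exact frk_mono _ _ fun b c => mul_le_of_le_one_right (mul_nonneg (hf0 _) (hf0 _)) (hK1 _ _)
    · intro v hv v' hv' hne
      rw [mem_range] at hv hv'
      have := hnode 1 p a M1 hp hyp (by ring) hnd hlt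
        (fun r hr hrd => absurd (Nat.dvd_one.1 hrd) hr.ne_one) 1 dvd_rfl v (by omega) v' (by omega)
        hne
      simpa only [one_mul] using this
    · intro v hv
      rw [mem_range] at hv
      exact ih (h2.mono hd1) _ _ (ind_step hf _) (fun b c => hK0 _ _) (fun b c => hK1 _ _)
        (hnode.step hp hlt (by omega)) (hleaf.step hp hyp (by omega))


/-- enlarging the constant -/
lemma Sc.mono {C C' : ℝ} (h : Sc η KH C) (hC : C ≤ C') : Sc η KH C' := by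
  intro τ hτ hτ1 w hw hw1 s x G R D hs c hc0 hc1
  refine (h τ hτ hτ1 w hw hw1 s x G R D hs c hc0 hc1).trans ?_
  have : 0 < τ ^ ((1 - η) / 3) := Real.rpow_pos_of_pos hτ _
  refine mul_le_mul_of_nonneg_left ?_ this.le
  have := mul_le_mul_of_nonneg_right hC hw.le
  linarith

/-- **THEOREM EFF**, general `M`, with the full potential -/
theorem eff_full {η KH : ℝ} (hη : 0 < η) (hη1 : η < 1) (hKH : 1 ≤ KH) :
    ∃ C : ℝ, 1 ≤ C ∧ ∀ (lam : ℕ → ℝ) (y : ℕ), (∀ p, 0 ≤ lam p) →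
      (∀ p : ℕ, p.Prime → y < p → 1 ≤ lam p * (1 - 1 / (p : ℝ))) →
      ∀ τ : ℝ, 0 < τ → τ ≤ 1 → ∀ M : ℕ, 0 < M → H2 η KH lam M →
      ∀ (f : ℕ → ℝ) (K : ℕ → ℕ → ℝ), (∀ n, f n = 0 ∨ f n = 1) →
      (∀ b c, 0 ≤ K b c) → (∀ b c, K b c ≤ 1) →
      HKnode η KH τ lam y M f K → HKleaf η KH τ lam y M f K →
      SE η lam y M f K ≤
        τ ^ ((1 - η) / 3) * (C * Dl lam M f - (Dl lam M f) ^ (-η) * ip (1 - η) M f f) := by
  obtain ⟨C1, hC1, h⟩ := scalarM hη hη1 hKH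
  set C := max C1 (2 * KH) with hCd
  have hC : 1 ≤ C := hC1.trans (le_max_left _ _)
  have hsc : Sc η KH C := Sc.mono (C := C1) h (le_max_left _ _)
  refine ⟨C, hC, ?_⟩
  intro lam y hlam hlam1 τ hτ hτ1 M hM
  have key : ∀ M : ℕ, 0 < M → Claim η KH τ C lam y M := by
    refine ind_max ?_ ?_
    · exact claim_base hη hη1 hKH hτ hτ1 (le_max_right _ _) hlam one_pos
        (fun r hr hrd => absurd (Nat.dvd_one.1 hrd) hr.ne_one)
    · intro p a M1 hp ha hM1 _ hlt ih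
      rcases lt_or_ge y p with hyp | hyp
      · exact claim_step hη hη1 hKH hτ hτ1 hC hsc hlam hlam1 hp hyp ha hM1 hlt ih
      · refine claim_base hη hη1 hKH hτ hτ1 (le_max_right _ _) hlam
          (by have := pow_pos hp.pos a; positivity) (fun r hr hrd => ?_)
        rcases (Nat.Prime.dvd_mul hr).1 hrd with h2 | h2
        · rw [(Nat.prime_dvd_prime_iff_eq hr hp).1 (hr.dvd_of_dvd_pow h2)]
          exact hyp
        · exact (hlt r hr h2).le.trans hyp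
  exact key M hM

/-- **THEOREM EFF**, general `M` -/
theorem eff {η KH : ℝ} (hη : 0 < η) (hη1 : η < 1) (hKH : 1 ≤ KH) :
    ∃ C : ℝ, 1 ≤ C ∧ ∀ (lam : ℕ → ℝ) (y : ℕ), (∀ p, 0 ≤ lam p) →
      (∀ p : ℕ, p.Prime → y < p → 1 ≤ lam p * (1 - 1 / (p : ℝ))) →
      ∀ τ : ℝ, 0 < τ → τ ≤ 1 → ∀ M : ℕ, 0 < M → H2 η KH lam M →
      ∀ (f : ℕ → ℝ) (K : ℕ → ℕ → ℝ), (∀ n, f n = 0 ∨ f n = 1) →
      (∀ b c, 0 ≤ K b c) → (∀ b c, K b c ≤ 1) →
      HKnode η KH τ lam y M f K → HKleaf η KH τ lam y M f K →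
      SE η lam y M f K ≤ C * τ ^ ((1 - η) / 3) * Dl lam M f := by
  obtain ⟨C, hC, h⟩ := eff_full hη hη1 hKH
  refine ⟨C, hC, ?_⟩
  intro lam y hlam hlam1 τ hτ hτ1 M hM h2 f K hf hK0 hK1 hn hl
  refine (h lam y hlam hlam1 τ hτ hτ1 M hM h2 f K hf hK0 hK1 hn hl).trans ?_
  have h1 : 0 < τ ^ ((1 - η) / 3) := Real.rpow_pos_of_pos hτ _
  have h3 : 0 ≤ (Dl lam M f) ^ (-η) * ip (1 - η) M f f :=
    mul_nonneg (Real.rpow_nonneg (Dl_nonneg hlam M (ind_nonneg hf)) _)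
      (ip_self_nonneg (by linarith) M f)
  nlinarith

/-- without relation: `K = 1`, `τ = 1` -/
theorem eff_one {η KH : ℝ} (hη : 0 < η) (hη1 : η < 1) (hKH : 1 ≤ KH) :
    ∃ C : ℝ, 1 ≤ C ∧ ∀ (lam : ℕ → ℝ) (y : ℕ), (∀ p, 0 ≤ lam p) →
      (∀ p : ℕ, p.Prime → y < p → 1 ≤ lam p * (1 - 1 / (p : ℝ))) →
      ∀ M : ℕ, 0 < M → H2 η KH lam M →
      ∀ f : ℕ → ℝ, (∀ n, f n = 0 ∨ f n = 1) →
      frm M (fun b c => f b * f c * (th lam y M f b c) ^ (-η)) ≤ C * Dl lam M f := by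
  obtain ⟨C, hC, h⟩ := eff hη hη1 hKH
  refine ⟨C, hC, ?_⟩
  intro lam y hlam hlam1 M hM h2 f hf
  have hn : HKnode η KH 1 lam y M f (fun _ _ => 1) := by
    intro T0 q a M2 _ _ hMe _ _ _ T _ v _ v' _ _
    have h3 := h2 M2 (hMe ▸ Dvd.intro_left (T0 * q ^ a) (by ring))
      (fun u => f (T * (q ^ v * u))) (fun u => f (T * (q ^ v' * u))) (fun n => hf _) (fun n => hf _)
    rw [one_mul]
    simpa only [mul_one] using h3
  have hl : HKleaf η KH 1 lam y M f (fun _ _ => 1) := by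
    intro T0 M2 hMe _ _ T _
    have h3 := h2 M2 (hMe ▸ Dvd.intro_left T0 rfl)
      (fun u => f (T * u)) (fun u => f (T * u)) (fun n => hf _) (fun n => hf _)
    have hD0 : 0 ≤ Dl lam M2 (fun u => f (T * u)) := Dl_nonneg hlam _ fun n => ind_nonneg hf _
    have e : (Dl lam M2 (fun u => f (T * u)) * Dl lam M2 (fun u => f (T * u))) ^ ((1 + η) / 2) =
        (Dl lam M2 (fun u => f (T * u))) ^ (1 + η) := by
      rw [← pow_two, ← Real.rpow_natCast, ← Real.rpow_mul hD0]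
      congr 1; push_cast; ring
    rw [e] at h3
    rw [one_mul]
    simpa only [mul_one] using h3
  have h4 := h lam y hlam hlam1 1 one_pos le_rfl M hM h2 f (fun _ _ => 1) hf
    (fun _ _ => zero_le_one) (fun _ _ => le_rfl) hn hl
  rw [Real.one_rpow, mul_one] at h4
  unfold SE at h4
  simpa only [mul_one] using h4

end Crest.Agent.R4C.Effx104
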