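import Crest.Agent.R4C.F5a_726

/-!
# Second-order version of (F5)(a): zones born at the NEXT node (helper726)

(V6) of helper1's checklist 4130.  World `Z` of `GWdef_982` (generic), word `w ∣ N`, node index `i`
of `w`, letters `S = Lt i w` above the cut, `i₁` a later node index.
* `node_of_letter` : the gap before a letter is non-empty iff its activation index is a node index;
* `core_births`, `bad_of_births_sum`, `bad_of_births_safe`, `bad_of_births` : ANY node `i` of `w`, a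
  later node `b₁`, a birth `b₂ > b₁`: `1 - Wp (cut i) (cut b₂) w ≤ s` implies `Bad` at `i`
  (529's (D), 12's request in 4147 (V5));
* `core_second` : if the run centre exists at the first letter (`On K1` at `mn S`) and `j > i₁` is a
  birth, then it is lost at `ps ≤ cut j`, and every nominal coin of the gap before `ps` is `> cut i₁`
  when `i₁` is the NEXT node index;
* `bad_second_sum`, `bad_second`, `bad_second_safe` : few coins in `(cut i₁, cut j]` imply `Bad` at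
  the node `i` (clause (2));
* `bad_second_of_Y` : the same from `Y z w ≤ s`, `z = zone i₁ w` born at `i₁`.
-/

set_option autoImplicit false

open Finset
open Crest.Agent.R4C.Basex935 Crest.Agent.R4C.Cutx50 Crest.Agent.R4C.PrefixMx882
open Crest.Agent.R4C.NHx656

namespace Crest.Agent.R4C.GWdefx982.World

open Crest.Agent.R4C.F5ax726

variable {Z : World}

/-- scale before the letter `r` -/
noncomputable def bs (Z : World) (i w r : ℕ) : ℝ :=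
  Z.tt i w * ((∏ p ∈ (Z.Lt i w).filter (· < r), p : ℕ) : ℝ)

section

variable {i w : ℕ}

lemma tt_le_bs (hL : 0 < Z.L) (hi : Z.nd i w) (r : ℕ) : Z.tt i w ≤ Z.bs i w r := by
  unfold bs
  have h1 : 1 ≤ ∏ p ∈ (Z.Lt i w).filter (· < r), p :=
    Nat.one_le_iff_ne_zero.2 (prod_pos fun p hp => (mem_Lt.1 (mem_filter.1 hp).1).1.pos).ne'
  have h2 : (1 : ℝ) ≤ ((∏ p ∈ (Z.Lt i w).filter (· < r), p : ℕ) : ℝ) := by exact_mod_cast h1
  have h3 := one_le_tt hL hi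
  nlinarith

lemma letter_le_bs (hL : 0 < Z.L) (hi : Z.nd i w) {p r : ℕ} (hp : p ∈ Z.Lt i w) (hpr : p < r) :
    Z.tt i w * p ≤ Z.bs i w r := by
  unfold bs
  have h1 : p ≤ ∏ p ∈ (Z.Lt i w).filter (· < r), p :=
    Nat.le_of_dvd (prod_pos fun p hp => (mem_Lt.1 (mem_filter.1 hp).1).1.pos)
      (dvd_prod_of_mem _ (mem_filter.2 ⟨hp, hpr⟩))
  have h2 : (p : ℝ) ≤ ((∏ p ∈ (Z.Lt i w).filter (· < r), p : ℕ) : ℝ) := by exact_mod_cast h1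
  exact mul_le_mul_of_nonneg_left h2 (zero_le_one.trans (one_le_tt hL hi))

lemma logb_spec {τ : ℝ} (hτ : 1 ≤ τ) : (2 : ℝ) ^ ⌊Real.logb 2 τ⌋₊ ≤ τ ∧
    τ < (2 : ℝ) ^ (⌊Real.logb 2 τ⌋₊ + 1) := by
  have hτ0 : 0 < τ := by linarith
  constructor
  · have h1 := Nat.floor_le (Real.logb_nonneg (by norm_num : (1 : ℝ) < 2) hτ)
    rw [Real.le_logb_iff_rpow_le (by norm_num) hτ0, Real.rpow_natCast] at h1
    exact h1
  · have h5 := Nat.lt_floor_add_one (Real.logb 2 τ)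
    rw [Real.logb_lt_iff_lt_rpow (by norm_num) hτ0] at h5
    have h6 : ((2 : ℝ) ^ ((⌊Real.logb 2 τ⌋₊ : ℝ) + 1)) = (2 : ℝ) ^ (⌊Real.logb 2 τ⌋₊ + 1) := by
      rw [← Real.rpow_natCast]
      push_cast
      rfl
    rwa [h6] at h5

/-- the activation index of the prefix before the letter `r` -/
noncomputable def jx (Z : World) (i w r : ℕ) : ℕ := ⌊Real.logb 2 (Z.bs i w r)⌋₊

lemma le_jx (hL : 0 < Z.L) (hi : Z.nd i w) (r : ℕ) : i ≤ Z.jx i w r := by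
  have h1 := (tt_ge hL hi).trans (tt_le_bs hL hi r)
  have h0 : 0 < Z.bs i w r := lt_of_lt_of_le (by positivity) h1
  refine Nat.le_floor ?_
  rw [Real.le_logb_iff_rpow_le (by norm_num) h0, Real.rpow_natCast]
  exact h1

/-- two letters: the activation index is `> i` -/
lemma lt_jx (hL : 0 < Z.L) (hi : Z.nd i w) {p r : ℕ} (hp : p ∈ Z.Lt i w) (hpr : p < r) :
    i < Z.jx i w r := by
  have h1 := letter_le_bs hL hi hp hpr
  have h2 := tt_ge hL hi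
  have h3 : (2 : ℝ) ≤ p := by exact_mod_cast (mem_Lt.1 hp).1.two_le
  have h4 : (2 : ℝ) ^ (i + 1) ≤ Z.bs i w r := by
    rw [pow_succ]
    have h5 : (0 : ℝ) < 2 ^ i := by positivity
    nlinarith
  have h0 : 0 < Z.bs i w r := lt_of_lt_of_le (by positivity) h4
  have h5 : ((i + 1 : ℕ) : ℝ) ≤ Real.logb 2 (Z.bs i w r) := by
    rw [Real.le_logb_iff_rpow_le (by norm_num) h0, Real.rpow_natCast]
    exact h4
  exact Nat.le_floor h5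

/-- **a non-empty gap is a node**: if `r` is above the activation cut of the prefix before it, then
this prefix is the node of index `jx` -/
theorem node_of_letter {δ : ℝ} (hZ : Z.Ok) (hX : Z.Ext δ) (hi : Z.nd i w)
    (hsq : Squarefree (upp (Z.cut i) w)) {r : ℕ} (h : Z.cutf (Z.bs i w r) < r) :
    Z.nd (Z.jx i w r) w ∧ Z.tt (Z.jx i w r) w = Z.bs i w r := by
  have hb := tt_le_bs hZ.hL hi r
  have h1 : 1 ≤ Z.bs i w r := (one_le_tt hZ.hL hi).trans hb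
  have hij := le_jx hZ.hL hi r
  have h2i : (2 : ℝ) ^ Z.i0 ≤ Z.bs i w r :=
    (pow_le_pow_right₀ (by norm_num) hi.1).trans ((tt_ge hZ.hL hi).trans hb)
  have hcr : Z.cut (Z.jx i w r) < r := by
    have h2 : ((Z.cut (Z.jx i w r) : ℕ) : ℝ) < r := h
    exact_mod_cast h2
  have e1 : (Z.Lt i w).filter (· ≤ Z.cut (Z.jx i w r)) = (Z.Lt i w).filter (· < r) := by
    ext p
    simp only [mem_filter, and_congr_right_iff]
    intro hp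
    constructor
    · intro h2
      omega
    · intro h2
      have h3 := letter_le_bs hZ.hL hi hp h2
      have h4 : (p : ℝ) ≤ Z.bs i w r := by
        have h5 := one_le_tt hZ.hL hi
        have h6 : (0 : ℝ) ≤ p := Nat.cast_nonneg _
        nlinarith
      have h5 : ((p : ℕ) : ℝ) ≤ ((Z.cut (Z.jx i w r) : ℕ) : ℝ) := le_cutf hX h2i h4
      exact_mod_cast h5
  have e2 : Z.tt (Z.jx i w r) w = Z.bs i w r := by
    rw [tt_split (hZ.hcut hij) hsq, e1]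
    rfl
  obtain ⟨h3, h4⟩ := logb_spec h1
  change (2 : ℝ) ^ (Z.jx i w r) ≤ Z.bs i w r at h3
  change Z.bs i w r < (2 : ℝ) ^ (Z.jx i w r + 1) at h4
  rw [← e2] at h3 h4
  unfold tt at h3 h4
  rw [le_div_iff₀ hZ.hL] at h3
  rw [div_lt_iff₀ hZ.hL] at h4
  exact ⟨⟨hi.1.trans hij, h3, h4⟩, e2⟩

/-- **core, node form (529's (D))**: any node `i` of `w` with a later node `b₁` and a birth
`b₂ > b₁` -/
theorem core_births {δ : ℝ} (hZ : Z.Ok) (hX : Z.Ext δ) (hw : w ∣ Z.N) (hi : Z.nd i w)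
    (hsq : Squarefree (upp (Z.cut i) w)) {b₁ b₂ : ℕ} (h1 : i < b₁) (hb₁ : Z.nd b₁ w)
    (h2 : b₁ < b₂) (hb₂ : Z.birth b₂ w) :
    (Z.Lt i w).Nonempty ∧ mn (Z.Lt i w) ≤ Z.cut b₁ ∧
      (On (NHx656.K1 δ (Z.Lt i w)) (pt Z.γ (Z.Lt i w) (mn (Z.Lt i w)))
          (sc (Z.tt i w) (Z.Lt i w) (mn (Z.Lt i w))) →
        Lost δ Z.γ (Z.tt i w) (Z.Lt i w) ∧ ps δ Z.γ (Z.tt i w) (Z.Lt i w) ≤ Z.cut b₂) := by
  obtain ⟨r0, hr0⟩ := exists_letter hZ.hL hZ.hcut hi hb₁ h1 hsq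
  rw [mem_filter] at hr0
  refine ⟨⟨r0, hr0.1⟩, (mn_le hr0.1).trans hr0.2, fun _ => ⟨?_, ?_⟩⟩
  · by_contra hl
    refine not_birth hZ hX hw hi h1 h2 hb₁ hb₂.1 hsq (fun r hr _ => ?_) hb₂
    by_contra hc
    exact hl ⟨r, hr, hc⟩
  · by_contra hc
    refine not_birth hZ hX hw hi h1 h2 hb₁ hb₂.1 hsq (fun r hr hrc => ?_) hb₂
    exact on_of_lt_ps hr (lt_of_le_of_lt hrc (not_le.1 hc))

/-- node form, coin count as hypothesis (`r = mn S` or `r = ps`) -/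
theorem bad_of_births_sum {δ : ℝ} (hZ : Z.Ok) (hX : Z.Ext δ) (hw : w ∣ Z.N) (hi : Z.nd i w)
    (hsq : Squarefree (upp (Z.cut i) w)) {b₁ b₂ : ℕ} (h1 : i < b₁) (hb₁ : Z.nd b₁ w)
    (h2 : b₁ < b₂) (hb₂ : Z.birth b₂ w) {s' : ℝ}
    (H : ∀ r ∈ Z.Lt i w, r ≤ Z.cut b₂ →
      ∑ q ∈ nc Z.cutf δ Z.γ (Z.tt i w) (Z.Lt i Z.N) (Z.Lt i w) r, (1 : ℝ) / q ≤ s') :
    Bad Z.cutf δ Z.γ (Z.tt i w) s' (Z.Lt i Z.N) (Z.Lt i w) := by
  classical
  obtain ⟨hne, hm, hp⟩ := core_births hZ hX hw hi hsq h1 hb₁ h2 hb₂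
  refine ⟨hne, ?_⟩
  by_cases hon : On (NHx656.K1 δ (Z.Lt i w)) (pt Z.γ (Z.Lt i w) (mn (Z.Lt i w)))
      (sc (Z.tt i w) (Z.Lt i w) (mn (Z.Lt i w)))
  · obtain ⟨hl, hpc⟩ := hp hon
    exact Or.inr ⟨hon, hl, Or.inr (H _ (ps_spec hl).1 hpc)⟩
  · exact Or.inl ⟨hon, H _ (mn_mem hne) (hm.trans (hZ.hcut h2.le))⟩

/-- **node form (529's (D), 12's (V5))**: few coins in `(cut i, cut b₂]`; safe nominal coins are
coins, the others have mass `≤ u` -/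
theorem bad_of_births_safe {δ : ℝ} (hZ : Z.Ok) (hX : Z.Ext δ) (hw : w ∣ Z.N) (hi : Z.nd i w)
    (hsq : Squarefree (upp (Z.cut i) w)) {b₁ b₂ : ℕ} (h1 : i < b₁) (hb₁ : Z.nd b₁ w)
    (h2 : b₁ < b₂) (hb₂ : Z.birth b₂ w) {s u : ℝ} (hs : 0 ≤ s) (hs2 : s ≤ 1 / 2)
    (hW : 1 - Z.Wp (Z.cut i) (Z.cut b₂) w ≤ s) (U : ℕ → ℕ → Prop) [∀ r q, Decidable (U r q)]
    (hU : ∀ r ∈ Z.Lt i w, ∀ q ∈ nc Z.cutf δ Z.γ (Z.tt i w) (Z.Lt i Z.N) (Z.Lt i w) r,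
      U r q → Z.coin w q)
    (hu : ∀ r ∈ Z.Lt i w, ∑ q ∈ (nc Z.cutf δ Z.γ (Z.tt i w) (Z.Lt i Z.N) (Z.Lt i w) r).filter
      (fun q => ¬ U r q), (1 : ℝ) / q ≤ u) :
    Bad Z.cutf δ Z.γ (Z.tt i w) (2 * s + u) (Z.Lt i Z.N) (Z.Lt i w) := by
  classical
  refine bad_of_births_sum hZ hX hw hi hsq h1 hb₁ h2 hb₂ fun r hr hrj => ?_
  rw [← sum_filter_add_sum_filter_not (nc Z.cutf δ Z.γ (Z.tt i w) (Z.Lt i Z.N) (Z.Lt i w) r)
    (fun q => U r q)]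
  refine add_le_add ?_ (hu r hr)
  refine sum_le_of_prod hs hs2 (le_trans (by linarith) (Wp_le_gap' hZ hX hi le_rfl hrj
    (filter_subset _ _) fun q hq => ?_))
  rw [mem_filter] at hq
  exact hU r hr q hq.1 hq.2

/-- node form, all nominal coins are coins -/
theorem bad_of_births {δ : ℝ} (hZ : Z.Ok) (hX : Z.Ext δ) (hw : w ∣ Z.N) (hi : Z.nd i w)
    (hsq : Squarefree (upp (Z.cut i) w)) {b₁ b₂ : ℕ} (h1 : i < b₁) (hb₁ : Z.nd b₁ w)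
    (h2 : b₁ < b₂) (hb₂ : Z.birth b₂ w) {s : ℝ} (hs : 0 ≤ s) (hs2 : s ≤ 1 / 2)
    (hW : 1 - Z.Wp (Z.cut i) (Z.cut b₂) w ≤ s)
    (hcoin : ∀ r ∈ Z.Lt i w, ∀ q ∈ nc Z.cutf δ Z.γ (Z.tt i w) (Z.Lt i Z.N) (Z.Lt i w) r,
      Z.coin w q) :
    Bad Z.cutf δ Z.γ (Z.tt i w) (2 * s) (Z.Lt i Z.N) (Z.Lt i w) := by
  refine bad_of_births_sum hZ hX hw hi hsq h1 hb₁ h2 hb₂ fun r hr hrj => ?_
  exact sum_le_of_prod hs hs2 (le_trans (by linarith) (Wp_le_gap hZ hX hi le_rfl hrj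
    (hcoin r hr)))

/-- **second-order core**: `On K1` at the first letter above the node `i`, `i₁ > i` a node index and
`j > i₁` a birth: the run centre is lost at `ps ≤ cut j`; if `i₁` is the next node index, every
nominal coin of the gap before `ps` is `> cut i₁` -/
theorem core_second {δ : ℝ} (hZ : Z.Ok) (hX : Z.Ext δ) (hw : w ∣ Z.N) (hi : Z.nd i w)
    (hsq : Squarefree (upp (Z.cut i) w)) {i₁ j : ℕ} (h1 : i < i₁) (hi₁ : Z.nd i₁ w)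
    (h2 : i₁ < j) (hj : Z.birth j w)
    (hon : On (NHx656.K1 δ (Z.Lt i w)) (pt Z.γ (Z.Lt i w) (mn (Z.Lt i w)))
          (sc (Z.tt i w) (Z.Lt i w) (mn (Z.Lt i w)))) :
    Lost δ Z.γ (Z.tt i w) (Z.Lt i w) ∧ ps δ Z.γ (Z.tt i w) (Z.Lt i w) ≤ Z.cut j ∧
      mn (Z.Lt i w) < ps δ Z.γ (Z.tt i w) (Z.Lt i w) ∧
      ((∀ k, i < k → Z.nd k w → i₁ ≤ k) →
        ∀ q ∈ nc Z.cutf δ Z.γ (Z.tt i w) (Z.Lt i Z.N) (Z.Lt i w)
          (ps δ Z.γ (Z.tt i w) (Z.Lt i w)), Z.cut i₁ < q) := by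
  classical
  obtain ⟨r0, hr0⟩ := exists_letter hZ.hL hZ.hcut hi hi₁ h1 hsq
  have hne : (Z.Lt i w).Nonempty := ⟨r0, (mem_filter.1 hr0).1⟩
  have hlost : Lost δ Z.γ (Z.tt i w) (Z.Lt i w) := by
    by_contra hl
    refine not_birth hZ hX hw hi h1 h2 hi₁ hj.1 hsq (fun r hr _ => ?_) hj
    by_contra hc
    exact hl ⟨r, hr, hc⟩
  have hps := ps_spec hlost
  have hmn : mn (Z.Lt i w) < ps δ Z.γ (Z.tt i w) (Z.Lt i w) := by
    refine lt_of_le_of_ne (mn_le hps.1) fun h => ?_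
    rw [h] at hon
    exact hps.2 hon
  refine ⟨hlost, ?_, hmn, ?_⟩
  · by_contra hc
    refine not_birth hZ hX hw hi h1 h2 hi₁ hj.1 hsq (fun r hr hrc => ?_) hj
    exact on_of_lt_ps hr (lt_of_le_of_lt hrc (not_le.1 hc))
  · intro hnext q hq
    unfold nc at hq
    rw [mem_filter] at hq
    obtain ⟨_, hq1, hq2, _⟩ := hq
    have hq1' : Z.cutf (Z.bs i w (ps δ Z.γ (Z.tt i w) (Z.Lt i w))) < q := hq1
    have hq2' : (q : ℝ) < (ps δ Z.γ (Z.tt i w) (Z.Lt i w) : ℕ) := by exact_mod_cast hq2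
    obtain ⟨hnd, _⟩ := node_of_letter hZ hX hi hsq (hq1'.trans hq2')
    have hlt := lt_jx hZ.hL hi (mn_mem hne) hmn
    have hle := hnext _ hlt hnd
    have h3 : ((Z.cut (Z.jx i w (ps δ Z.γ (Z.tt i w) (Z.Lt i w))) : ℕ) : ℝ) < q := hq1'
    have h4 : Z.cut (Z.jx i w (ps δ Z.γ (Z.tt i w) (Z.Lt i w))) < q := by exact_mod_cast h3
    exact lt_of_le_of_lt (hZ.hcut hle) h4

/-- **second-order (F5)(a), coin count as hypothesis** -/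
theorem bad_second_sum {δ : ℝ} (hZ : Z.Ok) (hX : Z.Ext δ) (hw : w ∣ Z.N) (hi : Z.nd i w)
    (hsq : Squarefree (upp (Z.cut i) w)) {i₁ j : ℕ} (h1 : i < i₁) (hi₁ : Z.nd i₁ w)
    (hnext : ∀ k, i < k → Z.nd k w → i₁ ≤ k) (h2 : i₁ < j) (hj : Z.birth j w)
    (hon : On (NHx656.K1 δ (Z.Lt i w)) (pt Z.γ (Z.Lt i w) (mn (Z.Lt i w)))
          (sc (Z.tt i w) (Z.Lt i w) (mn (Z.Lt i w)))) {s' : ℝ}
    (H : ∀ r ∈ Z.Lt i w, r ≤ Z.cut j →
      (∀ q ∈ nc Z.cutf δ Z.γ (Z.tt i w) (Z.Lt i Z.N) (Z.Lt i w) r, Z.cut i₁ < q) →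
      ∑ q ∈ nc Z.cutf δ Z.γ (Z.tt i w) (Z.Lt i Z.N) (Z.Lt i w) r, (1 : ℝ) / q ≤ s') :
    Bad Z.cutf δ Z.γ (Z.tt i w) s' (Z.Lt i Z.N) (Z.Lt i w) := by
  obtain ⟨hl, hpc, _, hq⟩ := core_second hZ hX hw hi hsq h1 hi₁ h2 hj hon
  refine ⟨⟨_, (ps_spec hl).1⟩, Or.inr ⟨hon, hl, Or.inr ?_⟩⟩
  exact H _ (ps_spec hl).1 hpc (hq hnext)

/-- coins of one gap above the cut `i₁` -/
lemma Wp_le_gap_ab {δ : ℝ} (hZ : Z.Ok) (hX : Z.Ext δ) {a b r : ℕ} (hi : Z.nd i w)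
    (hrb : r ≤ Z.cut b) {F : Finset ℕ}
    (hF : F ⊆ nc Z.cutf δ Z.γ (Z.tt i w) (Z.Lt i Z.N) (Z.Lt i w) r)
    (hcoin : ∀ q ∈ F, Z.coin w q) (ha : ∀ q ∈ F, Z.cut a < q) :
    Z.Wp (Z.cut a) (Z.cut b) w ≤ ∏ q ∈ F, (1 - 1 / (q : ℝ)) := by
  classical
  rcases le_total a i with h | h
  · exact Wp_le_gap' hZ hX hi h hrb hF hcoin
  · -- restrict the coins to those above `cut a`
    unfold Wp
    have hsub : F ⊆ (free Z.N w).filter fun p => Z.cut a < p ∧ p ≤ Z.cut b ∧ Z.coin w p := by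
      intro q hq
      have hc := hcoin q hq
      have hqa := ha q hq
      have hq' := hF hq
      unfold nc at hq'
      rw [mem_filter] at hq'
      obtain ⟨hqP, h1, h2, _⟩ := hq'
      obtain ⟨hqp, hqi, hqN⟩ := mem_Lt.1 hqP
      have hfw : w.factorization q = 0 := by
        by_contra hne
        have hqS : q ∈ Z.Lt i w := mem_Lt.2 ⟨hqp, hqi, hne⟩
        have h4 := letter_le_bs hZ.hL hi hqS h2
        have h5 := one_le_tt hZ.hL hi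
        have h6 : (0 : ℝ) ≤ q := Nat.cast_nonneg _
        have h8 : (2 : ℝ) ^ Z.i0 ≤ Z.bs i w r :=
          (pow_le_pow_right₀ (by norm_num) hi.1).trans ((tt_ge hZ.hL hi).trans
            (tt_le_bs hZ.hL hi r))
        have h9 := le_cutf hX (τ := Z.bs i w r) (p := q) h8 (by nlinarith)
        have h10 : Z.cutf (Z.bs i w r) < q := h1
        linarith
      rw [mem_filter]
      refine ⟨?_, hqa, h2.le.trans hrb, hc⟩
      rw [mem_free, ← Nat.support_factorization, Finsupp.mem_support_iff]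
      exact ⟨hqN, by omega⟩
    rw [← prod_sdiff hsub]
    have h1 : ∏ p ∈ ((free Z.N w).filter fun p => Z.cut a < p ∧ p ≤ Z.cut b ∧ Z.coin w p) \
        F, (1 - 1 / (p : ℝ)) ≤ 1 :=
      prod_le_one (fun p _ => one_sub_nonneg p) fun p _ => one_sub_le_one p
    have h2 : 0 ≤ ∏ q ∈ F, (1 - 1 / (q : ℝ)) := prod_nonneg fun p _ => one_sub_nonneg p
    nlinarith

/-- **second-order (F5)(a)**: few coins in `(cut i₁, cut j]`; safe nominal coins are coins, the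
others have mass `≤ u` -/
theorem bad_second_safe {δ : ℝ} (hZ : Z.Ok) (hX : Z.Ext δ) (hw : w ∣ Z.N) (hi : Z.nd i w)
    (hsq : Squarefree (upp (Z.cut i) w)) {i₁ j : ℕ} (h1 : i < i₁) (hi₁ : Z.nd i₁ w)
    (hnext : ∀ k, i < k → Z.nd k w → i₁ ≤ k) (h2 : i₁ < j) (hj : Z.birth j w)
    (hon : On (NHx656.K1 δ (Z.Lt i w)) (pt Z.γ (Z.Lt i w) (mn (Z.Lt i w)))
          (sc (Z.tt i w) (Z.Lt i w) (mn (Z.Lt i w)))) {s u : ℝ} (hs : 0 ≤ s) (hs2 : s ≤ 1 / 2)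
    (hW : 1 - s ≤ Z.Wp (Z.cut i₁) (Z.cut j) w) (U : ℕ → ℕ → Prop) [∀ r q, Decidable (U r q)]
    (hU : ∀ r ∈ Z.Lt i w, ∀ q ∈ nc Z.cutf δ Z.γ (Z.tt i w) (Z.Lt i Z.N) (Z.Lt i w) r,
      U r q → Z.coin w q)
    (hu : ∀ r ∈ Z.Lt i w, ∑ q ∈ (nc Z.cutf δ Z.γ (Z.tt i w) (Z.Lt i Z.N) (Z.Lt i w) r).filter
      (fun q => ¬ U r q), (1 : ℝ) / q ≤ u) :
    Bad Z.cutf δ Z.γ (Z.tt i w) (2 * s + u) (Z.Lt i Z.N) (Z.Lt i w) := by
  classical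
  refine bad_second_sum hZ hX hw hi hsq h1 hi₁ hnext h2 hj hon fun r hr hrj hqa => ?_
  rw [← sum_filter_add_sum_filter_not (nc Z.cutf δ Z.γ (Z.tt i w) (Z.Lt i Z.N) (Z.Lt i w) r)
    (fun q => U r q)]
  refine add_le_add ?_ (hu r hr)
  refine sum_le_of_prod hs hs2 (hW.trans (Wp_le_gap_ab hZ hX hi hrj (filter_subset _ _)
    (fun q hq => ?_) fun q hq => ?_))
  · rw [mem_filter] at hq
    exact hU r hr q hq.1 hq.2
  · rw [mem_filter] at hq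
    exact hqa q hq.1

/-- **second-order (F5)(a)**, all nominal coins are coins -/
theorem bad_second {δ : ℝ} (hZ : Z.Ok) (hX : Z.Ext δ) (hw : w ∣ Z.N) (hi : Z.nd i w)
    (hsq : Squarefree (upp (Z.cut i) w)) {i₁ j : ℕ} (h1 : i < i₁) (hi₁ : Z.nd i₁ w)
    (hnext : ∀ k, i < k → Z.nd k w → i₁ ≤ k) (h2 : i₁ < j) (hj : Z.birth j w)
    (hon : On (NHx656.K1 δ (Z.Lt i w)) (pt Z.γ (Z.Lt i w) (mn (Z.Lt i w)))
          (sc (Z.tt i w) (Z.Lt i w) (mn (Z.Lt i w)))) {s : ℝ} (hs : 0 ≤ s) (hs2 : s ≤ 1 / 2)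
    (hW : 1 - s ≤ Z.Wp (Z.cut i₁) (Z.cut j) w)
    (hcoin : ∀ r ∈ Z.Lt i w, ∀ q ∈ nc Z.cutf δ Z.γ (Z.tt i w) (Z.Lt i Z.N) (Z.Lt i w) r,
      Z.coin w q) :
    Bad Z.cutf δ Z.γ (Z.tt i w) (2 * s) (Z.Lt i Z.N) (Z.Lt i w) := by
  refine bad_second_sum hZ hX hw hi hsq h1 hi₁ hnext h2 hj hon fun r hr hrj hqa => ?_
  exact sum_le_of_prod hs hs2 (hW.trans (Wp_le_gap_ab hZ hX hi hrj subset_rfl
    (hcoin r hr) hqa))

/-- `Y z w ≤ s < 1` for a zone born at the node `i₁`: the births after it and the coins -/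
theorem births_of_Y {i₁ : ℕ} {s : ℝ} (hs : s < 1) (hb : Z.birth i₁ w)
    (hY : Z.Y (Z.zone i₁ w) w ≤ s) : ∃ j₁ j₂, i₁ < j₁ ∧ j₁ < j₂ ∧ Z.birth j₁ w ∧ Z.birth j₂ w ∧
      1 - s ≤ Z.Wp (Z.cut i₁) (Z.cut j₂) w := by
  classical
  have hz1 : (Z.zone i₁ w).1 = i₁ := by
    change Z.bi i₁ w = i₁
    unfold bi
    exact le_antisymm (Nat.findGreatest_le i₁)
      (Nat.le_findGreatest (P := fun i' => Z.birth i' w) le_rfl hb)
  unfold Y at hY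
  rw [hz1] at hY
  split_ifs at hY with hnb
  swap
  · linarith
  obtain ⟨hn1, hn2⟩ := hnb
  obtain ⟨a1, hb1⟩ := nb_spec hn1
  obtain ⟨a2, hb2⟩ := nb_spec hn2
  exact ⟨_, _, a1, a2, hb1, hb2, by linarith⟩

/-- **second-order (F5)(a) from `Y`**: `z = zone i₁ w` born at the next node `i₁` -/
theorem bad_second_of_Y {δ : ℝ} (hZ : Z.Ok) (hX : Z.Ext δ) (hw : w ∣ Z.N) (hi : Z.nd i w)
    (hsq : Squarefree (upp (Z.cut i) w)) {i₁ : ℕ} (h1 : i < i₁)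
    (hnext : ∀ k, i < k → Z.nd k w → i₁ ≤ k) (hb : Z.birth i₁ w)
    (hon : On (NHx656.K1 δ (Z.Lt i w)) (pt Z.γ (Z.Lt i w) (mn (Z.Lt i w)))
          (sc (Z.tt i w) (Z.Lt i w) (mn (Z.Lt i w)))) {s u : ℝ} (hs : 0 ≤ s) (hs2 : s ≤ 1 / 2)
    (hY : Z.Y (Z.zone i₁ w) w ≤ s) (U : ℕ → ℕ → Prop) [∀ r q, Decidable (U r q)]
    (hU : ∀ r ∈ Z.Lt i w, ∀ q ∈ nc Z.cutf δ Z.γ (Z.tt i w) (Z.Lt i Z.N) (Z.Lt i w) r,
      U r q → Z.coin w q)
    (hu : ∀ r ∈ Z.Lt i w, ∑ q ∈ (nc Z.cutf δ Z.γ (Z.tt i w) (Z.Lt i Z.N) (Z.Lt i w) r).filter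
      (fun q => ¬ U r q), (1 : ℝ) / q ≤ u) :
    Bad Z.cutf δ Z.γ (Z.tt i w) (2 * s + u) (Z.Lt i Z.N) (Z.Lt i w) := by
  obtain ⟨j₁, j₂, a1, a2, _, hb2, hW⟩ := births_of_Y (by linarith) hb hY
  exact bad_second_safe hZ hX hw hi hsq h1 hb.1 hnext (a1.trans a2) hb2 hon hs hs2 hW U hU hu

end

end Crest.Agent.R4C.GWdefx982.World
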