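import Crest.Agent.R4C.ThmRb_19

/-!
# Row 4: the weight `FF` of `thmR` is bounded by the size of the active words (helper473)

`FF δ g Ma h h' ≤ ((h / (h,h')) * (h' / (h,h')))^(-δ)`.
-/

set_option autoImplicit false

namespace Crest.Agent.R4C.FFlex473

open Finset Real Crest.Agent.R4C.ThmRx19 Crest.Agent.R4C.OnePx19

lemma cof_fact {h h' : ℕ} (hh : h ≠ 0) (hh' : h' ≠ 0) (p : ℕ) :
    ((h / Nat.gcd h h') * (h' / Nat.gcd h h')).factorization p =
      dst (h.factorization p) (h'.factorization p) := by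
  have hg0 : Nat.gcd h h' ≠ 0 := Nat.gcd_ne_zero_left hh
  have e1 : h / Nat.gcd h h' ≠ 0 :=
    (Nat.div_pos (Nat.le_of_dvd (Nat.pos_of_ne_zero hh) (Nat.gcd_dvd_left _ _))
      (Nat.pos_of_ne_zero hg0)).ne'
  have e2 : h' / Nat.gcd h h' ≠ 0 :=
    (Nat.div_pos (Nat.le_of_dvd (Nat.pos_of_ne_zero hh') (Nat.gcd_dvd_right _ _))
      (Nat.pos_of_ne_zero hg0)).ne'
  rw [Nat.factorization_mul e1 e2, Finsupp.add_apply, Nat.factorization_div (Nat.gcd_dvd_left _ _),
    Nat.factorization_div (Nat.gcd_dvd_right _ _), Finsupp.tsub_apply, Finsupp.tsub_apply,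
    Nat.factorization_gcd hh hh', Finsupp.inf_apply]
  unfold dst
  rcases le_total (h.factorization p) (h'.factorization p) with hle | hle
  · rw [inf_eq_left.2 hle]; omega
  · rw [inf_eq_right.2 hle]; omega

/-- the product of the cofactors of two divisors of `Ma` -/
lemma cof_prod {Ma h h' : ℕ} (hMa : Ma ≠ 0) (hh : h ∣ Ma) (hh' : h' ∣ Ma) :
    (h / Nat.gcd h h') * (h' / Nat.gcd h h') =
      ∏ p ∈ Ma.primeFactors, p ^ dst (h.factorization p) (h'.factorization p) := by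
  have hh0 : h ≠ 0 := fun h0 => hMa (Nat.eq_zero_of_zero_dvd (h0 ▸ hh))
  have hh0' : h' ≠ 0 := fun h0 => hMa (Nat.eq_zero_of_zero_dvd (h0 ▸ hh'))
  have hg0 : Nat.gcd h h' ≠ 0 := Nat.gcd_ne_zero_left hh0
  have e1 : h / Nat.gcd h h' ≠ 0 :=
    (Nat.div_pos (Nat.le_of_dvd (Nat.pos_of_ne_zero hh0) (Nat.gcd_dvd_left _ _))
      (Nat.pos_of_ne_zero hg0)).ne'
  have e2 : h' / Nat.gcd h h' ≠ 0 :=
    (Nat.div_pos (Nat.le_of_dvd (Nat.pos_of_ne_zero hh0') (Nat.gcd_dvd_right _ _))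
      (Nat.pos_of_ne_zero hg0)).ne'
  set N := (h / Nat.gcd h h') * (h' / Nat.gcd h h') with hN
  have hN0 : N ≠ 0 := mul_ne_zero e1 e2
  have hsub : N.primeFactors ⊆ Ma.primeFactors := by
    intro p hp
    rw [hN, Nat.primeFactors_mul e1 e2, Finset.mem_union] at hp
    rcases hp with hp | hp
    · exact Nat.primeFactors_mono ((Nat.div_dvd_of_dvd (Nat.gcd_dvd_left _ _)).trans hh) hMa hp
    · exact Nat.primeFactors_mono ((Nat.div_dvd_of_dvd (Nat.gcd_dvd_right _ _)).trans hh') hMa hp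
  calc N = N.factorization.prod (fun p k => p ^ k) := (Nat.prod_factorization_pow_eq_self hN0).symm
    _ = ∏ p ∈ N.primeFactors, p ^ N.factorization p := rfl
    _ = ∏ p ∈ Ma.primeFactors, p ^ N.factorization p := by
        refine Finset.prod_subset hsub fun p _ hp => ?_
        have : N.factorization p = 0 := by
          rw [← Finsupp.notMem_support_iff, Nat.support_factorization]; exact hp
        rw [this, pow_zero]
    _ = _ := by
        refine Finset.prod_congr rfl fun p _ => ?_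
        rw [hN, cof_fact hh0 hh0']

/-- **size bound of `FF`** -/
theorem FF_le {δ : ℝ} {g : ℕ → ℝ} (hg : ∀ p, 0 ≤ g p) (hg1 : ∀ p, g p ≤ 1)
    {Ma h h' : ℕ} (hMa : Ma ≠ 0) (hh : h ∣ Ma) (hh' : h' ∣ Ma) :
    FF δ g Ma h h' ≤ ((((h / Nat.gcd h h') * (h' / Nat.gcd h h') : ℕ)) : ℝ) ^ (-δ) := by
  rw [cof_prod hMa hh hh']
  push_cast
  have hpp : ∀ p ∈ Ma.primeFactors,
      (0 : ℝ) ≤ (p : ℝ) ^ dst (h.factorization p) (h'.factorization p) :=
    fun p _ => by positivity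
  rw [← Real.finsetProd_rpow _ _ hpp]
  unfold FF
  refine Finset.prod_le_prod (fun p _ => ?_) (fun p hp => ?_)
  · split_ifs
    · exact hg p
    · exact Real.rpow_nonneg (Nat.cast_nonneg _) _
  · split_ifs with he
    · rw [he, dst_self, pow_zero, Real.one_rpow]
      exact hg1 p
    · refine le_of_eq ?_
      rw [← Real.rpow_natCast, ← Real.rpow_mul (Nat.cast_nonneg _)]
      congr 1
      ring

/-- the same with the two cofactors separately -/
theorem FF_le' {δ : ℝ} {g : ℕ → ℝ} (hg : ∀ p, 0 ≤ g p) (hg1 : ∀ p, g p ≤ 1)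
    {Ma h h' : ℕ} (hMa : Ma ≠ 0) (hh : h ∣ Ma) (hh' : h' ∣ Ma) :
    FF δ g Ma h h' ≤ (((h / Nat.gcd h h' : ℕ) : ℝ) * ((h' / Nat.gcd h h' : ℕ) : ℝ)) ^ (-δ) := by
  have := FF_le (δ := δ) hg hg1 hMa hh hh'
  push_cast at this ⊢
  exact this

end Crest.Agent.R4C.FFlex473
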