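import Crest.Agent.R4C.FamKap_398

/-!
# Row 4, GW section (vector case): budget of the errors `K1 / index` over the zones of one word (helper398)

Growth of the indices by a factor `2` (helper473 / helper6: `kap z = K1 / pz z`).

* `exists_levels2` : `1 ≤ I z`, `I z < I z' → 2 * I z ≤ I z'` ⟹ levels with `2 ^ ℓ z ≤ I z`.
* `sum_inv_growth` : then `∑_z 1 / I z ≤ 2 m` (`m` = multiplicity of the values).
* `sum_both` : `∑_z (min 1 (D K z ^ (-c)) + a / I z) ≤ m bud c D + 2 a m'`.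
-/

set_option autoImplicit false

open Finset

noncomputable section

namespace Crest.Agent.R4C.FamKapx398

/-- levels from growth by the factor `2` -/
theorem exists_levels2 {ζ : Type*} (Zw : Finset ζ) (K : ζ → ℝ) (h2 : ∀ z ∈ Zw, 1 ≤ K z)
    (hg : ∀ z ∈ Zw, ∀ z' ∈ Zw, K z < K z' → 2 * K z ≤ K z') :
    ∃ ℓ : ζ → ℕ, (∀ z ∈ Zw, (2 : ℝ) ^ ℓ z ≤ K z) ∧
      ∀ z ∈ Zw, ∀ z' ∈ Zw, ℓ z = ℓ z' → K z = K z' := by
  classical
  let V : Finset ℝ := Zw.image K
  let ℓ : ζ → ℕ := fun z => (V.filter fun v => v < K z).card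
  have hlt : ∀ z ∈ Zw, ∀ z' ∈ Zw, K z < K z' → ℓ z < ℓ z' := by
    intro z hz z' _ h
    refine card_lt_card ?_
    rw [Finset.ssubset_iff_of_subset]
    · exact ⟨K z, mem_filter.2 ⟨mem_image_of_mem K hz, h⟩, by simp⟩
    · intro v hv
      rw [mem_filter] at hv ⊢
      exact ⟨hv.1, hv.2.trans h⟩
  refine ⟨ℓ, ?_, ?_⟩
  · have key : ∀ n : ℕ, ∀ z ∈ Zw, ℓ z = n → (2 : ℝ) ^ n ≤ K z := by
      intro n
      induction n with
      | zero => intro z hz _; simpa using h2 z hz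
      | succ n ih =>
        intro z hz hn
        have hne : (V.filter fun v => v < K z).Nonempty := by
          rw [← card_pos]
          change 0 < ℓ z
          omega
        obtain ⟨v, hv, hmax⟩ := exists_max_image (V.filter fun v => v < K z) id hne
        rw [mem_filter] at hv
        obtain ⟨z1, hz1, rfl⟩ := mem_image.1 hv.1
        have hl : ℓ z1 = n := by
          have e : (V.filter fun v => v < K z) = insert (K z1) (V.filter fun v => v < K z1) := by
            ext v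
            rw [mem_insert, mem_filter, mem_filter]
            constructor
            · rintro ⟨h3, h4⟩
              have h5 := hmax v (mem_filter.2 ⟨h3, h4⟩)
              rcases lt_or_eq_of_le h5 with h6 | h6
              · exact Or.inr ⟨h3, h6⟩
              · exact Or.inl h6
            · rintro (rfl | ⟨h3, h4⟩)
              · exact hv
              · exact ⟨h3, h4.trans hv.2⟩
          have e2 : ℓ z = ℓ z1 + 1 := by
            change (V.filter fun v => v < K z).card = (V.filter fun v => v < K z1).card + 1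
            rw [e, card_insert_of_notMem (by simp)]
          omega
        have h3 := ih z1 hz1 hl
        have h4 := hg z1 hz1 z hz hv.2
        rw [pow_succ]
        linarith
    exact fun z hz => key _ z hz rfl
  · intro z hz z' hz' h
    rcases lt_trichotomy (K z) (K z') with h1 | h1 | h1
    · exact absurd h (hlt z hz z' hz' h1).ne
    · exact h1
    · exact absurd h (hlt z' hz' z hz h1).ne'

/-- levels version -/
theorem sum_inv_levels {ζ : Type*} (Zw : Finset ζ) (I : ζ → ℝ) (ℓ : ζ → ℕ) (m : ℕ)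
    (hm : ∀ j, (Zw.filter fun z => ℓ z = j).card ≤ m) (hI : ∀ z ∈ Zw, (2 : ℝ) ^ ℓ z ≤ I z) :
    ∑ z ∈ Zw, 1 / I z ≤ 2 * m := by
  classical
  calc ∑ z ∈ Zw, 1 / I z ≤ ∑ z ∈ Zw, (1 / 2 : ℝ) ^ ℓ z := by
        refine sum_le_sum fun z hz => ?_
        rw [div_pow, one_pow]
        exact one_div_le_one_div_of_le (by positivity) (hI z hz)
    _ = ∑ j ∈ Zw.image ℓ, ∑ z ∈ Zw with ℓ z = j, (1 / 2 : ℝ) ^ ℓ z :=
        (sum_fiberwise_of_maps_to (fun z hz => mem_image_of_mem ℓ hz) _).symm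
    _ = ∑ j ∈ Zw.image ℓ, ((Zw.filter fun z => ℓ z = j).card : ℝ) * (1 / 2 : ℝ) ^ j := by
        refine sum_congr rfl fun j _ => ?_
        rw [← nsmul_eq_mul, ← sum_const]
        exact sum_congr rfl fun z hz => by rw [(mem_filter.1 hz).2]
    _ ≤ ∑ j ∈ Zw.image ℓ, (m : ℝ) * (1 / 2 : ℝ) ^ j := by
        refine sum_le_sum fun j _ => mul_le_mul_of_nonneg_right ?_ (by positivity)
        exact_mod_cast hm j
    _ = m * ∑ j ∈ Zw.image ℓ, (1 / 2 : ℝ) ^ j := by rw [mul_sum]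
    _ ≤ m * 2 := by
        refine mul_le_mul_of_nonneg_left ?_ (Nat.cast_nonneg _)
        have hs : Summable fun j : ℕ => (1 / 2 : ℝ) ^ j := summable_geometric_two
        have := hs.sum_le_tsum (Zw.image ℓ) fun j _ => by positivity
        rwa [tsum_geometric_two] at this
    _ = 2 * m := by ring

/-- **budget of `1 / index`** -/
theorem sum_inv_growth {ζ : Type*} (Zw : Finset ζ) (I : ζ → ℝ) (m : ℕ)
    (hm : ∀ z ∈ Zw, (Zw.filter fun z' => I z' = I z).card ≤ m)
    (h1 : ∀ z ∈ Zw, 1 ≤ I z) (hg : ∀ z ∈ Zw, ∀ z' ∈ Zw, I z < I z' → 2 * I z ≤ I z') :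
    ∑ z ∈ Zw, 1 / I z ≤ 2 * m := by
  classical
  obtain ⟨ℓ, h3, h4⟩ := exists_levels2 Zw I h1 hg
  refine sum_inv_levels Zw I ℓ m (fun j => ?_) h3
  rcases (Zw.filter fun z => ℓ z = j).eq_empty_or_nonempty with h | ⟨z0, hz0⟩
  · rw [h]; simp
  · rw [mem_filter] at hz0
    refine le_trans (card_le_card fun z hz => ?_) (hm z0 hz0.1)
    rw [mem_filter] at hz ⊢
    exact ⟨hz.1, h4 z hz.1 z0 hz0.1 (hz.2.trans hz0.2.symm)⟩

/-- both errors together -/
theorem sum_both {ζ : Type*} (Zw : Finset ζ) (K I : ζ → ℝ) (m m' : ℕ)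
    (hm : ∀ z ∈ Zw, (Zw.filter fun z' => K z' = K z).card ≤ m)
    (h2 : ∀ z ∈ Zw, 2 ≤ K z) (hg : ∀ z ∈ Zw, ∀ z' ∈ Zw, K z < K z' → K z ^ 2 ≤ K z')
    (hm' : ∀ z ∈ Zw, (Zw.filter fun z' => I z' = I z).card ≤ m')
    (h1 : ∀ z ∈ Zw, 1 ≤ I z) (hg' : ∀ z ∈ Zw, ∀ z' ∈ Zw, I z < I z' → 2 * I z ≤ I z')
    {c D a : ℝ} (hc : 0 < c) (hD : 1 ≤ D) (ha : 0 ≤ a) :
    ∑ z ∈ Zw, (min 1 (D * K z ^ (-c)) + a / I z) ≤ m * bud c D + a * (2 * m') := by
  rw [sum_add_distrib]
  refine add_le_add (sum_min_growth Zw K m hm h2 hg hc hD) ?_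
  have h := sum_inv_growth Zw I m' hm' h1 hg'
  calc ∑ z ∈ Zw, a / I z = a * ∑ z ∈ Zw, 1 / I z := by
        rw [mul_sum]; exact sum_congr rfl fun z _ => by ring
    _ ≤ a * (2 * m') := mul_le_mul_of_nonneg_left h ha

end Crest.Agent.R4C.FamKapx398
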