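import Crest.Agent.R4C.FamKapB_398

/-!
# Row 4, GW section (vector case): budget of `min 1 (D / index)` over the zones of one word (helper398)

* `sum_min_inv_levels`, `sum_min_inv_growth` : `∑_z min 1 (D / I z) ≤ m (3 + logb 2 D)`.
* `sum_min_both` : `∑_z min 1 (D (K z ^ (-c) + 1 / I z)) ≤ m bud c D + m' (3 + logb 2 D)`
  (24's `kapV z = min 1 (K1 Δ (KK^-c + 1/i0))`).
-/

set_option autoImplicit false

open Finset

noncomputable section

namespace Crest.Agent.R4C.FamKapx398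

lemma sum_levels_inv {D : ℝ} (hD : 1 ≤ D) (J : Finset ℕ) :
    ∑ j ∈ J, min 1 (D * (1 / 2 : ℝ) ^ j) ≤ 3 + Real.logb 2 D := by
  classical
  have hD0 : 0 < D := by linarith
  rw [← sum_filter_add_sum_filter_not J (fun j : ℕ => (2 : ℝ) ^ j < D)]
  have h1 : ∑ j ∈ J with (2 : ℝ) ^ j < D, min 1 (D * (1 / 2 : ℝ) ^ j) ≤ 1 + Real.logb 2 D := by
    have hsub : (J.filter fun j : ℕ => (2 : ℝ) ^ j < D) ⊆ range (⌊Real.logb 2 D⌋₊ + 1) := by
      intro j hj
      rw [mem_range, Nat.lt_succ_iff]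
      refine Nat.le_floor ?_
      rw [Real.le_logb_iff_rpow_le (by norm_num) hD0, Real.rpow_natCast]
      exact (mem_filter.1 hj).2.le
    have hcard := card_le_card hsub
    rw [card_range] at hcard
    have h5 : (((J.filter fun j : ℕ => (2 : ℝ) ^ j < D).card : ℕ) : ℝ) ≤
        (⌊Real.logb 2 D⌋₊ : ℝ) + 1 := by exact_mod_cast hcard
    have h6 : (⌊Real.logb 2 D⌋₊ : ℝ) ≤ Real.logb 2 D := Nat.floor_le (logb_two_nonneg hD)
    calc _ ≤ ∑ j ∈ J with (2 : ℝ) ^ j < D, (1 : ℝ) := sum_le_sum fun j _ => min_le_left _ _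
      _ = ((J.filter fun j : ℕ => (2 : ℝ) ^ j < D).card : ℝ) := by
          rw [sum_const, nsmul_eq_mul, mul_one]
      _ ≤ _ := by linarith
  have h2 : ∑ j ∈ J with ¬ (2 : ℝ) ^ j < D, min 1 (D * (1 / 2 : ℝ) ^ j) ≤ 2 := by
    set n := ⌈Real.logb 2 D⌉₊ with hn
    have hj : ∀ j ∈ J.filter (fun j : ℕ => ¬ (2 : ℝ) ^ j < D), n ≤ j := by
      intro j hj
      have h3 := not_lt.1 (mem_filter.1 hj).2
      refine Nat.ceil_le.2 ?_
      rw [Real.logb_le_iff_le_rpow (by norm_num) hD0, Real.rpow_natCast]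
      exact h3
    have hDn : D ≤ (2 : ℝ) ^ n := by
      have h4 : Real.logb 2 D ≤ n := Nat.le_ceil _
      rw [Real.logb_le_iff_le_rpow (by norm_num) hD0, Real.rpow_natCast] at h4
      exact h4
    calc ∑ j ∈ J with ¬ (2 : ℝ) ^ j < D, min 1 (D * (1 / 2 : ℝ) ^ j)
        ≤ ∑ j ∈ J with ¬ (2 : ℝ) ^ j < D, (1 / 2 : ℝ) ^ (j - n) := by
          refine sum_le_sum fun j hj' => (min_le_right _ _).trans ?_
          have h5 : (1 / 2 : ℝ) ^ j = (1 / 2 : ℝ) ^ (j - n) * (1 / 2) ^ n := by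
            rw [← pow_add, Nat.sub_add_cancel (hj j hj')]
          have h6 : (2 : ℝ) ^ n * (1 / 2) ^ n = 1 := by
            rw [← mul_pow]; norm_num
          calc D * (1 / 2 : ℝ) ^ j ≤ (2 : ℝ) ^ n * (1 / 2 : ℝ) ^ j :=
                mul_le_mul_of_nonneg_right hDn (by positivity)
            _ = (1 / 2 : ℝ) ^ (j - n) * ((2 : ℝ) ^ n * (1 / 2) ^ n) := by rw [h5]; ring
            _ = _ := by rw [h6, mul_one]
      _ = ∑ i ∈ (J.filter fun j : ℕ => ¬ (2 : ℝ) ^ j < D).image (· - n), (1 / 2 : ℝ) ^ i := by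
          rw [sum_image]
          intro a ha b hb h
          have h7 := hj a ha
          have h8 := hj b hb
          simp only at h
          omega
      _ ≤ 2 := by
          have hs : Summable fun j : ℕ => (1 / 2 : ℝ) ^ j := summable_geometric_two
          have := hs.sum_le_tsum ((J.filter fun j : ℕ => ¬ (2 : ℝ) ^ j < D).image (· - n))
            fun j _ => by positivity
          rwa [tsum_geometric_two] at this
  linarith

theorem sum_min_inv_levels {ζ : Type*} (Zw : Finset ζ) (I : ζ → ℝ) (ℓ : ζ → ℕ) (m : ℕ)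
    (hm : ∀ j, (Zw.filter fun z => ℓ z = j).card ≤ m) {D : ℝ} (hD : 1 ≤ D)
    (hI : ∀ z ∈ Zw, (2 : ℝ) ^ ℓ z ≤ I z) :
    ∑ z ∈ Zw, min 1 (D / I z) ≤ m * (3 + Real.logb 2 D) := by
  classical
  calc ∑ z ∈ Zw, min 1 (D / I z) ≤ ∑ z ∈ Zw, min 1 (D * (1 / 2 : ℝ) ^ ℓ z) := by
        refine sum_le_sum fun z hz => min_le_min le_rfl ?_
        rw [div_eq_mul_one_div]
        refine mul_le_mul_of_nonneg_left ?_ (by linarith)
        rw [div_pow, one_pow]
        exact one_div_le_one_div_of_le (by positivity) (hI z hz)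
    _ = ∑ j ∈ Zw.image ℓ, ∑ z ∈ Zw with ℓ z = j, min 1 (D * (1 / 2 : ℝ) ^ ℓ z) :=
        (sum_fiberwise_of_maps_to (fun z hz => mem_image_of_mem ℓ hz) _).symm
    _ = ∑ j ∈ Zw.image ℓ, ((Zw.filter fun z => ℓ z = j).card : ℝ) *
          min 1 (D * (1 / 2 : ℝ) ^ j) := by
        refine sum_congr rfl fun j _ => ?_
        rw [← nsmul_eq_mul, ← sum_const]
        exact sum_congr rfl fun z hz => by rw [(mem_filter.1 hz).2]
    _ ≤ ∑ j ∈ Zw.image ℓ, (m : ℝ) * min 1 (D * (1 / 2 : ℝ) ^ j) := by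
        refine sum_le_sum fun j _ => mul_le_mul_of_nonneg_right ?_ ?_
        · exact_mod_cast hm j
        · exact le_min zero_le_one (mul_nonneg (by linarith) (by positivity))
    _ = m * ∑ j ∈ Zw.image ℓ, min 1 (D * (1 / 2 : ℝ) ^ j) := by rw [mul_sum]
    _ ≤ m * (3 + Real.logb 2 D) :=
        mul_le_mul_of_nonneg_left (sum_levels_inv hD _) (Nat.cast_nonneg _)

/-- **budget of `min 1 (D / index)`** -/
theorem sum_min_inv_growth {ζ : Type*} (Zw : Finset ζ) (I : ζ → ℝ) (m : ℕ)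
    (hm : ∀ z ∈ Zw, (Zw.filter fun z' => I z' = I z).card ≤ m)
    (h1 : ∀ z ∈ Zw, 1 ≤ I z) (hg : ∀ z ∈ Zw, ∀ z' ∈ Zw, I z < I z' → 2 * I z ≤ I z')
    {D : ℝ} (hD : 1 ≤ D) :
    ∑ z ∈ Zw, min 1 (D / I z) ≤ m * (3 + Real.logb 2 D) := by
  classical
  obtain ⟨ℓ, h3, h4⟩ := exists_levels2 Zw I h1 hg
  refine sum_min_inv_levels Zw I ℓ m (fun j => ?_) hD h3
  rcases (Zw.filter fun z => ℓ z = j).eq_empty_or_nonempty with h | ⟨z0, hz0⟩
  · rw [h]; simp
  · rw [mem_filter] at hz0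
    refine le_trans (card_le_card fun z hz => ?_) (hm z0 hz0.1)
    rw [mem_filter] at hz ⊢
    exact ⟨hz.1, h4 z hz.1 z0 hz0.1 (hz.2.trans hz0.2.symm)⟩

lemma min_add_le {a b : ℝ} (ha : 0 ≤ a) (hb : 0 ≤ b) : min 1 (a + b) ≤ min 1 a + min 1 b := by
  rcases le_total 1 a with h | h
  · rw [min_eq_left h]
    have : 0 ≤ min 1 b := le_min zero_le_one hb
    linarith [min_le_left 1 (a + b)]
  · rcases le_total 1 b with h' | h'
    · rw [min_eq_left h']
      have : 0 ≤ min 1 a := le_min zero_le_one ha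
      linarith [min_le_left 1 (a + b)]
    · rw [min_eq_right h, min_eq_right h']
      exact min_le_right _ _

/-- **24's form** : `kapV z = min 1 (D (K z ^ (-c) + 1 / I z))` -/
theorem sum_min_both {ζ : Type*} (Zw : Finset ζ) (K I : ζ → ℝ) (m m' : ℕ)
    (hm : ∀ z ∈ Zw, (Zw.filter fun z' => K z' = K z).card ≤ m)
    (h2 : ∀ z ∈ Zw, 2 ≤ K z) (hg : ∀ z ∈ Zw, ∀ z' ∈ Zw, K z < K z' → K z ^ 2 ≤ K z')
    (hm' : ∀ z ∈ Zw, (Zw.filter fun z' => I z' = I z).card ≤ m')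
    (h1 : ∀ z ∈ Zw, 1 ≤ I z) (hg' : ∀ z ∈ Zw, ∀ z' ∈ Zw, I z < I z' → 2 * I z ≤ I z')
    {c D : ℝ} (hc : 0 < c) (hD : 1 ≤ D) :
    ∑ z ∈ Zw, min 1 (D * (K z ^ (-c) + 1 / I z)) ≤
      m * bud c D + m' * (3 + Real.logb 2 D) := by
  have h3 : ∀ z ∈ Zw, min 1 (D * (K z ^ (-c) + 1 / I z)) ≤
      min 1 (D * K z ^ (-c)) + min 1 (D / I z) := by
    intro z hz
    have h4 := h2 z hz
    have h5 := h1 z hz
    have e : D * (K z ^ (-c) + 1 / I z) = D * K z ^ (-c) + D / I z := by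
      rw [mul_add, div_eq_mul_one_div D]
    rw [e]
    exact min_add_le (mul_nonneg (by linarith) (Real.rpow_nonneg (by linarith) _))
      (div_nonneg (by linarith) (by linarith))
  refine (sum_le_sum h3).trans ?_
  rw [sum_add_distrib]
  exact add_le_add (sum_min_growth Zw K m hm h2 hg hc hD) (sum_min_inv_growth Zw I m' hm' h1 hg' hD)

/-- levels version of `sum_min_both` -/
theorem sum_min_both_levels {ζ : Type*} (Zw : Finset ζ) (K I : ζ → ℝ) (ℓ ℓ' : ζ → ℕ) (m m' : ℕ)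
    (hm : ∀ j, (Zw.filter fun z => ℓ z = j).card ≤ m) (hK : ∀ z ∈ Zw, (2 : ℝ) ^ (2 ^ ℓ z) ≤ K z)
    (hm' : ∀ j, (Zw.filter fun z => ℓ' z = j).card ≤ m') (hI : ∀ z ∈ Zw, (2 : ℝ) ^ ℓ' z ≤ I z)
    {c D : ℝ} (hc : 0 < c) (hD : 1 ≤ D) :
    ∑ z ∈ Zw, min 1 (D * (K z ^ (-c) + 1 / I z)) ≤
      m * bud c D + m' * (3 + Real.logb 2 D) := by
  have h3 : ∀ z ∈ Zw, min 1 (D * (K z ^ (-c) + 1 / I z)) ≤
      min 1 (D * K z ^ (-c)) + min 1 (D / I z) := by
    intro z hz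
    have h4 : 0 < K z := lt_of_lt_of_le (by positivity) (hK z hz)
    have h5 : 0 < I z := lt_of_lt_of_le (by positivity) (hI z hz)
    have e : D * (K z ^ (-c) + 1 / I z) = D * K z ^ (-c) + D / I z := by
      rw [mul_add, div_eq_mul_one_div D]
    rw [e]
    exact min_add_le (mul_nonneg (by linarith) (Real.rpow_nonneg h4.le _))
      (div_nonneg (by linarith) h5.le)
  refine (sum_le_sum h3).trans ?_
  rw [sum_add_distrib]
  exact add_le_add (sum_min_levels Zw K ℓ m hm hc hD hK) (sum_min_inv_levels Zw I ℓ' m' hm' hD hI)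

end Crest.Agent.R4C.FamKapx398
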