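import Mathlib

/-!
# Row 4, GW section (vector case): budget of the errors `kapV` over the zones of one word (helper398)

* `sum_min_levels` : `ℓ : ζ → ℕ` levels, at most `m` zones per level, `2 ^ (2 ^ ℓ z) ≤ K z`, `1 ≤ D`:
  `∑_z min 1 (D * K z ^ (-c)) ≤ m * (1 + logb 2 (1 + 2 / c * logb 2 D) + 4 / (c * log 2))`.
* `exists_levels` : `2 ≤ K z` and `K z < K z' → K z ^ 2 ≤ K z'` give such levels
  (`ℓ z = ℓ z' ↔ K z = K z'`).
* `sum_min_growth` : the two together, multiplicity of the values of `K` at most `m`.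
-/

set_option autoImplicit false

open Finset

noncomputable section

namespace Crest.Agent.R4C.FamKapx398

/-- the budget -/
def bud (c D : ℝ) : ℝ := 1 + Real.logb 2 (1 + 2 / c * Real.logb 2 D) + 4 / (c * Real.log 2)

lemma logb_two_nonneg {D : ℝ} (hD : 1 ≤ D) : 0 ≤ Real.logb 2 D :=
  Real.logb_nonneg (by norm_num) hD

lemma bud_nonneg {c D : ℝ} (hc : 0 < c) (hD : 1 ≤ D) : 0 ≤ bud c D := by
  have h1 := logb_two_nonneg hD
  have h2 : 0 ≤ Real.logb 2 (1 + 2 / c * Real.logb 2 D) :=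
    logb_two_nonneg (by have : 0 ≤ 2 / c * Real.logb 2 D := by positivity
                        linarith)
  have h3 : 0 < Real.log 2 := Real.log_pos (by norm_num)
  unfold bud
  positivity

/-- the levels where `D` matters -/
lemma card_small {c D : ℝ} (hc : 0 < c) (hD : 1 ≤ D) (J : Finset ℕ)
    (h : ∀ j ∈ J, (2 : ℝ) ^ (c / 2 * (2 : ℝ) ^ j) < D) :
    (J.card : ℝ) ≤ 1 + Real.logb 2 (1 + 2 / c * Real.logb 2 D) := by
  set X : ℝ := 2 / c * Real.logb 2 D with hX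
  have h0 : 0 ≤ X := mul_nonneg (by positivity) (logb_two_nonneg hD)
  have hsub : J ⊆ range (⌊Real.logb 2 (1 + X)⌋₊ + 1) := by
    intro j hj
    rw [mem_range, Nat.lt_succ_iff]
    refine Nat.le_floor ?_
    have h1 : c / 2 * (2 : ℝ) ^ j < Real.logb 2 D :=
      (Real.lt_logb_iff_rpow_lt (by norm_num) (by linarith)).2 (h j hj)
    have h2 : (2 : ℝ) ^ j ≤ 1 + X := by
      have h3 : (2 : ℝ) ^ j = 2 / c * (c / 2 * (2 : ℝ) ^ j) := by field_simp
      have h4 : 2 / c * (c / 2 * (2 : ℝ) ^ j) ≤ X :=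
        mul_le_mul_of_nonneg_left h1.le (by positivity)
      linarith
    rw [Real.le_logb_iff_rpow_le (by norm_num) (by linarith), Real.rpow_natCast]
    exact h2
  have hcard := card_le_card hsub
  rw [card_range] at hcard
  have h5 : (J.card : ℝ) ≤ (⌊Real.logb 2 (1 + X)⌋₊ : ℝ) + 1 := by exact_mod_cast hcard
  have h6 : (⌊Real.logb 2 (1 + X)⌋₊ : ℝ) ≤ Real.logb 2 (1 + X) :=
    Nat.floor_le (logb_two_nonneg (by linarith))
  linarith

lemma two_pow_neg_le {x : ℝ} (hx : 0 < x) : (2 : ℝ) ^ (-x) ≤ 1 / (x * Real.log 2) := by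
  have h3 : 0 < Real.log 2 := Real.log_pos (by norm_num)
  rw [Real.rpow_neg (by norm_num), ← one_div]
  refine one_div_le_one_div_of_le (by positivity) ?_
  rw [Real.rpow_def_of_pos (by norm_num)]
  have := Real.add_one_le_exp (Real.log 2 * x)
  linarith

/-- the tail -/
lemma sum_tail {c : ℝ} (hc : 0 < c) (J : Finset ℕ) :
    ∑ j ∈ J, (2 : ℝ) ^ (-(c / 2 * (2 : ℝ) ^ j)) ≤ 4 / (c * Real.log 2) := by
  have h3 : 0 < Real.log 2 := Real.log_pos (by norm_num)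
  calc ∑ j ∈ J, (2 : ℝ) ^ (-(c / 2 * (2 : ℝ) ^ j))
      ≤ ∑ j ∈ J, 2 / (c * Real.log 2) * (1 / 2) ^ j := by
        refine sum_le_sum fun j _ => ?_
        refine (two_pow_neg_le (by positivity)).trans (le_of_eq ?_)
        rw [div_pow, one_pow]
        field_simp
    _ = 2 / (c * Real.log 2) * ∑ j ∈ J, (1 / 2 : ℝ) ^ j := by rw [mul_sum]
    _ ≤ 2 / (c * Real.log 2) * 2 := by
        refine mul_le_mul_of_nonneg_left ?_ (by positivity)
        have hs : Summable fun j : ℕ => (1 / 2 : ℝ) ^ j := summable_geometric_two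
        have := hs.sum_le_tsum J fun j _ => by positivity
        rwa [tsum_geometric_two] at this
    _ = _ := by ring

/-- one term per level -/
lemma sum_levels {c D : ℝ} (hc : 0 < c) (hD : 1 ≤ D) (J : Finset ℕ) :
    ∑ j ∈ J, min 1 (D * (2 : ℝ) ^ (-(c * (2 : ℝ) ^ j))) ≤ bud c D := by
  classical
  rw [← sum_filter_add_sum_filter_not J (fun j : ℕ => (2 : ℝ) ^ (c / 2 * (2 : ℝ) ^ j) < D)]
  have h1 : ∑ j ∈ J with (2 : ℝ) ^ (c / 2 * (2 : ℝ) ^ j) < D,
      min 1 (D * (2 : ℝ) ^ (-(c * (2 : ℝ) ^ j))) ≤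
      1 + Real.logb 2 (1 + 2 / c * Real.logb 2 D) := by
    refine le_trans ?_ (card_small hc hD (J.filter fun j : ℕ =>
      (2 : ℝ) ^ (c / 2 * (2 : ℝ) ^ j) < D) fun j hj => (mem_filter.1 hj).2)
    calc _ ≤ ∑ j ∈ J with (2 : ℝ) ^ (c / 2 * (2 : ℝ) ^ j) < D, (1 : ℝ) :=
          sum_le_sum fun j _ => min_le_left _ _
      _ = _ := by rw [sum_const, nsmul_eq_mul, mul_one]
  have h2 : ∑ j ∈ J with ¬ (2 : ℝ) ^ (c / 2 * (2 : ℝ) ^ j) < D,
      min 1 (D * (2 : ℝ) ^ (-(c * (2 : ℝ) ^ j))) ≤ 4 / (c * Real.log 2) := by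
    refine le_trans (sum_le_sum fun j hj => ?_) (sum_tail hc (J.filter fun j : ℕ =>
      ¬ (2 : ℝ) ^ (c / 2 * (2 : ℝ) ^ j) < D))
    have h3 := not_lt.1 (mem_filter.1 hj).2
    refine (min_le_right _ _).trans ?_
    have h4 : (2 : ℝ) ^ (-(c * (2 : ℝ) ^ j)) =
        (2 : ℝ) ^ (-(c / 2 * (2 : ℝ) ^ j)) * (2 : ℝ) ^ (-(c / 2 * (2 : ℝ) ^ j)) := by
      rw [← Real.rpow_add (by norm_num)]
      congr 1
      ring
    have h5 : D * (2 : ℝ) ^ (-(c / 2 * (2 : ℝ) ^ j)) ≤ 1 := by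
      rw [Real.rpow_neg (by norm_num), mul_inv_le_iff₀ (by positivity), one_mul]
      exact h3
    rw [h4, ← mul_assoc]
    exact mul_le_of_le_one_left (by positivity) h5
  unfold bud
  linarith

/-- **levels** -/
theorem sum_min_levels {ζ : Type*} (Zw : Finset ζ) (K : ζ → ℝ) (ℓ : ζ → ℕ) (m : ℕ)
    (hm : ∀ j, (Zw.filter fun z => ℓ z = j).card ≤ m) {c D : ℝ} (hc : 0 < c) (hD : 1 ≤ D)
    (hK : ∀ z ∈ Zw, (2 : ℝ) ^ (2 ^ ℓ z) ≤ K z) :
    ∑ z ∈ Zw, min 1 (D * K z ^ (-c)) ≤ m * bud c D := by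
  classical
  have h1 : ∀ z ∈ Zw, min 1 (D * K z ^ (-c)) ≤
      min 1 (D * (2 : ℝ) ^ (-(c * (2 : ℝ) ^ ℓ z))) := by
    intro z hz
    refine min_le_min le_rfl (mul_le_mul_of_nonneg_left ?_ (by linarith))
    have h2 : (0 : ℝ) < (2 : ℝ) ^ (2 ^ ℓ z) := by positivity
    have h3 : K z ^ (-c) ≤ ((2 : ℝ) ^ (2 ^ ℓ z)) ^ (-c) :=
      Real.rpow_le_rpow_of_nonpos h2 (hK z hz) (by linarith)
    refine h3.trans (le_of_eq ?_)
    rw [← Real.rpow_natCast, ← Real.rpow_mul (by norm_num)]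
    congr 1
    push_cast
    ring
  calc ∑ z ∈ Zw, min 1 (D * K z ^ (-c))
      ≤ ∑ z ∈ Zw, min 1 (D * (2 : ℝ) ^ (-(c * (2 : ℝ) ^ ℓ z))) := sum_le_sum h1
    _ = ∑ j ∈ Zw.image ℓ, ∑ z ∈ Zw with ℓ z = j, min 1 (D * (2 : ℝ) ^ (-(c * (2 : ℝ) ^ ℓ z))) :=
        (sum_fiberwise_of_maps_to (fun z hz => mem_image_of_mem ℓ hz) _).symm
    _ = ∑ j ∈ Zw.image ℓ, ((Zw.filter fun z => ℓ z = j).card : ℝ) *
          min 1 (D * (2 : ℝ) ^ (-(c * (2 : ℝ) ^ j))) := by
        refine sum_congr rfl fun j _ => ?_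
        rw [← nsmul_eq_mul, ← sum_const]
        exact sum_congr rfl fun z hz => by rw [(mem_filter.1 hz).2]
    _ ≤ ∑ j ∈ Zw.image ℓ, (m : ℝ) * min 1 (D * (2 : ℝ) ^ (-(c * (2 : ℝ) ^ j))) := by
        refine sum_le_sum fun j _ => mul_le_mul_of_nonneg_right ?_ ?_
        · exact_mod_cast hm j
        · exact le_min zero_le_one (mul_nonneg (by linarith) (by positivity))
    _ = m * ∑ j ∈ Zw.image ℓ, min 1 (D * (2 : ℝ) ^ (-(c * (2 : ℝ) ^ j))) := by rw [mul_sum]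
    _ ≤ m * bud c D := mul_le_mul_of_nonneg_left (sum_levels hc hD _) (Nat.cast_nonneg _)

/-- **levels from growth** -/
theorem exists_levels {ζ : Type*} (Zw : Finset ζ) (K : ζ → ℝ) (h2 : ∀ z ∈ Zw, 2 ≤ K z)
    (hg : ∀ z ∈ Zw, ∀ z' ∈ Zw, K z < K z' → K z ^ 2 ≤ K z') :
    ∃ ℓ : ζ → ℕ, (∀ z ∈ Zw, (2 : ℝ) ^ (2 ^ ℓ z) ≤ K z) ∧
      ∀ z ∈ Zw, ∀ z' ∈ Zw, ℓ z = ℓ z' → K z = K z' := by
  classical
  let V : Finset ℝ := Zw.image K
  let ℓ : ζ → ℕ := fun z => (V.filter fun v => v < K z).card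
  have hlt : ∀ z ∈ Zw, ∀ z' ∈ Zw, K z < K z' → ℓ z < ℓ z' := by
    intro z hz z' _ h
    refine card_lt_card ?_
    rw [Finset.ssubset_iff_of_subset]
    · exact ⟨K z, mem_filter.2 ⟨mem_image_of_mem K hz, h⟩, by simp⟩
    · intro v hv
      rw [mem_filter] at hv ⊢
      exact ⟨hv.1, hv.2.trans h⟩
  refine ⟨ℓ, ?_, ?_⟩
  · have key : ∀ n : ℕ, ∀ z ∈ Zw, ℓ z = n → (2 : ℝ) ^ (2 ^ n) ≤ K z := by
      intro n
      induction n with
      | zero => intro z hz _; simpa using h2 z hz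
      | succ n ih =>
        intro z hz hn
        have hne : (V.filter fun v => v < K z).Nonempty := by
          rw [← card_pos]
          change 0 < ℓ z
          omega
        obtain ⟨v, hv, hmax⟩ := exists_max_image (V.filter fun v => v < K z) id hne
        rw [mem_filter] at hv
        obtain ⟨z1, hz1, rfl⟩ := mem_image.1 hv.1
        have hl : ℓ z1 = n := by
          have e : (V.filter fun v => v < K z) = insert (K z1) (V.filter fun v => v < K z1) := by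
            ext v
            rw [mem_insert, mem_filter, mem_filter]
            constructor
            · rintro ⟨h3, h4⟩
              have h5 := hmax v (mem_filter.2 ⟨h3, h4⟩)
              rcases lt_or_eq_of_le h5 with h6 | h6
              · exact Or.inr ⟨h3, h6⟩
              · exact Or.inl h6
            · rintro (rfl | ⟨h3, h4⟩)
              · exact hv
              · exact ⟨h3, h4.trans hv.2⟩
          have e2 : ℓ z = ℓ z1 + 1 := by
            change (V.filter fun v => v < K z).card = (V.filter fun v => v < K z1).card + 1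
            rw [e, card_insert_of_notMem (by simp)]
          omega
        have h3 := ih z1 hz1 hl
        have h4 := hg z1 hz1 z hz hv.2
        calc (2 : ℝ) ^ (2 ^ (n + 1)) = ((2 : ℝ) ^ (2 ^ n)) ^ 2 := by
              rw [← pow_mul, pow_succ]
          _ ≤ K z1 ^ 2 := pow_le_pow_left₀ (by positivity) h3 2
          _ ≤ K z := h4
    exact fun z hz => key _ z hz rfl
  · intro z hz z' hz' h
    rcases lt_trichotomy (K z) (K z') with h1 | h1 | h1
    · exact absurd h (hlt z hz z' hz' h1).ne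
    · exact h1
    · exact absurd h (hlt z' hz' z hz h1).ne'

/-- **budget of the errors from growth** -/
theorem sum_min_growth {ζ : Type*} (Zw : Finset ζ) (K : ζ → ℝ) (m : ℕ)
    (hm : ∀ z ∈ Zw, (Zw.filter fun z' => K z' = K z).card ≤ m)
    (h2 : ∀ z ∈ Zw, 2 ≤ K z) (hg : ∀ z ∈ Zw, ∀ z' ∈ Zw, K z < K z' → K z ^ 2 ≤ K z')
    {c D : ℝ} (hc : 0 < c) (hD : 1 ≤ D) :
    ∑ z ∈ Zw, min 1 (D * K z ^ (-c)) ≤ m * bud c D := by
  classical
  obtain ⟨ℓ, h3, h4⟩ := exists_levels Zw K h2 hg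
  refine sum_min_levels Zw K ℓ m (fun j => ?_) hc hD h3
  rcases (Zw.filter fun z => ℓ z = j).eq_empty_or_nonempty with h | ⟨z0, hz0⟩
  · rw [h]; simp
  · rw [mem_filter] at hz0
    refine le_trans (card_le_card fun z hz => ?_) (hm z0 hz0.1)
    rw [mem_filter] at hz ⊢
    exact ⟨hz.1, h4 z hz.1 z0 hz0.1 (hz.2.trans hz0.2.symm)⟩

end Crest.Agent.R4C.FamKapx398
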