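import Crest.Agent.R4C.SplitDef_945
import Crest.Agent.R4C.SpineDef_946
import Crest.Agent.R4C.BoostTop_19
import Crest.Agent.R4C.B1Lev_52

/-!
# Row 4: generic wrapper for the far classes of case A (helper520)

A relation `R i b c` (no offset) at the own scale `2^i`, good at `cut i`, aligned primes
`≤ cut (2 i)`, with a bilinear set bound `≤ ε i √(m m')` without any boost:
the class `∃ i, FarA i b c h ∧ R i b c` has energy (full boost, all offsets)
`≤ C (1 + C A) (∑_i log (cut i) log (cut (2 i)) ε i) m`.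

* `boost_al` : pointwise bound of `boostB` by the logarithms of the cuts and the off-centre weights;
* `far_total` : the bound for `Rule_945`;
* `clsOK_far` : the same in the form `ClsOK` of `SpineDef_946`.
-/

set_option autoImplicit false

open Finset

namespace Crest.Agent.R4C.FarWrapx520

open Crest.Agent.R4C.Basex935 Crest.Agent.R4C.PrefixMx882 Crest.Agent.R4C.CrCountx935
  Crest.Agent.R4C.CrCoinx935 Crest.Agent.R4C.Bridgex882 Crest.Agent.R4C.FLDefx935
  Crest.Agent.R4C.BoostCx972 Crest.Agent.R4C.S7cx14 Crest.Agent.R4C.S7dx14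
  Crest.Agent.R4C.Rulex945 Crest.Agent.R4C.Sharedx11 Crest.Agent.R4C.Splitx945
  Crest.Agent.R4C.FLShx326 Crest.Agent.R4C.BoostTopx19

/-! ### pointwise bounds -/

lemma prime_prQ {Q p : ℕ} (hp : p ∈ prQ Q) : p.Prime ∧ p ≤ Q := by
  unfold prQ at hp
  rw [mem_filter, mem_range] at hp
  exact ⟨hp.2, by omega⟩

lemma bst_prQ_le {Q : ℕ} (hQ : 2 ≤ Q) (M b c : ℕ) :
    BoostRx398.bst (prQ Q) M b c ≤ CM * Real.log Q := by
  refine (BoostRx398.bst_le (fun p hp => (prime_prQ hp).1) M b c).trans ?_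
  refine prod_pf_le_mertens (by exact_mod_cast hQ) (S := prQ Q) fun p hp => ?_
  exact ⟨(prime_prQ hp).1, by exact_mod_cast (prime_prQ hp).2⟩

lemma bst_prQ_nonneg (Q M b c : ℕ) : 0 ≤ BoostRx398.bst (prQ Q) M b c :=
  zero_le_one.trans (BoostRx398.one_le_bst (fun p hp => (prime_prQ hp).1) M b c)

open Classical in
/-- the boost of the differing primes: the part `≤ X` costs `C log X` -/
lemma B1_split {X : ℕ} (hX : 2 ≤ X) (b c : ℕ) :
    PureL2x232.B1 b c ≤ (CM * Real.log X) * B1Levx52.B1 X b c := by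
  have e : PureL2x232.B1 b c =
      ∏ p ∈ ((b / Nat.gcd b c) * (c / Nat.gcd b c)).primeFactors, pf p := rfl
  rw [e, ← Finset.prod_filter_mul_prod_filter_not
    (((b / Nat.gcd b c) * (c / Nat.gcd b c)).primeFactors) (fun p => X < p), mul_comm]
  refine mul_le_mul_of_nonneg_right ?_ (B1Levx52.B1_nonneg X b c)
  refine prod_pf_le_mertens (by exact_mod_cast hX) fun p hp => ?_
  rw [mem_filter] at hp
  exact ⟨Nat.prime_of_mem_primeFactors hp.1, by exact_mod_cast not_lt.1 hp.2⟩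

lemma B1_nonneg' (b c : ℕ) : 0 ≤ PureL2x232.B1 b c := by
  have e : PureL2x232.B1 b c =
      ∏ p ∈ ((b / Nat.gcd b c) * (c / Nat.gcd b c)).primeFactors, pf p := rfl
  rw [e]
  exact (prod_pf_pos fun p hp => Nat.prime_of_mem_primeFactors hp).le

lemma log_cut_nonneg {n : ℕ} (h : 2 ≤ n) : 0 ≤ Real.log n :=
  Real.log_nonneg (by have : (2 : ℝ) ≤ n := by exact_mod_cast h
                      linarith)

section rule

variable {M : ℕ} {F : FL M} {P : Par}

/-- the aligned set of `BoostTop_19` lies in `alSet` -/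
lemma setE_le {b c : ℕ} {h : ℤ} {x : ℕ} (hM : 0 < M) (hb : b ∣ M) (hc : c ∣ M)
    (hal : AlLe F P b c h x) :
    ∀ p ∈ setE (Fq F P) (M / b) (M / c) (b / Nat.gcd b c) (c / Nat.gcd b c) h, p ≤ x := by
  classical
  intro p hp
  have eMb : M / (M / b) = b := Nat.div_div_self hb hM.ne'
  have eMc : M / (M / c) = c := Nat.div_div_self hc hM.ne'
  have hpp : p.Prime := prime_setE hp
  unfold setE at hp
  rw [mem_filter] at hp
  obtain ⟨h1, h2⟩ := hp
  have h3 : IsE (Fc F P) b c (b / Nat.gcd b c) (c / Nat.gcd b c) h p := by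
    obtain ⟨a1, a2, f, f', a3, a4, a5⟩ := h2
    refine ⟨a1, a2, f, f', ?_, ?_, a5⟩
    · unfold Fq at a3; rwa [eMb] at a3
    · unfold Fq at a4; rwa [eMc] at a4
  refine hal p ?_
  unfold alSet
  rw [mem_filter]
  refine ⟨?_, (isE_iff hpp).1 h3⟩
  have h4 := free_union hM (Nat.div_dvd_of_dvd hb) (Nat.div_dvd_of_dvd hc)
  rw [eMb, eMc] at h4
  rw [h4]
  exact h1

/-- **pointwise bound of the boost**, any scale -/
theorem boost_al' (hM : 0 < M) {b c : ℕ} (hb : b ∣ M) (hc : c ∣ M) (hL : 0 < P.L)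
    (hY : ∀ i, P.Y i = 2 ^ i)
    (hthr : ∀ b i, P.thr b i ≤ Real.exp ((P.Y (i - 1) : ℝ) ^ (4 / 5 : ℝ)))
    {X Q : ℕ} (hX : 2 ≤ X) (hXQ : X ≤ Q) (hgood : F.good X b c) {h : ℤ}
    (hl : h ∈ Lnk P.γ P.L b c) (hal : AlLe F P b c h Q) :
    boostB M (lamR F P) b c h ≤ Real.exp (100 * (1 + Lam P.L (Nat.gcd b c) / Q)) *
      ((CM * Real.log X) * (CM * Real.log Q)) * (B1Levx52.offW F X b * B1Levx52.offW F X c) := by
  have hQ : 2 ≤ Q := hX.trans hXQ
  have h1 := boost_far hM hb hc hL hY hthr hQ (FL.good_mono hXQ hgood) hl (setE_le hM hb hc hal)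
  refine h1.trans ?_
  have h2 := B1_split hX b c
  have h3 := B1Levx52.B1_le hM hb hc hgood
  have hlX := log_cut_nonneg hX
  have hlQ := log_cut_nonneg hQ
  have hCM := CM_pos
  have h4 : PureL2x232.B1 b c * BoostRx398.bst (prQ Q) M b c ≤
      ((CM * Real.log X) * (B1Levx52.offW F X b * B1Levx52.offW F X c)) * (CM * Real.log Q) := by
    refine mul_le_mul (h2.trans (mul_le_mul_of_nonneg_left h3 (by positivity)))
      (bst_prQ_le hQ M b c) (bst_prQ_nonneg _ _ _ _) ?_
    have := B1Levx52.one_le_offW (F := F) X b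
    have := B1Levx52.one_le_offW (F := F) X c
    positivity
  calc _ ≤ Real.exp (100 * (1 + Lam P.L (Nat.gcd b c) / Q)) *
        (((CM * Real.log X) * (B1Levx52.offW F X b * B1Levx52.offW F X c)) *
          (CM * Real.log Q)) := mul_le_mul_of_nonneg_left h4 (Real.exp_pos _).le
    _ = _ := by ring

/-- **pointwise bound of the boost**, `gcd ≥ L` -/
theorem boost_al (hM : 0 < M) {b c : ℕ} (hb : b ∣ M) (hc : c ∣ M) (hL : 0 < P.L)
    (hY : ∀ i, P.Y i = 2 ^ i)
    (hthr : ∀ b i, P.thr b i ≤ Real.exp ((P.Y (i - 1) : ℝ) ^ (4 / 5 : ℝ)))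
    {X Q : ℕ} (hX : 2 ≤ X) (hXQ : X ≤ Q) (hgood : F.good X b c) {h : ℤ}
    (hl : h ∈ Lnk P.γ P.L b c) (hal : AlLe F P b c h Q) (hg : P.L ≤ (Nat.gcd b c : ℝ)) :
    boostB M (lamR F P) b c h ≤ Real.exp 200 *
      ((CM * Real.log X) * (CM * Real.log Q)) * (B1Levx52.offW F X b * B1Levx52.offW F X c) := by
  have hQ : 2 ≤ Q := hX.trans hXQ
  refine (boost_al' hM hb hc hL hY hthr hX hXQ hgood hl hal).trans ?_
  have hg0 : (0 : ℝ) < (Nat.gcd b c : ℕ) := lt_of_lt_of_le hL hg
  have h1 := Lam_far hg0 hg hQ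
  have hlX := log_cut_nonneg hX
  have hlQ := log_cut_nonneg hQ
  have hCM := CM_pos
  have h2 : 0 ≤ B1Levx52.offW F X b * B1Levx52.offW F X c := by
    have := B1Levx52.one_le_offW (F := F) X b
    have := B1Levx52.one_le_offW (F := F) X c
    positivity
  refine mul_le_mul_of_nonneg_right (mul_le_mul_of_nonneg_right ?_ (by positivity)) h2
  exact Real.exp_le_exp.2 (by linarith)

/-- at most three offsets if `gcd ≥ L` -/
lemma card_Lnk_le {γ L : ℝ} {b c : ℕ} (hL : 0 < L) (hg : L ≤ (Nat.gcd b c : ℝ)) :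
    ((Lnk γ L b c).card : ℝ) ≤ 3 := by
  have hg0 : (0 : ℝ) < (Nat.gcd b c : ℕ) := lt_of_lt_of_le hL hg
  unfold Lnk
  refine (card_Hf (by positivity) _ _).trans ?_
  have h1 : L / (Nat.gcd b c : ℕ) ≤ 1 := (div_le_one hg0).2 hg
  linarith

end rule

/-! ### the kernel without boost -/

open Classical in
/-- the kernel of the scale `2^i` -/
noncomputable def Kf {M : ℕ} (F : FL M) (P : Par) (R : ℕ → ℕ → ℕ → Prop) (i b c : ℕ) : ℝ :=
  if 2 ^ i * P.L ≤ (Nat.gcd b c : ℝ) ∧ (Nat.gcd b c : ℝ) < 2 ^ (i + 1) * P.L ∧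
    F.good (P.cut i) b c ∧ R i b c then (Nat.gcd b c : ℝ) * nu M b * nu M c else 0

lemma Kf_nonneg {M : ℕ} (F : FL M) (P : Par) (R : ℕ → ℕ → ℕ → Prop) (i b c : ℕ) :
    0 ≤ Kf F P R i b c := by
  unfold Kf
  split_ifs
  · exact mul_nonneg (mul_nonneg (by positivity) (nu_nonneg _ _)) (nu_nonneg _ _)
  · exact le_rfl

open Classical in
/-- **the far wrapper** -/
theorem far_total : ∃ C : ℝ, 0 ≤ C ∧ ∀ (M : ℕ) (F : FL M) (P : Par) (B : Finset ℕ) (A s : ℝ),
    0 < M → B ⊆ M.divisors → 0 < P.L → Shares F B A s → 0 ≤ A → 3 / 4 ≤ s →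
    (∀ i, P.Y i = 2 ^ i) →
    (∀ b i, P.thr b i ≤ Real.exp ((P.Y (i - 1) : ℝ) ^ (4 / 5 : ℝ))) → Monotone P.cut →
    (∀ i, P.m0 ≤ i → 2 ≤ P.cut i) → (M : ℝ) / P.L ≤ P.N →
    ∀ (R : ℕ → ℕ → ℕ → Prop) (ε : ℕ → ℝ), (∀ i, 0 ≤ ε i) →
      (∀ i, P.m0 ≤ i → ∀ S S' : Finset ℕ, S ⊆ B → S' ⊆ B →
        P.L * ∑ b ∈ S, ∑ c ∈ S', Kf F P R i b c ≤
          ε i * √((P.L * ∑ b ∈ S, nu M b) * (P.L * ∑ c ∈ S', nu M c))) →
      P.L * ∑ b ∈ B, ∑ c ∈ B.erase b, (Nat.gcd b c : ℝ) * nu M b * nu M c *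
        ∑ h ∈ (Lnk P.γ P.L b c).filter (fun h => ¬ killedB (lamR F P) b c h ∧
          ∃ i, FarA F P i b c h ∧ R i b c), boostB M (lamR F P) b c h ≤
      C * (1 + C * A) * (∑ i ∈ (range (P.N + 1)).filter (fun i => P.m0 ≤ i),
        Real.log (P.cut i) * Real.log (P.cut (2 * i)) * ε i) * (P.L * ∑ b ∈ B, nu M b) := by
  obtain ⟨C0, hC0, hmom⟩ := B1Levx52.offW_moment
  have hCM := CM_pos
  set K0 : ℝ := 48 * Real.exp 200 * CM ^ 2 with hK0
  have hK00 : 0 ≤ K0 := by positivity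
  refine ⟨max C0 K0, le_max_of_le_left hC0, ?_⟩
  intro M F P B A s hM hB hL hS hA hs hY hthr hcut hcut2 hN R ε hε hset
  set I := (range (P.N + 1)).filter (fun i => P.m0 ≤ i) with hI
  set w : ℕ → ℕ → ℝ := fun i b => B1Levx52.offW F (P.cut i) b with hw
  have hw1 : ∀ i b, 1 ≤ w i b := fun i b => B1Levx52.one_le_offW _ _
  have hw0 : ∀ i b, 0 ≤ w i b := fun i b => zero_le_one.trans (hw1 i b)
  set lg : ℕ → ℝ := fun i => Real.log (P.cut i) * Real.log (P.cut (2 * i)) with hlg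
  have hlg0 : ∀ i ∈ I, 0 ≤ lg i := by
    intro i hi
    rw [hI, mem_filter] at hi
    have h1 := hcut2 i hi.2
    have h2 : 2 ≤ P.cut (2 * i) := h1.trans (hcut (by omega))
    exact mul_nonneg (log_cut_nonneg h1) (log_cut_nonneg h2)
  -- pointwise
  have hpt : ∀ b ∈ B, ∀ c ∈ B.erase b, (Nat.gcd b c : ℝ) * nu M b * nu M c *
        ∑ h ∈ (Lnk P.γ P.L b c).filter (fun h => ¬ killedB (lamR F P) b c h ∧
          ∃ i, FarA F P i b c h ∧ R i b c), boostB M (lamR F P) b c h ≤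
      ∑ i ∈ I, (3 * Real.exp 200 * CM ^ 2 * lg i) * (Kf F P R i b c * (w i b * w i c)) := by
    intro b hb c hc
    have hbM : b ∣ M := Nat.dvd_of_mem_divisors (hB hb)
    have hcM : c ∣ M := Nat.dvd_of_mem_divisors (hB (mem_of_mem_erase hc))
    have hb0 : 0 < b := Nat.pos_of_dvd_of_pos hbM hM
    set S := (Lnk P.γ P.L b c).filter (fun h => ¬ killedB (lamR F P) b c h ∧
          ∃ i, FarA F P i b c h ∧ R i b c) with hSdef
    have hnn : ∀ i ∈ I, 0 ≤ (3 * Real.exp 200 * CM ^ 2 * lg i) *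
        (Kf F P R i b c * (w i b * w i c)) := fun i hi =>
      mul_nonneg (mul_nonneg (by positivity) (hlg0 i hi))
        (mul_nonneg (Kf_nonneg F P R i b c) (mul_nonneg (hw0 i b) (hw0 i c)))
    rcases S.eq_empty_or_nonempty with h0 | h0
    · rw [h0, sum_empty, mul_zero]
      exact sum_nonneg hnn
    · -- the scale is the same for all offsets
      obtain ⟨h1, hh1⟩ := h0
      have hh1' := hh1
      rw [hSdef, mem_filter] at hh1
      obtain ⟨_, _, i, hfar, hR⟩ := hh1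
      have hL2 : P.L ≤ (Nat.gcd b c : ℝ) := by
        refine le_trans ?_ hfar.lo
        have : (1 : ℝ) ≤ 2 ^ i := one_le_pow₀ (by norm_num)
        nlinarith
      have hgM : (Nat.gcd b c : ℝ) ≤ M := by
        exact_mod_cast Nat.le_of_dvd hM ((Nat.gcd_dvd_left b c).trans hbM)
      have hiN : i ≤ P.N := by
        have h2 : (2 : ℝ) ^ i ≤ P.N := by
          refine le_trans ?_ hN
          rw [le_div_iff₀ hL]
          exact hfar.lo.trans hgM
        have h3 : (i : ℝ) < 2 ^ i := by exact_mod_cast Nat.lt_two_pow_self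
        have h4 : (i : ℝ) < P.N := lt_of_lt_of_le h3 h2
        exact_mod_cast h4.le
      have hiI : i ∈ I := by
        rw [hI, mem_filter, mem_range]
        exact ⟨by omega, hfar.m0⟩
      have hX2 : 2 ≤ P.cut i := hcut2 i hfar.m0
      have hb1 : ∀ h ∈ S, boostB M (lamR F P) b c h ≤
          Real.exp 200 * CM ^ 2 * lg i * (w i b * w i c) := by
        intro h hh
        rw [hSdef, mem_filter] at hh
        obtain ⟨hl, _, j, hfj, _⟩ := hh
        have hij : i = j := by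
          by_contra hne
          rcases Nat.lt_or_gt_of_ne hne with h3 | h3
          · have h4 : (2 : ℝ) ^ (i + 1) ≤ 2 ^ j := pow_le_pow_right₀ (by norm_num) h3
            have := hfar.hi
            have := hfj.lo
            nlinarith
          · have h4 : (2 : ℝ) ^ (j + 1) ≤ 2 ^ i := pow_le_pow_right₀ (by norm_num) h3
            have := hfar.lo
            have := hfj.hi
            nlinarith
        subst hij
        refine (boost_al hM hbM hcM hL hY hthr hX2 (hcut (by omega : i ≤ 2 * i)) hfj.good hl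
          hfj.al hL2).trans (le_of_eq ?_)
        rw [hlg, hw]
        ring
      have hcard : ((S.card : ℕ) : ℝ) ≤ 3 := by
        refine le_trans ?_ (card_Lnk_le (γ := P.γ) hL hL2)
        exact_mod_cast card_le_card (filter_subset _ _)
      have h5 : ∑ h ∈ S, boostB M (lamR F P) b c h ≤
          3 * (Real.exp 200 * CM ^ 2 * lg i * (w i b * w i c)) := by
        calc ∑ h ∈ S, boostB M (lamR F P) b c h
            ≤ ∑ _h ∈ S, Real.exp 200 * CM ^ 2 * lg i * (w i b * w i c) := sum_le_sum hb1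
          _ = (S.card : ℝ) * (Real.exp 200 * CM ^ 2 * lg i * (w i b * w i c)) := by
              rw [sum_const, nsmul_eq_mul]
          _ ≤ _ := mul_le_mul_of_nonneg_right hcard (mul_nonneg (mul_nonneg (by positivity)
              (hlg0 i hiI)) (mul_nonneg (hw0 i b) (hw0 i c)))
      have hK : Kf F P R i b c = (Nat.gcd b c : ℝ) * nu M b * nu M c := by
        unfold Kf
        rw [if_pos ⟨hfar.lo, hfar.hi, hfar.good, hR⟩]
      have hp : 0 ≤ (Nat.gcd b c : ℝ) * nu M b * nu M c :=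
        mul_nonneg (mul_nonneg (by positivity) (nu_nonneg _ _)) (nu_nonneg _ _)
      calc (Nat.gcd b c : ℝ) * nu M b * nu M c * ∑ h ∈ S, boostB M (lamR F P) b c h
          ≤ (Nat.gcd b c : ℝ) * nu M b * nu M c *
            (3 * (Real.exp 200 * CM ^ 2 * lg i * (w i b * w i c))) :=
            mul_le_mul_of_nonneg_left h5 hp
        _ = (3 * Real.exp 200 * CM ^ 2 * lg i) * (Kf F P R i b c * (w i b * w i c)) := by
            rw [hK]; ring
        _ ≤ _ := single_le_sum (f := fun i => (3 * Real.exp 200 * CM ^ 2 * lg i) *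
            (Kf F P R i b c * (w i b * w i c))) hnn hiI
  -- one scale with the off-centre weights
  set m := ∑ b ∈ B, nu M b with hm
  have hm0 : 0 ≤ m := sum_nonneg fun b _ => nu_nonneg _ _
  have hscale : ∀ i ∈ I, ∑ b ∈ B, ∑ c ∈ B, P.L * (Kf F P R i b c * (w i b * w i c)) ≤
      16 * (1 + C0 * A) * ε i * (P.L * m) := by
    intro i hi
    rw [hI, mem_filter] at hi
    have h1 := B1Levx52.weight_sets (B := B) (B' := B) (ν := nu M) (w := w i) (w' := w i)
      (K := fun b c => P.L * Kf F P R i b c) (E := ε i * P.L) (C1 := 1 + C0 * A)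
      (nu_nonneg M) (fun b _ c _ => mul_nonneg hL.le (Kf_nonneg F P R i b c))
      (mul_nonneg (hε i) hL.le) (by positivity)
      (fun S S' hS1 hS2 => by
        have h2 := hset i hi.2 S S' hS1 hS2
        have h3 : √((P.L * ∑ b ∈ S, nu M b) * (P.L * ∑ c ∈ S', nu M c)) =
            P.L * √((∑ b ∈ S, nu M b) * ∑ c ∈ S', nu M c) := by
          rw [show (P.L * ∑ b ∈ S, nu M b) * (P.L * ∑ c ∈ S', nu M c) =
            P.L ^ 2 * ((∑ b ∈ S, nu M b) * ∑ c ∈ S', nu M c) by ring,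
            Real.sqrt_mul (by positivity), Real.sqrt_sq hL.le]
        rw [h3] at h2
        calc ∑ b ∈ S, ∑ c ∈ S', P.L * Kf F P R i b c
            = P.L * ∑ b ∈ S, ∑ c ∈ S', Kf F P R i b c := by
              rw [mul_sum]; exact sum_congr rfl fun b _ => (mul_sum _ _ _).symm
          _ ≤ _ := h2
          _ = _ := by ring)
      (fun b _ => hw1 i b) (fun b _ => hw1 i b) (hmom M F B A s hS hA hs (P.cut i))
      (hmom M F B A s hS hA hs (P.cut i))
    rw [Real.sqrt_mul_self hm0] at h1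
    calc ∑ b ∈ B, ∑ c ∈ B, P.L * (Kf F P R i b c * (w i b * w i c))
        = ∑ b ∈ B, ∑ c ∈ B, P.L * Kf F P R i b c * (w i b * w i c) :=
          sum_congr rfl fun b _ => sum_congr rfl fun c _ => by ring
      _ ≤ _ := h1
      _ = _ := by ring
  -- total
  have hmain : P.L * ∑ b ∈ B, ∑ c ∈ B.erase b, (Nat.gcd b c : ℝ) * nu M b * nu M c *
        ∑ h ∈ (Lnk P.γ P.L b c).filter (fun h => ¬ killedB (lamR F P) b c h ∧
          ∃ i, FarA F P i b c h ∧ R i b c), boostB M (lamR F P) b c h ≤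
      K0 * (1 + C0 * A) * (∑ i ∈ I, lg i * ε i) * (P.L * m) := by
    calc _ ≤ P.L * ∑ b ∈ B, ∑ c ∈ B.erase b,
          ∑ i ∈ I, (3 * Real.exp 200 * CM ^ 2 * lg i) * (Kf F P R i b c * (w i b * w i c)) :=
          mul_le_mul_of_nonneg_left (sum_le_sum fun b hb => sum_le_sum fun c hc =>
            hpt b hb c hc) hL.le
      _ ≤ P.L * ∑ b ∈ B, ∑ c ∈ B,
          ∑ i ∈ I, (3 * Real.exp 200 * CM ^ 2 * lg i) * (Kf F P R i b c * (w i b * w i c)) := by
          refine mul_le_mul_of_nonneg_left (sum_le_sum fun b hb => ?_) hL.le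
          refine sum_le_sum_of_subset_of_nonneg (erase_subset _ _) fun c _ _ => ?_
          exact sum_nonneg fun i hi => mul_nonneg (mul_nonneg (by positivity) (hlg0 i hi))
            (mul_nonneg (Kf_nonneg F P R i b c) (mul_nonneg (hw0 i b) (hw0 i c)))
      _ = ∑ i ∈ I, (3 * Real.exp 200 * CM ^ 2 * lg i) *
          ∑ b ∈ B, ∑ c ∈ B, P.L * (Kf F P R i b c * (w i b * w i c)) := by
          have e1 : ∑ b ∈ B, ∑ c ∈ B,
              ∑ i ∈ I, (3 * Real.exp 200 * CM ^ 2 * lg i) * (Kf F P R i b c * (w i b * w i c)) =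
              ∑ i ∈ I, ∑ b ∈ B, ∑ c ∈ B,
                (3 * Real.exp 200 * CM ^ 2 * lg i) * (Kf F P R i b c * (w i b * w i c)) := by
            rw [sum_congr rfl fun b _ => sum_comm, sum_comm]
          rw [e1, mul_sum]
          refine sum_congr rfl fun i _ => ?_
          rw [mul_sum, mul_sum]
          refine sum_congr rfl fun b _ => ?_
          rw [mul_sum, mul_sum]
          refine sum_congr rfl fun c _ => ?_
          ring
      _ ≤ ∑ i ∈ I, (3 * Real.exp 200 * CM ^ 2 * lg i) *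
          (16 * (1 + C0 * A) * ε i * (P.L * m)) :=
          sum_le_sum fun i hi => mul_le_mul_of_nonneg_left (hscale i hi)
            (mul_nonneg (by positivity) (hlg0 i hi))
      _ = ∑ i ∈ I, (K0 * (1 + C0 * A) * (P.L * m)) * (lg i * ε i) := by
          refine sum_congr rfl fun i _ => ?_
          rw [hK0]
          ring
      _ = K0 * (1 + C0 * A) * (∑ i ∈ I, lg i * ε i) * (P.L * m) := by
          rw [← mul_sum]
          ring
  refine hmain.trans ?_
  have hsum0 : 0 ≤ ∑ i ∈ I, lg i * ε i := sum_nonneg fun i hi => mul_nonneg (hlg0 i hi) (hε i)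
  refine mul_le_mul_of_nonneg_right (mul_le_mul_of_nonneg_right ?_ hsum0) (by positivity)
  have h1 : C0 ≤ max C0 K0 := le_max_left _ _
  have h2 : K0 ≤ max C0 K0 := le_max_right _ _
  refine mul_le_mul h2 ?_ (by positivity) (hK00.trans h2)
  have := mul_le_mul_of_nonneg_right h1 hA
  linarith

end Crest.Agent.R4C.FarWrapx520
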