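import Crest.Agent.R4C.Disp_821

/-!
# Row 4: primes `p` with `p (u/k + η)` in a short arc, label of depth `≥ K0` (helper821)

`gwk'` (leaf of BLOCK NH, note 3754): `gcd(u,k) = 1`, primes `p ∈ (X, X²]` with
`‖p (u/k + η) - α‖ ≤ 1/t` and `K0 ≤ k max(1, t p |η|) ≤ X^(1/8)` have
`∑ 1/p ≤ C (K0^(-c) + t^(-c))`.
-/

set_option autoImplicit false

namespace Crest.Agent.R4C.GWKBx821

open Finset Crest.Agent.R4P.BTs18 Crest.Agent.R4C.GWKx821 Crest.Agent.R4C.Dispx821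

/-- one dyadic block, bound by the denominator -/
theorem arc_block : ∃ C : ℝ, 0 < C ∧ ∀ (k : ℕ) (u : ℤ) (η α t Y r : ℝ), 1 ≤ k →
    IsCoprime u (k:ℤ) → 1 ≤ t → 2 ≤ r → r ^ 8 ≤ Y → (k:ℝ) ≤ r → t * Y * |η| ≤ r →
    ∀ F : Finset ℕ, (∀ p ∈ F, p.Prime ∧ Y < p ∧ (p:ℝ) ≤ 2 * Y ∧
      ∃ m : ℤ, |(p:ℝ) * (u / k + η) - α - m| ≤ 1 / t) →
    (F.card : ℝ) ≤ C * (1 / t + 1 / Real.sqrt k) * (Y / Real.log Y) := by
  classical
  obtain ⟨C, hC, hint⟩ := interval_count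
  refine ⟨2 * C, by positivity, fun k u η α t Y r hk hu ht hr hrY hkr hD F hF => ?_⟩
  have hk0 : (0:ℝ) < k := by exact_mod_cast hk
  have ht0 : 0 < t := by linarith
  have hr0 : 0 < r := by linarith
  have h256 : (256:ℝ) ≤ r ^ 8 := by
    have := pow_le_pow_left₀ (by norm_num) hr 8
    norm_num at this; exact this
  have hY0 : 0 < Y := by linarith
  -- replace `r` by the eighth root of `Y`
  obtain ⟨s, hs2, hs8, hrs⟩ : ∃ s : ℝ, 2 ≤ s ∧ s ^ 8 = Y ∧ r ≤ s := by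
    refine ⟨Y ^ (1 / 8 : ℝ), ?_, ?_, ?_⟩
    · have h1 : (2:ℝ) = (256:ℝ) ^ (1 / 8 : ℝ) := by
        rw [show (256:ℝ) = 2 ^ (8:ℝ) by norm_num, ← Real.rpow_mul (by norm_num)]
        norm_num
      rw [h1]
      exact Real.rpow_le_rpow (by norm_num) (h256.trans hrY) (by norm_num)
    · rw [← Real.rpow_natCast, ← Real.rpow_mul hY0.le]
      norm_num
    · have h1 : r = (r ^ 8) ^ (1 / 8 : ℝ) := by
        rw [← Real.rpow_natCast, ← Real.rpow_mul hr0.le]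
        norm_num
      rw [h1]
      exact Real.rpow_le_rpow (by positivity) hrY (by norm_num)
  have hs0 : 0 < s := by linarith
  set D : ℝ := t * Y * |η| with hDdef
  have hD0 : 0 ≤ D := by positivity
  set N : ℕ := ⌈D⌉₊ + 1 with hN
  have hN0 : (0:ℝ) < N := by rw [hN]; push_cast; positivity
  have hND : D ≤ N := by
    have := Nat.le_ceil D
    rw [hN]; push_cast; linarith
  have hNs : (N:ℝ) ≤ 2 * s := by
    have := Nat.ceil_lt_add_one hD0
    rw [hN]; push_cast; linarith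
  set H : ℝ := Y / N with hH
  have hH0 : 0 < H := by positivity
  have hHs : s ^ 7 / 2 ≤ H := by
    rw [hH, le_div_iff₀ hN0]
    calc s ^ 7 / 2 * N ≤ s ^ 7 / 2 * (2 * s) := mul_le_mul_of_nonneg_left hNs (by positivity)
      _ = Y := by rw [← hs8]; ring
  have hks : (k:ℝ) ≤ s := hkr.trans hrs
  have hs6 : 64 ≤ s ^ 6 := by
    have := pow_le_pow_left₀ (by norm_num) hs2 6
    norm_num at this; exact this
  have hs2' : 4 ≤ s ^ 2 := by nlinarith
  have h2k : 2 * (k:ℝ) ≤ H := by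
    refine le_trans ?_ hHs
    have h1 : s ^ 7 / 2 = s ^ 6 * s / 2 := by ring
    rw [h1]
    nlinarith
  have hHk : s ^ 4 ≤ H / k := by
    rw [le_div_iff₀ hk0]
    calc s ^ 4 * k ≤ s ^ 4 * s := mul_le_mul_of_nonneg_left hks (by positivity)
      _ ≤ s ^ 4 * s * (s ^ 2 / 2) := le_mul_of_one_le_right (by positivity) (by linarith)
      _ = s ^ 7 / 2 := by ring
      _ ≤ H := hHs
  have hlogY : 0 < Real.log Y := Real.log_pos (by linarith)
  have hlogs : Real.log Y / 2 = Real.log (s ^ 4) := by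
    rw [← hs8, Real.log_pow, Real.log_pow]
    push_cast; ring
  have hlogH : Real.log Y / 2 ≤ Real.log (H / k) := by
    rw [hlogs]
    exact Real.log_le_log (by positivity) hHk
  have hq : H / Real.log (H / k) ≤ 2 * (H / Real.log Y) := by
    calc H / Real.log (H / k) ≤ H / (Real.log Y / 2) :=
          div_le_div_of_nonneg_left hH0.le (by positivity) hlogH
      _ = 2 * (H / Real.log Y) := by field_simp
  have hHη : H * |η| ≤ 1 / t := by
    rw [hH, le_div_iff₀ ht0, div_mul_eq_mul_div, div_mul_eq_mul_div, div_le_one hN0]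
    calc Y * |η| * t = D := by rw [hDdef]; ring
      _ ≤ N := hND
  have hYk : (k:ℝ) ≤ Y := by
    have : s ≤ Y := by
      rw [← hs8]
      calc s = s ^ 1 := (pow_one s).symm
        _ ≤ s ^ 8 := pow_le_pow_right₀ (by linarith) (by norm_num)
    linarith
  set f : ℕ → ℕ := fun p => ⌈((p:ℝ) - Y) / H⌉₊ - 1 with hf
  have hfs : ∀ p ∈ F, f p ∈ Finset.range N ∧ Y + f p * H < p ∧ (p:ℝ) ≤ Y + f p * H + H := by
    intro p hp
    obtain ⟨_, h1, h2, _⟩ := hF p hp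
    have hx0 : 0 < ((p:ℝ) - Y) / H := div_pos (by linarith) hH0
    have hxN : ((p:ℝ) - Y) / H ≤ N := by
      rw [div_le_iff₀ hH0, hH, mul_div_cancel₀ _ hN0.ne']
      linarith
    have hc0 : 0 < ⌈((p:ℝ) - Y) / H⌉₊ := Nat.ceil_pos.2 hx0
    have hcN : ⌈((p:ℝ) - Y) / H⌉₊ ≤ N := Nat.ceil_le.2 hxN
    have hc1 : ((f p : ℕ) : ℝ) + 1 = ⌈((p:ℝ) - Y) / H⌉₊ := by
      have : f p + 1 = ⌈((p:ℝ) - Y) / H⌉₊ := by
        show ⌈((p:ℝ) - Y) / H⌉₊ - 1 + 1 = _
        omega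
      exact_mod_cast this
    have hc2 := Nat.le_ceil (((p:ℝ) - Y) / H)
    have hc3 := Nat.ceil_lt_add_one hx0.le
    refine ⟨Finset.mem_range.2 (by show ⌈((p:ℝ) - Y) / H⌉₊ - 1 < N; omega), ?_, ?_⟩
    · have h3 : ((f p : ℕ) : ℝ) < ((p:ℝ) - Y) / H := by linarith
      rw [lt_div_iff₀ hH0] at h3
      linarith
    · have h3 : ((p:ℝ) - Y) / H ≤ (f p : ℕ) + 1 := by linarith
      rw [div_le_iff₀ hH0] at h3
      linarith
  have hfib : ∀ i ∈ Finset.range N, ((F.filter (fun p => f p = i)).card : ℝ) ≤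
      C * (1 / t + 1 / Real.sqrt k) * (2 * (H / Real.log Y)) := by
    intro i _
    have h1 := hint k u hk hu η α t (Y + i * H) H ht
      (by have : 0 ≤ (i:ℝ) * H := by positivity
          linarith) hHη h2k (F.filter (fun p => f p = i)) fun p hp => by
        rw [Finset.mem_filter] at hp
        obtain ⟨_, h2, h3⟩ := hfs p hp.1
        rw [hp.2] at h2 h3
        obtain ⟨h4, _, _, h5⟩ := hF p hp.1
        exact ⟨h4, h2, h3, h5⟩
    exact h1.trans (mul_le_mul_of_nonneg_left hq (by positivity))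
  have h1 := card_le_real F (Finset.range N) f (fun p hp => (hfs p hp).1) _ hfib
  rw [Finset.card_range] at h1
  refine h1.trans (le_of_eq ?_)
  rw [hH]
  field_simp

/-- one dyadic block -/
theorem deep_block : ∃ C : ℝ, 0 < C ∧ ∀ (k : ℕ) (u : ℤ) (η α t K0 Y r : ℝ), 1 ≤ k →
    IsCoprime u (k:ℤ) → 1 ≤ t → 1 ≤ K0 → 2 ≤ r → r ^ 8 ≤ Y →
    ∀ F : Finset ℕ, (∀ p ∈ F, p.Prime ∧ Y < p ∧ (p:ℝ) ≤ 2 * Y ∧
      (∃ m : ℤ, |(p:ℝ) * (u / k + η) - α - m| ≤ 1 / t) ∧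
      K0 ≤ k * max 1 (t * p * |η|) ∧ k * max 1 (t * p * |η|) ≤ r) →
    (F.card : ℝ) ≤ C * (1 / t + 1 / Real.sqrt (Real.sqrt K0)) * (Y / Real.log Y) := by
  classical
  obtain ⟨C, hC, harc⟩ := arc_block
  obtain ⟨C1, hC1, hdb⟩ := disp_block
  refine ⟨C + C1, by positivity, fun k u η α t K0 Y r hk hu ht hK0 hr hrY F hF => ?_⟩
  have hk0 : (0:ℝ) < k := by exact_mod_cast hk
  have hk1 : (1:ℝ) ≤ k := by exact_mod_cast hk
  have ht0 : 0 < t := by linarith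
  have hr0 : 0 < r := by linarith
  have hK00 : 0 < K0 := by linarith
  have h256 : (256:ℝ) ≤ r ^ 8 := by
    have := pow_le_pow_left₀ (by norm_num) hr 8
    norm_num at this; exact this
  have hY0 : 0 < Y := by linarith
  have hlogY : 0 < Real.log Y := Real.log_pos (by linarith)
  have hQ : 0 ≤ Y / Real.log Y := by positivity
  set S : ℝ := Real.sqrt K0 with hS
  have hS1 : 1 ≤ S := by rw [hS]; exact Real.one_le_sqrt.2 hK0
  have hS0 : 0 < S := by linarith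
  have hSS : S * S = K0 := Real.mul_self_sqrt hK00.le
  have hSr0 : 0 < Real.sqrt S := Real.sqrt_pos.2 hS0
  have hSr1 : Real.sqrt S ≤ S := by
    rw [Real.sqrt_le_iff]; exact ⟨hS0.le, by nlinarith⟩
  rcases F.eq_empty_or_nonempty with h0 | ⟨q, hq⟩
  · rw [h0]; simp only [Finset.card_empty, Nat.cast_zero]; positivity
  obtain ⟨_, hq1, hq2, _, hq3, hq4⟩ := hF q hq
  have hm1 : (1:ℝ) ≤ max 1 (t * q * |η|) := le_max_left _ _
  have hkr : (k:ℝ) ≤ r := (le_mul_of_one_le_right hk0.le hm1).trans hq4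
  have hDq : t * q * |η| ≤ r := by
    have h1 : t * q * |η| ≤ max 1 (t * q * |η|) := le_max_right _ _
    have h2 : max 1 (t * q * |η|) ≤ k * max 1 (t * q * |η|) :=
      le_mul_of_one_le_left (by linarith) hk1
    linarith
  have hDY : t * Y * |η| ≤ t * q * |η| :=
    mul_le_mul_of_nonneg_right (mul_le_mul_of_nonneg_left hq1.le ht0.le) (abs_nonneg _)
  rcases le_or_gt S k with hSk | hSk
  · -- large denominator
    have h1 := harc k u η α t Y r hk hu ht hr hrY hkr (hDY.trans hDq) F fun p hp =>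
      ⟨(hF p hp).1, (hF p hp).2.1, (hF p hp).2.2.1, (hF p hp).2.2.2.1⟩
    refine h1.trans (mul_le_mul_of_nonneg_right ?_ hQ)
    have h2 : 1 / Real.sqrt k ≤ 1 / Real.sqrt S :=
      one_div_le_one_div_of_le hSr0 (Real.sqrt_le_sqrt hSk)
    have h3 : 0 < 1 / t := by positivity
    have h4 : 0 < 1 / Real.sqrt S := by positivity
    calc C * (1 / t + 1 / Real.sqrt k) ≤ C * (1 / t + 1 / Real.sqrt S) :=
          mul_le_mul_of_nonneg_left (by linarith) hC.le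
      _ ≤ (C + C1) * (1 / t + 1 / Real.sqrt S) :=
          mul_le_mul_of_nonneg_right (by linarith) (by positivity)
  · -- small denominator, large displacement
    have hmS : S < max 1 (t * q * |η|) := by
      by_contra h
      have h1 : k * max 1 (t * q * |η|) ≤ k * S :=
        mul_le_mul_of_nonneg_left (not_lt.1 h) hk0.le
      have h2 : (k:ℝ) * S < S * S := mul_lt_mul_of_pos_right hSk hS0
      linarith
    have hSq : S ≤ t * q * |η| := by
      rcases lt_max_iff.1 hmS with h | h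
      · linarith
      · exact h.le
    have h1 := hdb k u η α t S Y hk ht hS1 (by linarith) ?_ ?_ ?_ F fun p hp =>
      ⟨(hF p hp).1, (hF p hp).2.1, (hF p hp).2.2.1, (hF p hp).2.2.2.1⟩
    · refine h1.trans (mul_le_mul_of_nonneg_right ?_ hQ)
      have h2 : 1 / S ≤ 1 / Real.sqrt S := one_div_le_one_div_of_le hSr0 hSr1
      have h3 : 0 < 1 / t := by positivity
      have h4 : 0 < 1 / Real.sqrt S := by positivity
      calc C1 * (1 / t + 1 / S) ≤ C1 * (1 / t + 1 / Real.sqrt S) :=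
            mul_le_mul_of_nonneg_left (by linarith) hC1.le
        _ ≤ (C + C1) * (1 / t + 1 / Real.sqrt S) :=
            mul_le_mul_of_nonneg_right (by linarith) (by positivity)
    · have h2 : (k:ℝ) ^ 4 ≤ r ^ 4 := pow_le_pow_left₀ hk0.le hkr 4
      have h3 : r ^ 4 ≤ r ^ 8 := pow_le_pow_right₀ (by linarith) (by norm_num)
      linarith
    · calc S ≤ t * q * |η| := hSq
        _ ≤ t * (2 * Y) * |η| :=
            mul_le_mul_of_nonneg_right (mul_le_mul_of_nonneg_left hq2 ht0.le) (abs_nonneg _)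
        _ = _ := by ring
    · have h2 : (t * Y * |η|) ^ 4 ≤ r ^ 4 :=
        pow_le_pow_left₀ (by positivity) (hDY.trans hDq) 4
      have h3 : r ^ 4 ≤ r ^ 8 := pow_le_pow_right₀ (by linarith) (by norm_num)
      linarith

/-- **one window `(X, X²]`, explicit form** (`r` = any bound `≤ X^(1/8)` of the depth) -/
theorem gwk_deep : ∃ C : ℝ, 0 < C ∧ ∀ (k : ℕ) (u : ℤ) (η α t K0 X r : ℝ), 1 ≤ k →
    IsCoprime u (k:ℤ) → 1 ≤ t → 1 ≤ K0 → 2 ≤ r → r ^ 8 ≤ X →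
    ∀ F : Finset ℕ, (∀ p ∈ F, p.Prime ∧ X < p ∧ (p:ℝ) ≤ X ^ 2 ∧
      (∃ m : ℤ, |(p:ℝ) * (u / k + η) - α - m| ≤ 1 / t) ∧
      K0 ≤ k * max 1 (t * p * |η|) ∧ k * max 1 (t * p * |η|) ≤ r) →
    ∑ p ∈ F, (1:ℝ) / p ≤ C * (1 / t + 1 / Real.sqrt (Real.sqrt K0)) := by
  classical
  obtain ⟨C, hC, hbl⟩ := deep_block
  refine ⟨3 * C, by positivity, fun k u η α t K0 X r hk hu ht hK0 hr hrX F hF => ?_⟩
  have ht0 : 0 < t := by linarith
  have h256 : (256:ℝ) ≤ r ^ 8 := by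
    have := pow_le_pow_left₀ (by norm_num) hr 8
    norm_num at this; exact this
  rw [mul_assoc]
  refine sum_blocks (by positivity) (by linarith) F
    (fun p hp => ⟨(hF p hp).2.1, (hF p hp).2.2.1⟩) ?_
  intro Y hXY G hGF hG
  refine hbl k u η α t K0 Y r hk hu ht hK0 hr (hrX.trans hXY) G fun p hp => ?_
  obtain ⟨h5, _, _, h6, h7, h8⟩ := hF p (hGF hp)
  exact ⟨h5, (hG p hp).1, (hG p hp).2, h6, h7, h8⟩

/-- **leaf `gwk'` of BLOCK NH** -/
theorem gwk' : ∃ C : ℝ, 0 < C ∧ ∃ c : ℝ, 0 < c ∧ ∀ (u : ℤ) (k : ℕ) (η α t K0 X : ℝ), 1 ≤ k →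
    1 ≤ K0 → 1 ≤ t → C ≤ X → Int.gcd u k = 1 →
    ∀ F : Finset ℕ, (∀ p ∈ F, p.Prime ∧ X < p ∧ (p:ℝ) ≤ X ^ 2 ∧
      (∃ m : ℤ, |(p:ℝ) * (u / k + η) - α - m| ≤ 1 / t) ∧
      K0 ≤ k * max 1 (t * p * |η|) ∧ k * max 1 (t * p * |η|) ≤ X ^ (1 / 8 : ℝ)) →
    ∑ p ∈ F, (1:ℝ) / p ≤ C * (K0 ^ (-c) + t ^ (-c)) := by
  obtain ⟨C, hC, h⟩ := gwk_deep
  refine ⟨max C 256, lt_of_lt_of_le hC (le_max_left _ _), 1 / 4, by norm_num,
    fun u k η α t K0 X hk hK0 ht hX hu F hF => ?_⟩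
  have hX256 : (256:ℝ) ≤ X := (le_max_right _ _).trans hX
  have hX0 : 0 < X := by linarith
  have ht0 : 0 < t := by linarith
  have hK00 : 0 < K0 := by linarith
  have h1 := h k u η α t K0 X (X ^ (1 / 8 : ℝ)) hk (Int.isCoprime_iff_gcd_eq_one.2 hu) ht hK0 ?_ ?_
    F hF
  · have h2 : 1 / Real.sqrt (Real.sqrt K0) = K0 ^ (-(1 / 4) : ℝ) := by
      rw [Real.sqrt_eq_rpow, Real.sqrt_eq_rpow, ← Real.rpow_mul hK00.le, Real.rpow_neg hK00.le,
        one_div]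
      norm_num
    have h3 : 1 / t ≤ t ^ (-(1 / 4) : ℝ) := by
      rw [Real.rpow_neg ht0.le, one_div]
      refine inv_anti₀ (by positivity) ?_
      calc t ^ (1 / 4 : ℝ) ≤ t ^ (1:ℝ) := Real.rpow_le_rpow_of_exponent_le ht (by norm_num)
        _ = t := Real.rpow_one t
    have h4 : 0 < K0 ^ (-(1 / 4) : ℝ) := by positivity
    have h5 : 0 < t ^ (-(1 / 4) : ℝ) := by positivity
    calc _ ≤ C * (1 / t + 1 / Real.sqrt (Real.sqrt K0)) := h1
      _ ≤ C * (K0 ^ (-(1 / 4) : ℝ) + t ^ (-(1 / 4) : ℝ)) :=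
          mul_le_mul_of_nonneg_left (by rw [h2]; linarith) hC.le
      _ ≤ _ := mul_le_mul_of_nonneg_right (le_max_left _ _) (by positivity)
  · have h2 : (2:ℝ) = (256:ℝ) ^ (1 / 8 : ℝ) := by
      rw [show (256:ℝ) = 2 ^ (8:ℝ) by norm_num, ← Real.rpow_mul (by norm_num)]
      norm_num
    rw [h2]
    exact Real.rpow_le_rpow (by norm_num) hX256 (by norm_num)
  · rw [← Real.rpow_natCast, ← Real.rpow_mul hX0.le]
    norm_num

end Crest.Agent.R4C.GWKBx821
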