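import Mathlib

/-!
# Row 4, GW LEMMA (413, note 2716 (1)); typed by helper581

Abstract finite form.  `Ω` any type, `μ ≥ 0` weights, `B` a finite set.  For every level `j` some
points `x ∈ B` are *active* (`act j x`) and then have a node `N j x ∋ x` and a number `c j x ≥ 0`
(the mass of the cylinder over which the node lives), `κ j x ≥ 0` and a weight `W j x ≥ 0`, which
depend on the node only.  `W j x` is non-increasing in `j`.

* `uu μ B N c j x` : `u_j(x) = μ(B ∩ N_j(x)) / c_j(x)`.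
* hypothesis `hyp`: for all `s ∈ [0,1]` the mass of the points `y` of `B ∩ N_j(x)` with
  `W_{j+1}(y) ≥ (1-s) W_j(y)` is at most `C1 (s + κ_j(x)) c_j(x)`.
* `gw` : `Σ_j Σ_{x ∈ B, active} μ W_j u_j ≤ (16 C1 + 2 C1 K) Σ_{x ∈ B} μ W_0`, if
  `Σ_j κ_j(x) ≤ K` for all `x ∈ B`.
-/

set_option autoImplicit false

open scoped Classical
open Finset

noncomputable section

namespace Crest.Agent.R4C.GWx581

variable {Ω : Type*}

/-- conditional mass of `B` in the node -/
def uu (μ : Ω → ℝ) (B : Finset Ω) (N : ℕ → Ω → Set Ω) (c : ℕ → Ω → ℝ) (j : ℕ) (x : Ω) : ℝ :=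
  (∑ y ∈ B with y ∈ N j x, μ y) / c j x

/-- one node: `S` = `B ∩` node, `w` = weight on the node, `w'` the next weights. -/
theorem node (μ : Ω → ℝ) (hμ : ∀ x, 0 ≤ μ x) (S : Finset Ω) (w : ℝ) (hw : 0 ≤ w) (w' : Ω → ℝ)
    (hw0 : ∀ y ∈ S, 0 ≤ w' y) (hw' : ∀ y ∈ S, w' y ≤ w) (c κ C1 : ℝ) (hc : 0 ≤ c) (hκ : 0 ≤ κ)
    (hC1 : 0 < C1)
    (hyp : ∀ s : ℝ, 0 ≤ s → s ≤ 1 →
      ∑ y ∈ S with (1 - s) * w ≤ w' y, μ y ≤ C1 * (s + κ) * c) :
    ∑ y ∈ S, μ y * w * ((∑ z ∈ S, μ z) / c) ≤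
      16 * C1 * (∑ y ∈ S, μ y * (w - w' y)) + 2 * C1 * κ * ∑ y ∈ S, μ y * w := by
  have hm0 : 0 ≤ ∑ y ∈ S, μ y := sum_nonneg fun y _ => hμ y
  have hd0 : 0 ≤ ∑ y ∈ S, μ y * (w - w' y) :=
    sum_nonneg fun y hy => mul_nonneg (hμ y) (sub_nonneg.2 (hw' y hy))
  have e0 : ∑ y ∈ S, μ y * w = (∑ y ∈ S, μ y) * w := by rw [sum_mul]
  have e1 : ∑ y ∈ S, μ y * w * ((∑ z ∈ S, μ z) / c) =
      (∑ y ∈ S, μ y) * w * ((∑ z ∈ S, μ z) / c) := by rw [← sum_mul, ← sum_mul]
  rw [e1, e0]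
  set m := ∑ y ∈ S, μ y with hm
  rcases hc.eq_or_lt with hc0 | hcp
  · rw [← hc0, div_zero, mul_zero]
    positivity
  set u := m / c with hu
  have hu0 : 0 ≤ u := div_nonneg hm0 hc
  have hmu : m = u * c := by rw [hu, div_mul_cancel₀ _ hcp.ne']
  by_cases hcase : u < 2 * C1 * κ
  · have h1 : m * w * u ≤ m * w * (2 * C1 * κ) :=
      mul_le_mul_of_nonneg_left hcase.le (mul_nonneg hm0 hw)
    have h2 : 0 ≤ 16 * C1 * ∑ y ∈ S, μ y * (w - w' y) := by positivity
    calc m * w * u ≤ m * w * (2 * C1 * κ) := h1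
      _ = 2 * C1 * κ * (m * w) := by ring
      _ ≤ _ := by linarith
  · push Not at hcase
    -- `u ≤ 2 C1`
    have hu1 : u ≤ 2 * C1 := by
      have h1 := hyp 1 zero_le_one le_rfl
      have h2 : ∑ y ∈ S with (1 - (1 : ℝ)) * w ≤ w' y, μ y = m := by
        rw [filter_true_of_mem]
        intro y hy
        rw [sub_self, zero_mul]
        exact hw0 y hy
      rw [h2, hmu] at h1
      have h3 : u ≤ C1 * (1 + κ) := le_of_mul_le_mul_right h1 hcp
      nlinarith
    set s := u / (4 * C1) with hs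
    have hs0 : 0 ≤ s := by positivity
    have hs1 : s ≤ 1 := by
      rw [hs, div_le_one (by positivity)]
      linarith
    have hsC : C1 * s = u / 4 := by
      rw [hs]; field_simp
    have h1 := hyp s hs0 hs1
    have h2 : ∑ y ∈ S with (1 - s) * w ≤ w' y, μ y ≤ 3 / 4 * m := by
      refine h1.trans ?_
      rw [hmu]
      have : C1 * (s + κ) ≤ 3 / 4 * u := by
        rw [mul_add, hsC]; nlinarith
      calc C1 * (s + κ) * c ≤ 3 / 4 * u * c := mul_le_mul_of_nonneg_right this hc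
        _ = _ := by ring
    have h3 : (∑ y ∈ S with (1 - s) * w ≤ w' y, μ y) +
        ∑ y ∈ S with ¬ (1 - s) * w ≤ w' y, μ y = m := by
      rw [hm]; exact sum_filter_add_sum_filter_not S _ _
    have h4 : m / 4 ≤ ∑ y ∈ S with ¬ (1 - s) * w ≤ w' y, μ y := by linarith
    have h5 : (s * w) * ∑ y ∈ S with ¬ (1 - s) * w ≤ w' y, μ y ≤
        ∑ y ∈ S, μ y * (w - w' y) := by
      rw [mul_sum]
      calc ∑ y ∈ S with ¬ (1 - s) * w ≤ w' y, s * w * μ y
          ≤ ∑ y ∈ S with ¬ (1 - s) * w ≤ w' y, μ y * (w - w' y) := by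
            apply sum_le_sum
            intro y hy
            rw [mem_filter] at hy
            have h6 : w' y < (1 - s) * w := not_le.1 hy.2
            rw [mul_comm]
            apply mul_le_mul_of_nonneg_left _ (hμ y)
            linarith
        _ ≤ ∑ y ∈ S, μ y * (w - w' y) := by
            apply sum_le_sum_of_subset_of_nonneg (filter_subset _ _)
            intro y hy _
            exact mul_nonneg (hμ y) (sub_nonneg.2 (hw' y hy))
    have h6 : (s * w) * (m / 4) ≤ ∑ y ∈ S, μ y * (w - w' y) :=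
      (mul_le_mul_of_nonneg_left h4 (mul_nonneg hs0 hw)).trans h5
    have h7 : m * w * u = 16 * C1 * ((s * w) * (m / 4)) := by
      have : u = 4 * (C1 * s) := by rw [hsC]; ring
      rw [this]; ring
    have h8 : 0 ≤ 2 * C1 * κ * (m * w) := by positivity
    rw [h7]
    have := mul_le_mul_of_nonneg_left h6 (by positivity : (0 : ℝ) ≤ 16 * C1)
    linarith

/-- **GW LEMMA** -/
theorem gw (μ : Ω → ℝ) (hμ : ∀ x, 0 ≤ μ x) (B : Finset Ω) (J : ℕ) (act : ℕ → Ω → Prop)
    (N : ℕ → Ω → Set Ω) (W c κ : ℕ → Ω → ℝ) (C1 K : ℝ) (hC1 : 0 < C1)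
    (hW0 : ∀ j, ∀ x ∈ B, 0 ≤ W j x) (hmono : ∀ j, ∀ x ∈ B, W (j + 1) x ≤ W j x)
    (hc : ∀ j, ∀ x ∈ B, 0 ≤ c j x) (hκ : ∀ j, ∀ x ∈ B, 0 ≤ κ j x)
    (hself : ∀ j, ∀ x ∈ B, act j x → x ∈ N j x)
    (hnode : ∀ j, ∀ x ∈ B, act j x → ∀ y ∈ B, y ∈ N j x →
      act j y ∧ N j y = N j x ∧ c j y = c j x ∧ W j y = W j x ∧ κ j y = κ j x)
    (hyp : ∀ j, ∀ x ∈ B, act j x → ∀ s : ℝ, 0 ≤ s → s ≤ 1 →
      ∑ y ∈ B with y ∈ N j x ∧ (1 - s) * W j y ≤ W (j + 1) y, μ y ≤ C1 * (s + κ j x) * c j x)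
    (hK : ∀ x ∈ B, ∑ j ∈ range J, (if act j x then κ j x else 0) ≤ K) :
    ∑ j ∈ range J, ∑ x ∈ B with act j x, μ x * W j x * uu μ B N c j x ≤
      (16 * C1 + 2 * C1 * K) * ∑ x ∈ B, μ x * W 0 x := by
  -- one level
  have key : ∀ j, ∑ x ∈ B with act j x, μ x * W j x * uu μ B N c j x ≤
      16 * C1 * (∑ x ∈ B with act j x, μ x * (W j x - W (j + 1) x)) +
        2 * C1 * ∑ x ∈ B with act j x, μ x * W j x * κ j x := by
    intro j
    set A := B.filter (act j) with hA
    let F : Ω → Finset Ω := fun x => B.filter (· ∈ N j x)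
    have hfib : ∀ x ∈ A, A.filter (fun y => F y = F x) = F x := by
      intro x hx
      rw [hA, mem_filter] at hx
      ext y
      simp only [mem_filter, hA, F]
      constructor
      · rintro ⟨⟨hyB, hya⟩, he⟩
        have h1 : y ∈ B.filter (· ∈ N j y) := mem_filter.2 ⟨hyB, hself j y hyB hya⟩
        rw [he] at h1
        exact (mem_filter.1 h1)
      · rintro ⟨hyB, hyN⟩
        obtain ⟨h1, h2, -⟩ := hnode j x hx.1 hx.2 y hyB hyN
        exact ⟨⟨hyB, h1⟩, by rw [h2]⟩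
    have hpart : ∀ f : Ω → ℝ, ∑ x ∈ A, f x = ∑ S ∈ A.image F, ∑ x ∈ S, f x := by
      intro f
      rw [← sum_fiberwise_of_maps_to (s := A) (t := A.image F) (g := F)
        (fun x hx => mem_image_of_mem F hx)]
      apply sum_congr rfl
      intro S hS
      obtain ⟨x, hx, rfl⟩ := mem_image.1 hS
      rw [hfib x hx]
    rw [hpart, hpart, hpart, mul_sum, mul_sum, ← sum_add_distrib]
    apply sum_le_sum
    intro S hS
    obtain ⟨x, hx, rfl⟩ := mem_image.1 hS
    have hx' := hx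
    rw [hA, mem_filter] at hx'
    obtain ⟨hxB, hxa⟩ := hx'
    have hS1 : ∀ y ∈ F x, y ∈ B ∧ y ∈ N j x := fun y hy => mem_filter.1 hy
    have hn : ∀ y ∈ F x, N j y = N j x ∧ c j y = c j x ∧ W j y = W j x ∧ κ j y = κ j x :=
      fun y hy => (hnode j x hxB hxa y (hS1 y hy).1 (hS1 y hy).2).2
    have hnd := node μ hμ (F x) (W j x) (hW0 j x hxB) (W (j + 1))
      (fun y hy => hW0 (j + 1) y (hS1 y hy).1)
      (fun y hy => by rw [← (hn y hy).2.2.1]; exact hmono j y (hS1 y hy).1)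
      (c j x) (κ j x) C1 (hc j x hxB) (hκ j x hxB) hC1
      (by
        intro s h0 h1
        refine le_trans (le_of_eq ?_) (hyp j x hxB hxa s h0 h1)
        apply sum_congr _ (fun _ _ => rfl)
        ext y
        simp only [F, mem_filter]
        constructor
        · rintro ⟨⟨hyB, hyN⟩, h⟩
          refine ⟨hyB, hyN, ?_⟩
          rw [(hn y (mem_filter.2 ⟨hyB, hyN⟩)).2.2.1]; exact h
        · rintro ⟨hyB, hyN, h⟩
          refine ⟨⟨hyB, hyN⟩, ?_⟩
          rw [(hn y (mem_filter.2 ⟨hyB, hyN⟩)).2.2.1] at h; exact h)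
    calc ∑ y ∈ F x, μ y * W j y * uu μ B N c j y
        = ∑ y ∈ F x, μ y * W j x * ((∑ z ∈ F x, μ z) / c j x) := by
          apply sum_congr rfl
          intro y hy
          obtain ⟨h1, h2, h3, -⟩ := hn y hy
          rw [uu, h1, h2, h3]
      _ ≤ _ := hnd
      _ = _ := by
          congr 1
          · congr 1
            apply sum_congr rfl
            intro y hy
            rw [(hn y hy).2.2.1]
          · rw [mul_assoc, mul_sum]
            congr 1
            apply sum_congr rfl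
            intro y hy
            rw [(hn y hy).2.2.1, (hn y hy).2.2.2]; ring
  have hT : ∑ j ∈ range J, ∑ x ∈ B with act j x, μ x * (W j x - W (j + 1) x) ≤
      ∑ x ∈ B, μ x * W 0 x := by
    calc ∑ j ∈ range J, ∑ x ∈ B with act j x, μ x * (W j x - W (j + 1) x)
        ≤ ∑ j ∈ range J, ∑ x ∈ B, μ x * (W j x - W (j + 1) x) := by
          apply sum_le_sum
          intro j _
          apply sum_le_sum_of_subset_of_nonneg (filter_subset _ _)
          intro x hx _
          exact mul_nonneg (hμ x) (sub_nonneg.2 (hmono j x hx))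
      _ = ∑ x ∈ B, ∑ j ∈ range J, μ x * (W j x - W (j + 1) x) := sum_comm
      _ ≤ ∑ x ∈ B, μ x * W 0 x := by
          apply sum_le_sum
          intro x hx
          rw [← mul_sum, Finset.sum_range_sub']
          apply mul_le_mul_of_nonneg_left _ (hμ x)
          have := hW0 J x hx
          linarith
  have hWle : ∀ j, ∀ x ∈ B, W j x ≤ W 0 x := by
    intro j x hx
    induction j with
    | zero => exact le_rfl
    | succ j ih => exact (hmono j x hx).trans ih
  have hP : ∑ j ∈ range J, ∑ x ∈ B with act j x, μ x * W j x * κ j x ≤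
      K * ∑ x ∈ B, μ x * W 0 x := by
    calc ∑ j ∈ range J, ∑ x ∈ B with act j x, μ x * W j x * κ j x
        ≤ ∑ j ∈ range J, ∑ x ∈ B, μ x * W 0 x * (if act j x then κ j x else 0) := by
          apply sum_le_sum
          intro j _
          rw [sum_filter]
          apply sum_le_sum
          intro x hx
          split_ifs with h
          · apply mul_le_mul_of_nonneg_right _ (hκ j x hx)
            exact mul_le_mul_of_nonneg_left (hWle j x hx) (hμ x)
          · rw [mul_zero]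
      _ = ∑ x ∈ B, μ x * W 0 x * ∑ j ∈ range J, (if act j x then κ j x else 0) := by
          rw [sum_comm]
          apply sum_congr rfl
          intro x _
          rw [mul_sum]
      _ ≤ ∑ x ∈ B, μ x * W 0 x * K := by
          apply sum_le_sum
          intro x hx
          exact mul_le_mul_of_nonneg_left (hK x hx) (mul_nonneg (hμ x) (hW0 0 x hx))
      _ = _ := by rw [← sum_mul, mul_comm]
  calc ∑ j ∈ range J, ∑ x ∈ B with act j x, μ x * W j x * uu μ B N c j x
      ≤ ∑ j ∈ range J, (16 * C1 * (∑ x ∈ B with act j x, μ x * (W j x - W (j + 1) x)) +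
        2 * C1 * ∑ x ∈ B with act j x, μ x * W j x * κ j x) := sum_le_sum fun j _ => key j
    _ = 16 * C1 * (∑ j ∈ range J, ∑ x ∈ B with act j x, μ x * (W j x - W (j + 1) x)) +
        2 * C1 * ∑ j ∈ range J, ∑ x ∈ B with act j x, μ x * W j x * κ j x := by
        rw [sum_add_distrib, ← mul_sum, ← mul_sum]
    _ ≤ 16 * C1 * (∑ x ∈ B, μ x * W 0 x) + 2 * C1 * (K * ∑ x ∈ B, μ x * W 0 x) := by
        gcongr
    _ = _ := by ring

end Crest.Agent.R4C.GWx581
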