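import Mathlib

/-!
# Row 4: two abstract summation engines (helper972)

* `gw` : GW LEMMA of helper413 (note 2716 (1)), weighted form (`f : Ω → [0,1]`).
  Nodes `n` with fibre `F n` (natural law), member set `S n ⊆ F n`, weight `W n ∈ [0,1]`,
  next-step ratio `om n b`.  If `ν(1 - om ≤ s | F n) ≤ C1 (s + kap n)` for all `s ∈ [0,1]` and
  `∑_{n ∋ b} W n (1 - om n b) ≤ 1`, `∑_{n ∋ b} kap n ≤ K`, then
  `∑_n W n (ν f (S n))² / ν (F n) ≤ (16 C1 + 2 C1 K) ∑ ν f`.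
* `gw_levels` : the same with levels `j = 0..J-1` and telescoping `W j b`.
* `schur_future` : Schur test with future weights of helper232 (note 2699 (4)).
-/

set_option autoImplicit false

open Finset

namespace Crest.Agent.R4C.GWx972

section gw

variable {Ω N : Type*} [DecidableEq Ω]

/-- one node -/
lemma node_bound {Ω : Type*} [DecidableEq Ω] (F S : Finset Ω) (hSF : S ⊆ F) (ν f om : Ω → ℝ)
    (hν : ∀ b ∈ F, 0 ≤ ν b) (hf0 : ∀ b ∈ F, 0 ≤ f b) (hf1 : ∀ b ∈ F, f b ≤ 1)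
    (hom : ∀ b ∈ F, om b ≤ 1) (W kap C1 : ℝ) (hW0 : 0 ≤ W) (hW1 : W ≤ 1) (hk : 0 ≤ kap)
    (hC1 : 1 ≤ C1)
    (hyp : ∀ s : ℝ, 0 ≤ s → s ≤ 1 →
      ∑ b ∈ F.filter (fun b => 1 - om b ≤ s), ν b ≤ C1 * (s + kap) * ∑ b ∈ F, ν b) :
    W * (∑ b ∈ S, ν b * f b) ^ 2 / (∑ b ∈ F, ν b) ≤
      16 * C1 * (∑ b ∈ S, ν b * f b * (W * (1 - om b))) + 2 * C1 * (∑ b ∈ S, ν b * f b * kap) := by
  set m : ℝ := ∑ b ∈ S, ν b * f b with hm
  set V : ℝ := ∑ b ∈ F, ν b with hV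
  have hm0 : 0 ≤ m := sum_nonneg fun b hb => mul_nonneg (hν b (hSF hb)) (hf0 b (hSF hb))
  have hV0 : 0 ≤ V := sum_nonneg fun b hb => hν b hb
  have hmV : m ≤ V := by
    calc m ≤ ∑ b ∈ S, ν b := sum_le_sum fun b hb => by
            have := hf1 b (hSF hb); nlinarith [hν b (hSF hb)]
      _ ≤ V := sum_le_sum_of_subset_of_nonneg hSF fun b hb _ => hν b hb
  have hA0 : 0 ≤ ∑ b ∈ S, ν b * f b * (W * (1 - om b)) :=
    sum_nonneg fun b hb => mul_nonneg (mul_nonneg (hν b (hSF hb)) (hf0 b (hSF hb)))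
      (mul_nonneg hW0 (by linarith [hom b (hSF hb)]))
  have hK : ∑ b ∈ S, ν b * f b * kap = m * kap := by rw [hm, sum_mul]
  have hC0 : 0 < C1 := by linarith
  rcases hV0.eq_or_lt with h0 | hVpos
  · rw [← h0, div_zero]
    have : 0 ≤ ∑ b ∈ S, ν b * f b * kap := by rw [hK]; positivity
    positivity
  set u : ℝ := m / V with hu
  have hu0 : 0 ≤ u := by positivity
  have hu1 : u ≤ 1 := by rw [hu, div_le_one hVpos]; exact hmV
  have hmu : m = u * V := by rw [hu]; field_simp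
  have hterm : W * m ^ 2 / V = W * (m * u) := by rw [hu]; field_simp
  rw [hterm]
  rcases lt_or_ge u (2 * C1 * kap) with h | h
  · rw [hK]
    have h1 : W * (m * u) ≤ m * u := by
      have : 0 ≤ m * u := by positivity
      nlinarith
    have h2 : m * u ≤ m * (2 * C1 * kap) := mul_le_mul_of_nonneg_left h.le hm0
    nlinarith [mul_nonneg hC0.le hA0]
  · set s : ℝ := u / (4 * C1) with hs
    have hs0 : 0 ≤ s := by positivity
    have hs1 : s ≤ 1 := by
      rw [hs, div_le_one (by positivity)]; linarith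
    have h1 := hyp s hs0 hs1
    have hCs : C1 * s = u / 4 := by rw [hs]; field_simp
    have h2 : ∑ b ∈ F.filter (fun b => 1 - om b ≤ s), ν b ≤ (3 / 4 * u) * V := by
      refine h1.trans ?_
      apply mul_le_mul_of_nonneg_right _ hV0
      rw [mul_add, hCs]
      linarith
    -- members with `1 - om > s`
    have h3 : (u / 4) * V ≤ ∑ b ∈ S.filter (fun b => ¬ 1 - om b ≤ s), ν b * f b := by
      have e := sum_filter_add_sum_filter_not S (fun b => 1 - om b ≤ s) (fun b => ν b * f b)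
      have h4 : ∑ b ∈ S.filter (fun b => 1 - om b ≤ s), ν b * f b ≤
          ∑ b ∈ F.filter (fun b => 1 - om b ≤ s), ν b := by
        calc ∑ b ∈ S.filter (fun b => 1 - om b ≤ s), ν b * f b
            ≤ ∑ b ∈ S.filter (fun b => 1 - om b ≤ s), ν b := sum_le_sum fun b hb => by
              have hb' := hSF (mem_filter.1 hb).1
              have := hf1 b hb'; nlinarith [hν b hb']
          _ ≤ _ := sum_le_sum_of_subset_of_nonneg (filter_subset_filter _ hSF)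
              fun b hb _ => hν b (mem_filter.1 hb).1
      have : m = u * V := hmu
      rw [← hm] at e
      nlinarith
    have h5 : s * ((u / 4) * V) ≤ ∑ b ∈ S, ν b * f b * (1 - om b) := by
      calc s * ((u / 4) * V) ≤ s * ∑ b ∈ S.filter (fun b => ¬ 1 - om b ≤ s), ν b * f b :=
            mul_le_mul_of_nonneg_left h3 hs0
        _ = ∑ b ∈ S.filter (fun b => ¬ 1 - om b ≤ s), ν b * f b * s := by
            rw [mul_comm, sum_mul]
        _ ≤ ∑ b ∈ S.filter (fun b => ¬ 1 - om b ≤ s), ν b * f b * (1 - om b) :=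
            sum_le_sum fun b hb => by
              have hb' := mem_filter.1 hb
              have h6 : s ≤ 1 - om b := (not_le.1 hb'.2).le
              exact mul_le_mul_of_nonneg_left h6
                (mul_nonneg (hν b (hSF hb'.1)) (hf0 b (hSF hb'.1)))
        _ ≤ ∑ b ∈ S, ν b * f b * (1 - om b) :=
            sum_le_sum_of_subset_of_nonneg (filter_subset _ _) fun b hb _ =>
              mul_nonneg (mul_nonneg (hν b (hSF hb)) (hf0 b (hSF hb)))
                (by linarith [hom b (hSF hb)])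
    have h6 : ∑ b ∈ S, ν b * f b * (W * (1 - om b)) = W * ∑ b ∈ S, ν b * f b * (1 - om b) := by
      rw [mul_sum]; exact sum_congr rfl fun b _ => by ring
    have h7 : 0 ≤ 2 * C1 * ∑ b ∈ S, ν b * f b * kap := by rw [hK]; positivity
    have h8 : m * u = 16 * C1 * (s * ((u / 4) * V)) := by
      rw [hmu, hs]; field_simp; ring
    rw [h6]
    have h9 : W * (m * u) ≤ W * (16 * C1 * ∑ b ∈ S, ν b * f b * (1 - om b)) := by
      apply mul_le_mul_of_nonneg_left _ hW0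
      rw [h8]
      exact mul_le_mul_of_nonneg_left h5 (by positivity)
    nlinarith

/-- GW lemma (413, note 2716 (1)). -/
theorem gw (Nd : Finset N) (B : Finset Ω) (F S : N → Finset Ω) (hSF : ∀ n ∈ Nd, S n ⊆ F n)
    (hSB : ∀ n ∈ Nd, S n ⊆ B) (ν f : Ω → ℝ) (om : N → Ω → ℝ)
    (hνB : ∀ b ∈ B, 0 ≤ ν b) (hfB : ∀ b ∈ B, 0 ≤ f b)
    (hν : ∀ n ∈ Nd, ∀ b ∈ F n, 0 ≤ ν b) (hf0 : ∀ n ∈ Nd, ∀ b ∈ F n, 0 ≤ f b)
    (hf1 : ∀ n ∈ Nd, ∀ b ∈ F n, f b ≤ 1)
    (hom : ∀ n ∈ Nd, ∀ b ∈ F n, om n b ≤ 1) (W kap : N → ℝ) (C1 K : ℝ)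
    (hW0 : ∀ n ∈ Nd, 0 ≤ W n) (hW1 : ∀ n ∈ Nd, W n ≤ 1) (hk : ∀ n ∈ Nd, 0 ≤ kap n)
    (hC1 : 1 ≤ C1)
    (hyp : ∀ n ∈ Nd, ∀ s : ℝ, 0 ≤ s → s ≤ 1 →
      ∑ b ∈ (F n).filter (fun b => 1 - om n b ≤ s), ν b ≤ C1 * (s + kap n) * ∑ b ∈ F n, ν b)
    (tele : ∀ b ∈ B, ∑ n ∈ Nd with b ∈ S n, W n * (1 - om n b) ≤ 1)
    (hK : ∀ b ∈ B, ∑ n ∈ Nd with b ∈ S n, kap n ≤ K) :
    ∑ n ∈ Nd, W n * (∑ b ∈ S n, ν b * f b) ^ 2 / (∑ b ∈ F n, ν b) ≤
      (16 * C1 + 2 * C1 * K) * ∑ b ∈ B, ν b * f b := by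
  have hC0 : 0 < C1 := by linarith
  have swap : ∀ g : N → Ω → ℝ, ∑ n ∈ Nd, ∑ b ∈ S n, ν b * f b * g n b =
      ∑ b ∈ B, ν b * f b * ∑ n ∈ Nd with b ∈ S n, g n b := by
    intro g
    have h1 : ∀ n ∈ Nd, ∑ b ∈ S n, ν b * f b * g n b =
        ∑ b ∈ B, if b ∈ S n then ν b * f b * g n b else 0 := by
      intro n hn
      rw [← sum_filter]
      apply sum_congr _ fun _ _ => rfl
      ext b
      simp only [mem_filter]
      exact ⟨fun h => ⟨hSB n hn h, h⟩, fun h => h.2⟩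
    rw [sum_congr rfl h1, sum_comm]
    apply sum_congr rfl
    intro b _
    rw [sum_filter, mul_sum]
    apply sum_congr rfl
    intro n _
    split_ifs <;> simp
  calc ∑ n ∈ Nd, W n * (∑ b ∈ S n, ν b * f b) ^ 2 / (∑ b ∈ F n, ν b)
      ≤ ∑ n ∈ Nd, (16 * C1 * (∑ b ∈ S n, ν b * f b * (W n * (1 - om n b))) +
          2 * C1 * (∑ b ∈ S n, ν b * f b * kap n)) :=
        sum_le_sum fun n hn => node_bound (F n) (S n) (hSF n hn) ν f (om n) (hν n hn) (hf0 n hn)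
          (hf1 n hn) (hom n hn) (W n) (kap n) C1 (hW0 n hn) (hW1 n hn) (hk n hn) hC1 (hyp n hn)
    _ = 16 * C1 * (∑ b ∈ B, ν b * f b * ∑ n ∈ Nd with b ∈ S n, W n * (1 - om n b)) +
          2 * C1 * (∑ b ∈ B, ν b * f b * ∑ n ∈ Nd with b ∈ S n, kap n) := by
        rw [sum_add_distrib, ← mul_sum, ← mul_sum, swap (fun n b => W n * (1 - om n b)),
          swap (fun n _ => kap n)]
    _ ≤ 16 * C1 * (∑ b ∈ B, ν b * f b * 1) + 2 * C1 * (∑ b ∈ B, ν b * f b * K) := by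
        have hνf : ∀ b ∈ B, 0 ≤ ν b * f b := fun b hb => mul_nonneg (hνB b hb) (hfB b hb)
        have a1 : ∑ b ∈ B, ν b * f b * ∑ n ∈ Nd with b ∈ S n, W n * (1 - om n b) ≤
            ∑ b ∈ B, ν b * f b * 1 :=
          sum_le_sum fun b hb => mul_le_mul_of_nonneg_left (tele b hb) (hνf b hb)
        have a2 : ∑ b ∈ B, ν b * f b * ∑ n ∈ Nd with b ∈ S n, kap n ≤
            ∑ b ∈ B, ν b * f b * K :=
          sum_le_sum fun b hb => mul_le_mul_of_nonneg_left (hK b hb) (hνf b hb)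
        have b1 := mul_le_mul_of_nonneg_left a1 (show (0:ℝ) ≤ 16 * C1 by positivity)
        have b2 := mul_le_mul_of_nonneg_left a2 (show (0:ℝ) ≤ 2 * C1 by positivity)
        linarith
    _ = (16 * C1 + 2 * C1 * K) * ∑ b ∈ B, ν b * f b := by
        rw [← sum_mul, ← sum_mul]; ring

/-- telescoping: a non-increasing `[0,1]`-valued sequence has total drop at most one -/
lemma tele_drop (W : ℕ → ℝ) (h0 : ∀ j, 0 ≤ W j) (h1 : W 0 ≤ 1) (J : ℕ) :
    ∑ j ∈ range J, (W j - W (j + 1)) ≤ 1 := by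
  rw [sum_range_sub']
  linarith [h0 J]

end gw

section schur

variable {Ω : Type*}

/-- `∑_k c_k exp(-θ S_{>k}) ≤ e^θ / θ` for `c_k ∈ [0,1]`. -/
lemma future_sum (θ : ℝ) (hθ : 0 < θ) (c : ℕ → ℝ) (h0 : ∀ k, 0 ≤ c k) (h1 : ∀ k, c k ≤ 1)
    (n : ℕ) :
    ∑ k ∈ range n, c k * Real.exp (-(θ * ∑ j ∈ Ico (k + 1) n, c j)) ≤ Real.exp θ / θ := by
  have key : ∀ k ∈ range n, c k * Real.exp (-(θ * ∑ j ∈ Ico (k + 1) n, c j)) ≤
      (Real.exp θ / θ) * (Real.exp (-(θ * ∑ j ∈ Ico (k + 1) n, c j)) -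
        Real.exp (-(θ * ∑ j ∈ Ico k n, c j))) := by
    intro k hk
    have hk' := mem_range.1 hk
    set X := Real.exp (-(θ * ∑ j ∈ Ico (k + 1) n, c j)) with hX
    have hX0 : 0 < X := Real.exp_pos _
    have e1 : ∑ j ∈ Ico k n, c j = c k + ∑ j ∈ Ico (k + 1) n, c j :=
      (Finset.sum_eq_sum_Ico_succ_bot hk' c)
    have e2 : Real.exp (-(θ * ∑ j ∈ Ico k n, c j)) = X * Real.exp (-(θ * c k)) := by
      rw [hX, ← Real.exp_add, e1]; congr 1; ring
    rw [e2]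
    have hck0 := h0 k
    have hck1 := h1 k
    -- 1 - e^{-x} ≥ x e^{-x}
    have h3 : θ * c k * Real.exp (-(θ * c k)) ≤ 1 - Real.exp (-(θ * c k)) := by
      have h4 := Real.add_one_le_exp (θ * c k)
      have h5 : Real.exp (θ * c k) * Real.exp (-(θ * c k)) = 1 := by
        rw [← Real.exp_add]; simp
      have h6 := mul_le_mul_of_nonneg_right h4 (Real.exp_pos (-(θ * c k))).le
      rw [h5] at h6
      linarith
    have h7 : Real.exp (-θ) ≤ Real.exp (-(θ * c k)) := by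
      apply Real.exp_le_exp.2
      nlinarith
    have h8 : θ * c k * Real.exp (-θ) ≤ 1 - Real.exp (-(θ * c k)) :=
      (mul_le_mul_of_nonneg_left h7 (by positivity)).trans h3
    have h9 : Real.exp θ * Real.exp (-θ) = 1 := by rw [← Real.exp_add]; simp
    have h10 : (Real.exp θ / θ) * (θ * c k * Real.exp (-θ)) = c k := by
      field_simp
      linear_combination (c k) * h9
    calc c k * X = (Real.exp θ / θ) * (θ * c k * Real.exp (-θ)) * X := by rw [h10]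
      _ ≤ (Real.exp θ / θ) * (1 - Real.exp (-(θ * c k))) * X := by gcongr
      _ = (Real.exp θ / θ) * (X - X * Real.exp (-(θ * c k))) := by ring
  refine (sum_le_sum key).trans ?_
  rw [← mul_sum]
  have h2 : ∑ k ∈ range n, (Real.exp (-(θ * ∑ j ∈ Ico (k + 1) n, c j)) -
        Real.exp (-(θ * ∑ j ∈ Ico k n, c j))) ≤ 1 := by
    rw [Finset.sum_range_sub (fun k => Real.exp (-(θ * ∑ j ∈ Ico k n, c j))) n]
    have : Real.exp (-(θ * ∑ j ∈ Ico 0 n, c j)) ≥ 0 := (Real.exp_pos _).le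
    simp only [Ico_self, sum_empty, mul_zero, neg_zero, Real.exp_zero]
    linarith
  calc Real.exp θ / θ * _ ≤ Real.exp θ / θ * 1 := by gcongr
    _ = _ := mul_one _

/-- Schur test with future weights (232, note 2699 (4)). -/
theorem schur_future (Om : Finset Ω) (n : ℕ) (ν f : Ω → ℝ) (Kk : ℕ → Ω → Ω → ℝ)
    (c : ℕ → Ω → ℝ) (θ C : ℝ) (hθ : 0 < θ) (hC : 0 ≤ C)
    (hν : ∀ b ∈ Om, 0 ≤ ν b)
    (hK0 : ∀ k < n, ∀ b ∈ Om, ∀ b' ∈ Om, 0 ≤ Kk k b b')
    (hsym : ∀ k < n, ∀ b ∈ Om, ∀ b' ∈ Om, Kk k b b' = Kk k b' b)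
    (hc0 : ∀ k, ∀ b, 0 ≤ c k b) (hc1 : ∀ k, ∀ b, c k b ≤ 1)
    (row : ∀ k < n, ∀ b ∈ Om,
      ∑ b' ∈ Om, Kk k b b' * ν b' * Real.exp (θ * ∑ j ∈ Ico (k + 1) n, c j b') ≤ C * c k b) :
    ∑ k ∈ range n, ∑ b ∈ Om, ∑ b' ∈ Om, ν b * ν b' * Kk k b b' * (f b * f b') ≤
      C * (Real.exp θ / θ) * ∑ b ∈ Om, ν b * f b ^ 2 := by
  set E : ℕ → Ω → ℝ := fun k b => Real.exp (θ * ∑ j ∈ Ico (k + 1) n, c j b) with hE
  have hEpos : ∀ k b, 0 < E k b := fun k b => Real.exp_pos _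
  have step : ∀ k < n, ∑ b ∈ Om, ∑ b' ∈ Om, ν b * ν b' * Kk k b b' * (f b * f b') ≤
      ∑ b ∈ Om, ν b * f b ^ 2 * (C * (c k b * (E k b)⁻¹)) := by
    intro k hk
    have h1 : ∀ b ∈ Om, ∀ b' ∈ Om, ν b * ν b' * Kk k b b' * (f b * f b') ≤
        1 / 2 * (ν b * f b ^ 2 * (E k b)⁻¹ * (Kk k b b' * ν b' * E k b')) +
        1 / 2 * (ν b' * f b' ^ 2 * (E k b')⁻¹ * (Kk k b' b * ν b * E k b)) := by
      intro b hb b' hb'
      rw [hsym k hk b' hb' b hb]
      have hn : 0 ≤ ν b * ν b' * Kk k b b' :=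
        mul_nonneg (mul_nonneg (hν b hb) (hν b' hb')) (hK0 k hk b hb b' hb')
      have ha := hEpos k b
      have hb2 := hEpos k b'
      have h2 : f b * f b' ≤ 1 / 2 * (f b ^ 2 * ((E k b)⁻¹ * E k b')) +
          1 / 2 * (f b' ^ 2 * ((E k b')⁻¹ * E k b)) := by
        have h3 : (E k b)⁻¹ * E k b' * ((E k b')⁻¹ * E k b) = 1 := by
          field_simp
        have hx : 0 < (E k b)⁻¹ * E k b' := by positivity
        have hy : 0 < (E k b')⁻¹ * E k b := by positivity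
        set x := (E k b)⁻¹ * E k b' with hxd
        set y := (E k b')⁻¹ * E k b with hyd
        have hx2 : x ≠ 0 := hx.ne'
        have hy' : y = 1 / x := by field_simp; linarith
        have h4 : 0 ≤ (f b * x - f b') ^ 2 / x := by positivity
        have h5 : (f b * x - f b') ^ 2 / x = f b ^ 2 * x - 2 * (f b * f b') + f b' ^ 2 * (1 / x) := by
          field_simp; ring
        rw [h5, ← hy'] at h4
        linarith
      calc ν b * ν b' * Kk k b b' * (f b * f b')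
          ≤ ν b * ν b' * Kk k b b' * (1 / 2 * (f b ^ 2 * ((E k b)⁻¹ * E k b')) +
            1 / 2 * (f b' ^ 2 * ((E k b')⁻¹ * E k b))) := mul_le_mul_of_nonneg_left h2 hn
        _ = _ := by ring
    have h6 : ∑ b ∈ Om, ∑ b' ∈ Om, ν b * ν b' * Kk k b b' * (f b * f b') ≤
        ∑ b ∈ Om, ∑ b' ∈ Om, ν b * f b ^ 2 * (E k b)⁻¹ * (Kk k b b' * ν b' * E k b') := by
      calc _ ≤ ∑ b ∈ Om, ∑ b' ∈ Om,
              (1 / 2 * (ν b * f b ^ 2 * (E k b)⁻¹ * (Kk k b b' * ν b' * E k b')) +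
              1 / 2 * (ν b' * f b' ^ 2 * (E k b')⁻¹ * (Kk k b' b * ν b * E k b))) :=
            sum_le_sum fun b hb => sum_le_sum fun b' hb' => h1 b hb b' hb'
        _ = 1 / 2 * (∑ b ∈ Om, ∑ b' ∈ Om, ν b * f b ^ 2 * (E k b)⁻¹ *
              (Kk k b b' * ν b' * E k b')) +
            1 / 2 * (∑ b ∈ Om, ∑ b' ∈ Om, ν b' * f b' ^ 2 * (E k b')⁻¹ *
              (Kk k b' b * ν b * E k b)) := by
            rw [mul_sum, mul_sum, ← sum_add_distrib]
            apply sum_congr rfl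
            intro b _
            rw [mul_sum, mul_sum, ← sum_add_distrib]
        _ = _ := by
            rw [sum_comm (f := fun b b' => ν b' * f b' ^ 2 * (E k b')⁻¹ *
              (Kk k b' b * ν b * E k b))]
            ring
    refine h6.trans (sum_le_sum fun b hb => ?_)
    rw [← mul_sum]
    have h7 := row k hk b hb
    have h8 : 0 ≤ ν b * f b ^ 2 * (E k b)⁻¹ :=
      mul_nonneg (mul_nonneg (hν b hb) (sq_nonneg _)) (inv_nonneg.2 (hEpos k b).le)
    calc ν b * f b ^ 2 * (E k b)⁻¹ * ∑ b' ∈ Om, Kk k b b' * ν b' * E k b'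
        ≤ ν b * f b ^ 2 * (E k b)⁻¹ * (C * c k b) := mul_le_mul_of_nonneg_left h7 h8
      _ = _ := by ring
  calc ∑ k ∈ range n, ∑ b ∈ Om, ∑ b' ∈ Om, ν b * ν b' * Kk k b b' * (f b * f b')
      ≤ ∑ k ∈ range n, ∑ b ∈ Om, ν b * f b ^ 2 * (C * (c k b * (E k b)⁻¹)) :=
        sum_le_sum fun k hk => step k (mem_range.1 hk)
    _ = ∑ b ∈ Om, ν b * f b ^ 2 * (C * ∑ k ∈ range n, c k b * (E k b)⁻¹) := by
        rw [sum_comm]
        apply sum_congr rfl
        intro b _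
        rw [mul_sum, mul_sum]
    _ ≤ ∑ b ∈ Om, ν b * f b ^ 2 * (C * (Real.exp θ / θ)) := by
        apply sum_le_sum
        intro b hb
        apply mul_le_mul_of_nonneg_left _ (mul_nonneg (hν b hb) (sq_nonneg _))
        apply mul_le_mul_of_nonneg_left _ hC
        have := future_sum θ hθ (fun k => c k b) (fun k => hc0 k b) (fun k => hc1 k b) n
        refine le_trans (le_of_eq ?_) this
        apply sum_congr rfl
        intro k _
        rw [hE]
        simp only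
        rw [Real.exp_neg]
    _ = C * (Real.exp θ / θ) * ∑ b ∈ Om, ν b * f b ^ 2 := by
        rw [mul_sum]
        exact sum_congr rfl fun b _ => by ring

end schur

end Crest.Agent.R4C.GWx972
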