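import Crest.Agent.R4C.GWbirth_442

/-!
# Row 4, GW section (F5)(a), second form (helper442): existential form asked by 473 (HypF5)
-/

set_option autoImplicit false

open Finset
open Crest.Agent.R4C.Basex935 Crest.Agent.R4C.Cutx50 Crest.Agent.R4C.PrefixMx882
open Crest.Agent.R4C.NHx656
open Crest.Agent.R4C.GWdefx982

namespace Crest.Agent.R4C.GWbirthx442

variable {Z : World}

lemma Wp_nonneg (a b w : ℕ) : 0 ≤ Z.Wp a b w := by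
  classical
  unfold World.Wp
  exact prod_nonneg fun p _ => one_sub_nonneg p

lemma Wp_le_one (a b w : ℕ) : Z.Wp a b w ≤ 1 := by
  classical
  unfold World.Wp
  exact prod_le_one (fun p _ => one_sub_nonneg p) fun p _ => one_sub_le_one p

/-- fewer coins on a smaller interval -/
lemma Wp_anti {a a' b b' w : ℕ} (ha : a ≤ a') (hb : b' ≤ b) : Z.Wp a b w ≤ Z.Wp a' b' w := by
  classical
  unfold World.Wp
  have hsub : ((free Z.N w).filter fun p => a' < p ∧ p ≤ b' ∧ Z.coin w p) ⊆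
      (free Z.N w).filter fun p => a < p ∧ p ≤ b ∧ Z.coin w p := by
    intro p hp
    rw [mem_filter] at hp ⊢
    exact ⟨hp.1, by omega, by omega, hp.2.2.2⟩
  rw [← prod_sdiff hsub]
  have h1 : ∏ p ∈ ((free Z.N w).filter fun p => a < p ∧ p ≤ b ∧ Z.coin w p) \
      ((free Z.N w).filter fun p => a' < p ∧ p ≤ b' ∧ Z.coin w p), (1 - 1 / (p : ℝ)) ≤ 1 :=
    prod_le_one (fun p _ => one_sub_nonneg p) fun p _ => one_sub_le_one p
  have h2 : 0 ≤ ∏ p ∈ (free Z.N w).filter (fun p => a' < p ∧ p ≤ b' ∧ Z.coin w p),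
      (1 - 1 / (p : ℝ)) := prod_nonneg fun p _ => one_sub_nonneg p
  calc _ ≤ 1 * ∏ p ∈ (free Z.N w).filter (fun p => a' < p ∧ p ≤ b' ∧ Z.coin w p),
      (1 - 1 / (p : ℝ)) := mul_le_mul_of_nonneg_right h1 h2
    _ = _ := one_mul _

/-- **(F5)(a), existential form** : `j` = second birth after the node -/
theorem f5a (hZ : Z.Ok) {δ s : ℝ} (hT : Thr Z δ) (hs : s < 1)
    {ν z : Node} {w : ℕ} (hw : w ∈ Z.S ν) (hz : Z.zone ν.1 w = z)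
    (hsq : Squarefree (upp (Z.cut ν.1) w)) (hY : Z.Y z w ≤ s) :
    ∃ j, ν.1 < j ∧ j ≤ Z.top ∧ Z.birth j w ∧ z.1 ≤ ν.1 ∧
      1 - Z.Wp (Z.cut z.1) (Z.cut j) w ≤ s ∧
      1 - Z.Wp (Z.cut ν.1) (Z.cut j) w ≤ s ∧
      (upp (Z.cut ν.1) w).primeFactors.Nonempty ∧
      mn (upp (Z.cut ν.1) w).primeFactors ≤ Z.cut j ∧
      (On (K1 δ (upp (Z.cut ν.1) w).primeFactors)
          (pt Z.γ (upp (Z.cut ν.1) w).primeFactors (mn (upp (Z.cut ν.1) w).primeFactors))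
          (sc (Z.tt ν.1 w) (upp (Z.cut ν.1) w).primeFactors
            (mn (upp (Z.cut ν.1) w).primeFactors)) →
        Lost δ Z.γ (Z.tt ν.1 w) (upp (Z.cut ν.1) w).primeFactors ∧
          ps δ Z.γ (Z.tt ν.1 w) (upp (Z.cut ν.1) w).primeFactors ≤ Z.cut j) := by
  classical
  have hwd : w ∣ Z.N ∧ Z.nd ν.1 w := by
    unfold World.S at hw
    rw [mem_filter, Nat.mem_divisors] at hw
    exact ⟨hw.1.1, hw.2.1⟩
  obtain ⟨hwN, hi⟩ := hwd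
  have hw0 : w ≠ 0 := (Nat.pos_of_dvd_of_pos hwN hZ.hN).ne'
  obtain ⟨n, j, hin, hnj, hjt, hbn, hbj, hYe, hzi⟩ := two_births hz (by linarith : Z.Y z w < 1)
  change ∃ j, ν.1 < j ∧ j ≤ Z.top ∧ Z.birth j w ∧ z.1 ≤ ν.1 ∧
      1 - Z.Wp (Z.cut z.1) (Z.cut j) w ≤ s ∧
      1 - Z.Wp (Z.cut ν.1) (Z.cut j) w ≤ s ∧
      (Lt (Z.cut ν.1) w).Nonempty ∧
      mn (Lt (Z.cut ν.1) w) ≤ Z.cut j ∧
      (On (K1 δ (Lt (Z.cut ν.1) w)) (pt Z.γ (Lt (Z.cut ν.1) w) (mn (Lt (Z.cut ν.1) w)))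
          (sc (Z.tt ν.1 w) (Lt (Z.cut ν.1) w) (mn (Lt (Z.cut ν.1) w))) →
        Lost δ Z.γ (Z.tt ν.1 w) (Lt (Z.cut ν.1) w) ∧
          ps δ Z.γ (Z.tt ν.1 w) (Lt (Z.cut ν.1) w) ≤ Z.cut j)
  set i := ν.1 with hi'
  set S := Lt (Z.cut i) w with hS
  have cin : Z.cut i ≤ Z.cut n := hZ.hcut hin.le
  have cnj : Z.cut n ≤ Z.cut j := hZ.hcut hnj.le
  obtain ⟨p, hp, hpn⟩ := letter_le hZ.hL hw0 cin hsq hi hbn.1 hin
  have h1 : 1 - Z.Wp (Z.cut z.1) (Z.cut j) w ≤ s := by rw [← hYe]; exact hY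
  have h2 : Z.Wp (Z.cut z.1) (Z.cut j) w ≤ Z.Wp (Z.cut i) (Z.cut j) w :=
    Wp_anti (hZ.hcut hzi) le_rfl
  have hnot : ¬ ∀ p ∈ S, p ≤ Z.cut j → On (K1 δ S) (pt Z.γ S p) (sc (Z.tt i w) S p) := fun hall =>
    not_birth_of_K1 hZ hT hwN hsq hi hbn.1 hbj.1 hin hnj hall hbj
  refine ⟨j, hin.trans hnj, hjt, hbj, hzi, h1, by linarith, ⟨p, hp⟩,
    ((mn_le hp).trans hpn).trans cnj, fun _ => ?_⟩
  have hlost : Lost δ Z.γ (Z.tt i w) S := by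
    by_contra hl
    refine hnot fun p hp _ => ?_
    by_contra hn
    exact hl ⟨p, hp, hn⟩
  refine ⟨hlost, ?_⟩
  by_contra hlt
  push Not at hlt
  exact hnot fun p hp hpj => on_of_lt_ps hp (lt_of_le_of_lt hpj hlt)

end Crest.Agent.R4C.GWbirthx442
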