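import Crest.Agent.R4C.GWbirthB_442

/-!
# Row 4, GW section (F5)(a), third form (helper442): any node and any two later births

`bad_of_two` : `i` a node index of `w`, `n < j` two births above `i` (no relation with zones),
`1 - Wp (cut i) (cut j) w ≤ s` ⟹ `Bad` at `i` with `2 s + κ'`  (helper12's request, note 4147 (V5)).
`two_of` : the same in existential form (letters and `ps ≤ cut j`).
-/

set_option autoImplicit false

open Finset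
open Crest.Agent.R4C.Basex935 Crest.Agent.R4C.Cutx50 Crest.Agent.R4C.PrefixMx882
open Crest.Agent.R4C.NHx656
open Crest.Agent.R4C.GWdefx982

namespace Crest.Agent.R4C.GWbirthx442

variable {Z : World}

/-- two births above the node: the run centre, if it exists, is lost before the second birth -/
theorem two_of (hZ : Z.Ok) {δ : ℝ} (hT : Thr Z δ) {i n j w : ℕ} (hw : w ∣ Z.N) (hi : Z.nd i w)
    (hin : i < n) (hnj : n < j) (hbn : Z.nd n w) (hbj : Z.birth j w)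
    (hsq : Squarefree (upp (Z.cut i) w)) :
    (Lt (Z.cut i) w).Nonempty ∧ mn (Lt (Z.cut i) w) ≤ Z.cut j ∧
      (On (K1 δ (Lt (Z.cut i) w)) (pt Z.γ (Lt (Z.cut i) w) (mn (Lt (Z.cut i) w)))
          (sc (Z.tt i w) (Lt (Z.cut i) w) (mn (Lt (Z.cut i) w))) →
        Lost δ Z.γ (Z.tt i w) (Lt (Z.cut i) w) ∧
          ps δ Z.γ (Z.tt i w) (Lt (Z.cut i) w) ≤ Z.cut j) := by
  have hw0 : w ≠ 0 := (Nat.pos_of_dvd_of_pos hw hZ.hN).ne'
  set S := Lt (Z.cut i) w with hS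
  have cin : Z.cut i ≤ Z.cut n := hZ.hcut hin.le
  have cnj : Z.cut n ≤ Z.cut j := hZ.hcut hnj.le
  obtain ⟨p, hp, hpn⟩ := letter_le hZ.hL hw0 cin hsq hi hbn hin
  have hnot : ¬ ∀ p ∈ S, p ≤ Z.cut j → On (K1 δ S) (pt Z.γ S p) (sc (Z.tt i w) S p) := fun hall =>
    not_birth_of_K1 hZ hT hw hsq hi hbn hbj.1 hin hnj hall hbj
  refine ⟨⟨p, hp⟩, ((mn_le hp).trans hpn).trans cnj, fun _ => ?_⟩
  have hlost : Lost δ Z.γ (Z.tt i w) S := by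
    by_contra hl
    refine hnot fun p hp _ => ?_
    by_contra hn
    exact hl ⟨p, hp, hn⟩
  refine ⟨hlost, ?_⟩
  by_contra hlt
  push Not at hlt
  exact hnot fun p hp hpj => on_of_lt_ps hp (lt_of_le_of_lt hpj hlt)

/-- coins before a letter `r ≤ cut j` are counted in `Wp (cut i) (cut j)` -/
theorem sum_nc_le (hZ : Z.Ok) {δ s κ : ℝ} (hT : Thr Z δ) (hs0 : 0 ≤ s) (hs : s ≤ 1 / 2)
    {i j w r : ℕ} (hw : w ∣ Z.N) (hi : Z.nd i w) (G : ℕ → Prop)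
    (hcoin : ∀ q ∈ nc (cutR Z) δ Z.γ (Z.tt i w)
      (upp (Z.cut i) Z.N).primeFactors (Lt (Z.cut i) w) r, G q → Z.coin w q)
    (hG : ∀ T ⊆ nc (cutR Z) δ Z.γ (Z.tt i w)
      (upp (Z.cut i) Z.N).primeFactors (Lt (Z.cut i) w) r, (∀ q ∈ T, ¬ G q) →
      ∑ q ∈ T, (1 : ℝ) / q ≤ κ)
    (hrj : r ≤ Z.cut j) (hW : 1 - Z.Wp (Z.cut i) (Z.cut j) w ≤ s) :
    ∑ q ∈ nc (cutR Z) δ Z.γ (Z.tt i w)
      (upp (Z.cut i) Z.N).primeFactors (Lt (Z.cut i) w) r, (1 : ℝ) / q ≤ 2 * s + κ := by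
  classical
  set S := Lt (Z.cut i) w with hS
  set NC := nc (cutR Z) δ Z.γ (Z.tt i w) (upp (Z.cut i) Z.N).primeFactors S r with hNC
  have hsplit : ∑ q ∈ NC, (1 : ℝ) / q = ∑ q ∈ NC.filter G, (1 : ℝ) / q +
      ∑ q ∈ NC.filter (fun q => ¬ G q), (1 : ℝ) / q := (sum_filter_add_sum_filter_not _ _ _).symm
  have h2 : ∑ q ∈ NC.filter (fun q => ¬ G q), (1 : ℝ) / q ≤ κ :=
    hG _ (filter_subset _ _) fun q hq => (mem_filter.1 hq).2
  have h1 : ∑ q ∈ NC.filter G, (1 : ℝ) / q ≤ 2 * s := by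
    refine sum_le_of_exp hs0 hs ?_
    have h3 : Z.Wp (Z.cut i) (Z.cut j) w ≤ Real.exp (-∑ q ∈ NC.filter G, (1 : ℝ) / q) := by
      refine Wp_le_exp fun q hq => ?_
      rw [mem_filter] at hq
      have hq1 := hq.1
      rw [hNC] at hq1
      unfold nc at hq1
      rw [mem_filter] at hq1
      obtain ⟨a1, a2, a3, _⟩ := hq1
      obtain ⟨b1, b2⟩ := gap_free hZ hT hw hi a1 a3 a2
      exact ⟨b1, b2, a3.le.trans hrj, hcoin q hq.1 hq.2⟩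
    linarith
  linarith

/-- **(F5)(a) at any node, for any two later births** -/
theorem bad_of_two (hZ : Z.Ok) {δ s κ : ℝ} (hT : Thr Z δ) (hs0 : 0 ≤ s) (hs : s ≤ 1 / 2)
    {i n j w : ℕ} (hw : w ∣ Z.N) (hi : Z.nd i w)
    (hin : i < n) (hnj : n < j) (hbn : Z.nd n w) (hbj : Z.birth j w)
    (hsq : Squarefree (upp (Z.cut i) w)) (G : ℕ → ℕ → Prop)
    (hcoin : ∀ r ∈ Lt (Z.cut i) w, ∀ q ∈ nc (cutR Z) δ Z.γ (Z.tt i w)
      (upp (Z.cut i) Z.N).primeFactors (Lt (Z.cut i) w) r, G r q → Z.coin w q)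
    (hG : ∀ r ∈ Lt (Z.cut i) w, ∀ T ⊆ nc (cutR Z) δ Z.γ (Z.tt i w)
      (upp (Z.cut i) Z.N).primeFactors (Lt (Z.cut i) w) r, (∀ q ∈ T, ¬ G r q) →
      ∑ q ∈ T, (1 : ℝ) / q ≤ κ)
    (hW : 1 - Z.Wp (Z.cut i) (Z.cut j) w ≤ s) :
    Bad (cutR Z) δ Z.γ (Z.tt i w) (2 * s + κ) (upp (Z.cut i) Z.N).primeFactors
      (Lt (Z.cut i) w) := by
  obtain ⟨hne, hm, hps⟩ := two_of hZ hT hw hi hin hnj hbn hbj hsq
  refine ⟨hne, ?_⟩
  by_cases h1 : On (K1 δ (Lt (Z.cut i) w)) (pt Z.γ (Lt (Z.cut i) w) (mn (Lt (Z.cut i) w)))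
      (sc (Z.tt i w) (Lt (Z.cut i) w) (mn (Lt (Z.cut i) w)))
  · right
    obtain ⟨hl, hp⟩ := hps h1
    exact ⟨h1, hl, Or.inr (sum_nc_le hZ hT hs0 hs hw hi _
      (hcoin _ (ps_spec hl).1) (hG _ (ps_spec hl).1) hp hW)⟩
  · left
    exact ⟨h1, sum_nc_le hZ hT hs0 hs hw hi _ (hcoin _ (mn_mem hne)) (hG _ (mn_mem hne)) hm hW⟩

end Crest.Agent.R4C.GWbirthx442
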