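import Crest.Agent.R4C.GWdef_982

/-!
# Row 4, GW section (F5)(a): the births above a node and the BAD words of block NH (helper442)

`Lt x w` = letters of `w` above the cut `x`.

* `upp_sq`, `low_sq` : the parts of `w` at a higher cut in terms of the letters;
* `tt_split`, `yy_split`, `tt_eq_sc`, `yy_eq_pt` : scale and point at a later index = `sc`, `pt` of
  `NHdef_656` at the last letter below the cut;
* `two_births` : `Y z w < 1` gives two births above the node;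
* `not_birth_of_on` : an index with a node before it and `On (θ prev)` is not a birth;
* `second_birth_le` : the letters `≤` cut of the second birth are not all `On K1`;
* `bad_of_Y` : a word of the node with `Y z w ≤ s ≤ 1/2` whose nominal coins (outside of a set of small
  mass) are coins is `Bad` (`NHdef_656`) with `2 s + κ'`.
-/

set_option autoImplicit false

open Finset
open Crest.Agent.R4C.Basex935 Crest.Agent.R4C.Cutx50 Crest.Agent.R4C.PrefixMx882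
open Crest.Agent.R4C.NHx656
open Crest.Agent.R4C.GWdefx982

namespace Crest.Agent.R4C.GWbirthx442

/-! ### letters -/

/-- letters of `w` above the cut `x` -/
def Lt (x w : ℕ) : Finset ℕ := (upp x w).primeFactors

lemma mem_Lt {x w p : ℕ} : p ∈ Lt x w ↔ p.Prime ∧ p ∣ upp x w := by
  unfold Lt
  rw [Nat.mem_primeFactors]
  exact ⟨fun h => ⟨h.1, h.2.1⟩, fun h => ⟨h.1, h.2, (upp_pos _ _).ne'⟩⟩

lemma lt_of_mem_Lt {x w p : ℕ} (h : p ∈ Lt x w) : x < p := by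
  obtain ⟨h1, h2⟩ := mem_Lt.1 h
  exact not_le.1 (prime_dvd_part (S := fun p => ¬ p ≤ x) h1 h2)

lemma prime_of_mem_Lt {x w p : ℕ} (h : p ∈ Lt x w) : p.Prime := (mem_Lt.1 h).1

lemma sq_prod {x w : ℕ} (hsq : Squarefree (upp x w)) : ∏ p ∈ Lt x w, p = upp x w :=
  Nat.prod_primeFactors_of_squarefree hsq

/-- upper part at a higher cut -/
lemma upp_sq {x y w : ℕ} (hxy : x ≤ y) (hsq : Squarefree (upp x w)) :
    upp y w = ∏ p ∈ (Lt x w).filter (y < ·), p := by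
  have e : (Lt x w).filter (y < ·) = (upp x w).primeFactors.filter (fun p => ¬ p ≤ y) := by
    unfold Lt
    refine filter_congr fun p _ => ?_
    exact not_le.symm
  have e' : upp y w = ∏ p ∈ (upp x w).primeFactors.filter (fun p => ¬ p ≤ y),
      p ^ (upp x w).factorization p := by
    rw [← upp_upp hxy w]
    rfl
  rw [e', e]
  refine prod_congr rfl fun p hp => ?_
  rw [mem_filter] at hp
  have h1 : (upp x w).factorization p = 1 := by
    refine le_antisymm (hsq.natFactorization_le_one p) ?_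
    exact (Nat.prime_of_mem_primeFactors hp.1).factorization_pos_of_dvd (upp_pos _ _).ne'
      (Nat.dvd_of_mem_primeFactors hp.1)
  rw [h1, pow_one]

/-- lower part at a higher cut -/
lemma low_sq {x y w : ℕ} (hw : w ≠ 0) (hxy : x ≤ y) (hsq : Squarefree (upp x w)) :
    low y w = low x w * ∏ p ∈ (Lt x w).filter (· ≤ y), p := by
  have h1 := low_mul_upp y hw
  have h2 := low_mul_upp x hw
  have h3 : upp x w = (∏ p ∈ (Lt x w).filter (· ≤ y), p) * upp y w := by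
    rw [upp_sq hxy hsq, ← sq_prod hsq]
    have e : (Lt x w).filter (y < ·) = (Lt x w).filter (fun p => ¬ p ≤ y) := by
      refine filter_congr fun p _ => ?_
      exact not_le.symm
    rw [e]
    exact (prod_filter_mul_prod_filter_not _ _ _).symm
  have h4 : low y w * upp y w = (low x w * ∏ p ∈ (Lt x w).filter (· ≤ y), p) * upp y w := by
    rw [h1, mul_assoc, ← h3, h2]
  exact Nat.eq_of_mul_eq_mul_right (upp_pos _ _) h4

/-! ### scales and points of the world -/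

section world

variable {Z : World}

lemma low_dvd_low {x y : ℕ} (h : x ≤ y) (w : ℕ) : low x w ∣ low y w := by
  rw [← low_low h w]
  exact low_dvd_self _ _

lemma tt_split {i j w : ℕ} (hw : w ≠ 0) (hc : Z.cut i ≤ Z.cut j)
    (hsq : Squarefree (upp (Z.cut i) w)) :
    Z.tt j w = Z.tt i w * ((∏ p ∈ (Lt (Z.cut i) w).filter (· ≤ Z.cut j), p : ℕ) : ℝ) := by
  unfold World.tt World.e
  rw [low_sq hw hc hsq]
  push_cast
  ring

lemma yy_split {i j w : ℕ} (hc : Z.cut i ≤ Z.cut j)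
    (hsq : Squarefree (upp (Z.cut i) w)) :
    Z.yy j w = ((∏ p ∈ (Lt (Z.cut i) w).filter (Z.cut j < ·), p : ℕ) : ℝ) * Z.γ := by
  unfold World.yy
  rw [upp_sq hc hsq]

/-- `r` is the last letter `≤ y` -/
def Last (S : Finset ℕ) (y r : ℕ) : Prop := r ∈ S ∧ r ≤ y ∧ ∀ p ∈ S, (p ≤ y ↔ p ≤ r)

lemma exists_last {S : Finset ℕ} {y : ℕ} (h : ∃ p ∈ S, p ≤ y) : ∃ r, Last S y r := by
  obtain ⟨p, hp, hpy⟩ := h
  have hne : (S.filter (· ≤ y)).Nonempty := ⟨p, mem_filter.2 ⟨hp, hpy⟩⟩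
  have hm := max'_mem _ hne
  rw [mem_filter] at hm
  refine ⟨(S.filter (· ≤ y)).max' hne, hm.1, hm.2, fun q hq => ⟨fun h => ?_, fun h => h.trans hm.2⟩⟩
  exact le_max' _ _ (mem_filter.2 ⟨hq, h⟩)

lemma pt_eq {i j w r : ℕ} (hc : Z.cut i ≤ Z.cut j) (hsq : Squarefree (upp (Z.cut i) w))
    (hr : Last (Lt (Z.cut i) w) (Z.cut j) r) : pt Z.γ (Lt (Z.cut i) w) r = Z.yy j w := by
  rw [yy_split hc hsq]
  unfold pt
  have e : (Lt (Z.cut i) w).filter (r < ·) = (Lt (Z.cut i) w).filter (Z.cut j < ·) := by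
    refine filter_congr fun p hp => ?_
    have := hr.2.2 p hp
    omega
  rw [e]

lemma sc_eq {i j w r : ℕ} (hw : w ≠ 0) (hc : Z.cut i ≤ Z.cut j)
    (hsq : Squarefree (upp (Z.cut i) w))
    (hr : Last (Lt (Z.cut i) w) (Z.cut j) r) :
    sc (Z.tt i w) (Lt (Z.cut i) w) r = Z.tt j w := by
  rw [tt_split hw hc hsq]
  unfold sc
  have e : (Lt (Z.cut i) w).filter (· ≤ r) = (Lt (Z.cut i) w).filter (· ≤ Z.cut j) := by
    refine filter_congr fun p hp => ?_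
    exact (hr.2.2 p hp).symm
  rw [e]

lemma prod_one_le (S : Finset ℕ) (hS : ∀ p ∈ S, 1 ≤ p) : 1 ≤ ∏ p ∈ S, p :=
  Nat.one_le_iff_ne_zero.2 (prod_ne_zero_iff.2 fun p hp => by have := hS p hp; omega)

lemma le_prod {S : Finset ℕ} {r : ℕ} (hS : ∀ p ∈ S, 1 ≤ p) (hr : r ∈ S) : r ≤ ∏ p ∈ S, p := by
  refine Nat.le_of_dvd ?_ (dvd_prod_of_mem _ hr)
  exact prod_one_le S hS

lemma nd_tt {i w : ℕ} (hL : 0 < Z.L) (h : Z.nd i w) : (2 : ℝ) ^ i ≤ Z.tt i w ∧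
    Z.tt i w < 2 ^ (i + 1) := by
  unfold World.tt
  rw [le_div_iff₀ hL, div_lt_iff₀ hL]
  exact ⟨h.2.1, h.2.2⟩

lemma one_le_tt {i w : ℕ} (hL : 0 < Z.L) (h : Z.nd i w) : 1 ≤ Z.tt i w :=
  (one_le_pow₀ (by norm_num)).trans (nd_tt hL h).1

/-- a later index needs a letter -/
lemma letter_le (hL : 0 < Z.L) {i j w : ℕ} (hw : w ≠ 0) (hc : Z.cut i ≤ Z.cut j)
    (hsq : Squarefree (upp (Z.cut i) w))
    (hi : Z.nd i w) (hj : Z.nd j w) (hij : i < j) : ∃ p ∈ Lt (Z.cut i) w, p ≤ Z.cut j := by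
  by_contra hc'
  push Not at hc'
  have e : (Lt (Z.cut i) w).filter (· ≤ Z.cut j) = ∅ :=
    filter_eq_empty_iff.2 fun p hp => not_le.2 (hc' p hp)
  have h1 := tt_split hw hc hsq
  rw [e, prod_empty, Nat.cast_one, mul_one] at h1
  have h2 := (nd_tt hL hi).2
  have h3 := (nd_tt hL hj).1
  have h4 : (2 : ℝ) ^ (i + 1) ≤ 2 ^ j := pow_le_pow_right₀ (by norm_num) hij
  linarith

/-- a letter below the cut of a later index is smaller than its scale -/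
lemma letter_lt (hL : 0 < Z.L) {i j w r : ℕ} (hw : w ≠ 0) (hc : Z.cut i ≤ Z.cut j)
    (hsq : Squarefree (upp (Z.cut i) w))
    (hi : Z.nd i w) (hj : Z.nd j w) (hr : r ∈ Lt (Z.cut i) w) (hrj : r ≤ Z.cut j) :
    (r : ℝ) < 2 ^ (j + 1) := by
  have h1 := tt_split hw hc hsq
  have h2 : r ≤ ∏ p ∈ (Lt (Z.cut i) w).filter (· ≤ Z.cut j), p := by
    refine le_prod (fun p hp => ?_) (mem_filter.2 ⟨hr, hrj⟩)
    exact (prime_of_mem_Lt (mem_filter.1 hp).1).one_le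
  have h2' : (r : ℝ) ≤ ((∏ p ∈ (Lt (Z.cut i) w).filter (· ≤ Z.cut j), p : ℕ) : ℝ) := by
    exact_mod_cast h2
  have h3 := one_le_tt hL hi
  have h4 := (nd_tt hL hj).2
  have h5 : (0 : ℝ) ≤ r := Nat.cast_nonneg _
  rw [h1] at h4
  nlinarith

/-! ### births -/

lemma le_prev {i j w : ℕ} (hij : i < j) (hi : Z.nd i w) : i ≤ Z.prev j w := by
  classical
  unfold World.prev
  exact Nat.le_findGreatest hij.le ⟨hij, hi⟩

lemma mem_S_lab (hN : 0 < Z.N) {i w : ℕ} (hw : w ∣ Z.N) (hi : Z.nd i w) : w ∈ Z.S (Z.lab i w) := by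
  classical
  unfold World.S
  rw [mem_filter, Nat.mem_divisors]
  exact ⟨⟨hw, hN.ne'⟩, hi, rfl⟩

/-- an index with a node before it whose point is `On θ` is not a birth -/
lemma not_birth_of_on (hN : 0 < Z.N) {i j w : ℕ} (hw : w ∣ Z.N) (hij : i < j) (hi : Z.nd i w)
    (hj : Z.nd j w) (hon : On (Z.θ (Z.prev j w)) (Z.yy j w) (Z.tt j w)) : ¬ Z.birth j w := by
  intro hb
  refine hb.2 ⟨⟨i, hij, hi⟩, w, mem_S_lab hN hw hj, hon⟩

lemma nb_spec {i w : ℕ} (h : Z.hasNb i w) :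
    i < Z.nb i w ∧ Z.nb i w ≤ Z.top ∧ Z.birth (Z.nb i w) w := by
  classical
  unfold World.nb
  rw [dif_pos h]
  exact Nat.find_spec h

lemma bi_le (i w : ℕ) : Z.bi i w ≤ i := by
  classical
  unfold World.bi
  exact Nat.findGreatest_le _

lemma not_birth_of_bi {i j w : ℕ} (h1 : Z.bi i w < j) (h2 : j ≤ i) : ¬ Z.birth j w := by
  classical
  unfold World.bi at h1
  exact Nat.findGreatest_is_greatest (P := fun i' => Z.birth i' w) h1 h2

/-- a word with `Y < 1` has two births above the node -/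
lemma two_births {i w : ℕ} {z : Node} (hz : Z.zone i w = z) (hY : Z.Y z w < 1) :
    ∃ n j, i < n ∧ n < j ∧ j ≤ Z.top ∧ Z.birth n w ∧ Z.birth j w ∧
      Z.Y z w = 1 - Z.Wp (Z.cut z.1) (Z.cut j) w ∧ z.1 ≤ i := by
  classical
  have hz1 : z.1 = Z.bi i w := by
    rw [← hz]
    rfl
  have hle : z.1 ≤ i := hz1 ▸ bi_le i w
  by_cases hc : Z.hasNb z.1 w ∧ Z.hasNb (Z.nb z.1 w) w
  · obtain ⟨a1, _, a3⟩ := nb_spec hc.1
    obtain ⟨b1, b2, b3⟩ := nb_spec hc.2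
    refine ⟨Z.nb z.1 w, Z.nb (Z.nb z.1 w) w, ?_, b1, b2, a3, b3, ?_, hle⟩
    · by_contra hn
      rw [hz1] at a1 a3 hn
      exact not_birth_of_bi a1 (not_lt.1 hn) a3
    · unfold World.Y
      rw [if_pos hc]
  · unfold World.Y at hY
    rw [if_neg hc] at hY
    exact absurd hY (lt_irrefl _)

/-- hypotheses on the thresholds -/
structure Thr (Z : World) (δ : ℝ) : Prop where
  hδ : 0 ≤ δ
  cut2 : ∀ j, Z.i0 ≤ j → 2 ^ (j + 1) ≤ Z.cut j
  mono : ∀ j j', Z.i0 ≤ j → j ≤ j' → Z.θ j ≤ Z.θ j'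
  K : ∀ j, Z.i0 ≤ j → 3 * ((2 : ℝ) ^ (j + 1)) ^ δ ≤ Z.θ j

/-- if all letters up to the cut `j` have the run centre, `j` is not a second birth -/
lemma not_birth_of_K1 (hZ : Z.Ok) {δ : ℝ} (hT : Thr Z δ) {i n j w : ℕ} (hw : w ∣ Z.N)
    (hsq : Squarefree (upp (Z.cut i) w)) (hi : Z.nd i w) (hn : Z.nd n w) (hj : Z.nd j w)
    (hin : i < n) (hnj : n < j)
    (hon : ∀ p ∈ Lt (Z.cut i) w, p ≤ Z.cut j → On (K1 δ (Lt (Z.cut i) w))
      (pt Z.γ (Lt (Z.cut i) w) p) (sc (Z.tt i w) (Lt (Z.cut i) w) p)) : ¬ Z.birth j w := by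
  have hw0 : w ≠ 0 := (Nat.pos_of_dvd_of_pos hw hZ.hN).ne'
  have cin : Z.cut i ≤ Z.cut n := hZ.hcut hin.le
  have cnj : Z.cut n ≤ Z.cut j := hZ.hcut hnj.le
  obtain ⟨p, hp, hpn⟩ := letter_le hZ.hL hw0 cin hsq hi hn hin
  obtain ⟨r, hr⟩ := exists_last (S := Lt (Z.cut i) w) (y := Z.cut j) ⟨p, hp, hpn.trans cnj⟩
  have h1 := hon r hr.1 hr.2.1
  rw [pt_eq (cin.trans cnj) hsq hr, sc_eq hw0 (cin.trans cnj) hsq hr] at h1
  refine not_birth_of_on hZ.hN hw (hin.trans hnj) hi hj (h1.mono ?_)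
  have hm : mn (Lt (Z.cut i) w) ∈ Lt (Z.cut i) w := mn_mem ⟨p, hp⟩
  have h2 : (mn (Lt (Z.cut i) w) : ℝ) < 2 ^ (n + 1) :=
    letter_lt hZ.hL hw0 cin hsq hi hn hm ((mn_le hp).trans hpn)
  have h3 : (mn (Lt (Z.cut i) w) : ℝ) ^ δ ≤ ((2 : ℝ) ^ (n + 1)) ^ δ :=
    Real.rpow_le_rpow (Nat.cast_nonneg _) h2.le hT.hδ
  have h4 := hT.K n hn.1
  have h5 := hT.mono n (Z.prev j w) hn.1 (le_prev hnj hn)
  unfold K1
  linarith

/-! ### coins -/

/-- activation cut as a function of the scale -/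
noncomputable def cutR (Z : World) (τ : ℝ) : ℝ := (Z.cut (Nat.log 2 ⌊τ⌋₊) : ℝ)

lemma Wp_le_exp {a b w : ℕ} {T : Finset ℕ} (hT : ∀ q ∈ T, q ∈ free Z.N w ∧ a < q ∧ q ≤ b ∧ Z.coin w q) :
    Z.Wp a b w ≤ Real.exp (-∑ q ∈ T, (1 : ℝ) / q) := by
  classical
  unfold World.Wp
  have hsub : T ⊆ (free Z.N w).filter fun p => a < p ∧ p ≤ b ∧ Z.coin w p := fun q hq => by
    rw [mem_filter]
    exact ⟨(hT q hq).1, (hT q hq).2⟩
  rw [← prod_sdiff hsub]
  have h1 : ∏ p ∈ ((free Z.N w).filter fun p => a < p ∧ p ≤ b ∧ Z.coin w p) \ T,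
      (1 - 1 / (p : ℝ)) ≤ 1 := prod_le_one (fun p _ => one_sub_nonneg p) fun p _ => one_sub_le_one p
  have h2 : 0 ≤ ∏ p ∈ T, (1 - 1 / (p : ℝ)) := prod_nonneg fun p _ => one_sub_nonneg p
  have h3 : ∏ p ∈ T, (1 - 1 / (p : ℝ)) ≤ Real.exp (-∑ q ∈ T, (1 : ℝ) / q) := by
    rw [← sum_neg_distrib, Real.exp_sum]
    refine prod_le_prod (fun p _ => one_sub_nonneg p) fun p _ => ?_
    have := Real.add_one_le_exp (-(1 / (p : ℝ)))
    linarith
  calc _ ≤ 1 * ∏ p ∈ T, (1 - 1 / (p : ℝ)) := mul_le_mul_of_nonneg_right h1 h2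
    _ ≤ _ := by rw [one_mul]; exact h3

lemma sum_le_of_exp {x s : ℝ} (hs0 : 0 ≤ s) (hs : s ≤ 1 / 2) (h : 1 - s ≤ Real.exp (-x)) :
    x ≤ 2 * s := by
  by_contra hx
  push Not at hx
  have h1 : Real.exp (-x) < Real.exp (-(2 * s)) := Real.exp_lt_exp.2 (by linarith)
  have h2 : Real.exp (-(2 * s)) ≤ 1 - s := by
    rw [Real.exp_neg, inv_le_comm₀ (Real.exp_pos _) (by linarith)]
    have h3 := Real.add_one_le_exp (2 * s)
    refine le_trans ?_ h3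
    rw [inv_le_iff_one_le_mul₀ (by linarith)]
    nlinarith
  linarith

/-- members of the gap before a letter are missing in `w` -/
lemma gap_free (hZ : Z.Ok) {δ : ℝ} (hT : Thr Z δ) {i w r q : ℕ} (hw : w ∣ Z.N) (hi : Z.nd i w)
    (hq : q ∈ (upp (Z.cut i) Z.N).primeFactors) (hqr : q < r)
    (hcq : cutR Z (Z.tt i w * ((∏ p ∈ (Lt (Z.cut i) w).filter (· < r), p : ℕ) : ℝ)) < q) :
    q ∈ free Z.N w ∧ Z.cut i < q := by
  have hqp := Nat.prime_of_mem_primeFactors hq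
  have hqd := Nat.dvd_of_mem_primeFactors hq
  have hcut : Z.cut i < q := not_le.1 (prime_dvd_part (S := fun p => ¬ p ≤ Z.cut i) hqp hqd)
  have hqN : q ∣ Z.N := hqd.trans (upp_dvd_self _ _)
  have hw0 : w ≠ 0 := (Nat.pos_of_dvd_of_pos hw hZ.hN).ne'
  refine ⟨?_, hcut⟩
  rw [mem_free, Nat.mem_primeFactors]
  refine ⟨⟨hqp, hqN, hZ.hN.ne'⟩, ?_⟩
  have h0 : ¬ q ∣ w := by
    intro hd
    have hqS : q ∈ Lt (Z.cut i) w := by
      rw [mem_Lt]
      refine ⟨hqp, ?_⟩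
      have hf : 0 < (upp (Z.cut i) w).factorization q := by
        rw [fact_upp, if_pos (not_le.2 hcut)]
        exact hqp.factorization_pos_of_dvd hw0 hd
      exact Nat.dvd_of_factorization_pos hf.ne'
    set D := ∏ p ∈ (Lt (Z.cut i) w).filter (· < r), p with hD
    have h1 : q ≤ D := by
      refine le_prod (fun p hp => ?_) (mem_filter.2 ⟨hqS, hqr⟩)
      exact (prime_of_mem_Lt (mem_filter.1 hp).1).one_le
    have h1D : 1 ≤ D := hqp.one_le.trans h1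
    have h2 := nd_tt hZ.hL hi
    have ht1 := one_le_tt hZ.hL hi
    set τ := Z.tt i w * (D : ℝ) with hτ
    have hDr : (1 : ℝ) ≤ D := by exact_mod_cast h1D
    have h3 : (q : ℝ) ≤ τ := by
      have : (q : ℝ) ≤ D := by exact_mod_cast h1
      nlinarith
    have h4 : (2 : ℝ) ^ i ≤ τ := by nlinarith
    set m := Nat.log 2 ⌊τ⌋₊ with hm
    have h5 : i ≤ m := by
      refine Nat.le_log_of_pow_le (by norm_num) (Nat.le_floor ?_)
      push_cast
      exact h4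
    have h6 : ⌊τ⌋₊ < 2 ^ (m + 1) := Nat.lt_pow_succ_log_self (by norm_num) _
    have h7 : q ≤ ⌊τ⌋₊ := Nat.le_floor h3
    have h8 := hT.cut2 m (hi.1.trans h5)
    have h9 : q ≤ Z.cut m := (h7.trans h6.le).trans h8
    have h10 : (q : ℝ) ≤ (Z.cut m : ℝ) := by exact_mod_cast h9
    unfold cutR at hcq
    linarith
  rw [Nat.factorization_eq_zero_of_not_dvd h0]
  exact hqp.factorization_pos_of_dvd hZ.hN.ne' hqN

/-- **(F5)(a)** -/
theorem bad_of_Y (hZ : Z.Ok) {δ s κ : ℝ} (hT : Thr Z δ) (hs0 : 0 ≤ s) (hs : s ≤ 1 / 2)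
    {ν z : Node} {w : ℕ} (hw : w ∈ Z.S ν) (hz : Z.zone ν.1 w = z)
    (hsq : Squarefree (upp (Z.cut ν.1) w)) (G : ℕ → ℕ → Prop)
    (hcoin : ∀ r ∈ Lt (Z.cut ν.1) w, ∀ q ∈ nc (cutR Z) δ Z.γ (Z.tt ν.1 w)
      (upp (Z.cut ν.1) Z.N).primeFactors (Lt (Z.cut ν.1) w) r, G r q → Z.coin w q)
    (hG : ∀ r ∈ Lt (Z.cut ν.1) w, ∀ T ⊆ nc (cutR Z) δ Z.γ (Z.tt ν.1 w)
      (upp (Z.cut ν.1) Z.N).primeFactors (Lt (Z.cut ν.1) w) r, (∀ q ∈ T, ¬ G r q) →
      ∑ q ∈ T, (1 : ℝ) / q ≤ κ)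
    (hY : Z.Y z w ≤ s) :
    Bad (cutR Z) δ Z.γ (Z.tt ν.1 w) (2 * s + κ) (upp (Z.cut ν.1) Z.N).primeFactors
      (Lt (Z.cut ν.1) w) := by
  classical
  have hwd : w ∣ Z.N ∧ Z.nd ν.1 w := by
    unfold World.S at hw
    rw [mem_filter, Nat.mem_divisors] at hw
    exact ⟨hw.1.1, hw.2.1⟩
  obtain ⟨hwN, hi⟩ := hwd
  have hw0 : w ≠ 0 := (Nat.pos_of_dvd_of_pos hwN hZ.hN).ne'
  obtain ⟨n, j, hin, hnj, _, hbn, hbj, hYe, hzi⟩ := two_births hz (by linarith : Z.Y z w < 1)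
  set i := ν.1 with hi'
  set S := Lt (Z.cut i) w with hS
  have cin : Z.cut i ≤ Z.cut n := hZ.hcut hin.le
  have cnj : Z.cut n ≤ Z.cut j := hZ.hcut hnj.le
  obtain ⟨p, hp, hpn⟩ := letter_le hZ.hL hw0 cin hsq hi hbn.1 hin
  have hne : S.Nonempty := ⟨p, hp⟩
  -- coins before a letter `r ≤ cut j`
  have key : ∀ r ∈ S, r ≤ Z.cut j → ∑ q ∈ nc (cutR Z) δ Z.γ (Z.tt i w)
      (upp (Z.cut i) Z.N).primeFactors S r, (1 : ℝ) / q ≤ 2 * s + κ := by
    intro r hr hrj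
    set NC := nc (cutR Z) δ Z.γ (Z.tt i w) (upp (Z.cut i) Z.N).primeFactors S r with hNC
    have hsplit : ∑ q ∈ NC, (1 : ℝ) / q = ∑ q ∈ NC.filter (G r), (1 : ℝ) / q +
        ∑ q ∈ NC.filter (fun q => ¬ G r q), (1 : ℝ) / q := (sum_filter_add_sum_filter_not _ _ _).symm
    have h2 : ∑ q ∈ NC.filter (fun q => ¬ G r q), (1 : ℝ) / q ≤ κ :=
      hG r hr _ (filter_subset _ _) fun q hq => (mem_filter.1 hq).2
    have h1 : ∑ q ∈ NC.filter (G r), (1 : ℝ) / q ≤ 2 * s := by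
      refine sum_le_of_exp hs0 hs ?_
      have h3 : Z.Wp (Z.cut z.1) (Z.cut j) w ≤ Real.exp (-∑ q ∈ NC.filter (G r), (1 : ℝ) / q) := by
        refine Wp_le_exp fun q hq => ?_
        rw [mem_filter] at hq
        have hq1 := hq.1
        rw [hNC] at hq1
        unfold nc at hq1
        rw [mem_filter] at hq1
        obtain ⟨a1, a2, a3, _⟩ := hq1
        obtain ⟨b1, b2⟩ := gap_free hZ hT hwN hi a1 a3 a2
        exact ⟨b1, (hZ.hcut hzi).trans_lt b2, a3.le.trans hrj, hcoin r hr q hq.1 hq.2⟩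
      linarith
    linarith
  have hnot : ¬ ∀ p ∈ S, p ≤ Z.cut j → On (K1 δ S) (pt Z.γ S p) (sc (Z.tt i w) S p) := fun hall =>
    not_birth_of_K1 hZ hT hwN hsq hi hbn.1 hbj.1 hin hnj hall hbj
  refine ⟨hne, ?_⟩
  by_cases h1 : On (K1 δ S) (pt Z.γ S (mn S)) (sc (Z.tt i w) S (mn S))
  · right
    have hlost : Lost δ Z.γ (Z.tt i w) S := by
      by_contra hl
      refine hnot fun p hp _ => ?_
      by_contra hn
      exact hl ⟨p, hp, hn⟩
    refine ⟨h1, hlost, Or.inr ?_⟩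
    refine key _ (ps_spec hlost).1 ?_
    by_contra hlt
    push Not at hlt
    exact hnot fun p hp hpj => on_of_lt_ps hp (lt_of_le_of_lt hpj hlt)
  · left
    exact ⟨h1, key _ (mn_mem hne) (((mn_le hp).trans hpn).trans cnj)⟩

end world

end Crest.Agent.R4C.GWbirthx442
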