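import Crest.Agent.R4C.GWmz_9

/-!
# Row 4, GW section: births, zones and the instantiation of `GWmz_9.ZD` (helper863)

Nodes `n ∈ All` with rank `rk n`, words `S n`, births `Bi n ⊆ S n`, loss `ls n w ∈ [0,1]` at a birth.
Births strictly below a node are the same for all its words (`fn`).

* `births w`, `below n` (`below_eq`), zones are indexed by the finset `below n`;
* `x w j` : loss at the `(j+1)`-th birth (`1` if missing), `Yz z w = x w #z + x w (#z+1)`,
  `Wz z w = ∏_{m ∈ z} (1 - ls m w)`, `κz`;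
* `Y_ge`, `Y_ge_one` : interface for the natural hypothesis;
* `zd`, `zd_ok`, `budget`, `gw_births` : `∑_n (∑_{b ∈ Bi n} ∑_{c ∈ S n} f b f c min (W n b) (W n c)) / g n
  ≤ 16 C1 (3 + κ0 + K) ∑_B f`;
* `rare_row` : row bound for rare members.
-/

set_option autoImplicit false
set_option linter.unusedSectionVars false

open Finset

noncomputable section

namespace Crest.Agent.R4C.GWbirthx863

open Crest.Agent.R4C.GWzonex9 Crest.Agent.R4C.GWmzx9

variable {Ω N : Type*} [DecidableEq Ω] [DecidableEq N]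

/-- data of the nodes and births -/
structure BD (Ω N : Type*) where
  /-- nodes -/
  All : Finset N
  /-- rank -/
  rk : N → ℕ
  /-- words of a node -/
  S : N → Finset Ω
  /-- births (and ends) at a node -/
  Bi : N → Finset Ω
  /-- reference mass -/
  g : N → ℝ
  /-- loss at a birth -/
  ls : N → Ω → ℝ

/-- the structural hypotheses -/
structure BD.Good (D : BD Ω N) : Prop where
  lam : ∀ n ∈ D.All, ∀ n' ∈ D.All, D.rk n ≤ D.rk n' → ¬ Disjoint (D.S n) (D.S n') →
    D.S n' ⊆ D.S n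
  inj : ∀ n ∈ D.All, ∀ n' ∈ D.All, n ≠ n' → D.rk n = D.rk n' → Disjoint (D.S n) (D.S n')
  sub : ∀ n ∈ D.All, D.Bi n ⊆ D.S n
  fn : ∀ n ∈ D.All, ∀ n' ∈ D.All, D.rk n < D.rk n' → ∀ w ∈ D.S n', ∀ w' ∈ D.S n',
    w ∈ D.Bi n → w' ∈ D.Bi n
  ls0 : ∀ n w, 0 ≤ D.ls n w
  ls1 : ∀ n w, D.ls n w ≤ 1

namespace BD

variable (D : BD Ω N)

/-- the births of a word -/
def births (w : Ω) : Finset N := D.All.filter fun m => w ∈ D.Bi m

/-- births strictly below a node -/
def below (n : N) : Finset N := D.All.filter fun m => D.rk m < D.rk n ∧ (D.S n ∩ D.Bi m).Nonempty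

/-- index of a birth of `w` -/
def idx (w : Ω) (m : N) : ℕ := ((D.births w).filter fun m' => D.rk m' < D.rk m).card

open Classical in
/-- loss at the `(j+1)`-th birth -/
def x (w : Ω) (j : ℕ) : ℝ :=
  if h : ∃ m, m ∈ D.births w ∧ D.idx w m = j then D.ls h.choose w else 1

/-- weight after `j` births -/
def V (w : Ω) (j : ℕ) : ℝ := ∏ i ∈ range j, (1 - D.x w i)

/-- weight in a zone -/
def Wz (z : Finset N) (w : Ω) : ℝ := ∏ m ∈ z, (1 - D.ls m w)

/-- loss in the next two births -/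
def Yz (z : Finset N) (w : Ω) : ℝ := D.x w z.card + D.x w (z.card + 1)

/-- weight at a node: product over the births of `w` strictly below -/
def Wn (n : N) (w : Ω) : ℝ := ∏ m ∈ (D.births w).filter fun m => D.rk m < D.rk n, (1 - D.ls m w)

/-- `κ` of a zone: function of the rank of the last birth -/
def κz (κ0 : ℝ) (kk : ℕ → ℝ) (z : Finset N) : ℝ := if z = ∅ then κ0 else kk (z.sup D.rk)

variable {D}

lemma mem_births {w : Ω} {m : N} : m ∈ D.births w ↔ m ∈ D.All ∧ w ∈ D.Bi m := by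
  unfold births; rw [mem_filter]

lemma Good.rk_inj (h : D.Good) {w : Ω} {m m' : N} (hm : m ∈ D.births w) (hm' : m' ∈ D.births w)
    (he : D.rk m = D.rk m') : m = m' := by
  rw [mem_births] at hm hm'
  by_contra hne
  exact disjoint_left.1 (h.inj m hm.1 m' hm'.1 hne he) (h.sub m hm.1 hm.2) (h.sub m' hm'.1 hm'.2)

lemma Good.below_eq (h : D.Good) {n : N} (hn : n ∈ D.All) {w : Ω} (hw : w ∈ D.S n) :
    D.below n = (D.births w).filter fun m => D.rk m < D.rk n := by
  ext m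
  unfold below
  rw [mem_filter, mem_filter, mem_births]
  constructor
  · rintro ⟨h1, h2, w', h3⟩
    rw [mem_inter] at h3
    exact ⟨⟨h1, h.fn m h1 n hn h2 w' h3.1 w hw h3.2⟩, h2⟩
  · rintro ⟨⟨h1, h2⟩, h3⟩
    exact ⟨h1, h3, w, mem_inter.2 ⟨hw, h2⟩⟩

lemma Good.idx_lt (h : D.Good) {w : Ω} {m m' : N} (hm : m ∈ D.births w)
    (hlt : D.rk m < D.rk m') : D.idx w m < D.idx w m' := by
  unfold idx
  refine card_lt_card ⟨fun a ha => ?_, fun hc => ?_⟩
  · rw [mem_filter] at ha ⊢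
    exact ⟨ha.1, ha.2.trans hlt⟩
  · have := hc (mem_filter.2 ⟨hm, hlt⟩)
    rw [mem_filter] at this
    exact absurd this.2 (lt_irrefl _)

lemma Good.idx_inj (h : D.Good) {w : Ω} {m m' : N} (hm : m ∈ D.births w)
    (hm' : m' ∈ D.births w) (he : D.idx w m = D.idx w m') : m = m' := by
  rcases lt_trichotomy (D.rk m) (D.rk m') with h1 | h1 | h1
  · have := h.idx_lt hm h1; omega
  · exact h.rk_inj hm hm' h1
  · have := h.idx_lt hm' h1; omega

lemma Good.x_idx (h : D.Good) {w : Ω} {m : N} (hm : m ∈ D.births w) :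
    D.x w (D.idx w m) = D.ls m w := by
  unfold x
  have hex : ∃ m', m' ∈ D.births w ∧ D.idx w m' = D.idx w m := ⟨m, hm, rfl⟩
  rw [dif_pos hex]
  have := h.idx_inj hex.choose_spec.1 hm hex.choose_spec.2
  rw [this]

lemma Good.x_nonneg (h : D.Good) (w : Ω) (j : ℕ) : 0 ≤ D.x w j := by
  unfold x
  split_ifs
  · exact h.ls0 _ _
  · exact zero_le_one

lemma Good.x_le_one (h : D.Good) (w : Ω) (j : ℕ) : D.x w j ≤ 1 := by
  unfold x
  split_ifs
  · exact h.ls1 _ _
  · exact le_rfl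

lemma Good.idx_lt_card (h : D.Good) {w : Ω} {m : N} (hm : m ∈ D.births w) {a : ℕ}
    (hlt : D.rk m < a) :
    D.idx w m < ((D.births w).filter fun m => D.rk m < a).card := by
  unfold idx
  refine card_lt_card ⟨fun b hb => ?_, fun hc => ?_⟩
  · rw [mem_filter] at hb ⊢
    exact ⟨hb.1, hb.2.trans hlt⟩
  · have := hc (mem_filter.2 ⟨hm, hlt⟩)
    rw [mem_filter] at this
    exact absurd this.2 (lt_irrefl _)

/-- the indices of an initial segment -/
lemma Good.image_idx (h : D.Good) (w : Ω) (a : ℕ) :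
    ((D.births w).filter fun m => D.rk m < a).image (D.idx w) =
      range ((D.births w).filter fun m => D.rk m < a).card := by
  have hinj : Set.InjOn (D.idx w) ((D.births w).filter fun m => D.rk m < a : Finset N) := by
    intro m hm m' hm' he
    rw [mem_coe, mem_filter] at hm hm'
    exact h.idx_inj hm.1 hm'.1 he
  refine eq_of_subset_of_card_le ?_ ?_
  · intro i hi
    rw [mem_image] at hi
    obtain ⟨m, hm, rfl⟩ := hi
    rw [mem_filter] at hm
    exact mem_range.2 (h.idx_lt_card hm.1 hm.2)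
  · rw [card_range, card_image_of_injOn hinj]

lemma Good.V_eq (h : D.Good) (w : Ω) (a : ℕ) :
    D.V w ((D.births w).filter fun m => D.rk m < a).card =
      ∏ m ∈ (D.births w).filter fun m => D.rk m < a, (1 - D.ls m w) := by
  unfold V
  rw [← h.image_idx w a, prod_image]
  · refine prod_congr rfl fun m hm => ?_
    rw [mem_filter] at hm
    rw [h.x_idx hm.1]
  · intro m hm m' hm' he
    rw [mem_coe, mem_filter] at hm hm'
    exact h.idx_inj hm.1 hm'.1 he

lemma Good.Wz_eq (h : D.Good) {n : N} (hn : n ∈ D.All) {w : Ω} (hw : w ∈ D.S n) :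
    D.Wz (D.below n) w = D.Wn n w := by
  unfold Wz Wn
  rw [h.below_eq hn hw]

lemma Good.Wz_V (h : D.Good) {n : N} (hn : n ∈ D.All) {w : Ω} (hw : w ∈ D.S n) :
    D.Wz (D.below n) w = D.V w (D.below n).card := by
  unfold Wz
  rw [h.below_eq hn hw, h.V_eq]

lemma Good.Wz_nonneg (h : D.Good) (z : Finset N) (w : Ω) : 0 ≤ D.Wz z w :=
  prod_nonneg fun m _ => by have := h.ls1 m w; linarith

lemma Good.Wz_le_one (h : D.Good) (z : Finset N) (w : Ω) : D.Wz z w ≤ 1 :=
  prod_le_one (fun m _ => by have := h.ls1 m w; linarith)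
    fun m _ => by have := h.ls0 m w; linarith

lemma Good.V_nonneg (h : D.Good) (w : Ω) (j : ℕ) : 0 ≤ D.V w j :=
  prod_nonneg fun i _ => by have := h.x_le_one w i; linarith

lemma Good.V_le_one (h : D.Good) (w : Ω) (j : ℕ) : D.V w j ≤ 1 :=
  prod_le_one (fun i _ => by have := h.x_le_one w i; linarith)
    fun i _ => by have := h.x_nonneg w i; linarith

/-! ### interface for the natural hypothesis -/

lemma Good.card_split (h : D.Good) (w : Ω) (a : ℕ) (m : N) (ha : a ≤ D.rk m) :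
    D.idx w m = ((D.births w).filter fun m' => D.rk m' < a).card +
      ((D.births w).filter fun m' => a ≤ D.rk m' ∧ D.rk m' < D.rk m).card := by
  unfold idx
  rw [← card_union_of_disjoint]
  · congr 1
    ext b
    simp only [mem_union, mem_filter]
    constructor
    · rintro ⟨h1, h2⟩
      by_cases h3 : D.rk b < a
      · exact Or.inl ⟨h1, h3⟩
      · exact Or.inr ⟨h1, by omega, h2⟩
    · rintro (⟨h1, h2⟩ | ⟨h1, _, h2⟩)
      · exact ⟨h1, by omega⟩
      · exact ⟨h1, h2⟩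
  · rw [disjoint_left]
    intro b h1 h2
    rw [mem_filter] at h1 h2
    omega

/-- **the loss at the next or next-but-one birth is at most `Y`** -/
theorem Good.Y_ge (h : D.Good) {n : N} (hn : n ∈ D.All) {w : Ω} (hw : w ∈ D.S n) {m : N}
    (hm : m ∈ D.births w) (hr : D.rk n ≤ D.rk m)
    (hc : ((D.births w).filter fun m' => D.rk n ≤ D.rk m' ∧ D.rk m' < D.rk m).card ≤ 1) :
    D.ls m w ≤ D.Yz (D.below n) w := by
  have h1 := h.card_split w (D.rk n) m hr
  have h2 := h.x_idx hm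
  unfold Yz
  rw [h.below_eq hn hw]
  set c0 := ((D.births w).filter fun m' => D.rk m' < D.rk n).card
  have h3 := h.x_nonneg w c0
  have h4 := h.x_nonneg w (c0 + 1)
  rcases Nat.le_one_iff_eq_zero_or_eq_one.1 hc with h5 | h5
  · rw [h5, add_zero] at h1
    rw [h1] at h2
    linarith
  · rw [h5] at h1
    rw [h1] at h2
    linarith

/-- first birth at or above the node -/
theorem Good.Y_ge_first (h : D.Good) {n : N} (hn : n ∈ D.All) {w : Ω} (hw : w ∈ D.S n) {m : N}
    (hm : m ∈ D.births w) (hr : D.rk n ≤ D.rk m)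
    (hc : ∀ m' ∈ D.births w, D.rk n ≤ D.rk m' → D.rk m ≤ D.rk m') :
    D.ls m w ≤ D.Yz (D.below n) w := by
  refine h.Y_ge hn hw hm hr ?_
  have : (D.births w).filter (fun m' => D.rk n ≤ D.rk m' ∧ D.rk m' < D.rk m) = ∅ := by
    ext b
    simp only [mem_filter, notMem_empty, iff_false, not_and, not_lt]
    exact fun h1 h2 => hc b h1 h2
  rw [this]; simp

/-- birth at the node itself -/
theorem Good.Y_ge_self (h : D.Good) {n : N} (hn : n ∈ D.All) {w : Ω} (hw : w ∈ D.Bi n) :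
    D.ls n w ≤ D.Yz (D.below n) w :=
  h.Y_ge_first hn (h.sub n hn hw) (mem_births.2 ⟨hn, hw⟩) le_rfl fun _ _ h2 => h2

/-- next birth after a birth at the node -/
theorem Good.Y_ge_second (h : D.Good) {n : N} (hn : n ∈ D.All) {w : Ω} (hw : w ∈ D.Bi n) {m : N}
    (hm : m ∈ D.births w) (hr : D.rk n ≤ D.rk m)
    (hc : ∀ m' ∈ D.births w, D.rk n < D.rk m' → D.rk m ≤ D.rk m') :
    D.ls m w ≤ D.Yz (D.below n) w := by
  refine h.Y_ge hn (h.sub n hn hw) hm hr ?_
  refine card_le_one.2 fun a ha b hb => ?_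
  rw [mem_filter] at ha hb
  have key : ∀ a ∈ D.births w, D.rk n ≤ D.rk a → D.rk a < D.rk m → D.rk a = D.rk n := by
    intro a h1 h2 h3
    by_contra hne
    have := hc a h1 (lt_of_le_of_ne h2 (Ne.symm hne))
    omega
  exact h.rk_inj ha.1 hb.1
    ((key a ha.1 ha.2.1 ha.2.2).trans (key b hb.1 hb.2.1 hb.2.2).symm)

/-- fewer than two births at or above the node -/
theorem Good.Y_ge_one (h : D.Good) {n : N} (hn : n ∈ D.All) {w : Ω} (hw : w ∈ D.S n)
    (hc : ((D.births w).filter fun m' => D.rk n ≤ D.rk m').card ≤ 1) :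
    1 ≤ D.Yz (D.below n) w := by
  unfold Yz
  rw [h.below_eq hn hw]
  set c0 := ((D.births w).filter fun m' => D.rk m' < D.rk n).card with hc0
  have h1 : D.x w (c0 + 1) = 1 := by
    unfold x
    rw [dif_neg]
    rintro ⟨m, hm, hi⟩
    have htot : (D.births w).card = c0 +
        ((D.births w).filter fun m' => D.rk n ≤ D.rk m').card := by
      rw [hc0, ← card_union_of_disjoint]
      · congr 1
        ext b
        simp only [mem_union, mem_filter]
        constructor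
        · intro h1
          by_cases h3 : D.rk b < D.rk n
          · exact Or.inl ⟨h1, h3⟩
          · exact Or.inr ⟨h1, by omega⟩
        · rintro (⟨h1, _⟩ | ⟨h1, _⟩) <;> exact h1
      · rw [disjoint_left]
        intro b h1 h2
        rw [mem_filter] at h1 h2
        omega
    have hlt : D.idx w m < (D.births w).card := by
      unfold idx
      refine card_lt_card ⟨filter_subset _ _, fun hc' => ?_⟩
      have := hc' hm
      rw [mem_filter] at this
      exact absurd this.2 (lt_irrefl _)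
    omega
  rw [h1]
  have := h.x_nonneg w c0
  linarith

/-! ### instantiation of `ZD` -/

variable (D)

/-- the zones -/
def zd (κ0 : ℝ) (kk : ℕ → ℝ) : ZD Ω N (Finset N) where
  Zs := D.All.image D.below
  Nd z := D.All.filter fun n => D.below n = z
  S _ n := D.S n
  A _ n := D.Bi n
  rk _ n := D.rk n
  g _ n := D.g n
  Y z w := D.Yz z w
  κ z := D.κz κ0 kk z
  W z w := D.Wz z w

variable {D}

lemma κz_nonneg {κ0 : ℝ} {kk : ℕ → ℝ} (h0 : 0 ≤ κ0) (hk : ∀ m, 0 ≤ kk m) (z : Finset N) :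
    0 ≤ D.κz κ0 kk z := by
  unfold κz
  split_ifs
  · exact h0
  · exact hk _

theorem Good.zd_ok (h : D.Good) {κ0 : ℝ} {kk : ℕ → ℝ} (h0 : 0 ≤ κ0) (hk : ∀ m, 0 ≤ kk m)
    {B : Finset Ω} {f : Ω → ℝ} {C1 : ℝ} (hf : ∀ w, 0 ≤ f w) (hC : 1 ≤ C1)
    (hg : ∀ n ∈ D.All, 0 < D.g n) (hm : ∀ n ∈ D.All, ∑ w ∈ D.S n ∩ B, f w ≤ D.g n)
    (hyp : ∀ n ∈ D.All, ∀ s, 0 ≤ s → s ≤ 1 →
      ∑ w ∈ D.S n ∩ B with D.Yz (D.below n) w ≤ s, f w ≤
        C1 * (s + D.κz κ0 kk (D.below n)) * D.g n) :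
    (D.zd κ0 kk).Ok B f C1 where
  hf := hf
  hC := hC
  lam := by
    intro z _
    constructor
    · intro n hn n' hn' hr hd
      exact h.lam n (mem_filter.1 hn).1 n' (mem_filter.1 hn').1 hr hd
    · intro n hn n' hn' hne hr
      exact h.inj n (mem_filter.1 hn).1 n' (mem_filter.1 hn').1 hne hr
  hAd := by
    intro z _ n hn n' hn' hne
    have hn1 := mem_filter.1 hn
    have hn1' := mem_filter.1 hn'
    rw [disjoint_left]
    intro w hw hw'
    have key : ∀ {a b : N}, a ∈ D.All → b ∈ D.All → D.below a = z → D.below b = z →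
        w ∈ D.Bi a → w ∈ D.Bi b → ¬ D.rk a < D.rk b := by
      intro a b ha hb ea eb wa wb hlt
      have h1 : a ∈ D.below b := by
        rw [h.below_eq hb (h.sub b hb wb), mem_filter, mem_births]
        exact ⟨⟨ha, wa⟩, hlt⟩
      rw [eb, ← ea, h.below_eq ha (h.sub a ha wa), mem_filter] at h1
      exact absurd h1.2 (lt_irrefl _)
    have h1 := key hn1.1 hn1'.1 hn1.2 hn1'.2 hw hw'
    have h2 := key hn1'.1 hn1.1 hn1'.2 hn1.2 hw' hw
    have h3 : D.rk n = D.rk n' := by omega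
    exact disjoint_left.1 (h.inj n hn1.1 n' hn1'.1 hne h3) (h.sub n hn1.1 hw)
      (h.sub n' hn1'.1 hw')
  hAS := fun z _ n hn => h.sub n (mem_filter.1 hn).1
  hY := fun z _ w => add_nonneg (h.x_nonneg _ _) (h.x_nonneg _ _)
  hg := fun z _ n hn => hg n (mem_filter.1 hn).1
  hκ := fun z _ => κz_nonneg h0 hk z
  hm := fun z _ n hn => hm n (mem_filter.1 hn).1
  hyp := by
    intro z _ n hn s hs0 hs1
    have hn1 := mem_filter.1 hn
    have := hyp n hn1.1 s hs0 hs1
    rw [hn1.2] at this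
    exact this
  hW0 := fun z _ w => h.Wz_nonneg z w
  hW1 := fun z _ w => h.Wz_le_one z w

/-- **budget of one word** -/
theorem Good.budget (h : D.Good) {κ0 : ℝ} {kk : ℕ → ℝ} (h0 : 0 ≤ κ0) (hk : ∀ m, 0 ≤ kk m)
    {K : ℝ} (hK : ∀ R, ∑ m ∈ range R, kk m ≤ K) (w : Ω) :
    ∑ z ∈ (D.zd κ0 kk).Zs with w ∈ (D.zd κ0 kk).zone z,
      (D.zd κ0 kk).W z w * ((D.zd κ0 kk).Y z w + (D.zd κ0 kk).κ z) ≤ 3 + κ0 + K := by
  classical
  set Z : Finset (Finset N) := (D.zd κ0 kk).Zs.filter fun z => w ∈ (D.zd κ0 kk).zone z with hZ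
  -- the zones of `w` are initial segments of the births
  have hseg : ∀ z ∈ Z, ∃ a : ℕ, z = (D.births w).filter fun m => D.rk m < a := by
    intro z hz
    rw [hZ, mem_filter] at hz
    have h2 := hz.2
    unfold ZD.zone at h2
    rw [mem_biUnion] at h2
    obtain ⟨n, hn, hw⟩ := h2
    have hn1 := mem_filter.1 hn
    refine ⟨D.rk n, ?_⟩
    rw [← hn1.2]
    exact h.below_eq hn1.1 hw
  have hWV : ∀ z ∈ Z, (D.zd κ0 kk).W z w = D.V w z.card := by
    intro z hz
    obtain ⟨a, rfl⟩ := hseg z hz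
    exact (h.V_eq w a).symm
  have hcard : Set.InjOn (fun z : Finset N => z.card) (Z : Set (Finset N)) := by
    intro z hz z' hz' he
    obtain ⟨a, rfl⟩ := hseg z hz
    obtain ⟨a', rfl⟩ := hseg z' hz'
    rcases le_total a a' with h1 | h1
    · refine eq_of_subset_of_card_le (fun m hm => ?_) (le_of_eq he.symm)
      rw [mem_filter] at hm ⊢
      exact ⟨hm.1, by omega⟩
    · refine (eq_of_subset_of_card_le (fun m hm => ?_) (le_of_eq he)).symm
      rw [mem_filter] at hm ⊢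
      exact ⟨hm.1, by omega⟩
  have hsup : Set.InjOn (fun z : Finset N => z.sup D.rk) ((Z.filter fun z => z ≠ ∅ : Finset _) :
      Set (Finset N)) := by
    intro z hz z' hz' he
    rw [mem_coe, mem_filter] at hz hz'
    obtain ⟨a, rfl⟩ := hseg z hz.1
    obtain ⟨a', rfl⟩ := hseg z' hz'.1
    have key : ∀ a : ℕ, (D.births w).filter (fun m => D.rk m < a) ≠ ∅ →
        (D.births w).filter (fun m => D.rk m < a) = (D.births w).filter
          (fun m => D.rk m ≤ ((D.births w).filter fun m => D.rk m < a).sup D.rk) := by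
      intro a ha
      ext m
      simp only [mem_filter]
      constructor
      · rintro ⟨h1, h2⟩
        exact ⟨h1, le_sup (f := D.rk) (mem_filter.2 ⟨h1, h2⟩)⟩
      · rintro ⟨h1, h2⟩
        refine ⟨h1, lt_of_le_of_lt h2 ?_⟩
        obtain ⟨m0, hm0, e⟩ := exists_mem_eq_sup _ (nonempty_iff_ne_empty.2 ha) D.rk
        rw [e]
        exact (mem_filter.1 hm0).2
    rw [key a hz.2, key a' hz'.2]
    simp only at he
    rw [he]
  -- the `Y` part
  have hY : ∑ z ∈ Z, (D.zd κ0 kk).W z w * (D.zd κ0 kk).Y z w ≤ 3 := by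
    have e1 : ∑ z ∈ Z, (D.zd κ0 kk).W z w * (D.zd κ0 kk).Y z w =
        ∑ j ∈ Z.image (fun z => z.card), D.V w j * (D.x w j + D.x w (j + 1)) := by
      rw [sum_image hcard]
      exact sum_congr rfl fun z hz => by rw [hWV z hz]; rfl
    rw [e1]
    have hsub : Z.image (fun z => z.card) ⊆ range ((Z.image (fun z => z.card)).sup id + 1) := by
      intro j hj
      rw [mem_range]
      exact Nat.lt_succ_of_le (le_sup (f := id) hj)
    refine (sum_le_sum_of_subset_of_nonneg hsub fun j _ _ => mul_nonneg (h.V_nonneg w j)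
      (add_nonneg (h.x_nonneg _ _) (h.x_nonneg _ _))).trans ?_
    refine tele (D.V w) (D.x w) (h.x_nonneg w) (h.x_le_one w) (h.V_nonneg w) ?_ ?_ _
    · unfold V; simp
    · intro j
      unfold V
      rw [prod_range_succ]
  -- the `κ` part
  have hκ : ∑ z ∈ Z, (D.zd κ0 kk).W z w * (D.zd κ0 kk).κ z ≤ κ0 + K := by
    have e0 : ∀ z ∈ Z, (D.zd κ0 kk).W z w * (D.zd κ0 kk).κ z ≤ D.κz κ0 kk z := by
      intro z _
      have h1 := κz_nonneg (D := D) h0 hk z
      have h2 := h.Wz_le_one z w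
      have h3 := h.Wz_nonneg z w
      show D.Wz z w * D.κz κ0 kk z ≤ _
      nlinarith
    refine (sum_le_sum e0).trans ?_
    rw [← sum_filter_add_sum_filter_not Z (fun z => z = ∅)]
    refine add_le_add ?_ ?_
    · have : Z.filter (fun z => z = ∅) ⊆ {∅} := by
        intro z hz
        rw [mem_filter] at hz
        rw [mem_singleton]; exact hz.2
      refine (sum_le_sum_of_subset_of_nonneg this fun z _ _ => κz_nonneg h0 hk z).trans ?_
      rw [sum_singleton]
      unfold κz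
      rw [if_pos rfl]
    · have e1 : ∑ z ∈ Z.filter (fun z => ¬ z = ∅), D.κz κ0 kk z =
          ∑ r ∈ (Z.filter fun z => z ≠ ∅).image (fun z => z.sup D.rk), kk r := by
        rw [sum_image hsup]
        refine sum_congr rfl fun z hz => ?_
        rw [mem_filter] at hz
        unfold κz
        rw [if_neg hz.2]
      rw [e1]
      set R := (Z.filter fun z => z ≠ ∅).image (fun z => z.sup D.rk)
      have hsub : R ⊆ range (R.sup id + 1) := by
        intro j hj
        rw [mem_range]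
        exact Nat.lt_succ_of_le (le_sup (f := id) hj)
      exact (sum_le_sum_of_subset_of_nonneg hsub fun j _ _ => hk j).trans (hK _)
  calc _ = ∑ z ∈ Z, (D.zd κ0 kk).W z w * (D.zd κ0 kk).Y z w +
        ∑ z ∈ Z, (D.zd κ0 kk).W z w * (D.zd κ0 kk).κ z := by
        rw [← sum_add_distrib]
        exact sum_congr rfl fun z _ => by ring
    _ ≤ 3 + κ0 + K := by linarith

/-- sum over the nodes = sum over the zones -/
lemma sum_zones (κ0 : ℝ) (kk : ℕ → ℝ) (φ : N → ℝ) :
    ∑ z ∈ (D.zd κ0 kk).Zs, ∑ n ∈ (D.zd κ0 kk).Nd z, φ n = ∑ n ∈ D.All, φ n :=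
  sum_fiberwise_of_maps_to (fun n hn => mem_image_of_mem _ hn) φ

/-- **GW for births** : one member is a birth (or an end) at the node, the other is anything -/
theorem Good.gw_births (h : D.Good) {κ0 : ℝ} {kk : ℕ → ℝ} (h0 : 0 ≤ κ0) (hk : ∀ m, 0 ≤ kk m)
    {K : ℝ} (hK : ∀ R, ∑ m ∈ range R, kk m ≤ K)
    {B : Finset Ω} {f : Ω → ℝ} {C1 : ℝ} (hf : ∀ w, 0 ≤ f w) (hC : 1 ≤ C1)
    (hg : ∀ n ∈ D.All, 0 < D.g n) (hm : ∀ n ∈ D.All, ∑ w ∈ D.S n ∩ B, f w ≤ D.g n)
    (hyp : ∀ n ∈ D.All, ∀ s, 0 ≤ s → s ≤ 1 →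
      ∑ w ∈ D.S n ∩ B with D.Yz (D.below n) w ≤ s, f w ≤
        C1 * (s + D.κz κ0 kk (D.below n)) * D.g n) :
    ∑ n ∈ D.All, (∑ b ∈ D.Bi n ∩ B, ∑ c ∈ D.S n ∩ B, f b * f c * min (D.Wn n b) (D.Wn n c)) /
      D.g n ≤ 16 * C1 * (3 + κ0 + K) * ∑ w ∈ B, f w := by
  have hok := h.zd_ok h0 hk hf hC hg hm hyp
  have key := gw_scalar (D.zd κ0 kk) B f C1 (3 + κ0 + K) hok fun w _ => h.budget h0 hk hK w
  refine le_trans (le_of_eq ?_) key
  rw [← sum_zones (D := D) κ0 kk]
  refine sum_congr rfl fun z _ => sum_congr rfl fun n hn => ?_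
  have hn1 := mem_filter.1 hn
  show _ / D.g n = _ / D.g n
  congr 1
  refine sum_congr rfl fun b hb => sum_congr rfl fun c hc => ?_
  rw [mem_inter] at hb hc
  show _ = f b * f c * min (D.Wz z b) (D.Wz z c)
  rw [← hn1.2, h.Wz_eq hn1.1 (h.sub n hn1.1 hb.1), h.Wz_eq hn1.1 hc.1]

/-- **rare members** : row bound -/
theorem Good.rare_row (h : D.Good) {B : Finset Ω} {f : Ω → ℝ} (hf : ∀ w, 0 ≤ f w)
    (hg : ∀ n ∈ D.All, 0 < D.g n) (Ra : N → Finset Ω) (ep : ℕ → ℝ) (hep : ∀ m, 0 ≤ ep m)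
    {E : ℝ} (hE : ∀ R, ∑ m ∈ range R, ep m ≤ E)
    (hRa : ∀ n ∈ D.All, ∑ w ∈ Ra n, f w ≤ ep (D.rk n) * D.g n) :
    ∑ n ∈ D.All, (∑ b ∈ Ra n, ∑ c ∈ D.S n ∩ B, f b * f c) / D.g n ≤ E * ∑ w ∈ B, f w := by
  classical
  have h1 : ∀ n ∈ D.All, (∑ b ∈ Ra n, ∑ c ∈ D.S n ∩ B, f b * f c) / D.g n ≤
      ∑ c ∈ B, if c ∈ D.S n then ep (D.rk n) * f c else 0 := by
    intro n hn
    rw [div_le_iff₀ (hg n hn), ← sum_mul_sum]
    have e1 : ∑ c ∈ B, (if c ∈ D.S n then ep (D.rk n) * f c else 0) =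
        ep (D.rk n) * ∑ c ∈ D.S n ∩ B, f c := by
      rw [← sum_filter, mul_sum]
      refine sum_congr ?_ fun _ _ => rfl
      ext c; simp [and_comm]
    rw [e1]
    have h2 : 0 ≤ ∑ c ∈ D.S n ∩ B, f c := sum_nonneg fun c _ => hf c
    have := mul_le_mul_of_nonneg_right (hRa n hn) h2
    linarith
  refine (sum_le_sum h1).trans ?_
  rw [sum_comm, mul_sum]
  refine sum_le_sum fun c _ => ?_
  rw [← sum_filter, ← sum_mul]
  refine mul_le_mul_of_nonneg_right ?_ (hf c)
  have hinj : Set.InjOn D.rk ((D.All.filter fun n => c ∈ D.S n : Finset N) : Set N) := by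
    intro n hn n' hn' he
    rw [mem_coe, mem_filter] at hn hn'
    by_contra hne
    exact disjoint_left.1 (h.inj n hn.1 n' hn'.1 hne he) hn.2 hn'.2
  rw [← sum_image (f := ep) hinj]
  set R := (D.All.filter fun n => c ∈ D.S n).image D.rk
  have hsub : R ⊆ range (R.sup id + 1) := by
    intro j hj
    rw [mem_range]
    exact Nat.lt_succ_of_le (le_sup (f := id) hj)
  exact (sum_le_sum_of_subset_of_nonneg hsub fun j _ _ => hep j).trans (hE _)

end BD

end Crest.Agent.R4C.GWbirthx863
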