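import Crest.Agent.R4C.GWdef_982

/-!
# Row 4, GW section, VECTOR case: families as zones (helper24)

Instance data for LEMMA V (helper8, note 3941) over the `World` of `GWdef_982`
(`e i w = G0 * low (cut i) w`, `tt i w = e i w / L`, `yy i w = upp (cut i) w * γ`).

* `cell k d a y t` : `d ≤ t (y - a/k) < d + 2`; `KK k d = k (|d| + 2)` = depth of the cell.
* `Key` : zone key. Light key `(k, d, root index rt, root prefix n0, a0 mod k)`, none key
  (`lt = false`, `k = 1`, `a0 = 0`) = one node and one arc.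
* `In z i w` : the word `w` lies in the zone `z` at its node index `i`.
* `S z ν`, `Nd z`, `Zs`, `A z ν` (last node of `w` in `z`; all words for a none key).
* `lx`, `nx`, `ll`, `n2`, `Y`, `W`, `kapV`.
-/

set_option autoImplicit false

open Finset
open Crest.Agent.R4C.Basex935 Crest.Agent.R4C.Cutx50 Crest.Agent.R4C.PrefixMx882
open Crest.Agent.R4C.NHx656 (On frac_unique)
open Crest.Agent.R4C.GWdefx982

namespace Crest.Agent.R4C.GWdefVx24

/-! ### cells -/

/-- displacement cell -/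
def cell (k : ℕ) (d a : ℤ) (y t : ℝ) : Prop := (d : ℝ) ≤ t * (y - a / k) ∧ t * (y - a / k) < d + 2

/-- depth of a cell -/
noncomputable def KK (k : ℕ) (d : ℤ) : ℝ := (k : ℝ) * (|(d : ℝ)| + 2)

lemma KK_pos {k : ℕ} (hk : 0 < k) (d : ℤ) : 0 < KK k d := by
  unfold KK
  have h1 : (0 : ℝ) < k := by exact_mod_cast hk
  have h2 := abs_nonneg (d : ℝ)
  positivity

lemma two_le_KK {k : ℕ} (hk : 0 < k) (d : ℤ) : 2 ≤ KK k d := by
  unfold KK
  have h1 : (1 : ℝ) ≤ k := by exact_mod_cast hk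
  have h2 := abs_nonneg (d : ℝ)
  nlinarith

lemma k_le_KK {k : ℕ} (d : ℤ) : (k : ℝ) ≤ KK k d := by
  unfold KK
  have h1 : (0 : ℝ) ≤ k := Nat.cast_nonneg k
  have h2 := abs_nonneg (d : ℝ)
  nlinarith

lemma abs_le_KK {k : ℕ} (hk : 0 < k) (d : ℤ) : |(d : ℝ)| + 2 ≤ KK k d := by
  unfold KK
  have h1 : (1 : ℝ) ≤ k := by exact_mod_cast hk
  have h2 := abs_nonneg (d : ℝ)
  nlinarith

lemma cell.abs_lt {k : ℕ} {d a : ℤ} {y t : ℝ} (h : cell k d a y t) :
    |t * (y - a / k)| < |(d : ℝ)| + 2 := by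
  obtain ⟨h1, h2⟩ := h
  rw [_root_.abs_lt]
  constructor
  · have := neg_abs_le (d : ℝ)
    linarith
  · have := le_abs_self (d : ℝ)
    linarith

/-- a point of a cell has depth `< KK` -/
lemma cell.depth_lt {k : ℕ} {d a : ℤ} {y t : ℝ} (ht : 0 < t) (hk : 0 < k) (h : cell k d a y t) :
    (k : ℝ) * max 1 (t * |y - a / k|) < KK k d := by
  have h1 := h.abs_lt
  rw [abs_mul, abs_of_pos ht] at h1
  have h2 : (0 : ℝ) < k := by exact_mod_cast hk
  unfold KK
  refine mul_lt_mul_of_pos_left (max_lt ?_ h1) h2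
  have := abs_nonneg (d : ℝ)
  linarith

lemma cell.on {k : ℕ} {d a : ℤ} {y t : ℝ} (ht : 0 < t) (hk : 0 < k) (h : cell k d a y t) :
    On (KK k d) y t := ⟨a, k, hk, h.depth_lt ht hk⟩

/-- the depth of a point of a cell is `≥ KK / 5` -/
lemma cell.le_depth {k : ℕ} {d a : ℤ} {y t : ℝ} (ht : 0 < t) (h : cell k d a y t) :
    KK k d ≤ 5 * ((k : ℝ) * max 1 (t * |y - a / k|)) := by
  obtain ⟨h1, h2⟩ := h
  have h3 : (0 : ℝ) ≤ k := Nat.cast_nonneg k
  have h4 : t * |y - a / k| = |t * (y - a / k)| := by rw [abs_mul, abs_of_pos ht]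
  rw [h4]
  set x := t * (y - a / k) with hx
  have h6 : |(d : ℝ)| ≤ |x| + 2 := by
    rw [abs_le]
    constructor
    · have := neg_abs_le x
      linarith
    · have := le_abs_self x
      linarith
  have h5 : |(d : ℝ)| + 2 ≤ 5 * max 1 |x| := by
    have h7 := le_max_left (1 : ℝ) |x|
    have h8 := le_max_right (1 : ℝ) |x|
    linarith
  unfold KK
  nlinarith

/-- pushing down along a divisor chain: the displacement is static -/
lemma cell.push {k m : ℕ} {d a : ℤ} {y t : ℝ} (h : cell k d a y (t * m)) :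
    cell k d (m * a) (m * y) t := by
  obtain ⟨h1, h2⟩ := h
  have e : t * ((m : ℝ) * y - ((m * a : ℤ) : ℝ) / k) = t * m * (y - a / k) := by
    push_cast
    ring
  exact ⟨by rw [e]; exact h1, by rw [e]; exact h2⟩

/-- uniqueness of the fraction of two cells -/
lemma cell.unique {k k' : ℕ} {d d' a a' : ℤ} {y t : ℝ} (ht : 0 < t) (hk : 0 < k) (hk' : 0 < k')
    (h : cell k d a y t) (h' : cell k' d' a' y t) (hK : KK k d * KK k' d' * 2 ≤ t) :
    a * k' = a' * k := by
  refine frac_unique hk hk' ht ht (h.depth_lt ht hk) (h'.depth_lt ht hk') ?_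
  have h1 : KK k d * KK k' d' * (1 / t + 1 / t) = KK k d * KK k' d' * 2 / t := by ring
  rw [h1, div_le_one ht]
  exact hK

/-- reduced fractions -/
lemma frac_eq {k k' : ℕ} {a a' : ℤ} (hk : 0 < k) (hk' : 0 < k') (hg : Int.gcd a k = 1)
    (hg' : Int.gcd a' k' = 1) (h : a * k' = a' * k) : a = a' ∧ k = k' := by
  have h1 : (k : ℤ) ∣ k' := by
    have h2 : (k : ℤ) ∣ a * k' := h ▸ Dvd.intro_left a' rfl
    exact (Int.isCoprime_iff_gcd_eq_one.2 hg).symm.dvd_of_dvd_mul_left h2
  have h1' : (k' : ℤ) ∣ k := by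
    have h2 : (k' : ℤ) ∣ a' * k := h ▸ Dvd.intro_left a rfl
    exact (Int.isCoprime_iff_gcd_eq_one.2 hg').symm.dvd_of_dvd_mul_left h2
  have h3 : k = k' := Nat.dvd_antisymm (Int.natCast_dvd_natCast.1 h1) (Int.natCast_dvd_natCast.1 h1')
  subst h3
  have h4 : (k : ℤ) ≠ 0 := by exact_mod_cast hk.ne'
  exact ⟨mul_right_cancel₀ h4 h, rfl⟩

/-- every point lies in the cell `⌊x⌋` -/
lemma cell_floor (k : ℕ) (a : ℤ) (y t : ℝ) : cell k ⌊t * (y - a / k)⌋ a y t :=
  ⟨Int.floor_le _, by have := Int.lt_floor_add_one (t * (y - a / k)); linarith⟩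

/-- the two cells of a point -/
lemma cell.eq_floor {k : ℕ} {d a : ℤ} {y t : ℝ} (h : cell k d a y t) :
    d = ⌊t * (y - a / k)⌋ ∨ d = ⌊t * (y - a / k)⌋ - 1 := by
  obtain ⟨h1, h2⟩ := h
  have h3 : d ≤ ⌊t * (y - a / k)⌋ := Int.le_floor.2 h1
  have h4 : ⌊t * (y - a / k)⌋ < d + 2 := by
    rw [Int.floor_lt]
    push_cast
    exact h2
  omega

/-- a fraction of small depth can be reduced -/
lemma exists_reduced {K y t : ℝ} (h : On K y t) :
    ∃ (a : ℤ) (k : ℕ), 0 < k ∧ Int.gcd a k = 1 ∧ (k : ℝ) * max 1 (t * |y - a / k|) < K := by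
  obtain ⟨a, k, hk, h1⟩ := h
  set g := Int.gcd a k with hg
  have hg0 : 0 < g := Int.gcd_pos_of_ne_zero_right a (by exact_mod_cast hk.ne')
  obtain ⟨a1, ha1⟩ : (g : ℤ) ∣ a := Int.gcd_dvd_left a k
  have hgk : g ∣ k := by
    have := Int.gcd_dvd_right a (k : ℤ)
    exact_mod_cast this
  obtain ⟨k1, hk1⟩ := hgk
  have hk10 : 0 < k1 := by
    rcases Nat.eq_zero_or_pos k1 with h0 | h0
    · rw [h0, mul_zero] at hk1; omega
    · exact h0
  have hcop : Int.gcd a1 k1 = 1 := by
    have h2 : Int.gcd ((g : ℤ) * a1) ((g : ℤ) * (k1 : ℤ)) = g * Int.gcd a1 k1 := by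
      rw [Int.gcd_mul_left, Int.natAbs_natCast]
    have h3 : Int.gcd ((g : ℤ) * a1) ((g : ℤ) * (k1 : ℤ)) = g := by
      rw [← ha1]
      have : ((g : ℤ) * (k1 : ℤ)) = (k : ℤ) := by rw [hk1]; push_cast; ring
      rw [this]
    rw [h3] at h2
    have h4 : g * 1 = g * Int.gcd a1 k1 := by rw [mul_one]; exact h2
    exact (Nat.eq_of_mul_eq_mul_left hg0 h4).symm
  refine ⟨a1, k1, hk10, hcop, lt_of_le_of_lt ?_ h1⟩
  have e : (a : ℝ) / k = (a1 : ℝ) / k1 := by
    have h5 : (a : ℝ) = (g : ℝ) * a1 := by rw [ha1]; push_cast; ring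
    have h6 : (k : ℝ) = (g : ℝ) * k1 := by rw [hk1]; push_cast; ring
    have h7 : (g : ℝ) ≠ 0 := by exact_mod_cast hg0.ne'
    rw [h5, h6, mul_div_mul_left _ _ h7]
  rw [e]
  have h8 : (k1 : ℝ) ≤ k := by
    have : k1 ≤ k := by rw [hk1]; exact Nat.le_mul_of_pos_left k1 hg0
    exact_mod_cast this
  have h9 : (0 : ℝ) ≤ max 1 (t * |y - a1 / k1|) := zero_le_one.trans (le_max_left _ _)
  exact mul_le_mul_of_nonneg_right h8 h9

/-! ### zones -/

/-- zone keys; light key: denominator `k`, displacement cell `d`, root index `rt`, root prefix `n0`,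
residue `a0`; none key: `lt = false`, `k = 1`, `a0 = 0`, arc `d`, node `(rt, n0)` -/
structure Key where
  /-- light key -/
  lt : Bool
  /-- denominator -/
  k : ℕ
  /-- displacement cell (resp. arc) -/
  d : ℤ
  /-- root index -/
  rt : ℕ
  /-- root prefix -/
  n0 : ℕ
  /-- residue of the numerator at the root -/
  a0 : ℤ
  deriving DecidableEq

variable (Z : World)

/-- the point of `w` at the index `i` lies in the cell `(k, d, a)`, `a/k` reduced -/
def Fr (k : ℕ) (d a : ℤ) (i w : ℕ) : Prop :=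
  Int.gcd a k = 1 ∧ cell k d a (Z.yy i w) (Z.tt i w)

/-- light zones -/
structure InL (z : Key) (i w : ℕ) : Prop where
  hk : 0 < z.k
  nd : Z.nd i w
  le : z.rt ≤ i
  ndr : Z.nd z.rt w
  low : low (Z.cut z.rt) w = z.n0
  th : KK z.k z.d ≤ Z.θ z.rt
  first : ∀ j, Z.nd j w → j < z.rt → Z.θ j < KK z.k z.d
  a0 : 0 ≤ z.a0 ∧ z.a0 < z.k
  root : ∃ a : ℤ, Fr Z z.k z.d a z.rt w ∧ a ≡ z.a0 [ZMOD z.k]
  at_i : ∃ a : ℤ, Fr Z z.k z.d a i w

/-- none zones -/
structure InN (z : Key) (i w : ℕ) : Prop where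
  hk : z.k = 1
  a0 : z.a0 = 0
  nd : Z.nd i w
  eq : i = z.rt
  low : low (Z.cut z.rt) w = z.n0
  non : ¬ On (Z.θ i / 5) (Z.yy i w) (Z.tt i w)
  arc : cell 1 z.d ⌊Z.yy i w⌋ (Z.yy i w) (Z.tt i w)

/-- the word `w` lies in the zone `z` at its node index `i` -/
def In (z : Key) (i w : ℕ) : Prop := if z.lt = true then InL Z z i w else InN Z z i w

lemma in_light {z : Key} {i w : ℕ} (h : z.lt = true) : In Z z i w ↔ InL Z z i w := by
  unfold In; rw [if_pos h]

lemma in_none {z : Key} {i w : ℕ} (h : z.lt = false) : In Z z i w ↔ InN Z z i w := by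
  unfold In; rw [h]; simp

lemma In.nd {z : Key} {i w : ℕ} (h : In Z z i w) : Z.nd i w := by
  cases hz : z.lt with
  | true => exact ((in_light Z hz).1 h).nd
  | false => exact ((in_none Z hz).1 h).nd

lemma In.rt_le {z : Key} {i w : ℕ} (h : In Z z i w) : z.rt ≤ i := by
  cases hz : z.lt with
  | true => exact ((in_light Z hz).1 h).le
  | false => exact ((in_none Z hz).1 h).eq.ge

lemma In.low {z : Key} {i w : ℕ} (h : In Z z i w) : Cutx50.low (Z.cut z.rt) w = z.n0 := by
  cases hz : z.lt with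
  | true => exact ((in_light Z hz).1 h).low
  | false => exact ((in_none Z hz).1 h).low

/-- nodes `(i, n)` -/
abbrev Nod := ℕ × ℕ

open Classical in
/-- the words of the zone `z` at the node `ν` -/
noncomputable def S (z : Key) (ν : Nod) : Finset ℕ :=
  Z.N.divisors.filter fun w => In Z z ν.1 w ∧ low (Z.cut ν.1) w = ν.2

open Classical in
/-- the nodes of the zone -/
noncomputable def Nd (z : Key) : Finset Nod :=
  ((range (Z.top + 1) ×ˢ Z.N.divisors).filter fun x => In Z z x.1 x.2).image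
    fun x => (x.1, low (Z.cut x.1) x.2)

open Classical in
/-- the words of the zone -/
noncomputable def Zone (z : Key) : Finset ℕ :=
  Z.N.divisors.filter fun w => ∃ i, i ≤ Z.top ∧ In Z z i w

open Classical in
/-- a bound for the entries of the keys -/
noncomputable def bd : ℕ := ⌈∑ i ∈ range (Z.top + 1), |Z.θ i|⌉₊ + 2 ^ (Z.top + 1) + Z.N + Z.top + 4

open Classical in
/-- the box of all keys -/
noncomputable def box : Finset Key :=
  ((({true, false} : Finset Bool) ×ˢ range (bd Z + 1) ×ˢ Icc (-(bd Z : ℤ)) (bd Z) ×ˢ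
    range (bd Z + 1) ×ˢ range (bd Z + 1) ×ˢ Icc (0 : ℤ) (bd Z))).image
    fun x => (⟨x.1, x.2.1, x.2.2.1, x.2.2.2.1, x.2.2.2.2.1, x.2.2.2.2.2⟩ : Key)

open Classical in
/-- the zones -/
noncomputable def Zs : Finset Key :=
  (box Z).filter fun z => ∃ i w, i ≤ Z.top ∧ w ∈ Z.N.divisors ∧ In Z z i w

open Classical in
/-- changers: the last node of `w` in a light zone; every word in a none zone -/
noncomputable def A (z : Key) (ν : Nod) : Finset ℕ :=
  (S Z z ν).filter fun w => z.lt = true → ∀ j, j ≤ Z.top → ν.1 < j → ¬ In Z z j w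

/-! ### births, coins -/

open Classical in
/-- last node of the family of `w` at the node index `i` -/
noncomputable def lx (i w : ℕ) : ℕ :=
  Nat.findGreatest (fun j => Z.nd j w ∧ i ≤ j ∧ (j = i ∨ On (Z.θ i) (Z.yy j w) (Z.tt j w))) Z.top

/-- there is a later node -/
def hasNx (i w : ℕ) : Prop := ∃ j, i < j ∧ j ≤ Z.top ∧ Z.nd j w

open Classical in
/-- next node index (`0` if none) -/
noncomputable def nx (i w : ℕ) : ℕ := if h : hasNx Z i w then Nat.find h else 0

/-- last node of the zone -/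
noncomputable def ll (z : Key) (w : ℕ) : ℕ := if z.lt = true then lx Z z.rt w else z.rt

/-- last node of the family at the node after the zone -/
noncomputable def l2 (z : Key) (w : ℕ) : ℕ := lx Z (nx Z (ll Z z w) w) w

/-- the node after the next family exists -/
def hasN2 (z : Key) (w : ℕ) : Prop := hasNx Z (ll Z z w) w ∧ hasNx Z (l2 Z z w) w

/-- the node after the next family -/
noncomputable def n2 (z : Key) (w : ℕ) : ℕ := nx Z (l2 Z z w) w

open Classical in
/-- loss of coins from the root to the node after the next family (`1` if there is none) -/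
noncomputable def Y (z : Key) (w : ℕ) : ℝ :=
  if hasN2 Z z w then 1 - Z.Wp (Z.cut z.rt) (Z.cut (n2 Z z w)) w else 1

/-- coins below the root -/
noncomputable def W (z : Key) (w : ℕ) : ℝ := Z.Wp 0 (Z.cut z.rt) w

/-- depth of a zone -/
noncomputable def dK (z : Key) : ℝ := if z.lt = true then KK z.k z.d else Z.θ z.rt / 5

/-- additive error of the natural hypothesis, `Δ` = degree bound (a power of `u v`) -/
noncomputable def kapV (Δ : ℝ) (z : Key) : ℝ :=
  min 1 (Z.K1 * Δ * (dK Z z ^ (-Z.c) + 1 / (z.rt : ℝ)))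

/-- natural mass of the prefix class of a node -/
noncomputable def g (ν : Nod) : ℝ := nu (low (Z.cut ν.1) Z.N) ν.2

end Crest.Agent.R4C.GWdefVx24
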