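import Crest.Agent.R4C.NHdef_656

/-!
# Row 4, GW section, vector case: partner fraction, static relation, degree (helper350)

A linked pair with low word `(u, v)`: `τ |u y - v y' - m| ≤ c`.

* `link_disp` : for every fraction `f` the displacements satisfy `v d' - u d = O(c)` for the
  partner fraction `f' = (u f - m) / v`.
* `partner_eq` : if `y` has `a/k` with depth `< K` and `y'` has `a'/k'` with depth `< K'`,
  `2 (u + v + c) K K' ≤ τ`, then `v (a'/k') - u (a/k) = - m`.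
* `Cong u v f f'` : `v f' - u f ∈ ℤ`; `Rel` : `Cong` and near displacements.
* `Cong.mul`, `Cong.of_mul` : invariance under `f ↦ n f` (the lineages of the fractions).
* `card_cong_le`, `card_disp_le`, **`card_rel_le`** : the degree.
-/

set_option autoImplicit false

open Finset

namespace Crest.Agent.R4C.GWdegx350

open Crest.Agent.R4C.NHx656

/-! ### partner fraction -/

/-- displacement of the partner -/
lemma link_disp {u v : ℕ} {τ y y' c f : ℝ} {m : ℤ} (hv : 0 < v) (hτ : 0 ≤ τ)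
    (hl : τ * |u * y - v * y' - m| ≤ c) :
    |v * (τ * (y' - (u * f - m) / v)) - u * (τ * (y - f))| ≤ c := by
  have hv0 : (v : ℝ) ≠ 0 := by exact_mod_cast hv.ne'
  have e : v * (τ * (y' - (u * f - m) / v)) - u * (τ * (y - f)) =
      -(τ * (u * y - v * y' - m)) := by
    field_simp
    ring
  rw [e, abs_neg, abs_mul, abs_of_nonneg hτ]
  exact hl

/-- depth of the partner fraction -/
lemma link_depth {u v k : ℕ} {τ y y' c K : ℝ} {a m : ℤ} (hv : 0 < v) (hτ : 0 ≤ τ)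
    (hc : 0 ≤ c) (hk : 0 < k) (hl : τ * |u * y - v * y' - m| ≤ c)
    (h : (k : ℝ) * max 1 (τ * |y - a / k|) < K) :
    ((v * k : ℕ) : ℝ) * max 1 (τ * |y' - ((u * a - m * k : ℤ) : ℝ) / ((v * k : ℕ) : ℝ)|) <
      (u + v + c) * K := by
  have hv0 : (0 : ℝ) < v := by exact_mod_cast hv
  have hk0 : (0 : ℝ) < k := by exact_mod_cast hk
  have hv1 : (1 : ℝ) ≤ v := by exact_mod_cast hv
  have h1 := link_disp (f := (a : ℝ) / k) hv hτ hl
  have e : ((u * a - m * k : ℤ) : ℝ) / ((v * k : ℕ) : ℝ) = (u * ((a : ℝ) / k) - m) / v := by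
    push_cast
    field_simp
  rw [e]
  set f' := (u * ((a : ℝ) / k) - m) / v with hf'
  have h2 : v * (τ * |y' - f'|) ≤ u * (τ * |y - a / k|) + c := by
    have h3 : |v * (τ * (y' - f'))| ≤ |u * (τ * (y - a / k))| + c := by
      have := abs_sub_abs_le_abs_sub (v * (τ * (y' - f'))) (u * (τ * (y - a / k)))
      linarith
    simp only [abs_mul, Nat.abs_cast, abs_of_nonneg hτ] at h3
    exact h3
  have hX : k * 1 ≤ (k : ℝ) * max 1 (τ * |y - a / k|) :=
    mul_le_mul_of_nonneg_left (le_max_left _ _) hk0.le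
  have hY : k * (τ * |y - a / k|) ≤ (k : ℝ) * max 1 (τ * |y - a / k|) :=
    mul_le_mul_of_nonneg_left (le_max_right _ _) hk0.le
  have hkK : (k : ℝ) < K := by linarith
  have hK0 : 0 < K := hk0.trans hkK
  have hu0 : (0 : ℝ) ≤ u := Nat.cast_nonneg _
  rw [mul_max_of_nonneg _ _ (by positivity)]
  refine max_lt ?_ ?_
  · push_cast
    rw [mul_one]
    calc (v : ℝ) * k < v * K := mul_lt_mul_of_pos_left hkK hv0
      _ ≤ (u + v + c) * K := mul_le_mul_of_nonneg_right (by linarith) hK0.le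
  · push_cast
    have h4 : (v : ℝ) * k * (τ * |y' - f'|) = k * (v * (τ * |y' - f'|)) := by ring
    rw [h4]
    calc k * (v * (τ * |y' - f'|)) ≤ k * (u * (τ * |y - a / k|) + c) :=
          mul_le_mul_of_nonneg_left h2 hk0.le
      _ = u * (k * (τ * |y - a / k|)) + c * k := by ring
      _ ≤ u * K + c * K := by
          refine add_le_add (mul_le_mul_of_nonneg_left (hY.trans h.le) hu0)
            (mul_le_mul_of_nonneg_left hkK.le hc)
      _ < (u + v + c) * K := by nlinarith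

/-- **uniqueness of the partner fraction** -/
theorem partner_eq {u v k k' : ℕ} {τ y y' c K K' : ℝ} {a a' m : ℤ} (hv : 0 < v) (hτ : 0 < τ)
    (hc : 0 ≤ c) (hk : 0 < k) (hk' : 0 < k') (hl : τ * |u * y - v * y' - m| ≤ c)
    (h : (k : ℝ) * max 1 (τ * |y - a / k|) < K)
    (h' : (k' : ℝ) * max 1 (τ * |y' - a' / k'|) < K')
    (hKK : 2 * (u + v + c) * K * K' ≤ τ) :
    (v : ℚ) * ((a' : ℚ) / k') - u * ((a : ℚ) / k) = -m := by
  have h1 := link_depth hv hτ.le hc hk hl h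
  have h2 : a' * (v * k : ℕ) = (u * a - m * k) * (k' : ℤ) := by
    refine frac_unique (K := K') (K' := (u + v + c) * K) (y := y') (τ := τ) (τ' := τ) hk'
      (Nat.mul_pos hv hk) hτ hτ h' h1 ?_
    have e : K' * ((u + v + c) * K) * (1 / τ + 1 / τ) = 2 * (u + v + c) * K * K' / τ := by ring
    rw [e, div_le_one hτ]
    exact hKK
  have hv0 : (v : ℚ) ≠ 0 := by exact_mod_cast hv.ne'
  have hk0 : (k : ℚ) ≠ 0 := by exact_mod_cast hk.ne'
  have hk0' : (k' : ℚ) ≠ 0 := by exact_mod_cast hk'.ne'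
  have h3 : (a' : ℚ) * (v * k) = (u * a - m * k) * k' := by exact_mod_cast h2
  field_simp
  linear_combination h3

/-! ### the static relation -/

/-- `v f' ≡ u f` modulo 1 -/
def Cong (u v : ℕ) (f f' : ℚ) : Prop := ∃ m : ℤ, (v : ℚ) * f' - u * f = m

lemma Cong.symm {u v : ℕ} {f f' : ℚ} (h : Cong u v f f') : Cong v u f' f := by
  obtain ⟨m, hm⟩ := h
  exact ⟨-m, by push_cast; linarith⟩

/-- only the classes modulo 1 matter -/
lemma Cong.shift {u v : ℕ} {f f' g g' : ℚ} (h : Cong u v f f') (hf : ∃ z : ℤ, g = f + z)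
    (hf' : ∃ z : ℤ, g' = f' + z) : Cong u v g g' := by
  obtain ⟨m, hm⟩ := h
  obtain ⟨z, rfl⟩ := hf
  obtain ⟨z', rfl⟩ := hf'
  exact ⟨m + v * z' - u * z, by push_cast; linear_combination hm⟩

lemma Cong.fract {u v : ℕ} {f f' : ℚ} (h : Cong u v f f') :
    Cong u v (Int.fract f) (Int.fract f') :=
  h.shift ⟨-⌊f⌋, by push_cast; rw [← sub_eq_add_neg]; rfl⟩
    ⟨-⌊f'⌋, by push_cast; rw [← sub_eq_add_neg]; rfl⟩

/-- downwards along the prefixes -/
lemma Cong.mul {u v : ℕ} {f f' : ℚ} (h : Cong u v f f') (n : ℕ) : Cong u v (n * f) (n * f') := by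
  obtain ⟨m, hm⟩ := h
  exact ⟨n * m, by push_cast; linear_combination (n : ℚ) * hm⟩

/-- upwards along the prefixes -/
lemma Cong.of_mul {u v n : ℕ} {f f' : ℚ} (h : Cong u v (n * f) (n * f')) (hn : 0 < n)
    (h1 : Nat.Coprime n f.den) (h2 : Nat.Coprime n f'.den) : Cong u v f f' := by
  obtain ⟨m, hm⟩ := h
  have hn0 : (n : ℚ) ≠ 0 := by exact_mod_cast hn.ne'
  -- `x = v f' - u f` has `n x ∈ ℤ` and `(den f den f') x ∈ ℤ`
  have e1 : (f.den : ℚ) * f = f.num := by rw [mul_comm]; exact Rat.mul_den_eq_num f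
  have e2 : (f'.den : ℚ) * f' = f'.num := by rw [mul_comm]; exact Rat.mul_den_eq_num f'
  have h3 : ((f.den * f'.den : ℕ) : ℚ) * (v * f' - u * f) =
      ((v * f.den * f'.num - u * f'.den * f.num : ℤ) : ℚ) := by
    push_cast
    linear_combination (v : ℚ) * f.den * e2 - (u : ℚ) * f'.den * e1
  set D := f.den * f'.den with hD
  have hcop : Nat.Coprime n D := h1.mul_right h2
  have h4 : ((D : ℤ) * m) = n * (v * f.den * f'.num - u * f'.den * f.num) := by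
    have : ((D : ℚ) * m) = n * ((v * f.den * f'.num - u * f'.den * f.num : ℤ) : ℚ) := by
      rw [← h3, ← hm]; ring
    exact_mod_cast this
  have h5 : (n : ℤ) ∣ m := by
    have h6 : (n : ℤ) ∣ (D : ℤ) * m := ⟨_, h4⟩
    exact (Int.isCoprime_iff_gcd_eq_one.2 (by exact_mod_cast hcop)).dvd_of_dvd_mul_left h6
  obtain ⟨z, rfl⟩ := h5
  refine ⟨z, ?_⟩
  have h7 : (n : ℚ) * (v * f' - u * f) = n * z := by
    rw [← (by push_cast; ring : (((n * z : ℤ)) : ℚ) = n * z), ← hm]; ring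
  exact mul_left_cancel₀ hn0 h7

/-- near displacements of two cells -/
def Disp (u v : ℕ) (c : ℝ) (i i' : ℤ) : Prop :=
  ∃ d d' : ℝ, (i : ℝ) ≤ d ∧ d < i + 2 ∧ (i' : ℝ) ≤ d' ∧ d' < i' + 2 ∧ |v * d' - u * d| ≤ c

lemma Disp.symm {u v : ℕ} {c : ℝ} {i i' : ℤ} (h : Disp u v c i i') : Disp v u c i' i := by
  obtain ⟨d, d', h1, h2, h3, h4, h5⟩ := h
  exact ⟨d', d, h3, h4, h1, h2, by rw [abs_sub_comm]; exact h5⟩

/-- the relation of two light keys (fraction modulo 1, displacement cell), sizes `≤ A, B` -/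
def Rel (A B : ℕ) (c : ℝ) (x x' : ℚ × ℤ) : Prop :=
  ∃ u v : ℕ, 1 ≤ u ∧ u ≤ A ∧ 1 ≤ v ∧ v ≤ B ∧ Cong u v x.1 x'.1 ∧ Disp u v c x.2 x'.2

lemma Rel.symm {A B : ℕ} {c : ℝ} {x x' : ℚ × ℤ} (h : Rel A B c x x') : Rel B A c x' x := by
  obtain ⟨u, v, h1, h2, h3, h4, h5, h6⟩ := h
  exact ⟨v, u, h3, h4, h1, h2, h5.symm, h6.symm⟩

/-- **(R1)** a linked pair with light members: the keys are related -/
theorem rel_of_link {A B u v k k' : ℕ} {τ y y' c K K' : ℝ} {a a' m i i' : ℤ} (hu1 : 1 ≤ u)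
    (huA : u ≤ A) (hv1 : 1 ≤ v) (hvB : v ≤ B) (hτ : 0 < τ) (hc : 0 ≤ c) (hk : 0 < k) (hk' : 0 < k')
    (hl : τ * |u * y - v * y' - m| ≤ c)
    (h : (k : ℝ) * max 1 (τ * |y - a / k|) < K)
    (h' : (k' : ℝ) * max 1 (τ * |y' - a' / k'|) < K')
    (hKK : 2 * (u + v + c) * K * K' ≤ τ)
    (hi : (i : ℝ) ≤ τ * (y - a / k)) (hi2 : τ * (y - a / k) < i + 2)
    (hi' : (i' : ℝ) ≤ τ * (y' - a' / k')) (hi2' : τ * (y' - a' / k') < i' + 2) :
    Rel A B c ((a : ℚ) / k, i) ((a' : ℚ) / k', i') := by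
  have h1 := partner_eq hv1 hτ hc hk hk' hl h h' hKK
  refine ⟨u, v, hu1, huA, hv1, hvB, ⟨-m, by rw [h1]; push_cast; rfl⟩,
    τ * (y - a / k), τ * (y' - a' / k'), hi, hi2, hi', hi2', ?_⟩
  have h2 := link_disp (f := (a : ℝ) / k) hv1 hτ.le hl
  have hv0 : (v : ℝ) ≠ 0 := by exact_mod_cast (show 0 < v from hv1).ne'
  have h3 : (v : ℝ) * ((a' : ℝ) / k') - u * ((a : ℝ) / k) = -m := by exact_mod_cast h1
  have h4 : (u * ((a : ℝ) / k) - m) / v = (a' : ℝ) / k' := by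
    rw [div_eq_iff hv0]; linear_combination -h3
  rw [h4] at h2
  exact h2

/-! ### the degree -/

/-- at most `v` partner fractions modulo 1 -/
lemma card_cong_le {u v : ℕ} (hv : 1 ≤ v) (f : ℚ) (T : Finset ℚ)
    (hT : ∀ f' ∈ T, 0 ≤ f' ∧ f' < 1 ∧ Cong u v f f') : T.card ≤ v := by
  have hv0 : (0 : ℚ) < v := by exact_mod_cast hv
  -- `f' ↦ v f' - u f ∈ ℤ` lies in a half open interval of length `v`
  have h : ∀ f' ∈ T, ∃ j : ℕ, j < v ∧ (v : ℚ) * f' - u * f = ((⌈-(u * f : ℚ)⌉ + j : ℤ) : ℚ) := by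
    intro f' hf'
    obtain ⟨h1, h2, m, hm⟩ := hT f' hf'
    have h3 : -(u * f : ℚ) ≤ m := by rw [← hm]; nlinarith
    have h4 : (m : ℚ) < -(u * f) + v := by rw [← hm]; nlinarith
    have h5 : ⌈-(u * f : ℚ)⌉ ≤ m := Int.ceil_le.2 h3
    have h6 : m < ⌈-(u * f : ℚ)⌉ + v := by
      have h7 : -(u * f : ℚ) ≤ ⌈-(u * f : ℚ)⌉ := Int.le_ceil _
      have h8 : (m : ℚ) < ((⌈-(u * f : ℚ)⌉ + v : ℤ) : ℚ) := by push_cast; linarith
      exact_mod_cast h8
    refine ⟨(m - ⌈-(u * f : ℚ)⌉).toNat, ?_, ?_⟩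
    · omega
    · rw [hm]
      congr 1
      omega
  choose! j hj1 hj2 using h
  have h1 : T.card ≤ (range v).card := by
    refine card_le_card_of_injOn j (fun f' hf' => ?_) ?_
    · exact mem_coe.2 (mem_range.2 (hj1 f' hf'))
    · intro f1 hf1 f2 hf2 he
      have e1 := hj2 f1 hf1
      have e2 := hj2 f2 hf2
      rw [he] at e1
      have e3 : (v : ℚ) * f1 = v * f2 := by linarith
      exact mul_left_cancel₀ hv0.ne' e3
  simpa using h1

/-- at most `2 u + 2 c + 4` partner cells -/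
lemma card_disp_le {u v : ℕ} (hv : 1 ≤ v) {c : ℕ} (i : ℤ) (T : Finset ℤ)
    (hT : ∀ i' ∈ T, Disp u v c i i') : T.card ≤ 2 * u + 2 * c + 4 := by
  have hv0 : (0 : ℝ) < v := by exact_mod_cast hv
  have hv1 : (1 : ℝ) ≤ v := by exact_mod_cast hv
  set x : ℝ := (u : ℝ) * i / v with hx
  have h : ∀ i' ∈ T, ⌊x⌋ - c - 2 ≤ i' ∧ i' < ⌊x⌋ - c - 2 + (2 * u + 2 * c + 4 : ℕ) := by
    intro i' hi'
    obtain ⟨d, d', h1, h2, h3, h4, h5⟩ := hT i' hi'
    have hu0 : (0 : ℝ) ≤ u := Nat.cast_nonneg _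
    have hc0 : (0 : ℝ) ≤ c := Nat.cast_nonneg _
    rw [abs_le] at h5
    have h6 : (v : ℝ) * d' ≥ u * i - c := by nlinarith
    have h7 : (v : ℝ) * d' ≤ u * i + 2 * u + c := by nlinarith
    have hxv : x * v = u * i := by rw [hx]; field_simp
    have hcv : (c : ℝ) ≤ c * v := by nlinarith
    have huv : (2 * u : ℝ) ≤ 2 * u * v := by nlinarith
    have h8 : x - c ≤ d' := by
      have : (x - c) * v ≤ d' * v := by nlinarith
      exact le_of_mul_le_mul_right this hv0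
    have h9 : d' ≤ x + 2 * u + c := by
      have : d' * v ≤ (x + 2 * u + c) * v := by nlinarith
      exact le_of_mul_le_mul_right this hv0
    have hf1 : (⌊x⌋ : ℝ) ≤ x := Int.floor_le _
    have hf2 : x < ⌊x⌋ + 1 := Int.lt_floor_add_one _
    constructor
    · have : ((⌊x⌋ - c - 2 : ℤ) : ℝ) < i' := by push_cast; linarith
      have : (⌊x⌋ - c - 2 : ℤ) < i' := by exact_mod_cast this
      omega
    · have : (i' : ℝ) < ((⌊x⌋ - c - 2 + (2 * u + 2 * c + 4 : ℕ) : ℤ) : ℝ) := by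
        push_cast; linarith
      exact_mod_cast this
  have h1 : T ⊆ Finset.Ico (⌊x⌋ - c - 2) (⌊x⌋ - c - 2 + (2 * u + 2 * c + 4 : ℕ)) := by
    intro i' hi'
    rw [Finset.mem_Ico]
    exact h i' hi'
  have h2 := card_le_card h1
  rw [Int.card_Ico] at h2
  omega

open Classical in
/-- **(R3) the degree** -/
theorem card_rel_le {A B c : ℕ} (x : ℚ × ℤ) (T : Finset (ℚ × ℤ))
    (hT : ∀ x' ∈ T, 0 ≤ x'.1 ∧ x'.1 < 1 ∧ Rel A B c x x') :
    T.card ≤ A * B * (B * (2 * A + 2 * c + 4)) := by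
  have h1 : T ⊆ ((Finset.Icc 1 A) ×ˢ (Finset.Icc 1 B)).biUnion fun w =>
      T.filter fun x' => Cong w.1 w.2 x.1 x'.1 ∧ Disp w.1 w.2 c x.2 x'.2 := by
    intro x' hx'
    obtain ⟨_, _, u, v, hu1, hu2, hv1, hv2, h3, h4⟩ := hT x' hx'
    exact mem_biUnion.2 ⟨(u, v), mem_product.2 ⟨mem_Icc.2 ⟨hu1, hu2⟩, mem_Icc.2 ⟨hv1, hv2⟩⟩,
      mem_filter.2 ⟨hx', h3, h4⟩⟩
  refine (card_le_card h1).trans ?_
  refine (card_biUnion_le_card_mul _ _ (B * (2 * A + 2 * c + 4)) ?_).trans ?_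
  · rintro ⟨u, v⟩ hw
    rw [mem_product, mem_Icc, mem_Icc] at hw
    obtain ⟨⟨hu1, hu2⟩, hv1, hv2⟩ := hw
    simp only at hu1 hu2 hv1 hv2 ⊢
    set T' := T.filter fun x' => Cong u v x.1 x'.1 ∧ Disp u v c x.2 x'.2 with hT'
    have h2 : T' ⊆ (T'.image Prod.fst) ×ˢ (T'.image Prod.snd) := by
      intro x' hx'
      exact mem_product.2 ⟨mem_image_of_mem _ hx', mem_image_of_mem _ hx'⟩
    have h3 : (T'.image Prod.fst).card ≤ v := by
      refine card_cong_le (u := u) hv1 x.1 _ ?_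
      intro f' hf'
      obtain ⟨x', hx', rfl⟩ := mem_image.1 hf'
      rw [hT', mem_filter] at hx'
      obtain ⟨h4, h5, _⟩ := hT x' hx'.1
      exact ⟨h4, h5, hx'.2.1⟩
    have h4 : (T'.image Prod.snd).card ≤ 2 * u + 2 * c + 4 := by
      refine card_disp_le (u := u) hv1 x.2 _ ?_
      intro i' hi'
      obtain ⟨x', hx', rfl⟩ := mem_image.1 hi'
      rw [hT', mem_filter] at hx'
      exact hx'.2.2
    calc T'.card ≤ _ := card_le_card h2
      _ = (T'.image Prod.fst).card * (T'.image Prod.snd).card := card_product _ _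
      _ ≤ v * (2 * u + 2 * c + 4) := Nat.mul_le_mul h3 h4
      _ ≤ B * (2 * A + 2 * c + 4) := Nat.mul_le_mul hv2 (by omega)
  · rw [card_product]
    simp

/-- the degree, other direction -/
theorem card_rel_le' {A B c : ℕ} (x' : ℚ × ℤ) (T : Finset (ℚ × ℤ))
    (hT : ∀ x ∈ T, 0 ≤ x.1 ∧ x.1 < 1 ∧ Rel A B c x x') :
    T.card ≤ B * A * (A * (2 * B + 2 * c + 4)) :=
  card_rel_le x' T fun x hx => ⟨(hT x hx).1, (hT x hx).2.1, (hT x hx).2.2.symm⟩

end Crest.Agent.R4C.GWdegx350
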