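import Crest.Agent.R4C.GWfin_982
import Crest.Agent.R4C.GWwt_115
import Crest.Agent.R4C.Budget_966

/-!
# Row 4, GW section, scalar case: leaves F1, F3, F4 plugged (helper982)

* `wtP` : leaf F3 (`GWwt_115.weight_inst` + `KyPure_971.B1_off_one`);
* `facts_of_hyp` : `Facts` from the natural hypothesis `HYP` (leaves F1, F4).
-/

set_option autoImplicit false

open Finset

namespace Crest.Agent.R4C.GWfinx982

open Crest.Agent.R4C.Basex935 Crest.Agent.R4C.FLDefx935 Crest.Agent.R4C.BoostCx972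
  Crest.Agent.R4C.CrCoinx935 Crest.Agent.R4C.CrCountx935 Crest.Agent.R4C.Bridgex882
  Crest.Agent.R4C.PrefixMx882 Crest.Agent.R4C.Cutx50 Crest.Agent.R4C.Rulex945
  Crest.Agent.R4C.Sharedx11 Crest.Agent.R4C.Splitx945 Crest.Agent.R4C.PureClsx863
  Crest.Agent.R4C.Spinex946 Crest.Agent.R4C.GWdefx982 Crest.Agent.R4C.GWinstx982
  Crest.Agent.R4C.GWasmx982 Crest.Agent.R4C.KyClsx971 Crest.Agent.R4C.PureL2x232

section wt

variable {M : ℕ} {F : FL M} {cp γ L : ℝ} {A m0 : ℕ} {B : Finset ℕ}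

/-- **leaf F3** -/
theorem wtP (hM : 0 < M) (hL : 0 < L) (hA : 1 ≤ A) (hm0 : 3 ≤ m0) :
    WtP F (ParOf cp A m0 γ L M B) (GWwtx115.C3 * Real.exp 2) := by
  set P := ParOf cp A m0 γ L M B with hP
  intro G0 hG w w' hw hw' hne h hh i hi hky
  have hcut : Monotone P.cut := cut_mono'
  have hcut2 : ∀ i, 2 ^ i ≤ P.cut i := fun i => by
    show 2 ^ i ≤ 2 ^ (A * i)
    exact Nat.pow_le_pow_right (by norm_num) (Nat.le_mul_of_pos_left _ hA)
  have hun : ∀ n, ∃ i, n ≤ P.cut i := fun n => ⟨n, Nat.lt_two_pow_self.le.trans (hcut2 n)⟩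
  have H := pw_of_pr (F := F) (P := P) (σ := 0) (K1 := 1) hM hG hw hw' hcut hun hi
  have hb := mul_dvd hM hG hw
  have hc := mul_dvd hM hG hw'
  have hG0 : 0 < G0 := Nat.pos_of_dvd_of_pos (mem_cores.1 hG).1.1 hM
  have hw0 : 0 < w := Nat.pos_of_dvd_of_pos hw (PM_pos G0)
  have hw0' : 0 < w' := Nat.pos_of_dvd_of_pos hw' (PM_pos G0)
  have hb0 : 0 < G0 * w := Nat.mul_pos hG0 hw0
  have hc0 : 0 < G0 * w' := Nat.mul_pos hG0 hw0'
  have him : 3 ≤ i := hm0.trans hi.far.m0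
  have hgcd : Nat.gcd w w' = low (P.cut i) w := by
    have h1 := H.e
    rw [Nat.gcd_mul_left] at h1
    exact (Nat.eq_of_mul_eq_mul_left hG0 h1).symm
  have hwt := GWwtx115.weight_inst (F := F) (P := P) (σ := 0) (K1 := 1) (c := 1) (A := A) hM hG hw
    hw' (fun m => rfl) hA (by omega) hL (fun i => rfl) (fun b i => min_le_right _ _) hgcd
    H.low.symm hi.far hh
  have hlev : LevT F P i (G0 * w) (G0 * w') h := by
    refine LevT.of_FarA hL ?_ hi.far
    have h1 := hcut2 i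
    have h2 : 2 ^ 3 ≤ 2 ^ i := Nat.pow_le_pow_right (by norm_num) him
    omega
  have hB1 : B1 (G0 * w) (G0 * w') ≤ Real.exp 2 :=
    KyPurex971.B1_off_one hlev hky hb0 hc0 (KyPurex971.t_le_cut hA i) hi.lb hi.lc
  -- positivity
  have hnb : 0 < nu M (G0 * w) := nu_pos hM hb
  have hnw : 0 < nu (PM F G0) w := nu_pos (PM_pos G0) hw
  have hnw' : 0 < nu (PM F G0) w' := nu_pos (PM_pos G0) hw'
  have hn0 : 0 < nu0 F G0 := by
    rw [nu_class hM hG hw] at hnb
    exact pos_of_mul_pos_left hnb hnw.le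
  set g := nu (low (P.cut i) (PM F G0)) (low (P.cut i) w) with hg
  have hgpos : 0 < g := nu_pos (low_pos _ _) (low_dvd _ (PM_pos G0).ne' hw)
  set m := min ((inst F P G0 0 1 1).Wp 0 (P.cut i) w) ((inst F P G0 0 1 1).Wp 0 (P.cut i) w')
    with hm
  have hmn : 0 ≤ m := le_min (Wp_nonneg _ _ _) (Wp_nonneg _ _ _)
  set bo := boostB M (lamR F P) (G0 * w) (G0 * w') h with hbo
  have hwt2 : VR F G0 * (Nat.gcd w w' : ℝ) * g * bo * (nu0 F G0 * (nu (PM F G0) w *
      nu (PM F G0) w' / g)) ≤ GWwtx115.C3 * Real.exp 2 * m * (nu0 F G0 * (nu (PM F G0) w *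
      nu (PM F G0) w' / g)) := by
    have e1 : (Nat.gcd (G0 * w) (G0 * w') : ℝ) * nu M (G0 * w) * nu M (G0 * w') * bo =
        VR F G0 * (Nat.gcd w w' : ℝ) * g * bo * (nu0 F G0 * (nu (PM F G0) w *
          nu (PM F G0) w' / g)) := by
      rw [nu_class hM hG hw, nu_class hM hG hw', Nat.gcd_mul_left, ← mul_nu0 hM hG]
      push_cast
      field_simp
    have e2 : GWwtx115.C3 * B1 (G0 * w) (G0 * w') * (nu0 F G0 * (nu (PM F G0) w *
        nu (PM F G0) w' / g) * m) ≤ GWwtx115.C3 * Real.exp 2 * m * (nu0 F G0 * (nu (PM F G0) w *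
        nu (PM F G0) w' / g)) := by
      have h1 : 0 ≤ GWwtx115.C3 * (nu0 F G0 * (nu (PM F G0) w * nu (PM F G0) w' / g) * m) := by
        have h2 : 0 ≤ GWwtx115.C3 := GWwtx115.C3_pos.le
        positivity
      calc _ = GWwtx115.C3 * (nu0 F G0 * (nu (PM F G0) w * nu (PM F G0) w' / g) * m) *
            B1 (G0 * w) (G0 * w') := by ring
        _ ≤ GWwtx115.C3 * (nu0 F G0 * (nu (PM F G0) w * nu (PM F G0) w' / g) * m) *
            Real.exp 2 := mul_le_mul_of_nonneg_left hB1 h1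
        _ = _ := by ring
    rw [← e1]
    exact le_trans hwt e2
  have hpos : 0 < nu0 F G0 * (nu (PM F G0) w * nu (PM F G0) w' / g) := by positivity
  exact le_of_mul_le_mul_right hwt2 hpos

end wt

/-- **leaves F1 and F4** -/
theorem facts_of_hyp {Z : World} (hZ : Z.Ok) {C1 : ℝ} (h : HYP Z C1) :
    Facts Z C1 (2 + 2 * Z.K1) where
  lam := fun z _ => GWnodex863.lamNd hZ z
  mass := fun _ _ ν _ => GWnodex863.sum_S_le hZ ν
  gpos := fun _ _ _ hν => GWnodex863.g_pos hZ hν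
  budget := fun w _ => by
    classical
    have := Budgetx966.budget_kap hZ w
    convert this using 2
  hyp := h

end Crest.Agent.R4C.GWfinx982
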