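import Crest.Agent.R4C.GWfinW_982
import Crest.Agent.R4C.DomRed_244

/-!
# Row 4, GW section, scalar case: final plug (helper982)

* `HypEv` : the natural hypothesis for every core (leaf F5), with `K1 = 1`;
* `KillEv` : leaf F2;
* **`cls_domP1`** : `HypEv γ → KillEv γ → ClsOK γ (nH γ (clsDomP1 γ))`;
* **`cls_sc`** : the scalar class of `DomRed_244`.
-/

set_option autoImplicit false

open Finset

namespace Crest.Agent.R4C.GWfinx982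

open Crest.Agent.R4C.FLDefx935 Crest.Agent.R4C.Rulex945 Crest.Agent.R4C.PureClsx863
  Crest.Agent.R4C.Spinex946 Crest.Agent.R4C.GWdefx982 Crest.Agent.R4C.GWinstx982
  Crest.Agent.R4C.GWasmx982 Crest.Agent.R4C.KyClsx971

/-- leaf F5 -/
def HypEv (γ : ℝ) : Prop := Ev fun cp η A m0 => ∃ C1 : ℝ, 1 ≤ C1 ∧
  ∀ (L : ℝ) (M : ℕ) (B : Finset ℕ) (F : FL M), Setup η L M B F → ∀ G0 ∈ cores F,
    ∀ σ : ℝ, 0 ≤ σ → (inst F (ParOf cp A m0 γ L M B) G0 σ 1 1).Ok →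
      HYP (inst F (ParOf cp A m0 γ L M B) G0 σ 1 1) C1

/-- leaf F2 -/
def KillEv (γ : ℝ) : Prop := Ev fun cp η A m0 =>
  ∀ (L : ℝ) (M : ℕ) (B : Finset ℕ) (F : FL M), Setup η L M B F →
    KillP F (ParOf cp A m0 γ L M B) B 1

/-- the world of a core satisfies `Ok` -/
lemma ev_ok (γ : ℝ) : Ev fun cp η A m0 =>
    (0 < cp ∧ 0 < η ∧ η < 1 ∧ 1 ≤ A ∧ 3 ≤ m0) ∧
    ∀ (L : ℝ) (M : ℕ) (B : Finset ℕ) (F : FL M), Setup η L M B F → ∀ G0 ∈ cores F,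
      ∀ σ : ℝ, 0 ≤ σ → ∀ K1 : ℝ, 1 ≤ K1 → (inst F (ParOf cp A m0 γ L M B) G0 σ K1 1).Ok := by
  refine (Ev.basic.and (Ev.le_m0 fun cp _ _ => max 3 (5 / cp))).mono ?_
  rintro cp η A m0 ⟨⟨hcp, _, hη, _, hη1, hA, _⟩, hm⟩
  have hm3 : 3 ≤ m0 := by
    have : (3 : ℝ) ≤ m0 := (le_max_left _ _).trans hm
    exact_mod_cast this
  refine ⟨⟨hcp, hη, hη1, hA, hm3⟩, fun L M B F S G0 hG σ hσ K1 hK1 => ?_⟩
  set P := ParOf cp A m0 γ L M B with hP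
  have hcut : Monotone P.cut := cut_mono'
  have hcut2 : ∀ i, 2 ^ i ≤ P.cut i := fun i => by
    show 2 ^ i ≤ 2 ^ (A * i)
    exact Nat.pow_le_pow_right (by norm_num) (Nat.le_mul_of_pos_left _ hA)
  have hE : ∀ i, P.m0 ≤ i → 16 < P.E i := by
    intro i hi
    show (16 : ℝ) < (2 : ℝ) ^ (cp * i)
    have h1 : (m0 : ℝ) ≤ i := by exact_mod_cast hi
    have h2 : 5 / cp ≤ i := ((le_max_right _ _).trans hm).trans h1
    have h3 : 5 ≤ cp * i := by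
      rw [div_le_iff₀ hcp] at h2
      linarith
    calc (16 : ℝ) < 2 ^ (5 : ℝ) := by norm_num
      _ ≤ 2 ^ (cp * i) := Real.rpow_le_rpow_of_exponent_le (by norm_num) h3
  exact inst_ok S.hM hG S.hL hcut hcut2 hm3 (Nat.le_ceil _) hσ hE hK1 one_pos

/-- **the class `CDomP1` has bounded energy** -/
theorem cls_domP1 {γ : ℝ} (h5 : HypEv γ) (h2 : KillEv γ) :
    ClsOK γ (Coverx946.nH γ (clsDomP1 γ)) := by
  refine cls_of_leaves (((ev_ok γ).and (h5.and h2)).mono ?_)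
  rintro cp η A m0 ⟨⟨⟨hcp, hη, hη1, hA, hm0⟩, hok⟩, ⟨C1, hC1, h5⟩, h2⟩
  refine ⟨1, C1, 2 + 2 * 1, GWwtx115.C3 * Real.exp 2, le_rfl, hC1, by norm_num, ?_,
    fun L M B F S => ⟨fun G0 hG σ hσ => ?_, h2 L M B F S, wtP S.hM S.hL hA hm0⟩⟩
  · have := GWwtx115.C3_pos
    positivity
  · have hσ0 : 0 ≤ σ := by
      rcases hσ with rfl | rfl
      · exact le_rfl
      · norm_num
    have hO := hok L M B F S G0 hG σ hσ0 1 le_rfl
    exact facts_of_hyp hO (h5 L M B F S G0 hG σ hσ0 hO)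

/-- **the scalar class of `DomRed_244`** -/
theorem cls_sc {γ : ℝ} (h5 : HypEv γ) (h2 : KillEv γ) : ClsOK γ (DomRedx244.cSc γ) := by
  refine (cls_domP1 h5 h2).mono (Ev.of_forall fun cp η A m0 L M B F _ b _ c _ _ x _ _ hx => ?_)
  obtain ⟨⟨i, hi⟩, hh, _⟩ := hx
  exact ⟨hh, i, hi.far, hi.pure, hi.low_b, hi.low_c⟩

end Crest.Agent.R4C.GWfinx982
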