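import Mathlib

/-!
# Row 4: GW lemma in function form, word-dependent weights, persisters (helper232)

* `carleson_kill` : Carleson embedding on a finite chain of partitions with killing.
* `zone_pot`      : the zone potential (no Doob maximal function).
* `gw_fun`        : the GW theorem.
-/

set_option autoImplicit false
set_option linter.unusedSectionVars false
set_option linter.unusedVariables false

open Finset

namespace Crest.Agent.R4C.GWfunx232

/-- two-term Titu -/
lemma titu_two {x y a b : ℝ} (ha : 0 < a) (hb : 0 < b) :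
    (x + y)^2 / (a + b) ≤ x^2 / a + y^2 / b := by
  rw [div_add_div _ _ ha.ne' hb.ne', div_le_div_iff₀ (by positivity) (by positivity)]
  nlinarith [sq_nonneg (x * b - y * a), mul_pos ha hb]

variable {Ω α : Type*} [DecidableEq Ω] [DecidableEq α]

/-- sum of `h` over the class `k` of `g` in `A` -/
noncomputable def ms (A : Finset Ω) (g : Ω → α) (h : Ω → ℝ) (k : α) : ℝ :=
  ∑ b ∈ A.filter (fun b => g b = k), h b

lemma sum_ms (A A' : Finset Ω) (hA : A' ⊆ A) (f : Ω → α) (h : Ω → ℝ) :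
    ∑ k ∈ A.image f, ms A' f h k = ∑ b ∈ A', h b :=
  Finset.sum_fiberwise_of_maps_to (fun b hb => Finset.mem_image_of_mem f (hA hb)) h

lemma ms_nonneg {A : Finset Ω} {g : Ω → α} {h : Ω → ℝ} (hh : ∀ b ∈ A, 0 ≤ h b) (k : α) :
    0 ≤ ms A g h k := Finset.sum_nonneg fun b hb => hh b (Finset.mem_filter.1 hb).1

lemma ms_pos {A : Finset Ω} {g : Ω → α} {h : Ω → ℝ} (hh : ∀ b ∈ A, 0 < h b) {k : α}
    (hk : k ∈ A.image g) : 0 < ms A g h k := by
  obtain ⟨b, hb, hbk⟩ := Finset.mem_image.1 hk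
  exact Finset.sum_pos (fun c hc => hh c (Finset.mem_filter.1 hc).1)
    ⟨b, Finset.mem_filter.2 ⟨hb, hbk⟩⟩

lemma sum_children (A A' : Finset Ω) (hA : A' ⊆ A) (f g : Ω → α)
    (href : ∀ b ∈ A', ∀ c ∈ A', g b = g c → f b = f c) (Φ : α → ℝ) :
    ∑ k ∈ A.image f, ∑ k' ∈ (A'.filter (fun b => f b = k)).image g, Φ k' =
      ∑ k' ∈ A'.image g, Φ k' := by
  rw [← Finset.sum_biUnion]
  · congr 1
    ext k'
    simp only [Finset.mem_biUnion, Finset.mem_image, Finset.mem_filter]
    constructor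
    · rintro ⟨k, -, b, ⟨hb, -⟩, hbk⟩
      exact ⟨b, hb, hbk⟩
    · rintro ⟨b, hb, hbk⟩
      exact ⟨f b, ⟨b, hA hb, rfl⟩, b, ⟨hb, rfl⟩, hbk⟩
  · intro k _ l _ hkl
    rw [Function.onFun, Finset.disjoint_left]
    intro x hx hy
    obtain ⟨b, hb, hbx⟩ := Finset.mem_image.1 hx
    obtain ⟨c, hc, hcx⟩ := Finset.mem_image.1 hy
    rw [Finset.mem_filter] at hb hc
    apply hkl
    rw [← hb.2, ← hc.2]
    exact href b hb.1 c hc.1 (hbx.trans hcx.symm)

/-- the filter of a child class -/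
lemma filter_child (A' : Finset Ω) (f g : Ω → α)
    (href : ∀ b ∈ A', ∀ c ∈ A', g b = g c → f b = f c) {k k' : α}
    (hk' : k' ∈ (A'.filter (fun b => f b = k)).image g) :
    (A'.filter (fun b => f b = k)).filter (fun b => g b = k') =
      A'.filter (fun b => g b = k') := by
  obtain ⟨b, hb, hbk⟩ := Finset.mem_image.1 hk'
  rw [Finset.mem_filter] at hb
  ext c
  simp only [Finset.mem_filter]
  constructor
  · rintro ⟨⟨h1, h2⟩, h3⟩; exact ⟨h1, h3⟩
  · rintro ⟨h1, h3⟩
    exact ⟨⟨h1, (href c h1 b hb.1 (h3.trans hbk.symm)).trans hb.2⟩, h3⟩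

lemma ms_child (A' : Finset Ω) (f g : Ω → α)
    (href : ∀ b ∈ A', ∀ c ∈ A', g b = g c → f b = f c) (h : Ω → ℝ) {k k' : α}
    (hk' : k' ∈ (A'.filter (fun b => f b = k)).image g) :
    ms (A'.filter (fun b => f b = k)) g h k' = ms A' g h k' := by
  unfold ms
  rw [filter_child A' f g href hk']

/-- one class `S` splits into killed part and children (labels `g`) -/
lemma step_class (S S' : Finset Ω) (hsub : S' ⊆ S) (ν F : Ω → ℝ) (g : Ω → α)
    (hν : ∀ b ∈ S, 0 < ν b) (A : α → ℝ) (hA : ∀ k, 0 ≤ A k) :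
    (∑ b ∈ S, ν b * F b)^2 / (∑ b ∈ S, ν b + ∑ k ∈ S'.image g, A k) ≤
      ∑ b ∈ S \ S', ν b * F b^2 +
      ∑ k ∈ S'.image g, (ms S' g (fun b => ν b * F b) k)^2 / (ms S' g ν k + A k) := by
  classical
  have hνS' : ∀ b ∈ S', 0 < ν b := fun b hb => hν b (hsub hb)
  have hνD : ∀ b ∈ S \ S', 0 < ν b := fun b hb => hν b (Finset.mem_sdiff.1 hb).1
  -- children part
  have hchild : ∀ h : Ω → ℝ, ∑ k ∈ S'.image g, ms S' g h k = ∑ b ∈ S', h b := fun h =>
    sum_ms S' S' (Finset.Subset.refl _) g h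
  have hVpos : ∀ k ∈ S'.image g, 0 < ms S' g ν k + A k := by
    intro k hk
    have h1 := ms_pos hνS' hk
    linarith [hA k]
  have hT1 : (∑ b ∈ S', ν b * F b)^2 / (∑ b ∈ S', ν b + ∑ k ∈ S'.image g, A k) ≤
      ∑ k ∈ S'.image g, (ms S' g (fun b => ν b * F b) k)^2 / (ms S' g ν k + A k) := by
    have := Finset.sq_sum_div_le_sum_sq_div (S'.image g)
      (fun k => ms S' g (fun b => ν b * F b) k) hVpos
    rw [Finset.sum_add_distrib, hchild, hchild] at this
    exact this
  -- killed part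
  have hT2 : (∑ b ∈ S \ S', ν b * F b)^2 ≤ (∑ b ∈ S \ S', ν b) * ∑ b ∈ S \ S', ν b * F b^2 :=
    Finset.sum_sq_le_sum_mul_sum_of_sq_le_mul (S \ S') (fun b hb => (hνD b hb).le)
      (fun b hb => mul_nonneg (hνD b hb).le (sq_nonneg _)) (fun b _ => le_of_eq (by ring))
  have hsplit : ∀ h : Ω → ℝ, ∑ b ∈ S, h b = ∑ b ∈ S \ S', h b + ∑ b ∈ S', h b := fun h =>
    (Finset.sum_sdiff hsub).symm
  have hAs : 0 ≤ ∑ k ∈ S'.image g, A k := Finset.sum_nonneg fun k _ => hA k
  rcases (S \ S').eq_empty_or_nonempty with hD | hD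
  · rw [hD, Finset.sum_empty, zero_add]
    have hSS : S = S' := by
      apply Finset.Subset.antisymm _ hsub
      rw [← Finset.sdiff_eq_empty_iff_subset]; exact hD
    conv_lhs => rw [hSS]
    exact hT1
  · have hVD : 0 < ∑ b ∈ S \ S', ν b := Finset.sum_pos hνD hD
    have hT2' : (∑ b ∈ S \ S', ν b * F b)^2 / (∑ b ∈ S \ S', ν b) ≤
        ∑ b ∈ S \ S', ν b * F b^2 := by
      rw [div_le_iff₀ hVD, mul_comm]; exact hT2
    rcases S'.eq_empty_or_nonempty with hE | hE
    · subst hE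
      rw [Finset.image_empty, Finset.sum_empty, Finset.sum_empty, add_zero, add_zero,
        Finset.sdiff_empty] at *
      exact hT2'
    · have hVS' : 0 < ∑ b ∈ S', ν b := Finset.sum_pos hνS' hE
      rw [hsplit (fun b => ν b * F b), hsplit ν, add_assoc]
      refine (titu_two hVD (by linarith)).trans ?_
      linarith

/-- the scalar step of the Carleson potential -/
lemma carl_scalar {V a C Mp X : ℝ} (hV : 0 < V) (ha : 0 ≤ a) (hC : 0 < C) (hMp : 0 ≤ Mp)
    (hM : a * V + Mp ≤ C * V) (hX : 0 ≤ X) :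
    a * (X / V) ≤ 4 * C * (X / (V + Mp / C) - X / (V + (a * V + Mp) / C)) := by
  have h1 : 0 < V + Mp / C := by positivity
  have h2 : 0 < V + (a * V + Mp) / C := by positivity
  have hb2 : (a * V + Mp) / C ≤ V := by rw [div_le_iff₀ hC]; linarith
  have hb1 : Mp / C ≤ V := by
    rw [div_le_iff₀ hC]; nlinarith [mul_nonneg ha hV.le]
  have e1 : X / (V + Mp / C) - X / (V + (a * V + Mp) / C) =
      X * (a * V / C) / ((V + Mp / C) * (V + (a * V + Mp) / C)) := by
    rw [div_sub_div _ _ h1.ne' h2.ne']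
    congr 1
    field_simp
    ring
  rw [e1]
  have h3 : (V + Mp / C) * (V + (a * V + Mp) / C) ≤ (2 * V) * (2 * V) :=
    mul_le_mul (by linarith) (by linarith) h2.le (by linarith)
  have h4 : X * (a * V / C) / ((2 * V) * (2 * V)) ≤
      X * (a * V / C) / ((V + Mp / C) * (V + (a * V + Mp) / C)) :=
    div_le_div_of_nonneg_left (by positivity) (by positivity) h3
  calc a * (X / V) = 4 * C * (X * (a * V / C) / ((2 * V) * (2 * V))) := by
        field_simp; ring
    _ ≤ _ := mul_le_mul_of_nonneg_left h4 (by positivity)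

/-- **Carleson embedding with killing** (potential form). -/
theorem carleson_pot (ν F : Ω → ℝ) {C : ℝ} (hC : 0 < C) :
    ∀ (J : ℕ) (n : ℕ → Ω → α) (A : ℕ → Finset Ω) (a : ℕ → α → ℝ),
    (∀ j, A (j+1) ⊆ A j) → (∀ b ∈ A 0, 0 < ν b) → (∀ j k, 0 ≤ a j k) →
    (∀ j, ∀ b ∈ A 0, ∀ c ∈ A 0, n (j+1) b = n (j+1) c → n j b = n j c) →
    (∀ j < J, ∀ k, ∑ i ∈ range (J - j), ∑ b ∈ (A (i+j)).filter (fun b => n j b = k),
      ν b * a (i+j) (n (i+j) b) ≤ C * ms (A j) (n j) ν k) →
    ∑ j ∈ range J, ∑ k ∈ (A j).image (n j),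
      a j k * ((ms (A j) (n j) (fun b => ν b * F b) k)^2 / ms (A j) (n j) ν k)
      ≤ 4 * C * (∑ b ∈ A 0, ν b * F b^2 - ∑ k ∈ (A 0).image (n 0),
        (ms (A 0) (n 0) (fun b => ν b * F b) k)^2 / (ms (A 0) (n 0) ν k +
          (∑ i ∈ range J, ∑ b ∈ (A i).filter (fun b => n 0 b = k), ν b * a i (n i b)) / C)) := by
  intro J
  induction J with
  | zero =>
    intro n A a hA hν ha href hcar
    rw [Finset.range_zero, Finset.sum_empty]
    apply mul_nonneg (by positivity)
    rw [sub_nonneg, ← sum_ms (A 0) (A 0) (Finset.Subset.refl _) (n 0) (fun b => ν b * F b^2)]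
    apply Finset.sum_le_sum
    intro k hk
    rw [Finset.sum_empty, zero_div, add_zero]
    have hνk : ∀ b ∈ (A 0).filter (fun b => n 0 b = k), 0 < ν b := fun b hb =>
      hν b (Finset.mem_filter.1 hb).1
    have := step_class ((A 0).filter (fun b => n 0 b = k)) ∅ (Finset.empty_subset _) ν F (n 0)
      hνk (fun _ => 0) (fun _ => le_rfl)
    simpa [ms] using this
  | succ J ih =>
    intro n A a hA hν ha href hcar
    have hν1 : ∀ b ∈ A 1, 0 < ν b := fun b hb => hν b (hA 0 hb)
    have hmono : ∀ i, A i ⊆ A 0 := by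
      intro i
      induction i with
      | zero => exact Finset.Subset.refl _
      | succ i ih' => exact (hA i).trans ih'
    have hmono1 : ∀ i, A (i+1) ⊆ A 1 := by
      intro i
      induction i with
      | zero => exact Finset.Subset.refl _
      | succ i ih' => exact (hA (i+1)).trans ih'
    have IH := ih (fun j => n (j+1)) (fun j => A (j+1)) (fun j => a (j+1)) (fun j => hA (j+1))
      hν1 (fun j k => ha (j+1) k)
      (fun j b hb c hc h => href (j+1) b (hA 0 hb) c (hA 0 hc) h)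
      (fun j hj k => by
        have := hcar (j+1) (by omega) k
        rw [Nat.add_sub_add_right] at this
        exact this)
    rw [Finset.sum_range_succ']
    -- abbreviations
    set Mp : α → ℝ := fun k => ∑ i ∈ range J, ∑ b ∈ (A (i+1)).filter (fun b => n 0 b = k),
      ν b * a (i+1) (n (i+1) b) with hMp
    set M' : α → ℝ := fun k' => ∑ i ∈ range J, ∑ b ∈ (A (i+1)).filter (fun b => n 1 b = k'),
      ν b * a (i+1) (n (i+1) b) with hM'
    have hMp0 : ∀ k, 0 ≤ Mp k := fun k => Finset.sum_nonneg fun i _ =>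
      Finset.sum_nonneg fun b hb => mul_nonneg (hν b (hmono _ (Finset.mem_filter.1 hb).1)).le
        (ha _ _)
    have hM'0 : ∀ k, 0 ≤ M' k := fun k => Finset.sum_nonneg fun i _ =>
      Finset.sum_nonneg fun b hb => mul_nonneg (hν b (hmono _ (Finset.mem_filter.1 hb).1)).le
        (ha _ _)
    have hVpos : ∀ k ∈ (A 0).image (n 0), 0 < ms (A 0) (n 0) ν k := fun k hk => ms_pos hν hk
    have href1 : ∀ b ∈ A 1, ∀ c ∈ A 1, n 1 b = n 1 c → n 0 b = n 0 c := fun b hb c hc h =>
      href 0 b (hA 0 hb) c (hA 0 hc) h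
    -- total future mass
    have hMtot : ∀ k, ∑ i ∈ range (J+1), ∑ b ∈ (A i).filter (fun b => n 0 b = k),
        ν b * a i (n i b) = a 0 k * ms (A 0) (n 0) ν k + Mp k := by
      intro k
      rw [Finset.sum_range_succ', add_comm]
      congr 1
      unfold ms
      rw [Finset.mul_sum]
      apply Finset.sum_congr rfl
      intro b hb
      rw [(Finset.mem_filter.1 hb).2, mul_comm]
    have hbd : ∀ k ∈ (A 0).image (n 0), a 0 k * ms (A 0) (n 0) ν k + Mp k ≤
        C * ms (A 0) (n 0) ν k := by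
      intro k _
      have := hcar 0 (by omega) k
      simp only [Nat.sub_zero, add_zero] at this
      rw [hMtot] at this
      exact this
    -- children masses
    have hM'sum : ∀ k, ∑ k' ∈ ((A 1).filter (fun b => n 0 b = k)).image (n 1), M' k' = Mp k := by
      intro k
      simp only [hM', hMp]
      rw [Finset.sum_comm]
      apply Finset.sum_congr rfl
      intro i _
      have hsub : (A (i+1)).filter (fun b => n 0 b = k) ⊆ (A 1).filter (fun b => n 0 b = k) :=
        Finset.filter_subset_filter _ (hmono1 i)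
      rw [← sum_ms _ _ hsub (n 1)]
      apply Finset.sum_congr rfl
      intro k' hk'
      unfold ms
      apply Finset.sum_congr _ (fun _ _ => rfl)
      obtain ⟨b, hb, hbk⟩ := Finset.mem_image.1 hk'
      rw [Finset.mem_filter] at hb
      ext c
      simp only [Finset.mem_filter]
      constructor
      · rintro ⟨h1, h3⟩
        exact ⟨⟨h1, (href1 c (hmono1 i h1) b hb.1 (h3.trans hbk.symm)).trans hb.2⟩, h3⟩
      · rintro ⟨⟨h1, h2⟩, h3⟩; exact ⟨h1, h3⟩
    -- per class
    have hclass : ∀ k ∈ (A 0).image (n 0),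
        a 0 k * ((ms (A 0) (n 0) (fun b => ν b * F b) k)^2 / ms (A 0) (n 0) ν k) ≤
        4 * C * (∑ b ∈ (A 0 \ A 1).filter (fun b => n 0 b = k), ν b * F b^2 +
          ∑ k' ∈ ((A 1).filter (fun b => n 0 b = k)).image (n 1),
            (ms (A 1) (n 1) (fun b => ν b * F b) k')^2 / (ms (A 1) (n 1) ν k' + M' k' / C) -
          (ms (A 0) (n 0) (fun b => ν b * F b) k)^2 / (ms (A 0) (n 0) ν k +
            (a 0 k * ms (A 0) (n 0) ν k + Mp k) / C)) := by
      intro k hk
      have h1 := carl_scalar (hVpos k hk) (ha 0 k) hC (hMp0 k) (hbd k hk)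
        (sq_nonneg (ms (A 0) (n 0) (fun b => ν b * F b) k))
      refine h1.trans ?_
      apply mul_le_mul_of_nonneg_left _ (by positivity)
      have h2 := step_class ((A 0).filter (fun b => n 0 b = k)) ((A 1).filter (fun b => n 0 b = k))
        (Finset.filter_subset_filter _ (hA 0)) ν F (n 1)
        (fun b hb => hν b (Finset.mem_filter.1 hb).1) (fun k' => M' k' / C)
        (fun k' => div_nonneg (hM'0 k') hC.le)
      rw [← Finset.sum_div, hM'sum k] at h2
      have h3 : ∑ k' ∈ ((A 1).filter (fun b => n 0 b = k)).image (n 1),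
          (ms ((A 1).filter (fun b => n 0 b = k)) (n 1) (fun b => ν b * F b) k')^2 /
            (ms ((A 1).filter (fun b => n 0 b = k)) (n 1) ν k' + M' k' / C) =
          ∑ k' ∈ ((A 1).filter (fun b => n 0 b = k)).image (n 1),
            (ms (A 1) (n 1) (fun b => ν b * F b) k')^2 / (ms (A 1) (n 1) ν k' + M' k' / C) := by
        apply Finset.sum_congr rfl
        intro k' hk'
        rw [ms_child (A 1) (n 0) (n 1) href1 _ hk', ms_child (A 1) (n 0) (n 1) href1 _ hk']
      rw [h3] at h2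
      have h4 : (A 0).filter (fun b => n 0 b = k) \ (A 1).filter (fun b => n 0 b = k) =
          (A 0 \ A 1).filter (fun b => n 0 b = k) := by
        ext c
        simp only [Finset.mem_filter, Finset.mem_sdiff]
        tauto
      rw [h4] at h2
      have h2' : (ms (A 0) (n 0) (fun b => ν b * F b) k)^2 / (ms (A 0) (n 0) ν k + Mp k / C) ≤
          ∑ b ∈ (A 0 \ A 1).filter (fun b => n 0 b = k), ν b * F b^2 +
          ∑ k' ∈ ((A 1).filter (fun b => n 0 b = k)).image (n 1),
            (ms (A 1) (n 1) (fun b => ν b * F b) k')^2 / (ms (A 1) (n 1) ν k' + M' k' / C) := h2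
      linarith
    have hsum := Finset.sum_le_sum hclass
    rw [← Finset.mul_sum, Finset.sum_sub_distrib, Finset.sum_add_distrib,
      sum_children (A 0) (A 1) (hA 0) (n 0) (n 1) href1
        (fun k' => (ms (A 1) (n 1) (fun b => ν b * F b) k')^2 /
          (ms (A 1) (n 1) ν k' + M' k' / C))] at hsum
    have hk1 : ∑ k ∈ (A 0).image (n 0), ∑ b ∈ (A 0 \ A 1).filter (fun b => n 0 b = k),
        ν b * F b^2 = ∑ b ∈ A 0 \ A 1, ν b * F b^2 :=
      sum_ms (A 0) (A 0 \ A 1) Finset.sdiff_subset (n 0) (fun b => ν b * F b^2)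
    rw [hk1] at hsum
    have hk2 : ∑ b ∈ A 0, ν b * F b^2 = ∑ b ∈ A 0 \ A 1, ν b * F b^2 +
        ∑ b ∈ A 1, ν b * F b^2 := (Finset.sum_sdiff (hA 0)).symm
    have hgoal : ∑ k ∈ (A 0).image (n 0),
        (ms (A 0) (n 0) (fun b => ν b * F b) k)^2 / (ms (A 0) (n 0) ν k +
          (∑ i ∈ range (J+1), ∑ b ∈ (A i).filter (fun b => n 0 b = k), ν b * a i (n i b)) / C) =
        ∑ k ∈ (A 0).image (n 0),
        (ms (A 0) (n 0) (fun b => ν b * F b) k)^2 / (ms (A 0) (n 0) ν k +
            (a 0 k * ms (A 0) (n 0) ν k + Mp k) / C) := by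
      apply Finset.sum_congr rfl
      intro k _
      rw [hMtot]
    rw [hgoal, hk2]
    have IH' : ∑ j ∈ range J, ∑ k ∈ (A (j+1)).image (n (j+1)),
      a (j+1) k * ((ms (A (j+1)) (n (j+1)) (fun b => ν b * F b) k)^2 /
        ms (A (j+1)) (n (j+1)) ν k)
      ≤ 4 * C * (∑ b ∈ A 1, ν b * F b^2 - ∑ k ∈ (A 1).image (n 1),
        (ms (A 1) (n 1) (fun b => ν b * F b) k)^2 / (ms (A 1) (n 1) ν k + M' k / C)) := IH
    calc _ ≤ _ := add_le_add IH' hsum
      _ = _ := by ring

/-- **Carleson embedding with killing**. -/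
theorem carleson_kill (ν F : Ω → ℝ) {C : ℝ} (hC : 0 < C) (J : ℕ) (n : ℕ → Ω → α)
    (A : ℕ → Finset Ω) (a : ℕ → α → ℝ)
    (hA : ∀ j, A (j+1) ⊆ A j) (hν : ∀ b ∈ A 0, 0 < ν b) (ha : ∀ j k, 0 ≤ a j k)
    (href : ∀ j, ∀ b ∈ A 0, ∀ c ∈ A 0, n (j+1) b = n (j+1) c → n j b = n j c)
    (hcar : ∀ j < J, ∀ k, ∑ i ∈ range (J - j), ∑ b ∈ (A (i+j)).filter (fun b => n j b = k),
      ν b * a (i+j) (n (i+j) b) ≤ C * ms (A j) (n j) ν k) :
    ∑ j ∈ range J, ∑ k ∈ (A j).image (n j),
      a j k * ((ms (A j) (n j) (fun b => ν b * F b) k)^2 / ms (A j) (n j) ν k)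
      ≤ 4 * C * ∑ b ∈ A 0, ν b * F b^2 := by
  refine (carleson_pot ν F hC J n A a hA hν ha href hcar).trans ?_
  apply mul_le_mul_of_nonneg_left _ (by positivity)
  have hmono : ∀ i, A i ⊆ A 0 := by
    intro i
    induction i with
    | zero => exact Finset.Subset.refl _
    | succ i ih' => exact (hA i).trans ih'
  have : 0 ≤ ∑ k ∈ (A 0).image (n 0),
        (ms (A 0) (n 0) (fun b => ν b * F b) k)^2 / (ms (A 0) (n 0) ν k +
          (∑ i ∈ range J, ∑ b ∈ (A i).filter (fun b => n 0 b = k), ν b * a i (n i b)) / C) := by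
    apply Finset.sum_nonneg
    intro k _
    apply div_nonneg (sq_nonneg _)
    apply add_nonneg (ms_nonneg (fun b hb => (hν b hb).le) k)
    apply div_nonneg _ hC.le
    apply Finset.sum_nonneg
    intro i _
    apply Finset.sum_nonneg
    intro b hb
    exact mul_nonneg (hν b (hmono _ (Finset.mem_filter.1 hb).1)).le (ha _ _)
  linarith

/-! ### Lifting class functions to labels -/

open Classical in
/-- a class function of words read on labels -/
noncomputable def lift (A : Finset Ω) (g : Ω → α) (h : Ω → ℝ) (k : α) : ℝ :=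
  if h' : ∃ b, b ∈ A ∧ g b = k then h h'.choose else 0

lemma lift_eq {A : Finset Ω} {g : Ω → α} {h : Ω → ℝ}
    (hc : ∀ b ∈ A, ∀ c ∈ A, g b = g c → h b = h c) {b : Ω} (hb : b ∈ A) :
    lift A g h (g b) = h b := by
  have h' : ∃ c, c ∈ A ∧ g c = g b := ⟨b, hb, rfl⟩
  unfold lift
  rw [dif_pos h']
  exact hc _ h'.choose_spec.1 _ hb h'.choose_spec.2

lemma sum_lift {A : Finset Ω} {g : Ω → α} {h : Ω → ℝ}
    (hc : ∀ b ∈ A, ∀ c ∈ A, g b = g c → h b = h c) (f : Ω → ℝ) :
    ∑ b ∈ A, f b * h b = ∑ k ∈ A.image g, lift A g h k * ms A g f k := by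
  rw [← sum_ms A A (Finset.Subset.refl _) g (fun b => f b * h b)]
  apply Finset.sum_congr rfl
  intro k hk
  unfold ms
  rw [Finset.mul_sum]
  apply Finset.sum_congr rfl
  intro b hb
  rw [Finset.mem_filter] at hb
  rw [← hb.2, lift_eq hc hb.1, mul_comm]

/-- a zone system: refining labels, changers, alive sets (constant inside a zone), natural
masses `Dm` (arbitrary positive reference masses). -/
structure ZSys (ν F : Ω → ℝ) (D : Finset Ω) (n : ℕ → Ω → α) (A : ℕ → Finset Ω)
    (ch : ℕ → Ω → Prop) [∀ i, DecidablePred (ch i)] (Dm : ℕ → α → ℝ) : Prop where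
  νpos : ∀ b ∈ D, 0 < ν b
  Fnn : ∀ b ∈ D, 0 ≤ F b
  AD : ∀ i, A i ⊆ D
  anti : ∀ i, A (i+1) ⊆ A i
  stay : ∀ i, ∀ b ∈ A i, ¬ ch i b → b ∈ A (i+1)
  ref : ∀ i, ∀ b ∈ D, ∀ c ∈ D, n (i+1) b = n (i+1) c → n i b = n i c
  chr : ∀ i, ∀ b ∈ D, ∀ c ∈ D, n (i+1) b = n (i+1) c → ch i b → ch i c
  Dpos : ∀ i, ∀ b ∈ D, 0 < Dm i (n i b)

section zone

variable (ν F : Ω → ℝ) (D : Finset Ω) (n : ℕ → Ω → α) (A : ℕ → Finset Ω)
  (ch : ℕ → Ω → Prop) [∀ i, DecidablePred (ch i)] (Dm : ℕ → α → ℝ)

/-- the density of `ν F` in the node of `b` at level `i` -/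
noncomputable def uu (i : ℕ) (b : Ω) : ℝ :=
  ms (A i) (n i) (fun c => ν c * F c) (n i b) / Dm i (n i b)

/-- level of the root of the current region of `b` -/
noncomputable def rho : ℕ → Ω → ℕ
  | 0, _ => 0
  | i+1, b => if ch i b ∨ 2 * uu ν F n A Dm (rho i b) b < uu ν F n A Dm (i+1) b
      then i+1 else rho i b

/-- reference density -/
noncomputable def rf (i : ℕ) (b : Ω) : ℝ := uu ν F n A Dm (rho ν F n A ch Dm i b) b

variable {ν F D n A ch Dm}

lemma rho_le (i : ℕ) (b : Ω) : rho ν F n A ch Dm i b ≤ i := by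
  induction i with
  | zero => simp [rho]
  | succ i ih =>
    rw [rho]
    split_ifs
    · exact le_rfl
    · omega

lemma rho_mono (i : ℕ) (b : Ω) : rho ν F n A ch Dm i b ≤ rho ν F n A ch Dm (i+1) b := by
  conv_rhs => rw [rho]
  split_ifs
  · have := rho_le (ν := ν) (F := F) (n := n) (A := A) (ch := ch) (Dm := Dm) i b
    omega
  · exact le_rfl

lemma rho_mono' {i j : ℕ} (hij : i ≤ j) (b : Ω) :
    rho ν F n A ch Dm i b ≤ rho ν F n A ch Dm j b := by
  induction hij with
  | refl => exact le_rfl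
  | step _ ih => exact ih.trans (rho_mono _ b)

lemma rho_change {i : ℕ} {b : Ω} (h : ch i b) : rho ν F n A ch Dm (i+1) b = i+1 := by
  rw [rho, if_pos (Or.inl h)]

/-- if the region root of level `j` is `i` then it is `i` at every level of `[i,j]` -/
lemma rho_between {i j : ℕ} {b : Ω} (h : rho ν F n A ch Dm j b = i) :
    ∀ l, i ≤ l → l ≤ j → rho ν F n A ch Dm l b = i := by
  induction j with
  | zero =>
    intro l h1 h2
    have : l = 0 := by omega
    subst this
    exact h
  | succ j ih =>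
    intro l h1 h2
    rcases Nat.lt_or_ge l (j+1) with h3 | h3
    · rw [rho] at h
      split_ifs at h with hc
      · omega
      · exact ih h l h1 (by omega)
    · have : l = j+1 := by omega
      subst this
      exact h

namespace ZSys

variable (Z : ZSys ν F D n A ch Dm)
include Z

lemma ref_le {i j : ℕ} (hij : i ≤ j) {b c : Ω} (hb : b ∈ D) (hc : c ∈ D) (h : n j b = n j c) :
    n i b = n i c := by
  induction hij with
  | refl => exact h
  | step _ ih => exact ih (Z.ref _ b hb c hc h)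

lemma anti_le {i j : ℕ} (hij : i ≤ j) : A j ⊆ A i := by
  induction hij with
  | refl => exact Finset.Subset.refl _
  | step _ ih => exact (Z.anti _).trans ih

lemma ch_iff {i j : ℕ} (hij : i < j) {b c : Ω} (hb : b ∈ D) (hc : c ∈ D) (h : n j b = n j c) :
    ch i b ↔ ch i c := by
  have h1 := Z.ref_le (Nat.succ_le_of_lt hij) hb hc h
  exact ⟨Z.chr i b hb c hc h1, Z.chr i c hc b hb h1.symm⟩

omit Z in
lemma uu_congr {i : ℕ} {b c : Ω} (h : n i b = n i c) :
    uu ν F n A Dm i b = uu ν F n A Dm i c := by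
  unfold uu
  rw [h]

lemma rho_congr {i : ℕ} {b c : Ω} (hb : b ∈ D) (hc : c ∈ D) (h : n i b = n i c) :
    rho ν F n A ch Dm i b = rho ν F n A ch Dm i c := by
  induction i with
  | zero => simp [rho]
  | succ i ih =>
    have h1 := Z.ref i b hb c hc h
    have h2 := ih h1
    rw [rho, rho, ← h2]
    have h3 : uu ν F n A Dm (rho ν F n A ch Dm i b) b =
        uu ν F n A Dm (rho ν F n A ch Dm i b) c :=
      uu_congr (Z.ref_le (rho_le i b) hb hc h1)
    rw [h3, uu_congr h]
    have h4 := Z.ch_iff (Nat.lt_succ_self i) hb hc h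
    simp only [h4]

lemma rf_congr {i : ℕ} {b c : Ω} (hb : b ∈ D) (hc : c ∈ D) (h : n i b = n i c) :
    rf ν F n A ch Dm i b = rf ν F n A ch Dm i c := by
  unfold rf
  rw [Z.rho_congr hb hc h]
  exact uu_congr (Z.ref_le (rho_le i c) hb hc h)

lemma νF_nonneg {b : Ω} (hb : b ∈ D) : 0 ≤ ν b * F b :=
  mul_nonneg (Z.νpos b hb).le (Z.Fnn b hb)

lemma uu_nonneg (i : ℕ) {b : Ω} (hb : b ∈ D) : 0 ≤ uu ν F n A Dm i b :=
  div_nonneg (ms_nonneg (fun c hc => Z.νF_nonneg (Z.AD i hc)) _) (Z.Dpos i b hb).le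

lemma rf_nonneg (i : ℕ) {b : Ω} (hb : b ∈ D) : 0 ≤ rf ν F n A ch Dm i b :=
  Z.uu_nonneg _ hb

lemma rf_bounds (i : ℕ) {b : Ω} (hb : b ∈ D) :
    uu ν F n A Dm i b ≤ 2 * rf ν F n A ch Dm i b := by
  cases i with
  | zero =>
    unfold rf
    rw [rho]
    have := Z.uu_nonneg 0 hb
    linarith
  | succ i =>
    unfold rf
    rw [rho]
    split_ifs with hc
    · have := Z.uu_nonneg (i+1) hb
      linarith
    · rw [not_or, not_lt] at hc
      exact hc.2

/-- per word: the densities at the region roots of a zone grow geometrically -/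
lemma word_roots {b : Ω} (hb : b ∈ D) (t : ℕ) :
    ∑ i ∈ range (t+1), (if (rho ν F n A ch Dm i b = i ∧ b ∈ A i) then uu ν F n A Dm i b else 0) ≤
    2 * ∑ e ∈ range t, (if (ch e b ∧ b ∈ A e) then rf ν F n A ch Dm e b else 0) +
      (if b ∈ A t then 2 * rf ν F n A ch Dm t b else 0) := by
  induction t with
  | zero =>
    rw [Finset.sum_range_one, Finset.range_zero, Finset.sum_empty, mul_zero, zero_add]
    have h0 : rho ν F n A ch Dm 0 b = 0 := by rw [rho]
    have h1 := Z.uu_nonneg 0 hb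
    by_cases h : b ∈ A 0
    · rw [if_pos ⟨h0, h⟩, if_pos h]
      unfold rf
      rw [h0]
      linarith
    · rw [if_neg (fun h' => h h'.2), if_neg h]
  | succ t ih =>
    rw [Finset.sum_range_succ, Finset.sum_range_succ (fun e => if (ch e b ∧ b ∈ A e) then
      rf ν F n A ch Dm e b else 0)]
    have hrf := Z.rf_nonneg t hb
    have hrf1 := Z.rf_nonneg (t+1) hb
    have huu := Z.uu_nonneg (t+1) hb
    by_cases h1 : b ∈ A (t+1)
    · have h0 : b ∈ A t := Z.anti t h1
      rw [if_pos h1]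
      rw [if_pos h0] at ih
      by_cases hr : rho ν F n A ch Dm (t+1) b = t+1
      · rw [if_pos ⟨hr, h1⟩]
        have e1 : rf ν F n A ch Dm (t+1) b = uu ν F n A Dm (t+1) b := by unfold rf; rw [hr]
        by_cases hc : ch t b
        · rw [if_pos ⟨hc, h0⟩]
          linarith
        · rw [if_neg (fun h' => hc h'.1)]
          have h2 : 2 * rf ν F n A ch Dm t b < uu ν F n A Dm (t+1) b := by
            by_contra hcon
            have : rho ν F n A ch Dm (t+1) b = rho ν F n A ch Dm t b := by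
              rw [rho, if_neg]
              rw [not_or]
              exact ⟨hc, hcon⟩
            have h5 := rho_le (ν := ν) (F := F) (n := n) (A := A) (ch := ch) (Dm := Dm) t b
            omega
          linarith
      · rw [if_neg (fun h' => hr h'.1)]
        have hr2 : rho ν F n A ch Dm (t+1) b = rho ν F n A ch Dm t b := by
          rw [rho]
          rw [rho] at hr
          split_ifs at hr ⊢
          · exact absurd rfl hr
          · rfl
        have e1 : rf ν F n A ch Dm (t+1) b = rf ν F n A ch Dm t b := by unfold rf; rw [hr2]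
        have h3 : 0 ≤ (if (ch t b ∧ b ∈ A t) then rf ν F n A ch Dm t b else 0) := by
          split_ifs
          · exact hrf
          · exact le_rfl
        linarith
    · rw [if_neg (fun h' => h1 h'.2), if_neg h1]
      by_cases h0 : b ∈ A t
      · have hc : ch t b := by
          by_contra hcon
          exact h1 (Z.stay t b h0 hcon)
        rw [if_pos ⟨hc, h0⟩]
        rw [if_pos h0] at ih
        linarith
      · rw [if_neg (fun h' => h0 h'.2)]
        rw [if_neg h0] at ih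
        linarith

/-- charge at level `i` (with reference densities) -/
noncomputable def Chg (ν F : Ω → ℝ) (n : ℕ → Ω → α) (A : ℕ → Finset Ω)
    (ch : ℕ → Ω → Prop) [∀ i, DecidablePred (ch i)] (Dm : ℕ → α → ℝ) (i : ℕ) : ℝ :=
  ∑ b ∈ (A i).filter (fun b => ch i b), ν b * F b * rf ν F n A ch Dm i b

/-- energy of the region roots of level `i` -/
noncomputable def Ert (ν F : Ω → ℝ) (n : ℕ → Ω → α) (A : ℕ → Finset Ω)
    (ch : ℕ → Ω → Prop) [∀ i, DecidablePred (ch i)] (Dm : ℕ → α → ℝ) (i : ℕ) : ℝ :=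
  ∑ b ∈ A i, ν b * F b * (if rho ν F n A ch Dm i b = i then uu ν F n A Dm i b else 0)

lemma Ert_le (J : ℕ) (hall : ∀ b ∈ A J, ch J b) :
    ∑ i ∈ range (J+1), Ert ν F n A ch Dm i ≤ 2 * ∑ i ∈ range (J+1), Chg ν F n A ch Dm i := by
  have e1 : ∀ i, Ert ν F n A ch Dm i = ∑ b ∈ D, ν b * F b *
      (if (rho ν F n A ch Dm i b = i ∧ b ∈ A i) then uu ν F n A Dm i b else 0) := by
    intro i
    unfold Ert
    rw [← Finset.sum_subset (Z.AD i)]
    · apply Finset.sum_congr rfl
      intro b hb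
      simp only [hb, and_true]
    · intro b _ hb
      simp only [hb, and_false, if_false, mul_zero]
  have e2 : ∀ i, Chg ν F n A ch Dm i = ∑ b ∈ D, ν b * F b *
      (if (ch i b ∧ b ∈ A i) then rf ν F n A ch Dm i b else 0) := by
    intro i
    unfold Chg
    have hsub : (A i).filter (fun b => ch i b) ⊆ D := (Finset.filter_subset _ _).trans (Z.AD i)
    rw [← Finset.sum_subset hsub]
    · apply Finset.sum_congr rfl
      intro b hb
      rw [Finset.mem_filter] at hb
      rw [if_pos ⟨hb.2, hb.1⟩]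
    · intro b _ hb
      rw [if_neg, mul_zero]
      exact fun h => hb (Finset.mem_filter.2 ⟨h.2, h.1⟩)
  simp only [e1, e2]
  rw [Finset.sum_comm, Finset.sum_comm (s := range (J+1)), Finset.mul_sum]
  apply Finset.sum_le_sum
  intro b hb
  rw [← Finset.mul_sum, ← Finset.mul_sum]
  have h1 := Z.word_roots hb J
  have h2 : 2 * ∑ e ∈ range J, (if (ch e b ∧ b ∈ A e) then rf ν F n A ch Dm e b else 0) +
      (if b ∈ A J then 2 * rf ν F n A ch Dm J b else 0) =
      2 * ∑ e ∈ range (J+1), (if (ch e b ∧ b ∈ A e) then rf ν F n A ch Dm e b else 0) := by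
    rw [Finset.sum_range_succ, mul_add]
    congr 1
    by_cases h : b ∈ A J
    · rw [if_pos h, if_pos ⟨hall b h, h⟩]
    · rw [if_neg h, if_neg (fun h' => h h'.2), mul_zero]
  rw [h2] at h1
  have := mul_le_mul_of_nonneg_left h1 (Z.νF_nonneg hb)
  linarith

end ZSys

open Classical in
/-- words alive at level `i`, root of their region, which change inside this region -/
noncomputable def QQ (ν F : Ω → ℝ) (n : ℕ → Ω → α) (A : ℕ → Finset Ω)
    (ch : ℕ → Ω → Prop) [∀ i, DecidablePred (ch i)] (Dm : ℕ → α → ℝ) (J i : ℕ) : Finset Ω :=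
  (A i).filter (fun b => ∃ e ∈ range (J+1), rho ν F n A ch Dm e b = i ∧ ch e b)

/-- square function of the regions of level `i` -/
noncomputable def PP (ν F : Ω → ℝ) (n : ℕ → Ω → α) (A : ℕ → Finset Ω)
    (ch : ℕ → Ω → Prop) [∀ i, DecidablePred (ch i)] (Dm : ℕ → α → ℝ) (J i : ℕ) : ℝ :=
  ∑ b ∈ QQ ν F n A ch Dm J i, ν b * F b *
    (ms (QQ ν F n A ch Dm J i) (n i) (fun c => ν c * F c) (n i b) / Dm i (n i b))

lemma mem_QQ {J i : ℕ} {b : Ω} : b ∈ QQ ν F n A ch Dm J i ↔
    b ∈ A i ∧ ∃ e ∈ range (J+1), rho ν F n A ch Dm e b = i ∧ ch e b := by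
  unfold QQ
  simp only [Finset.mem_filter]

lemma QQ_sub (J i : ℕ) : QQ ν F n A ch Dm J i ⊆ A i := fun _ hb => (mem_QQ.1 hb).1

lemma rho_root {J i : ℕ} {b : Ω} (h : b ∈ QQ ν F n A ch Dm J i) :
    rho ν F n A ch Dm i b = i := by
  obtain ⟨-, e, -, h1, -⟩ := mem_QQ.1 h
  have h2 := rho_le (ν := ν) (F := F) (n := n) (A := A) (ch := ch) (Dm := Dm) e b
  rw [h1] at h2
  exact rho_between h1 i le_rfl h2

namespace ZSys

variable (Z : ZSys ν F D n A ch Dm)
include Z

omit Z in
lemma rho_inj {e e' : ℕ} {b : Ω} (he : ch e b) (hlt : e < e')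
    (h : rho ν F n A ch Dm e b = rho ν F n A ch Dm e' b) : False := by
  have h1 := rho_mono' (ν := ν) (F := F) (n := n) (A := A) (ch := ch) (Dm := Dm)
    (Nat.succ_le_of_lt hlt) b
  rw [Nat.succ_eq_add_one, rho_change he] at h1
  have h2 := rho_le (ν := ν) (F := F) (n := n) (A := A) (ch := ch) (Dm := Dm) e b
  omega

lemma laminar {J i l : ℕ} {b c : Ω} (hb : b ∈ QQ ν F n A ch Dm J i)
    (hc : c ∈ QQ ν F n A ch Dm J i) (h : n i b = n i c) (hl : l ≤ i)
    (hbl : b ∈ QQ ν F n A ch Dm J l) : c ∈ QQ ν F n A ch Dm J l := by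
  have hbD := Z.AD _ (QQ_sub _ _ hb)
  have hcD := Z.AD _ (QQ_sub _ _ hc)
  rcases hl.eq_or_lt with h0 | hl
  · rw [h0]; exact hc
  obtain ⟨_, e, he, h1, h2⟩ := mem_QQ.1 hbl
  have hei : e < i := by
    by_contra hcon
    have h3 := rho_mono' (ν := ν) (F := F) (n := n) (A := A) (ch := ch) (Dm := Dm)
      (not_lt.1 hcon) b
    rw [rho_root hb, h1] at h3
    omega
  have hn : n e b = n e c := Z.ref_le hei.le hbD hcD h
  refine mem_QQ.2 ⟨Z.anti_le hl.le (QQ_sub _ _ hc), e, he, ?_, ?_⟩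
  · rw [← Z.rho_congr hbD hcD hn, h1]
  · exact (Z.ch_iff hei hbD hcD h).1 h2

/-- sums over change levels are sums over region roots -/
lemma sum_change_le (J : ℕ) (g : ℕ → Ω → ℝ) (hg : ∀ i, ∀ b ∈ D, 0 ≤ g i b) :
    ∑ e ∈ range (J+1), ∑ b ∈ (A e).filter (fun b => ch e b), g (rho ν F n A ch Dm e b) b ≤
    ∑ i ∈ range (J+1), ∑ b ∈ QQ ν F n A ch Dm J i, g i b := by
  have e1 : ∀ e, ∑ b ∈ (A e).filter (fun b => ch e b), g (rho ν F n A ch Dm e b) b =
      ∑ b ∈ D, if (b ∈ A e ∧ ch e b) then g (rho ν F n A ch Dm e b) b else 0 := by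
    intro e
    rw [← Finset.sum_filter]
    apply Finset.sum_congr _ (fun _ _ => rfl)
    ext b
    simp only [Finset.mem_filter]
    exact ⟨fun h => ⟨Z.AD e h.1, h⟩, fun h => h.2⟩
  have e2 : ∀ i, ∑ b ∈ QQ ν F n A ch Dm J i, g i b =
      ∑ b ∈ D, if b ∈ QQ ν F n A ch Dm J i then g i b else 0 := by
    intro i
    rw [← Finset.sum_filter]
    apply Finset.sum_congr _ (fun _ _ => rfl)
    ext b
    simp only [Finset.mem_filter]
    exact ⟨fun h => ⟨Z.AD i (QQ_sub _ _ h), h⟩, fun h => h.2⟩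
  simp only [e1, e2]
  rw [Finset.sum_comm, Finset.sum_comm (s := range (J+1))]
  apply Finset.sum_le_sum
  intro b hb
  rw [← Finset.sum_filter, ← Finset.sum_filter]
  have hinj : Set.InjOn (fun e => rho ν F n A ch Dm e b)
      ((range (J+1)).filter (fun e => b ∈ A e ∧ ch e b) : Finset ℕ) := by
    intro e he e' he' h
    rw [Finset.mem_coe, Finset.mem_filter] at he he'
    by_contra hne
    rcases lt_or_gt_of_ne hne with h1 | h1
    · exact rho_inj he.2.2 h1 h
    · exact rho_inj he'.2.2 h1 h.symm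
  rw [← Finset.sum_image (f := fun i => g i b) hinj]
  apply Finset.sum_le_sum_of_subset_of_nonneg
  · intro i hi
    obtain ⟨e, he, rfl⟩ := Finset.mem_image.1 hi
    rw [Finset.mem_filter] at he ⊢
    have h2 := rho_le (ν := ν) (F := F) (n := n) (A := A) (ch := ch) (Dm := Dm) e b
    have h3 := Finset.mem_range.1 he.1
    refine ⟨Finset.mem_range.2 (by omega), mem_QQ.2 ⟨Z.anti_le h2 he.2.1, e, he.1, rfl, he.2.2⟩⟩
  · intro i _ _
    exact hg i b hb

/-- sums over region roots of a zone function are sums over changes -/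
lemma sum_QQ_le (J : ℕ) (p : ℕ → Ω → ℝ) (hp : ∀ i, ∀ b ∈ D, 0 ≤ p i b)
    (hconst : ∀ i, ∀ b ∈ D, ¬ ch i b → p (i+1) b = p i b) {b : Ω} (hb : b ∈ D) :
    ∑ i ∈ range (J+1), (if b ∈ QQ ν F n A ch Dm J i then p i b else 0) ≤
    ∑ e ∈ range (J+1), (if (b ∈ A e ∧ ch e b) then p e b else 0) := by
  rw [← Finset.sum_filter, ← Finset.sum_filter]
  -- zone facts
  have hz : ∀ e i, rho ν F n A ch Dm e b = i → i ≤ e → b ∈ A i → b ∈ A e ∧ p e b = p i b := by
    intro e
    induction e with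
    | zero =>
      intro i h1 h2 h3
      have : i = 0 := by omega
      subst this
      exact ⟨h3, rfl⟩
    | succ e ih =>
      intro i h1 h2 h3
      rcases h2.eq_or_lt with h4 | h4
      · subst h4; exact ⟨h3, rfl⟩
      · have h5 : i ≤ e := by omega
        have h6 : rho ν F n A ch Dm e b = i := rho_between h1 e h5 (Nat.le_succ e)
        obtain ⟨h7, h8⟩ := ih i h6 h5 h3
        have h9 : ¬ ch e b := by
          intro hcon
          rw [rho_change hcon] at h1
          omega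
        exact ⟨Z.stay e b h7 h9, by rw [hconst e b hb h9, h8]⟩
  -- the change levels of b
  set T := (range (J+1)).filter (fun e => b ∈ A e ∧ ch e b) with hT
  have himg : (range (J+1)).filter (fun i => b ∈ QQ ν F n A ch Dm J i) ⊆
      T.image (fun e => rho ν F n A ch Dm e b) := by
    intro i hi
    rw [Finset.mem_filter] at hi
    obtain ⟨h1, e, he, h2, h3⟩ := mem_QQ.1 hi.2
    have h4 := rho_le (ν := ν) (F := F) (n := n) (A := A) (ch := ch) (Dm := Dm) e b
    rw [h2] at h4
    obtain ⟨h5, _⟩ := hz e i h2 h4 h1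
    exact Finset.mem_image.2 ⟨e, Finset.mem_filter.2 ⟨he, h5, h3⟩, h2⟩
  calc ∑ i ∈ (range (J+1)).filter (fun i => b ∈ QQ ν F n A ch Dm J i), p i b
      ≤ ∑ i ∈ T.image (fun e => rho ν F n A ch Dm e b), p i b :=
        Finset.sum_le_sum_of_subset_of_nonneg himg (fun i _ _ => hp i b hb)
    _ ≤ ∑ e ∈ T, p (rho ν F n A ch Dm e b) b :=
        Finset.sum_image_le_of_nonneg (fun i _ => hp i b hb)
    _ = ∑ e ∈ T, p e b := by
        apply Finset.sum_congr rfl
        intro e he
        rw [hT, Finset.mem_filter] at he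
        have h4 := rho_le (ν := ν) (F := F) (n := n) (A := A) (ch := ch) (Dm := Dm) e b
        exact (hz e _ rfl h4 (Z.anti_le h4 he.2.1)).2.symm

lemma PP_eq (J i : ℕ) : PP ν F n A ch Dm J i =
    ∑ k ∈ (QQ ν F n A ch Dm J i).image (n i),
      (ms (QQ ν F n A ch Dm J i) (n i) (fun c => ν c * F c) k)^2 / Dm i k := by
  unfold PP
  rw [← sum_ms (QQ ν F n A ch Dm J i) (QQ ν F n A ch Dm J i) (Finset.Subset.refl _) (n i)]
  apply Finset.sum_congr rfl
  intro k _
  conv_lhs => unfold ms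
  conv_rhs => rw [sq, mul_div_assoc]
  conv_rhs => arg 1; unfold ms
  rw [Finset.sum_mul]
  apply Finset.sum_congr rfl
  intro b hb
  have hbk := (Finset.mem_filter.1 hb).2
  unfold ms
  simp only [hbk]

lemma QQ_le (J i : ℕ) : ∑ b ∈ QQ ν F n A ch Dm J i, ν b * F b * uu ν F n A Dm i b ≤
    1/4 * Ert ν F n A ch Dm i + PP ν F n A ch Dm J i := by
  set Q := QQ ν F n A ch Dm J i with hQ
  have hQA : Q ⊆ A i := QQ_sub _ _
  have hcE : ∀ b ∈ A i, ∀ c ∈ A i, n i b = n i c →
      (if rho ν F n A ch Dm i b = i then uu ν F n A Dm i b else 0) =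
      (if rho ν F n A ch Dm i c = i then uu ν F n A Dm i c else 0) := by
    intro b hb c hc h
    rw [uu_congr h, Z.rho_congr (Z.AD _ hb) (Z.AD _ hc) h]
  have h1 : ∑ b ∈ Q, ν b * F b * uu ν F n A Dm i b =
      ∑ k ∈ Q.image (n i), lift Q (n i) (uu ν F n A Dm i) k *
        ms Q (n i) (fun c => ν c * F c) k :=
    sum_lift (fun b _ c _ h => uu_congr h) (fun b => ν b * F b)
  have h2 : ∑ k ∈ Q.image (n i), lift (A i) (n i)
      (fun b => if rho ν F n A ch Dm i b = i then uu ν F n A Dm i b else 0) k *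
        ms (A i) (n i) (fun c => ν c * F c) k ≤ Ert ν F n A ch Dm i := by
    unfold Ert
    rw [sum_lift hcE (fun b => ν b * F b)]
    apply Finset.sum_le_sum_of_subset_of_nonneg (Finset.image_subset_image hQA)
    intro k hk _
    obtain ⟨b, hb, rfl⟩ := Finset.mem_image.1 hk
    rw [lift_eq hcE hb]
    apply mul_nonneg
    · split_ifs
      · exact Z.uu_nonneg i (Z.AD i hb)
      · exact le_rfl
    · exact ms_nonneg (fun c hc => Z.νF_nonneg (Z.AD i hc)) _
  rw [h1, Z.PP_eq]
  calc ∑ k ∈ Q.image (n i), lift Q (n i) (uu ν F n A Dm i) k *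
        ms Q (n i) (fun c => ν c * F c) k
      ≤ ∑ k ∈ Q.image (n i), (1/4 * (lift (A i) (n i)
      (fun b => if rho ν F n A ch Dm i b = i then uu ν F n A Dm i b else 0) k *
        ms (A i) (n i) (fun c => ν c * F c) k) +
        ((ms Q (n i) (fun c => ν c * F c) k)^2 / Dm i k)) := by
        apply Finset.sum_le_sum
        intro k hk
        obtain ⟨b, hb, rfl⟩ := Finset.mem_image.1 hk
        have hbA := hQA hb
        have hD := Z.Dpos i b (Z.AD i hbA)
        rw [lift_eq hcE hbA, if_pos (rho_root hb), lift_eq (fun b _ c _ h => uu_congr h) hb]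
        have hu : ms (A i) (n i) (fun c => ν c * F c) (n i b) =
            uu ν F n A Dm i b * Dm i (n i b) := by
          unfold uu
          rw [div_mul_cancel₀ _ hD.ne']
        rw [hu]
        set u := uu ν F n A Dm i b
        set x := ms Q (n i) (fun c => ν c * F c) (n i b)
        set d := Dm i (n i b)
        have hx : x^2 / d = (x/d)^2 * d := by field_simp
        have hx' : x = (x/d) * d := by field_simp
        rw [hx]
        conv_lhs => rw [hx']
        nlinarith [mul_nonneg (sq_nonneg (u - 2 * (x/d))) hD.le, hD]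
    _ = 1/4 * ∑ k ∈ Q.image (n i), lift (A i) (n i)
      (fun b => if rho ν F n A ch Dm i b = i then uu ν F n A Dm i b else 0) k *
        ms (A i) (n i) (fun c => ν c * F c) k + ∑ k ∈ Q.image (n i),
        (ms Q (n i) (fun c => ν c * F c) k)^2 / Dm i k := by
        rw [Finset.sum_add_distrib, ← Finset.mul_sum]
    _ ≤ _ := by linarith

/-- **zone lemma, all zones** (966, 13, 982): charge `≤ 4 Σ_R b_R²/D_R`. -/
theorem charge_le (J : ℕ) (hall : ∀ b ∈ A J, ch J b) :
    ∑ i ∈ range (J+1), ∑ b ∈ (A i).filter (fun b => ch i b), ν b * F b * uu ν F n A Dm i b ≤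
    4 * ∑ i ∈ range (J+1), PP ν F n A ch Dm J i := by
  have h1 : ∑ i ∈ range (J+1), ∑ b ∈ (A i).filter (fun b => ch i b),
      ν b * F b * uu ν F n A Dm i b ≤ 2 * ∑ i ∈ range (J+1), Chg ν F n A ch Dm i := by
    rw [Finset.mul_sum]
    apply Finset.sum_le_sum
    intro i _
    unfold Chg
    rw [Finset.mul_sum]
    apply Finset.sum_le_sum
    intro b hb
    have hbD := Z.AD i (Finset.mem_filter.1 hb).1
    have := mul_le_mul_of_nonneg_left (Z.rf_bounds i hbD) (Z.νF_nonneg hbD)
    linarith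
  have h2 : ∑ i ∈ range (J+1), Chg ν F n A ch Dm i ≤
      ∑ i ∈ range (J+1), ∑ b ∈ QQ ν F n A ch Dm J i, ν b * F b * uu ν F n A Dm i b :=
    Z.sum_change_le J (fun i b => ν b * F b * uu ν F n A Dm i b)
      (fun i b hb => mul_nonneg (Z.νF_nonneg hb) (Z.uu_nonneg i hb))
  have h3 : ∑ i ∈ range (J+1), ∑ b ∈ QQ ν F n A ch Dm J i, ν b * F b * uu ν F n A Dm i b ≤
      1/4 * ∑ i ∈ range (J+1), Ert ν F n A ch Dm i +
      ∑ i ∈ range (J+1), PP ν F n A ch Dm J i := by
    rw [Finset.mul_sum, ← Finset.sum_add_distrib]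
    exact Finset.sum_le_sum fun i _ => Z.QQ_le J i
  have h4 := Z.Ert_le J hall
  linarith

end ZSys

open Classical in
/-- laminar labels : the list of regions of `b` up to level `i` -/
noncomputable def nt (ν F : Ω → ℝ) (n : ℕ → Ω → α) (A : ℕ → Finset Ω)
    (ch : ℕ → Ω → Prop) [∀ i, DecidablePred (ch i)] (Dm : ℕ → α → ℝ) (J i : ℕ) (b : Ω) :
    ℕ → Option α :=
  fun l => if l ≤ i ∧ b ∈ QQ ν F n A ch Dm J l then some (n l b) else none

lemma nt_mono {J i : ℕ} {b c : Ω} (h : nt ν F n A ch Dm J (i+1) b = nt ν F n A ch Dm J (i+1) c) :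
    nt ν F n A ch Dm J i b = nt ν F n A ch Dm J i c := by
  funext l
  have hl := congrFun h l
  unfold nt at hl ⊢
  by_cases h1 : l ≤ i
  · have h2 : l ≤ i+1 := by omega
    simpa [h1, h2] using hl
  · simp [h1]

lemma nt_self {J i : ℕ} {b c : Ω} (hb : b ∈ QQ ν F n A ch Dm J i)
    (h : nt ν F n A ch Dm J i c = nt ν F n A ch Dm J i b) :
    c ∈ QQ ν F n A ch Dm J i ∧ n i c = n i b := by
  have hl := congrFun h i
  unfold nt at hl
  simp only [le_refl, true_and, hb, if_true] at hl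
  split_ifs at hl with h1
  · exact ⟨h1, Option.some_injective _ hl⟩

namespace ZSys

variable (Z : ZSys ν F D n A ch Dm)
include Z

lemma nt_congr {J i : ℕ} {b c : Ω} (hb : b ∈ QQ ν F n A ch Dm J i)
    (hc : c ∈ QQ ν F n A ch Dm J i) (h : n i b = n i c) :
    nt ν F n A ch Dm J i b = nt ν F n A ch Dm J i c := by
  funext l
  unfold nt
  by_cases h1 : l ≤ i
  · have h2 : b ∈ QQ ν F n A ch Dm J l ↔ c ∈ QQ ν F n A ch Dm J l :=
      ⟨fun h3 => Z.laminar hb hc h h1 h3, fun h3 => Z.laminar hc hb h.symm h1 h3⟩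
    have h3 : n l b = n l c := Z.ref_le h1 (Z.AD _ (QQ_sub _ _ hb)) (Z.AD _ (QQ_sub _ _ hc)) h
    simp only [h2, h3]
  · simp [h1]

lemma nt_mono' {J i j : ℕ} (hij : i ≤ j) {b c : Ω}
    (h : nt ν F n A ch Dm J j b = nt ν F n A ch Dm J j c) :
    nt ν F n A ch Dm J i b = nt ν F n A ch Dm J i c := by
  induction hij with
  | refl => exact h
  | step _ ih => exact ih (nt_mono h)

open Classical in
lemma ms_nt {J i : ℕ} {b : Ω} (hb : b ∈ QQ ν F n A ch Dm J i) (h : Ω → ℝ) :
    ms (A i) (nt ν F n A ch Dm J i) h (nt ν F n A ch Dm J i b) =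
      ms (QQ ν F n A ch Dm J i) (n i) h (n i b) := by
  unfold ms
  apply Finset.sum_congr _ (fun _ _ => rfl)
  ext c
  simp only [Finset.mem_filter]
  constructor
  · rintro ⟨_, h2⟩
    exact nt_self hb h2
  · rintro ⟨h1, h2⟩
    exact ⟨QQ_sub _ _ h1, Z.nt_congr h1 hb h2⟩

open Classical in
lemma ms_nt' {J i : ℕ} {b : Ω} (hb : b ∈ QQ ν F n A ch Dm J i) (h : Ω → ℝ) :
    ms (QQ ν F n A ch Dm J i) (nt ν F n A ch Dm J i) h (nt ν F n A ch Dm J i b) =
      ms (QQ ν F n A ch Dm J i) (n i) h (n i b) := by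
  unfold ms
  apply Finset.sum_congr _ (fun _ _ => rfl)
  ext c
  simp only [Finset.mem_filter]
  constructor
  · rintro ⟨_, h2⟩
    exact nt_self hb h2
  · rintro ⟨h1, h2⟩
    exact ⟨h1, Z.nt_congr h1 hb h2⟩

open Classical in
/-- **Carleson for the regions.** -/
theorem PP_carleson (J : ℕ) (pay : ℕ → Ω → ℝ) (hpay : ∀ i, ∀ b ∈ D, 0 ≤ pay i b)
    {C : ℝ} (hC : 0 < C)
    (hnode : ∀ i, ∀ b ∈ QQ ν F n A ch Dm J i,
      (ms (QQ ν F n A ch Dm J i) (n i) ν (n i b))^2 / Dm i (n i b) ≤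
        ms (QQ ν F n A ch Dm J i) (n i) (fun c => ν c * pay i c) (n i b))
    (htot : ∀ b ∈ D, ∑ i ∈ range (J+1), (if b ∈ QQ ν F n A ch Dm J i then pay i b else 0) ≤ C) :
    ∑ i ∈ range (J+1), PP ν F n A ch Dm J i ≤ 4 * C * ∑ b ∈ A 0, ν b * F b^2 := by
  set Q : ℕ → Finset Ω := QQ ν F n A ch Dm J with hQ
  set N : ℕ → Ω → (ℕ → Option α) := nt ν F n A ch Dm J with hN
  set a : ℕ → (ℕ → Option α) → ℝ := fun i K =>
    |lift (Q i) (N i) (fun b => ms (Q i) (n i) ν (n i b) / Dm i (n i b)) K| with ha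
  have hQA : ∀ i, Q i ⊆ A i := fun i => QQ_sub _ _
  have hQD : ∀ i, Q i ⊆ D := fun i => (hQA i).trans (Z.AD i)
  have hNn : ∀ i, ∀ b ∈ Q i, ∀ c ∈ Q i, N i b = N i c → n i b = n i c := by
    intro i b hb c _ h
    exact ((nt_self hb h.symm).2).symm
  have hVnn : ∀ i, ∀ b ∈ Q i, 0 ≤ ms (Q i) (n i) ν (n i b) / Dm i (n i b) := by
    intro i b hb
    exact div_nonneg (ms_nonneg (fun c hc => (Z.νpos c (hQD i hc)).le) _)
      (Z.Dpos i b (hQD i hb)).le
  have haQ : ∀ i, ∀ b ∈ Q i, a i (N i b) = ms (Q i) (n i) ν (n i b) / Dm i (n i b) := by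
    intro i b hb
    simp only [ha]
    rw [lift_eq _ hb, abs_of_nonneg (hVnn i b hb)]
    intro b' hb' c' hc' h
    rw [hNn i b' hb' c' hc' h]
  have haN : ∀ i, ∀ b ∈ A i, b ∉ Q i → a i (N i b) = 0 := by
    intro i b hb hbQ
    simp only [ha]
    unfold lift
    rw [dif_neg, abs_zero]
    rintro ⟨c, hc, hcb⟩
    exact hbQ (nt_self hc hcb.symm).1
  -- Carleson theorem
  have hcar := carleson_kill ν F hC (J+1) N A a Z.anti (fun b hb => Z.νpos b (Z.AD 0 hb))
    (fun i K => abs_nonneg _) (fun j b _ c _ h => nt_mono h) ?_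
  · refine le_trans ?_ hcar
    apply Finset.sum_le_sum
    intro i _
    -- PP as label sum over N
    have hcPP : ∀ b ∈ Q i, ∀ c ∈ Q i, N i b = N i c →
        ms (Q i) (n i) (fun c => ν c * F c) (n i b) / Dm i (n i b) =
        ms (Q i) (n i) (fun c => ν c * F c) (n i c) / Dm i (n i c) := by
      intro b hb c hc h
      rw [hNn i b hb c hc h]
    have e1 : PP ν F n A ch Dm J i = ∑ K ∈ (Q i).image (N i),
        lift (Q i) (N i) (fun b => ms (Q i) (n i) (fun c => ν c * F c) (n i b) /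
          Dm i (n i b)) K * ms (Q i) (N i) (fun b => ν b * F b) K := by
      unfold PP
      exact sum_lift hcPP (fun b => ν b * F b)
    rw [e1]
    have e2 : ∀ K ∈ (Q i).image (N i),
        lift (Q i) (N i) (fun b => ms (Q i) (n i) (fun c => ν c * F c) (n i b) /
          Dm i (n i b)) K * ms (Q i) (N i) (fun b => ν b * F b) K =
        a i K * ((ms (A i) (N i) (fun b => ν b * F b) K)^2 / ms (A i) (N i) ν K) := by
      intro K hK
      obtain ⟨b, hb, rfl⟩ := Finset.mem_image.1 hK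
      rw [lift_eq hcPP hb, haQ i b hb, Z.ms_nt hb, Z.ms_nt hb, Z.ms_nt' hb]
      have hV : 0 < ms (Q i) (n i) ν (n i b) :=
        ms_pos (fun c hc => Z.νpos c (hQD i hc)) (Finset.mem_image_of_mem _ hb)
      have hD := Z.Dpos i b (hQD i hb)
      change ms (Q i) (n i) (fun c => ν c * F c) (n i b) / Dm i (n i b) *
        ms (Q i) (n i) (fun b => ν b * F b) (n i b) =
        ms (Q i) (n i) ν (n i b) / Dm i (n i b) *
        (ms (Q i) (n i) (fun b => ν b * F b) (n i b) ^ 2 / ms (Q i) (n i) ν (n i b))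
      field_simp
    rw [Finset.sum_congr rfl e2]
    apply Finset.sum_le_sum_of_subset_of_nonneg (Finset.image_subset_image (hQA i))
    intro K _ _
    apply mul_nonneg (abs_nonneg _)
    exact div_nonneg (sq_nonneg _) (ms_nonneg (fun c hc => (Z.νpos c (Z.AD i hc)).le) _)
  · -- the Carleson condition
    intro j hj K
    have hi : ∀ i, ∑ b ∈ (A (i+j)).filter (fun b => N j b = K), ν b * a (i+j) (N (i+j) b) ≤
        ∑ b ∈ (A j).filter (fun b => N j b = K), ν b *
          (if b ∈ Q (i+j) then pay (i+j) b else 0) := by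
      intro i
      set T := (Q (i+j)).filter (fun b => N j b = K) with hT
      have hTQ : T ⊆ Q (i+j) := Finset.filter_subset _ _
      have e3 : ∑ b ∈ (A (i+j)).filter (fun b => N j b = K), ν b * a (i+j) (N (i+j) b) =
          ∑ b ∈ T, ν b * (ms (Q (i+j)) (n (i+j)) ν (n (i+j) b) / Dm (i+j) (n (i+j) b)) := by
        have hTA : T ⊆ (A (i+j)).filter (fun b => N j b = K) :=
          Finset.filter_subset_filter _ (hQA _)
        rw [← Finset.sum_subset hTA]
        · apply Finset.sum_congr rfl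
          intro b hb
          rw [haQ _ b (hTQ hb)]
        · intro b hb hbT
          rw [Finset.mem_filter] at hb
          rw [haN _ b hb.1, mul_zero]
          intro hcon
          exact hbT (Finset.mem_filter.2 ⟨hcon, hb.2⟩)
      have e4 : ∑ b ∈ T, ν b * (ms (Q (i+j)) (n (i+j)) ν (n (i+j) b) /
          Dm (i+j) (n (i+j) b)) ≤ ∑ b ∈ T, ν b * pay (i+j) b := by
        rw [← sum_ms T T (Finset.Subset.refl _) (n (i+j)),
          ← sum_ms T T (Finset.Subset.refl _) (n (i+j))]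
        apply Finset.sum_le_sum
        intro k hk
        obtain ⟨b, hb, rfl⟩ := Finset.mem_image.1 hk
        have hbQ := hTQ hb
        have hmsT : ∀ h : Ω → ℝ, ms T (n (i+j)) h (n (i+j) b) =
            ms (Q (i+j)) (n (i+j)) h (n (i+j) b) := by
          intro h
          unfold ms
          apply Finset.sum_congr _ (fun _ _ => rfl)
          ext c
          simp only [Finset.mem_filter]
          constructor
          · rintro ⟨h1, h3⟩; exact ⟨hTQ h1, h3⟩
          · rintro ⟨h1, h3⟩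
            refine ⟨Finset.mem_filter.2 ⟨h1, ?_⟩, h3⟩
            rw [← (Finset.mem_filter.1 hb).2]
            exact Z.nt_mono' (Nat.le_add_left j i) (Z.nt_congr h1 hbQ h3)
        have e5 : ms T (n (i+j)) (fun b => ν b * (ms (Q (i+j)) (n (i+j)) ν (n (i+j) b) /
            Dm (i+j) (n (i+j) b))) (n (i+j) b) =
            (ms (Q (i+j)) (n (i+j)) ν (n (i+j) b))^2 / Dm (i+j) (n (i+j) b) := by
          rw [hmsT, sq, mul_div_assoc]
          conv_lhs => unfold ms
          conv_rhs => arg 1; unfold ms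
          rw [Finset.sum_mul]
          apply Finset.sum_congr rfl
          intro c hc
          have hck := (Finset.mem_filter.1 hc).2
          unfold ms
          simp only [hck]
        rw [e5, hmsT]
        exact hnode _ b hbQ
      rw [e3]
      refine e4.trans ?_
      have e6 : ∑ b ∈ T, ν b * pay (i+j) b = ∑ b ∈ T, ν b *
          (if b ∈ Q (i+j) then pay (i+j) b else 0) := by
        apply Finset.sum_congr rfl
        intro b hb
        rw [if_pos (hTQ hb)]
      rw [e6]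
      apply Finset.sum_le_sum_of_subset_of_nonneg
      · intro b hb
        rw [Finset.mem_filter] at hb ⊢
        exact ⟨Z.anti_le (Nat.le_add_left j i) (hQA _ hb.1), hb.2⟩
      · intro b hb _
        have hbD := Z.AD j (Finset.mem_filter.1 hb).1
        apply mul_nonneg (Z.νpos b hbD).le
        split_ifs
        · exact hpay _ b hbD
        · exact le_rfl
    calc ∑ i ∈ range (J + 1 - j), ∑ b ∈ (A (i+j)).filter (fun b => N j b = K),
          ν b * a (i+j) (N (i+j) b)
        ≤ ∑ i ∈ range (J + 1 - j), ∑ b ∈ (A j).filter (fun b => N j b = K), ν b *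
          (if b ∈ Q (i+j) then pay (i+j) b else 0) := Finset.sum_le_sum fun i _ => hi i
      _ = ∑ b ∈ (A j).filter (fun b => N j b = K), ν b *
          ∑ i ∈ range (J + 1 - j), (if b ∈ Q (i+j) then pay (i+j) b else 0) := by
          rw [Finset.sum_comm]
          apply Finset.sum_congr rfl
          intro b _
          rw [Finset.mul_sum]
      _ ≤ ∑ b ∈ (A j).filter (fun b => N j b = K), ν b * C := by
          apply Finset.sum_le_sum
          intro b hb
          have hbD := Z.AD j (Finset.mem_filter.1 hb).1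
          apply mul_le_mul_of_nonneg_left _ (Z.νpos b hbD).le
          refine le_trans ?_ (htot b hbD)
          have hinj : Set.InjOn (fun i => i + j) ((range (J+1-j) : Finset ℕ) : Set ℕ) :=
            fun x _ y _ h => Nat.add_right_cancel h
          rw [← Finset.sum_image (f := fun i => if b ∈ Q i then pay i b else 0) hinj]
          apply Finset.sum_le_sum_of_subset_of_nonneg
          · intro i hi
            obtain ⟨i', hi', rfl⟩ := Finset.mem_image.1 hi
            rw [Finset.mem_range] at hi' ⊢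
            omega
          · intro i _ _
            split_ifs
            · exact hpay _ b hbD
            · exact le_rfl
      _ = C * ms (A j) (N j) ν K := by
          rw [← Finset.sum_mul, mul_comm]
          rfl

end ZSys

end zone

/-- one step of the telescoping of the drops -/
lemma drop_step {w w' o y : ℝ} (hy : 0 < y) (hw' : 0 ≤ w') (ho0 : 0 ≤ o) (ho1 : o ≤ 1)
    (hle : w' ≤ o * w) (hyw : y^2 < w) : 1 - o ≤ 2 / y * (√w - √w') := by
  have hw : 0 < w := lt_trans (by positivity) hyw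
  have h1 : √w' ≤ √o * √w := by
    rw [← Real.sqrt_mul ho0]
    exact Real.sqrt_le_sqrt hle
  have h2 : y ≤ √w := by
    rw [← Real.sqrt_sq hy.le]
    exact Real.sqrt_le_sqrt hyw.le
  have h3 : √o ≤ 1 := by
    have := Real.sqrt_le_sqrt ho1
    rwa [Real.sqrt_one] at this
  have h0 : 0 ≤ √o := Real.sqrt_nonneg _
  have h4 : 1 - o = (1 - √o) * (1 + √o) := by
    have := Real.mul_self_sqrt ho0
    nlinarith
  have h5 : 1 - o ≤ 2 * (1 - √o) := by rw [h4]; nlinarith
  have h6 : y * (1 - √o) ≤ √w - √w' := by nlinarith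
  calc 1 - o ≤ 2 * (1 - √o) := h5
    _ = 2 / y * (y * (1 - √o)) := by field_simp
    _ ≤ _ := mul_le_mul_of_nonneg_left h6 (by positivity)

/-- sum of the drops of one word -/
lemma drop_sum (W om : ℕ → ℝ) (ch : ℕ → Prop) [DecidablePred ch] {y : ℝ} (hy : 0 < y) (J : ℕ)
    (hW0 : ∀ i ≤ J, 0 ≤ W i) (hW1 : W 0 ≤ 1) (hWa : ∀ i < J, W (i+1) ≤ W i)
    (ho : ∀ i ≤ J, 0 ≤ om i ∧ om i ≤ 1) (hoW : ∀ i < J, ch i → W (i+1) ≤ om i * W i) :
    ∑ i ∈ range (J+1), (if (y^2 < W i ∧ ch i) then (1 - om i) else 0) ≤ 2 / y := by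
  have h2y : 0 < 2 / y := by positivity
  have h1 : ∀ t ≤ J, ∑ i ∈ range t, (if (y^2 < W i ∧ ch i) then (1 - om i) else 0) ≤
      2 / y * (√(W 0) - √(W t)) := by
    intro t
    induction t with
    | zero => intro _; simp
    | succ t ih =>
      intro ht
      rw [Finset.sum_range_succ]
      have h2 := ih (by omega)
      have h3 : (if (y^2 < W t ∧ ch t) then (1 - om t) else 0) ≤
          2 / y * (√(W t) - √(W (t+1))) := by
        split_ifs with hc
        · exact drop_step hy (hW0 (t+1) ht) (ho t (by omega)).1 (ho t (by omega)).2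
            (hoW t (by omega) hc.2) hc.1
        · apply mul_nonneg h2y.le
          have := Real.sqrt_le_sqrt (hWa t (by omega))
          linarith
      linarith
  rw [Finset.sum_range_succ]
  have h2 := h1 J le_rfl
  have h3 : (if (y^2 < W J ∧ ch J) then (1 - om J) else 0) ≤ 2 / y * √(W J) := by
    split_ifs with hc
    · have := drop_step (w' := 0) hy le_rfl (ho J le_rfl).1 (ho J le_rfl).2
        (mul_nonneg (ho J le_rfl).1 (hW0 J le_rfl)) hc.1
      simpa using this
    · positivity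
  have h4 : √(W 0) ≤ 1 := by
    have := Real.sqrt_le_sqrt hW1
    rwa [Real.sqrt_one] at this
  have h5 : 2 / y * √(W 0) ≤ 2 / y * 1 := mul_le_mul_of_nonneg_left h4 h2y.le
  nlinarith

/-- **node lemma** (413): for a subset `S` of a node. -/
lemma node_lemma (S N : Finset Ω) (hSN : S ⊆ N) (ν Y kap : Ω → ℝ) (hν : ∀ b ∈ N, 0 < ν b)
    (hY : ∀ b ∈ N, 0 ≤ Y b) (hk : ∀ b ∈ N, 0 ≤ kap b) {d C1 : ℝ} (hd : 0 < d)
    (hC1 : 1 ≤ C1) (hNd : ∑ b ∈ N, ν b ≤ d)
    (hyp : ∀ b ∈ N, ∀ s, 0 ≤ s → s ≤ 1 → ∑ c ∈ N.filter (fun c => Y c ≤ s), ν c ≤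
      C1 * (s + kap b) * d) :
    (∑ b ∈ S, ν b)^2 / d ≤ ∑ b ∈ S, ν b * (4 * C1 * Y b + 2 * C1 * kap b) := by
  rcases S.eq_empty_or_nonempty with hS | hS
  · subst hS; simp
  set V := ∑ b ∈ S, ν b with hV
  have hVpos : 0 < V := Finset.sum_pos (fun b hb => hν b (hSN hb)) hS
  have hVd : V ≤ d := (Finset.sum_le_sum_of_subset_of_nonneg hSN
    (fun b hb _ => (hν b hb).le)).trans hNd
  set O := ∑ b ∈ S, ν b * Y b with hO
  have hO0 : 0 ≤ O := Finset.sum_nonneg fun b hb =>
    mul_nonneg (hν b (hSN hb)).le (hY b (hSN hb))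
  have key : ∀ b ∈ S, V^2 / d ≤ 4 * C1 * O + 2 * C1 * kap b * V := by
    intro b hb
    have hbN := hSN hb
    have hkb := hk b hbN
    set s := V / (2 * C1 * d) - kap b with hs
    have hCd : 0 < 2 * C1 * d := by positivity
    rcases lt_or_ge s 0 with hs0 | hs0
    · have h1 : V / (2 * C1 * d) < kap b := by linarith
      rw [div_lt_iff₀ hCd] at h1
      have h2 : V^2 / d ≤ 2 * C1 * kap b * V := by
        rw [div_le_iff₀ hd]
        nlinarith
      have : 0 ≤ 4 * C1 * O := by positivity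
      linarith
    · have hs1 : s ≤ 1 := by
        have h1 : V / (2 * C1 * d) ≤ 1 := by
          rw [div_le_iff₀ hCd]
          nlinarith
        linarith
      have h1 := hyp b hbN s hs0 hs1
      have h2 : C1 * (s + kap b) * d = V / 2 := by
        rw [hs]; field_simp; ring
      rw [h2] at h1
      -- mass of S with Y > s
      have h3 : ∑ c ∈ S.filter (fun c => Y c ≤ s), ν c ≤ V / 2 := by
        refine le_trans ?_ h1
        exact Finset.sum_le_sum_of_subset_of_nonneg (Finset.filter_subset_filter _ hSN)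
          (fun c hc _ => (hν c (Finset.mem_filter.1 hc).1).le)
      have h4 : V = ∑ c ∈ S.filter (fun c => Y c ≤ s), ν c +
          ∑ c ∈ S.filter (fun c => ¬ (Y c ≤ s)), ν c :=
        (Finset.sum_filter_add_sum_filter_not S _ _).symm
      have h5 : s * ∑ c ∈ S.filter (fun c => ¬ (Y c ≤ s)), ν c ≤ O := by
        rw [Finset.mul_sum, hO]
        calc ∑ c ∈ S.filter (fun c => ¬ (Y c ≤ s)), s * ν c
            ≤ ∑ c ∈ S.filter (fun c => ¬ (Y c ≤ s)), ν c * Y c := by
              apply Finset.sum_le_sum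
              intro c hc
              rw [Finset.mem_filter] at hc
              have := hν c (hSN hc.1)
              nlinarith [hc.2]
          _ ≤ _ := Finset.sum_le_sum_of_subset_of_nonneg (Finset.filter_subset _ _)
              (fun c hc _ => mul_nonneg (hν c (hSN hc)).le (hY c (hSN hc)))
      have h6 : s * (V / 2) ≤ O := by
        refine le_trans ?_ h5
        apply mul_le_mul_of_nonneg_left _ hs0
        linarith
      have h7 : s = V / (2 * C1 * d) - kap b := rfl
      have h8 : V^2 / d = 4 * C1 * ((s + kap b) * (V / 2)) := by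
        rw [h7]; field_simp; ring
      rw [h8]
      nlinarith [mul_le_mul_of_nonneg_left h6 (by linarith : (0:ℝ) ≤ 4 * C1)]
  have h9 : ∑ b ∈ S, ν b * (V^2 / d) ≤ ∑ b ∈ S, ν b * (4 * C1 * O + 2 * C1 * kap b * V) :=
    Finset.sum_le_sum fun b hb => mul_le_mul_of_nonneg_left (key b hb) (hν b (hSN hb)).le
  rw [← Finset.sum_mul, ← hV] at h9
  have h10 : ∑ b ∈ S, ν b * (4 * C1 * O + 2 * C1 * kap b * V) =
      V * (4 * C1 * O + ∑ b ∈ S, ν b * (2 * C1 * kap b)) := by
    have h12 : ∀ b, ν b * (4 * C1 * O + 2 * C1 * kap b * V) =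
        ν b * (4 * C1 * O) + V * (ν b * (2 * C1 * kap b)) := fun b => by ring
    simp only [h12]
    rw [Finset.sum_add_distrib, ← Finset.sum_mul, ← Finset.mul_sum, ← hV]
    ring
  rw [h10] at h9
  have h11 := le_of_mul_le_mul_left h9 hVpos
  refine h11.trans (le_of_eq ?_)
  rw [hO, Finset.mul_sum, ← Finset.sum_add_distrib]
  apply Finset.sum_congr rfl
  intro b _
  ring

/-- two-zone payments: `z` own drop, `zn` drop of the next zone. -/
lemma drop_sum_two (W z zn : ℕ → ℝ) (ch : ℕ → Prop) [DecidablePred ch] {y : ℝ} (hy : 0 < y)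
    (J : ℕ) (hW0 : ∀ i ≤ J, 0 ≤ W i) (hW1 : W 0 ≤ 1) (hWa : ∀ i < J, W (i+1) ≤ W i)
    (hWst : ∀ i < J, ¬ ch i → W (i+1) = W i)
    (hz : ∀ i ≤ J, 0 ≤ z i ∧ z i ≤ 1) (hzst : ∀ i < J, ¬ ch i → z (i+1) = z i)
    (hzW : ∀ i < J, ch i → W (i+1) ≤ (1 - z i) * W i)
    (hzn : ∀ i ≤ J, 0 ≤ zn i ∧ zn i ≤ 1) (hznz : ∀ i < J, ch i → zn i ≤ z (i+1)) :
    ∑ i ∈ range (J+1), (if (y^2 < W i ∧ ch i) then (z i + zn i) else 0) ≤ 6 / y := by
  have h1 := drop_sum W (fun i => 1 - z i) ch hy J hW0 hW1 hWa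
    (fun i hi => ⟨by linarith [(hz i hi).2], by linarith [(hz i hi).1]⟩) hzW
  have h1' : ∑ i ∈ range (J+1), (if (y^2 < W i ∧ ch i) then z i else 0) ≤ 2 / y := by
    refine le_trans (le_of_eq ?_) h1
    apply Finset.sum_congr rfl
    intro i _
    split_ifs
    · ring
    · rfl
  have h2 : ∀ t ≤ J, ∑ i ∈ range t, (if (y^2 < W i ∧ ch i) then zn i else 0) ≤
      ∑ i ∈ range t, (if (y^2 < W i ∧ ch i) then z i else 0) +
      (if y^2 < W t then z t else 1) := by
    intro t
    induction t with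
    | zero =>
      intro _
      simp only [Finset.range_zero, Finset.sum_empty, zero_add]
      split_ifs
      · exact (hz 0 (Nat.zero_le _)).1
      · exact zero_le_one
    | succ t ih =>
      intro ht
      rw [Finset.sum_range_succ, Finset.sum_range_succ]
      have h3 := ih (by omega)
      have hzt := hz (t+1) ht
      by_cases hw : y^2 < W t
      · rw [if_pos hw] at h3
        by_cases hc : ch t
        · rw [if_pos ⟨hw, hc⟩, if_pos ⟨hw, hc⟩]
          have h4 := hznz t (by omega) hc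
          by_cases hw1 : y^2 < W (t+1)
          · rw [if_pos hw1]; linarith
          · rw [if_neg hw1]; linarith
        · rw [if_neg (fun h => hc h.2), if_neg (fun h => hc h.2), hWst t (by omega) hc,
            if_pos hw, hzst t (by omega) hc]
          linarith
      · rw [if_neg hw] at h3
        have hw1 : ¬ y^2 < W (t+1) := fun h => hw (lt_of_lt_of_le h (hWa t (by omega)))
        rw [if_neg (fun h => hw h.1), if_neg (fun h => hw h.1), if_neg hw1]
        linarith
  rcases le_or_gt 1 y with hy1 | hy1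
  · -- nothing is alive
    have hdead : ∀ i ≤ J, ¬ y^2 < W i := by
      intro i
      induction i with
      | zero => intro _ h; nlinarith
      | succ i ih => intro hi h; exact ih (by omega) (lt_of_lt_of_le h (hWa i (by omega)))
    have : ∑ i ∈ range (J+1), (if (y^2 < W i ∧ ch i) then (z i + zn i) else 0) = 0 := by
      apply Finset.sum_eq_zero
      intro i hi
      rw [if_neg]
      exact fun h => hdead i (Nat.lt_succ_iff.1 (Finset.mem_range.1 hi)) h.1
    rw [this]
    positivity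
  · have h3 := h2 J le_rfl
    have h4 : (if y^2 < W J then z J else (1:ℝ)) ≤ 1 := by
      split_ifs
      · exact (hz J le_rfl).2
      · exact le_rfl
    have h5 : ∑ i ∈ range J, (if (y^2 < W i ∧ ch i) then z i else 0) ≤
        ∑ i ∈ range (J+1), (if (y^2 < W i ∧ ch i) then z i else 0) := by
      rw [Finset.sum_range_succ]
      have : 0 ≤ (if (y^2 < W J ∧ ch J) then z J else 0) := by
        split_ifs
        · exact (hz J le_rfl).1
        · exact le_rfl
      linarith
    have h6 : ∑ i ∈ range (J+1), (if (y^2 < W i ∧ ch i) then zn i else 0) ≤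
        ∑ i ∈ range J, (if (y^2 < W i ∧ ch i) then zn i else 0) + 1 := by
      rw [Finset.sum_range_succ]
      have : (if (y^2 < W J ∧ ch J) then zn J else 0) ≤ 1 := by
        split_ifs
        · exact (hzn J le_rfl).2
        · exact zero_le_one
      linarith
    have h7 : ∑ i ∈ range (J+1), (if (y^2 < W i ∧ ch i) then (z i + zn i) else 0) =
        ∑ i ∈ range (J+1), (if (y^2 < W i ∧ ch i) then z i else 0) +
        ∑ i ∈ range (J+1), (if (y^2 < W i ∧ ch i) then zn i else 0) := by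
      rw [← Finset.sum_add_distrib]
      apply Finset.sum_congr rfl
      intro i _
      split_ifs
      · rfl
      · ring
    have h8 : 1 ≤ 1 / y := by rw [le_div_iff₀ hy]; linarith
    rw [h7]
    have h9 : (6:ℝ) / y = 2 / y + 2 / y + 2 * (1 / y) := by ring
    rw [h9]
    linarith

/-- data of the GW theorem on a finite set `D` of words, levels `0..J`
(at the last level `J` every word counts as a changer). -/
structure GWData (ν : Ω → ℝ) (D : Finset Ω) (n : ℕ → Ω → α) (ch : ℕ → Ω → Prop)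
    [∀ i, DecidablePred (ch i)] (Dm : ℕ → α → ℝ) (W Y kap : ℕ → Ω → ℝ) (J : ℕ)
    (C1 cY K : ℝ) : Prop where
  νpos : ∀ b ∈ D, 0 < ν b
  /-- labels refine -/
  ref : ∀ i < J, ∀ b ∈ D, ∀ c ∈ D, n (i+1) b = n (i+1) c → n i b = n i c
  /-- "changes at level `i`" is decided by the next label -/
  chr : ∀ i < J, ∀ b ∈ D, ∀ c ∈ D, n (i+1) b = n (i+1) c → ch i b → ch i c
  /-- reference masses (prefix masses), arbitrary, at least the mass of the node -/
  Dpos : ∀ i ≤ J, ∀ b ∈ D, 0 < Dm i (n i b)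
  nodeD : ∀ i ≤ J, ∀ b ∈ D, ∑ c ∈ D.filter (fun c => n i c = n i b), ν c ≤ Dm i (n i b)
  /-- weights, constant along zones -/
  W1 : ∀ b ∈ D, W 0 b ≤ 1
  Wa : ∀ i < J, ∀ b ∈ D, W (i+1) b ≤ W i b
  Wst : ∀ i < J, ∀ b ∈ D, ¬ ch i b → W (i+1) b = W i b
  /-- payments, constant along zones, with controlled total per word -/
  Y0 : ∀ i ≤ J, ∀ b ∈ D, 0 ≤ Y i b
  Yst : ∀ i < J, ∀ b ∈ D, ¬ ch i b → Y (i+1) b = Y i b
  Ytot : ∀ b ∈ D, ∀ y : ℝ, 0 < y → ∑ i ∈ range (J+1),
    (if (y^2 < W i b ∧ (J ≤ i ∨ ch i b)) then Y i b else 0) ≤ cY / y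
  cY0 : 0 ≤ cY
  /-- errors, constant along zones, summable over the zones of a word -/
  kap0 : ∀ i ≤ J, ∀ b ∈ D, 0 ≤ kap i b
  kapst : ∀ i < J, ∀ b ∈ D, ¬ ch i b → kap (i+1) b = kap i b
  kapK : ∀ b ∈ D, ∑ i ∈ range J, (if ch i b then kap i b else 0) + kap J b ≤ K
  K0 : 0 ≤ K
  C1ge : 1 ≤ C1
  /-- the natural hypothesis, at every node, relative to the reference mass -/
  hyp : ∀ i ≤ J, ∀ b ∈ D, ∀ s, 0 ≤ s → s ≤ 1 →
    ∑ c ∈ (D.filter (fun c => n i c = n i b)).filter (fun c => Y i c ≤ s), ν c ≤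
      C1 * (s + kap i b) * Dm i (n i b)

section gw

variable {ν F : Ω → ℝ} {D : Finset Ω} {n : ℕ → Ω → α} {ch : ℕ → Ω → Prop}
  [∀ i, DecidablePred (ch i)] {Dm : ℕ → α → ℝ} {W Y kap : ℕ → Ω → ℝ} {J : ℕ} {C1 cY K : ℝ}

/-- one threshold `x = y^2` -/
theorem gw_level (G : GWData ν D n ch Dm W Y kap J C1 cY K) (hF : ∀ b ∈ D, 0 ≤ F b) {y : ℝ}
    (hy : 0 < y) :
    ∑ i ∈ range (J+1), ∑ c ∈ D.filter (fun c => (J ≤ i ∨ ch i c) ∧ y^2 < W i c),
      ν c * F c * ((∑ b ∈ D.filter (fun b => n i b = n i c ∧ y^2 < W i b), ν b * F b) /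
        Dm i (n i c)) ≤ 16 * (4 * C1 * (cY / y) + 2 * C1 * K) * ∑ b ∈ D, ν b * F b^2 := by
  classical
  have hC1 : 0 < C1 := by linarith [G.C1ge]
  have hK0 := G.K0
  have hcY := G.cY0
  -- extended sequences
  set n' : ℕ → Ω → α := fun i => n (min i J) with hn'
  set ch' : ℕ → Ω → Prop := fun i b => J ≤ i ∨ ch i b with hch'
  set A : ℕ → Finset Ω := fun i => D.filter (fun b => y^2 < W (min i J) b) with hA
  set Dm' : ℕ → α → ℝ := fun i => Dm (min i J) with hDm'
  have Z : ZSys ν F D n' A ch' Dm' := by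
    refine ⟨G.νpos, hF, fun i => Finset.filter_subset _ _, ?_, ?_, ?_, ?_, ?_⟩
    · intro i b hb
      simp only [hA, Finset.mem_filter] at hb ⊢
      refine ⟨hb.1, lt_of_lt_of_le hb.2 ?_⟩
      rcases Nat.lt_or_ge i J with h | h
      · rw [min_eq_left h.le, min_eq_left (Nat.succ_le_of_lt h)]
        exact G.Wa i h b hb.1
      · rw [min_eq_right h, min_eq_right (Nat.le_succ_of_le h)]
    · intro i b hb hnc
      simp only [hA, Finset.mem_filter] at hb ⊢
      simp only [hch', not_or, not_le] at hnc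
      have h := hnc.1
      refine ⟨hb.1, ?_⟩
      rw [min_eq_left (Nat.succ_le_of_lt h), G.Wst i h b hb.1 hnc.2]
      rw [min_eq_left h.le] at hb
      exact hb.2
    · intro i b hb c hc h
      rcases Nat.lt_or_ge i J with h1 | h1
      · simp only [hn'] at h ⊢
        rw [min_eq_left h1.le]
        rw [min_eq_left (Nat.succ_le_of_lt h1)] at h
        exact G.ref i h1 b hb c hc h
      · simp only [hn'] at h ⊢
        rw [min_eq_right h1]
        rw [min_eq_right (Nat.le_succ_of_le h1)] at h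
        exact h
    · intro i b hb c hc h hcb
      rcases Nat.lt_or_ge i J with h1 | h1
      · simp only [hn'] at h
        rw [min_eq_left (Nat.succ_le_of_lt h1)] at h
        rcases hcb with h2 | h2
        · omega
        · exact Or.inr (G.chr i h1 b hb c hc h h2)
      · exact Or.inl h1
    · intro i b hb
      exact G.Dpos _ (min_le_right _ _) b hb
  have hall : ∀ b ∈ A J, ch' J b := fun b _ => Or.inl le_rfl
  have h1 := Z.charge_le J hall
  -- payment
  set pay : ℕ → Ω → ℝ := fun i b => 4 * C1 * Y (min i J) b + 2 * C1 * kap (min i J) b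
    with hpay
  have hpay0 : ∀ i, ∀ b ∈ D, 0 ≤ pay i b := by
    intro i b hb
    have h2 := G.Y0 _ (min_le_right i J) b hb
    have h3 := G.kap0 _ (min_le_right i J) b hb
    simp only [hpay]
    positivity
  have hCx0 : 0 ≤ 4 * C1 * (cY / y) + 2 * C1 * K := by positivity
  -- any C > C_x
  have hmain : ∀ ε : ℝ, 0 < ε → ∑ i ∈ range (J+1), PP ν F n' A ch' Dm' J i ≤
      4 * (4 * C1 * (cY / y) + 2 * C1 * K + ε) * ∑ b ∈ A 0, ν b * F b^2 := by
    intro ε hε
    apply Z.PP_carleson J pay hpay0 (by linarith)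
    · -- node lemma
      intro i b hb
      have hbD := Z.AD i (QQ_sub _ _ hb)
      have hSN : (QQ ν F n' A ch' Dm' J i).filter (fun c => n' i c = n' i b) ⊆
          D.filter (fun c => n (min i J) c = n (min i J) b) :=
        Finset.filter_subset_filter _ ((QQ_sub _ _).trans (Z.AD i))
      exact node_lemma _ _ hSN ν (Y (min i J)) (kap (min i J))
        (fun c hc => G.νpos c (Finset.mem_filter.1 hc).1)
        (fun c hc => G.Y0 _ (min_le_right i J) c (Finset.mem_filter.1 hc).1)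
        (fun c hc => G.kap0 _ (min_le_right i J) c (Finset.mem_filter.1 hc).1)
        (G.Dpos _ (min_le_right i J) b hbD) G.C1ge
        (G.nodeD _ (min_le_right i J) b hbD)
        (fun c hc s hs0 hs1 => by
          have hcb := (Finset.mem_filter.1 hc).2
          have h3 := G.hyp _ (min_le_right i J) c (Finset.mem_filter.1 hc).1 s hs0 hs1
          rw [hcb] at h3
          exact h3)
    · -- total payment
      intro b hb
      have h3 := Z.sum_QQ_le J pay hpay0 (by
        intro i b hb hnc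
        simp only [hch', not_or, not_le] at hnc
        simp only [hpay]
        rw [min_eq_left (Nat.succ_le_of_lt hnc.1), min_eq_left hnc.1.le,
          G.Yst i hnc.1 b hb hnc.2, G.kapst i hnc.1 b hb hnc.2]) hb
      refine h3.trans ?_
      have h4 := G.Ytot b hb y hy
      have h5 : ∑ e ∈ range (J+1), (if (b ∈ A e ∧ ch' e b) then pay e b else 0) ≤
          4 * C1 * ∑ i ∈ range (J+1), (if (y^2 < W i b ∧ (J ≤ i ∨ ch i b)) then Y i b else 0) +
          2 * C1 * ∑ i ∈ range (J+1), (if ch' i b then kap i b else 0) := by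
        rw [Finset.mul_sum, Finset.mul_sum, ← Finset.sum_add_distrib]
        apply Finset.sum_le_sum
        intro i hi
        have hi'' := Nat.lt_succ_iff.1 (Finset.mem_range.1 hi)
        have hi' : min i J = i := min_eq_left hi''
        have hA' : b ∈ A i ↔ y^2 < W i b := by
          simp only [hA, Finset.mem_filter, hi']
          exact ⟨fun h => h.2, fun h => ⟨hb, h⟩⟩
        have hk := G.kap0 i hi'' b hb
        by_cases hc : ch' i b
        · by_cases hw : y^2 < W i b
          · rw [if_pos ⟨hA'.2 hw, hc⟩, if_pos ⟨hw, hc⟩, if_pos hc]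
            simp only [hpay, hi']
            exact le_rfl
          · rw [if_neg (fun h => hw (hA'.1 h.1)), if_neg (fun h => hw h.1), if_pos hc]
            have : 0 ≤ 2 * C1 * kap i b := by positivity
            linarith
        · rw [if_neg (fun h => hc h.2), if_neg (fun h => hc h.2), if_neg hc]
          simp
      have h6 : ∑ i ∈ range (J+1), (if ch' i b then kap i b else 0) ≤ K := by
        refine le_trans (le_of_eq ?_) (G.kapK b hb)
        rw [Finset.sum_range_succ]
        congr 1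
        · apply Finset.sum_congr rfl
          intro i hi
          have : ch' i b ↔ ch i b := by
            simp only [hch']
            have := Finset.mem_range.1 hi
            constructor
            · rintro (h | h)
              · omega
              · exact h
            · exact fun h => Or.inr h
          simp only [this]
        · rw [if_pos (Or.inl le_rfl)]
      calc _ ≤ _ := h5
        _ ≤ 4 * C1 * (cY / y) + 2 * C1 * K :=
            add_le_add (mul_le_mul_of_nonneg_left h4 (by positivity))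
              (mul_le_mul_of_nonneg_left h6 (by positivity))
        _ ≤ _ := by linarith
  have hS0 : 0 ≤ ∑ b ∈ A 0, ν b * F b^2 := Finset.sum_nonneg fun b hb =>
    mul_nonneg (G.νpos b (Z.AD 0 hb)).le (sq_nonneg _)
  have h2 : ∑ i ∈ range (J+1), PP ν F n' A ch' Dm' J i ≤
      4 * (4 * C1 * (cY / y) + 2 * C1 * K) * ∑ b ∈ A 0, ν b * F b^2 := by
    apply le_of_forall_pos_le_add
    intro δ hδ
    set S := ∑ b ∈ A 0, ν b * F b^2
    have h3 := hmain (δ / (4 * (S + 1))) (by positivity)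
    have h4 : 4 * (δ / (4 * (S + 1))) * S ≤ δ := by
      have : 4 * (δ / (4 * (S + 1))) * S = δ * (S / (S + 1)) := by field_simp
      rw [this]
      have h5 : S / (S + 1) ≤ 1 := by rw [div_le_one (by linarith)]; linarith
      nlinarith
    nlinarith
  calc ∑ i ∈ range (J+1), ∑ c ∈ D.filter (fun c => (J ≤ i ∨ ch i c) ∧ y^2 < W i c),
      ν c * F c * ((∑ b ∈ D.filter (fun b => n i b = n i c ∧ y^2 < W i b), ν b * F b) /
        Dm i (n i c))
      = ∑ i ∈ range (J+1), ∑ b ∈ (A i).filter (fun b => ch' i b),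
        ν b * F b * uu ν F n' A Dm' i b := by
        apply Finset.sum_congr rfl
        intro i hi
        have hi' : min i J = i := min_eq_left (Nat.lt_succ_iff.1 (Finset.mem_range.1 hi))
        have e1 : (A i).filter (fun b => ch' i b) =
            D.filter (fun c => (J ≤ i ∨ ch i c) ∧ y^2 < W i c) := by
          ext c
          simp only [hA, hch', Finset.mem_filter, hi']
          tauto
        rw [e1]
        apply Finset.sum_congr rfl
        intro c _
        unfold uu ms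
        simp only [hn', hDm', hi']
        congr 2
        apply Finset.sum_congr _ (fun _ _ => rfl)
        ext b
        simp only [hA, Finset.mem_filter, hi']
        tauto
    _ ≤ 4 * ∑ i ∈ range (J+1), PP ν F n' A ch' Dm' J i := h1
    _ ≤ 4 * (4 * (4 * C1 * (cY / y) + 2 * C1 * K) * ∑ b ∈ A 0, ν b * F b^2) := by linarith
    _ ≤ 4 * (4 * (4 * C1 * (cY / y) + 2 * C1 * K) * ∑ b ∈ D, ν b * F b^2) := by
        apply mul_le_mul_of_nonneg_left _ (by norm_num)
        apply mul_le_mul_of_nonneg_left _ (by positivity)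
        exact Finset.sum_le_sum_of_subset_of_nonneg (Z.AD 0)
          (fun b hb _ => mul_nonneg (G.νpos b hb).le (sq_nonneg _))
    _ = _ := by ring

/-- layer cake for `min` in powers of 4 -/
lemma min_layers {w w' : ℝ} (hw : w ≤ 1) (k0 : ℕ) :
    min w w' ≤ ∑ k ∈ range k0, (1/4:ℝ)^k * (if ((1/2:ℝ)^(k+1))^2 < w then 1 else 0) *
      (if ((1/2:ℝ)^(k+1))^2 < w' then 1 else 0) + (1/4:ℝ)^k0 := by
  induction k0 with
  | zero => simp; left; exact hw
  | succ k0 ih =>
    rw [Finset.sum_range_succ]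
    have e : ((1/2:ℝ)^(k0+1))^2 = (1/4:ℝ)^(k0+1) := by
      rw [← pow_mul, mul_comm, pow_mul]; norm_num
    by_cases h : (1/4:ℝ)^(k0+1) < min w w'
    · rw [lt_min_iff] at h
      rw [e, if_pos h.1, if_pos h.2]
      have : (0:ℝ) < (1/4:ℝ)^(k0+1) := by positivity
      linarith
    · push Not at h
      have h2 : 0 ≤ ∑ k ∈ range k0, (1/4:ℝ)^k * (if ((1/2:ℝ)^(k+1))^2 < w then 1 else 0) *
          (if ((1/2:ℝ)^(k+1))^2 < w' then 1 else 0) := by
        apply Finset.sum_nonneg
        intro k _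
        split_ifs <;> positivity
      have h3 : 0 ≤ (1/4:ℝ)^k0 * (if ((1/2:ℝ)^(k0+1))^2 < w then 1 else 0) *
          (if ((1/2:ℝ)^(k0+1))^2 < w' then 1 else 0) := by
        split_ifs <;> positivity
      linarith


/-- the GW form : `c` changer, `b` any word of the node -/
noncomputable def gwForm (ν : Ω → ℝ) (D : Finset Ω) (n : ℕ → Ω → α) (ch : ℕ → Ω → Prop)
    [∀ i, DecidablePred (ch i)] (Dm : ℕ → α → ℝ) (W : ℕ → Ω → ℝ) (J : ℕ) (F F' : Ω → ℝ) : ℝ :=
  ∑ i ∈ range (J+1), ∑ c ∈ D.filter (fun c => J ≤ i ∨ ch i c),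
    ∑ b ∈ D.filter (fun b => n i b = n i c),
      ν c * F c * (ν b * F' b) * min (W i c) (W i b) / Dm i (n i c)

/-- **GW theorem, function form.** -/
theorem gw_fun (G : GWData ν D n ch Dm W Y kap J C1 cY K) (hF : ∀ b ∈ D, 0 ≤ F b) :
    gwForm ν D n ch Dm W J F F ≤ (256 * cY * C1 + 43 * C1 * K) * ∑ b ∈ D, ν b * F b^2 := by
  have hC1 : 0 < C1 := by linarith [G.C1ge]
  have hK0 := G.K0
  have hcY := G.cY0
  have hS0 : 0 ≤ ∑ b ∈ D, ν b * F b^2 := Finset.sum_nonneg fun b hb =>
    mul_nonneg (G.νpos b hb).le (sq_nonneg _)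
  have hνF : ∀ b ∈ D, 0 ≤ ν b * F b := fun b hb => mul_nonneg (G.νpos b hb).le (hF b hb)
  have hW1 : ∀ i ≤ J, ∀ b ∈ D, W i b ≤ 1 := by
    intro i
    induction i with
    | zero => intro _ b hb; exact G.W1 b hb
    | succ i ih => intro hi b hb; exact (G.Wa i (by omega) b hb).trans (ih (by omega) b hb)
  set R : ℝ := ∑ i ∈ range (J+1), ∑ c ∈ D.filter (fun c => J ≤ i ∨ ch i c),
    ∑ b ∈ D.filter (fun b => n i b = n i c), ν c * F c * (ν b * F b) / Dm i (n i c) with hR
  set L : ℕ → ℝ := fun k => ∑ i ∈ range (J+1),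
      ∑ c ∈ D.filter (fun c => (J ≤ i ∨ ch i c) ∧ ((1/2:ℝ)^(k+1))^2 < W i c),
      ν c * F c * ((∑ b ∈ D.filter (fun b => n i b = n i c ∧ ((1/2:ℝ)^(k+1))^2 < W i b),
        ν b * F b) / Dm i (n i c)) with hL
  -- step 1: layers
  have h1 : ∀ k0 : ℕ, gwForm ν D n ch Dm W J F F ≤
      ∑ k ∈ range k0, (1/4:ℝ)^k * L k + (1/4:ℝ)^k0 * R := by
    intro k0
    have e1 : ∀ k, L k = ∑ i ∈ range (J+1), ∑ c ∈ D.filter (fun c => J ≤ i ∨ ch i c),
        ∑ b ∈ D.filter (fun b => n i b = n i c), ν c * F c * (ν b * F b) / Dm i (n i c) *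
        ((if ((1/2:ℝ)^(k+1))^2 < W i c then 1 else 0) *
          (if ((1/2:ℝ)^(k+1))^2 < W i b then 1 else 0)) := by
      intro k
      simp only [hL]
      apply Finset.sum_congr rfl
      intro i _
      rw [← Finset.filter_filter, Finset.sum_filter]
      apply Finset.sum_congr rfl
      intro c _
      by_cases hc : ((1/2:ℝ)^(k+1))^2 < W i c
      · rw [if_pos hc, ← Finset.filter_filter, Finset.sum_filter, Finset.sum_div,
          Finset.mul_sum]
        apply Finset.sum_congr rfl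
        intro b _
        by_cases hb : ((1/2:ℝ)^(k+1))^2 < W i b
        · rw [if_pos hb, if_pos hb, if_pos hc]; ring
        · rw [if_neg hb, if_neg hb]; ring
      · rw [if_neg hc]
        symm
        apply Finset.sum_eq_zero
        intro b _
        rw [if_neg hc]; ring
    have e2 : ∑ k ∈ range k0, (1/4:ℝ)^k * L k + (1/4:ℝ)^k0 * R =
        ∑ i ∈ range (J+1), ∑ c ∈ D.filter (fun c => J ≤ i ∨ ch i c),
        ∑ b ∈ D.filter (fun b => n i b = n i c), ν c * F c * (ν b * F b) / Dm i (n i c) *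
        (∑ k ∈ range k0, (1/4:ℝ)^k * (if ((1/2:ℝ)^(k+1))^2 < W i c then 1 else 0) *
          (if ((1/2:ℝ)^(k+1))^2 < W i b then 1 else 0) + (1/4:ℝ)^k0) := by
      simp only [e1, hR, Finset.mul_sum]
      rw [Finset.sum_comm, ← Finset.sum_add_distrib]
      apply Finset.sum_congr rfl
      intro i _
      rw [Finset.sum_comm, ← Finset.sum_add_distrib]
      apply Finset.sum_congr rfl
      intro c _
      rw [Finset.sum_comm, ← Finset.sum_add_distrib]
      apply Finset.sum_congr rfl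
      intro b _
      rw [mul_add, Finset.mul_sum]
      congr 1
      · apply Finset.sum_congr rfl
        intro k _
        ring
      · ring
    rw [e2]
    unfold gwForm
    apply Finset.sum_le_sum
    intro i hi
    have hi' := Nat.lt_succ_iff.1 (Finset.mem_range.1 hi)
    apply Finset.sum_le_sum
    intro c hc
    have hcD := (Finset.mem_filter.1 hc).1
    apply Finset.sum_le_sum
    intro b hb
    have hbD := (Finset.mem_filter.1 hb).1
    have h2 := min_layers (w := W i c) (w' := W i b) (hW1 i hi' c hcD) k0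
    have h3 : 0 ≤ ν c * F c * (ν b * F b) / Dm i (n i c) :=
      div_nonneg (mul_nonneg (hνF c hcD) (hνF b hbD)) (G.Dpos i hi' c hcD).le
    calc ν c * F c * (ν b * F b) * min (W i c) (W i b) / Dm i (n i c)
        = ν c * F c * (ν b * F b) / Dm i (n i c) * min (W i c) (W i b) := by ring
      _ ≤ _ := mul_le_mul_of_nonneg_left h2 h3
  -- step 2: each layer
  have h2 : ∀ k : ℕ, (1/4:ℝ)^k * L k ≤
      (128 * cY * C1 * (1/2:ℝ)^k + 32 * C1 * K * (1/4:ℝ)^k) * ∑ b ∈ D, ν b * F b^2 := by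
    intro k
    have h3 := gw_level G hF (y := (1/2:ℝ)^(k+1)) (by positivity)
    have h4 : (0:ℝ) < (1/4:ℝ)^k := by positivity
    have h5 := mul_le_mul_of_nonneg_left h3 h4.le
    refine h5.trans (le_of_eq ?_)
    have e3 : cY / (1/2:ℝ)^(k+1) = 2 * cY * 2^k := by
      rw [one_div, inv_pow, div_inv_eq_mul, pow_succ]; ring
    have e4 : (1/4:ℝ)^k * 2^k = (1/2:ℝ)^k := by
      rw [← mul_pow]; norm_num
    rw [e3]
    calc (1/4:ℝ)^k * (16 * (4 * C1 * (2 * cY * 2^k) + 2 * C1 * K) * ∑ b ∈ D, ν b * F b^2)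
        = (128 * cY * C1 * ((1/4:ℝ)^k * 2^k) + 32 * C1 * K * (1/4:ℝ)^k) *
          ∑ b ∈ D, ν b * F b^2 := by ring
      _ = _ := by rw [e4]
  have g1 : ∀ k0 : ℕ, ∑ k ∈ range k0, (1/2:ℝ)^k ≤ 2 := by
    intro k0
    have : ∑ k ∈ range k0, (1/2:ℝ)^k = 2 - 2 * (1/2:ℝ)^k0 := by
      induction k0 with
      | zero => simp
      | succ k0 ih => rw [Finset.sum_range_succ, ih, pow_succ]; ring
    rw [this]
    have : (0:ℝ) < (1/2:ℝ)^k0 := by positivity
    linarith
  have g2 : ∀ k0 : ℕ, ∑ k ∈ range k0, (1/4:ℝ)^k ≤ 4/3 := by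
    intro k0
    have : ∑ k ∈ range k0, (1/4:ℝ)^k = 4/3 - 4/3 * (1/4:ℝ)^k0 := by
      induction k0 with
      | zero => simp
      | succ k0 ih => rw [Finset.sum_range_succ, ih, pow_succ]; ring
    rw [this]
    have : (0:ℝ) < (1/4:ℝ)^k0 := by positivity
    linarith
  have h3 : ∀ k0 : ℕ, gwForm ν D n ch Dm W J F F ≤
      (256 * cY * C1 + 43 * C1 * K) * ∑ b ∈ D, ν b * F b^2 + (1/4:ℝ)^k0 * R := by
    intro k0
    refine (h1 k0).trans ?_
    have h4 : ∑ k ∈ range k0, (1/4:ℝ)^k * L k ≤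
        (256 * cY * C1 + 43 * C1 * K) * ∑ b ∈ D, ν b * F b^2 := by
      calc ∑ k ∈ range k0, (1/4:ℝ)^k * L k
          ≤ ∑ k ∈ range k0, (128 * cY * C1 * (1/2:ℝ)^k + 32 * C1 * K * (1/4:ℝ)^k) *
            ∑ b ∈ D, ν b * F b^2 := Finset.sum_le_sum fun k _ => h2 k
        _ = (128 * cY * C1 * ∑ k ∈ range k0, (1/2:ℝ)^k + 32 * C1 * K *
            ∑ k ∈ range k0, (1/4:ℝ)^k) * ∑ b ∈ D, ν b * F b^2 := by
            rw [← Finset.sum_mul, Finset.sum_add_distrib, ← Finset.mul_sum, ← Finset.mul_sum]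
        _ ≤ _ := by
            apply mul_le_mul_of_nonneg_right _ hS0
            have h5 := mul_le_mul_of_nonneg_left (g1 k0) (by positivity : 0 ≤ 128 * cY * C1)
            have h6 := mul_le_mul_of_nonneg_left (g2 k0) (by positivity : 0 ≤ 32 * C1 * K)
            have h7 : 0 ≤ C1 * K := by positivity
            linarith
    linarith
  -- step 3: k0 to infinity
  have hlim : Filter.Tendsto (fun k0 : ℕ => (256 * cY * C1 + 43 * C1 * K) *
      ∑ b ∈ D, ν b * F b^2 + (1/4:ℝ)^k0 * R) Filter.atTop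
      (nhds ((256 * cY * C1 + 43 * C1 * K) * ∑ b ∈ D, ν b * F b^2 + 0 * R)) := by
    apply Filter.Tendsto.add tendsto_const_nhds
    apply Filter.Tendsto.mul_const
    exact tendsto_pow_atTop_nhds_zero_of_lt_one (by norm_num) (by norm_num)
  have := ge_of_tendsto' hlim h3
  rw [zero_mul, add_zero] at this
  exact this

/-- bilinear form of the GW theorem, with a parameter -/
theorem gw_fun_bilin_t (G : GWData ν D n ch Dm W Y kap J C1 cY K) {F' : Ω → ℝ}
    (hW0 : ∀ i ≤ J, ∀ b ∈ D, 0 ≤ W i b)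
    (hF : ∀ b ∈ D, 0 ≤ F b) (hF' : ∀ b ∈ D, 0 ≤ F' b) {t : ℝ} (ht : 0 < t) :
    gwForm ν D n ch Dm W J F F' ≤ 2 * (256 * cY * C1 + 43 * C1 * K) *
      (t * ∑ b ∈ D, ν b * F b^2 + t⁻¹ * ∑ b ∈ D, ν b * F' b^2) := by
  have hC1 : 0 < C1 := by linarith [G.C1ge]
  have hK0 := G.K0
  have hcY := G.cY0
  have hst : 0 < √t := Real.sqrt_pos.2 ht
  set H : Ω → ℝ := fun b => √t * F b + (√t)⁻¹ * F' b with hH
  have hH0 : ∀ b ∈ D, 0 ≤ H b := by
    intro b hb
    have := hF b hb
    have := hF' b hb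
    simp only [hH]
    positivity
  have h1 := gw_fun G hH0
  have h2 : gwForm ν D n ch Dm W J F F' ≤ gwForm ν D n ch Dm W J H H := by
    unfold gwForm
    apply Finset.sum_le_sum
    intro i hi
    have hi' := Nat.lt_succ_iff.1 (Finset.mem_range.1 hi)
    apply Finset.sum_le_sum
    intro c hc
    have hcD := (Finset.mem_filter.1 hc).1
    apply Finset.sum_le_sum
    intro b hb
    have hbD := (Finset.mem_filter.1 hb).1
    apply div_le_div_of_nonneg_right _ (G.Dpos i hi' c hcD).le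
    apply mul_le_mul_of_nonneg_right _ (le_min (hW0 i hi' c hcD) (hW0 i hi' b hbD))
    have e : ν c * F c * (ν b * F' b) = ν c * (√t * F c) * (ν b * ((√t)⁻¹ * F' b)) := by
      field_simp
    rw [e]
    have hνc := (G.νpos c hcD).le
    have hνb := (G.νpos b hbD).le
    have a1 := hF c hcD
    have a2 := hF' c hcD
    have a3 := hF b hbD
    have a4 := hF' b hbD
    apply mul_le_mul
    · apply mul_le_mul_of_nonneg_left _ hνc
      simp only [hH]
      have : 0 ≤ (√t)⁻¹ * F' c := by positivity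
      linarith
    · apply mul_le_mul_of_nonneg_left _ hνb
      simp only [hH]
      have : 0 ≤ √t * F b := by positivity
      linarith
    · positivity
    · have := hH0 c hcD
      positivity
  have h3 : ∑ b ∈ D, ν b * H b^2 ≤ 2 * (t * ∑ b ∈ D, ν b * F b^2 +
      t⁻¹ * ∑ b ∈ D, ν b * F' b^2) := by
    rw [Finset.mul_sum, Finset.mul_sum, ← Finset.sum_add_distrib, Finset.mul_sum]
    apply Finset.sum_le_sum
    intro b hb
    have hνb := (G.νpos b hb).le
    simp only [hH]
    have e1 : (√t)^2 = t := Real.sq_sqrt ht.le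
    have e2 : ((√t)⁻¹)^2 = t⁻¹ := by rw [inv_pow, e1]
    have h4 : (√t * F b + (√t)⁻¹ * F' b)^2 ≤ 2 * (t * F b^2 + t⁻¹ * F' b^2) := by
      have h5 := sq_nonneg (√t * F b - (√t)⁻¹ * F' b)
      have h6 : (√t * F b)^2 = t * F b^2 := by rw [mul_pow, e1]
      have h7 : ((√t)⁻¹ * F' b)^2 = t⁻¹ * F' b^2 := by rw [mul_pow, e2]
      nlinarith
    have := mul_le_mul_of_nonneg_left h4 hνb
    linarith
  have h4 : 0 ≤ 256 * cY * C1 + 43 * C1 * K := by positivity
  calc gwForm ν D n ch Dm W J F F' ≤ _ := h2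
    _ ≤ _ := h1
    _ ≤ (256 * cY * C1 + 43 * C1 * K) * (2 * (t * ∑ b ∈ D, ν b * F b^2 +
      t⁻¹ * ∑ b ∈ D, ν b * F' b^2)) := mul_le_mul_of_nonneg_left h3 h4
    _ = _ := by ring

/-- bilinear form of the GW theorem -/
theorem gw_fun_bilin (G : GWData ν D n ch Dm W Y kap J C1 cY K) {F' : Ω → ℝ}
    (hW0 : ∀ i ≤ J, ∀ b ∈ D, 0 ≤ W i b)
    (hF : ∀ b ∈ D, 0 ≤ F b) (hF' : ∀ b ∈ D, 0 ≤ F' b) :
    gwForm ν D n ch Dm W J F F' ≤ 4 * (256 * cY * C1 + 43 * C1 * K) *
      (√(∑ b ∈ D, ν b * F b^2) * √(∑ b ∈ D, ν b * F' b^2)) := by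
  have hC1 : 0 < C1 := by linarith [G.C1ge]
  have hK0 := G.K0
  have hcY := G.cY0
  set a := ∑ b ∈ D, ν b * F b^2 with ha
  set b := ∑ b ∈ D, ν b * F' b^2 with hb
  have ha0 : 0 ≤ a := Finset.sum_nonneg fun b hb => mul_nonneg (G.νpos b hb).le (sq_nonneg _)
  have hb0 : 0 ≤ b := Finset.sum_nonneg fun b hb => mul_nonneg (G.νpos b hb).le (sq_nonneg _)
  have hC0 : 0 ≤ 256 * cY * C1 + 43 * C1 * K := by positivity
  -- use a + ε, b + ε
  have h1 : ∀ ε : ℝ, 0 < ε → gwForm ν D n ch Dm W J F F' ≤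
      4 * (256 * cY * C1 + 43 * C1 * K) * (√(a+ε) * √(b+ε)) := by
    intro ε hε
    have hA : 0 < √(a+ε) := Real.sqrt_pos.2 (by linarith)
    have hB : 0 < √(b+ε) := Real.sqrt_pos.2 (by linarith)
    have h2 := gw_fun_bilin_t G hW0 hF hF' (t := √(b+ε) / √(a+ε)) (by positivity)
    rw [← ha, ← hb] at h2
    refine h2.trans ?_
    have eA : √(a+ε) * √(a+ε) = a + ε := Real.mul_self_sqrt (by linarith)
    have eB : √(b+ε) * √(b+ε) = b + ε := Real.mul_self_sqrt (by linarith)
    have h3 : √(b+ε) / √(a+ε) * a ≤ √(a+ε) * √(b+ε) := by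
      rw [div_mul_eq_mul_div, div_le_iff₀ hA]
      nlinarith
    have h4 : (√(b+ε) / √(a+ε))⁻¹ * b ≤ √(a+ε) * √(b+ε) := by
      rw [inv_div, div_mul_eq_mul_div, div_le_iff₀ hB]
      nlinarith
    have h5 : √(b+ε) / √(a+ε) * a + (√(b+ε) / √(a+ε))⁻¹ * b ≤ 2 * (√(a+ε) * √(b+ε)) := by
      linarith
    calc 2 * (256 * cY * C1 + 43 * C1 * K) * (√(b+ε) / √(a+ε) * a +
          (√(b+ε) / √(a+ε))⁻¹ * b)
        ≤ 2 * (256 * cY * C1 + 43 * C1 * K) * (2 * (√(a+ε) * √(b+ε))) :=
          mul_le_mul_of_nonneg_left h5 (by positivity)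
      _ = _ := by ring
  have hlim : Filter.Tendsto (fun ε : ℝ => 4 * (256 * cY * C1 + 43 * C1 * K) *
      (√(a+ε) * √(b+ε))) (nhdsWithin 0 (Set.Ioi 0))
      (nhds (4 * (256 * cY * C1 + 43 * C1 * K) * (√(a+0) * √(b+0)))) := by
    apply Filter.Tendsto.mono_left _ nhdsWithin_le_nhds
    apply Continuous.tendsto
    fun_prop
  have h2 := ge_of_tendsto hlim (Filter.eventually_of_mem self_mem_nhdsWithin
    (fun ε hε => h1 ε hε))
  rw [add_zero, add_zero] at h2
  exact h2

end gw

end Crest.Agent.R4C.GWfunx232
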