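import Crest.Agent.R4C.GWkillP_22
import Crest.Agent.R4C.GWfinZ_982
import Crest.Agent.R4C.ClsSc_244

/-!
# Row 4, GW section, leaf F2 in the forms of helper982 and helper244 (helper22)

`killEv` : `GWfinx982.KillEv γ`;  `killOK` : `ClsScx244.KillOK γ`;
`cls_scE` : the scalar class from the natural hypothesis only.
-/

set_option autoImplicit false

open Crest.Agent.R4C.Splitx945 Crest.Agent.R4C.Spinex946

namespace Crest.Agent.R4C.GWkillEx22

theorem killEv (γ : ℝ) : GWfinx982.KillEv γ :=
  GWkillPx22.killP_ev.mono fun _ _ _ _ h L M B F S => h 1 γ L M B F le_rfl S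

theorem killOK (γ : ℝ) : ClsScx244.KillOK γ :=
  GWkillPx22.killP_ev.mono fun _ _ _ _ h K1 hK1 L M B F S => h K1 γ L M B F hK1 S

/-- the scalar class from the natural hypothesis -/
theorem cls_scE {γ : ℝ} (h5 : GWfinx982.HypEv γ) : ClsOK γ (DomRedx244.cSc γ) :=
  GWfinx982.cls_sc h5 (killEv γ)

end Crest.Agent.R4C.GWkillEx22
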