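import Crest.Agent.R4C.GWkill_22
import Crest.Agent.R4C.GWfin_982
import Crest.Agent.R4C.DomRed_244
import Crest.Agent.R4C.HyOf_281

/-!
# Row 4, GW section, leaf F2 at the parameters of the spine (helper22)

* `okOf` : the world of a core is `Ok` under `Num`;
* **`killP`** : `KillP F (ParOf ..) B K1` of `GWfin_982`; `killP_ev` : the `Ev` form;
* **`leaveOK`** : `LeaveOK γ` of `DomRed_244`.
-/

set_option autoImplicit false

open Finset
open Crest.Agent.R4C.Cutx50 Crest.Agent.R4C.PrefixMx882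
open Crest.Agent.R4C.FLDefx935 Crest.Agent.R4C.Rulex945 Crest.Agent.R4C.PureClsx863
open Crest.Agent.R4C.Splitx945 Crest.Agent.R4C.Spinex946
open Crest.Agent.R4C.HyOfx281 (Num evNum hy_of_num)
open Crest.Agent.R4C.GWdefx982 Crest.Agent.R4C.GWinstx982 Crest.Agent.R4C.GWnodex863
open Crest.Agent.R4C.FLExx326 (ind)

namespace Crest.Agent.R4C.GWkillPx22

variable {cp η γ L K1 c σ : ℝ} {A m0 M : ℕ} {B : Finset ℕ} {F : FL M}

/-- the world of a core is `Ok` -/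
theorem okOf (h : Num cp η A m0) (hM : 0 < M) (hL : 0 < L) {G0 : ℕ} (hG : G0 ∈ cores F)
    (hσ : 0 ≤ σ) (hK1 : 1 ≤ K1) (hc : 0 < c) :
    (inst F (ParOf cp A m0 γ L M B) G0 σ K1 c).Ok := by
  refine GWkillx22.inst_ok' (hy_of_num h (γ := γ) (B := B) hM hL F) hG ?_ hσ ?_ hK1 hc
  · have := h.m0_14
    show 3 ≤ m0
    omega
  · intro i hi
    have h1 : (m0 : ℝ) ≤ i := by exact_mod_cast (show m0 ≤ i from hi)
    have h3 : 32 / cp ≤ i := h.m0_ge.trans h1
    rw [div_le_iff₀ h.cp_pos] at h3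
    show (16 : ℝ) < (2 : ℝ) ^ (cp * i)
    calc (16 : ℝ) < 2 ^ (5 : ℝ) := by norm_num
      _ ≤ 2 ^ (cp * i) := Real.rpow_le_rpow_of_exponent_le (by norm_num) (by linarith)

/-- **leaf F2** -/
theorem killP (h : Num cp η A m0) (hM : 0 < M) (hL : 0 < L) (hK1 : 1 ≤ K1) :
    GWfinx982.KillP F (ParOf cp A m0 γ L M B) B K1 := by
  intro G0 hG w w' hw hw' _ _ _ x hx hk i hi hhv σ hσ hS hS'
  have hOk := okOf (γ := γ) (B := B) h hM hL hG hσ hK1 one_pos
  have H := hy_of_num h (γ := γ) (B := B) hM hL F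
  have hcp : cp ≤ 1 / 8 := h.cp_le.trans (by norm_num)
  rcases GWkillx22.kill_node_par H h.A_one h.cp_pos.le hcp hG hw hw' hOk
    ((mem_S hOk).1 hS).2.1 ((mem_S hOk).1 hS').2.2 hi.far hx hk with h1 | h1 | h1
  · exact Or.inl h1
  · exact Or.inr h1
  · exact absurd h1 hhv

theorem killP_ev : Ev fun cp η A m0 => ∀ (K1 γ L : ℝ) (M : ℕ) (B : Finset ℕ) (F : FL M), 1 ≤ K1 →
    Setup η L M B F → GWfinx982.KillP F (ParOf cp A m0 γ L M B) B K1 :=
  evNum.mono fun _ _ _ _ h _ _ _ _ _ _ hK1 S => killP h S.hM S.hL hK1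

/-- **the leaf `LeaveOK` of `DomRed_244`** -/
theorem leaveOK (γ : ℝ) : DomRedx244.LeaveOK γ := by
  refine evNum.mono ?_
  intro cp η A m0 h K1 c σ L M B F hσ hK1 hc S G i w w' x P n1 n2 hlab
  have hσ0 : 0 ≤ σ := by rcases hσ with rfl | rfl <;> norm_num
  have hOk := okOf (γ := γ) (B := B) h S.hM S.hL P.core hσ0 hK1 hc
  have H := hy_of_num h (γ := γ) (B := B) S.hM S.hL F
  have hcp : cp ≤ 1 / 8 := h.cp_le.trans (by norm_num)
  rcases GWkillx22.kill_node_par H h.A_one h.cp_pos.le hcp P.core P.dvd P.dvd' hOk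
    n1 hlab.symm P.sc.far P.lnk P.unk with h1 | h1 | h1
  · exact Or.inl h1
  · exact Or.inr h1
  · exact absurd h1 P.off.1

end Crest.Agent.R4C.GWkillPx22
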