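import Crest.Agent.R4C.GWinst_982
import Crest.Agent.R4C.GWleave_262
import Crest.Agent.R4C.GWcell_284
import Crest.Agent.R4C.GWwt_115
import Crest.Agent.R4C.Tri_264

/-!
# Row 4, GW section, leaf (F2c): both words stay in the zone, not killed ⟹ heavy (helper22)

World `Z = inst F P G0 σ K1 c` of a core (helper982). A pair `b = G0 * w`, `c = G0 * w'` of own
scale `2^i` (`FarA`), linked offset `h`, NOT killed, with the same label at `i` (any `σ`):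
`w` or `w'` leaves the zone of the node, or the pair is in the heavy class `CHvy`
(`kill_node` : general `P`, `kill_node_par` : the rule of the text `ParOf`).

`stay` : `w` in a node, not in `A` : the next node `j` has `uu (cut i) b < uu (cut j) b`,
`2^j L ≤ uu (cut j) b`, and some fraction has depth `< 4 θ i = E i / 4`.

* `pair_of_dom1` : a pair of the class `CDomP` with low word `(1,1)` is of this form
  (`G0`, `w`, `w'`, node index, pure gcd = gcd);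
* `nd_pair` : the node index; `lab_or` : the labels agree for `σ = 0` or for `σ = 1/2` (helper284).
-/

set_option autoImplicit false

open Finset
open Crest.Agent.R4C.Basex935 Crest.Agent.R4C.Cutx50 Crest.Agent.R4C.PrefixMx882
open Crest.Agent.R4C.FLDefx935 Crest.Agent.R4C.Rulex945 Crest.Agent.R4C.PureClsx863
open Crest.Agent.R4C.CrCountx935 Crest.Agent.R4C.Bridgex882
open Crest.Agent.R4C.Splitx945 Crest.Agent.R4C.Spinex946
open Crest.Agent.R4C.NHx656 (On)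
open Crest.Agent.R4C.GWdefx982 Crest.Agent.R4C.GWinstx982 Crest.Agent.R4C.GWnodex863

namespace Crest.Agent.R4C.GWkillx22

variable {M : ℕ} {F : FL M} {P : Par} {wt : ℕ → ℝ} {δ ε : ℝ} {D0 : ℕ → ℝ}

lemma cut_unb (H : Hy F P wt δ ε D0) : ∀ n, ∃ i, n ≤ P.cut i := fun n =>
  ⟨n, (Nat.lt_two_pow_self).le.trans (H.cut_ge n)⟩

/-- the world of a core is good -/
theorem inst_ok' (H : Hy F P wt δ ε D0) {G0 : ℕ} {σ K1 c : ℝ} (hG : G0 ∈ cores F)
    (hm0 : 3 ≤ P.m0) (hσ : 0 ≤ σ) (hE : ∀ i, P.m0 ≤ i → 16 < P.E i) (hK1 : 1 ≤ K1) (hc : 0 < c) :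
    (inst F P G0 σ K1 c).Ok :=
  inst_ok H.hM hG H.hL H.cut_mono H.cut_ge hm0 H.hN hσ hE hK1 hc

/-- the word does not leave the zone: light live larger index -/
theorem stay (H : Hy F P wt δ ε D0) {G0 i w : ℕ} {σ K1 c : ℝ} (hG : G0 ∈ cores F)
    (hw : w ∣ PM F G0) (hOk : (inst F P G0 σ K1 c).Ok) {z ν : Node}
    (hν : ν ∈ (inst F P G0 σ K1 c).Nd z) (hi : ν.1 = i)
    (hwS : w ∈ (inst F P G0 σ K1 c).S ν) (hA : w ∉ (inst F P G0 σ K1 c).A z ν) :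
    ∃ j, i < j ∧ F.uu (P.cut i) (G0 * w) < F.uu (P.cut j) (G0 * w) ∧
      (2 : ℝ) ^ j * P.L ≤ F.uu (P.cut j) (G0 * w) ∧
      On (P.E i / 4) ((F.lam (P.cut j) (G0 * w) : ℝ) * P.γ)
        ((F.uu (P.cut j) (G0 * w) : ℝ) / P.L) := by
  subst hi
  obtain ⟨j, h1, h2, -, -, h5⟩ := GWleavex262.leave hOk
    (fun K ν w w' a b c => GWcellx284.on_cell hOk a b c) hν hwS hA
  have hn := ((mem_S hOk).1 hwS).2.1
  rw [nd_iff H.hM hG hw H.cut_mono (cut_unb H)] at hn h2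
  refine ⟨j, h1, Trix264.uu_lt_of_nd H.hL h1 hn.2.2.2 h2.2.2.1, h2.2.2.1, ?_⟩
  rw [lam_inst H.hM hG hw h2.2.1, uu_inst H.hM hG hw h2.2.1]
  have e : 4 * (inst F P G0 σ K1 c).θ ν.1 = P.E ν.1 / 4 := by
    show 4 * (P.E ν.1 / 16) = P.E ν.1 / 4
    ring
  rw [e] at h5
  exact h5

/-- **(F2c)** general `P` -/
theorem kill_node (H : Hy F P wt δ ε D0) {G0 i w w' : ℕ} {h : ℤ} {σ K1 c : ℝ} (hG : G0 ∈ cores F)
    (hw : w ∣ PM F G0) (hw' : w' ∣ PM F G0) (hOk : (inst F P G0 σ K1 c).Ok)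
    (hnd : (inst F P G0 σ K1 c).nd i w)
    (hlab : (inst F P G0 σ K1 c).lab i w' = (inst F P G0 σ K1 c).lab i w)
    (hF : FarA F P i (G0 * w) (G0 * w') h) (hl : h ∈ Lnk P.γ P.L (G0 * w) (G0 * w'))
    (hk : ¬ killedB (lamR F P) (G0 * w) (G0 * w') h)
    (hE : ∀ j, i < j → P.E i ≤ P.E j)
    (hthr : ∀ r : ℕ, r.Prime → P.cut i < r →
      P.E i ≤ P.thr (G0 * w) (P.blk r) ∧ P.E i ≤ P.thr (G0 * w') (P.blk r)) :
    w ∈ (inst F P G0 σ K1 c).A ((inst F P G0 σ K1 c).zone i w) ((inst F P G0 σ K1 c).lab i w) ∨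
    w' ∈ (inst F P G0 σ K1 c).A ((inst F P G0 σ K1 c).zone i w) ((inst F P G0 σ K1 c).lab i w) ∨
    CHvy F P wt ε (G0 * w) (G0 * w') h := by
  by_contra hc
  push Not at hc
  obtain ⟨hA, hA', hH⟩ := hc
  have hS : w ∈ (inst F P G0 σ K1 c).S ((inst F P G0 σ K1 c).lab i w) := mem_S_lab hOk hw hnd
  have hlow : low ((inst F P G0 σ K1 c).cut i) w = low ((inst F P G0 σ K1 c).cut i) w' :=
    (low_of_lab hlab).symm
  have hnd' : (inst F P G0 σ K1 c).nd i w' := (nd_congr' hlow).1 hnd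
  have hS' : w' ∈ (inst F P G0 σ K1 c).S ((inst F P G0 σ K1 c).lab i w) := by
    rw [← hlab]; exact mem_S_lab hOk hw' hnd'
  have hν := mem_Nd_zone hOk hw hnd
  obtain ⟨jb, b1, b2, b3, b4⟩ := stay H hG hw hOk hν (lab_fst i w) hS hA
  obtain ⟨jc, c1, c2, c3, c4⟩ := stay H hG hw' hOk hν (lab_fst i w) hS' hA'
  have hbM : ∀ {v : ℕ}, v ∣ PM F G0 → G0 * v ∣ M := fun hv =>
    (Nat.mul_dvd_mul_left G0 hv).trans (mul_PM_dvd H.hM hG)
  have hE0 := H.E_pos i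
  have hKE : P.E i / 4 ≤ P.E i := by linarith
  have h3 : 3 * (P.E i / 4) ^ 2 ≤ (2 : ℝ) ^ i := by
    have h1 := H.hE i hF.m0
    have h2 : P.E i ^ 2 ≤ P.E i ^ 8 := pow_le_pow_right₀ (H.E_one i) (by norm_num)
    have h4 : 0 ≤ P.E i ^ 2 := by positivity
    nlinarith
  exact hH (Trix264.kill_far_on H (hbM hw) (hbM hw') hl hk hF h3 (hKE.trans (hE jb b1))
    (hKE.trans (hE jc c1)) b2 c2 b3 c3 b4 c4
    fun r hr1 hr2 => ⟨hKE.trans (hthr r hr1 hr2).1, hKE.trans (hthr r hr1 hr2).2⟩)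

/-! ### pairs of the class with low word `(1,1)` -/

/-- a pure far pair with low word `(1,1)` is a pair of words of one core -/
theorem pair_of_dom1 (H : Hy F P wt δ ε D0) {i b c : ℕ} {h : ℤ} (hb : b ∣ M) (hc : c ∣ M)
    (hne : b ≠ c) (hF : FarA F P i b c h) (hP : Pure F (P.cut i) b c)
    (h1 : low (P.cut i) (b / Nat.gcd b c) = 1) (h2 : low (P.cut i) (c / Nat.gcd b c) = 1) :
    ∃ G0 ∈ cores F, ∃ w w', w ∣ PM F G0 ∧ w' ∣ PM F G0 ∧ b = G0 * w ∧ c = G0 * w' ∧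
      D F G0 ≤ P.cut i ∧ Nat.gcd w w' = low (P.cut i) w ∧ low (P.cut i) w' = low (P.cut i) w := by
  have hb0 : 0 < b := Nat.pos_of_dvd_of_pos hb H.hM
  have hc0 : 0 < c := Nat.pos_of_dvd_of_pos hc H.hM
  exact GWwtx115.split_pair H.hM hb hc hne hF.good (GWwtx115.low_eq_of_one hb0 hc0 h1 h2) hP.1 hP.2

/-- node index of the pair -/
theorem nd_pair (H : Hy F P wt δ ε D0) {G0 i w w' : ℕ} {h : ℤ} {σ K1 c : ℝ} (hG : G0 ∈ cores F)
    (hw : w ∣ PM F G0) (hD : D F G0 ≤ P.cut i) (hn : Nat.gcd w w' = low (P.cut i) w)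
    (hF : FarA F P i (G0 * w) (G0 * w') h) : (inst F P G0 σ K1 c).nd i w :=
  GWwtx115.nd_far H.hM hG hw H.cut_mono (cut_unb H) hD hn hF

/-- same label for `σ = 0` or for `σ = 1/2` -/
theorem lab_or {G0 i w w' : ℕ} {h : ℤ} {K1 c : ℝ} (hw : w ∣ PM F G0)
    (hOk : (inst F P G0 0 K1 c).Ok)
    (hnd : (inst F P G0 0 K1 c).nd i w)
    (hn : Nat.gcd w w' = low (P.cut i) w) (hn' : low (P.cut i) w' = low (P.cut i) w)
    (hl : h ∈ Lnk P.γ P.L (G0 * w) (G0 * w')) :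
    (inst F P G0 0 K1 c).lab i w' = (inst F P G0 0 K1 c).lab i w ∨
      (inst F P G0 (1 / 2) K1 c).lab i w' = (inst F P G0 (1 / 2) K1 c).lab i w := by
  have hw0 : 0 < w := Nat.pos_of_dvd_of_pos hw (PM_pos G0)
  have h1 := GWcellx284.linked_lab (w' := w') (g := Nat.gcd (G0 * w) (G0 * w')) (h := h)
    hOk hw0 hnd hn'.symm rfl ?_ ?_
  · rcases h1 with h1 | h1
    · exact Or.inl h1.symm
    · exact Or.inr h1.symm
  · show G0 * low (P.cut i) w ∣ Nat.gcd (G0 * w) (G0 * w')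
    rw [Nat.gcd_mul_left, hn]
  · have h2 := hl
    unfold Lnk at h2
    exact mem_Hf.1 h2

/-! ### the rule of the text -/

section par

variable {cp : ℝ} {A m0 : ℕ} {γ L : ℝ} {B : Finset ℕ}

/-- **(F2c) for the rule of the text** -/
theorem kill_node_par {i G0 w w' : ℕ} {h : ℤ} {σ K1 c : ℝ}
    (H : Hy F (ParOf cp A m0 γ L M B) wt δ ε D0) (hA : 1 ≤ A) (hcp : 0 ≤ cp) (hcp8 : cp ≤ 1 / 8)
    (hG : G0 ∈ cores F) (hw : w ∣ PM F G0) (hw' : w' ∣ PM F G0)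
    (hOk : (inst F (ParOf cp A m0 γ L M B) G0 σ K1 c).Ok)
    (hnd : (inst F (ParOf cp A m0 γ L M B) G0 σ K1 c).nd i w)
    (hlab : (inst F (ParOf cp A m0 γ L M B) G0 σ K1 c).lab i w' =
      (inst F (ParOf cp A m0 γ L M B) G0 σ K1 c).lab i w)
    (hF : FarA F (ParOf cp A m0 γ L M B) i (G0 * w) (G0 * w') h)
    (hl : h ∈ Lnk γ L (G0 * w) (G0 * w'))
    (hk : ¬ killedB (lamR F (ParOf cp A m0 γ L M B)) (G0 * w) (G0 * w') h) :
    w ∈ (inst F (ParOf cp A m0 γ L M B) G0 σ K1 c).A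
        ((inst F (ParOf cp A m0 γ L M B) G0 σ K1 c).zone i w)
        ((inst F (ParOf cp A m0 γ L M B) G0 σ K1 c).lab i w) ∨
    w' ∈ (inst F (ParOf cp A m0 γ L M B) G0 σ K1 c).A
        ((inst F (ParOf cp A m0 γ L M B) G0 σ K1 c).zone i w)
        ((inst F (ParOf cp A m0 γ L M B) G0 σ K1 c).lab i w) ∨
    CHvy F (ParOf cp A m0 γ L M B) wt ε (G0 * w) (G0 * w') h := by
  have h2i : 2 ≤ i := H.two.trans hF.m0
  have hi0 : (0 : ℝ) ≤ i := Nat.cast_nonneg i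
  have h8 : (ParOf cp A m0 γ L M B).E i ≤ (2 : ℝ) ^ ((i : ℝ) / 8) := by
    show (2 : ℝ) ^ (cp * i) ≤ (2 : ℝ) ^ ((i : ℝ) / 8)
    refine Real.rpow_le_rpow_of_exponent_le (by norm_num) ?_
    nlinarith
  refine kill_node H hG hw hw' hOk hnd hlab hF hl hk (fun j hj => ?_) fun r _ hr =>
    ⟨h8.trans (Trix264.thr_ge hA h2i hr), h8.trans (Trix264.thr_ge hA h2i hr)⟩
  show (2 : ℝ) ^ (cp * i) ≤ (2 : ℝ) ^ (cp * j)
  refine Real.rpow_le_rpow_of_exponent_le (by norm_num) (mul_le_mul_of_nonneg_left ?_ hcp)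
  exact_mod_cast hj.le

end par

end Crest.Agent.R4C.GWkillx22
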