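import Crest.Agent.R4C.NHdef_656

/-!
# Row 4, GW section, vector case: nodes linked by a word `(w, w')` (helper256)

Everything is on the level of the real points `y = (b/e) γ` of one prefix (scale `t`).

* `Near t c y z` : `|y - z - m| ≤ c/t` for an integer `m`.
* `InL t f i y` : the point `y` lies in the light key `(f, i)` (displacement `t (y-f) ∈ [i, i+2)`).
* `Lk t R w w' y y'` : `|w y - w' y' - m| ≤ R/t`.
* `link_window` : linked points: `y` is near one of the `w` targets `(w' y0 + j)/w`.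
* `AA`, `near_AA`, `card_AA` : the finite set of targets.
* `key_window` : at most `2c+3` light keys of depth `≤ θ` meet a window.
* `degree` : number of keys related to one node.
* `Lk.up`, `InL.up` : the relation is inherited by the shorter prefixes.
* `light_light`, `K_le` : two linked light keys: `w f ≡ w' f'`, `|w i - w' i'| ≤ R+2w+2w'`,
  `K ≤ (w' + 2w + R/2) K'`.
-/

set_option autoImplicit false

namespace Crest.Agent.R4C.GWlinkx256

open Finset

/-- `y` is within `c/t` of `z` modulo 1 -/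
def Near (t c y z : ℝ) : Prop := ∃ m : ℤ, |y - z - m| ≤ c / t

/-- the light key `(f, i)` at the scale `t` contains the point `y` -/
def InL (t : ℝ) (f : ℚ) (i : ℤ) (y : ℝ) : Prop :=
  ∃ m : ℤ, (i : ℝ) ≤ t * (y - f - m) ∧ t * (y - f - m) < i + 2

/-- `y` and `y'` are linked by the word `(w, w')` -/
def Lk (t R : ℝ) (w w' : ℕ) (y y' : ℝ) : Prop := ∃ m : ℤ, |(w : ℝ) * y - w' * y' - m| ≤ R / t

/-! ### distance modulo 1 -/

lemma Near.symm {t c y z : ℝ} (h : Near t c y z) : Near t c z y := by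
  obtain ⟨m, hm⟩ := h
  refine ⟨-m, ?_⟩
  rw [← abs_neg]
  convert hm using 2
  push_cast
  ring

lemma Near.trans {t c c' y z x : ℝ} (h : Near t c y z) (h' : Near t c' z x) :
    Near t (c + c') y x := by
  obtain ⟨m, hm⟩ := h
  obtain ⟨m', hm'⟩ := h'
  refine ⟨m + m', ?_⟩
  have e : y - x - ((m + m' : ℤ) : ℝ) = (y - z - m) + (z - x - m') := by push_cast; ring
  rw [e, add_div]
  exact (abs_add_le _ _).trans (add_le_add hm hm')

lemma Near.mono {t c c' y z : ℝ} (ht : 0 < t) (h : Near t c y z) (hc : c ≤ c') :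
    Near t c' y z := by
  obtain ⟨m, hm⟩ := h
  exact ⟨m, hm.trans (div_le_div_of_nonneg_right hc ht.le)⟩

lemma Near.refl {t c : ℝ} (ht : 0 < t) (hc : 0 ≤ c) (y : ℝ) : Near t c y y :=
  ⟨0, by simp only [sub_self, Int.cast_zero, abs_zero]; positivity⟩

lemma near_of_InL {t : ℝ} (ht : 0 < t) {f : ℚ} {i : ℤ} {y y' : ℝ} (h : InL t f i y)
    (h' : InL t f i y') : Near t 2 y y' := by
  obtain ⟨m, h1, h2⟩ := h
  obtain ⟨m', h1', h2'⟩ := h'
  refine ⟨m - m', ?_⟩
  have e : y - y' - ((m - m' : ℤ) : ℝ) = (t * (y - f - m) - t * (y' - f - m')) / t := by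
    push_cast
    field_simp
    ring
  rw [e, abs_div, abs_of_pos ht]
  refine div_le_div_of_nonneg_right ?_ ht.le
  rw [abs_le]
  constructor <;> linarith

lemma near_frac {t : ℝ} (ht : 0 < t) {f : ℚ} {i : ℤ} {y : ℝ} (h : InL t f i y) :
    Near t (|(i : ℝ)| + 2) y f := by
  obtain ⟨m, h1, h2⟩ := h
  refine ⟨m, ?_⟩
  have e : y - f - (m : ℝ) = (t * (y - f - m)) / t := by field_simp
  rw [e, abs_div, abs_of_pos ht]
  refine div_le_div_of_nonneg_right ?_ ht.le
  rw [abs_le]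
  have := neg_abs_le (i : ℝ)
  have := le_abs_self (i : ℝ)
  constructor <;> linarith

/-- the points of a light key are `On` the depth `K` of the key -/
lemma on_of_InL {t : ℝ} (ht : 0 < t) {f : ℚ} {i : ℤ} {y K : ℝ} (h : InL t f i y)
    (hK : (f.den : ℝ) * (|(i : ℝ)| + 2) < K) : NHx656.On K y t := by
  obtain ⟨m, h1, h2⟩ := h
  refine ⟨f.num + m * f.den, f.den, f.den_pos, lt_of_le_of_lt ?_ hK⟩
  have hd : (f.den : ℝ) ≠ 0 := by exact_mod_cast f.den_pos.ne'
  have hf : ((f.num : ℝ)) / f.den = f := by exact_mod_cast Rat.num_div_den f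
  have e : y - ((f.num + m * f.den : ℤ) : ℝ) / (f.den : ℕ) = y - f - m := by
    push_cast
    rw [add_div, mul_div_cancel_right₀ _ hd, hf]
    ring
  rw [e]
  refine mul_le_mul_of_nonneg_left (max_le ?_ ?_) (Nat.cast_nonneg _)
  · have := abs_nonneg (i : ℝ)
    linarith
  · have e2 : t * |y - f - m| = |t * (y - f - m)| := by rw [abs_mul, abs_of_pos ht]
    rw [e2, abs_le]
    have := neg_abs_le (i : ℝ)
    have := le_abs_self (i : ℝ)
    constructor <;> linarith

/-! ### linked points -/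

lemma Lk.symm {t R : ℝ} {w w' : ℕ} {y y' : ℝ} (h : Lk t R w w' y y') : Lk t R w' w y' y := by
  obtain ⟨m, hm⟩ := h
  refine ⟨-m, ?_⟩
  rw [← abs_neg]
  convert hm using 2
  push_cast
  ring

lemma Lk.mono {t R R' : ℝ} (ht : 0 < t) {w w' : ℕ} {y y' : ℝ} (h : Lk t R w w' y y')
    (hR : R ≤ R') : Lk t R' w w' y y' := by
  obtain ⟨m, hm⟩ := h
  exact ⟨m, hm.trans (div_le_div_of_nonneg_right hR ht.le)⟩

/-- **linked points**: `y` is near one of the `w` targets `(w' y0 + j)/w` -/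
theorem link_window {t R c' : ℝ} {w w' : ℕ} (hw : 0 < w) {y y' y0 : ℝ}
    (h : Lk t R w w' y y') (h' : Near t c' y' y0) :
    ∃ j < w, Near t ((R + w' * c') / w) y ((w' * y0 + (j : ℕ)) / w) := by
  obtain ⟨m, hm⟩ := h
  obtain ⟨m', hm'⟩ := h'
  have hw0 : (0 : ℝ) < w := by exact_mod_cast hw
  set Mi : ℤ := w' * m' + m with hMi
  have hwz : (w : ℤ) ≠ 0 := by exact_mod_cast hw.ne'
  refine ⟨(Mi % w).toNat, ?_, Mi / w, ?_⟩
  · have h1 := Int.emod_nonneg Mi hwz
    have h2 := Int.emod_lt_of_pos Mi (by exact_mod_cast hw : (0 : ℤ) < w)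
    omega
  · have h1 : (((Mi % w).toNat : ℕ) : ℝ) = ((Mi % w : ℤ) : ℝ) := by
      exact_mod_cast congrArg (fun z : ℤ => (z : ℝ)) (Int.toNat_of_nonneg (Int.emod_nonneg Mi hwz))
    have h2 : ((Mi % w : ℤ) : ℝ) + w * ((Mi / w : ℤ) : ℝ) = Mi := by
      exact_mod_cast Int.emod_add_mul_ediv Mi w
    have e : y - (w' * y0 + (((Mi % w).toNat : ℕ) : ℝ)) / w - ((Mi / w : ℤ) : ℝ) =
        ((w * y - w' * y' - m) + w' * (y' - y0 - m')) / w := by
      rw [h1]
      have h3 : ((Mi % w : ℤ) : ℝ) = w' * m' + m - w * ((Mi / w : ℤ) : ℝ) := by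
        have : ((Mi : ℤ) : ℝ) = w' * m' + m := by rw [hMi]; push_cast; ring
        linarith
      rw [h3]
      field_simp
      ring
    rw [e, abs_div, abs_of_pos hw0, div_div, mul_comm (w : ℝ) t, ← div_div]
    refine div_le_div_of_nonneg_right ?_ hw0.le
    refine (abs_add_le _ _).trans ?_
    rw [add_div, abs_mul, Nat.abs_cast, mul_div_assoc]
    exact add_le_add hm (mul_le_mul_of_nonneg_left hm' (Nat.cast_nonneg _))

open Classical in
/-- the targets of the points linked to points near `y0` by a word of `W` -/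
noncomputable def AA (W : Finset (ℕ × ℕ)) (y0 : ℝ) : Finset ℝ :=
  W.biUnion fun p => (range p.1).image fun j => ((p.2 : ℝ) * y0 + (j : ℕ)) / p.1

lemma card_AA (W : Finset (ℕ × ℕ)) (y0 : ℝ) : (AA W y0).card ≤ ∑ p ∈ W, p.1 := by
  classical
  unfold AA
  refine card_biUnion_le.trans (sum_le_sum fun p _ => ?_)
  exact card_image_le.trans (by rw [card_range])

theorem near_AA {t R c' : ℝ} {W : Finset (ℕ × ℕ)} {w w' : ℕ} (hw : 0 < w)
    (hW : (w, w') ∈ W) {y y' y0 : ℝ} (h : Lk t R w w' y y') (h' : Near t c' y' y0) :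
    ∃ α ∈ AA W y0, Near t ((R + w' * c') / w) y α := by
  classical
  obtain ⟨j, hj, h1⟩ := link_window hw h h'
  refine ⟨_, ?_, h1⟩
  unfold AA
  rw [mem_biUnion]
  exact ⟨(w, w'), hW, mem_image.2 ⟨j, mem_range.2 hj, rfl⟩⟩

/-! ### light keys in a window -/

/-- integers pairwise at distance `≤ D` -/
lemma card_int_le {s : Finset ℤ} {D : ℝ} (hD : 0 ≤ D)
    (h : ∀ i ∈ s, ∀ j ∈ s, |(i : ℝ) - j| ≤ D) : (s.card : ℝ) ≤ D + 1 := by
  rcases s.eq_empty_or_nonempty with rfl | hs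
  · simp only [card_empty, Nat.cast_zero]; linarith
  · set i0 := s.min' hs with hi0
    have hsub : s ⊆ Icc i0 (i0 + ⌊D⌋) := by
      intro i hi
      rw [mem_Icc]
      have h1 : i0 ≤ i := s.min'_le i hi
      refine ⟨h1, ?_⟩
      have h2 := h i hi i0 (s.min'_mem hs)
      have h3 : ((i - i0 : ℤ) : ℝ) ≤ D := by
        push_cast
        exact (le_abs_self _).trans h2
      have := Int.le_floor.2 h3
      omega
    have h4 := card_le_card hsub
    rw [Int.card_Icc] at h4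
    have h5 : (0 : ℤ) ≤ ⌊D⌋ := Int.floor_nonneg.2 hD
    have h6 : ((s.card : ℕ) : ℤ) ≤ ⌊D⌋ + 1 := by omega
    have h7 : ((s.card : ℕ) : ℝ) ≤ (⌊D⌋ : ℝ) + 1 := by exact_mod_cast h6
    linarith [Int.floor_le D]

/-- two rationals whose difference is within `c` of an integer, `c · den · den' < 1` -/
lemma eq_of_near {f f' : ℚ} {n : ℤ} {c : ℝ} (h : |(f : ℝ) - f' - n| ≤ c)
    (hc : c * (f.den * f'.den) < 1) : (f : ℝ) - f' = n := by
  by_contra hne
  have hk : (0 : ℝ) < f.den := by exact_mod_cast f.den_pos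
  have hk' : (0 : ℝ) < f'.den := by exact_mod_cast f'.den_pos
  have e1 : (f : ℝ) = f.num / f.den := by exact_mod_cast (Rat.num_div_den f).symm
  have e2 : (f' : ℝ) = f'.num / f'.den := by exact_mod_cast (Rat.num_div_den f').symm
  have e3 : ((f : ℝ) - f' - n) * (f.den * f'.den) =
      ((f.num * f'.den - f'.num * f.den - n * (f.den * f'.den) : ℤ) : ℝ) := by
    rw [e1, e2]
    push_cast
    field_simp
  have h0 : (f.num * f'.den - f'.num * f.den - n * (f.den * f'.den) : ℤ) ≠ 0 := by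
    intro h0
    rw [h0] at e3
    have h3 : (f : ℝ) - f' - n = 0 := by
      rcases mul_eq_zero.1 (e3.trans Int.cast_zero) with h3 | h3
      · exact h3
      · exact absurd h3 (by positivity)
    exact hne (by linarith)
  have h1 : (1 : ℝ) ≤ |((f.num * f'.den - f'.num * f.den - n * (f.den * f'.den) : ℤ) : ℝ)| := by
    rw [← Int.cast_abs]
    exact_mod_cast Int.one_le_abs h0
  rw [← e3, abs_mul, abs_of_pos (mul_pos hk hk')] at h1
  have h2 := mul_le_mul_of_nonneg_right h (mul_pos hk hk').le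
  linarith

/-- two light keys of depth `≤ θ` meeting the same window of half length `c/t` -/
theorem key_near {t c θ : ℝ} (ht : 0 < t) (hc : 0 ≤ c) (hθ : θ ^ 2 * (c + 2) < t) {f f' : ℚ}
    {i i' : ℤ} (h0 : 0 ≤ f) (h1 : f < 1) (h0' : 0 ≤ f') (h1' : f' < 1)
    (hK : (f.den : ℝ) * (|(i : ℝ)| + 2) ≤ θ) (hK' : (f'.den : ℝ) * (|(i' : ℝ)| + 2) ≤ θ)
    {y y' z : ℝ} (hy : InL t f i y) (hy' : InL t f' i' y') (hn : Near t c y z)
    (hn' : Near t c y' z) : f = f' ∧ |(i : ℝ) - i'| ≤ 2 * c + 2 := by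
  obtain ⟨n, hn⟩ := hn.trans hn'.symm
  obtain ⟨m, a1, a2⟩ := hy
  obtain ⟨m', a1', a2'⟩ := hy'
  have hk : (1 : ℝ) ≤ f.den := by exact_mod_cast f.den_pos
  have hk' : (1 : ℝ) ≤ f'.den := by exact_mod_cast f'.den_pos
  have hi := abs_nonneg (i : ℝ)
  have hi' := abs_nonneg (i' : ℝ)
  set d := t * (y - f - m) with hd
  set d' := t * (y' - f' - m') with hd'
  have hda : |d| ≤ |(i : ℝ)| + 2 := by
    rw [abs_le]
    have := neg_abs_le (i : ℝ)
    have := le_abs_self (i : ℝ)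
    constructor <;> linarith
  have hda' : |d'| ≤ |(i' : ℝ)| + 2 := by
    rw [abs_le]
    have := neg_abs_le (i' : ℝ)
    have := le_abs_self (i' : ℝ)
    constructor <;> linarith
  have hθ2 : 2 ≤ θ := by nlinarith
  -- the integer
  set N : ℤ := n - m + m' with hN
  have e : t * ((f : ℝ) - f' - N) = t * (y - y' - n) - d + d' := by
    rw [hd, hd', hN]
    push_cast
    ring
  have b1 : |t * (y - y' - n)| ≤ 2 * c := by
    rw [abs_mul, abs_of_pos ht]
    calc t * |y - y' - n| ≤ t * ((c + c) / t) := mul_le_mul_of_nonneg_left hn ht.le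
      _ = 2 * c := by field_simp; ring
  have b2 : |t * ((f : ℝ) - f' - N)| ≤ 2 * c + |d| + |d'| := by
    rw [e]
    calc |t * (y - y' - n) - d + d'| ≤ |t * (y - y' - n) - d| + |d'| := abs_add_le _ _
      _ ≤ |t * (y - y' - n)| + |d| + |d'| := by
          have := abs_sub (t * (y - y' - n)) d
          linarith
      _ ≤ _ := by linarith
  have b3 : |(f : ℝ) - f' - N| ≤ (2 * c + |d| + |d'|) / t := by
    rw [le_div_iff₀ ht]
    rw [abs_mul, abs_of_pos ht] at b2
    linarith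
  have b4 : (2 * c + |d| + |d'|) * (f.den * f'.den) < t := by
    have c1 : (f.den : ℝ) * 2 ≤ θ := by nlinarith
    have c2 : (f'.den : ℝ) * 2 ≤ θ := by nlinarith
    have c3 : (f.den : ℝ) * f'.den ≤ θ ^ 2 / 4 := by nlinarith
    have c4 : (f.den : ℝ) * |d| ≤ θ := (mul_le_mul_of_nonneg_left hda (by linarith)).trans hK
    have c5 : (f'.den : ℝ) * |d'| ≤ θ := (mul_le_mul_of_nonneg_left hda' (by linarith)).trans hK'
    have c6 : (f.den : ℝ) * |d| * f'.den ≤ θ * (θ / 2) :=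
      mul_le_mul c4 (by linarith) (by linarith) (by linarith)
    have c7 : (f'.den : ℝ) * |d'| * f.den ≤ θ * (θ / 2) :=
      mul_le_mul c5 (by linarith) (by linarith) (by linarith)
    have c8 : 2 * c * ((f.den : ℝ) * f'.den) ≤ 2 * c * (θ ^ 2 / 4) :=
      mul_le_mul_of_nonneg_left c3 (by linarith)
    nlinarith
  have b5 := eq_of_near b3 (by
    rw [div_mul_eq_mul_div, div_lt_one ht]
    exact b4)
  have hfR : (0 : ℝ) ≤ f := by exact_mod_cast h0
  have hfR1 : (f : ℝ) < 1 := by exact_mod_cast h1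
  have hfR' : (0 : ℝ) ≤ f' := by exact_mod_cast h0'
  have hfR1' : (f' : ℝ) < 1 := by exact_mod_cast h1'
  have hN0 : N = 0 := by
    have u1 : (N : ℝ) < 1 := by linarith
    have u2 : (-1 : ℝ) < N := by linarith
    have u3 : N < 1 := by exact_mod_cast u1
    have u4 : -1 < N := by exact_mod_cast u2
    omega
  have hff : f = f' := by
    rw [hN0, Int.cast_zero] at b5
    exact_mod_cast sub_eq_zero.1 b5
  refine ⟨hff, ?_⟩
  rw [hN0, b5, hN0, Int.cast_zero, sub_self, mul_zero] at e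
  have e2 : d - d' = t * (y - y' - n) := by linarith
  have e3 : |d - d'| ≤ 2 * c := by rw [e2]; exact b1
  rw [abs_le] at e3 ⊢
  constructor <;> linarith [e3.1, e3.2]

open Classical in
/-- the number of light keys of depth `≤ θ` meeting a window -/
theorem key_window {t c θ : ℝ} (ht : 0 < t) (hc : 0 ≤ c) (hθ : θ ^ 2 * (c + 2) < t)
    (Keys : Finset (ℚ × ℤ)) (hkey : ∀ k ∈ Keys, 0 ≤ k.1 ∧ k.1 < 1 ∧
      (k.1.den : ℝ) * (|(k.2 : ℝ)| + 2) ≤ θ) (z : ℝ) :
    ((Keys.filter fun k => ∃ y, Near t c y z ∧ InL t k.1 k.2 y).card : ℝ) ≤ 2 * c + 3 := by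
  set s := Keys.filter fun k => ∃ y, Near t c y z ∧ InL t k.1 k.2 y with hs
  have key : ∀ k ∈ s, ∀ k' ∈ s, k.1 = k'.1 ∧ |(k.2 : ℝ) - k'.2| ≤ 2 * c + 2 := by
    intro k hk k' hk'
    rw [hs, mem_filter] at hk hk'
    obtain ⟨hk1, y, h1, h2⟩ := hk
    obtain ⟨hk1', y', h1', h2'⟩ := hk'
    obtain ⟨a1, a2, a3⟩ := hkey k hk1
    obtain ⟨a1', a2', a3'⟩ := hkey k' hk1'
    exact key_near ht hc hθ a1 a2 a1' a2' a3 a3' h2 h2' h1 h1'
  have hinj : Set.InjOn Prod.snd (s : Set (ℚ × ℤ)) := by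
    intro k hk k' hk' h
    exact Prod.ext (key k (by simpa using hk) k' (by simpa using hk')).1 h
  rw [← card_image_of_injOn hinj]
  refine (card_int_le (D := 2 * c + 2) (by linarith) ?_).trans (le_of_eq (by ring))
  intro i hi j hj
  obtain ⟨k, hk, rfl⟩ := mem_image.1 hi
  obtain ⟨k', hk', rfl⟩ := mem_image.1 hj
  exact (key k hk k' hk').2

open Classical in
/-- **degree**: number of keys related to one node `I'` by the words of `W` -/
theorem degree {κ : Type*} {t R c' : ℝ} (W : Finset (ℕ × ℕ)) (hW : ∀ p ∈ W, 0 < p.1) (Keys : Finset κ) (In : κ → ℝ → Prop)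
    (N : ℝ → ℝ) (hN : ∀ p ∈ W, ∀ z : ℝ, ((Keys.filter fun k =>
      ∃ y, Near t ((R + p.2 * c') / p.1) y z ∧ In k y).card : ℝ) ≤ N ((R + p.2 * c') / p.1))
    (I' : ℝ → Prop) (y0 : ℝ) (hI' : ∀ y', I' y' → Near t c' y' y0) :
    ((Keys.filter fun k => ∃ y y', In k y ∧ I' y' ∧ ∃ p ∈ W, Lk t R p.1 p.2 y y').card : ℝ) ≤
      ∑ p ∈ W, (p.1 : ℝ) * N ((R + p.2 * c') / p.1) := by
  have hsub : (Keys.filter fun k => ∃ y y', In k y ∧ I' y' ∧ ∃ p ∈ W, Lk t R p.1 p.2 y y') ⊆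
      W.biUnion fun p => (range p.1).biUnion fun j => Keys.filter fun k =>
        ∃ y, Near t ((R + p.2 * c') / p.1) y ((p.2 * y0 + (j : ℕ)) / p.1) ∧ In k y := by
    intro k hk
    rw [mem_filter] at hk
    obtain ⟨hk, y, y', h1, h2, p, hp, h3⟩ := hk
    obtain ⟨j, hj, h4⟩ := link_window (hW p hp) h3 (hI' y' h2)
    rw [mem_biUnion]
    refine ⟨p, hp, mem_biUnion.2 ⟨j, mem_range.2 hj, mem_filter.2 ⟨hk, y, h4, h1⟩⟩⟩
  have h1 := (card_le_card hsub).trans card_biUnion_le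
  have h2 : ((Keys.filter fun k => ∃ y y', In k y ∧ I' y' ∧ ∃ p ∈ W,
      Lk t R p.1 p.2 y y').card : ℝ) ≤ ∑ p ∈ W, (((range p.1).biUnion fun j => Keys.filter fun k =>
        ∃ y, Near t ((R + p.2 * c') / p.1) y ((p.2 * y0 + (j : ℕ)) / p.1) ∧ In k y).card : ℝ) := by
    exact_mod_cast h1
  refine h2.trans (sum_le_sum fun p hp => ?_)
  have h3 : (((range p.1).biUnion fun j => Keys.filter fun k =>
      ∃ y, Near t ((R + p.2 * c') / p.1) y ((p.2 * y0 + (j : ℕ)) / p.1) ∧ In k y).card : ℝ) ≤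
      ∑ j ∈ range p.1, ((Keys.filter fun k =>
        ∃ y, Near t ((R + p.2 * c') / p.1) y ((p.2 * y0 + (j : ℕ)) / p.1) ∧ In k y).card : ℝ) := by
    exact_mod_cast card_biUnion_le
  refine h3.trans ?_
  calc ∑ j ∈ range p.1, ((Keys.filter fun k =>
        ∃ y, Near t ((R + p.2 * c') / p.1) y ((p.2 * y0 + (j : ℕ)) / p.1) ∧ In k y).card : ℝ)
      ≤ ∑ j ∈ range p.1, N ((R + p.2 * c') / p.1) := sum_le_sum fun j _ => hN p hp _
    _ = _ := by rw [sum_const, card_range, nsmul_eq_mul]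

/-! ### shorter prefixes -/

lemma Near.up {t c : ℝ} (ht : 0 < t) {s : ℕ} (hs : 0 < s) {y z : ℝ} (h : Near (t * s) c y z) :
    Near t c (s * y) (s * z) := by
  obtain ⟨m, hm⟩ := h
  have hs0 : (0 : ℝ) < s := by exact_mod_cast hs
  refine ⟨s * m, ?_⟩
  have e : (s : ℝ) * y - s * z - ((s * m : ℤ) : ℝ) = s * (y - z - m) := by push_cast; ring
  rw [e, abs_mul, Nat.abs_cast]
  calc (s : ℝ) * |y - z - m| ≤ s * (c / (t * s)) := mul_le_mul_of_nonneg_left hm hs0.le
    _ = c / t := by field_simp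

/-- the link is inherited by the shorter prefixes -/
lemma Lk.up {t R : ℝ} (ht : 0 < t) {s : ℕ} (hs : 0 < s) {w w' : ℕ} {y y' : ℝ}
    (h : Lk (t * s) R w w' y y') : Lk t R w w' (s * y) (s * y') := by
  obtain ⟨m, hm⟩ := h
  have hs0 : (0 : ℝ) < s := by exact_mod_cast hs
  refine ⟨s * m, ?_⟩
  have e : (w : ℝ) * (s * y) - w' * (s * y') - ((s * m : ℤ) : ℝ) =
      s * (w * y - w' * y' - m) := by push_cast; ring
  rw [e, abs_mul, Nat.abs_cast]
  calc (s : ℝ) * |w * y - w' * y' - m| ≤ s * (R / (t * s)) :=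
        mul_le_mul_of_nonneg_left hm hs0.le
    _ = R / t := by field_simp

/-- light keys: the displacement is static -/
lemma InL.up {t : ℝ} {s : ℕ} {f : ℚ} {i : ℤ} {y : ℝ} (h : InL (t * s) f i y) :
    InL t (Int.fract ((s : ℚ) * f)) i (s * y) := by
  obtain ⟨m, h1, h2⟩ := h
  refine ⟨s * m + ⌊(s : ℚ) * f⌋, ?_⟩
  have e0 : ((Int.fract ((s : ℚ) * f) : ℚ) : ℝ) = s * f - ((⌊(s : ℚ) * f⌋ : ℤ) : ℝ) := by
    unfold Int.fract
    push_cast
    ring
  have e : t * (s * y - ((Int.fract ((s : ℚ) * f) : ℚ) : ℝ) - ((s * m + ⌊(s : ℚ) * f⌋ : ℤ) : ℝ)) =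
      t * s * (y - f - m) := by
    rw [e0]
    push_cast
    ring
  rw [e]
  exact ⟨h1, h2⟩

/-! ### two linked light keys -/

/-- **two linked light keys**: the fractions are related exactly, the displacements up to `O(1)` -/
theorem light_light {t R θ : ℝ} (ht : 0 < t) (hR : 0 ≤ R) {w w' : ℕ} {f f' : ℚ} {i i' : ℤ}
    (hK : (f.den : ℝ) * (|(i : ℝ)| + 2) ≤ θ) (hK' : (f'.den : ℝ) * (|(i' : ℝ)| + 2) ≤ θ)
    (hθ : θ ^ 2 * (w + w' + R) < t) {y y' : ℝ} (hy : InL t f i y) (hy' : InL t f' i' y')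
    (h : Lk t R w w' y y') :
    (∃ n : ℤ, (w : ℝ) * f - w' * f' = n) ∧
      |(w : ℝ) * i - w' * i'| ≤ R + 2 * w + 2 * w' := by
  obtain ⟨n, hn⟩ := h
  obtain ⟨m, a1, a2⟩ := hy
  obtain ⟨m', a1', a2'⟩ := hy'
  have hk : (1 : ℝ) ≤ f.den := by exact_mod_cast f.den_pos
  have hk' : (1 : ℝ) ≤ f'.den := by exact_mod_cast f'.den_pos
  have hi := abs_nonneg (i : ℝ)
  have hi' := abs_nonneg (i' : ℝ)
  have hw0 : (0 : ℝ) ≤ w := Nat.cast_nonneg _
  have hw0' : (0 : ℝ) ≤ w' := Nat.cast_nonneg _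
  set d := t * (y - f - m) with hd
  set d' := t * (y' - f' - m') with hd'
  have hda : |d| ≤ |(i : ℝ)| + 2 := by
    rw [abs_le]
    have := neg_abs_le (i : ℝ)
    have := le_abs_self (i : ℝ)
    constructor <;> linarith
  have hda' : |d'| ≤ |(i' : ℝ)| + 2 := by
    rw [abs_le]
    have := neg_abs_le (i' : ℝ)
    have := le_abs_self (i' : ℝ)
    constructor <;> linarith
  have hθ2 : 2 ≤ θ := by nlinarith
  set N : ℤ := n - w * m + w' * m' with hN
  have e : t * ((w : ℝ) * f - w' * f' - N) = t * (w * y - w' * y' - n) - w * d + w' * d' := by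
    rw [hd, hd', hN]
    push_cast
    ring
  have b1 : |t * (w * y - w' * y' - n)| ≤ R := by
    rw [abs_mul, abs_of_pos ht]
    calc t * |w * y - w' * y' - n| ≤ t * (R / t) := mul_le_mul_of_nonneg_left hn ht.le
      _ = R := by field_simp
  have b2 : |t * ((w : ℝ) * f - w' * f' - N)| ≤ R + w * |d| + w' * |d'| := by
    rw [e]
    have s1 := abs_add_le (t * (w * y - w' * y' - n) - w * d) (w' * d')
    have s2 := abs_sub (t * (w * y - w' * y' - n)) (w * d)
    rw [abs_mul (w : ℝ), Nat.abs_cast] at s2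
    rw [abs_mul (w' : ℝ), Nat.abs_cast] at s1
    linarith
  have b4 : (R + w * |d| + w' * |d'|) * (f.den * f'.den) < t := by
    have c1 : (f.den : ℝ) * 2 ≤ θ := by nlinarith
    have c2 : (f'.den : ℝ) * 2 ≤ θ := by nlinarith
    have c3 : (f.den : ℝ) * f'.den ≤ θ ^ 2 / 4 := by nlinarith
    have c4 : (f.den : ℝ) * |d| ≤ θ := (mul_le_mul_of_nonneg_left hda (by linarith)).trans hK
    have c5 : (f'.den : ℝ) * |d'| ≤ θ := (mul_le_mul_of_nonneg_left hda' (by linarith)).trans hK'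
    have c6 : (f.den : ℝ) * |d| * f'.den ≤ θ * (θ / 2) :=
      mul_le_mul c4 (by linarith) (by linarith) (by linarith)
    have c7 : (f'.den : ℝ) * |d'| * f.den ≤ θ * (θ / 2) :=
      mul_le_mul c5 (by linarith) (by linarith) (by linarith)
    have c8 : R * ((f.den : ℝ) * f'.den) ≤ R * (θ ^ 2 / 4) :=
      mul_le_mul_of_nonneg_left c3 hR
    have c9 : w * ((f.den : ℝ) * |d| * f'.den) ≤ w * (θ * (θ / 2)) :=
      mul_le_mul_of_nonneg_left c6 hw0
    have c10 : w' * ((f'.den : ℝ) * |d'| * f.den) ≤ w' * (θ * (θ / 2)) :=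
      mul_le_mul_of_nonneg_left c7 hw0'
    have c11 : 0 ≤ θ ^ 2 * w := by positivity
    have c12 : 0 ≤ θ ^ 2 * w' := by positivity
    have c13 : 0 ≤ θ ^ 2 * R := by positivity
    have c14 : (R + w * |d| + w' * |d'|) * (f.den * f'.den) = R * ((f.den : ℝ) * f'.den) +
        w * ((f.den : ℝ) * |d| * f'.den) + w' * ((f'.den : ℝ) * |d'| * f.den) := by ring
    have c15 : R * (θ ^ 2 / 4) + w * (θ * (θ / 2)) + w' * (θ * (θ / 2)) =
        θ ^ 2 * (w + w' + R) - (3 / 4 * (θ ^ 2 * R) + 1 / 2 * (θ ^ 2 * w) +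
          1 / 2 * (θ ^ 2 * w')) := by ring
    rw [c14]
    linarith
  -- the exact relation
  have hk0 : (0 : ℝ) < f.den := by linarith
  have hk0' : (0 : ℝ) < f'.den := by linarith
  have e1 : (f : ℝ) = f.num / f.den := by exact_mod_cast (Rat.num_div_den f).symm
  have e2 : (f' : ℝ) = f'.num / f'.den := by exact_mod_cast (Rat.num_div_den f').symm
  have e3 : ((w : ℝ) * f - w' * f' - N) * (f.den * f'.den) =
      ((w * f.num * f'.den - w' * f'.num * f.den - N * (f.den * f'.den) : ℤ) : ℝ) := by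
    rw [e1, e2]
    push_cast
    field_simp
  have hz : (w : ℝ) * f - w' * f' - N = 0 := by
    by_contra hne
    have h0 : (w * f.num * f'.den - w' * f'.num * f.den - N * (f.den * f'.den) : ℤ) ≠ 0 := by
      intro h0
      rw [h0] at e3
      rcases mul_eq_zero.1 (e3.trans Int.cast_zero) with h3 | h3
      · exact hne h3
      · exact absurd h3 (by positivity)
    have h1 : (1 : ℝ) ≤ |((w * f.num * f'.den - w' * f'.num * f.den -
        N * (f.den * f'.den) : ℤ) : ℝ)| := by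
      rw [← Int.cast_abs]
      exact_mod_cast Int.one_le_abs h0
    rw [← e3, abs_mul, abs_of_pos (mul_pos hk0 hk0')] at h1
    have h2 : t * |(w : ℝ) * f - w' * f' - N| ≤ R + w * |d| + w' * |d'| := by
      rwa [abs_mul, abs_of_pos ht] at b2
    have h3 := mul_le_mul_of_nonneg_right h2 (mul_pos hk0 hk0').le
    have h4 : t * 1 ≤ t * (|(w : ℝ) * f - w' * f' - N| * (f.den * f'.den)) :=
      mul_le_mul_of_nonneg_left h1 ht.le
    have h5 : t * (|(w : ℝ) * f - w' * f' - N| * (f.den * f'.den)) =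
        t * |(w : ℝ) * f - w' * f' - N| * (f.den * f'.den) := by ring
    rw [h5, mul_one] at h4
    exact absurd ((h4.trans h3).trans_lt b4) (lt_irrefl _)
  refine ⟨⟨N, by linarith⟩, ?_⟩
  rw [hz, mul_zero] at e
  have e4 : (w : ℝ) * d - w' * d' = t * (w * y - w' * y' - n) := by linarith
  have e5 : |(w : ℝ) * d - w' * d'| ≤ R := by rw [e4]; exact b1
  rw [abs_le] at e5 ⊢
  have f1 : (w : ℝ) * i ≤ w * d := mul_le_mul_of_nonneg_left a1 hw0
  have f2 : (w : ℝ) * d ≤ w * (i + 2) := mul_le_mul_of_nonneg_left a2.le hw0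
  have f3 : (w' : ℝ) * i' ≤ w' * d' := mul_le_mul_of_nonneg_left a1' hw0'
  have f4 : (w' : ℝ) * d' ≤ w' * (i' + 2) := mul_le_mul_of_nonneg_left a2'.le hw0'
  rw [mul_add] at f2 f4
  constructor <;> linarith [e5.1, e5.2]

/-- denominators of related fractions -/
lemma den_dvd {w w' : ℕ} {f f' : ℚ} {n : ℤ} (h : (w : ℝ) * f - w' * f' = n) :
    f.den ∣ w * f'.den := by
  have h1 : (w : ℚ) * f = n + w' * f' := by
    have : ((w : ℚ) * f : ℚ) - w' * f' = n := by exact_mod_cast h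
    linarith
  have h2 : (w : ℚ) * f'.den * f = ((n * f'.den + w' * f'.num : ℤ) : ℚ) := by
    have h3 : (f' : ℚ) * f'.den = f'.num := Rat.mul_den_eq_num f'
    calc (w : ℚ) * f'.den * f = (w * f) * f'.den := by ring
      _ = (n + w' * f') * f'.den := by rw [h1]
      _ = n * f'.den + w' * (f' * f'.den) := by ring
      _ = _ := by rw [h3]; push_cast; ring
  have h4 : ((w * f'.den : ℕ) : ℚ) * f = ((n * f'.den + w' * f'.num : ℤ) : ℚ) := by
    push_cast at h2 ⊢
    exact h2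
  -- `q f ∈ ℤ` implies `den f ∣ q`
  have h5 : ((w * f'.den : ℕ) : ℤ) * f.num = (n * f'.den + w' * f'.num) * f.den := by
    have h6 : (f : ℚ) * f.den = f.num := Rat.mul_den_eq_num f
    have h7 : (((w * f'.den : ℕ) : ℤ) : ℚ) * (f.num : ℚ) =
        ((n * f'.den + w' * f'.num : ℤ) : ℚ) * (f.den : ℚ) := by
      rw [← h6, ← h4]
      push_cast
      ring
    exact_mod_cast h7
  have h8 : (f.den : ℤ) ∣ ((w * f'.den : ℕ) : ℤ) * f.num := by
    rw [h5]
    exact dvd_mul_left _ _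
  have h9 : IsCoprime (f.den : ℤ) f.num := by
    rw [Int.isCoprime_iff_gcd_eq_one, Int.gcd_comm]
    have := f.reduced
    rw [Int.gcd]
    simpa using this
  exact_mod_cast h9.dvd_of_dvd_mul_right h8

/-- **depths of two related light keys** -/
theorem K_le {R : ℝ} (hR : 0 ≤ R) {w w' : ℕ} (hw : 0 < w) {f f' : ℚ} {i i' n : ℤ}
    (h : (w : ℝ) * f - w' * f' = n) (hi : |(w : ℝ) * i - w' * i'| ≤ R + 2 * w + 2 * w') :
    (f.den : ℝ) * (|(i : ℝ)| + 2) ≤ (w' + 2 * w + R) * ((f'.den : ℝ) * (|(i' : ℝ)| + 2)) +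
      2 * w' * f'.den := by
  have hw0 : (0 : ℝ) < w := by exact_mod_cast hw
  have h1 : (f.den : ℝ) ≤ w * f'.den := by
    exact_mod_cast Nat.le_of_dvd (Nat.mul_pos hw f'.den_pos) (den_dvd h)
  have hk' : (0 : ℝ) ≤ f'.den := Nat.cast_nonneg _
  have h2 : (w : ℝ) * |(i : ℝ)| ≤ w' * |(i' : ℝ)| + R + 2 * w + 2 * w' := by
    have s1 : (w : ℝ) * i = (w * i - w' * i') + w' * i' := by ring
    have s2 : |(w : ℝ) * i| ≤ |(w : ℝ) * i - w' * i'| + |(w' : ℝ) * i'| := by
      conv_lhs => rw [s1]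
      exact abs_add_le _ _
    rw [abs_mul, Nat.abs_cast, abs_mul, Nat.abs_cast] at s2
    linarith
  have hi0 := abs_nonneg (i : ℝ)
  have hi0' := abs_nonneg (i' : ℝ)
  have hw0' : (0 : ℝ) ≤ w' := Nat.cast_nonneg _
  calc (f.den : ℝ) * (|(i : ℝ)| + 2) ≤ (w * f'.den) * (|(i : ℝ)| + 2) :=
        mul_le_mul_of_nonneg_right h1 (by linarith)
    _ = f'.den * (w * |(i : ℝ)| + 2 * w) := by ring
    _ ≤ f'.den * (w' * |(i' : ℝ)| + R + 4 * w + 2 * w') :=
        mul_le_mul_of_nonneg_left (by linarith) hk'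
    _ ≤ f'.den * ((w' + 2 * w + R) * (|(i' : ℝ)| + 2) + 2 * w') := by
        refine mul_le_mul_of_nonneg_left ?_ hk'
        nlinarith [mul_nonneg hR hi0', mul_nonneg hw0.le hi0']
    _ = _ := by ring

/-! ### cells of `Cell_863` in a window -/

/-- the point `y` lies in the cell `n` of the grid of mesh `ε` and shift `σ` (modulo 1) -/
def InC (σ ε : ℝ) (n : ℤ) (y : ℝ) : Prop :=
  ∃ m : ℤ, ((n : ℝ) - σ) * ε ≤ y - m ∧ y - m < ((n : ℝ) + 1 - σ) * ε

lemma near_of_InC {t σ ε : ℝ} (ht : 0 < t) {n : ℤ} {y y' : ℝ} (h : InC σ ε n y)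
    (h' : InC σ ε n y') : Near t (t * ε) y y' := by
  obtain ⟨m, h1, h2⟩ := h
  obtain ⟨m', h1', h2'⟩ := h'
  refine ⟨m - m', ?_⟩
  have e : t * ε / t = ε := by field_simp
  rw [e, abs_le]
  push_cast
  constructor <;> nlinarith

open Classical in
/-- the number of cells (residues modulo `Q`, `Q ε = 1`) meeting a window -/
theorem cell_window {t c σ ε : ℝ} {Q : ℕ} (ht : 0 < t) (hc : 0 ≤ c) (hQ : (Q : ℝ) * ε = 1)
    (hε : 0 < ε) (Keys : Finset ℤ) (hkey : ∀ n ∈ Keys, 0 ≤ n ∧ n < Q) (z : ℝ) :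
    ((Keys.filter fun n => ∃ y, Near t c y z ∧ InC σ ε n y).card : ℝ) ≤
      4 * c / (t * ε) + 3 := by
  set s := Keys.filter fun n => ∃ y, Near t c y z ∧ InC σ ε n y with hs
  have hD : 0 ≤ 2 * c / (t * ε) := by positivity
  rcases s.eq_empty_or_nonempty with h0 | ⟨n0, hn0⟩
  · rw [h0, card_empty, Nat.cast_zero]
    have : 0 ≤ 4 * c / (t * ε) := by positivity
    linarith
  -- every cell of `s` is `n0 + j` modulo `Q` with `|j| ≤ 2c/(tε) + 1`
  have key : ∀ n ∈ s, ∃ j : ℤ, |(j : ℝ)| < 2 * c / (t * ε) + 1 ∧ n ≡ n0 + j [ZMOD Q] := by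
    intro n hn
    rw [hs, mem_filter] at hn hn0
    obtain ⟨-, y, h1, m, a1, a2⟩ := hn
    obtain ⟨-, y', h1', m', a1', a2'⟩ := hn0
    obtain ⟨k, hk⟩ := h1.trans h1'.symm
    have hQm : ∀ a : ℤ, ((a * Q : ℤ) : ℝ) * ε = a := by
      intro a
      push_cast
      rw [mul_assoc, hQ, mul_one]
    refine ⟨n - n0 - (k - m + m') * Q, ?_, ?_⟩
    · have e1 : (((n - n0 - (k - m + m') * Q : ℤ) : ℝ)) * ε =
          ((n : ℝ) - σ) * ε - ((n0 : ℝ) - σ) * ε - ((k : ℝ) - m + m') := by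
        have h2 := hQm (k - m + m')
        push_cast at h2 ⊢
        linear_combination (-1 : ℝ) * h2
      have hk2 : |y - y' - k| ≤ 2 * c / t := by
        refine hk.trans (le_of_eq (by ring))
      rw [abs_le] at hk2
      have b1 : |(((n - n0 - (k - m + m') * Q : ℤ) : ℝ)) * ε| < 2 * c / t + ε := by
        rw [e1, abs_lt]
        constructor <;> nlinarith [hk2.1, hk2.2]
      rw [abs_mul, abs_of_pos hε] at b1
      have b2 : (2 * c / (t * ε) + 1) * ε = 2 * c / t + ε := by field_simp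
      rw [← b2] at b1
      exact lt_of_mul_lt_mul_right b1 hε.le
    · exact Int.modEq_iff_dvd.2 ⟨-(k - m + m'), by ring⟩
  choose! J hJ1 hJ2 using key
  have hinj : Set.InjOn J (s : Set ℤ) := by
    intro n hn n' hn' h
    have hn1 : n ∈ s := by simpa using hn
    have hn1' : n' ∈ s := by simpa using hn'
    have e1 := (hJ2 n hn1).trans ((h ▸ (hJ2 n' hn1').symm : n0 + J n ≡ n' [ZMOD Q]))
    have b := hkey n (mem_filter.1 (hs ▸ hn1)).1
    have b' := hkey n' (mem_filter.1 (hs ▸ hn1')).1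
    have e2 : n % Q = n' % Q := e1
    rwa [Int.emod_eq_of_lt b.1 b.2, Int.emod_eq_of_lt b'.1 b'.2] at e2
  rw [← card_image_of_injOn hinj]
  refine (card_int_le (D := 4 * c / (t * ε) + 2) (by positivity) ?_).trans
    (le_of_eq (by ring))
  intro i hi j hj
  obtain ⟨n, hn, rfl⟩ := mem_image.1 hi
  obtain ⟨n', hn', rfl⟩ := mem_image.1 hj
  have h1 := (hJ1 n hn).le
  have h2 := (hJ1 n' hn').le
  have e : 4 * c / (t * ε) = 2 * c / (t * ε) + 2 * c / (t * ε) := by ring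
  rw [abs_le] at h1 h2 ⊢
  rw [e]
  constructor <;> linarith [h1.1, h1.2, h2.1, h2.2]

/-- the points of a word lie in its cell -/
lemma inC_of_floor {γ μ σ e : ℝ} (hμ : 0 < μ) (he : 0 < e) {Q : ℕ} (hQ : (Q : ℝ) * μ = e)
    (b n : ℤ) (X : ℝ) (hb : b = ⌊X * γ / μ + σ⌋) (hn : b ≡ n [ZMOD Q]) :
    InC σ (μ / e) n (X * γ / e) := by
  obtain ⟨k, hk⟩ := Int.modEq_iff_dvd.1 hn.symm
  refine ⟨k, ?_⟩
  have h1 := Int.floor_le (X * γ / μ + σ)
  have h2 := Int.lt_floor_add_one (X * γ / μ + σ)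
  rw [← hb] at h1 h2
  have h3 : (b : ℝ) = n + Q * k := by
    have : b = n + Q * k := by linarith
    exact_mod_cast this
  have e1 : X * γ / e - k = (X * γ / μ - Q * k) * (μ / e) := by
    rw [sub_mul, ← hQ]
    have hQ0 : (Q : ℝ) ≠ 0 := by
      intro h
      rw [h, zero_mul] at hQ
      linarith
    field_simp
  rw [e1]
  have hpos : 0 < μ / e := by positivity
  constructor
  · exact mul_le_mul_of_nonneg_right (by linarith) hpos.le
  · exact mul_lt_mul_of_pos_right (by linarith) hpos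

end Crest.Agent.R4C.GWlinkx256
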