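import Mathlib

/-!
# GW-MAX (helper13, notes 3516, 3629; = 656's 3537)

Maximal form of the GW lemma.  Finite space `Om`, natural weights `ν ≥ 0`, `f : Om → [0,1]`.
Nodes `n ∈ N` with sets `S n ⊆ Om`, masses `m n > 0` (the mass of the PREFIX class, not of `S n`),
levels `lv n`; nodes of one level are nested or disjoint.

HYPOTHESIS (natural law, relative to `m n`, at every node):
`∑_{w ∈ S n, 1 - om_i w ≤ s} ν w ≤ C1 (s + κ n) m n`, `i = lv n`, `0 ≤ s ≤ 1`.

CONCLUSION `gw_max`: the pairs (d born at n, c ∈ S n), weighted by `min (W_i d) (W_i c) / m n`,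
cost at most `(11 r C1 + 8 C1 K) ∑ ν f`, where `W_{i+r} ≤ om_i W_i`, `∑_i κ_i ≤ K`.
-/

namespace Crest.Agent.R4C.GWmaxx13

open Finset MeasureTheory

/-- indicator of `y < u` -/
noncomputable def ind (y u : ℝ) : ℝ := if y < u then 1 else 0

lemma ind_nonneg (y u : ℝ) : 0 ≤ ind y u := by unfold ind; split_ifs <;> norm_num

lemma ind_le_one (y u : ℝ) : ind y u ≤ 1 := by unfold ind; split_ifs <;> norm_num

lemma ind_anti (u : ℝ) : Antitone (fun y => ind y u) := by
  intro a b hab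
  unfold ind
  by_cases h : b < u
  · have : a < u := lt_of_le_of_lt hab h
    simp [h, this]
  · simp only [h, if_false]
    split_ifs <;> norm_num

lemma ind_mul (y u v : ℝ) : ind y u * ind y v = ind y (min u v) := by
  unfold ind
  by_cases h1 : y < u <;> by_cases h2 : y < v <;> simp [h1, h2]

lemma ind_int (u : ℝ) : IntervalIntegrable (fun y => ind y u) volume 0 1 :=
  (ind_anti u).intervalIntegrable

lemma int_ind_aux (u : ℝ) :
    ∫ y in (0:ℝ)..1, ind y u = volume.real (Set.Iio u ∩ Set.Ioc 0 1) := by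
  rw [intervalIntegral.integral_of_le zero_le_one]
  have h : (fun y => ind y u) = Set.indicator (Set.Iio u) (fun _ => (1:ℝ)) := by
    funext y
    by_cases h : y < u
    · simp [ind, Set.indicator, h]
    · simp [ind, Set.indicator, h]
  rw [h, MeasureTheory.integral_indicator measurableSet_Iio]
  rw [Measure.restrict_restrict measurableSet_Iio]
  simp [Measure.real]

lemma int_ind {u : ℝ} (h0 : 0 ≤ u) (h1 : u ≤ 1) : ∫ y in (0:ℝ)..1, ind y u = u := by
  rw [int_ind_aux]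
  have : Set.Iio u ∩ Set.Ioc (0:ℝ) 1 = Set.Ioo 0 u := by
    ext y
    simp only [Set.mem_inter_iff, Set.mem_Iio, Set.mem_Ioc, Set.mem_Ioo]
    constructor
    · rintro ⟨a, b, c⟩; exact ⟨b, a⟩
    · rintro ⟨a, b⟩; exact ⟨b, a, by linarith⟩
  rw [this]
  simp [Measure.real, h0]

lemma int_ind_le {v : ℝ} (h0 : 0 ≤ v) : ∫ y in (0:ℝ)..1, ind y v ≤ v := by
  by_cases h1 : v ≤ 1
  · rw [int_ind h0 h1]
  · push Not at h1
    have : ∫ y in (0:ℝ)..1, ind y v ≤ ∫ _y in (0:ℝ)..1, (1:ℝ) := by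
      apply intervalIntegral.integral_mono_on zero_le_one (ind_int v) (by simp)
      intro y _
      exact ind_le_one y v
    simp at this
    linarith

lemma sum_int {β : Type*} (J : Finset β) (b v : β → ℝ) :
    IntervalIntegrable (fun y => ∑ j ∈ J, b j * ind y (v j)) volume 0 1 := by
  have h := IntervalIntegrable.sum (μ := volume) (a := (0:ℝ)) (b := 1) J
    (f := fun j y => b j * ind y (v j)) (fun j _ => (ind_int (v j)).const_mul (b j))
  have e : (∑ j ∈ J, fun y => b j * ind y (v j)) = fun y => ∑ j ∈ J, b j * ind y (v j) := by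
    funext y
    simp [Finset.sum_apply]
  rw [e] at h
  exact h

/-- layer cake: an inequality between indicator sums for every threshold `y ∈ (0,1)` integrates. -/
lemma layer {α β γ : Type*} (I : Finset α) (J : Finset β) (J' : Finset γ)
    (a u : α → ℝ) (b v : β → ℝ) (c w : γ → ℝ)
    (hu0 : ∀ i ∈ I, 0 ≤ u i) (hu1 : ∀ i ∈ I, u i ≤ 1)
    (hb : ∀ j ∈ J, 0 ≤ b j) (hv : ∀ j ∈ J, 0 ≤ v j)
    (hc : ∀ j ∈ J', 0 ≤ c j) (hw : ∀ j ∈ J', 0 ≤ w j)
    (H : ∀ y : ℝ, 0 < y → y < 1 →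
      ∑ i ∈ I, a i * ind y (u i) ≤ ∑ j ∈ J, b j * ind y (v j) + ∑ j ∈ J', c j * ind y (w j)) :
    ∑ i ∈ I, a i * u i ≤ ∑ j ∈ J, b j * v j + ∑ j ∈ J', c j * w j := by
  have e1 : ∫ y in (0:ℝ)..1, ∑ i ∈ I, a i * ind y (u i) = ∑ i ∈ I, a i * u i := by
    rw [intervalIntegral.integral_finsetSum]
    · apply Finset.sum_congr rfl
      intro i hi
      rw [intervalIntegral.integral_const_mul, int_ind (hu0 i hi) (hu1 i hi)]
    · intro i _
      exact (ind_int (u i)).const_mul (a i)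
  have i1 := sum_int I a u
  have i2 := sum_int J b v
  have i3 := sum_int J' c w
  have e2 : ∫ y in (0:ℝ)..1, ∑ j ∈ J, b j * ind y (v j) ≤ ∑ j ∈ J, b j * v j := by
    rw [intervalIntegral.integral_finsetSum]
    · apply Finset.sum_le_sum
      intro j hj
      rw [intervalIntegral.integral_const_mul]
      exact mul_le_mul_of_nonneg_left (int_ind_le (hv j hj)) (hb j hj)
    · intro j _
      exact (ind_int (v j)).const_mul (b j)
  have e3 : ∫ y in (0:ℝ)..1, ∑ j ∈ J', c j * ind y (w j) ≤ ∑ j ∈ J', c j * w j := by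
    rw [intervalIntegral.integral_finsetSum]
    · apply Finset.sum_le_sum
      intro j hj
      rw [intervalIntegral.integral_const_mul]
      exact mul_le_mul_of_nonneg_left (int_ind_le (hw j hj)) (hc j hj)
    · intro j _
      exact (ind_int (w j)).const_mul (c j)
  have e4 : ∫ y in (0:ℝ)..1, ∑ i ∈ I, a i * ind y (u i) ≤
      ∫ y in (0:ℝ)..1, (∑ j ∈ J, b j * ind y (v j) + ∑ j ∈ J', c j * ind y (w j)) := by
    apply intervalIntegral.integral_mono_on_of_le_Ioo zero_le_one i1 (i2.add i3)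
    intro y hy
    exact H y hy.1 hy.2
  rw [intervalIntegral.integral_add i2 i3] at e4
  linarith

variable {Ω ι : Type*}

open Classical in
/-- a laminar family has a disjoint subfamily of maximal sets covering everything -/
lemma max_cover (F : Finset (Finset Ω))
    (hlam : ∀ s ∈ F, ∀ t ∈ F, s ⊆ t ∨ t ⊆ s ∨ Disjoint s t) :
    ∃ M ⊆ F, (∀ s ∈ F, ∃ t ∈ M, s ⊆ t) ∧ (M : Set (Finset Ω)).PairwiseDisjoint id := by
  refine ⟨F.filter (fun s => ∀ t ∈ F, s ⊆ t → t ⊆ s), Finset.filter_subset _ _, ?_, ?_⟩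
  · intro s hs
    obtain ⟨t, hst, ht⟩ := Finset.exists_le_maximal F hs
    refine ⟨t, ?_, hst⟩
    rw [Finset.mem_filter]
    exact ⟨ht.1, fun t' ht' h => ht.2 ht' h⟩
  · intro s hs t ht hne
    simp only [Finset.coe_filter, Set.mem_ofPred_eq] at hs ht
    rcases hlam s hs.1 t ht.1 with h | h | h
    · exact absurd (Finset.Subset.antisymm h (hs.2 t ht.1 h)) hne
    · exact absurd (Finset.Subset.antisymm (ht.2 s hs.1 h) h) hne
    · exact h

open Classical in
/-- one level, one threshold -/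
lemma level_lam (Om : Finset Ω) (N : Finset ι) (S Bi : ι → Finset Ω) (m κ : ι → ℝ)
    (ν f om ks : Ω → ℝ) (C1 : ℝ) (hC : 1 ≤ C1)
    (hS : ∀ n ∈ N, S n ⊆ Om) (hBi : ∀ n ∈ N, Bi n ⊆ S n)
    (hm : ∀ n ∈ N, 0 < m n) (hν : ∀ w ∈ Om, 0 ≤ ν w)
    (hf0 : ∀ w ∈ Om, 0 ≤ f w) (hf1 : ∀ w ∈ Om, f w ≤ 1)
    (hlam : ∀ n ∈ N, ∀ n' ∈ N, S n ⊆ S n' ∨ S n' ⊆ S n ∨ Disjoint (S n) (S n'))
    (hdis : ∀ n ∈ N, ∀ n' ∈ N, n ≠ n' → Disjoint (Bi n) (Bi n'))
    (hks : ∀ n ∈ N, ∀ w ∈ S n, κ n ≤ ks w)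
    (hyp : ∀ n ∈ N, ∀ s, 0 ≤ s → s ≤ 1 →
      ∑ w ∈ (S n).filter (fun w => 1 - om w ≤ s), ν w ≤ C1 * (s + κ n) * m n)
    (y : ℝ) (hy0 : 0 < y) (hy1 : y < 1) :
    ∑ n ∈ N.filter (fun n => y < (∑ w ∈ S n, ν w * f w) / m n), ∑ d ∈ Bi n, ν d * f d ≤
      ∑ w ∈ Om, (4 / 3 * (ν w * f w)) * ind y (8 * C1 * (1 - om w)) +
      ∑ w ∈ Om, (ν w * f w) * ind y (8 * C1 * ks w) := by
  set Ny := N.filter (fun n => y < (∑ w ∈ S n, ν w * f w) / m n) with hNy
  have hνf : ∀ w ∈ Om, 0 ≤ ν w * f w := fun w hw => mul_nonneg (hν w hw) (hf0 w hw)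
  obtain ⟨M, hMF, hcov, hMd⟩ := max_cover (Ny.image S) (by
    intro s hs t ht
    rw [Finset.mem_image] at hs ht
    obtain ⟨n, hn, rfl⟩ := hs
    obtain ⟨n', hn', rfl⟩ := ht
    rw [hNy, Finset.mem_filter] at hn hn'
    exact hlam n hn.1 n' hn'.1)
  have hMs : ∀ g : Ω → ℝ, ∑ w ∈ M.biUnion id, g w = ∑ s ∈ M, ∑ w ∈ s, g w :=
    fun g => Finset.sum_biUnion hMd
  -- step 1: the births are inside the maximal sets
  have step1 : ∑ n ∈ Ny, ∑ d ∈ Bi n, ν d * f d ≤ ∑ s ∈ M, ∑ w ∈ s, ν w * f w := by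
    rw [← Finset.sum_biUnion (s := Ny) (t := Bi)]
    · rw [← hMs]
      apply Finset.sum_le_sum_of_subset_of_nonneg
      · intro d hd
        rw [Finset.mem_biUnion] at hd ⊢
        obtain ⟨n, hn, hdn⟩ := hd
        obtain ⟨t, ht, hst⟩ := hcov (S n) (Finset.mem_image_of_mem S hn)
        have hnN : n ∈ N := (Finset.mem_filter.mp hn).1
        exact ⟨t, ht, hst (hBi n hnN hdn)⟩
      · intro w hw _
        rw [Finset.mem_biUnion] at hw
        obtain ⟨t, ht, hwt⟩ := hw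
        obtain ⟨n, hn, rfl⟩ := Finset.mem_image.mp (hMF ht)
        exact hνf w (hS n (Finset.mem_filter.mp hn).1 hwt)
    · intro n hn n' hn' hne
      exact hdis n (Finset.mem_filter.mp hn).1 n' (Finset.mem_filter.mp hn').1 hne
  -- step 2: inside one maximal set
  have step2 : ∀ s ∈ M, ∑ w ∈ s, ν w * f w ≤
      ∑ w ∈ s, (4 / 3 * (ν w * f w)) * ind y (8 * C1 * (1 - om w)) +
      ∑ w ∈ s, (ν w * f w) * ind y (8 * C1 * ks w) := by
    intro s hs
    obtain ⟨n, hn, rfl⟩ := Finset.mem_image.mp (hMF hs)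
    rw [hNy, Finset.mem_filter] at hn
    obtain ⟨hnN, hny⟩ := hn
    have hmn := hm n hnN
    have hnn : ∀ w ∈ S n, 0 ≤ ν w * f w := fun w hw => hνf w (hS n hnN hw)
    by_cases hk : y < 8 * C1 * κ n
    · have h2 : ∑ w ∈ S n, (ν w * f w) * ind y (8 * C1 * ks w) = ∑ w ∈ S n, ν w * f w := by
        apply Finset.sum_congr rfl
        intro w hw
        have h3 := hks n hnN w hw
        have h4 : y < 8 * C1 * ks w := lt_of_lt_of_le hk (by
          apply mul_le_mul_of_nonneg_left h3; linarith)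
        simp [ind, h4]
      rw [h2]
      have h5 : 0 ≤ ∑ w ∈ S n, (4 / 3 * (ν w * f w)) * ind y (8 * C1 * (1 - om w)) := by
        apply Finset.sum_nonneg
        intro w hw
        have := hnn w hw
        have := ind_nonneg y (8 * C1 * (1 - om w))
        positivity
      linarith
    · push Not at hk
      have h2 : 0 ≤ ∑ w ∈ S n, (ν w * f w) * ind y (8 * C1 * ks w) := by
        apply Finset.sum_nonneg
        intro w hw
        exact mul_nonneg (hnn w hw) (ind_nonneg _ _)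
      -- the tiny part
      have hy8 : y / (8 * C1) ≤ 1 := by
        rw [div_le_one (by linarith)]; nlinarith
      have h3 := hyp n hnN (y / (8 * C1)) (by positivity) hy8
      have h4 : C1 * (y / (8 * C1) + κ n) * m n ≤ y / 4 * m n := by
        apply mul_le_mul_of_nonneg_right _ hmn.le
        have : C1 * (y / (8 * C1) + κ n) = y / 8 + C1 * κ n := by
          field_simp
        rw [this]
        have : C1 * κ n ≤ y / 8 := by linarith
        linarith
      have h5 : y * m n < ∑ w ∈ S n, ν w * f w := by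
        rw [lt_div_iff₀ hmn] at hny; exact hny
      have h6 : ∑ w ∈ (S n).filter (fun w => 1 - om w ≤ y / (8 * C1)), ν w * f w ≤
          ∑ w ∈ (S n).filter (fun w => 1 - om w ≤ y / (8 * C1)), ν w := by
        apply Finset.sum_le_sum
        intro w hw
        have hw' := hS n hnN (Finset.mem_filter.mp hw).1
        have := hf1 w hw'
        have := hν w hw'
        nlinarith
      have h7 := Finset.sum_filter_add_sum_filter_not (S n)
        (fun w => 1 - om w ≤ y / (8 * C1)) (fun w => ν w * f w)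
      have h8 : ∑ w ∈ S n, (4 / 3 * (ν w * f w)) * ind y (8 * C1 * (1 - om w)) =
          4 / 3 * ∑ w ∈ (S n).filter (fun w => ¬ (1 - om w ≤ y / (8 * C1))), ν w * f w := by
        rw [Finset.mul_sum, Finset.sum_filter]
        apply Finset.sum_congr rfl
        intro w _
        by_cases h : 1 - om w ≤ y / (8 * C1)
        · have h' : ¬ (y < 8 * C1 * (1 - om w)) := by
            push Not
            have := (le_div_iff₀ (by linarith : (0:ℝ) < 8 * C1)).mp h
            linarith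
          simp [ind, h, h']
        · have h' : y < 8 * C1 * (1 - om w) := by
            push Not at h
            have := (div_lt_iff₀ (by linarith : (0:ℝ) < 8 * C1)).mp h
            linarith
          simp [ind, h, h']
      rw [h8]
      linarith
  -- step 3: sum over the maximal sets
  have step3 : ∀ g : Ω → ℝ, (∀ w ∈ Om, 0 ≤ g w) → ∑ s ∈ M, ∑ w ∈ s, g w ≤ ∑ w ∈ Om, g w := by
    intro g hg
    rw [← hMs]
    apply Finset.sum_le_sum_of_subset_of_nonneg
    · intro w hw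
      rw [Finset.mem_biUnion] at hw
      obtain ⟨t, ht, hwt⟩ := hw
      obtain ⟨n, hn, rfl⟩ := Finset.mem_image.mp (hMF ht)
      exact hS n (Finset.mem_filter.mp hn).1 hwt
    · intro w hw _
      exact hg w hw
  calc ∑ n ∈ Ny, ∑ d ∈ Bi n, ν d * f d ≤ ∑ s ∈ M, ∑ w ∈ s, ν w * f w := step1
    _ ≤ ∑ s ∈ M, (∑ w ∈ s, (4 / 3 * (ν w * f w)) * ind y (8 * C1 * (1 - om w)) +
      ∑ w ∈ s, (ν w * f w) * ind y (8 * C1 * ks w)) := Finset.sum_le_sum step2
    _ = ∑ s ∈ M, ∑ w ∈ s, (4 / 3 * (ν w * f w)) * ind y (8 * C1 * (1 - om w)) +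
      ∑ s ∈ M, ∑ w ∈ s, (ν w * f w) * ind y (8 * C1 * ks w) := Finset.sum_add_distrib
    _ ≤ _ := by
      apply add_le_add
      · apply step3
        intro w hw
        have := hνf w hw
        have := ind_nonneg y (8 * C1 * (1 - om w))
        positivity
      · apply step3
        intro w hw
        exact mul_nonneg (hνf w hw) (ind_nonneg _ _)

/-- one level, no weight: `∑ ν f D_{n(d)} ≤ (32/3) C1 ∑ ν f (1-om) + 8 C1 ∑ ν f κ` -/
lemma level_D (Om : Finset Ω) (N : Finset ι) (S Bi : ι → Finset Ω) (m κ : ι → ℝ)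
    (ν f om ks : Ω → ℝ) (C1 : ℝ) (hC : 1 ≤ C1)
    (hS : ∀ n ∈ N, S n ⊆ Om) (hBi : ∀ n ∈ N, Bi n ⊆ S n)
    (hm : ∀ n ∈ N, 0 < m n) (hν : ∀ w ∈ Om, 0 ≤ ν w)
    (hf0 : ∀ w ∈ Om, 0 ≤ f w) (hf1 : ∀ w ∈ Om, f w ≤ 1)
    (hlam : ∀ n ∈ N, ∀ n' ∈ N, S n ⊆ S n' ∨ S n' ⊆ S n ∨ Disjoint (S n) (S n'))
    (hdis : ∀ n ∈ N, ∀ n' ∈ N, n ≠ n' → Disjoint (Bi n) (Bi n'))
    (hmass : ∀ n ∈ N, ∑ w ∈ S n, ν w * f w ≤ m n)
    (hom : ∀ w ∈ Om, om w ≤ 1) (hks0 : ∀ w ∈ Om, 0 ≤ ks w)
    (hks : ∀ n ∈ N, ∀ w ∈ S n, κ n ≤ ks w)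
    (hyp : ∀ n ∈ N, ∀ s, 0 ≤ s → s ≤ 1 →
      ∑ w ∈ (S n).filter (fun w => 1 - om w ≤ s), ν w ≤ C1 * (s + κ n) * m n) :
    ∑ n ∈ N, ∑ d ∈ Bi n, (ν d * f d) * ((∑ w ∈ S n, ν w * f w) / m n) ≤
      32 / 3 * C1 * ∑ w ∈ Om, ν w * f w * (1 - om w) + 8 * C1 * ∑ w ∈ Om, ν w * f w * ks w := by
  have hνf : ∀ w ∈ Om, 0 ≤ ν w * f w := fun w hw => mul_nonneg (hν w hw) (hf0 w hw)
  have key := layer (N.sigma Bi) Om Om
    (fun x => ν x.2 * f x.2) (fun x => (∑ w ∈ S x.1, ν w * f w) / m x.1)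
    (fun w => 4 / 3 * (ν w * f w)) (fun w => 8 * C1 * (1 - om w))
    (fun w => ν w * f w) (fun w => 8 * C1 * ks w)
    (by
      intro x hx
      rw [Finset.mem_sigma] at hx
      exact div_nonneg (Finset.sum_nonneg fun w hw => hνf w (hS _ hx.1 hw)) (hm _ hx.1).le)
    (by
      intro x hx
      rw [Finset.mem_sigma] at hx
      rw [div_le_one (hm _ hx.1)]
      exact hmass _ hx.1)
    (by intro w hw; have := hνf w hw; positivity)
    (by
      intro w hw
      have := hom w hw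
      have : 0 ≤ 1 - om w := by linarith
      positivity)
    (by intro w hw; exact hνf w hw)
    (by intro w hw; have := hks0 w hw; positivity)
    (by
      intro y hy0 hy1
      rw [Finset.sum_sigma]
      have e : ∑ n ∈ N, ∑ d ∈ Bi n, ν d * f d * ind y ((∑ w ∈ S n, ν w * f w) / m n) =
          ∑ n ∈ N.filter (fun n => y < (∑ w ∈ S n, ν w * f w) / m n), ∑ d ∈ Bi n, ν d * f d := by
        rw [Finset.sum_filter]
        apply Finset.sum_congr rfl
        intro n _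
        by_cases h : y < (∑ w ∈ S n, ν w * f w) / m n
        · simp [ind, h]
        · simp [ind, h]
      simp only
      rw [e]
      exact level_lam Om N S Bi m κ ν f om ks C1 hC hS hBi hm hν hf0 hf1 hlam hdis hks hyp
        y hy0 hy1)
  rw [Finset.sum_sigma] at key
  calc _ ≤ _ := key
    _ = _ := by
      rw [Finset.mul_sum, Finset.mul_sum]
      congr 1
      · apply Finset.sum_congr rfl; intro w _; ring
      · apply Finset.sum_congr rfl; intro w _; ring

/-- one level, pair weights `min (W d) (W c)`, any `W : Om → [0,1]` -/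
lemma level_W (Om : Finset Ω) (N : Finset ι) (S Bi : ι → Finset Ω) (m κ : ι → ℝ)
    (ν f om ks W : Ω → ℝ) (C1 : ℝ) (hC : 1 ≤ C1)
    (hS : ∀ n ∈ N, S n ⊆ Om) (hBi : ∀ n ∈ N, Bi n ⊆ S n)
    (hm : ∀ n ∈ N, 0 < m n) (hν : ∀ w ∈ Om, 0 ≤ ν w)
    (hf0 : ∀ w ∈ Om, 0 ≤ f w) (hf1 : ∀ w ∈ Om, f w ≤ 1)
    (hlam : ∀ n ∈ N, ∀ n' ∈ N, S n ⊆ S n' ∨ S n' ⊆ S n ∨ Disjoint (S n) (S n'))
    (hdis : ∀ n ∈ N, ∀ n' ∈ N, n ≠ n' → Disjoint (Bi n) (Bi n'))
    (hmass : ∀ n ∈ N, ∑ w ∈ S n, ν w * f w ≤ m n)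
    (hom : ∀ w ∈ Om, om w ≤ 1) (hks0 : ∀ w ∈ Om, 0 ≤ ks w)
    (hks : ∀ n ∈ N, ∀ w ∈ S n, κ n ≤ ks w)
    (hyp : ∀ n ∈ N, ∀ s, 0 ≤ s → s ≤ 1 →
      ∑ w ∈ (S n).filter (fun w => 1 - om w ≤ s), ν w ≤ C1 * (s + κ n) * m n)
    (hW0 : ∀ w ∈ Om, 0 ≤ W w) (hW1 : ∀ w ∈ Om, W w ≤ 1) :
    ∑ n ∈ N, ∑ d ∈ Bi n, ∑ c ∈ S n,
        (ν d * f d) * (ν c * f c) * min (W d) (W c) / m n ≤
      32 / 3 * C1 * ∑ w ∈ Om, ν w * f w * (1 - om w) * W w +
        8 * C1 * ∑ w ∈ Om, ν w * f w * ks w * W w := by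
  have hνf : ∀ w ∈ Om, 0 ≤ ν w * f w := fun w hw => mul_nonneg (hν w hw) (hf0 w hw)
  have key := layer (N.sigma (fun n => Bi n ×ˢ S n)) Om Om
    (fun x => (ν x.2.1 * f x.2.1) * (ν x.2.2 * f x.2.2) / m x.1)
    (fun x => min (W x.2.1) (W x.2.2))
    (fun w => 32 / 3 * C1 * (ν w * f w * (1 - om w))) W
    (fun w => 8 * C1 * (ν w * f w * ks w)) W
    (by
      intro x hx
      rw [Finset.mem_sigma, Finset.mem_product] at hx
      exact le_min (hW0 _ (hS _ hx.1 (hBi _ hx.1 hx.2.1))) (hW0 _ (hS _ hx.1 hx.2.2)))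
    (by
      intro x hx
      rw [Finset.mem_sigma, Finset.mem_product] at hx
      exact (min_le_right _ _).trans (hW1 _ (hS _ hx.1 hx.2.2)))
    (by
      intro w hw
      have h1 := hνf w hw
      have h2 : 0 ≤ 1 - om w := by have := hom w hw; linarith
      positivity)
    hW0
    (by
      intro w hw
      have h1 := hνf w hw
      have h2 := hks0 w hw
      positivity)
    hW0
    (by
      intro y hy0 hy1
      have h := level_D Om N S Bi m κ ν (fun w => f w * ind y (W w)) om ks C1 hC hS hBi hm hν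
        (fun w hw => mul_nonneg (hf0 w hw) (ind_nonneg _ _))
        (fun w hw => by
          have a1 := hf1 w hw
          have a2 := hf0 w hw
          have a3 := ind_nonneg y (W w)
          have a4 := ind_le_one y (W w)
          nlinarith)
        hlam hdis
        (fun n hn => by
          refine le_trans (Finset.sum_le_sum fun w hw => ?_) (hmass n hn)
          have a1 := hνf w (hS n hn hw)
          have a4 := ind_le_one y (W w)
          calc ν w * (f w * ind y (W w)) = (ν w * f w) * ind y (W w) := by ring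
            _ ≤ (ν w * f w) * 1 := mul_le_mul_of_nonneg_left a4 a1
            _ = ν w * f w := mul_one _)
        hom hks0 hks hyp
      have e1 : ∑ x ∈ N.sigma (fun n => Bi n ×ˢ S n),
          (ν x.2.1 * f x.2.1) * (ν x.2.2 * f x.2.2) / m x.1 *
            ind y (min (W x.2.1) (W x.2.2)) =
          ∑ n ∈ N, ∑ d ∈ Bi n, ν d * (f d * ind y (W d)) *
            ((∑ w ∈ S n, ν w * (f w * ind y (W w))) / m n) := by
        rw [Finset.sum_sigma]
        apply Finset.sum_congr rfl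
        intro n _
        rw [Finset.sum_product]
        apply Finset.sum_congr rfl
        intro d _
        rw [Finset.sum_div, Finset.mul_sum]
        apply Finset.sum_congr rfl
        intro c _
        rw [← ind_mul]
        ring
      have e2 : 32 / 3 * C1 * ∑ w ∈ Om, ν w * (f w * ind y (W w)) * (1 - om w) =
          ∑ w ∈ Om, 32 / 3 * C1 * (ν w * f w * (1 - om w)) * ind y (W w) := by
        rw [Finset.mul_sum]
        apply Finset.sum_congr rfl
        intro w _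
        ring
      have e3 : 8 * C1 * ∑ w ∈ Om, ν w * (f w * ind y (W w)) * ks w =
          ∑ w ∈ Om, 8 * C1 * (ν w * f w * ks w) * ind y (W w) := by
        rw [Finset.mul_sum]
        apply Finset.sum_congr rfl
        intro w _
        ring
      rw [e2, e3] at h
      rw [e1]
      exact h)
  have e4 : ∑ n ∈ N, ∑ d ∈ Bi n, ∑ c ∈ S n,
        (ν d * f d) * (ν c * f c) * min (W d) (W c) / m n =
      ∑ x ∈ N.sigma (fun n => Bi n ×ˢ S n),
        (ν x.2.1 * f x.2.1) * (ν x.2.2 * f x.2.2) / m x.1 * min (W x.2.1) (W x.2.2) := by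
    rw [Finset.sum_sigma]
    apply Finset.sum_congr rfl
    intro n _
    rw [Finset.sum_product]
    apply Finset.sum_congr rfl
    intro d _
    apply Finset.sum_congr rfl
    intro c _
    ring
  rw [e4]
  refine key.trans (le_of_eq ?_)
  rw [Finset.mul_sum, Finset.mul_sum]
  congr 1
  · apply Finset.sum_congr rfl; intro w _; ring
  · apply Finset.sum_congr rfl; intro w _; ring

/-- `∑_{i<J} (W_i - W_{i+r}) ≤ r` -/
lemma tele (W : ℕ → ℝ) (h0 : ∀ i, 0 ≤ W i) (h1 : ∀ i, W i ≤ 1) (r J : ℕ) :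
    ∑ i ∈ range J, (W i - W (i + r)) ≤ r := by
  have key : ∀ J : ℕ, ∑ i ∈ range J, (W i - W (i + r)) =
      ∑ i ∈ range r, W i - ∑ i ∈ range r, W (J + i) := by
    intro J
    induction J with
    | zero => simp
    | succ J ih =>
      rw [Finset.sum_range_succ, ih]
      have a : ∑ i ∈ range r, W (J + 1 + i) + W J = ∑ i ∈ range r, W (J + i) + W (J + r) := by
        have b1 := Finset.sum_range_succ (fun i => W (J + i)) r
        have b2 := Finset.sum_range_succ' (fun i => W (J + i)) r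
        have b3 : ∑ i ∈ range r, W (J + 1 + i) = ∑ i ∈ range r, W (J + (i + 1)) := by
          apply Finset.sum_congr rfl
          intro i _
          congr 1
          omega
        simp only [add_zero] at b2
        rw [b3]
        linarith
      linarith
  rw [key]
  have h2 : ∑ i ∈ range r, W i ≤ ∑ _i ∈ range r, (1:ℝ) := Finset.sum_le_sum fun i _ => h1 i
  have h3 : 0 ≤ ∑ i ∈ range r, W (J + i) := Finset.sum_nonneg fun i _ => h0 _
  simp at h2
  linarith

open Classical in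
/-- **GW-MAX** (notes 3516, 3629). -/
theorem gw_max (Om : Finset Ω) (N : Finset ι) (lv : ι → ℕ) (J r : ℕ)
    (S Bi : ι → Finset Ω) (m κ : ι → ℝ)
    (ν f : Ω → ℝ) (om ks W : ℕ → Ω → ℝ) (C1 K : ℝ) (hC : 1 ≤ C1)
    (hlv : ∀ n ∈ N, lv n < J)
    (hS : ∀ n ∈ N, S n ⊆ Om) (hBi : ∀ n ∈ N, Bi n ⊆ S n)
    (hm : ∀ n ∈ N, 0 < m n) (hν : ∀ w ∈ Om, 0 ≤ ν w)
    (hf0 : ∀ w ∈ Om, 0 ≤ f w) (hf1 : ∀ w ∈ Om, f w ≤ 1)
    -- nodes of one level are nested or disjoint
    (hlam : ∀ n ∈ N, ∀ n' ∈ N, lv n = lv n' →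
      S n ⊆ S n' ∨ S n' ⊆ S n ∨ Disjoint (S n) (S n'))
    -- a word is born at most once in each level
    (hdis : ∀ n ∈ N, ∀ n' ∈ N, lv n = lv n' → n ≠ n' → Disjoint (Bi n) (Bi n'))
    (hmass : ∀ n ∈ N, ∑ w ∈ S n, ν w * f w ≤ m n)
    (hom : ∀ i, ∀ w ∈ Om, om i w ≤ 1) (hks0 : ∀ i, ∀ w ∈ Om, 0 ≤ ks i w)
    (hks : ∀ n ∈ N, ∀ w ∈ S n, κ n ≤ ks (lv n) w)
    (hK : ∀ w ∈ Om, ∑ i ∈ range J, ks i w ≤ K)
    -- natural law, relative to the prefix mass `m n`
    (hyp : ∀ n ∈ N, ∀ s, 0 ≤ s → s ≤ 1 →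
      ∑ w ∈ (S n).filter (fun w => 1 - om (lv n) w ≤ s), ν w ≤ C1 * (s + κ n) * m n)
    (hW0 : ∀ i, ∀ w ∈ Om, 0 ≤ W i w) (hW1 : ∀ i, ∀ w ∈ Om, W i w ≤ 1)
    (hdrop : ∀ i, ∀ w ∈ Om, W (i + r) w ≤ om i w * W i w) :
    ∑ n ∈ N, ∑ d ∈ Bi n, ∑ c ∈ S n,
        (ν d * f d) * (ν c * f c) * min (W (lv n) d) (W (lv n) c) / m n ≤
      (11 * r * C1 + 8 * C1 * K) * ∑ w ∈ Om, ν w * f w := by
  have hνf : ∀ w ∈ Om, 0 ≤ ν w * f w := fun w hw => mul_nonneg (hν w hw) (hf0 w hw)
  -- split into levels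
  have e0 : ∑ n ∈ N, ∑ d ∈ Bi n, ∑ c ∈ S n,
        (ν d * f d) * (ν c * f c) * min (W (lv n) d) (W (lv n) c) / m n =
      ∑ i ∈ range J, ∑ n ∈ N.filter (fun n => lv n = i), ∑ d ∈ Bi n, ∑ c ∈ S n,
        (ν d * f d) * (ν c * f c) * min (W i d) (W i c) / m n := by
    rw [← Finset.sum_fiberwise_of_maps_to (s := N) (t := range J) (g := lv)
      (fun n hn => Finset.mem_range.mpr (hlv n hn))]
    apply Finset.sum_congr rfl
    intro i _
    apply Finset.sum_congr rfl
    intro n hn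
    rw [(Finset.mem_filter.mp hn).2]
  have lev : ∀ i ∈ range J,
      ∑ n ∈ N.filter (fun n => lv n = i), ∑ d ∈ Bi n, ∑ c ∈ S n,
        (ν d * f d) * (ν c * f c) * min (W i d) (W i c) / m n ≤
      32 / 3 * C1 * ∑ w ∈ Om, ν w * f w * (1 - om i w) * W i w +
        8 * C1 * ∑ w ∈ Om, ν w * f w * ks i w * W i w := by
    intro i _
    apply level_W Om (N.filter (fun n => lv n = i)) S Bi m κ ν f (om i) (ks i) (W i) C1 hC
    · intro n hn; exact hS n (Finset.mem_filter.mp hn).1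
    · intro n hn; exact hBi n (Finset.mem_filter.mp hn).1
    · intro n hn; exact hm n (Finset.mem_filter.mp hn).1
    · exact hν
    · exact hf0
    · exact hf1
    · intro n hn n' hn'
      have a := Finset.mem_filter.mp hn
      have b := Finset.mem_filter.mp hn'
      exact hlam n a.1 n' b.1 (a.2.trans b.2.symm)
    · intro n hn n' hn' hne
      have a := Finset.mem_filter.mp hn
      have b := Finset.mem_filter.mp hn'
      exact hdis n a.1 n' b.1 (a.2.trans b.2.symm) hne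
    · intro n hn; exact hmass n (Finset.mem_filter.mp hn).1
    · exact hom i
    · exact hks0 i
    · intro n hn w hw
      have a := Finset.mem_filter.mp hn
      have := hks n a.1 w hw
      rw [a.2] at this
      exact this
    · intro n hn s hs0 hs1
      have a := Finset.mem_filter.mp hn
      have := hyp n a.1 s hs0 hs1
      rw [a.2] at this
      exact this
    · exact hW0 i
    · exact hW1 i
  rw [e0]
  refine (Finset.sum_le_sum lev).trans ?_
  rw [Finset.sum_add_distrib, ← Finset.mul_sum, ← Finset.mul_sum]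
  rw [Finset.sum_comm, Finset.sum_comm (s := range J) (t := Om)
    (f := fun i w => ν w * f w * ks i w * W i w)]
  have h1 : ∑ w ∈ Om, ∑ i ∈ range J, ν w * f w * (1 - om i w) * W i w ≤
      ∑ w ∈ Om, ν w * f w * r := by
    apply Finset.sum_le_sum
    intro w hw
    have a : ∑ i ∈ range J, ν w * f w * (1 - om i w) * W i w ≤
        ∑ i ∈ range J, ν w * f w * (W i w - W (i + r) w) := by
      apply Finset.sum_le_sum
      intro i _
      have b := hdrop i w hw
      have c := hνf w hw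
      calc ν w * f w * (1 - om i w) * W i w = ν w * f w * (W i w - om i w * W i w) := by ring
        _ ≤ ν w * f w * (W i w - W (i + r) w) := by
          apply mul_le_mul_of_nonneg_left _ c
          linarith
    refine a.trans ?_
    rw [← Finset.mul_sum]
    exact mul_le_mul_of_nonneg_left
      (tele (fun i => W i w) (fun i => hW0 i w hw) (fun i => hW1 i w hw) r J) (hνf w hw)
  have h2 : ∑ w ∈ Om, ∑ i ∈ range J, ν w * f w * ks i w * W i w ≤
      ∑ w ∈ Om, ν w * f w * K := by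
    apply Finset.sum_le_sum
    intro w hw
    have c := hνf w hw
    have a : ∑ i ∈ range J, ν w * f w * ks i w * W i w ≤
        ∑ i ∈ range J, ν w * f w * ks i w := by
      apply Finset.sum_le_sum
      intro i _
      have b := hks0 i w hw
      have d := hW1 i w hw
      have e : 0 ≤ ν w * f w * ks i w := mul_nonneg c b
      nlinarith
    refine a.trans ?_
    rw [← Finset.mul_sum]
    exact mul_le_mul_of_nonneg_left (hK w hw) c
  rw [← Finset.sum_mul] at h1 h2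
  have h0 : 0 ≤ ∑ w ∈ Om, ν w * f w := Finset.sum_nonneg hνf
  have h3 : 32 / 3 * C1 * ∑ w ∈ Om, ∑ i ∈ range J, ν w * f w * (1 - om i w) * W i w ≤
      32 / 3 * C1 * ((∑ w ∈ Om, ν w * f w) * r) :=
    mul_le_mul_of_nonneg_left h1 (by linarith)
  have h4 : 8 * C1 * ∑ w ∈ Om, ∑ i ∈ range J, ν w * f w * ks i w * W i w ≤
      8 * C1 * ((∑ w ∈ Om, ν w * f w) * K) :=
    mul_le_mul_of_nonneg_left h2 (by linarith)
  have h5 : 0 ≤ C1 * ((∑ w ∈ Om, ν w * f w) * (r:ℝ)) := by
    have : (0:ℝ) ≤ r := Nat.cast_nonneg r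
    have : 0 ≤ C1 := by linarith
    positivity
  nlinarith

end Crest.Agent.R4C.GWmaxx13
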