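import Crest.Agent.R4C.GW_972

/-!
# Row 4, GW LEMMA with word-dependent weights (note 3102 (1)); helper18

Pair weight `min (W_n b) (W_n c)` instead of a weight constant on the node (layer cake over
`GWx972.node_bound`).  So the labels of a word inside the coin zones may depend on `B` and on the
word itself.

* `gw_min` : nodes `n ∈ Nd`, fibre `F n` (natural law), members `S n ⊆ F n ∩ B`, weights
  `W n b ∈ [0,1]` (any function of `n` and `b`), next-step ratio `om n b ≤ 1`; if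
  `ν(1 - om ≤ s | F n) ≤ C1 (s + kap n)`, `∑_{n ∋ b} W n b (1 - om n b) ≤ 1`,
  `∑_{n ∋ b} kap n ≤ K`, then
  `∑_n (∑_{b,c ∈ S n} ν b f b ν c f c min (W n b) (W n c)) / ν (F n) ≤ (16 C1 + 2 C1 K) ∑_B ν f`.
* `gw_min_levels` : levels `j < J`, `W (j+1) b = W j b * om`, telescoping is automatic.
* `gw_min_weight` : any pair weight `w n b c ≤ min (W n b) (W n c)`.
-/

set_option autoImplicit false
set_option linter.unusedSectionVars false

open Finset MeasureTheory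

noncomputable section

namespace Crest.Agent.R4C.GWminx18

lemma ind_eq (W : ℝ) :
    (fun x : ℝ => if x < W then (1:ℝ) else 0) = (Set.Iio W).indicator (fun _ => (1:ℝ)) := by
  funext x
  by_cases hx : x < W
  · simp [hx]
  · simp [hx]

/-- `∫_{(0,1]} 1[x<W] dx = W` -/
lemma int_ind (W : ℝ) (h0 : 0 ≤ W) (h1 : W ≤ 1) :
    ∫ x in Set.Ioc (0:ℝ) 1, (if x < W then (1:ℝ) else 0) = W := by
  rw [ind_eq, setIntegral_indicator measurableSet_Iio, setIntegral_const, smul_eq_mul, mul_one]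
  have h2 : (Set.Ioc (0:ℝ) 1 ∩ Set.Iio W : Set ℝ) = Set.Ioo 0 W := by
    ext x
    simp only [Set.mem_inter_iff, Set.mem_Ioc, Set.mem_Iio, Set.mem_Ioo]
    constructor
    · rintro ⟨⟨a, _⟩, c⟩; exact ⟨a, c⟩
    · rintro ⟨a, c⟩; exact ⟨⟨a, by linarith⟩, c⟩
  rw [h2]
  simp [Measure.real, h0]

lemma integrable_ind (W : ℝ) :
    IntegrableOn (fun x : ℝ => if x < W then (1:ℝ) else 0) (Set.Ioc 0 1) := by
  rw [ind_eq]
  apply Integrable.indicator _ measurableSet_Iio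
  exact integrableOn_const (by simp)

variable {Ω N : Type*} [DecidableEq Ω]

lemma sq_expand (S : Finset Ω) (g W : Ω → ℝ) (x : ℝ) :
    (∑ b ∈ S.filter (fun b => x < W b), g b) ^ 2 =
      ∑ b ∈ S, ∑ c ∈ S, g b * g c * (if x < min (W b) (W c) then (1:ℝ) else 0) := by
  rw [sum_filter, sq, sum_mul_sum]
  apply sum_congr rfl; intro b _
  apply sum_congr rfl; intro c _
  by_cases hb : x < W b <;> by_cases hc : x < W c <;> simp [hb, hc]

/-- layer cake -/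
lemma layer (S : Finset Ω) (g W : Ω → ℝ) (h0 : ∀ b ∈ S, 0 ≤ W b) (h1 : ∀ b ∈ S, W b ≤ 1) :
    ∫ x in Set.Ioc (0:ℝ) 1, (∑ b ∈ S.filter (fun b => x < W b), g b) ^ 2 =
      ∑ b ∈ S, ∑ c ∈ S, g b * g c * min (W b) (W c) := by
  simp_rw [sq_expand]
  rw [integral_finsetSum _ fun b _ => integrable_finsetSum _ fun c _ =>
    (integrable_ind _).const_mul _]
  apply sum_congr rfl; intro b hb
  rw [integral_finsetSum _ fun c _ => (integrable_ind _).const_mul _]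
  apply sum_congr rfl; intro c hc
  rw [integral_const_mul, int_ind _ (le_min (h0 b hb) (h0 c hc)) ((min_le_left _ _).trans (h1 b hb))]

lemma layer1 (S : Finset Ω) (g W : Ω → ℝ) (h0 : ∀ b ∈ S, 0 ≤ W b) (h1 : ∀ b ∈ S, W b ≤ 1) :
    ∫ x in Set.Ioc (0:ℝ) 1, (∑ b ∈ S.filter (fun b => x < W b), g b) =
      ∑ b ∈ S, g b * W b := by
  have h : ∀ x : ℝ, ∑ b ∈ S.filter (fun b => x < W b), g b =
      ∑ b ∈ S, g b * (if x < W b then (1:ℝ) else 0) := by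
    intro x
    rw [sum_filter]
    apply sum_congr rfl; intro b _
    split_ifs <;> simp
  simp_rw [h]
  rw [integral_finsetSum _ fun c _ => (integrable_ind _).const_mul _]
  apply sum_congr rfl; intro c hc
  rw [integral_const_mul, int_ind _ (h0 c hc) (h1 c hc)]

lemma integrable_sum1 (S : Finset Ω) (g W : Ω → ℝ) :
    IntegrableOn (fun x : ℝ => ∑ b ∈ S.filter (fun b => x < W b), g b) (Set.Ioc 0 1) := by
  have h : (fun x : ℝ => ∑ b ∈ S.filter (fun b => x < W b), g b) =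
      fun x => ∑ b ∈ S, g b * (if x < W b then (1:ℝ) else 0) := by
    funext x
    rw [sum_filter]
    apply sum_congr rfl; intro b _
    split_ifs <;> simp
  rw [h]
  exact integrable_finsetSum _ fun c _ => (integrable_ind _).const_mul _

lemma integrable_sq (S : Finset Ω) (g W : Ω → ℝ) :
    IntegrableOn (fun x : ℝ => (∑ b ∈ S.filter (fun b => x < W b), g b) ^ 2) (Set.Ioc 0 1) := by
  simp_rw [sq_expand]
  exact integrable_finsetSum _ fun b _ => integrable_finsetSum _ fun c _ =>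
    (integrable_ind _).const_mul _

/-- one node, weights depending on the word -/
lemma node_min (F S : Finset Ω) (hSF : S ⊆ F) (ν f om : Ω → ℝ)
    (hν : ∀ b ∈ F, 0 ≤ ν b) (hf0 : ∀ b ∈ F, 0 ≤ f b) (hf1 : ∀ b ∈ F, f b ≤ 1)
    (hom : ∀ b ∈ F, om b ≤ 1) (W : Ω → ℝ) (kap C1 : ℝ) (hW0 : ∀ b ∈ S, 0 ≤ W b)
    (hW1 : ∀ b ∈ S, W b ≤ 1) (hk : 0 ≤ kap) (hC1 : 1 ≤ C1)
    (hyp : ∀ s : ℝ, 0 ≤ s → s ≤ 1 →
      ∑ b ∈ F.filter (fun b => 1 - om b ≤ s), ν b ≤ C1 * (s + kap) * ∑ b ∈ F, ν b) :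
    (∑ b ∈ S, ∑ c ∈ S, (ν b * f b) * (ν c * f c) * min (W b) (W c)) / (∑ b ∈ F, ν b) ≤
      16 * C1 * (∑ b ∈ S, ν b * f b * (W b * (1 - om b))) +
        2 * C1 * (∑ b ∈ S, ν b * f b * (kap * W b)) := by
  have key : ∀ x : ℝ, (∑ b ∈ S.filter (fun b => x < W b), ν b * f b) ^ 2 / (∑ b ∈ F, ν b) ≤
      16 * C1 * (∑ b ∈ S.filter (fun b => x < W b), ν b * f b * (1 - om b)) +
        2 * C1 * (∑ b ∈ S.filter (fun b => x < W b), ν b * f b * kap) := by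
    intro x
    have h := GWx972.node_bound F (S.filter (fun b => x < W b)) ((filter_subset _ _).trans hSF)
      ν f om hν hf0 hf1 hom 1 kap C1 zero_le_one le_rfl hk hC1 hyp
    simpa using h
  have h1 := setIntegral_mono (μ := volume) (s := Set.Ioc (0:ℝ) 1)
    ((integrable_sq S (fun b => ν b * f b) W).div_const (∑ b ∈ F, ν b))
    (((integrable_sum1 S (fun b => ν b * f b * (1 - om b)) W).const_mul (16 * C1)).add
      ((integrable_sum1 S (fun b => ν b * f b * kap) W).const_mul (2 * C1))) key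
  rw [integral_div, layer S _ W hW0 hW1] at h1
  have h2 : ∫ x in Set.Ioc (0:ℝ) 1,
      ((fun x => 16 * C1 * (∑ b ∈ S.filter (fun b => x < W b), ν b * f b * (1 - om b))) +
        (fun x => 2 * C1 * (∑ b ∈ S.filter (fun b => x < W b), ν b * f b * kap))) x =
      16 * C1 * (∑ b ∈ S, ν b * f b * (1 - om b) * W b) +
        2 * C1 * (∑ b ∈ S, ν b * f b * kap * W b) := by
    simp only [Pi.add_apply]
    rw [integral_add ((integrable_sum1 S _ W).const_mul _) ((integrable_sum1 S _ W).const_mul _),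
      integral_const_mul, integral_const_mul, layer1 S _ W hW0 hW1, layer1 S _ W hW0 hW1]
  rw [h2] at h1
  refine h1.trans (le_of_eq ?_)
  congr 2
  · exact sum_congr rfl fun b _ => by ring
  · exact sum_congr rfl fun b _ => by ring

/-- GW lemma with word-dependent weights. -/
theorem gw_min (Nd : Finset N) (B : Finset Ω) (F S : N → Finset Ω) (hSF : ∀ n ∈ Nd, S n ⊆ F n)
    (hSB : ∀ n ∈ Nd, S n ⊆ B) (ν f : Ω → ℝ) (om : N → Ω → ℝ)
    (hνB : ∀ b ∈ B, 0 ≤ ν b) (hfB : ∀ b ∈ B, 0 ≤ f b)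
    (hν : ∀ n ∈ Nd, ∀ b ∈ F n, 0 ≤ ν b) (hf0 : ∀ n ∈ Nd, ∀ b ∈ F n, 0 ≤ f b)
    (hf1 : ∀ n ∈ Nd, ∀ b ∈ F n, f b ≤ 1)
    (hom : ∀ n ∈ Nd, ∀ b ∈ F n, om n b ≤ 1) (W : N → Ω → ℝ) (kap : N → ℝ) (C1 K : ℝ)
    (hW0 : ∀ n ∈ Nd, ∀ b ∈ S n, 0 ≤ W n b) (hW1 : ∀ n ∈ Nd, ∀ b ∈ S n, W n b ≤ 1)
    (hk : ∀ n ∈ Nd, 0 ≤ kap n) (hC1 : 1 ≤ C1)
    (hyp : ∀ n ∈ Nd, ∀ s : ℝ, 0 ≤ s → s ≤ 1 →
      ∑ b ∈ (F n).filter (fun b => 1 - om n b ≤ s), ν b ≤ C1 * (s + kap n) * ∑ b ∈ F n, ν b)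
    (tele : ∀ b ∈ B, ∑ n ∈ Nd with b ∈ S n, W n b * (1 - om n b) ≤ 1)
    (hK : ∀ b ∈ B, ∑ n ∈ Nd with b ∈ S n, kap n * W n b ≤ K) :
    ∑ n ∈ Nd, (∑ b ∈ S n, ∑ c ∈ S n, (ν b * f b) * (ν c * f c) * min (W n b) (W n c)) /
        (∑ b ∈ F n, ν b) ≤
      (16 * C1 + 2 * C1 * K) * ∑ b ∈ B, ν b * f b := by
  have hC0 : 0 < C1 := by linarith
  have swap : ∀ g : N → Ω → ℝ, ∑ n ∈ Nd, ∑ b ∈ S n, ν b * f b * g n b =
      ∑ b ∈ B, ν b * f b * ∑ n ∈ Nd with b ∈ S n, g n b := by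
    intro g
    have h1 : ∀ n ∈ Nd, ∑ b ∈ S n, ν b * f b * g n b =
        ∑ b ∈ B, if b ∈ S n then ν b * f b * g n b else 0 := by
      intro n hn
      rw [← sum_filter]
      apply sum_congr _ fun _ _ => rfl
      ext b
      simp only [mem_filter]
      exact ⟨fun h => ⟨hSB n hn h, h⟩, fun h => h.2⟩
    rw [sum_congr rfl h1, sum_comm]
    apply sum_congr rfl
    intro b _
    rw [sum_filter, mul_sum]
    apply sum_congr rfl
    intro n _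
    split_ifs <;> simp
  calc ∑ n ∈ Nd, (∑ b ∈ S n, ∑ c ∈ S n, (ν b * f b) * (ν c * f c) * min (W n b) (W n c)) /
        (∑ b ∈ F n, ν b)
      ≤ ∑ n ∈ Nd, (16 * C1 * (∑ b ∈ S n, ν b * f b * (W n b * (1 - om n b))) +
          2 * C1 * (∑ b ∈ S n, ν b * f b * (kap n * W n b))) :=
        sum_le_sum fun n hn => node_min (F n) (S n) (hSF n hn) ν f (om n) (hν n hn) (hf0 n hn)
          (hf1 n hn) (hom n hn) (W n) (kap n) C1 (hW0 n hn) (hW1 n hn) (hk n hn) hC1 (hyp n hn)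
    _ = 16 * C1 * (∑ b ∈ B, ν b * f b * ∑ n ∈ Nd with b ∈ S n, W n b * (1 - om n b)) +
          2 * C1 * (∑ b ∈ B, ν b * f b * ∑ n ∈ Nd with b ∈ S n, kap n * W n b) := by
        rw [sum_add_distrib, ← mul_sum, ← mul_sum, swap (fun n b => W n b * (1 - om n b)),
          swap (fun n b => kap n * W n b)]
    _ ≤ 16 * C1 * (∑ b ∈ B, ν b * f b * 1) + 2 * C1 * (∑ b ∈ B, ν b * f b * K) := by
        have hνf : ∀ b ∈ B, 0 ≤ ν b * f b := fun b hb => mul_nonneg (hνB b hb) (hfB b hb)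
        have a1 : ∑ b ∈ B, ν b * f b * ∑ n ∈ Nd with b ∈ S n, W n b * (1 - om n b) ≤
            ∑ b ∈ B, ν b * f b * 1 :=
          sum_le_sum fun b hb => mul_le_mul_of_nonneg_left (tele b hb) (hνf b hb)
        have a2 : ∑ b ∈ B, ν b * f b * ∑ n ∈ Nd with b ∈ S n, kap n * W n b ≤
            ∑ b ∈ B, ν b * f b * K :=
          sum_le_sum fun b hb => mul_le_mul_of_nonneg_left (hK b hb) (hνf b hb)
        have b1 := mul_le_mul_of_nonneg_left a1 (show (0:ℝ) ≤ 16 * C1 by positivity)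
        have b2 := mul_le_mul_of_nonneg_left a2 (show (0:ℝ) ≤ 2 * C1 by positivity)
        linarith
    _ = (16 * C1 + 2 * C1 * K) * ∑ b ∈ B, ν b * f b := by
        rw [← sum_mul, ← sum_mul]; ring

/-- the same for any pair weight below `min (W n b) (W n c)` -/
theorem gw_min_weight (Nd : Finset N) (B : Finset Ω) (F S : N → Finset Ω)
    (hSF : ∀ n ∈ Nd, S n ⊆ F n)
    (hSB : ∀ n ∈ Nd, S n ⊆ B) (ν f : Ω → ℝ) (om : N → Ω → ℝ)
    (hνB : ∀ b ∈ B, 0 ≤ ν b) (hfB : ∀ b ∈ B, 0 ≤ f b)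
    (hν : ∀ n ∈ Nd, ∀ b ∈ F n, 0 ≤ ν b) (hf0 : ∀ n ∈ Nd, ∀ b ∈ F n, 0 ≤ f b)
    (hf1 : ∀ n ∈ Nd, ∀ b ∈ F n, f b ≤ 1)
    (hom : ∀ n ∈ Nd, ∀ b ∈ F n, om n b ≤ 1) (W : N → Ω → ℝ) (w : N → Ω → Ω → ℝ) (kap : N → ℝ)
    (C1 K : ℝ)
    (hW0 : ∀ n ∈ Nd, ∀ b ∈ S n, 0 ≤ W n b) (hW1 : ∀ n ∈ Nd, ∀ b ∈ S n, W n b ≤ 1)
    (hwl : ∀ n ∈ Nd, ∀ b ∈ S n, ∀ c ∈ S n, w n b c ≤ W n b)
    (hwr : ∀ n ∈ Nd, ∀ b ∈ S n, ∀ c ∈ S n, w n b c ≤ W n c)
    (hk : ∀ n ∈ Nd, 0 ≤ kap n) (hC1 : 1 ≤ C1)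
    (hyp : ∀ n ∈ Nd, ∀ s : ℝ, 0 ≤ s → s ≤ 1 →
      ∑ b ∈ (F n).filter (fun b => 1 - om n b ≤ s), ν b ≤ C1 * (s + kap n) * ∑ b ∈ F n, ν b)
    (tele : ∀ b ∈ B, ∑ n ∈ Nd with b ∈ S n, W n b * (1 - om n b) ≤ 1)
    (hK : ∀ b ∈ B, ∑ n ∈ Nd with b ∈ S n, kap n * W n b ≤ K) :
    ∑ n ∈ Nd, (∑ b ∈ S n, ∑ c ∈ S n, (ν b * f b) * (ν c * f c) * w n b c) /
        (∑ b ∈ F n, ν b) ≤
      (16 * C1 + 2 * C1 * K) * ∑ b ∈ B, ν b * f b := by
  refine le_trans ?_ (gw_min Nd B F S hSF hSB ν f om hνB hfB hν hf0 hf1 hom W kap C1 K hW0 hW1 hk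
    hC1 hyp tele hK)
  apply sum_le_sum; intro n hn
  apply div_le_div_of_nonneg_right _ (sum_nonneg fun b hb => hν n hn b hb)
  apply sum_le_sum; intro b hb
  apply sum_le_sum; intro c hc
  apply mul_le_mul_of_nonneg_left (le_min (hwl n hn b hb c hc) (hwr n hn b hb c hc))
  have hb' := hSF n hn hb
  have hc' := hSF n hn hc
  exact mul_nonneg (mul_nonneg (hν n hn b hb') (hf0 n hn b hb'))
    (mul_nonneg (hν n hn c hc') (hf0 n hn c hc'))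

/-- level form: `W (j+1) b = W j b * om j b` on the nodes of `b`, telescoping automatic.
`nd j b` = the node of `b` at level `j` (if active). -/
theorem gw_min_levels (J : ℕ) (B : Finset Ω) (Nd : ℕ → Finset N) (F S : ℕ → N → Finset Ω)
    (hSF : ∀ j, ∀ n ∈ Nd j, S j n ⊆ F j n) (hSB : ∀ j, ∀ n ∈ Nd j, S j n ⊆ B)
    (hdisj : ∀ j, ∀ n ∈ Nd j, ∀ n' ∈ Nd j, ∀ b ∈ S j n, b ∈ S j n' → n = n')
    (ν f : Ω → ℝ) (om : ℕ → Ω → ℝ)
    (hνB : ∀ b ∈ B, 0 ≤ ν b) (hfB : ∀ b ∈ B, 0 ≤ f b)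
    (hν : ∀ j, ∀ n ∈ Nd j, ∀ b ∈ F j n, 0 ≤ ν b) (hf0 : ∀ j, ∀ n ∈ Nd j, ∀ b ∈ F j n, 0 ≤ f b)
    (hf1 : ∀ j, ∀ n ∈ Nd j, ∀ b ∈ F j n, f b ≤ 1)
    (hom : ∀ j, ∀ n ∈ Nd j, ∀ b ∈ F j n, om j b ≤ 1) (W : ℕ → Ω → ℝ) (kap : ℕ → N → ℝ)
    (C1 K : ℝ)
    (hW0 : ∀ j, ∀ b ∈ B, 0 ≤ W j b) (hW1 : ∀ b ∈ B, W 0 b ≤ 1)
    (hmono : ∀ j, ∀ b ∈ B, W (j + 1) b ≤ W j b)
    (hstep : ∀ j, ∀ n ∈ Nd j, ∀ b ∈ S j n, W (j + 1) b ≤ W j b * om j b)
    (hk : ∀ j, ∀ n ∈ Nd j, 0 ≤ kap j n) (hC1 : 1 ≤ C1)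
    (hyp : ∀ j, ∀ n ∈ Nd j, ∀ s : ℝ, 0 ≤ s → s ≤ 1 →
      ∑ b ∈ (F j n).filter (fun b => 1 - om j b ≤ s), ν b ≤
        C1 * (s + kap j n) * ∑ b ∈ F j n, ν b)
    (hK : ∀ b ∈ B, ∑ j ∈ range J, ∑ n ∈ Nd j with b ∈ S j n, kap j n ≤ K) :
    ∑ j ∈ range J, ∑ n ∈ Nd j,
      (∑ b ∈ S j n, ∑ c ∈ S j n, (ν b * f b) * (ν c * f c) * min (W j b) (W j c)) /
        (∑ b ∈ F j n, ν b) ≤
      (16 * C1 + 2 * C1 * K) * ∑ b ∈ B, ν b * f b := by
  classical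
  have hWle : ∀ j, ∀ b ∈ B, W j b ≤ 1 := by
    intro j
    induction j with
    | zero => exact hW1
    | succ j ih => intro b hb; exact (hmono j b hb).trans (ih b hb)
  have h := gw_min (N := (_ : ℕ) × N) ((range J).sigma Nd) B (fun p => F p.1 p.2)
    (fun p => S p.1 p.2)
    (fun p hp => hSF p.1 p.2 (mem_sigma.1 hp).2) (fun p hp => hSB p.1 p.2 (mem_sigma.1 hp).2)
    ν f (fun p b => om p.1 b) hνB hfB
    (fun p hp => hν p.1 p.2 (mem_sigma.1 hp).2) (fun p hp => hf0 p.1 p.2 (mem_sigma.1 hp).2)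
    (fun p hp => hf1 p.1 p.2 (mem_sigma.1 hp).2) (fun p hp => hom p.1 p.2 (mem_sigma.1 hp).2)
    (fun p b => W p.1 b) (fun p => kap p.1 p.2) C1 K
    (fun p hp b hb => hW0 p.1 b (hSB p.1 p.2 (mem_sigma.1 hp).2 hb))
    (fun p hp b hb => hWle p.1 b (hSB p.1 p.2 (mem_sigma.1 hp).2 hb))
    (fun p hp => hk p.1 p.2 (mem_sigma.1 hp).2) hC1
    (fun p hp => hyp p.1 p.2 (mem_sigma.1 hp).2) ?_ ?_
  · rw [sum_sigma] at h
    exact h
  · intro b hb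
    rw [sum_filter, sum_sigma]
    calc ∑ j ∈ range J, ∑ n ∈ Nd j, (if b ∈ S j n then W j b * (1 - om j b) else 0)
        ≤ ∑ j ∈ range J, (W j b - W (j + 1) b) := by
          apply sum_le_sum; intro j _
          rw [← sum_filter]
          have hd : 0 ≤ W j b - W (j + 1) b := sub_nonneg.2 (hmono j b hb)
          rcases ((Nd j).filter (fun n => b ∈ S j n)).eq_empty_or_nonempty with he | ⟨n0, hn0⟩
          · rw [he, sum_empty]; exact hd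
          · have hs : (Nd j).filter (fun n => b ∈ S j n) = {n0} := by
              rw [mem_filter] at hn0
              ext n
              rw [mem_filter, mem_singleton]
              constructor
              · rintro ⟨h1, h2⟩; exact hdisj j n h1 n0 hn0.1 b h2 hn0.2
              · rintro rfl; exact hn0
            rw [hs, sum_singleton]
            rw [mem_filter] at hn0
            have := hstep j n0 hn0.1 b hn0.2
            linarith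
      _ = W 0 b - W J b := by
          rw [Finset.sum_range_sub' (fun j => W j b)]
      _ ≤ 1 := by linarith [hW1 b hb, hW0 J b hb]
  · intro b hb
    rw [sum_filter, sum_sigma]
    refine le_trans ?_ (hK b hb)
    apply sum_le_sum; intro j _
    rw [← sum_filter]
    apply sum_le_sum; intro n hn
    rw [mem_filter] at hn
    have h1 := hk j n hn.1
    have h2 := hWle j b hb
    simp only
    nlinarith

end Crest.Agent.R4C.GWminx18
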