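import Crest.Agent.R4C.GWzone_9

/-!
# Row 4, GW section: LEMMA V (bilinear antichain lemma for a GRAPH of zones), note 3941 of helper8
(helper240, second hand)

Zones `z ∈ Zs`, prefixes `e ∈ Es` (rank `rk`, fibres `P e` laminar), `S z e ⊆ P e` = words of the zone
`z` at the prefix `e` (laminar in `e`), `A z e ⊆ S z e` = words changing there (pairwise disjoint in
`e`), relation `R z z'` of zones of degree `≤ Δ` at every prefix, `f` (changers) and `f'` (partners)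
may depend on the zone (truncations by weights), `y z w > 0`.
`hyp1`, `hyp2` : (H_Δ) in both orders.  Then for every `ρ > 0`

`cost ≤ 2 (C1 + 1) ρ E f + 2 C1 (K + 4) ρ⁻¹ E f'`,  `2 C1 Δ ≤ 2 ^ K`.
-/

set_option autoImplicit false
set_option linter.unusedSectionVars false

open Finset MeasureTheory

noncomputable section

namespace Crest.Agent.R4C.GWrelBx240

open Crest.Agent.R4C.GWzonex9

open scoped Classical

/-! ### dyadic sums -/

lemma geo_int (m : ℤ) : ∀ n : ℕ, ∑ i ∈ Icc m (m + n), (2:ℝ) ^ (-i) ≤ 2 * (2:ℝ) ^ (-m) -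
    (2:ℝ) ^ (-(m + n)) := by
  intro n
  induction n with
  | zero => simp; ring_nf; exact le_rfl
  | succ n ih =>
    have h1 : Icc m (m + ((n + 1 : ℕ) : ℤ)) = insert (m + n + 1) (Icc m (m + n)) := by
      ext x; simp only [mem_Icc, mem_insert]; push_cast; omega
    rw [h1, sum_insert (by simp)]
    have h2 : (2:ℝ) ^ (-(m + n)) = 2 * (2:ℝ) ^ (-(m + n + 1)) := by
      rw [show -(m + (n:ℤ)) = -(m + n + 1) + 1 by ring, zpow_add_one₀ (by norm_num)]; ring
    have h3 : (2:ℝ) ^ (-(m + ((n + 1 : ℕ) : ℤ))) = (2:ℝ) ^ (-(m + n + 1)) := by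
      congr 1; push_cast; ring
    rw [h3]
    linarith

/-- `∑ 2^(-i) ≤ 2 / a` over integers `i` with `2^i > a` -/
lemma geo_int' (J : Finset ℤ) (a : ℝ) (ha : 0 < a) (hJ : ∀ i ∈ J, a < (2:ℝ) ^ i) :
    ∑ i ∈ J, (2:ℝ) ^ (-i) ≤ 2 / a := by
  rcases J.eq_empty_or_nonempty with rfl | hne
  · simp; positivity
  set m := J.min' hne
  set M := J.max' hne
  have hmM : m ≤ M := J.min'_le_max' hne
  have hsub : J ⊆ Icc m (m + (M - m).toNat) := by
    intro i hi
    rw [mem_Icc]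
    have h1 := J.min'_le i hi
    have h2 := J.le_max' i hi
    constructor
    · exact h1
    · rw [Int.toNat_of_nonneg (by omega)]; omega
  calc ∑ i ∈ J, (2:ℝ) ^ (-i) ≤ ∑ i ∈ Icc m (m + (M - m).toNat), (2:ℝ) ^ (-i) :=
        sum_le_sum_of_subset_of_nonneg hsub fun _ _ _ => by positivity
    _ ≤ 2 * (2:ℝ) ^ (-m) := by
        have := geo_int m (M - m).toNat
        have h4 : (0:ℝ) < (2:ℝ) ^ (-(m + ((M - m).toNat : ℤ))) := by positivity
        linarith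
    _ ≤ 2 / a := by
        have h5 := hJ m (J.min'_mem hne)
        rw [zpow_neg, div_eq_mul_inv]
        have h6 : ((2:ℝ) ^ m)⁻¹ ≤ a⁻¹ := inv_anti₀ ha h5.le
        linarith

/-- `∑ min(1, √(M 2^-k)) ≤ K + 4` -/
lemma sum_min (M : ℝ) (K : ℕ) (hK : M ≤ 2 ^ K) (J : Finset ℕ) :
    ∑ k ∈ J, min 1 (√(M / 2 ^ k)) ≤ K + 4 := by
  obtain ⟨N, hN⟩ : ∃ N, J ⊆ range (K + N) := by
    refine ⟨J.sup id + 1, fun k hk => ?_⟩
    have : k ≤ J.sup id := Finset.le_sup (f := id) hk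
    rw [mem_range]; omega
  have h0 : ∀ k : ℕ, 0 ≤ min 1 (√(M / 2 ^ k)) := fun k => le_min zero_le_one (Real.sqrt_nonneg _)
  have h1 : ∑ k ∈ J, min 1 (√(M / 2 ^ k)) ≤ ∑ k ∈ range (K + N), min 1 (√(M / 2 ^ k)) :=
    sum_le_sum_of_subset_of_nonneg hN fun k _ _ => h0 k
  rw [sum_range_add] at h1
  have h2 : ∑ k ∈ range K, min 1 (√(M / 2 ^ k)) ≤ K := by
    calc ∑ k ∈ range K, min 1 (√(M / 2 ^ k)) ≤ ∑ k ∈ range K, (1:ℝ) :=
          sum_le_sum fun k _ => min_le_left _ _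
      _ = K := by simp
  set r : ℝ := √(1 / 2) with hr
  have hr0 : 0 ≤ r := Real.sqrt_nonneg _
  have hr1 : r ≤ 3 / 4 := by
    rw [hr, Real.sqrt_le_left (by norm_num)]
    norm_num
  have h3 : ∀ j : ℕ, min 1 (√(M / 2 ^ (K + j))) ≤ r ^ j := by
    intro j
    refine (min_le_right _ _).trans ?_
    have e1 : r ^ j = √((1 / 2) ^ j) := by
      rw [hr]
      exact (Real.sqrt_eq_iff_mul_self_eq (by positivity) (by positivity)).2 (by
        rw [← mul_pow, Real.mul_self_sqrt (by norm_num)]) |>.symm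
    rw [e1]
    apply Real.sqrt_le_sqrt
    rw [pow_add, div_le_iff₀ (by positivity)]
    have e2 : (1 / 2 : ℝ) ^ j * (2 ^ K * 2 ^ j) = 2 ^ K := by
      rw [mul_comm (2 ^ K : ℝ), ← mul_assoc, ← mul_pow]; norm_num
    rw [e2]
    exact hK
  have h4 : ∑ j ∈ range N, min 1 (√(M / 2 ^ (K + j))) ≤ 4 := by
    calc ∑ j ∈ range N, min 1 (√(M / 2 ^ (K + j))) ≤ ∑ j ∈ range N, r ^ j :=
          sum_le_sum fun j _ => h3 j
      _ ≤ ∑ j ∈ range N, (3 / 4 : ℝ) ^ j := sum_le_sum fun j _ => pow_le_pow_left₀ hr0 hr1 j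
      _ ≤ 4 := by
          rw [geom_sum_eq (by norm_num)]
          have : (0:ℝ) ≤ (3 / 4) ^ N := by positivity
          norm_num
          linarith
  linarith

/-! ### one level -/

section Level

variable {Ω E Z : Type*}

/-- first nodes cover, with rank -/
lemma first_cover' {Nd : Finset E} {S : E → Finset Ω} {rk : E → ℕ} (hL : Lam Nd S rk)
    (P : E → Prop) {n : E} (hn : n ∈ Nd) (hP : P n) {w : Ω} (hw : w ∈ S n) :
    ∃ m ∈ First Nd S rk P, w ∈ S m ∧ rk m ≤ rk n := by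
  let C := Nd.filter fun m => P m ∧ w ∈ S m
  have hC : n ∈ C := by simp [C, hn, hP, hw]
  obtain ⟨m, hm, hmin⟩ := exists_min_image C rk ⟨n, hC⟩
  have hm' : m ∈ Nd ∧ P m ∧ w ∈ S m := by simpa [C] using hm
  refine ⟨m, ?_, hm'.2.2, hmin n hC⟩
  unfold First
  rw [mem_filter]
  refine ⟨hm'.1, hm'.2.1, fun n' hn' hPn' hlt => ?_⟩
  by_contra hnd
  have hsub := hL.lam n' hn' m hm'.1 hlt.le hnd
  have : n' ∈ C := by simp [C, hn', hPn', hsub hm'.2.2]
  have := hmin n' this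
  omega

/-- sum over a union is at most the sum of the sums -/
lemma sum_biUnion_le' {ι : Type*} (I : Finset ι) (T : ι → Finset Ω) (U : Finset Ω)
    (hU : ∀ w ∈ U, ∃ i ∈ I, w ∈ T i) (F : Ω → ℝ) (hF : ∀ w, 0 ≤ F w) :
    ∑ w ∈ U, F w ≤ ∑ i ∈ I, ∑ w ∈ T i, F w := by
  calc ∑ w ∈ U, F w ≤ ∑ w ∈ U, ∑ i ∈ I, if w ∈ T i then F w else 0 := by
        refine sum_le_sum fun w hw => ?_
        obtain ⟨i, hi, hwi⟩ := hU w hw
        have h1 : (if w ∈ T i then F w else 0) ≤ ∑ i ∈ I, if w ∈ T i then F w else 0 :=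
          single_le_sum (f := fun i => if w ∈ T i then F w else 0)
            (fun j _ => by show 0 ≤ (if w ∈ T j then F w else 0); split_ifs; exacts [hF w, le_rfl]) hi
        rwa [if_pos hwi] at h1
    _ = ∑ i ∈ I, ∑ w ∈ U, if w ∈ T i then F w else 0 := sum_comm
    _ ≤ ∑ i ∈ I, ∑ w ∈ T i, F w := by
        refine sum_le_sum fun i _ => ?_
        rw [← sum_filter]
        refine sum_le_sum_of_subset_of_nonneg ?_ fun w _ _ => hF w
        intro w hw
        exact (mem_filter.1 hw).2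

/-- sum over disjoint first nodes -/
lemma sum_first_le' {Nd : Finset E} {S : E → Finset Ω} {rk : E → ℕ} (hL : Lam Nd S rk)
    (P : E → Prop) (F : Ω → ℝ) (hF : ∀ w, 0 ≤ F w) :
    ∑ n ∈ First Nd S rk P, ∑ w ∈ S n, F w ≤ ∑ w ∈ Nd.biUnion S, F w := by
  have hpf : Set.PairwiseDisjoint (↑(First Nd S rk P) : Set E) S := by
    intro n hn n' hn' hne
    exact first_disj hL P n (by simpa using hn) n' (by simpa using hn') hne
  rw [← sum_biUnion hpf]
  refine sum_le_sum_of_subset_of_nonneg ?_ fun w _ _ => hF w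
  intro w hw
  rw [mem_biUnion] at hw ⊢
  obtain ⟨n, hn, hwn⟩ := hw
  unfold First at hn
  exact ⟨n, (mem_filter.1 hn).1, hwn⟩

/-- **the bound at one level** `D > u` -/
lemma level {Es : Finset E} {rk : E → ℕ} {P S' : E → Finset Ω} (hP : Lam Es P rk)
    (hS : Lam Es S' rk) (hsub : ∀ e ∈ Es, S' e ⊆ P e) (Zr : Finset Z) (A : Z → E → Finset Ω)
    (Zn : Z → Finset Ω) (hA : ∀ z ∈ Zr, ∀ e ∈ Es, A z e ⊆ Zn z ∩ P e)
    (hAd : ∀ z ∈ Zr, ∀ e ∈ Es, ∀ e' ∈ Es, e ≠ e' → Disjoint (A z e) (A z e'))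
    (f : Z → Ω → ℝ) (hf : ∀ z w, 0 ≤ f z w) (y : Z → Ω → ℝ) (F : Ω → ℝ) (hF : ∀ w, 0 ≤ F w)
    (g : E → ℝ) (hg : ∀ e ∈ Es, 0 < g e) (C1 t u : ℝ) (hC : 0 ≤ C1) (ht : 0 ≤ t) (hu : 0 < u)
    (hyp : ∀ e ∈ Es, (S' e).Nonempty →
      ∑ z ∈ Zr, ∑ w ∈ Zn z ∩ P e with y z w ≤ t, f z w ≤ C1 * t * g e) :
    ∑ z ∈ Zr, ∑ e ∈ Es with u < (∑ w ∈ S' e, F w) / g e, ∑ w ∈ A z e with y z w ≤ t, f z w ≤
      C1 * t / u * ∑ w ∈ Es.biUnion S', F w := by
  set Q : E → Prop := fun e => u < (∑ w ∈ S' e, F w) / g e with hQ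
  have hne : ∀ e ∈ Es, Q e → (S' e).Nonempty := by
    intro e he hq
    by_contra h
    rw [not_nonempty_iff_eq_empty] at h
    simp only [hQ, h, sum_empty, zero_div] at hq
    linarith
  -- for one zone
  have h1 : ∀ z ∈ Zr, ∑ e ∈ Es with Q e, ∑ w ∈ A z e with y z w ≤ t, f z w ≤
      ∑ e ∈ First Es S' rk Q, ∑ w ∈ Zn z ∩ P e with y z w ≤ t, f z w := by
    intro z hz
    have hpd : Set.PairwiseDisjoint (↑(Es.filter Q) : Set E)
        (fun e => (A z e).filter fun w => y z w ≤ t) := by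
      intro n hn n' hn' hne
      have e1 : n ∈ Es.filter Q := by simpa using hn
      have e2 : n' ∈ Es.filter Q := by simpa using hn'
      exact (hAd z hz n (mem_filter.1 e1).1 n' (mem_filter.1 e2).1 hne).mono
        (filter_subset _ _) (filter_subset _ _)
    rw [← sum_biUnion hpd]
    refine sum_biUnion_le' _ _ _ ?_ _ (hf z)
    intro w hw
    rw [mem_biUnion] at hw
    obtain ⟨e, he, hwe⟩ := hw
    rw [mem_filter] at he hwe
    obtain ⟨w', hw'⟩ := hne e he.1 he.2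
    obtain ⟨m, hm, hwm, hrk⟩ := first_cover' hS Q he.1 he.2 hw'
    refine ⟨m, hm, ?_⟩
    have hmE : m ∈ Es := by unfold First at hm; exact (mem_filter.1 hm).1
    have hnd : ¬ Disjoint (P m) (P e) := by
      rw [Finset.not_disjoint_iff]
      exact ⟨w', hsub m hmE hwm, hsub e he.1 hw'⟩
    have hPP := hP.lam m hmE e he.1 hrk hnd
    have h2 := hA z hz e he.1 hwe.1
    rw [mem_inter] at h2
    exact mem_filter.2 ⟨mem_inter.2 ⟨h2.1, hPP h2.2⟩, hwe.2⟩
  calc ∑ z ∈ Zr, ∑ e ∈ Es with Q e, ∑ w ∈ A z e with y z w ≤ t, f z w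
      ≤ ∑ z ∈ Zr, ∑ e ∈ First Es S' rk Q, ∑ w ∈ Zn z ∩ P e with y z w ≤ t, f z w :=
        sum_le_sum h1
    _ = ∑ e ∈ First Es S' rk Q, ∑ z ∈ Zr, ∑ w ∈ Zn z ∩ P e with y z w ≤ t, f z w := sum_comm
    _ ≤ ∑ e ∈ First Es S' rk Q, C1 * t / u * ∑ w ∈ S' e, F w := by
        refine sum_le_sum fun e he => ?_
        have he' : e ∈ Es ∧ Q e := by
          unfold First at he
          exact ⟨(mem_filter.1 he).1, (mem_filter.1 he).2.1⟩
        refine (hyp e he'.1 (hne e he'.1 he'.2)).trans ?_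
        have hge := hg e he'.1
        have h3 : u * g e ≤ ∑ w ∈ S' e, F w := ((lt_div_iff₀ hge).1 he'.2).le
        have h4 : g e ≤ (∑ w ∈ S' e, F w) / u := by
          rw [le_div_iff₀ hu]; linarith
        calc C1 * t * g e ≤ C1 * t * ((∑ w ∈ S' e, F w) / u) :=
              mul_le_mul_of_nonneg_left h4 (by positivity)
          _ = C1 * t / u * ∑ w ∈ S' e, F w := by ring
    _ = C1 * t / u * ∑ e ∈ First Es S' rk Q, ∑ w ∈ S' e, F w := by rw [mul_sum]
    _ ≤ C1 * t / u * ∑ w ∈ Es.biUnion S', F w :=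
        mul_le_mul_of_nonneg_left (sum_first_le' hS Q F hF) (by positivity)

/-- **all levels** of one partner zone and one dyadic class `q = 2^i` -/
lemma levels {Es : Finset E} {rk : E → ℕ} {P S' : E → Finset Ω} (hP : Lam Es P rk)
    (hS : Lam Es S' rk) (hsub : ∀ e ∈ Es, S' e ⊆ P e) (Zr : Finset Z) (A : Z → E → Finset Ω)
    (Zn : Z → Finset Ω) (hA : ∀ z ∈ Zr, ∀ e ∈ Es, A z e ⊆ Zn z ∩ P e)
    (hAd : ∀ z ∈ Zr, ∀ e ∈ Es, ∀ e' ∈ Es, e ≠ e' → Disjoint (A z e) (A z e'))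
    (f : Z → Ω → ℝ) (hf : ∀ z w, 0 ≤ f z w) (y : Z → Ω → ℝ) (hy : ∀ z w, 0 < y z w)
    (F : Ω → ℝ) (hF : ∀ w, 0 ≤ F w)
    (g : E → ℝ) (hg : ∀ e ∈ Es, 0 < g e) (C1 Δ ρ q : ℝ) (hC : 0 < C1) (hΔ : 0 < Δ) (hρ : 0 < ρ)
    (hq : 0 < q) (K : ℕ) (hK : 2 * C1 * Δ ≤ 2 ^ K)
    (hD : ∀ z ∈ Zr, ∀ e ∈ Es, (A z e).Nonempty → (∑ w ∈ S' e, F w) / g e ≤ 2 * C1 * q)
    (hyp : ∀ e ∈ Es, (S' e).Nonempty → ∀ t, 0 < t →
      ∑ z ∈ Zr, ∑ w ∈ Zn z ∩ P e with y z w ≤ t, f z w ≤ C1 * t * g e) :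
    ∑ z ∈ Zr, ∑ e ∈ Es, ∑ w ∈ A z e, f z w *
      (if ρ * y z w < q ∧ (ρ * y z w) ^ 2 / (q * Δ) < (∑ w ∈ S' e, F w) / g e then
        (∑ w ∈ S' e, F w) / g e else 0) ≤
      2 * C1 * (K + 4) * (q / ρ) * ∑ w ∈ Es.biUnion S', F w := by
  set D : E → ℝ := fun e => (∑ w ∈ S' e, F w) / g e with hDdef
  set M : ℝ := 2 * C1 * q with hM
  have hM0 : 0 < M := by positivity
  have hk : ∀ e, 0 < D e → D e ≤ M → ∃ k : ℕ, M / 2 ^ (k + 1) < D e ∧ D e ≤ M / 2 ^ k := by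
    intro e h1 h2
    obtain ⟨n, hn1, hn2⟩ := exists_nat_pow_near (x := M / D e) (y := 2)
      ((one_le_div h1).2 h2) one_lt_two
    refine ⟨n, ?_, ?_⟩
    · rw [div_lt_iff₀ (by positivity), mul_comm]
      rwa [div_lt_iff₀ h1] at hn2
    · rw [le_div_iff₀ (by positivity), mul_comm]
      rwa [le_div_iff₀ h1] at hn1
  set kf : E → ℕ := fun e => if h : 0 < D e ∧ D e ≤ M then Classical.choose (hk e h.1 h.2) else 0
    with hkf
  have hkf' : ∀ e, 0 < D e → D e ≤ M → M / 2 ^ (kf e + 1) < D e ∧ D e ≤ M / 2 ^ (kf e) := by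
    intro e h1 h2
    have : kf e = Classical.choose (hk e h1 h2) := by simp only [hkf]; rw [dif_pos ⟨h1, h2⟩]
    rw [this]
    exact Classical.choose_spec (hk e h1 h2)
  set Es' := Es.filter (fun e => 0 < D e ∧ D e ≤ M) with hEs'
  set KK := Es'.image kf with hKK
  set X : Z → E → ℝ := fun z e => ∑ w ∈ A z e, f z w *
      (if ρ * y z w < q ∧ (ρ * y z w) ^ 2 / (q * Δ) < D e then D e else 0) with hX
  set tk : ℕ → ℝ := fun k => q / ρ * min 1 (√(2 * C1 * Δ / 2 ^ k)) with htk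
  have htk0 : ∀ k, 0 < tk k := by
    intro k
    have : 0 < min 1 (√(2 * C1 * Δ / 2 ^ k)) := lt_min one_pos (Real.sqrt_pos.2 (by positivity))
    simp only [htk]
    positivity
  have hstep1 : ∀ z ∈ Zr, ∑ e ∈ Es, X z e = ∑ k ∈ KK, ∑ e ∈ Es' with kf e = k, X z e := by
    intro z hz
    have h1 : ∑ e ∈ Es', X z e = ∑ e ∈ Es, X z e := by
      rw [hEs']
      apply sum_filter_of_ne
      intro e he hne
      by_contra hcon
      apply hne
      rcases (A z e).eq_empty_or_nonempty with h0 | h0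
      · simp only [hX, h0, sum_empty]
      · have h2 := hD z hz e he h0
        have h3 : D e ≤ 0 := by
          by_contra h4
          push Not at h4
          exact hcon ⟨h4, h2⟩
        simp only [hX]
        refine sum_eq_zero fun w _ => ?_
        rw [if_neg, mul_zero]
        rintro ⟨-, h5⟩
        have h6 : 0 ≤ (ρ * y z w) ^ 2 / (q * Δ) := by positivity
        linarith
    rw [← h1]
    exact (sum_fiberwise_of_maps_to (fun e he => mem_image_of_mem _ he) _).symm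
  have hstep3 : ∀ z ∈ Zr, ∀ k ∈ KK, ∑ e ∈ Es' with kf e = k, X z e ≤
      M / 2 ^ k * ∑ e ∈ Es with M / 2 ^ (k + 1) < D e,
        ∑ w ∈ A z e with y z w ≤ tk k, f z w := by
    intro z hz k _
    have hsub' : (Es'.filter fun e => kf e = k) ⊆ Es.filter fun e => M / 2 ^ (k + 1) < D e := by
      intro e he
      rw [mem_filter] at he
      have h1 := mem_filter.1 he.1
      have h2 := hkf' e h1.2.1 h1.2.2
      rw [he.2] at h2
      exact mem_filter.2 ⟨h1.1, h2.1⟩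
    rw [mul_sum]
    calc ∑ e ∈ Es' with kf e = k, X z e
        ≤ ∑ e ∈ Es' with kf e = k, M / 2 ^ k * ∑ w ∈ A z e with y z w ≤ tk k, f z w := by
          refine sum_le_sum fun e he => ?_
          rw [mem_filter] at he
          have h1 := mem_filter.1 he.1
          have h2 := hkf' e h1.2.1 h1.2.2
          rw [he.2] at h2
          simp only [hX]
          rw [mul_sum, sum_filter]
          refine sum_le_sum fun w _ => ?_
          have hyw := hy z w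
          by_cases hc : ρ * y z w < q ∧ (ρ * y z w) ^ 2 / (q * Δ) < D e
          · rw [if_pos hc]
            have h3 : ρ * y z w ≤ q * √(2 * C1 * Δ / 2 ^ k) := by
              have h4 : (ρ * y z w) ^ 2 < M / 2 ^ k * (q * Δ) := by
                have h5 := hc.2.trans_le h2.2
                rwa [div_lt_iff₀ (by positivity)] at h5
              have h6 : (ρ * y z w / q) ^ 2 ≤ 2 * C1 * Δ / 2 ^ k := by
                rw [div_pow, div_le_iff₀ (by positivity)]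
                refine h4.le.trans (le_of_eq ?_)
                rw [hM]; ring
              have h7 : ρ * y z w / q ≤ √(2 * C1 * Δ / 2 ^ k) := Real.le_sqrt_of_sq_le h6
              rw [div_le_iff₀ hq] at h7
              linarith
            have h8 : y z w ≤ tk k := by
              simp only [htk]
              rw [div_mul_eq_mul_div, le_div_iff₀ hρ, mul_comm (y z w) ρ]
              rcases le_total 1 (√(2 * C1 * Δ / 2 ^ k)) with h9 | h9
              · rw [min_eq_left h9]; linarith [hc.1]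
              · rw [min_eq_right h9]; exact h3
            rw [if_pos h8, mul_comm]
            exact mul_le_mul_of_nonneg_right h2.2 (hf z w)
          · rw [if_neg hc, mul_zero]
            have h9 := hf z w
            split_ifs
            · positivity
            · exact le_rfl
      _ ≤ ∑ e ∈ Es with M / 2 ^ (k + 1) < D e,
            M / 2 ^ k * ∑ w ∈ A z e with y z w ≤ tk k, f z w := by
          refine sum_le_sum_of_subset_of_nonneg hsub' fun e _ _ => ?_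
          exact mul_nonneg (by positivity) (sum_nonneg fun w _ => hf z w)
  have hFZ : 0 ≤ ∑ w ∈ Es.biUnion S', F w := sum_nonneg fun w _ => hF w
  calc ∑ z ∈ Zr, ∑ e ∈ Es, X z e = ∑ z ∈ Zr, ∑ k ∈ KK, ∑ e ∈ Es' with kf e = k, X z e :=
        sum_congr rfl hstep1
    _ ≤ ∑ z ∈ Zr, ∑ k ∈ KK, M / 2 ^ k * ∑ e ∈ Es with M / 2 ^ (k + 1) < D e,
        ∑ w ∈ A z e with y z w ≤ tk k, f z w :=
        sum_le_sum fun z hz => sum_le_sum fun k hk' => hstep3 z hz k hk'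
    _ = ∑ k ∈ KK, M / 2 ^ k * ∑ z ∈ Zr, ∑ e ∈ Es with M / 2 ^ (k + 1) < D e,
        ∑ w ∈ A z e with y z w ≤ tk k, f z w := by
        rw [sum_comm]
        refine sum_congr rfl fun k _ => ?_
        rw [mul_sum]
    _ ≤ ∑ k ∈ KK, 2 * C1 * (q / ρ) * (∑ w ∈ Es.biUnion S', F w) *
        min 1 (√(2 * C1 * Δ / 2 ^ k)) := by
        refine sum_le_sum fun k _ => ?_
        have h1 := level hP hS hsub Zr A Zn hA hAd f hf y F hF g hg C1 (tk k) (M / 2 ^ (k + 1))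
          hC.le (htk0 k).le (by positivity) (fun e he hne => hyp e he hne (tk k) (htk0 k))
        have h2 : M / 2 ^ k * ∑ z ∈ Zr, ∑ e ∈ Es with M / 2 ^ (k + 1) < D e,
            ∑ w ∈ A z e with y z w ≤ tk k, f z w ≤
            M / 2 ^ k * (C1 * tk k / (M / 2 ^ (k + 1)) * ∑ w ∈ Es.biUnion S', F w) :=
          mul_le_mul_of_nonneg_left h1 (by positivity)
        refine h2.trans (le_of_eq ?_)
        simp only [htk]
        rw [pow_succ]
        field_simp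
    _ = 2 * C1 * (q / ρ) * (∑ w ∈ Es.biUnion S', F w) *
        ∑ k ∈ KK, min 1 (√(2 * C1 * Δ / 2 ^ k)) := (mul_sum _ _ _).symm
    _ ≤ 2 * C1 * (q / ρ) * (∑ w ∈ Es.biUnion S', F w) * (K + 4) :=
        mul_le_mul_of_nonneg_left (sum_min _ K hK KK) (by positivity)
    _ = _ := by ring

end Level

/-! ### LEMMA V -/

section Main

variable {Ω E Z : Type*}

/-- words of the zone -/
def Zn (Es : Finset E) (S : Z → E → Finset Ω) (z : Z) : Finset Ω := Es.biUnion (S z)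

/-- charge of the zones `∑_z ∑_{w ∈ zone z} f y` -/
def En (Zs : Finset Z) (Es : Finset E) (S : Z → E → Finset Ω) (y f : Z → Ω → ℝ) : ℝ :=
  ∑ z ∈ Zs, ∑ w ∈ Zn Es S z, f z w * y z w

/-- hypotheses of LEMMA V -/
structure Gr (Zs : Finset Z) (Es : Finset E) (rk : E → ℕ) (P : E → Finset Ω)
    (S A : Z → E → Finset Ω) (R : Z → Z → Prop) (g : E → ℝ) (y f f' : Z → Ω → ℝ)
    (C1 Δ : ℝ) : Prop where
  lamP : Lam Es P rk
  lamS : ∀ z ∈ Zs, Lam Es (S z) rk
  sub : ∀ z ∈ Zs, ∀ e ∈ Es, S z e ⊆ P e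
  Asub : ∀ z ∈ Zs, ∀ e ∈ Es, A z e ⊆ S z e
  Adis : ∀ z ∈ Zs, ∀ e ∈ Es, ∀ e' ∈ Es, e ≠ e' → Disjoint (A z e) (A z e')
  gpos : ∀ e ∈ Es, 0 < g e
  f0 : ∀ z w, 0 ≤ f z w
  f0' : ∀ z w, 0 ≤ f' z w
  y0 : ∀ z w, 0 < y z w
  C1pos : 0 < C1
  Δpos : 0 < Δ
  deg : ∀ z ∈ Zs, ∀ e ∈ Es, (A z e).Nonempty →
    ((Zs.filter fun z' => R z z' ∧ (S z' e).Nonempty).card : ℝ) ≤ Δ
  hyp1 : ∀ z ∈ Zs, ∀ e ∈ Es, (A z e).Nonempty → ∀ t, 0 < t →
    ∑ z' ∈ Zs with R z z', ∑ w ∈ S z' e with y z' w ≤ t, f' z' w ≤ C1 * t * g e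
  hyp2 : ∀ z' ∈ Zs, ∀ e ∈ Es, (S z' e).Nonempty → ∀ t, 0 < t →
    ∑ z ∈ Zs with R z z', ∑ w ∈ Zn Es S z ∩ P e with y z w ≤ t, f z w ≤ C1 * t * g e

variable {Zs : Finset Z} {Es : Finset E} {rk : E → ℕ} {P : E → Finset Ω}
    {S A : Z → E → Finset Ω} {R : Z → Z → Prop} {g : E → ℝ} {y f f' : Z → Ω → ℝ} {C1 Δ : ℝ}

/-- dyadic class of `y` -/
def cls (y : Z → Ω → ℝ) (z : Z) (w : Ω) : ℤ := Int.log 2 (y z w)

lemma cls_le {z : Z} {w : Ω} (h : 0 < y z w) : (2:ℝ) ^ cls y z w ≤ y z w := by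
  have := Int.zpow_log_le_self (b := 2) one_lt_two h
  simpa [cls] using this

lemma lt_cls {z : Z} {w : Ω} : y z w < 2 * (2:ℝ) ^ cls y z w := by
  have := Int.lt_zpow_succ_log_self (b := 2) one_lt_two (y z w)
  have h2 : ((2:ℕ):ℝ) ^ (Int.log 2 (y z w) + 1) = 2 * (2:ℝ) ^ cls y z w := by
    rw [zpow_add_one₀ (by norm_num)]; simp [cls]; ring
  rwa [h2] at this

/-- the part of `f'` in the class `i` -/
def Fc (y f' : Z → Ω → ℝ) (z : Z) (i : ℤ) (w : Ω) : ℝ := if cls y z w = i then f' z w else 0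

/-- relative mass of the class `i` at the node -/
def Dn (S : Z → E → Finset Ω) (g : E → ℝ) (y f' : Z → Ω → ℝ) (z : Z) (e : E) (i : ℤ) : ℝ :=
  (∑ w ∈ S z e, Fc y f' z i w) / g e

/-- the classes that occur -/
def II (Zs : Finset Z) (Es : Finset E) (S : Z → E → Finset Ω) (y : Z → Ω → ℝ) : Finset ℤ :=
  Zs.biUnion fun z => (Zn Es S z).image (cls y z)

lemma mem_II {z : Z} (hz : z ∈ Zs) {e : E} (he : e ∈ Es) {w : Ω} (hw : w ∈ S z e) :
    cls y z w ∈ II Zs Es S y :=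
  mem_biUnion.2 ⟨z, hz, mem_image_of_mem _ (mem_biUnion.2 ⟨e, he, hw⟩)⟩

lemma mem_II' {z : Z} (hz : z ∈ Zs) {w : Ω} (hw : w ∈ Zn Es S z) :
    cls y z w ∈ II Zs Es S y :=
  mem_biUnion.2 ⟨z, hz, mem_image_of_mem _ hw⟩

lemma Fc_nonneg (h : Gr Zs Es rk P S A R g y f f' C1 Δ) (z : Z) (i : ℤ) (w : Ω) :
    0 ≤ Fc y f' z i w := by
  unfold Fc
  split_ifs
  exacts [h.f0' z w, le_rfl]

lemma Dn_nonneg (h : Gr Zs Es rk P S A R g y f f' C1 Δ) (z : Z) {e : E} (he : e ∈ Es) (i : ℤ) :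
    0 ≤ Dn S g y f' z e i :=
  div_nonneg (sum_nonneg fun w _ => Fc_nonneg h z i w) (h.gpos e he).le

/-- classes with `2^i ≤ a` -/
lemma part1 (h : Gr Zs Es rk P S A R g y f f' C1 Δ) {z : Z} (hz : z ∈ Zs) {e : E} (he : e ∈ Es)
    (hA : (A z e).Nonempty) {a : ℝ} (ha : 0 < a) :
    ∑ z' ∈ Zs with R z z', ∑ i ∈ II Zs Es S y with (2:ℝ) ^ i ≤ a, Dn S g y f' z' e i ≤
      2 * C1 * a := by
  have hge := h.gpos e he
  have h1 : ∀ z' ∈ Zs.filter (fun z' => R z z'),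
      ∑ i ∈ II Zs Es S y with (2:ℝ) ^ i ≤ a, Dn S g y f' z' e i ≤
        (∑ w ∈ S z' e with y z' w ≤ 2 * a, f' z' w) / g e := by
    intro z' hz'
    have hz'' := (mem_filter.1 hz').1
    unfold Dn
    rw [← sum_div]
    apply div_le_div_of_nonneg_right _ hge.le
    rw [sum_comm, sum_filter]
    refine sum_le_sum fun w hw => ?_
    unfold Fc
    rw [sum_ite_eq]
    by_cases hc : cls y z' w ∈ (II Zs Es S y).filter fun i => (2:ℝ) ^ i ≤ a
    · rw [if_pos hc]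
      have h2 := (mem_filter.1 hc).2
      have h3 := lt_cls (y := y) (z := z') (w := w)
      rw [if_pos (by linarith)]
    · rw [if_neg hc]
      split_ifs
      exacts [h.f0' z' w, le_rfl]
  refine (sum_le_sum h1).trans ?_
  rw [← sum_div, div_le_iff₀ hge]
  have h2 := h.hyp1 z hz e he hA (2 * a) (by positivity)
  linarith

/-- classes with `a < 2^i` and small relative mass -/
lemma part2 (h : Gr Zs Es rk P S A R g y f f' C1 Δ) {z : Z} (hz : z ∈ Zs) {e : E} (he : e ∈ Es)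
    (hA : (A z e).Nonempty) {a : ℝ} (ha : 0 < a) :
    ∑ z' ∈ Zs with R z z', ∑ i ∈ II Zs Es S y,
      (if a < (2:ℝ) ^ i ∧ Dn S g y f' z' e i ≤ a ^ 2 / ((2:ℝ) ^ i * Δ) then
        Dn S g y f' z' e i else 0) ≤ 2 * a := by
  have hΔ := h.Δpos
  rw [sum_comm]
  have h1 : ∀ i ∈ II Zs Es S y, ∑ z' ∈ Zs with R z z',
      (if a < (2:ℝ) ^ i ∧ Dn S g y f' z' e i ≤ a ^ 2 / ((2:ℝ) ^ i * Δ) then
        Dn S g y f' z' e i else 0) ≤ if a < (2:ℝ) ^ i then a ^ 2 * (2:ℝ) ^ (-i) else 0 := by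
    intro i _
    by_cases hc : a < (2:ℝ) ^ i
    · rw [if_pos hc]
      have h2 : ∀ z' ∈ Zs.filter (fun z' => R z z'),
          (if a < (2:ℝ) ^ i ∧ Dn S g y f' z' e i ≤ a ^ 2 / ((2:ℝ) ^ i * Δ) then
            Dn S g y f' z' e i else 0) ≤
          if (S z' e).Nonempty then a ^ 2 / ((2:ℝ) ^ i * Δ) else 0 := by
        intro z' _
        by_cases hn : (S z' e).Nonempty
        · rw [if_pos hn]
          split_ifs with h3
          · exact h3.2
          · positivity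
        · rw [if_neg hn]
          rw [not_nonempty_iff_eq_empty] at hn
          have : Dn S g y f' z' e i = 0 := by unfold Dn; rw [hn]; simp
          rw [this]
          simp
      refine (sum_le_sum h2).trans ?_
      rw [← sum_filter, filter_filter, sum_const, nsmul_eq_mul]
      have h4 := h.deg z hz e he hA
      calc ((Zs.filter fun z' => R z z' ∧ (S z' e).Nonempty).card : ℝ) *
            (a ^ 2 / ((2:ℝ) ^ i * Δ)) ≤ Δ * (a ^ 2 / ((2:ℝ) ^ i * Δ)) :=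
            mul_le_mul_of_nonneg_right h4 (by positivity)
        _ = a ^ 2 * (2:ℝ) ^ (-i) := by
            rw [zpow_neg]; field_simp
    · rw [if_neg hc]
      refine le_of_eq (sum_eq_zero fun z' _ => ?_)
      rw [if_neg fun h3 => hc h3.1]
  refine (sum_le_sum h1).trans ?_
  rw [← sum_filter, ← mul_sum]
  have h5 := geo_int' ((II Zs Es S y).filter fun i => a < (2:ℝ) ^ i) a ha
    fun i hi => (mem_filter.1 hi).2
  calc a ^ 2 * ∑ i ∈ II Zs Es S y with a < (2:ℝ) ^ i, (2:ℝ) ^ (-i) ≤ a ^ 2 * (2 / a) :=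
        mul_le_mul_of_nonneg_left h5 (by positivity)
    _ = 2 * a := by field_simp

/-- at one changer -/
lemma split (h : Gr Zs Es rk P S A R g y f f' C1 Δ) {z : Z} (hz : z ∈ Zs) {e : E} (he : e ∈ Es)
    (hA : (A z e).Nonempty) {a : ℝ} (ha : 0 < a) :
    ∑ z' ∈ Zs with R z z', ∑ w' ∈ S z' e, f' z' w' / g e ≤ (2 * C1 + 2) * a +
      ∑ z' ∈ Zs with R z z', ∑ i ∈ II Zs Es S y,
        (if a < (2:ℝ) ^ i ∧ a ^ 2 / ((2:ℝ) ^ i * Δ) < Dn S g y f' z' e i then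
          Dn S g y f' z' e i else 0) := by
  have h0 : ∀ z' ∈ Zs.filter (fun z' => R z z'), ∑ w' ∈ S z' e, f' z' w' / g e =
      ∑ i ∈ II Zs Es S y, Dn S g y f' z' e i := by
    intro z' hz'
    have hz'' := (mem_filter.1 hz').1
    unfold Dn
    rw [← sum_div, ← sum_div, sum_comm]
    congr 1
    refine sum_congr rfl fun w hw => ?_
    unfold Fc
    rw [sum_ite_eq, if_pos (mem_II hz'' he hw)]
  rw [sum_congr rfl h0]
  have h1 := part1 h hz he hA ha
  have h2 := part2 h hz he hA ha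
  have h3 : ∑ z' ∈ Zs with R z z', ∑ i ∈ II Zs Es S y, Dn S g y f' z' e i ≤
      ∑ z' ∈ Zs with R z z', ∑ i ∈ II Zs Es S y with (2:ℝ) ^ i ≤ a, Dn S g y f' z' e i +
      ∑ z' ∈ Zs with R z z', ∑ i ∈ II Zs Es S y,
        (if a < (2:ℝ) ^ i ∧ Dn S g y f' z' e i ≤ a ^ 2 / ((2:ℝ) ^ i * Δ) then
          Dn S g y f' z' e i else 0) +
      ∑ z' ∈ Zs with R z z', ∑ i ∈ II Zs Es S y,
        (if a < (2:ℝ) ^ i ∧ a ^ 2 / ((2:ℝ) ^ i * Δ) < Dn S g y f' z' e i then
          Dn S g y f' z' e i else 0) := by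
    rw [← sum_add_distrib, ← sum_add_distrib]
    refine sum_le_sum fun z' _ => ?_
    rw [sum_filter, ← sum_add_distrib, ← sum_add_distrib]
    refine sum_le_sum fun i _ => ?_
    have h4 := Dn_nonneg h z' he i
    by_cases c1 : (2:ℝ) ^ i ≤ a
    · rw [if_pos c1]
      have e2 : 0 ≤ (if a < (2:ℝ) ^ i ∧ Dn S g y f' z' e i ≤ a ^ 2 / ((2:ℝ) ^ i * Δ) then
          Dn S g y f' z' e i else 0) := by split_ifs <;> [exact h4; exact le_rfl]
      have e3 : 0 ≤ (if a < (2:ℝ) ^ i ∧ a ^ 2 / ((2:ℝ) ^ i * Δ) < Dn S g y f' z' e i then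
          Dn S g y f' z' e i else 0) := by split_ifs <;> [exact h4; exact le_rfl]
      linarith
    · rw [if_neg c1]
      push Not at c1
      by_cases c2 : Dn S g y f' z' e i ≤ a ^ 2 / ((2:ℝ) ^ i * Δ)
      · rw [if_pos ⟨c1, c2⟩, if_neg fun c3 => absurd c3.2 (not_lt.2 c2)]
        linarith
      · push Not at c2
        rw [if_neg fun c3 => absurd c3.2 (not_le.2 c2), if_pos ⟨c1, c2⟩]
        linarith
  linarith

/-- **LEMMA V** -/
theorem lemV (h : Gr Zs Es rk P S A R g y f f' C1 Δ) (K : ℕ) (hK : 2 * C1 * Δ ≤ 2 ^ K)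
    {ρ : ℝ} (hρ : 0 < ρ) :
    ∑ z ∈ Zs, ∑ e ∈ Es, ∑ w ∈ A z e, ∑ z' ∈ Zs with R z z', ∑ w' ∈ S z' e,
      f z w * f' z' w' / g e ≤
      2 * (C1 + 1) * ρ * En Zs Es S y f + 2 * C1 * (K + 4) / ρ * En Zs Es S y f' := by
  have hC := h.C1pos
  have hΔ := h.Δpos
  -- at one changer
  have h1 : ∀ z ∈ Zs, ∀ e ∈ Es, ∀ w ∈ A z e,
      ∑ z' ∈ Zs with R z z', ∑ w' ∈ S z' e, f z w * f' z' w' / g e ≤
      (2 * (C1 + 1) * ρ) * (f z w * y z w) + ∑ z' ∈ Zs with R z z', ∑ i ∈ II Zs Es S y,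
        f z w * (if ρ * y z w < (2:ℝ) ^ i ∧ (ρ * y z w) ^ 2 / ((2:ℝ) ^ i * Δ) <
          Dn S g y f' z' e i then Dn S g y f' z' e i else 0) := by
    intro z hz e he w hw
    have h2 := split h hz he ⟨w, hw⟩ (a := ρ * y z w) (mul_pos hρ (h.y0 z w))
    have h3 := mul_le_mul_of_nonneg_left h2 (h.f0 z w)
    have h4 : ∑ z' ∈ Zs with R z z', ∑ w' ∈ S z' e, f z w * f' z' w' / g e =
        f z w * ∑ z' ∈ Zs with R z z', ∑ w' ∈ S z' e, f' z' w' / g e := by
      rw [mul_sum]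
      refine sum_congr rfl fun z' _ => ?_
      rw [mul_sum]
      refine sum_congr rfl fun w' _ => ?_
      ring
    rw [h4]
    refine h3.trans (le_of_eq ?_)
    rw [mul_add]
    congr 1
    · ring
    · rw [mul_sum]
      refine sum_congr rfl fun z' _ => ?_
      rw [mul_sum]
  -- first part
  have h5 : ∑ z ∈ Zs, ∑ e ∈ Es, ∑ w ∈ A z e, (2 * (C1 + 1) * ρ) * (f z w * y z w) ≤
      2 * (C1 + 1) * ρ * En Zs Es S y f := by
    unfold En
    rw [mul_sum]
    refine sum_le_sum fun z hz => ?_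
    have hpd : Set.PairwiseDisjoint (↑Es : Set E) (A z) := by
      intro n hn n' hn' hne
      exact h.Adis z hz n (by simpa using hn) n' (by simpa using hn') hne
    rw [← sum_biUnion hpd, mul_sum]
    refine sum_le_sum_of_subset_of_nonneg ?_ fun w _ _ => ?_
    · intro w hw
      rw [mem_biUnion] at hw
      obtain ⟨e, he, hwe⟩ := hw
      exact mem_biUnion.2 ⟨e, he, h.Asub z hz e he hwe⟩
    · have := h.f0 z w
      have := (h.y0 z w).le
      positivity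
  -- second part
  have h6 : ∑ z ∈ Zs, ∑ e ∈ Es, ∑ w ∈ A z e, ∑ z' ∈ Zs with R z z', ∑ i ∈ II Zs Es S y,
        f z w * (if ρ * y z w < (2:ℝ) ^ i ∧ (ρ * y z w) ^ 2 / ((2:ℝ) ^ i * Δ) <
          Dn S g y f' z' e i then Dn S g y f' z' e i else 0) ≤
      2 * C1 * (K + 4) / ρ * En Zs Es S y f' := by
    have h7 : ∑ z ∈ Zs, ∑ e ∈ Es, ∑ w ∈ A z e, ∑ z' ∈ Zs with R z z', ∑ i ∈ II Zs Es S y,
        f z w * (if ρ * y z w < (2:ℝ) ^ i ∧ (ρ * y z w) ^ 2 / ((2:ℝ) ^ i * Δ) <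
          Dn S g y f' z' e i then Dn S g y f' z' e i else 0) =
        ∑ z' ∈ Zs, ∑ i ∈ II Zs Es S y, ∑ z ∈ Zs with R z z', ∑ e ∈ Es, ∑ w ∈ A z e,
        f z w * (if ρ * y z w < (2:ℝ) ^ i ∧ (ρ * y z w) ^ 2 / ((2:ℝ) ^ i * Δ) <
          Dn S g y f' z' e i then Dn S g y f' z' e i else 0) := by
      have e1 : ∀ z ∈ Zs, ∑ e ∈ Es, ∑ w ∈ A z e, ∑ z' ∈ Zs with R z z', ∑ i ∈ II Zs Es S y,
          f z w * (if ρ * y z w < (2:ℝ) ^ i ∧ (ρ * y z w) ^ 2 / ((2:ℝ) ^ i * Δ) <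
          Dn S g y f' z' e i then Dn S g y f' z' e i else 0) =
          ∑ z' ∈ Zs with R z z', ∑ i ∈ II Zs Es S y, ∑ e ∈ Es, ∑ w ∈ A z e,
          f z w * (if ρ * y z w < (2:ℝ) ^ i ∧ (ρ * y z w) ^ 2 / ((2:ℝ) ^ i * Δ) <
          Dn S g y f' z' e i then Dn S g y f' z' e i else 0) := by
        intro z _
        calc _ = ∑ e ∈ Es, ∑ z' ∈ Zs with R z z', ∑ i ∈ II Zs Es S y, ∑ w ∈ A z e,
              f z w * (if ρ * y z w < (2:ℝ) ^ i ∧ (ρ * y z w) ^ 2 / ((2:ℝ) ^ i * Δ) <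
              Dn S g y f' z' e i then Dn S g y f' z' e i else 0) := by
              refine sum_congr rfl fun e _ => ?_
              rw [sum_comm]
              refine sum_congr rfl fun z' _ => ?_
              rw [sum_comm]
          _ = _ := by
              rw [sum_comm]
              refine sum_congr rfl fun z' _ => ?_
              rw [sum_comm]
      rw [sum_congr rfl e1]
      simp only [sum_filter]
      rw [sum_comm]
      refine sum_congr rfl fun z' _ => ?_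
      rw [sum_comm]
      refine sum_congr rfl fun z _ => ?_
      by_cases hR : R z z'
      · simp only [if_pos hR]
      · simp only [if_neg hR, sum_const_zero]
    rw [h7]
    have h8 : ∀ z' ∈ Zs, ∀ i ∈ II Zs Es S y, ∑ z ∈ Zs with R z z', ∑ e ∈ Es, ∑ w ∈ A z e,
        f z w * (if ρ * y z w < (2:ℝ) ^ i ∧ (ρ * y z w) ^ 2 / ((2:ℝ) ^ i * Δ) <
          Dn S g y f' z' e i then Dn S g y f' z' e i else 0) ≤
        2 * C1 * (K + 4) / ρ * ∑ w ∈ Zn Es S z', (2:ℝ) ^ i * Fc y f' z' i w := by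
      intro z' hz' i _
      have h9 := levels (q := (2:ℝ) ^ i) h.lamP (h.lamS z' hz') (h.sub z' hz')
        (Zs.filter fun z => R z z') A (Zn Es S)
        (fun z hz e he w hw => by
          have hz2 := (mem_filter.1 hz).1
          have h10 := h.Asub z hz2 e he hw
          exact mem_inter.2 ⟨mem_biUnion.2 ⟨e, he, h10⟩, h.sub z hz2 e he h10⟩)
        (fun z hz => h.Adis z (mem_filter.1 hz).1) f h.f0 y h.y0 (Fc y f' z' i)
        (Fc_nonneg h z' i) g h.gpos C1 Δ ρ hC hΔ hρ (by positivity) K hK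
        (fun z hz e he hne => by
          have hz2 := mem_filter.1 hz
          have hge := h.gpos e he
          rw [div_le_iff₀ hge]
          have h11 := h.hyp1 z hz2.1 e he hne (2 * (2:ℝ) ^ i) (by positivity)
          have h12 : ∑ w ∈ S z' e, Fc y f' z' i w ≤
              ∑ w ∈ S z' e with y z' w ≤ 2 * (2:ℝ) ^ i, f' z' w := by
            rw [sum_filter]
            refine sum_le_sum fun w _ => ?_
            unfold Fc
            by_cases hc : cls y z' w = i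
            · rw [if_pos hc]
              have h13 := lt_cls (y := y) (z := z') (w := w)
              rw [hc] at h13
              rw [if_pos h13.le]
            · rw [if_neg hc]
              split_ifs
              exacts [h.f0' z' w, le_rfl]
          have h14 : ∑ w ∈ S z' e with y z' w ≤ 2 * (2:ℝ) ^ i, f' z' w ≤
              ∑ z'' ∈ Zs with R z z'', ∑ w ∈ S z'' e with y z'' w ≤ 2 * (2:ℝ) ^ i, f' z'' w :=
            single_le_sum (f := fun z'' => ∑ w ∈ S z'' e with y z'' w ≤ 2 * (2:ℝ) ^ i, f' z'' w)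
              (fun z'' _ => sum_nonneg fun w _ => h.f0' z'' w)
              (mem_filter.2 ⟨hz', hz2.2⟩)
          linarith)
        (fun e he hne t ht => h.hyp2 z' hz' e he hne t ht)
      refine h9.trans (le_of_eq ?_)
      rw [← mul_sum]
      unfold Zn
      field_simp
    calc ∑ z' ∈ Zs, ∑ i ∈ II Zs Es S y, ∑ z ∈ Zs with R z z', ∑ e ∈ Es, ∑ w ∈ A z e,
        f z w * (if ρ * y z w < (2:ℝ) ^ i ∧ (ρ * y z w) ^ 2 / ((2:ℝ) ^ i * Δ) <
          Dn S g y f' z' e i then Dn S g y f' z' e i else 0)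
        ≤ ∑ z' ∈ Zs, ∑ i ∈ II Zs Es S y,
          2 * C1 * (K + 4) / ρ * ∑ w ∈ Zn Es S z', (2:ℝ) ^ i * Fc y f' z' i w :=
          sum_le_sum fun z' hz' => sum_le_sum fun i hi => h8 z' hz' i hi
      _ ≤ ∑ z' ∈ Zs, 2 * C1 * (K + 4) / ρ * ∑ w ∈ Zn Es S z', f' z' w * y z' w := by
          refine sum_le_sum fun z' hz' => ?_
          rw [← mul_sum]
          apply mul_le_mul_of_nonneg_left _ (by positivity)
          rw [sum_comm]
          refine sum_le_sum fun w hw => ?_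
          unfold Fc
          simp only [mul_ite, mul_zero]
          rw [sum_ite_eq, if_pos (mem_II' hz' hw), mul_comm]
          exact mul_le_mul_of_nonneg_left (cls_le (h.y0 z' w)) (h.f0' z' w)
      _ = _ := by
          unfold En
          rw [mul_sum]
  calc ∑ z ∈ Zs, ∑ e ∈ Es, ∑ w ∈ A z e, ∑ z' ∈ Zs with R z z', ∑ w' ∈ S z' e,
      f z w * f' z' w' / g e
      ≤ ∑ z ∈ Zs, ∑ e ∈ Es, ∑ w ∈ A z e, ((2 * (C1 + 1) * ρ) * (f z w * y z w) +
        ∑ z' ∈ Zs with R z z', ∑ i ∈ II Zs Es S y,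
        f z w * (if ρ * y z w < (2:ℝ) ^ i ∧ (ρ * y z w) ^ 2 / ((2:ℝ) ^ i * Δ) <
          Dn S g y f' z' e i then Dn S g y f' z' e i else 0)) :=
        sum_le_sum fun z hz => sum_le_sum fun e he => sum_le_sum fun w hw => h1 z hz e he w hw
    _ = ∑ z ∈ Zs, ∑ e ∈ Es, ∑ w ∈ A z e, (2 * (C1 + 1) * ρ) * (f z w * y z w) +
        ∑ z ∈ Zs, ∑ e ∈ Es, ∑ w ∈ A z e, ∑ z' ∈ Zs with R z z', ∑ i ∈ II Zs Es S y,
        f z w * (if ρ * y z w < (2:ℝ) ^ i ∧ (ρ * y z w) ^ 2 / ((2:ℝ) ^ i * Δ) <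
          Dn S g y f' z' e i then Dn S g y f' z' e i else 0) := by
        simp only [sum_add_distrib]
    _ ≤ _ := by linarith

end Main

end Crest.Agent.R4C.GWrelBx240
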