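import Crest.Agent.R4C.GWrelW_318

/-!
# Row 4, GW section, vector case: LEMMA V with a relation on NODES (helper318)

Left zones `z` with nodes `n ∈ Nd z` and changers `A z n`; right zones `z'` with nodes `n' ∈ Nd' z'`
and words `S z' n'` (laminar for each `z'`; several nodes per prefix allowed).  `rel z n z' n'` =
the nodes are linked (then `g' n' = g n`), at most `Δ` right nodes are linked to a left node.

* `H1` at `(z, n)`: `∑_{z'} ∑_{n' ~ n} f'{w ∈ S z' n' : y' ≤ t} ≤ C1 t g(n)`;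
* `H2` at `(z', n0)`: `∑_z ∑_n ∑_{n' ~ n, n' below n0} f{w ∈ A z n : y ≤ t} ≤ C1 t g'(n0)`.

`lemmaN` : cost `≤ (C1 + 2) ρ ∑ f y + 2 C1 n (C1 Δ)^{1/n} / ρ ∑ f' y'`;
`lemmaN_W` : with the weights `min W W'`, `log Δ`;  `lemmaN_W_sqrt` : square-root form.
-/

set_option autoImplicit false
set_option linter.unusedSectionVars false

open Finset MeasureTheory

noncomputable section

namespace Crest.Agent.R4C.GWrelNx318

open Crest.Agent.R4C.GWzonex9 Crest.Agent.R4C.GWrelx318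

variable {Ω Ω' N N' Z Z' : Type*} [DecidableEq Ω] [DecidableEq Ω'] [DecidableEq N]
  [DecidableEq N'] [DecidableEq Z] [DecidableEq Z']

/-- the combinatorial data -/
structure VN (Ω Ω' N N' Z Z' : Type*) where
  Zs : Finset Z
  Zs' : Finset Z'
  Nd : Z → Finset N
  Nd' : Z' → Finset N'
  A : Z → N → Finset Ω
  S : Z' → N' → Finset Ω'
  rk : Z' → N' → ℕ
  g : N → ℝ
  g' : N' → ℝ
  rel : Z → N → Z' → N' → Prop

/-- the words of a right zone -/
def VN.zone (D : VN Ω Ω' N N' Z Z') (z' : Z') : Finset Ω' := (D.Nd' z').biUnion (D.S z')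

open Classical in
/-- the nodes of `z'` linked to `(z, n)` -/
def VN.out (D : VN Ω Ω' N N' Z Z') (z : Z) (n : N) (z' : Z') : Finset N' :=
  (D.Nd' z').filter fun n' => D.rel z n z' n'

/-- `n'` is below `n0` -/
def VN.below (D : VN Ω Ω' N N' Z Z') (z' : Z') (n0 n' : N') : Prop :=
  D.rk z' n0 ≤ D.rk z' n' ∧ ¬ Disjoint (D.S z' n0) (D.S z' n')

open Classical in
/-- the nodes of `z'` below `n0` linked to `(z, n)` -/
def VN.outB (D : VN Ω Ω' N N' Z Z') (z : Z) (n : N) (z' : Z') (n0 : N') : Finset N' :=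
  (D.Nd' z').filter fun n' => D.rel z n z' n' ∧ D.below z' n0 n'

/-- the structural hypotheses -/
structure VN.Geo (D : VN Ω Ω' N N' Z Z') (Δ : ℝ) : Prop where
  hΔ : 1 ≤ Δ
  lam : ∀ z' ∈ D.Zs', Lam (D.Nd' z') (D.S z') (D.rk z')
  hg : ∀ z ∈ D.Zs, ∀ n ∈ D.Nd z, 0 < D.g n
  hg' : ∀ z' ∈ D.Zs', ∀ n' ∈ D.Nd' z', 0 < D.g' n'
  rg : ∀ z ∈ D.Zs, ∀ n ∈ D.Nd z, ∀ z' ∈ D.Zs', ∀ n' ∈ D.Nd' z', D.rel z n z' n' →
    D.g' n' = D.g n
  deg : ∀ z ∈ D.Zs, ∀ n ∈ D.Nd z, (D.A z n).Nonempty →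
    ∑ z' ∈ D.Zs', (((D.out z n z').filter fun n' => (D.S z' n').Nonempty).card : ℝ) ≤ Δ

/-- the hypotheses on the weights -/
structure VN.Hyp (D : VN Ω Ω' N N' Z Z') (f : Z → Ω → ℝ) (f' : Z' → Ω' → ℝ) (y : Z → Ω → ℝ)
    (y' : Z' → Ω' → ℝ) (C1 : ℝ) : Prop where
  hC : 1 ≤ C1
  hf : ∀ z w, 0 ≤ f z w
  hf' : ∀ z w, 0 ≤ f' z w
  hy : ∀ z w, 0 < y z w
  hy' : ∀ z w, 0 < y' z w
  H1 : ∀ z ∈ D.Zs, ∀ n ∈ D.Nd z, (D.A z n).Nonempty → ∀ t : ℝ, 0 < t →
    ∑ z' ∈ D.Zs', ∑ n' ∈ D.out z n z', ∑ w ∈ D.S z' n' with y' z' w ≤ t, f' z' w ≤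
      C1 * t * D.g n
  H2 : ∀ z' ∈ D.Zs', ∀ n0 ∈ D.Nd' z', (D.S z' n0).Nonempty → ∀ t : ℝ, 0 < t →
    ∑ z ∈ D.Zs, ∑ n ∈ D.Nd z, ∑ _n' ∈ D.outB z n z' n0,
      ∑ w ∈ D.A z n with y z w ≤ t, f z w ≤ C1 * t * D.g' n0

lemma mem_out {D : VN Ω Ω' N N' Z Z'} {z : Z} {n : N} {z' : Z'} {n' : N'} :
    n' ∈ D.out z n z' ↔ n' ∈ D.Nd' z' ∧ D.rel z n z' n' := by
  classical
  unfold VN.out
  rw [mem_filter]

lemma mem_outB {D : VN Ω Ω' N N' Z Z'} {z : Z} {n : N} {z' : Z'} {n0 n' : N'} :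
    n' ∈ D.outB z n z' n0 ↔ n' ∈ D.Nd' z' ∧ D.rel z n z' n' ∧ D.below z' n0 n' := by
  classical
  unfold VN.outB
  rw [mem_filter]

/-- one level: changers linked to nodes of `z'` of density `> s` -/
lemma level {D : VN Ω Ω' N N' Z Z'} {Δ C1 : ℝ} {f : Z → Ω → ℝ} {f' : Z' → Ω' → ℝ}
    {y : Z → Ω → ℝ} {y' : Z' → Ω' → ℝ} (G : D.Geo Δ)
    (H : D.Hyp f f' y y' C1) (z' : Z') (hz' : z' ∈ D.Zs')
    (F' : Ω' → ℝ) (hF' : ∀ w, 0 ≤ F' w) (s t : ℝ) (hs : 0 < s) (ht : 0 < t) :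
    ∑ z ∈ D.Zs, ∑ n ∈ D.Nd z, ∑ n' ∈ D.out z n z' with
      s < (∑ w ∈ D.S z' n', F' w) / D.g' n', ∑ w ∈ D.A z n with y z w ≤ t, f z w ≤
      C1 * t * ((∑ w ∈ D.zone z', F' w) / s) := by
  classical
  set Q : N' → Prop := fun n' => s < (∑ w ∈ D.S z' n', F' w) / D.g' n' with hQdef
  have hQ : ∀ n', Q n' → (D.S z' n').Nonempty := by
    intro n' hn'
    by_contra hne
    rw [not_nonempty_iff_eq_empty] at hne
    simp only [hQdef, hne, sum_empty, zero_div] at hn'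
    linarith
  have hC0 : 0 ≤ C1 * t := mul_nonneg (by have := H.hC; linarith) ht.le
  have hf := H.hf
  set Fst := First (D.Nd' z') (D.S z') (D.rk z') Q with hFst
  -- total mass of the first nodes
  have hmass : ∑ n0 ∈ Fst, D.g' n0 ≤ (∑ w ∈ D.zone z', F' w) / s := by
    rw [le_div_iff₀ hs, sum_mul]
    have h1 : ∀ n0 ∈ Fst, D.g' n0 * s ≤ ∑ w ∈ D.S z' n0, F' w := by
      intro n0 hn0
      have he' := mem_first.1 hn0
      have h2 : s < (∑ w ∈ D.S z' n0, F' w) / D.g' n0 := he'.2.1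
      rw [lt_div_iff₀ (G.hg' z' hz' n0 he'.1)] at h2
      linarith
    refine (sum_le_sum h1).trans ?_
    have hpf : Set.PairwiseDisjoint (↑Fst : Set N') (fun n0 => D.S z' n0) := by
      intro e he e' he' hne
      exact first_disj (G.lam z' hz') _ e (by simpa using he) e' (by simpa using he') hne
    rw [← sum_biUnion hpf]
    refine sum_le_sum_of_subset_of_nonneg ?_ fun w _ _ => hF' w
    intro w hw
    rw [mem_biUnion] at hw
    obtain ⟨e, he, hwe⟩ := hw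
    exact mem_biUnion.2 ⟨e, (mem_first.1 he).1, hwe⟩
  -- every linked node of density > s is below a first node
  have hpt : ∀ z ∈ D.Zs, ∀ n ∈ D.Nd z, ∑ n' ∈ D.out z n z' with Q n',
      ∑ w ∈ D.A z n with y z w ≤ t, f z w ≤
      ∑ n0 ∈ Fst, ∑ _n' ∈ D.outB z n z' n0, ∑ w ∈ D.A z n with y z w ≤ t, f z w := by
    intro z _ n _
    set X : ℝ := ∑ w ∈ D.A z n with y z w ≤ t, f z w with hX
    have hX0 : 0 ≤ X := sum_nonneg fun w _ => hf z w
    have h1 : ∀ n' ∈ (D.out z n z').filter Q, X ≤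
        ∑ n0 ∈ Fst, if n' ∈ D.outB z n z' n0 then X else 0 := by
      intro n' hn'
      rw [mem_filter, mem_out] at hn'
      obtain ⟨w, hw⟩ := hQ n' hn'.2
      obtain ⟨n0, hn0, hw0⟩ := first_cover (G.lam z' hz') Q hn'.1.1 hn'.2 hw
      have hn0' := mem_first.1 hn0
      have hrk : D.rk z' n0 ≤ D.rk z' n' := by
        by_contra hlt
        push Not at hlt
        exact (disjoint_left.1 (hn0'.2.2 n' hn'.1.1 hn'.2 hlt) hw) hw0
      have hmem : n' ∈ D.outB z n z' n0 := by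
        rw [mem_outB]
        exact ⟨hn'.1.1, hn'.1.2, hrk, not_disjoint_iff.2 ⟨w, hw0, hw⟩⟩
      calc X = if n' ∈ D.outB z n z' n0 then X else 0 := by rw [if_pos hmem]
        _ ≤ _ := single_le_sum (f := fun n0 => if n' ∈ D.outB z n z' n0 then X else 0)
            (fun n0 _ => by split_ifs; exacts [hX0, le_rfl]) hn0
    refine (sum_le_sum h1).trans ?_
    rw [sum_comm]
    refine sum_le_sum fun n0 _ => ?_
    rw [← sum_filter]
    exact sum_le_sum_of_subset_of_nonneg (fun n' hn' => (mem_filter.1 hn').2)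
      fun _ _ _ => hX0
  calc ∑ z ∈ D.Zs, ∑ n ∈ D.Nd z, ∑ n' ∈ D.out z n z' with Q n',
        ∑ w ∈ D.A z n with y z w ≤ t, f z w
      ≤ ∑ z ∈ D.Zs, ∑ n ∈ D.Nd z, ∑ n0 ∈ Fst, ∑ _n' ∈ D.outB z n z' n0,
          ∑ w ∈ D.A z n with y z w ≤ t, f z w :=
        sum_le_sum fun z hz => sum_le_sum fun n hn => hpt z hz n hn
    _ = ∑ n0 ∈ Fst, ∑ z ∈ D.Zs, ∑ n ∈ D.Nd z, ∑ _n' ∈ D.outB z n z' n0,
          ∑ w ∈ D.A z n with y z w ≤ t, f z w := by
        have e1 : ∀ z ∈ D.Zs, ∑ n ∈ D.Nd z, ∑ n0 ∈ Fst, ∑ _n' ∈ D.outB z n z' n0,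
            ∑ w ∈ D.A z n with y z w ≤ t, f z w =
            ∑ n0 ∈ Fst, ∑ n ∈ D.Nd z, ∑ _n' ∈ D.outB z n z' n0,
            ∑ w ∈ D.A z n with y z w ≤ t, f z w := fun z _ => sum_comm
        rw [sum_congr rfl e1, sum_comm]
    _ ≤ ∑ n0 ∈ Fst, C1 * t * D.g' n0 := by
        refine sum_le_sum fun n0 hn0 => ?_
        have he' := mem_first.1 hn0
        exact H.H2 z' hz' n0 he'.1 (hQ n0 he'.2.1) t ht
    _ = C1 * t * ∑ n0 ∈ Fst, D.g' n0 := by rw [mul_sum]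
    _ ≤ C1 * t * ((∑ w ∈ D.zone z', F' w) / s) := mul_le_mul_of_nonneg_left hmass hC0

/-- one partner zone, one class of sizes of `y'` -/
lemma class_bound {D : VN Ω Ω' N N' Z Z'} {Δ C1 : ℝ} {f : Z → Ω → ℝ} {f' : Z' → Ω' → ℝ}
    {y : Z → Ω → ℝ} {y' : Z' → Ω' → ℝ} (G : D.Geo Δ)
    (H : D.Hyp f f' y y' C1) (z' : Z') (hz' : z' ∈ D.Zs')
    (F' : Ω' → ℝ) (hF' : ∀ w, 0 ≤ F' w) (Y ρ : ℝ) (hY : 0 < Y) (hρ : 0 < ρ) (m : ℕ) (hm : 0 < m)
    (hub : ∀ z ∈ D.Zs, ∀ n ∈ D.Nd z, (D.A z n).Nonempty → ∀ n' ∈ D.out z n z',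
      ∑ w ∈ D.S z' n', F' w ≤ C1 * Y * D.g' n') :
    ∑ z ∈ D.Zs, ∑ n ∈ D.Nd z, ∑ n' ∈ D.out z n z', ∑ w ∈ D.A z n,
      f z w * max ((∑ w ∈ D.S z' n', F' w) / D.g' n' - vv Δ Y ρ m (y z w)) 0 ≤
      C1 * (Y / ρ) * (m * (C1 * Δ) ^ (1 / m : ℝ)) * ∑ w ∈ D.zone z', F' w := by
  classical
  have hC : 1 ≤ C1 := H.hC
  have hC0 : 0 < C1 := by linarith
  have hΔ0 : 0 < Δ := lt_of_lt_of_le one_pos G.hΔ
  have hm' : (0:ℝ) < m := by exact_mod_cast hm
  set V : ℝ := C1 * Y with hV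
  have hV0 : 0 < V := by positivity
  set u : N' → ℝ := fun n' => (∑ w ∈ D.S z' n', F' w) / D.g' n' with hu
  set M' : ℝ := ∑ w ∈ D.zone z', F' w with hM'
  have hM0 : 0 ≤ M' := sum_nonneg fun w _ => hF' w
  set K : ℝ := C1 * M' * (Y / ρ) * (Δ / Y) ^ (1 / m : ℝ) with hK
  have hK0 : 0 ≤ K := by positivity
  have hvv0 : ∀ z w, 0 ≤ vv Δ Y ρ m (y z w) := by
    intro z w
    have := H.hy z w
    unfold vv
    positivity
  have e1 : ∑ z ∈ D.Zs, ∑ n ∈ D.Nd z, ∑ n' ∈ D.out z n z', ∑ w ∈ D.A z n,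
      f z w * max (u n' - vv Δ Y ρ m (y z w)) 0 =
      ∑ z ∈ D.Zs, ∑ n ∈ D.Nd z, ∑ n' ∈ D.out z n z', ∑ w ∈ D.A z n,
        ∫ s in Set.Ioc (0:ℝ) V,
        f z w * (if vv Δ Y ρ m (y z w) < s ∧ s < u n' then (1:ℝ) else 0) := by
    refine sum_congr rfl fun z hz => sum_congr rfl fun n hn => sum_congr rfl fun n' hn' =>
      sum_congr rfl fun w hw => ?_
    rw [integral_const_mul, int_between _ _ V (hvv0 z w)]
    rw [hu, div_le_iff₀ (G.hg' z' hz' n' (mem_out.1 hn').1)]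
    exact hub z hz n hn ⟨w, hw⟩ n' hn'
  have hint : ∀ (n' : N') (z : Z) (w : Ω), Integrable (fun s : ℝ => f z w *
      (if vv Δ Y ρ m (y z w) < s ∧ s < u n' then (1:ℝ) else 0))
      (volume.restrict (Set.Ioc 0 V)) := fun n' z w => (integrable_between _ _ V).const_mul _
  have e2 : ∑ z ∈ D.Zs, ∑ n ∈ D.Nd z, ∑ n' ∈ D.out z n z', ∑ w ∈ D.A z n,
        ∫ s in Set.Ioc (0:ℝ) V,
        f z w * (if vv Δ Y ρ m (y z w) < s ∧ s < u n' then (1:ℝ) else 0) =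
      ∫ s in Set.Ioc (0:ℝ) V, ∑ z ∈ D.Zs, ∑ n ∈ D.Nd z, ∑ n' ∈ D.out z n z', ∑ w ∈ D.A z n,
        f z w * (if vv Δ Y ρ m (y z w) < s ∧ s < u n' then (1:ℝ) else 0) := by
    rw [integral_finsetSum _ fun z _ => integrable_finsetSum _ fun n _ =>
      integrable_finsetSum _ fun n' _ => integrable_finsetSum _ fun w _ => hint n' z w]
    refine sum_congr rfl fun z _ => ?_
    rw [integral_finsetSum _ fun n _ => integrable_finsetSum _ fun n' _ =>
      integrable_finsetSum _ fun w _ => hint n' z w]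
    refine sum_congr rfl fun n _ => ?_
    rw [integral_finsetSum _ fun n' _ => integrable_finsetSum _ fun w _ => hint n' z w]
    refine sum_congr rfl fun n' _ => ?_
    rw [integral_finsetSum _ fun w _ => hint n' z w]
  have hrp : IntervalIntegrable (fun s : ℝ => s ^ ((1 / m : ℝ) - 1)) volume 0 V := by
    apply intervalIntegral.intervalIntegrable_rpow'
    have : (0:ℝ) < 1 / m := by positivity
    linarith
  have hrp' : IntegrableOn (fun s : ℝ => K * s ^ ((1 / m : ℝ) - 1)) (Set.Ioc 0 V) := by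
    rw [intervalIntegrable_iff_integrableOn_Ioc_of_le hV0.le] at hrp
    exact hrp.const_mul K
  rw [e1, e2]
  have hle : ∫ s in Set.Ioc (0:ℝ) V, (∑ z ∈ D.Zs, ∑ n ∈ D.Nd z, ∑ n' ∈ D.out z n z',
        ∑ w ∈ D.A z n, f z w * (if vv Δ Y ρ m (y z w) < s ∧ s < u n' then (1:ℝ) else 0)) ≤
      ∫ s in Set.Ioc (0:ℝ) V, K * s ^ ((1 / m : ℝ) - 1) := by
    refine setIntegral_mono_on ?_ hrp' measurableSet_Ioc ?_
    · exact integrable_finsetSum _ fun z _ => integrable_finsetSum _ fun n _ =>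
        integrable_finsetSum _ fun n' _ => integrable_finsetSum _ fun w _ => hint n' z w
    · intro s hs
      have hs0 : 0 < s := hs.1
      set t : ℝ := Y / ρ * (Δ / Y * s) ^ (1 / m : ℝ) with ht
      have ht0 : 0 < t := by positivity
      have h1 := level G H z' hz' F' hF' s t hs0 ht0
      have h2 : ∑ z ∈ D.Zs, ∑ n ∈ D.Nd z, ∑ n' ∈ D.out z n z', ∑ w ∈ D.A z n,
          f z w * (if vv Δ Y ρ m (y z w) < s ∧ s < u n' then (1:ℝ) else 0) ≤
          ∑ z ∈ D.Zs, ∑ n ∈ D.Nd z, ∑ n' ∈ D.out z n z' with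
            s < (∑ w ∈ D.S z' n', F' w) / D.g' n', ∑ w ∈ D.A z n with y z w ≤ t, f z w := by
        refine sum_le_sum fun z _ => sum_le_sum fun n _ => ?_
        rw [sum_filter]
        refine sum_le_sum fun n' _ => ?_
        by_cases hse : s < (∑ w ∈ D.S z' n', F' w) / D.g' n'
        · rw [if_pos hse, sum_filter]
          refine sum_le_sum fun w _ => ?_
          by_cases hv : vv Δ Y ρ m (y z w) < s ∧ s < u n'
          · have h3 := le_of_vv hΔ0 hY hρ hm (H.hy z w).le hv.1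
            rw [if_pos hv, if_pos h3, mul_one]
          · rw [if_neg hv, mul_zero]
            split_ifs
            · exact H.hf z w
            · exact le_rfl
        · rw [if_neg hse]
          refine le_of_eq (sum_eq_zero fun w _ => ?_)
          rw [if_neg fun hh => hse hh.2, mul_zero]
      refine (h2.trans h1).trans (le_of_eq ?_)
      rw [ht, Real.mul_rpow (by positivity) hs0.le, Real.rpow_sub_one hs0.ne']
      rw [hK, hM']
      field_simp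
  refine hle.trans (le_of_eq ?_)
  rw [integral_const_mul, ← intervalIntegral.integral_of_le hV0.le, integral_rpow
    (Or.inl (by have : (0:ℝ) < 1 / m := by positivity
                linarith))]
  have h0 : (0:ℝ) ^ ((1 / m : ℝ) - 1 + 1) = 0 := by
    rw [sub_add_cancel]
    exact Real.zero_rpow (by positivity)
  rw [h0, sub_zero, sub_add_cancel, hK, hV]
  have h4 : (Δ / Y) ^ (1 / m : ℝ) * (C1 * Y) ^ (1 / m : ℝ) = (C1 * Δ) ^ (1 / m : ℝ) := by
    rw [← Real.mul_rpow (by positivity) (by positivity)]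
    congr 1
    field_simp
  rw [← h4]
  field_simp

/-- mass of the class `i` -/
def cl (f' y' : Z' → Ω' → ℝ) (i : ℤ) (z' : Z') (w : Ω') : ℝ :=
  if Int.clog 2 (y' z' w) = i then f' z' w else 0

/-- the classes that occur -/
def VN.cls (D : VN Ω Ω' N N' Z Z') (y' : Z' → Ω' → ℝ) : Finset ℤ :=
  D.Zs'.biUnion fun z' => (D.zone z').image fun w => Int.clog 2 (y' z' w)

/-- the left side -/
def VN.cost (D : VN Ω Ω' N N' Z Z') (f : Z → Ω → ℝ) (f' : Z' → Ω' → ℝ) : ℝ :=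
  ∑ z ∈ D.Zs, ∑ n ∈ D.Nd z, ∑ z' ∈ D.Zs', ∑ n' ∈ D.out z n z',
    (∑ w ∈ D.A z n, ∑ w' ∈ D.S z' n', f z w * f' z' w') / D.g n

/-- `∑ f y` over the changers -/
def VN.en (D : VN Ω Ω' N N' Z Z') (f y : Z → Ω → ℝ) : ℝ :=
  ∑ z ∈ D.Zs, ∑ n ∈ D.Nd z, ∑ w ∈ D.A z n, f z w * y z w

/-- `∑ f' y'` over the words of the right zones -/
def VN.en' (D : VN Ω Ω' N N' Z Z') (f' y' : Z' → Ω' → ℝ) : ℝ :=
  ∑ z' ∈ D.Zs', ∑ w ∈ D.zone z', f' z' w * y' z' w

/-- **LEMMA V, relation on nodes** -/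
theorem lemmaN (D : VN Ω Ω' N N' Z Z') {Δ C1 : ℝ} {f : Z → Ω → ℝ} {f' : Z' → Ω' → ℝ}
    {y : Z → Ω → ℝ} {y' : Z' → Ω' → ℝ} (G : D.Geo Δ)
    (H : D.Hyp f f' y y' C1) (ρ : ℝ) (hρ : 0 < ρ) (m : ℕ) (hm : 2 ≤ m) :
    D.cost f f' ≤ (C1 + 2) * ρ * D.en f y +
      2 * C1 * (m * (C1 * Δ) ^ (1 / m : ℝ)) / ρ * D.en' f' y' := by
  classical
  have hC : 1 ≤ C1 := H.hC
  have hC0 : 0 < C1 := by linarith
  have hΔ0 : 0 < Δ := lt_of_lt_of_le one_pos G.hΔ
  have hf := H.hf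
  have hf' := H.hf'
  have hy := H.hy
  have hy' := H.hy'
  set I := D.cls y' with hI
  set u : ℤ → Z' → N' → ℝ := fun i z' n' => (∑ w ∈ D.S z' n', cl f' y' i z' w) / D.g' n' with hu
  set v : ℤ → ℝ → ℝ := fun i a => vv Δ ((2:ℝ) ^ i) ρ m a with hv
  have hcl : ∀ i z' w, 0 ≤ cl f' y' i z' w := by
    intro i z' w
    unfold cl
    split_ifs
    exacts [hf' z' w, le_rfl]
  -- the pointwise bound
  have key : ∀ z ∈ D.Zs, ∀ n ∈ D.Nd z, ∀ w ∈ D.A z n,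
      ∑ z' ∈ D.Zs', ∑ n' ∈ D.out z n z', (∑ w' ∈ D.S z' n', f' z' w') / D.g n ≤
        (C1 + 2) * ρ * y z w +
          ∑ i ∈ I, ∑ z' ∈ D.Zs', ∑ n' ∈ D.out z n z', max (u i z' n' - v i (y z w)) 0 := by
    intro z hz n hn w hw
    have hge := G.hg z hz n hn
    have hyw := hy z w
    have hρy : 0 < ρ * y z w := mul_pos hρ hyw
    have hne : (D.A z n).Nonempty := ⟨w, hw⟩
    -- small partners
    have hI1 : ∑ z' ∈ D.Zs', ∑ n' ∈ D.out z n z',
        (∑ w' ∈ D.S z' n' with y' z' w' ≤ ρ * y z w, f' z' w') / D.g n ≤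
        C1 * (ρ * y z w) := by
      simp only [← sum_div]
      rw [div_le_iff₀ hge]
      exact H.H1 z hz n hn hne _ hρy
    -- large partners
    have hI2 : ∀ z' ∈ D.Zs', ∀ n' ∈ D.out z n z',
        (∑ w' ∈ D.S z' n' with ¬ y' z' w' ≤ ρ * y z w, f' z' w') / D.g n ≤
        ∑ i ∈ I with ρ * y z w < (2:ℝ) ^ i, u i z' n' := by
      intro z' hz' n' hn'
      have hn'' := mem_out.1 hn'
      have hgg := G.rg z hz n hn z' hz' n' hn''.1 hn''.2
      rw [hu]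
      simp only
      rw [← sum_div, sum_comm, hgg]
      refine div_le_div_of_nonneg_right ?_ hge.le
      rw [sum_filter]
      refine sum_le_sum fun w' hw' => ?_
      by_cases hlt : y' z' w' ≤ ρ * y z w
      · rw [if_neg (not_not.2 hlt)]
        exact sum_nonneg fun i _ => hcl i z' w'
      · rw [if_pos hlt]
        push Not at hlt
        have hmem : Int.clog 2 (y' z' w') ∈ I.filter fun i => ρ * y z w < (2:ℝ) ^ i := by
          rw [mem_filter]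
          refine ⟨?_, hlt.trans_le le_clog⟩
          rw [hI]
          unfold VN.cls VN.zone
          rw [mem_biUnion]
          exact ⟨z', hz', mem_image.2 ⟨w', mem_biUnion.2 ⟨n', hn''.1, hw'⟩, rfl⟩⟩
        calc f' z' w' = cl f' y' (Int.clog 2 (y' z' w')) z' w' := by
              unfold cl; rw [if_pos rfl]
          _ ≤ _ := single_le_sum (f := fun i => cl f' y' i z' w')
              (fun i _ => hcl i z' w') hmem
    have hI3 : ∀ i, ρ * y z w < (2:ℝ) ^ i → ∑ z' ∈ D.Zs', ∑ n' ∈ D.out z n z', u i z' n' ≤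
        ρ * y z w * (ρ * y z w / (2:ℝ) ^ i) +
          ∑ z' ∈ D.Zs', ∑ n' ∈ D.out z n z', max (u i z' n' - v i (y z w)) 0 := by
      intro i hi
      have h2i : (0:ℝ) < (2:ℝ) ^ i := by positivity
      have hv0 : 0 ≤ v i (y z w) := by rw [hv]; simp only; unfold vv; positivity
      have h1 : ∀ z' ∈ D.Zs', ∑ n' ∈ D.out z n z', u i z' n' ≤
          (((D.out z n z').filter fun n' => (D.S z' n').Nonempty).card : ℝ) * v i (y z w) +
            ∑ n' ∈ D.out z n z', max (u i z' n' - v i (y z w)) 0 := by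
        intro z' _
        have h2 : ∑ n' ∈ D.out z n z', u i z' n' =
            ∑ n' ∈ (D.out z n z').filter (fun n' => (D.S z' n').Nonempty), u i z' n' := by
          rw [sum_filter]
          refine sum_congr rfl fun n' _ => ?_
          split_ifs with hS
          · rfl
          · rw [not_nonempty_iff_eq_empty] at hS
            rw [hu]; simp [hS]
        rw [h2]
        calc ∑ n' ∈ (D.out z n z').filter (fun n' => (D.S z' n').Nonempty), u i z' n'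
            ≤ ∑ n' ∈ (D.out z n z').filter (fun n' => (D.S z' n').Nonempty),
                (v i (y z w) + max (u i z' n' - v i (y z w)) 0) := by
              refine sum_le_sum fun n' _ => ?_
              have := le_max_left (u i z' n' - v i (y z w)) 0
              linarith
          _ = (((D.out z n z').filter fun n' => (D.S z' n').Nonempty).card : ℝ) * v i (y z w) +
                ∑ n' ∈ (D.out z n z').filter (fun n' => (D.S z' n').Nonempty),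
                  max (u i z' n' - v i (y z w)) 0 := by
              rw [sum_add_distrib, sum_const, nsmul_eq_mul]
          _ ≤ _ := by
              refine add_le_add le_rfl ?_
              exact sum_le_sum_of_subset_of_nonneg (filter_subset _ _)
                fun n' _ _ => le_max_right _ _
      refine (sum_le_sum h1).trans ?_
      rw [sum_add_distrib, ← sum_mul]
      refine add_le_add ?_ le_rfl
      refine (mul_le_mul_of_nonneg_right (G.deg z hz n hn hne) hv0).trans ?_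
      have hr0 : 0 ≤ ρ * y z w / (2:ℝ) ^ i := by positivity
      have hr1 : ρ * y z w / (2:ℝ) ^ i ≤ 1 := (div_le_one h2i).2 hi.le
      have h3 : (ρ * y z w / (2:ℝ) ^ i) ^ m ≤ (ρ * y z w / (2:ℝ) ^ i) ^ 2 :=
        pow_le_pow_of_le_one hr0 hr1 hm
      rw [hv]
      simp only
      unfold vv
      calc Δ * ((2:ℝ) ^ i / Δ * (ρ * y z w / (2:ℝ) ^ i) ^ m)
          = (2:ℝ) ^ i * (ρ * y z w / (2:ℝ) ^ i) ^ m := by field_simp
        _ ≤ (2:ℝ) ^ i * (ρ * y z w / (2:ℝ) ^ i) ^ 2 :=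
            mul_le_mul_of_nonneg_left h3 h2i.le
        _ = _ := by field_simp
    have hsplit : ∑ z' ∈ D.Zs', ∑ n' ∈ D.out z n z', (∑ w' ∈ D.S z' n', f' z' w') / D.g n =
        ∑ z' ∈ D.Zs', ∑ n' ∈ D.out z n z',
          (∑ w' ∈ D.S z' n' with y' z' w' ≤ ρ * y z w, f' z' w') / D.g n +
        ∑ z' ∈ D.Zs', ∑ n' ∈ D.out z n z',
          (∑ w' ∈ D.S z' n' with ¬ y' z' w' ≤ ρ * y z w, f' z' w') / D.g n := by
      rw [← sum_add_distrib]
      refine sum_congr rfl fun z' _ => ?_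
      rw [← sum_add_distrib]
      refine sum_congr rfl fun n' _ => ?_
      rw [← add_div, sum_filter_add_sum_filter_not]
    have hI4 : ∑ z' ∈ D.Zs', ∑ n' ∈ D.out z n z',
        (∑ w' ∈ D.S z' n' with ¬ y' z' w' ≤ ρ * y z w, f' z' w') / D.g n ≤
        2 * (ρ * y z w) +
          ∑ i ∈ I, ∑ z' ∈ D.Zs', ∑ n' ∈ D.out z n z', max (u i z' n' - v i (y z w)) 0 := by
      calc ∑ z' ∈ D.Zs', ∑ n' ∈ D.out z n z',
            (∑ w' ∈ D.S z' n' with ¬ y' z' w' ≤ ρ * y z w, f' z' w') / D.g n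
          ≤ ∑ z' ∈ D.Zs', ∑ n' ∈ D.out z n z', ∑ i ∈ I with ρ * y z w < (2:ℝ) ^ i,
              u i z' n' := sum_le_sum fun z' hz' => sum_le_sum fun n' hn' => hI2 z' hz' n' hn'
        _ = ∑ i ∈ I with ρ * y z w < (2:ℝ) ^ i, ∑ z' ∈ D.Zs', ∑ n' ∈ D.out z n z',
              u i z' n' := by
            have e1 : ∀ z' ∈ D.Zs', ∑ n' ∈ D.out z n z', ∑ i ∈ I with ρ * y z w < (2:ℝ) ^ i,
                u i z' n' = ∑ i ∈ I with ρ * y z w < (2:ℝ) ^ i, ∑ n' ∈ D.out z n z',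
                u i z' n' := fun z' _ => sum_comm
            rw [sum_congr rfl e1, sum_comm]
        _ ≤ ∑ i ∈ I with ρ * y z w < (2:ℝ) ^ i, (ρ * y z w * (ρ * y z w / (2:ℝ) ^ i) +
              ∑ z' ∈ D.Zs', ∑ n' ∈ D.out z n z', max (u i z' n' - v i (y z w)) 0) :=
            sum_le_sum fun i hi => hI3 i (mem_filter.1 hi).2
        _ = ρ * y z w * ∑ i ∈ I with ρ * y z w < (2:ℝ) ^ i, ρ * y z w / (2:ℝ) ^ i +
              ∑ i ∈ I with ρ * y z w < (2:ℝ) ^ i,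
                ∑ z' ∈ D.Zs', ∑ n' ∈ D.out z n z', max (u i z' n' - v i (y z w)) 0 := by
            rw [sum_add_distrib, mul_sum]
        _ ≤ _ := by
            refine add_le_add ?_ ?_
            · have := mul_le_mul_of_nonneg_left (geom_int I _ hρy) hρy.le
              linarith
            · exact sum_le_sum_of_subset_of_nonneg (filter_subset _ _) fun i _ _ =>
                sum_nonneg fun z' _ => sum_nonneg fun n' _ => le_max_right _ _
    rw [hsplit]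
    linarith
  -- sum up
  have hcost : D.cost f f' =
      ∑ z ∈ D.Zs, ∑ n ∈ D.Nd z, ∑ w ∈ D.A z n, f z w *
        ∑ z' ∈ D.Zs', ∑ n' ∈ D.out z n z', (∑ w' ∈ D.S z' n', f' z' w') / D.g n := by
    unfold VN.cost
    refine sum_congr rfl fun z _ => sum_congr rfl fun n _ => ?_
    have e1 : ∀ z' ∈ D.Zs', ∑ n' ∈ D.out z n z',
        (∑ w ∈ D.A z n, ∑ w' ∈ D.S z' n', f z w * f' z' w') / D.g n =
        ∑ w ∈ D.A z n, ∑ n' ∈ D.out z n z', f z w * ((∑ w' ∈ D.S z' n', f' z' w') / D.g n) := by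
      intro z' _
      rw [sum_comm]
      refine sum_congr rfl fun n' _ => ?_
      rw [sum_div]
      refine sum_congr rfl fun w _ => ?_
      rw [← mul_sum, mul_div_assoc]
    rw [sum_congr rfl e1, sum_comm]
    refine sum_congr rfl fun w _ => ?_
    rw [mul_sum]
    refine sum_congr rfl fun z' _ => ?_
    rw [mul_sum]
  rw [hcost]
  have hstep : ∑ z ∈ D.Zs, ∑ n ∈ D.Nd z, ∑ w ∈ D.A z n, f z w *
        ∑ z' ∈ D.Zs', ∑ n' ∈ D.out z n z', (∑ w' ∈ D.S z' n', f' z' w') / D.g n ≤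
      ∑ z ∈ D.Zs, ∑ n ∈ D.Nd z, ∑ w ∈ D.A z n, f z w * ((C1 + 2) * ρ * y z w) +
      ∑ z ∈ D.Zs, ∑ n ∈ D.Nd z, ∑ w ∈ D.A z n, f z w *
        ∑ i ∈ I, ∑ z' ∈ D.Zs', ∑ n' ∈ D.out z n z', max (u i z' n' - v i (y z w)) 0 := by
    simp only [← sum_add_distrib, ← mul_add]
    exact sum_le_sum fun z hz => sum_le_sum fun n hn => sum_le_sum fun w hw =>
      mul_le_mul_of_nonneg_left (key z hz n hn w hw) (hf z w)
  refine hstep.trans (add_le_add ?_ ?_)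
  · unfold VN.en
    simp only [mul_sum]
    refine le_of_eq (sum_congr rfl fun z _ => sum_congr rfl fun n _ => sum_congr rfl fun w _ => ?_)
    ring
  · have hsw : ∑ z ∈ D.Zs, ∑ n ∈ D.Nd z, ∑ w ∈ D.A z n, f z w *
        ∑ i ∈ I, ∑ z' ∈ D.Zs', ∑ n' ∈ D.out z n z', max (u i z' n' - v i (y z w)) 0 =
        ∑ i ∈ I, ∑ z' ∈ D.Zs', ∑ z ∈ D.Zs, ∑ n ∈ D.Nd z, ∑ n' ∈ D.out z n z', ∑ w ∈ D.A z n,
          f z w * max (u i z' n' - v i (y z w)) 0 := by
      have e1 : ∀ z ∈ D.Zs, ∀ n ∈ D.Nd z, ∑ w ∈ D.A z n, f z w *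
          ∑ i ∈ I, ∑ z' ∈ D.Zs', ∑ n' ∈ D.out z n z', max (u i z' n' - v i (y z w)) 0 =
          ∑ i ∈ I, ∑ z' ∈ D.Zs', ∑ n' ∈ D.out z n z', ∑ w ∈ D.A z n,
            f z w * max (u i z' n' - v i (y z w)) 0 := by
        intro z _ n _
        calc ∑ w ∈ D.A z n, f z w *
              ∑ i ∈ I, ∑ z' ∈ D.Zs', ∑ n' ∈ D.out z n z', max (u i z' n' - v i (y z w)) 0
            = ∑ w ∈ D.A z n, ∑ i ∈ I, ∑ z' ∈ D.Zs', ∑ n' ∈ D.out z n z',
                f z w * max (u i z' n' - v i (y z w)) 0 := by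
              simp only [mul_sum]
          _ = ∑ i ∈ I, ∑ w ∈ D.A z n, ∑ z' ∈ D.Zs', ∑ n' ∈ D.out z n z',
                f z w * max (u i z' n' - v i (y z w)) 0 := sum_comm
          _ = ∑ i ∈ I, ∑ z' ∈ D.Zs', ∑ w ∈ D.A z n, ∑ n' ∈ D.out z n z',
                f z w * max (u i z' n' - v i (y z w)) 0 :=
              sum_congr rfl fun i _ => sum_comm
          _ = _ := sum_congr rfl fun i _ => sum_congr rfl fun z' _ => sum_comm
      calc ∑ z ∈ D.Zs, ∑ n ∈ D.Nd z, ∑ w ∈ D.A z n, f z w *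
            ∑ i ∈ I, ∑ z' ∈ D.Zs', ∑ n' ∈ D.out z n z', max (u i z' n' - v i (y z w)) 0
          = ∑ z ∈ D.Zs, ∑ n ∈ D.Nd z, ∑ i ∈ I, ∑ z' ∈ D.Zs', ∑ n' ∈ D.out z n z',
              ∑ w ∈ D.A z n, f z w * max (u i z' n' - v i (y z w)) 0 :=
            sum_congr rfl fun z hz => sum_congr rfl fun n hn => e1 z hz n hn
        _ = ∑ z ∈ D.Zs, ∑ i ∈ I, ∑ n ∈ D.Nd z, ∑ z' ∈ D.Zs', ∑ n' ∈ D.out z n z',
              ∑ w ∈ D.A z n, f z w * max (u i z' n' - v i (y z w)) 0 :=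
            sum_congr rfl fun z _ => sum_comm
        _ = ∑ i ∈ I, ∑ z ∈ D.Zs, ∑ n ∈ D.Nd z, ∑ z' ∈ D.Zs', ∑ n' ∈ D.out z n z',
              ∑ w ∈ D.A z n, f z w * max (u i z' n' - v i (y z w)) 0 := sum_comm
        _ = ∑ i ∈ I, ∑ z ∈ D.Zs, ∑ z' ∈ D.Zs', ∑ n ∈ D.Nd z, ∑ n' ∈ D.out z n z',
              ∑ w ∈ D.A z n, f z w * max (u i z' n' - v i (y z w)) 0 :=
            sum_congr rfl fun i _ => sum_congr rfl fun z _ => sum_comm
        _ = _ := sum_congr rfl fun i _ => sum_comm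
    rw [hsw]
    have hcb : ∀ i ∈ I, ∀ z' ∈ D.Zs', ∑ z ∈ D.Zs, ∑ n ∈ D.Nd z, ∑ n' ∈ D.out z n z',
          ∑ w ∈ D.A z n, f z w * max (u i z' n' - v i (y z w)) 0 ≤
        C1 * ((2:ℝ) ^ i / ρ) * (m * (C1 * Δ) ^ (1 / m : ℝ)) *
          ∑ w ∈ D.zone z', cl f' y' i z' w := by
      intro i _ z' hz'
      refine class_bound G H z' hz' (cl f' y' i z') (hcl i z') ((2:ℝ) ^ i) ρ (by positivity) hρ m
        (by omega) ?_
      intro z hz n hn hne n' hn'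
      have hn'' := mem_out.1 hn'
      have hgg := G.rg z hz n hn z' hz' n' hn''.1 hn''.2
      have h1 := H.H1 z hz n hn hne ((2:ℝ) ^ i) (by positivity)
      rw [hgg]
      refine le_trans ?_ h1
      have h2 : ∑ w ∈ D.S z' n', cl f' y' i z' w ≤
          ∑ w ∈ D.S z' n' with y' z' w ≤ (2:ℝ) ^ i, f' z' w := by
        rw [sum_filter]
        refine sum_le_sum fun w _ => ?_
        unfold cl
        by_cases hc : Int.clog 2 (y' z' w) = i
        · rw [if_pos hc, if_pos (by rw [← hc]; exact le_clog)]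
        · rw [if_neg hc]
          split_ifs
          exacts [hf' z' w, le_rfl]
      have h3 : ∑ w ∈ D.S z' n' with y' z' w ≤ (2:ℝ) ^ i, f' z' w ≤
          ∑ n' ∈ D.out z n z', ∑ w ∈ D.S z' n' with y' z' w ≤ (2:ℝ) ^ i, f' z' w :=
        single_le_sum
        (f := fun n' => ∑ w ∈ D.S z' n' with y' z' w ≤ (2:ℝ) ^ i, f' z' w)
        (fun n' _ => sum_nonneg fun w _ => hf' z' w) hn'
      have h4 : ∑ n' ∈ D.out z n z', ∑ w ∈ D.S z' n' with y' z' w ≤ (2:ℝ) ^ i, f' z' w ≤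
          ∑ z' ∈ D.Zs', ∑ n' ∈ D.out z n z',
            ∑ w ∈ D.S z' n' with y' z' w ≤ (2:ℝ) ^ i, f' z' w :=
        single_le_sum
        (f := fun z' => ∑ n' ∈ D.out z n z',
            ∑ w ∈ D.S z' n' with y' z' w ≤ (2:ℝ) ^ i, f' z' w)
        (fun z' _ => sum_nonneg fun n' _ => sum_nonneg fun w _ => hf' z' w) hz'
      exact (h2.trans h3).trans h4
    refine (sum_le_sum fun i hi => sum_le_sum fun z' hz' => hcb i hi z' hz').trans ?_
    set K : ℝ := m * (C1 * Δ) ^ (1 / m : ℝ) with hK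
    have hK0 : 0 ≤ K := by positivity
    unfold VN.en'
    rw [sum_comm, mul_sum]
    refine sum_le_sum fun z' hz' => ?_
    have e3 : ∑ i ∈ I, C1 * ((2:ℝ) ^ i / ρ) * K * ∑ w ∈ D.zone z', cl f' y' i z' w =
        C1 * K / ρ * ∑ w ∈ D.zone z', ∑ i ∈ I, (2:ℝ) ^ i * cl f' y' i z' w := by
      rw [sum_comm (s := D.zone z'), mul_sum]
      refine sum_congr rfl fun i _ => ?_
      rw [← mul_sum]
      ring
    rw [e3]
    have e4 : ∀ w ∈ D.zone z', ∑ i ∈ I, (2:ℝ) ^ i * cl f' y' i z' w ≤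
        2 * (f' z' w * y' z' w) := by
      intro w _
      have h1 : ∑ i ∈ I, (2:ℝ) ^ i * cl f' y' i z' w =
          ∑ i ∈ I, if Int.clog 2 (y' z' w) = i then (2:ℝ) ^ i * f' z' w else 0 := by
        refine sum_congr rfl fun i _ => ?_
        unfold cl
        split_ifs <;> simp
      rw [h1, sum_ite_eq]
      have h2 := clog_le (hy' z' w)
      have h3 := hf' z' w
      have h4 := hy' z' w
      split_ifs
      · nlinarith
      · positivity
    have e5 := mul_le_mul_of_nonneg_left (sum_le_sum e4) (by positivity : 0 ≤ C1 * K / ρ)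
    refine e5.trans (le_of_eq ?_)
    rw [← mul_sum]
    ring

/-- LEMMA V (nodes) with `log Δ` -/
theorem lemmaN_log (D : VN Ω Ω' N N' Z Z') {Δ C1 : ℝ} {f : Z → Ω → ℝ} {f' : Z' → Ω' → ℝ}
    {y : Z → Ω → ℝ} {y' : Z' → Ω' → ℝ} (G : D.Geo Δ)
    (H : D.Hyp f f' y y' C1) (ρ : ℝ) (hρ : 0 < ρ) :
    D.cost f f' ≤ (C1 + 2) * ρ * D.en f y + KV C1 Δ / ρ * D.en' f' y' := by
  classical
  have hC : 1 ≤ C1 := H.hC
  have hΔ := G.hΔ
  have hCD : 1 ≤ C1 * Δ := by nlinarith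
  have hlog : 0 ≤ Real.log (C1 * Δ) := Real.log_nonneg hCD
  set n : ℕ := ⌈Real.log (C1 * Δ)⌉₊ + 2 with hn
  have h1 : (n : ℝ) ≤ Real.log (C1 * Δ) + 3 := by
    have := (Nat.ceil_lt_add_one hlog).le
    rw [hn]; push_cast; linarith
  have h2 : Real.log (C1 * Δ) ≤ n := by
    have := Nat.le_ceil (Real.log (C1 * Δ))
    rw [hn]; push_cast; linarith
  have hn0 : (0:ℝ) < n := by rw [hn]; positivity
  have h3 : (C1 * Δ) ^ (1 / n : ℝ) ≤ Real.exp 1 := by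
    rw [Real.rpow_def_of_pos (by linarith)]
    apply Real.exp_le_exp.2
    rw [mul_one_div]
    exact (div_le_one hn0).2 h2
  refine (lemmaN D G H ρ hρ n (by omega)).trans (add_le_add le_rfl ?_)
  have hen : 0 ≤ D.en' f' y' := sum_nonneg fun z _ => sum_nonneg fun w _ =>
    mul_nonneg (H.hf' z w) (H.hy' z w).le
  refine mul_le_mul_of_nonneg_right ?_ hen
  refine div_le_div_of_nonneg_right ?_ hρ.le
  unfold KV
  refine mul_le_mul_of_nonneg_left ?_ (by linarith)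
  calc (n:ℝ) * (C1 * Δ) ^ (1 / n : ℝ) ≤ n * Real.exp 1 :=
        mul_le_mul_of_nonneg_left h3 hn0.le
    _ ≤ (Real.log (C1 * Δ) + 3) * Real.exp 1 :=
        mul_le_mul_of_nonneg_right h1 (Real.exp_pos 1).le
    _ = _ := mul_comm _ _

/-! ### weights -/

/-- the left side with weights -/
def VN.costW (D : VN Ω Ω' N N' Z Z') (f : Z → Ω → ℝ) (f' : Z' → Ω' → ℝ) (W : Z → Ω → ℝ)
    (W' : Z' → Ω' → ℝ) : ℝ :=
  ∑ z ∈ D.Zs, ∑ n ∈ D.Nd z, ∑ z' ∈ D.Zs', ∑ n' ∈ D.out z n z',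
    (∑ w ∈ D.A z n, ∑ w' ∈ D.S z' n', f z w * f' z' w' * min (W z w) (W' z' w')) / D.g n

/-- `∑ f y W` over the changers -/
def VN.enW (D : VN Ω Ω' N N' Z Z') (f y W : Z → Ω → ℝ) : ℝ :=
  ∑ z ∈ D.Zs, ∑ n ∈ D.Nd z, ∑ w ∈ D.A z n, f z w * y z w * W z w

/-- `∑ f' y' W'` over the words of the right zones -/
def VN.enW' (D : VN Ω Ω' N N' Z Z') (f' y' W' : Z' → Ω' → ℝ) : ℝ :=
  ∑ z' ∈ D.Zs', ∑ w ∈ D.zone z', f' z' w * y' z' w * W' z' w

/-- the hypotheses are inherited by smaller weights -/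
lemma VN.Hyp.mono {D : VN Ω Ω' N N' Z Z'} {f : Z → Ω → ℝ} {f' : Z' → Ω' → ℝ}
    {y : Z → Ω → ℝ} {y' : Z' → Ω' → ℝ} {C1 : ℝ} (H : D.Hyp f f' y y' C1)
    {f1 : Z → Ω → ℝ} {f1' : Z' → Ω' → ℝ} (h0 : ∀ z w, 0 ≤ f1 z w) (h0' : ∀ z w, 0 ≤ f1' z w)
    (h : ∀ z w, f1 z w ≤ f z w) (h' : ∀ z w, f1' z w ≤ f' z w) : D.Hyp f1 f1' y y' C1 where
  hC := H.hC
  hf := h0
  hf' := h0'
  hy := H.hy
  hy' := H.hy'
  H1 := fun z hz n hn hne t ht =>
    (sum_le_sum fun z' _ => sum_le_sum fun n' _ => sum_le_sum fun w _ => h' z' w).trans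
      (H.H1 z hz n hn hne t ht)
  H2 := fun z' hz' n0 hn0 hne t ht =>
    (sum_le_sum fun z _ => sum_le_sum fun n _ => sum_le_sum fun _ _ =>
      sum_le_sum fun w _ => h z w).trans (H.H2 z' hz' n0 hn0 hne t ht)

/-- layer cake -/
theorem layer (D : VN Ω Ω' N N' Z Z') {f : Z → Ω → ℝ} {f' : Z' → Ω' → ℝ} {y W : Z → Ω → ℝ}
    {y' W' : Z' → Ω' → ℝ} (a b : ℝ)
    (hW0 : ∀ z w, 0 ≤ W z w) (hW1 : ∀ z w, W z w ≤ 1)
    (hW0' : ∀ z w, 0 ≤ W' z w) (hW1' : ∀ z w, W' z w ≤ 1)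
    (h : ∀ x : ℝ, D.cost (cutW f W x) (cutW f' W' x) ≤
      a * D.en (cutW f W x) y + b * D.en' (cutW f' W' x) y') :
    D.costW f f' W W' ≤ a * D.enW f y W + b * D.enW' f' y' W' := by
  classical
  have hL : HI (fun x => D.cost (cutW f W x) (cutW f' W' x)) (D.costW f f' W W') := by
    have e1 : (fun x => D.cost (cutW f W x) (cutW f' W' x)) = fun x =>
        ∑ z ∈ D.Zs, ∑ n ∈ D.Nd z, ∑ z' ∈ D.Zs', ∑ n' ∈ D.out z n z',
          (∑ w ∈ D.A z n, ∑ w' ∈ D.S z' n', f z w * f' z' w' *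
            ((if x < W z w then (1:ℝ) else 0) * (if x < W' z' w' then (1:ℝ) else 0))) / D.g n := by
      funext x
      unfold VN.cost cutW
      refine sum_congr rfl fun z _ => sum_congr rfl fun n _ => sum_congr rfl fun z' _ =>
        sum_congr rfl fun n' _ => ?_
      congr 1
      refine sum_congr rfl fun w _ => sum_congr rfl fun w' _ => ?_
      ring
    rw [e1]
    unfold VN.costW
    exact HI.sum fun z _ => HI.sum fun n _ => HI.sum fun z' _ => HI.sum fun n' _ => HI.div _ <|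
      HI.sum fun w _ => HI.sum fun w' _ => HI.cmul _ (HI.two (hW0 z w) (hW1 z w) (hW0' z' w'))
  have hR : HI (fun x => D.en (cutW f W x) y) (D.enW f y W) := by
    have e1 : (fun x => D.en (cutW f W x) y) = fun x =>
        ∑ z ∈ D.Zs, ∑ n ∈ D.Nd z, ∑ w ∈ D.A z n,
          f z w * y z w * (if x < W z w then (1:ℝ) else 0) := by
      funext x
      unfold VN.en cutW
      refine sum_congr rfl fun z _ => sum_congr rfl fun n _ => sum_congr rfl fun w _ => ?_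
      ring
    rw [e1]
    unfold VN.enW
    exact HI.sum fun z _ => HI.sum fun n _ => HI.sum fun w _ =>
      HI.cmul _ (HI.lt (hW0 z w) (hW1 z w))
  have hR' : HI (fun x => D.en' (cutW f' W' x) y') (D.enW' f' y' W') := by
    have e1 : (fun x => D.en' (cutW f' W' x) y') = fun x =>
        ∑ z' ∈ D.Zs', ∑ w ∈ D.zone z', f' z' w * y' z' w *
          (if x < W' z' w then (1:ℝ) else 0) := by
      funext x
      unfold VN.en' cutW
      refine sum_congr rfl fun z _ => sum_congr rfl fun w _ => ?_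
      ring
    rw [e1]
    unfold VN.enW'
    exact HI.sum fun z _ => HI.sum fun w _ => HI.cmul _ (HI.lt (hW0' z w) (hW1' z w))
  exact HI.le hL ((HI.cmul a hR).add (HI.cmul b hR')) h

/-- **LEMMA V (nodes) with weights** -/
theorem lemmaN_W (D : VN Ω Ω' N N' Z Z') {Δ C1 : ℝ} {f : Z → Ω → ℝ} {f' : Z' → Ω' → ℝ}
    {y W : Z → Ω → ℝ} {y' W' : Z' → Ω' → ℝ} (G : D.Geo Δ)
    (H : D.Hyp f f' y y' C1) (hW0 : ∀ z w, 0 ≤ W z w) (hW1 : ∀ z w, W z w ≤ 1)
    (hW0' : ∀ z w, 0 ≤ W' z w) (hW1' : ∀ z w, W' z w ≤ 1) (ρ : ℝ) (hρ : 0 < ρ) :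
    D.costW f f' W W' ≤ (C1 + 2) * ρ * D.enW f y W + KV C1 Δ / ρ * D.enW' f' y' W' :=
  layer D _ _ hW0 hW1 hW0' hW1' fun x => lemmaN_log D G
    (H.mono (cutW_nonneg H.hf W x) (cutW_nonneg H.hf' W' x) (cutW_le H.hf W x)
      (cutW_le H.hf' W' x)) ρ hρ

/-- **LEMMA V (nodes), square-root form** -/
theorem lemmaN_W_sqrt (D : VN Ω Ω' N N' Z Z') {Δ C1 : ℝ} {f : Z → Ω → ℝ} {f' : Z' → Ω' → ℝ}
    {y W : Z → Ω → ℝ} {y' W' : Z' → Ω' → ℝ} (G : D.Geo Δ)
    (H : D.Hyp f f' y y' C1) (hW0 : ∀ z w, 0 ≤ W z w) (hW1 : ∀ z w, W z w ≤ 1)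
    (hW0' : ∀ z w, 0 ≤ W' z w) (hW1' : ∀ z w, W' z w ≤ 1) :
    D.costW f f' W W' ≤ 2 * Real.sqrt ((C1 + 2) * KV C1 Δ) *
      Real.sqrt (D.enW f y W * D.enW' f' y' W') :=
  opt_rho (by have := H.hC; linarith) (KV_nonneg H.hC G.hΔ)
    (sum_nonneg fun z _ => sum_nonneg fun n _ => sum_nonneg fun w _ =>
      mul_nonneg (mul_nonneg (H.hf z w) (H.hy z w).le) (hW0 z w))
    (sum_nonneg fun z _ => sum_nonneg fun w _ =>
      mul_nonneg (mul_nonneg (H.hf' z w) (H.hy' z w).le) (hW0' z w))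
    fun ρ hρ => lemmaN_W D G H hW0 hW1 hW0' hW1' ρ hρ

end Crest.Agent.R4C.GWrelNx318
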