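import Crest.Agent.R4C.GWrel_110

/-!
# Row 4, GW section: LEMMA V with weights, square-root form, budget form (helper110)

`lemmaV_W`   : weights `W z w`, `W' z' w' ∈ [0,1]`, `min (W z w) (W' z' w')`.
`Ok.mono`    : the hypotheses are monotone in `f`, `f'`.
`lemmaV_sqrt`, `lemmaV_W_sqrt` : `≤ 8 C1 (4 + log₄ (C1 Δ)) √(E(f) E'(f'))`.
`lemmaV_budget` : with `∑_{z ∋ w} W z w y z w ≤ T`: `≤ 8 C1 (4 + log₄ (C1 Δ)) T √(∑ f ∑ f')`.
-/

set_option autoImplicit false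
set_option linter.unusedSectionVars false

open Finset MeasureTheory

noncomputable section

namespace Crest.Agent.R4C.GWrelx110

open Crest.Agent.R4C.GWzonex9 Crest.Agent.R4C.GWmzx9 Crest.Agent.R4C.GWsqx9

variable {Ω N Z : Type*} [DecidableEq Ω] [DecidableEq N] [DecidableEq Z]

/-- the hypotheses are monotone in the masses -/
lemma GZ.Ok.mono {D : GZ Ω N Z} {f f' f1 f1' : Ω → ℝ} {C1 Δ : ℝ} (h : D.Ok f f' C1 Δ)
    (h0 : ∀ w, 0 ≤ f1 w) (h0' : ∀ w, 0 ≤ f1' w) (h1 : ∀ w, f1 w ≤ f w)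
    (h1' : ∀ w, f1' w ≤ f' w) : D.Ok f1 f1' C1 Δ where
  hf := h0
  hf' := h0'
  hC := h.hC
  hΔ := h.hΔ
  lam := h.lam
  SP := h.SP
  AP := h.AP
  hAd := h.hAd
  hy := h.hy
  hg := h.hg
  deg := h.deg
  hyp1 := fun z hz e he t ht => (sum_le_sum fun _ _ => sum_le_sum fun w _ => h1' w).trans
    (h.hyp1 z hz e he t ht)
  hyp2 := fun z' hz' e he t ht => (sum_le_sum fun _ _ => sum_le_sum fun w _ => h1 w).trans
    (h.hyp2 z' hz' e he t ht)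

open Classical in
/-- the alive words at the threshold `x` -/
def GZ.at (D : GZ Ω N Z) (W W' : Z → Ω → ℝ) (x : ℝ) : GZ Ω N Z where
  Zs := D.Zs
  P := D.P
  rk := D.rk
  Nd := D.Nd
  S := fun z e => (D.S z e).filter fun w => x < W' z w
  A := fun z e => (D.A z e).filter fun w => x < W z w
  g := D.g
  y := D.y
  R := D.R

lemma at_ok {D : GZ Ω N Z} {f f' : Ω → ℝ} {C1 Δ : ℝ} (h : D.Ok f f' C1 Δ) (W W' : Z → Ω → ℝ)
    (x : ℝ) : (D.at W W' x).Ok f f' C1 Δ := by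
  classical
  refine ⟨h.hf, h.hf', h.hC, h.hΔ, h.lam, ?_, ?_, ?_, h.hy, h.hg, h.deg, ?_, ?_⟩
  · intro z hz e he
    exact (filter_subset _ _).trans (h.SP z hz e he)
  · intro z hz e he
    exact (filter_subset _ _).trans (h.AP z hz e he)
  · intro z hz e he e' he' hne
    exact (h.hAd z hz e he e' he' hne).mono (filter_subset _ _) (filter_subset _ _)
  · intro z hz e he t ht
    refine le_trans ?_ (h.hyp1 z hz e he t ht)
    refine sum_le_sum fun z' _ => sum_le_sum_of_subset_of_nonneg ?_ fun w _ _ => h.hf' w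
    exact filter_subset_filter _ (filter_subset _ _)
  · intro z' hz' e he t ht
    refine le_trans ?_ (h.hyp2 z' hz' e he t ht)
    refine sum_le_sum fun z _ => sum_le_sum_of_subset_of_nonneg ?_ fun w _ _ => h.hf w
    refine filter_subset_filter _ (inter_subset_inter_right ?_)
    unfold GZ.Ch GZ.at
    exact biUnion_mono fun e _ => filter_subset _ _

/-- LEMMA V for the alive words at the threshold `x`, with indicators -/
lemma lemmaV_at (D : GZ Ω N Z) (f f' : Ω → ℝ) (C1 Δ : ℝ) (h : D.Ok f f' C1 Δ)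
    (ρ : ℝ) (hρ : 0 < ρ) (W W' : Z → Ω → ℝ) (x : ℝ) :
    ∑ z ∈ D.Zs, ∑ e ∈ D.Nd z,
      (∑ w ∈ D.A z e, ∑ z' ∈ D.nb z e, ∑ w' ∈ D.S z' e, f w * f' w' *
        ((if x < W z w then (1:ℝ) else 0) * (if x < W' z' w' then (1:ℝ) else 0))) / D.g e ≤
      6 * C1 * ρ * (∑ z ∈ D.Zs, ∑ w ∈ D.Ch z, f w * D.y z w * (if x < W z w then (1:ℝ) else 0)) +
      4 * C1 * (4 + Real.logb 4 (C1 * Δ)) / ρ *
        (∑ z ∈ D.Zs, ∑ w ∈ D.Zone z, f' w * D.y z w * (if x < W' z w then (1:ℝ) else 0)) := by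
  classical
  have key := lemmaV (D.at W W' x) f f' C1 Δ (at_ok h W W' x) ρ hρ
  have eL : ∑ z ∈ D.Zs, ∑ e ∈ D.Nd z,
      (∑ w ∈ D.A z e, ∑ z' ∈ D.nb z e, ∑ w' ∈ D.S z' e, f w * f' w' *
        ((if x < W z w then (1:ℝ) else 0) * (if x < W' z' w' then (1:ℝ) else 0))) / D.g e =
      ∑ z ∈ (D.at W W' x).Zs, ∑ e ∈ (D.at W W' x).Nd z,
      (∑ w ∈ (D.at W W' x).A z e, ∑ z' ∈ (D.at W W' x).nb z e, ∑ w' ∈ (D.at W W' x).S z' e,
        f w * f' w') / (D.at W W' x).g e := by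
    refine sum_congr rfl fun z _ => sum_congr rfl fun e _ => ?_
    congr 1
    have e1 : ∑ w ∈ (D.at W W' x).A z e, ∑ z' ∈ (D.at W W' x).nb z e,
        ∑ w' ∈ (D.at W W' x).S z' e, f w * f' w' =
        ∑ w ∈ D.A z e, if x < W z w then ∑ z' ∈ (D.at W W' x).nb z e,
        ∑ w' ∈ (D.at W W' x).S z' e, f w * f' w' else 0 := by
      rw [← sum_filter]
      rfl
    rw [e1]
    refine sum_congr rfl fun w _ => ?_
    split_ifs with h1
    · refine sum_congr rfl fun z' _ => ?_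
      have e2 : ∑ w' ∈ (D.at W W' x).S z' e, f w * f' w' =
          ∑ w' ∈ D.S z' e, if x < W' z' w' then f w * f' w' else 0 := by
        rw [← sum_filter]
        rfl
      rw [e2]
      refine sum_congr rfl fun w' _ => ?_
      split_ifs <;> simp
    · simp
  have e3 : ∀ z, (D.at W W' x).Ch z = (D.Ch z).filter fun w => x < W z w := by
    intro z
    unfold GZ.Ch GZ.at
    rw [filter_biUnion]
  have e4 : ∀ z, (D.at W W' x).Zone z = (D.Zone z).filter fun w => x < W' z w := by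
    intro z
    unfold GZ.Zone GZ.at
    rw [filter_biUnion]
  have eR1 : ∑ z ∈ (D.at W W' x).Zs, ∑ w ∈ (D.at W W' x).Ch z, f w * (D.at W W' x).y z w =
      ∑ z ∈ D.Zs, ∑ w ∈ D.Ch z, f w * D.y z w * (if x < W z w then (1:ℝ) else 0) := by
    refine sum_congr rfl fun z _ => ?_
    rw [e3, sum_filter]
    refine sum_congr rfl fun w _ => ?_
    split_ifs
    · rw [mul_one]; rfl
    · rw [mul_zero]
  have eR2 : ∑ z ∈ (D.at W W' x).Zs, ∑ w ∈ (D.at W W' x).Zone z, f' w * (D.at W W' x).y z w =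
      ∑ z ∈ D.Zs, ∑ w ∈ D.Zone z, f' w * D.y z w * (if x < W' z w then (1:ℝ) else 0) := by
    refine sum_congr rfl fun z _ => ?_
    rw [e4, sum_filter]
    refine sum_congr rfl fun w _ => ?_
    split_ifs
    · rw [mul_one]; rfl
    · rw [mul_zero]
  rw [eL, ← eR1, ← eR2]
  exact key

/-- **LEMMA V with word- and zone-dependent weights** -/
theorem lemmaV_W (D : GZ Ω N Z) (f f' : Ω → ℝ) (C1 Δ : ℝ) (h : D.Ok f f' C1 Δ)
    (ρ : ℝ) (hρ : 0 < ρ) (W W' : Z → Ω → ℝ)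
    (hW0 : ∀ z ∈ D.Zs, ∀ w, 0 ≤ W z w) (hW1 : ∀ z ∈ D.Zs, ∀ w, W z w ≤ 1)
    (hW0' : ∀ z ∈ D.Zs, ∀ w, 0 ≤ W' z w) (hW1' : ∀ z ∈ D.Zs, ∀ w, W' z w ≤ 1) :
    ∑ z ∈ D.Zs, ∑ e ∈ D.Nd z,
      (∑ w ∈ D.A z e, ∑ z' ∈ D.nb z e, ∑ w' ∈ D.S z' e, f w * f' w' *
        min (W z w) (W' z' w')) / D.g e ≤
      6 * C1 * ρ * (∑ z ∈ D.Zs, ∑ w ∈ D.Ch z, f w * D.y z w * W z w) +
      4 * C1 * (4 + Real.logb 4 (C1 * Δ)) / ρ *
        (∑ z ∈ D.Zs, ∑ w ∈ D.Zone z, f' w * D.y z w * W' z w) := by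
  classical
  set K1 : ℝ := 6 * C1 * ρ with hK1
  set K2 : ℝ := 4 * C1 * (4 + Real.logb 4 (C1 * Δ)) / ρ with hK2
  have hnbZ : ∀ z e, ∀ z' ∈ D.nb z e, z' ∈ D.Zs := by
    intro z e z' hz'
    unfold GZ.nb at hz'
    exact (mem_filter.1 hz').1
  have hpt := lemmaV_at D f f' C1 Δ h ρ hρ W W'
  -- left side
  have iL2 : ∀ z e, Integrable (fun x : ℝ => ∑ w ∈ D.A z e, ∑ z' ∈ D.nb z e,
      ∑ w' ∈ D.S z' e, f w * f' w' *
        ((if x < W z w then (1:ℝ) else 0) * (if x < W' z' w' then (1:ℝ) else 0)))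
      (volume.restrict (Set.Ioc 0 1)) := by
    intro z e
    exact integrable_finsetSum _ fun w _ => integrable_finsetSum _ fun z' _ =>
      integrable_finsetSum _ fun w' _ => (integrable_two _ _).const_mul _
  have hLeq : ∀ z ∈ D.Zs, ∀ e ∈ D.Nd z, ∫ x in Set.Ioc (0:ℝ) 1, (∑ w ∈ D.A z e,
      ∑ z' ∈ D.nb z e, ∑ w' ∈ D.S z' e, f w * f' w' *
        ((if x < W z w then (1:ℝ) else 0) * (if x < W' z' w' then (1:ℝ) else 0))) / D.g e =
      (∑ w ∈ D.A z e, ∑ z' ∈ D.nb z e, ∑ w' ∈ D.S z' e, f w * f' w' *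
        min (W z w) (W' z' w')) / D.g e := by
    intro z hz e _
    rw [integral_div]
    congr 1
    rw [integral_finsetSum _ fun w _ => integrable_finsetSum _ fun z' _ =>
      integrable_finsetSum _ fun w' _ => (integrable_two _ _).const_mul _]
    refine sum_congr rfl fun w _ => ?_
    rw [integral_finsetSum _ fun z' _ =>
      integrable_finsetSum _ fun w' _ => (integrable_two _ _).const_mul _]
    refine sum_congr rfl fun z' hz' => ?_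
    rw [integral_finsetSum _ fun w' _ => (integrable_two _ _).const_mul _]
    refine sum_congr rfl fun w' _ => ?_
    rw [integral_const_mul, int_two _ _ (hW0 z hz w) (hW1 z hz w)
      (hW0' z' (hnbZ z e z' hz') w')]
  -- right side
  have iR : ∀ (T : Z → Finset Ω) (F : Ω → ℝ) (V : Z → Ω → ℝ), Integrable (fun x : ℝ =>
      ∑ z ∈ D.Zs, ∑ w ∈ T z, F w * D.y z w * (if x < V z w then (1:ℝ) else 0))
      (volume.restrict (Set.Ioc 0 1)) := fun T F V =>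
    integrable_finsetSum _ fun z _ => integrable_finsetSum _ fun w _ =>
      (integrable_lt _).const_mul _
  have hReq : ∀ (T : Z → Finset Ω) (F : Ω → ℝ) (V : Z → Ω → ℝ),
      (∀ z ∈ D.Zs, ∀ w, 0 ≤ V z w) → (∀ z ∈ D.Zs, ∀ w, V z w ≤ 1) →
      ∫ x in Set.Ioc (0:ℝ) 1, ∑ z ∈ D.Zs, ∑ w ∈ T z,
        F w * D.y z w * (if x < V z w then (1:ℝ) else 0) =
      ∑ z ∈ D.Zs, ∑ w ∈ T z, F w * D.y z w * V z w := by
    intro T F V h0 h1
    rw [integral_finsetSum _ fun z _ => integrable_finsetSum _ fun w _ =>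
      (integrable_lt _).const_mul _]
    refine sum_congr rfl fun z hz => ?_
    rw [integral_finsetSum _ fun w _ => (integrable_lt _).const_mul _]
    refine sum_congr rfl fun w _ => ?_
    rw [integral_const_mul, int_lt _ (h0 z hz w) (h1 z hz w)]
  have hmono := integral_mono (μ := volume.restrict (Set.Ioc (0:ℝ) 1))
    (integrable_finsetSum D.Zs fun z _ => integrable_finsetSum (D.Nd z) fun e _ =>
      (iL2 z e).div_const (D.g e))
    (((iR D.Ch f W).const_mul K1).add ((iR D.Zone f' W').const_mul K2))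
    (fun x => hpt x)
  rw [integral_finsetSum _ fun z _ => integrable_finsetSum (D.Nd z) fun e _ =>
      (iL2 z e).div_const (D.g e)] at hmono
  have eLL : ∑ z ∈ D.Zs, ∫ x in Set.Ioc (0:ℝ) 1, ∑ e ∈ D.Nd z, (∑ w ∈ D.A z e,
      ∑ z' ∈ D.nb z e, ∑ w' ∈ D.S z' e, f w * f' w' *
        ((if x < W z w then (1:ℝ) else 0) * (if x < W' z' w' then (1:ℝ) else 0))) / D.g e =
      ∑ z ∈ D.Zs, ∑ e ∈ D.Nd z, (∑ w ∈ D.A z e, ∑ z' ∈ D.nb z e, ∑ w' ∈ D.S z' e,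
        f w * f' w' * min (W z w) (W' z' w')) / D.g e := by
    refine sum_congr rfl fun z hz => ?_
    rw [integral_finsetSum _ fun e _ => (iL2 z e).div_const (D.g e)]
    exact sum_congr rfl fun e he => hLeq z hz e he
  rw [eLL] at hmono
  refine hmono.trans (le_of_eq ?_)
  have e5 : ∫ x in Set.Ioc (0:ℝ) 1,
      ((fun x : ℝ => K1 * ∑ z ∈ D.Zs, ∑ w ∈ D.Ch z, f w * D.y z w *
        (if x < W z w then (1:ℝ) else 0)) x +
      (fun x : ℝ => K2 * ∑ z ∈ D.Zs, ∑ w ∈ D.Zone z, f' w * D.y z w *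
        (if x < W' z w then (1:ℝ) else 0)) x) =
      K1 * (∑ z ∈ D.Zs, ∑ w ∈ D.Ch z, f w * D.y z w * W z w) +
      K2 * (∑ z ∈ D.Zs, ∑ w ∈ D.Zone z, f' w * D.y z w * W' z w) := by
    rw [integral_add ((iR D.Ch f W).const_mul K1) ((iR D.Zone f' W').const_mul K2),
      integral_const_mul, integral_const_mul, hReq D.Ch f W hW0 hW1,
      hReq D.Zone f' W' hW0' hW1']
  exact e5

/-- square-root form with weights -/
theorem lemmaV_W_sqrt (D : GZ Ω N Z) (f f' : Ω → ℝ) (C1 Δ : ℝ) (h : D.Ok f f' C1 Δ)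
    (W W' : Z → Ω → ℝ)
    (hW0 : ∀ z ∈ D.Zs, ∀ w, 0 ≤ W z w) (hW1 : ∀ z ∈ D.Zs, ∀ w, W z w ≤ 1)
    (hW0' : ∀ z ∈ D.Zs, ∀ w, 0 ≤ W' z w) (hW1' : ∀ z ∈ D.Zs, ∀ w, W' z w ≤ 1) :
    ∑ z ∈ D.Zs, ∑ e ∈ D.Nd z,
      (∑ w ∈ D.A z e, ∑ z' ∈ D.nb z e, ∑ w' ∈ D.S z' e, f w * f' w' *
        min (W z w) (W' z' w')) / D.g e ≤
      8 * C1 * (4 + Real.logb 4 (C1 * Δ)) *
        Real.sqrt ((∑ z ∈ D.Zs, ∑ w ∈ D.Ch z, f w * D.y z w * W z w) *
          (∑ z ∈ D.Zs, ∑ w ∈ D.Zone z, f' w * D.y z w * W' z w)) := by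
  have hC0 : 0 < C1 := by linarith [h.hC]
  have hlog : 0 ≤ Real.logb 4 (C1 * Δ) :=
    Real.logb_nonneg (by norm_num) (by nlinarith [h.hC, h.hΔ])
  have hE1 : 0 ≤ ∑ z ∈ D.Zs, ∑ w ∈ D.Ch z, f w * D.y z w * W z w :=
    sum_nonneg fun z hz => sum_nonneg fun w _ =>
      mul_nonneg (mul_nonneg (h.hf w) (h.hy z hz w).le) (hW0 z hz w)
  have hE2 : 0 ≤ ∑ z ∈ D.Zs, ∑ w ∈ D.Zone z, f' w * D.y z w * W' z w :=
    sum_nonneg fun z hz => sum_nonneg fun w _ =>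
      mul_nonneg (mul_nonneg (h.hf' w) (h.hy z hz w).le) (hW0' z hz w)
  have := opt _ _ _ (4 * C1 * (4 + Real.logb 4 (C1 * Δ))) hE1 hE2 (by positivity)
    fun lam hlam => (lemmaV_W D f f' C1 Δ h (1 / lam) (by positivity) W W'
      hW0 hW1 hW0' hW1').trans (by
        have e1 : 6 * C1 * (1 / lam) * (∑ z ∈ D.Zs, ∑ w ∈ D.Ch z, f w * D.y z w * W z w) =
            6 * C1 * ((∑ z ∈ D.Zs, ∑ w ∈ D.Ch z, f w * D.y z w * W z w) / lam) := by ring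
        have e2 : 4 * C1 * (4 + Real.logb 4 (C1 * Δ)) / (1 / lam) *
            (∑ z ∈ D.Zs, ∑ w ∈ D.Zone z, f' w * D.y z w * W' z w) =
            4 * C1 * (4 + Real.logb 4 (C1 * Δ)) *
              (lam * ∑ z ∈ D.Zs, ∑ w ∈ D.Zone z, f' w * D.y z w * W' z w) := by
          field_simp
        have e3 : 6 * C1 ≤ 4 * C1 * (4 + Real.logb 4 (C1 * Δ)) := by nlinarith
        rw [e1, e2]
        calc _ ≤ 4 * C1 * (4 + Real.logb 4 (C1 * Δ)) *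
              ((∑ z ∈ D.Zs, ∑ w ∈ D.Ch z, f w * D.y z w * W z w) / lam) +
              4 * C1 * (4 + Real.logb 4 (C1 * Δ)) *
              (lam * ∑ z ∈ D.Zs, ∑ w ∈ D.Zone z, f' w * D.y z w * W' z w) :=
              add_le_add (mul_le_mul_of_nonneg_right e3 (div_nonneg hE1 hlam.le)) le_rfl
          _ = _ := by ring)
  linarith

/-- square-root form without weights -/
theorem lemmaV_sqrt (D : GZ Ω N Z) (f f' : Ω → ℝ) (C1 Δ : ℝ) (h : D.Ok f f' C1 Δ) :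
    ∑ z ∈ D.Zs, ∑ e ∈ D.Nd z,
      (∑ w ∈ D.A z e, ∑ z' ∈ D.nb z e, ∑ w' ∈ D.S z' e, f w * f' w') / D.g e ≤
      8 * C1 * (4 + Real.logb 4 (C1 * Δ)) *
        Real.sqrt ((∑ z ∈ D.Zs, ∑ w ∈ D.Ch z, f w * D.y z w) *
          (∑ z ∈ D.Zs, ∑ w ∈ D.Zone z, f' w * D.y z w)) := by
  have := lemmaV_W_sqrt D f f' C1 Δ h (fun _ _ => 1) (fun _ _ => 1)
    (fun _ _ _ => zero_le_one) (fun _ _ _ => le_rfl)
    (fun _ _ _ => zero_le_one) (fun _ _ _ => le_rfl)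
  simpa using this

/-- the energy under a budget per word -/
lemma budget (D : GZ Ω N Z) (T : Z → Finset Ω) (B : Finset Ω) (hTB : ∀ z ∈ D.Zs, T z ⊆ B)
    (f : Ω → ℝ) (hf : ∀ w, 0 ≤ f w) (W : Z → Ω → ℝ) (b : ℝ)
    (hT : ∀ w ∈ B, ∑ z ∈ D.Zs with w ∈ T z, W z w * D.y z w ≤ b) :
    ∑ z ∈ D.Zs, ∑ w ∈ T z, f w * D.y z w * W z w ≤ b * ∑ w ∈ B, f w := by
  classical
  have e1 : ∀ z ∈ D.Zs, ∑ w ∈ T z, f w * D.y z w * W z w =
      ∑ w ∈ B, if w ∈ T z then f w * D.y z w * W z w else 0 := by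
    intro z hz
    rw [← sum_filter]
    congr 1
    ext w
    simp only [mem_filter]
    exact ⟨fun h => ⟨hTB z hz h, h⟩, fun h => h.2⟩
  rw [sum_congr rfl e1, sum_comm, mul_sum]
  refine sum_le_sum fun w hw => ?_
  rw [← sum_filter]
  have e2 : ∑ z ∈ D.Zs with w ∈ T z, f w * D.y z w * W z w =
      f w * ∑ z ∈ D.Zs with w ∈ T z, W z w * D.y z w := by
    rw [mul_sum]
    exact sum_congr rfl fun z _ => by ring
  rw [e2, mul_comm b]
  exact mul_le_mul_of_nonneg_left (hT w hw) (hf w)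

/-- **budget form** -/
theorem lemmaV_budget (D : GZ Ω N Z) (f f' : Ω → ℝ) (C1 Δ : ℝ) (h : D.Ok f f' C1 Δ)
    (W W' : Z → Ω → ℝ)
    (hW0 : ∀ z ∈ D.Zs, ∀ w, 0 ≤ W z w) (hW1 : ∀ z ∈ D.Zs, ∀ w, W z w ≤ 1)
    (hW0' : ∀ z ∈ D.Zs, ∀ w, 0 ≤ W' z w) (hW1' : ∀ z ∈ D.Zs, ∀ w, W' z w ≤ 1)
    (B B' : Finset Ω) (hB : ∀ z ∈ D.Zs, D.Ch z ⊆ B) (hB' : ∀ z ∈ D.Zs, D.Zone z ⊆ B') (b : ℝ)
    (hb : 0 ≤ b)
    (hT : ∀ w ∈ B, ∑ z ∈ D.Zs with w ∈ D.Ch z, W z w * D.y z w ≤ b)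
    (hT' : ∀ w ∈ B', ∑ z ∈ D.Zs with w ∈ D.Zone z, W' z w * D.y z w ≤ b) :
    ∑ z ∈ D.Zs, ∑ e ∈ D.Nd z,
      (∑ w ∈ D.A z e, ∑ z' ∈ D.nb z e, ∑ w' ∈ D.S z' e, f w * f' w' *
        min (W z w) (W' z' w')) / D.g e ≤
      8 * C1 * (4 + Real.logb 4 (C1 * Δ)) * b *
        Real.sqrt ((∑ w ∈ B, f w) * ∑ w ∈ B', f' w) := by
  have hC0 : 0 < C1 := by linarith [h.hC]
  have hlog : 0 ≤ Real.logb 4 (C1 * Δ) :=
    Real.logb_nonneg (by norm_num) (by nlinarith [h.hC, h.hΔ])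
  refine (lemmaV_W_sqrt D f f' C1 Δ h W W' hW0 hW1 hW0' hW1').trans ?_
  rw [mul_assoc _ b]
  refine mul_le_mul_of_nonneg_left ?_ (by positivity)
  have h1 := budget D D.Ch B hB f h.hf W b hT
  have h2 := budget D D.Zone B' hB' f' h.hf' W' b hT'
  have hs1 : 0 ≤ ∑ w ∈ B, f w := sum_nonneg fun w _ => h.hf w
  have hs2 : 0 ≤ ∑ w ∈ B', f' w := sum_nonneg fun w _ => h.hf' w
  have hE2 : 0 ≤ ∑ z ∈ D.Zs, ∑ w ∈ D.Zone z, f' w * D.y z w * W' z w :=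
    sum_nonneg fun z hz => sum_nonneg fun w _ =>
      mul_nonneg (mul_nonneg (h.hf' w) (h.hy z hz w).le) (hW0' z hz w)
  calc Real.sqrt ((∑ z ∈ D.Zs, ∑ w ∈ D.Ch z, f w * D.y z w * W z w) *
          (∑ z ∈ D.Zs, ∑ w ∈ D.Zone z, f' w * D.y z w * W' z w)) ≤
        Real.sqrt ((b * ∑ w ∈ B, f w) * (b * ∑ w ∈ B', f' w)) :=
        Real.sqrt_le_sqrt (mul_le_mul h1 h2 hE2 (by positivity))
    _ = b * Real.sqrt ((∑ w ∈ B, f w) * ∑ w ∈ B', f' w) := by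
        rw [show (b * ∑ w ∈ B, f w) * (b * ∑ w ∈ B', f' w) =
          b ^ 2 * ((∑ w ∈ B, f w) * ∑ w ∈ B', f' w) by ring, Real.sqrt_mul (by positivity),
          Real.sqrt_sq hb]

end Crest.Agent.R4C.GWrelx110
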