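import Crest.Agent.R4C.GWrel_318

/-!
# Row 4, GW section, vector case: LEMMA V with weights and in square-root form (helper318)

* `lemmaV_W`  : `GWrel_318.lemmaV` with `min (W z w) (W' z' w')` on the left and `f y W`, `f' y' W'` on
  the right;
* `lemmaV_sqrt` : the optimum over `ρ`: `cost ≤ 2 √((C1 + 2) K) √(E E')`.
* `lemmaV_W_sqrt` : both.  `KV C1 Δ = 2 C1 e (log (C1 Δ) + 3)`.
-/

set_option autoImplicit false
set_option linter.unusedSectionVars false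

open Finset MeasureTheory

noncomputable section

namespace Crest.Agent.R4C.GWrelx318

open Crest.Agent.R4C.GWzonex9

variable {Ω E Z : Type*} [DecidableEq Ω] [DecidableEq E] [DecidableEq Z]

/-- integrable on `(0,1]` with the given integral -/
def HI (F : ℝ → ℝ) (a : ℝ) : Prop :=
  IntegrableOn F (Set.Ioc 0 1) ∧ ∫ x in Set.Ioc (0:ℝ) 1, F x = a

lemma HI.sum {ι : Type*} {s : Finset ι} {F : ι → ℝ → ℝ} {a : ι → ℝ}
    (h : ∀ i ∈ s, HI (F i) (a i)) : HI (fun x => ∑ i ∈ s, F i x) (∑ i ∈ s, a i) := by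
  refine ⟨integrable_finsetSum s fun i hi => (h i hi).1, ?_⟩
  rw [integral_finsetSum s fun i hi => (h i hi).1]
  exact sum_congr rfl fun i hi => (h i hi).2

lemma HI.cmul {F : ℝ → ℝ} {a : ℝ} (c : ℝ) (h : HI F a) : HI (fun x => c * F x) (c * a) :=
  ⟨h.1.const_mul c, by rw [integral_const_mul, h.2]⟩

lemma HI.div {F : ℝ → ℝ} {a : ℝ} (c : ℝ) (h : HI F a) : HI (fun x => F x / c) (a / c) :=
  ⟨h.1.div_const c, by rw [integral_div, h.2]⟩

lemma HI.add {F F' : ℝ → ℝ} {a a' : ℝ} (h : HI F a) (h' : HI F' a') :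
    HI (fun x => F x + F' x) (a + a') :=
  ⟨h.1.add h'.1, by rw [integral_add h.1 h'.1, h.2, h'.2]⟩

lemma HI.le {F F' : ℝ → ℝ} {a a' : ℝ} (h : HI F a) (h' : HI F' a')
    (hle : ∀ x, F x ≤ F' x) : a ≤ a' := by
  rw [← h.2, ← h'.2]
  exact integral_mono h.1 h'.1 hle

lemma HI.lt {W : ℝ} (h0 : 0 ≤ W) (h1 : W ≤ 1) : HI (fun x => if x < W then (1:ℝ) else 0) W :=
  ⟨integrable_lt W, int_lt W h0 h1⟩

lemma HI.two {a b : ℝ} (ha0 : 0 ≤ a) (ha1 : a ≤ 1) (hb0 : 0 ≤ b) :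
    HI (fun x => (if x < a then (1:ℝ) else 0) * (if x < b then (1:ℝ) else 0)) (min a b) := by
  have h1 : (fun x : ℝ => (if x < a then (1:ℝ) else 0) * (if x < b then (1:ℝ) else 0)) =
      (fun x : ℝ => if x < min a b then (1:ℝ) else 0) := by
    funext x
    by_cases h1 : x < a <;> by_cases h2 : x < b <;> simp [h1, h2]
  rw [h1]
  exact HI.lt (le_min ha0 hb0) ((min_le_left _ _).trans ha1)

/-- the weights cut at the level `x` -/
def cutW (f W : Z → Ω → ℝ) (x : ℝ) (z : Z) (w : Ω) : ℝ := f z w * (if x < W z w then 1 else 0)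

lemma cutW_nonneg {f : Z → Ω → ℝ} (hf : ∀ z w, 0 ≤ f z w) (W : Z → Ω → ℝ) (x : ℝ) (z : Z)
    (w : Ω) : 0 ≤ cutW f W x z w := by
  unfold cutW
  exact mul_nonneg (hf z w) (by split_ifs <;> norm_num)

lemma cutW_le {f : Z → Ω → ℝ} (hf : ∀ z w, 0 ≤ f z w) (W : Z → Ω → ℝ) (x : ℝ) (z : Z)
    (w : Ω) : cutW f W x z w ≤ f z w := by
  unfold cutW
  have := hf z w
  split_ifs
  · rw [mul_one]
  · rw [mul_zero]; exact this

/-- the hypotheses are inherited by smaller weights -/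
lemma VD.Hyp.mono {D : VD Ω E Z} {f f' y y' : Z → Ω → ℝ} {C1 : ℝ} (H : D.Hyp f f' y y' C1)
    {f1 f1' : Z → Ω → ℝ} (h0 : ∀ z w, 0 ≤ f1 z w) (h0' : ∀ z w, 0 ≤ f1' z w)
    (h : ∀ z w, f1 z w ≤ f z w) (h' : ∀ z w, f1' z w ≤ f' z w) : D.Hyp f1 f1' y y' C1 where
  hC := H.hC
  hf := h0
  hf' := h0'
  hy := H.hy
  hy' := H.hy'
  H1 := fun z hz e he hne t ht =>
    (sum_le_sum fun z' _ => sum_le_sum fun w _ => h' z' w).trans (H.H1 z hz e he hne t ht)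
  H2 := fun z' hz' e he hne t ht =>
    (sum_le_sum fun z _ => sum_le_sum fun w _ => h z w).trans (H.H2 z' hz' e he hne t ht)

/-- the left side -/
def VD.cost (D : VD Ω E Z) (f f' : Z → Ω → ℝ) : ℝ :=
  ∑ z ∈ D.Zs, ∑ e ∈ D.Es, ∑ z' ∈ D.out z,
    (∑ w ∈ D.A z e, ∑ w' ∈ D.S z' e, f z w * f' z' w') / D.g e

/-- the left side with weights -/
def VD.costW (D : VD Ω E Z) (f f' W W' : Z → Ω → ℝ) : ℝ :=
  ∑ z ∈ D.Zs, ∑ e ∈ D.Es, ∑ z' ∈ D.out z,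
    (∑ w ∈ D.A z e, ∑ w' ∈ D.S z' e, f z w * f' z' w' * min (W z w) (W' z' w')) / D.g e

/-- `∑_z ∑_{w ∈ zone z} f y` -/
def VD.en (D : VD Ω E Z) (f y : Z → Ω → ℝ) : ℝ := ∑ z ∈ D.Zs, ∑ w ∈ D.zone z, f z w * y z w

/-- `∑_z ∑_{w ∈ zone z} f y W` -/
def VD.enW (D : VD Ω E Z) (f y W : Z → Ω → ℝ) : ℝ :=
  ∑ z ∈ D.Zs, ∑ w ∈ D.zone z, f z w * y z w * W z w

lemma VD.en_nonneg (D : VD Ω E Z) {f y : Z → Ω → ℝ} (hf : ∀ z w, 0 ≤ f z w)
    (hy : ∀ z w, 0 < y z w) : 0 ≤ D.en f y :=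
  sum_nonneg fun z _ => sum_nonneg fun w _ => mul_nonneg (hf z w) (hy z w).le

lemma VD.enW_nonneg (D : VD Ω E Z) {f y W : Z → Ω → ℝ} (hf : ∀ z w, 0 ≤ f z w)
    (hy : ∀ z w, 0 < y z w) (hW : ∀ z w, 0 ≤ W z w) : 0 ≤ D.enW f y W :=
  sum_nonneg fun z _ => sum_nonneg fun w _ => mul_nonneg (mul_nonneg (hf z w) (hy z w).le) (hW z w)

/-- layer cake: a bound for all cut weights gives the bound with `min W W'` -/
theorem layer (D : VD Ω E Z) {f f' y y' W W' : Z → Ω → ℝ} (a b : ℝ)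
    (hW0 : ∀ z w, 0 ≤ W z w) (hW1 : ∀ z w, W z w ≤ 1)
    (hW0' : ∀ z w, 0 ≤ W' z w) (hW1' : ∀ z w, W' z w ≤ 1)
    (h : ∀ x : ℝ, D.cost (cutW f W x) (cutW f' W' x) ≤
      a * D.en (cutW f W x) y + b * D.en (cutW f' W' x) y') :
    D.costW f f' W W' ≤ a * D.enW f y W + b * D.enW f' y' W' := by
  classical
  have hL : HI (fun x => D.cost (cutW f W x) (cutW f' W' x)) (D.costW f f' W W') := by
    have e1 : (fun x => D.cost (cutW f W x) (cutW f' W' x)) = fun x =>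
        ∑ z ∈ D.Zs, ∑ e ∈ D.Es, ∑ z' ∈ D.out z,
          (∑ w ∈ D.A z e, ∑ w' ∈ D.S z' e, f z w * f' z' w' *
            ((if x < W z w then (1:ℝ) else 0) * (if x < W' z' w' then (1:ℝ) else 0))) / D.g e := by
      funext x
      unfold VD.cost cutW
      refine sum_congr rfl fun z _ => sum_congr rfl fun e _ => sum_congr rfl fun z' _ => ?_
      congr 1
      refine sum_congr rfl fun w _ => sum_congr rfl fun w' _ => ?_
      ring
    rw [e1]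
    unfold VD.costW
    exact HI.sum fun z _ => HI.sum fun e _ => HI.sum fun z' _ => HI.div _ <|
      HI.sum fun w _ => HI.sum fun w' _ => HI.cmul _ (HI.two (hW0 z w) (hW1 z w) (hW0' z' w'))
  have hR : ∀ (f y W : Z → Ω → ℝ), (∀ z w, 0 ≤ W z w) → (∀ z w, W z w ≤ 1) →
      HI (fun x => D.en (cutW f W x) y) (D.enW f y W) := by
    intro f y W h0 h1
    have e1 : (fun x => D.en (cutW f W x) y) = fun x =>
        ∑ z ∈ D.Zs, ∑ w ∈ D.zone z, f z w * y z w * (if x < W z w then (1:ℝ) else 0) := by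
      funext x
      unfold VD.en cutW
      refine sum_congr rfl fun z _ => sum_congr rfl fun w _ => ?_
      ring
    rw [e1]
    unfold VD.enW
    exact HI.sum fun z _ => HI.sum fun w _ => HI.cmul _ (HI.lt (h0 z w) (h1 z w))
  exact HI.le hL ((HI.cmul a (hR f y W hW0 hW1)).add (HI.cmul b (hR f' y' W' hW0' hW1'))) h

/-- constant of the second term -/
def KV (C1 Δ : ℝ) : ℝ := 2 * C1 * (Real.exp 1 * (Real.log (C1 * Δ) + 3))

lemma KV_nonneg {C1 Δ : ℝ} (hC : 1 ≤ C1) (hΔ : 1 ≤ Δ) : 0 ≤ KV C1 Δ := by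
  unfold KV
  have h : 0 ≤ Real.log (C1 * Δ) := Real.log_nonneg (by nlinarith)
  have : 0 ≤ C1 := by linarith
  positivity

/-- **LEMMA V with weights**, `log Δ` -/
theorem lemmaV_W (D : VD Ω E Z) {Δ C1 : ℝ} {f f' y y' W W' : Z → Ω → ℝ} (G : D.Geo Δ)
    (H : D.Hyp f f' y y' C1) (hW0 : ∀ z w, 0 ≤ W z w) (hW1 : ∀ z w, W z w ≤ 1)
    (hW0' : ∀ z w, 0 ≤ W' z w) (hW1' : ∀ z w, W' z w ≤ 1) (ρ : ℝ) (hρ : 0 < ρ) :
    D.costW f f' W W' ≤ (C1 + 2) * ρ * D.enW f y W + KV C1 Δ / ρ * D.enW f' y' W' :=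
  layer D _ _ hW0 hW1 hW0' hW1' fun x => lemmaV_log D G
    (H.mono (cutW_nonneg H.hf W x) (cutW_nonneg H.hf' W' x) (cutW_le H.hf W x)
      (cutW_le H.hf' W' x)) ρ hρ

/-- **LEMMA V with weights**, power of `Δ` -/
theorem lemmaV_W_pow (D : VD Ω E Z) {Δ C1 : ℝ} {f f' y y' W W' : Z → Ω → ℝ} (G : D.Geo Δ)
    (H : D.Hyp f f' y y' C1) (hW0 : ∀ z w, 0 ≤ W z w) (hW1 : ∀ z w, W z w ≤ 1)
    (hW0' : ∀ z w, 0 ≤ W' z w) (hW1' : ∀ z w, W' z w ≤ 1) (ρ : ℝ) (hρ : 0 < ρ) (n : ℕ)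
    (hn : 2 ≤ n) :
    D.costW f f' W W' ≤ (C1 + 2) * ρ * D.enW f y W +
      2 * C1 * (n * (C1 * Δ) ^ (1 / n : ℝ)) / ρ * D.enW f' y' W' :=
  layer D _ _ hW0 hW1 hW0' hW1' fun x => lemmaV D G
    (H.mono (cutW_nonneg H.hf W x) (cutW_nonneg H.hf' W' x) (cutW_le H.hf W x)
      (cutW_le H.hf' W' x)) ρ hρ n hn

lemma opt_rho {X a b e1 e2 : ℝ} (ha : 0 ≤ a) (hb : 0 ≤ b) (h1 : 0 ≤ e1) (h2 : 0 ≤ e2)
    (h : ∀ ρ : ℝ, 0 < ρ → X ≤ a * ρ * e1 + b / ρ * e2) :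
    X ≤ 2 * Real.sqrt (a * b) * Real.sqrt (e1 * e2) := by
  set p : ℝ := a * e1 with hp
  set q : ℝ := b * e2 with hq
  have hp0 : 0 ≤ p := mul_nonneg ha h1
  have hq0 : 0 ≤ q := mul_nonneg hb h2
  have h' : ∀ ρ : ℝ, 0 < ρ → X ≤ ρ * p + q / ρ := fun ρ hρ => (h ρ hρ).trans (le_of_eq (by
    rw [hp, hq]; ring))
  have hgoal : 2 * Real.sqrt (a * b) * Real.sqrt (e1 * e2) = 2 * Real.sqrt (p * q) := by
    rw [mul_assoc, ← Real.sqrt_mul (by positivity), hp, hq]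
    congr 2; ring
  rw [hgoal]
  rcases hp0.eq_or_lt with hp1 | hp1
  · rw [← hp1, zero_mul, Real.sqrt_zero, mul_zero]
    refine le_of_forall_pos_le_add fun ε hε => ?_
    have := h' ((q + 1) / ε) (by positivity)
    rw [← hp1, mul_zero, zero_add] at this
    rw [zero_add]
    refine this.trans ?_
    rw [div_div_eq_mul_div, div_le_iff₀ (by positivity)]
    nlinarith
  rcases hq0.eq_or_lt with hq1 | hq1
  · rw [← hq1, mul_zero, Real.sqrt_zero, mul_zero]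
    refine le_of_forall_pos_le_add fun ε hε => ?_
    have := h' (ε / p) (by positivity)
    rw [← hq1, zero_div, add_zero, div_mul_cancel₀ _ hp1.ne'] at this
    linarith
  have h3 := h' (Real.sqrt (q / p)) (Real.sqrt_pos.2 (by positivity))
  have h4 : Real.sqrt (q / p) * p = Real.sqrt (p * q) := by
    have : Real.sqrt (p * q) = Real.sqrt ((q / p) * p ^ 2) := by
      congr 1; field_simp
    rw [this, Real.sqrt_mul (by positivity), Real.sqrt_sq hp0]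
  have h5 : q / Real.sqrt (q / p) = Real.sqrt (p * q) := by
    rw [div_eq_iff (Real.sqrt_pos.2 (by positivity)).ne', ← Real.sqrt_mul (by positivity)]
    have : p * q * (q / p) = q ^ 2 := by field_simp
    rw [this, Real.sqrt_sq hq0]
  rw [h4, h5] at h3
  linarith

/-- **LEMMA V, square-root form** -/
theorem lemmaV_W_sqrt (D : VD Ω E Z) {Δ C1 : ℝ} {f f' y y' W W' : Z → Ω → ℝ} (G : D.Geo Δ)
    (H : D.Hyp f f' y y' C1) (hW0 : ∀ z w, 0 ≤ W z w) (hW1 : ∀ z w, W z w ≤ 1)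
    (hW0' : ∀ z w, 0 ≤ W' z w) (hW1' : ∀ z w, W' z w ≤ 1) :
    D.costW f f' W W' ≤ 2 * Real.sqrt ((C1 + 2) * KV C1 Δ) *
      Real.sqrt (D.enW f y W * D.enW f' y' W') :=
  opt_rho (by have := H.hC; linarith) (KV_nonneg H.hC G.hΔ) (D.enW_nonneg H.hf H.hy hW0)
    (D.enW_nonneg H.hf' H.hy' hW0') fun ρ hρ => lemmaV_W D G H hW0 hW1 hW0' hW1' ρ hρ

/-- without weights -/
theorem lemmaV_sqrt (D : VD Ω E Z) {Δ C1 : ℝ} {f f' y y' : Z → Ω → ℝ} (G : D.Geo Δ)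
    (H : D.Hyp f f' y y' C1) :
    D.cost f f' ≤ 2 * Real.sqrt ((C1 + 2) * KV C1 Δ) * Real.sqrt (D.en f y * D.en f' y') :=
  opt_rho (by have := H.hC; linarith) (KV_nonneg H.hC G.hΔ) (D.en_nonneg H.hf H.hy)
    (D.en_nonneg H.hf' H.hy') fun ρ hρ => lemmaV_log D G H ρ hρ

end Crest.Agent.R4C.GWrelx318
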