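import Crest.Agent.R4C.GWsq_9

/-!
# Row 4, GW section: LEMMA V (helper8, note 3941), second hand (helper110)

Bilinear antichain lemma for a GRAPH of zones.  A zone `z` has nodes at the prefixes `e ∈ Nd z`
(`P e` = words with prefix `e`, laminar), `S z e ⊆ P e` = words of the node, `A z e ⊆ P e` = words
changing there.  `R z z'` = the zones are linked; a changer of `z` at `e` meets the words of all
nodes `S z' e`, `z' ∈ nb z e`.  Hypothesis (both orders), `y > 0`: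

`∑_{z' ∈ nb z e} f'{w ∈ S z' e : y z' w ≤ t} ≤ C1 t g e`,
`∑_{z : R z z'} f{w ∈ Ch z ∩ P e : y z w ≤ t} ≤ C1 t g e` (`e ∈ Nd z'`).

Then for all `ρ > 0`:
`∑ f w f' w' / g e ≤ 6 C1 ρ E(f) + 4 C1 (4 + log₄ (C1 Δ)) / ρ * E(f')`, `Δ` = maximal degree.
-/

set_option autoImplicit false
set_option linter.unusedSectionVars false

open Finset MeasureTheory

noncomputable section

namespace Crest.Agent.R4C.GWrelx110

open Crest.Agent.R4C.GWzonex9 Crest.Agent.R4C.GWmzx9 Crest.Agent.R4C.GWsqx9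

/-! ### geometric sums over finite sets of integers -/

lemma geo_up (I : Finset ℤ) (n : ℤ) (h : ∀ i ∈ I, n ≤ i) :
    ∑ i ∈ I, ((2:ℝ) ^ i)⁻¹ ≤ 2 * ((2:ℝ) ^ n)⁻¹ := by
  classical
  set φ : ℤ → ℕ := fun i => (i - n).toNat with hφ
  have hinj : Set.InjOn φ (I : Set ℤ) := by
    intro i hi j hj hij
    have h1 := h i (by simpa using hi)
    have h2 := h j (by simpa using hj)
    simp only [hφ] at hij
    omega
  have e1 : ∀ i ∈ I, ((2:ℝ) ^ i)⁻¹ = ((2:ℝ) ^ n)⁻¹ * (1 / 2 : ℝ) ^ (φ i) := by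
    intro i hi
    have h1 := h i hi
    have h2 : i = n + (φ i : ℤ) := by simp only [hφ]; omega
    have h3 : (2:ℝ) ^ i = (2:ℝ) ^ n * (2:ℝ) ^ (φ i) := by
      conv_lhs => rw [h2]
      rw [zpow_add₀ (by norm_num), zpow_natCast]
    rw [h3, mul_inv, one_div, inv_pow]
  rw [sum_congr rfl e1, ← mul_sum, mul_comm 2]
  refine mul_le_mul_of_nonneg_left ?_ (by positivity)
  rw [← sum_image (f := fun k : ℕ => (1 / 2 : ℝ) ^ k) (g := φ) hinj]
  obtain ⟨m, hm⟩ := (I.image φ).exists_nat_subset_range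
  exact (sum_le_sum_of_subset_of_nonneg hm fun k _ _ => by positivity).trans
    (sum_geometric_two_le m)

lemma geo_down (I : Finset ℤ) (n : ℤ) (h : ∀ i ∈ I, i ≤ n) :
    ∑ i ∈ I, (2:ℝ) ^ i ≤ 2 * (2:ℝ) ^ n := by
  classical
  have h1 := geo_up (I.image (fun i => -i)) (-n) (by
    intro i hi
    obtain ⟨j, hj, rfl⟩ := mem_image.1 hi
    have := h j hj
    omega)
  rw [sum_image (fun i _ j _ hij => by simpa using hij)] at h1
  simpa [zpow_neg] using h1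

lemma card_int (M : Finset ℤ) (a b : ℝ) (hab : a ≤ b) (h : ∀ m ∈ M, a ≤ (m:ℝ) ∧ (m:ℝ) ≤ b) :
    (M.card : ℝ) ≤ b - a + 1 := by
  have hsub : M ⊆ Finset.Icc ⌈a⌉ ⌊b⌋ := by
    intro m hm
    rw [Finset.mem_Icc, Int.ceil_le, Int.le_floor]
    exact h m hm
  have h1 := Finset.card_le_card hsub
  rw [Int.card_Icc] at h1
  have h2 : ((⌊b⌋ + 1 - ⌈a⌉).toNat : ℝ) ≤ b - a + 1 := by
    rcases le_or_gt 0 (⌊b⌋ + 1 - ⌈a⌉) with h3 | h3
    · have h4 : (((⌊b⌋ + 1 - ⌈a⌉).toNat : ℤ) : ℝ) = ((⌊b⌋ + 1 - ⌈a⌉ : ℤ) : ℝ) := by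
        rw [Int.toNat_of_nonneg h3]
      have h5 := Int.floor_le b
      have h6 := Int.le_ceil a
      push_cast at h4
      rw [h4]
      linarith
    · rw [Int.toNat_of_nonpos h3.le]
      push_cast
      linarith
  exact le_trans (by exact_mod_cast h1) h2

/-- `∑_b min 1 (√c 2^b)` over integers `b` with `c 4^b ≤ Λ` -/
lemma sum_min (B : Finset ℤ) (c Λ : ℝ) (hc : 0 < c) (hΛ : 1 ≤ Λ)
    (h : ∀ b ∈ B, c * (4:ℝ) ^ b ≤ Λ) :
    ∑ b ∈ B, min 1 (Real.sqrt c * (2:ℝ) ^ b) ≤ 3 + Real.logb 4 Λ := by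
  classical
  have hs : 0 < Real.sqrt c := Real.sqrt_pos.2 hc
  have hlΛ : 0 ≤ Real.logb 4 Λ := Real.logb_nonneg (by norm_num) hΛ
  rw [← sum_filter_add_sum_filter_not B (fun b => 1 ≤ Real.sqrt c * (2:ℝ) ^ b)]
  have h1 : ∑ b ∈ B.filter (fun b => 1 ≤ Real.sqrt c * (2:ℝ) ^ b),
      min 1 (Real.sqrt c * (2:ℝ) ^ b) ≤ Real.logb 4 Λ + 1 := by
    have h2 : ∑ b ∈ B.filter (fun b => 1 ≤ Real.sqrt c * (2:ℝ) ^ b),
        min 1 (Real.sqrt c * (2:ℝ) ^ b) ≤
        ((B.filter (fun b => 1 ≤ Real.sqrt c * (2:ℝ) ^ b)).card : ℝ) := by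
      rw [card_eq_sum_ones, Nat.cast_sum]
      refine sum_le_sum fun b _ => ?_
      simp
    refine h2.trans ?_
    have h3 := card_int (B.filter (fun b => 1 ≤ Real.sqrt c * (2:ℝ) ^ b))
      (-Real.logb 4 c) (Real.logb 4 Λ - Real.logb 4 c) (by linarith) fun b hb => by
        rw [mem_filter] at hb
        have e4 : Real.logb 4 ((4:ℝ) ^ b) = b := by
          have h9 : Real.log 4 ≠ 0 := (Real.log_pos (by norm_num)).ne'
          unfold Real.logb
          rw [Real.log_zpow]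
          field_simp
        have e5 : Real.logb 4 (c * (4:ℝ) ^ b) = Real.logb 4 c + b := by
          rw [Real.logb_mul hc.ne' (by positivity), e4]
        constructor
        · have h6 : 1 ≤ c * (4:ℝ) ^ b := by
            have h7 : (1:ℝ) ≤ (Real.sqrt c * (2:ℝ) ^ b) ^ 2 := by
              have := hb.2
              nlinarith
            have h8 : (Real.sqrt c * (2:ℝ) ^ b) ^ 2 = c * (4:ℝ) ^ b := by
              rw [mul_pow, Real.sq_sqrt hc.le]
              congr 1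
              rw [← zpow_natCast, ← zpow_mul, mul_comm b, zpow_mul]
              norm_num
            rwa [h8] at h7
          have := Real.logb_nonneg (by norm_num : (1:ℝ) < 4) h6
          rw [e5] at this
          linarith
        · have h6 := h b hb.1
          have := Real.logb_le_logb_of_le (by norm_num : (1:ℝ) < 4) (by positivity) h6
          rw [e5] at this
          linarith
    linarith
  have h2 : ∑ b ∈ B.filter (fun b => ¬ 1 ≤ Real.sqrt c * (2:ℝ) ^ b),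
      min 1 (Real.sqrt c * (2:ℝ) ^ b) ≤ 2 := by
    rcases (B.filter (fun b => ¬ 1 ≤ Real.sqrt c * (2:ℝ) ^ b)).eq_empty_or_nonempty with h0 | h0
    · rw [h0, sum_empty]; norm_num
    · set n := (B.filter (fun b => ¬ 1 ≤ Real.sqrt c * (2:ℝ) ^ b)).max' h0 with hn
      have hnm : n ∈ B.filter (fun b => ¬ 1 ≤ Real.sqrt c * (2:ℝ) ^ b) := max'_mem _ _
      have h3 := geo_down (B.filter (fun b => ¬ 1 ≤ Real.sqrt c * (2:ℝ) ^ b)) n
        fun b hb => le_max' _ _ hb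
      have h4 : Real.sqrt c * (2:ℝ) ^ n < 1 := not_le.1 (mem_filter.1 hnm).2
      calc ∑ b ∈ B.filter (fun b => ¬ 1 ≤ Real.sqrt c * (2:ℝ) ^ b),
            min 1 (Real.sqrt c * (2:ℝ) ^ b) ≤
          ∑ b ∈ B.filter (fun b => ¬ 1 ≤ Real.sqrt c * (2:ℝ) ^ b),
            Real.sqrt c * (2:ℝ) ^ b := sum_le_sum fun b _ => min_le_right _ _
        _ = Real.sqrt c * ∑ b ∈ B.filter (fun b => ¬ 1 ≤ Real.sqrt c * (2:ℝ) ^ b),
            (2:ℝ) ^ b := by rw [mul_sum]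
        _ ≤ Real.sqrt c * (2 * (2:ℝ) ^ n) := mul_le_mul_of_nonneg_left h3 hs.le
        _ ≤ 2 := by linarith
  linarith

/-! ### the graph of zones -/

variable {Ω N Z : Type*} [DecidableEq Ω] [DecidableEq N] [DecidableEq Z]

/-- data -/
structure GZ (Ω N Z : Type*) [DecidableEq Ω] [DecidableEq N] [DecidableEq Z] where
  /-- zones -/
  Zs : Finset Z
  /-- words with a prefix -/
  P : N → Finset Ω
  /-- rank of a prefix -/
  rk : N → ℕ
  /-- prefixes at which the zone has a node -/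
  Nd : Z → Finset N
  /-- words of the node -/
  S : Z → N → Finset Ω
  /-- words changing at the node -/
  A : Z → N → Finset Ω
  /-- mass of the prefix -/
  g : N → ℝ
  /-- next loss + kappa -/
  y : Z → Ω → ℝ
  /-- linked zones -/
  R : Z → Z → Prop

open Classical in
/-- zones linked with `z` at the prefix `e` -/
def GZ.nb (D : GZ Ω N Z) (z : Z) (e : N) : Finset Z :=
  D.Zs.filter fun z' => D.R z z' ∧ e ∈ D.Nd z'

/-- changers of a zone -/
def GZ.Ch (D : GZ Ω N Z) (z : Z) : Finset Ω := (D.Nd z).biUnion (D.A z)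

/-- words of a zone -/
def GZ.Zone (D : GZ Ω N Z) (z : Z) : Finset Ω := (D.Nd z).biUnion (D.S z)

open Classical in
/-- hypotheses -/
structure GZ.Ok (D : GZ Ω N Z) (f f' : Ω → ℝ) (C1 Δ : ℝ) : Prop where
  hf : ∀ w, 0 ≤ f w
  hf' : ∀ w, 0 ≤ f' w
  hC : 1 ≤ C1
  hΔ : 1 ≤ Δ
  lam : ∀ z ∈ D.Zs, Lam (D.Nd z) D.P D.rk
  SP : ∀ z ∈ D.Zs, ∀ e ∈ D.Nd z, D.S z e ⊆ D.P e
  AP : ∀ z ∈ D.Zs, ∀ e ∈ D.Nd z, D.A z e ⊆ D.P e
  hAd : ∀ z ∈ D.Zs, ∀ e ∈ D.Nd z, ∀ e' ∈ D.Nd z, e ≠ e' → Disjoint (D.A z e) (D.A z e')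
  hy : ∀ z ∈ D.Zs, ∀ w, 0 < D.y z w
  hg : ∀ z ∈ D.Zs, ∀ e ∈ D.Nd z, 0 < D.g e
  deg : ∀ z ∈ D.Zs, ∀ e ∈ D.Nd z, ((D.nb z e).card : ℝ) ≤ Δ
  hyp1 : ∀ z ∈ D.Zs, ∀ e ∈ D.Nd z, ∀ t, 0 < t →
      ∑ z' ∈ D.nb z e, ∑ w ∈ D.S z' e with D.y z' w ≤ t, f' w ≤ C1 * t * D.g e
  hyp2 : ∀ z' ∈ D.Zs, ∀ e ∈ D.Nd z', ∀ t, 0 < t →
      ∑ z ∈ D.Zs with D.R z z', ∑ w ∈ D.Ch z ∩ D.P e with D.y z w ≤ t, f w ≤ C1 * t * D.g e

/-- mass of the words of a node in a dyadic level of `y` -/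
def GZ.F (D : GZ Ω N Z) (f' : Ω → ℝ) (z : Z) (e : N) (i : ℤ) : ℝ :=
  ∑ w ∈ D.S z e with Int.log 2 (D.y z w) = i, f' w

lemma F_nonneg {D : GZ Ω N Z} {f f' : Ω → ℝ} {C1 Δ : ℝ} (h : D.Ok f f' C1 Δ) (z : Z) (e : N)
    (i : ℤ) : 0 ≤ D.F f' z e i := sum_nonneg fun w _ => h.hf' w

/-- the levels that occur -/
def GZ.I (D : GZ Ω N Z) : Finset ℤ :=
  D.Zs.biUnion fun z => (D.Zone z).image fun w => Int.log 2 (D.y z w)

lemma two_le_log {r : ℝ} (hr : 0 < r) : (2:ℝ) ^ (Int.log 2 r) ≤ r := by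
  have := Int.zpow_log_le_self (R := ℝ) (b := 2) (by norm_num) hr
  exact_mod_cast this

lemma log_lt_two {r : ℝ} : r < 2 * (2:ℝ) ^ (Int.log 2 r) := by
  have := Int.lt_zpow_succ_log_self (R := ℝ) (b := 2) (by norm_num) r
  rw [zpow_add_one₀ (by norm_num)] at this
  push_cast at this
  linarith

/-- split of the words of a node: `y` small, or by levels -/
lemma split_node {D : GZ Ω N Z} {f f' : Ω → ℝ} {C1 Δ : ℝ} (h : D.Ok f f' C1 Δ) {z : Z}
    (hz : z ∈ D.Zs) {e : N} (he : e ∈ D.Nd z) (a : ℝ) :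
    ∑ w ∈ D.S z e, f' w ≤ ∑ w ∈ D.S z e with D.y z w ≤ 2 * a, f' w +
      ∑ i ∈ D.I with a < (2:ℝ) ^ i, D.F f' z e i := by
  classical
  rw [← sum_filter_add_sum_filter_not (D.S z e) (fun w => (2:ℝ) ^ (Int.log 2 (D.y z w)) ≤ a)]
  refine add_le_add ?_ (le_of_eq ?_)
  · refine sum_le_sum_of_subset_of_nonneg ?_ fun w _ _ => h.hf' w
    intro w hw
    rw [mem_filter] at hw ⊢
    exact ⟨hw.1, by have := @log_lt_two (D.y z w); linarith [hw.2]⟩
  · unfold GZ.F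
    rw [← sum_fiberwise_of_maps_to (s := (D.S z e).filter
      (fun w => ¬ (2:ℝ) ^ (Int.log 2 (D.y z w)) ≤ a)) (t := D.I.filter (fun i => a < (2:ℝ) ^ i))
      (g := fun w => Int.log 2 (D.y z w)) ?_ f']
    · refine sum_congr rfl fun i hi => ?_
      rw [mem_filter] at hi
      refine sum_congr ?_ fun _ _ => rfl
      ext w
      simp only [mem_filter]
      constructor
      · rintro ⟨⟨h1, _⟩, h3⟩; exact ⟨h1, h3⟩
      · rintro ⟨h1, h3⟩
        refine ⟨⟨h1, ?_⟩, h3⟩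
        rw [h3]
        exact not_le.2 hi.2
    · intro w hw
      rw [mem_filter] at hw ⊢
      refine ⟨?_, not_le.1 hw.2⟩
      unfold GZ.I
      rw [mem_biUnion]
      refine ⟨z, hz, mem_image.2 ⟨w, ?_, rfl⟩⟩
      unfold GZ.Zone
      exact mem_biUnion.2 ⟨e, he, hw.1⟩

/-- (I) + (IIa) : everything except the pairs with a large level -/
lemma inner {D : GZ Ω N Z} {f f' : Ω → ℝ} {C1 Δ : ℝ} (h : D.Ok f f' C1 Δ) {z : Z}
    (hz : z ∈ D.Zs) {e : N} (he : e ∈ D.Nd z) (a : ℝ) (ha : 0 < a) :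
    ∑ z' ∈ D.nb z e, ∑ w ∈ D.S z' e, f' w ≤ 6 * C1 * a * D.g e +
      ∑ z' ∈ D.nb z e, ∑ i ∈ D.I with a < (2:ℝ) ^ i ∧
        2 * a ^ 2 * D.g e < D.F f' z' e i * Δ * (2:ℝ) ^ i, D.F f' z' e i := by
  classical
  have hC0 : 0 < C1 := by linarith [h.hC]
  have hΔ0 : 0 < Δ := by linarith [h.hΔ]
  have hg := h.hg z hz e he
  have h1 : ∑ z' ∈ D.nb z e, ∑ w ∈ D.S z' e, f' w ≤
      ∑ z' ∈ D.nb z e, (∑ w ∈ D.S z' e with D.y z' w ≤ 2 * a, f' w +
        ∑ i ∈ D.I with a < (2:ℝ) ^ i, D.F f' z' e i) := by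
    refine sum_le_sum fun z' hz' => ?_
    unfold GZ.nb at hz'
    rw [mem_filter] at hz'
    exact split_node h hz'.1 hz'.2.2 a
  rw [sum_add_distrib] at h1
  have h2 := h.hyp1 z hz e he (2 * a) (by positivity)
  have h3 : ∑ z' ∈ D.nb z e, ∑ i ∈ D.I with a < (2:ℝ) ^ i, D.F f' z' e i =
      ∑ z' ∈ D.nb z e, ∑ i ∈ D.I with a < (2:ℝ) ^ i ∧
        2 * a ^ 2 * D.g e < D.F f' z' e i * Δ * (2:ℝ) ^ i, D.F f' z' e i +
      ∑ z' ∈ D.nb z e, ∑ i ∈ D.I with a < (2:ℝ) ^ i ∧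
        ¬ 2 * a ^ 2 * D.g e < D.F f' z' e i * Δ * (2:ℝ) ^ i, D.F f' z' e i := by
    rw [← sum_add_distrib]
    refine sum_congr rfl fun z' _ => ?_
    rw [← filter_filter, ← filter_filter, sum_filter_add_sum_filter_not]
  have h4 : ∑ z' ∈ D.nb z e, ∑ i ∈ D.I with a < (2:ℝ) ^ i ∧
        ¬ 2 * a ^ 2 * D.g e < D.F f' z' e i * Δ * (2:ℝ) ^ i, D.F f' z' e i ≤
      4 * a * D.g e := by
    have h5 : ∀ z' ∈ D.nb z e, ∑ i ∈ D.I with a < (2:ℝ) ^ i ∧
        ¬ 2 * a ^ 2 * D.g e < D.F f' z' e i * Δ * (2:ℝ) ^ i, D.F f' z' e i ≤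
        4 * a * D.g e / Δ := by
      intro z' _
      have h6 : ∑ i ∈ D.I with a < (2:ℝ) ^ i ∧
          ¬ 2 * a ^ 2 * D.g e < D.F f' z' e i * Δ * (2:ℝ) ^ i, D.F f' z' e i ≤
          ∑ i ∈ D.I with a < (2:ℝ) ^ i, 2 * a ^ 2 * D.g e / Δ * ((2:ℝ) ^ i)⁻¹ := by
        refine (sum_le_sum (g := fun i => 2 * a ^ 2 * D.g e / Δ * ((2:ℝ) ^ i)⁻¹)
          fun i hi => ?_).trans (sum_le_sum_of_subset_of_nonneg ?_ fun i _ _ => by positivity)
        · rw [mem_filter] at hi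
          have h7 := not_lt.1 hi.2.2
          rw [← div_eq_mul_inv, div_div, le_div_iff₀ (by positivity)]
          linarith
        · intro i hi
          rw [mem_filter] at hi ⊢
          exact ⟨hi.1, hi.2.1⟩
      refine h6.trans ?_
      rw [← mul_sum]
      have h8 := geo_up (D.I.filter (fun i => a < (2:ℝ) ^ i)) (Int.log 2 a + 1) fun i hi => by
        rw [mem_filter] at hi
        have h9 := (two_le_log ha).trans_lt hi.2
        have h10 := (zpow_lt_zpow_iff_right₀ (by norm_num : (1:ℝ) < 2)).1 h9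
        omega
      have h9 : 2 * ((2:ℝ) ^ (Int.log 2 a + 1))⁻¹ ≤ 2 / a := by
        rw [div_eq_mul_inv]
        refine mul_le_mul_of_nonneg_left ?_ (by norm_num)
        rw [inv_le_inv₀ (by positivity) ha, zpow_add_one₀ (by norm_num)]
        have := @log_lt_two a
        linarith
      calc 2 * a ^ 2 * D.g e / Δ * ∑ i ∈ D.I with a < (2:ℝ) ^ i, ((2:ℝ) ^ i)⁻¹ ≤
            2 * a ^ 2 * D.g e / Δ * (2 / a) :=
            mul_le_mul_of_nonneg_left (h8.trans h9) (by positivity)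
        _ = 4 * a * D.g e / Δ := by field_simp; ring
    refine (sum_le_sum h5).trans ?_
    rw [sum_const, nsmul_eq_mul]
    have h6 := h.deg z hz e he
    calc ((D.nb z e).card : ℝ) * (4 * a * D.g e / Δ) ≤ Δ * (4 * a * D.g e / Δ) :=
          mul_le_mul_of_nonneg_right h6 (by positivity)
      _ = 4 * a * D.g e := by field_simp
  have h7 : 4 * a * D.g e ≤ 4 * C1 * a * D.g e := by
    have : 0 < a * D.g e := by positivity
    nlinarith [h.hC]
  linarith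

/-- changers below the first nodes -/
lemma below_first {D : GZ Ω N Z} {f f' : Ω → ℝ} {C1 Δ : ℝ} (h : D.Ok f f' C1 Δ) {z z' : Z}
    (hz : z ∈ D.Zs) (hz' : z' ∈ D.Zs) (Q : N → Prop) [DecidablePred Q] (t : ℝ) :
    ∑ e ∈ D.Nd z with e ∈ D.Nd z' ∧ Q e, ∑ w ∈ D.A z e with D.y z w ≤ t, f w ≤
      ∑ e ∈ First (D.Nd z') D.P D.rk Q, ∑ w ∈ D.Ch z ∩ D.P e with D.y z w ≤ t, f w := by
  classical
  have hpd : Set.PairwiseDisjoint (↑((D.Nd z).filter fun e => e ∈ D.Nd z' ∧ Q e) : Set N)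
      (fun e => (D.A z e).filter fun w => D.y z w ≤ t) := by
    intro e he e' he' hne
    have h1 : e ∈ D.Nd z := (mem_filter.1 (mem_coe.1 he)).1
    have h2 : e' ∈ D.Nd z := (mem_filter.1 (mem_coe.1 he')).1
    exact (h.hAd z hz e h1 e' h2 hne).mono (filter_subset _ _) (filter_subset _ _)
  have hpf : Set.PairwiseDisjoint (↑(First (D.Nd z') D.P D.rk Q) : Set N)
      (fun e => (D.Ch z ∩ D.P e).filter fun w => D.y z w ≤ t) := by
    intro e he e' he' hne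
    exact (first_disj (h.lam z' hz') Q e (by simpa using he) e' (by simpa using he') hne).mono
      ((filter_subset _ _).trans inter_subset_right) ((filter_subset _ _).trans inter_subset_right)
  rw [← sum_biUnion hpd, ← sum_biUnion hpf]
  refine sum_le_sum_of_subset_of_nonneg ?_ fun w _ _ => h.hf w
  intro w hw
  rw [mem_biUnion] at hw ⊢
  obtain ⟨e, he, hwe⟩ := hw
  rw [mem_filter] at he hwe
  obtain ⟨m, hm, hwm⟩ := first_cover (h.lam z' hz') Q he.2.1 he.2.2 (h.AP z hz e he.1 hwe.1)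
  refine ⟨m, hm, ?_⟩
  rw [mem_filter, mem_inter]
  exact ⟨⟨mem_biUnion.2 ⟨e, he.1, hwe.1⟩, hwm⟩, hwe.2⟩

lemma first_mass {D : GZ Ω N Z} {f f' : Ω → ℝ} {C1 Δ : ℝ} (h : D.Ok f f' C1 Δ) {z' : Z}
    (hz' : z' ∈ D.Zs) (Q : N → Prop) (i : ℤ) :
    ∑ e ∈ First (D.Nd z') D.P D.rk Q, D.F f' z' e i ≤
      ∑ w ∈ D.Zone z' with Int.log 2 (D.y z' w) = i, f' w := by
  classical
  unfold GZ.F
  have hFN : ∀ e ∈ First (D.Nd z') D.P D.rk Q, e ∈ D.Nd z' := by
    intro e he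
    unfold First at he
    exact (mem_filter.1 he).1
  have hpf : Set.PairwiseDisjoint (↑(First (D.Nd z') D.P D.rk Q) : Set N)
      (fun e => (D.S z' e).filter fun w => Int.log 2 (D.y z' w) = i) := by
    intro e he e' he' hne
    have h1 : e ∈ First (D.Nd z') D.P D.rk Q := by simpa using he
    have h2 : e' ∈ First (D.Nd z') D.P D.rk Q := by simpa using he'
    exact (first_disj (h.lam z' hz') Q e h1 e' h2 hne).mono
      ((filter_subset _ _).trans (h.SP z' hz' e (hFN e h1)))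
      ((filter_subset _ _).trans (h.SP z' hz' e' (hFN e' h2)))
  rw [← sum_biUnion hpf]
  refine sum_le_sum_of_subset_of_nonneg ?_ fun w _ _ => h.hf' w
  intro w hw
  rw [mem_biUnion] at hw
  obtain ⟨e, he, hwe⟩ := hw
  rw [mem_filter] at hwe ⊢
  exact ⟨mem_biUnion.2 ⟨e, hFN e he, hwe.1⟩, hwe.2⟩

open Classical in
/-- (IIb), one zone `z'`, one level `i` -/
lemma level {D : GZ Ω N Z} {f f' : Ω → ℝ} {C1 Δ : ℝ} (h : D.Ok f f' C1 Δ) {z' : Z}
    (hz' : z' ∈ D.Zs) (i : ℤ) (ρ : ℝ) (hρ : 0 < ρ) :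
    ∑ z ∈ D.Zs with D.R z z', ∑ e ∈ D.Nd z with e ∈ D.Nd z',
      ∑ w ∈ D.A z e with ρ * D.y z w < (2:ℝ) ^ i ∧
        2 * (ρ * D.y z w) ^ 2 * D.g e < D.F f' z' e i * Δ * (2:ℝ) ^ i,
        f w * (D.F f' z' e i / D.g e) ≤
      4 * C1 * ((2:ℝ) ^ i / ρ) * (4 + Real.logb 4 (C1 * Δ)) *
        ∑ w ∈ D.Zone z' with Int.log 2 (D.y z' w) = i, f' w := by
  have hC0 : 0 < C1 := by linarith [h.hC]
  have hΔ0 : 0 < Δ := by linarith [h.hΔ]
  set u : ℝ := (2:ℝ) ^ i with hu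
  have hu0 : 0 < u := by positivity
  set Dd : N → ℝ := fun e => D.F f' z' e i / D.g e with hDd
  set c : ℝ := 2 * Δ / u with hc
  have hc0 : 0 < c := by positivity
  set τ : ℤ → ℝ := fun b => u / ρ * min 1 (Real.sqrt c * (2:ℝ) ^ b) with hτ
  have hτ0 : ∀ b, 0 < τ b := fun b => by
    have : 0 < Real.sqrt c := Real.sqrt_pos.2 hc0
    have h1 : 0 < min 1 (Real.sqrt c * (2:ℝ) ^ b) := lt_min one_pos (by positivity)
    positivity
  set M : ℝ := ∑ w ∈ D.Zone z' with Int.log 2 (D.y z' w) = i, f' w with hM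
  have hM0 : 0 ≤ M := sum_nonneg fun w _ => h.hf' w
  set E' : Finset N := (D.Nd z').filter fun e => 0 < D.F f' z' e i ∧
    ∃ z ∈ D.Zs, D.R z z' ∧ e ∈ D.Nd z with hE'
  set B : Finset ℤ := E'.image fun e => Int.log 4 (Dd e) with hB
  have hlog4 : ∀ r : ℝ, 0 < r → (4:ℝ) ^ (Int.log 4 r) ≤ r := fun r hr => by
    have := Int.zpow_log_le_self (R := ℝ) (b := 4) (by norm_num) hr
    exact_mod_cast this
  have hlog4' : ∀ r : ℝ, r < 4 * (4:ℝ) ^ (Int.log 4 r) := fun r => by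
    have := Int.lt_zpow_succ_log_self (R := ℝ) (b := 4) (by norm_num) r
    rw [zpow_add_one₀ (by norm_num)] at this
    push_cast at this
    linarith
  -- step 1
  have s1 : ∀ z ∈ D.Zs, D.R z z' → ∀ e ∈ D.Nd z, e ∈ D.Nd z' →
      ∑ w ∈ D.A z e with ρ * D.y z w < u ∧
        2 * (ρ * D.y z w) ^ 2 * D.g e < D.F f' z' e i * Δ * u, f w * Dd e ≤
      ∑ b ∈ B, if (4:ℝ) ^ b ≤ Dd e then
        4 * (4:ℝ) ^ b * ∑ w ∈ D.A z e with D.y z w ≤ τ b, f w else 0 := by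
    intro z hz hR e he he'
    have hg := h.hg z hz e he
    have hnn : ∀ b ∈ B, 0 ≤ if (4:ℝ) ^ b ≤ Dd e then
        4 * (4:ℝ) ^ b * ∑ w ∈ D.A z e with D.y z w ≤ τ b, f w else 0 := by
      intro b _
      split_ifs
      · exact mul_nonneg (by positivity) (sum_nonneg fun w _ => h.hf w)
      · exact le_rfl
    rcases (F_nonneg h z' e i).eq_or_lt with hF | hF
    · have e0 : Dd e = 0 := by simp only [hDd]; rw [← hF, zero_div]
      refine le_trans (le_of_eq ?_) (sum_nonneg hnn)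
      rw [e0]
      simp
    · have hDe : 0 < Dd e := div_pos hF hg
      have hbB : Int.log 4 (Dd e) ∈ B := by
        rw [hB]
        refine mem_image_of_mem _ ?_
        rw [hE', mem_filter]
        exact ⟨he', hF, z, hz, hR, he⟩
      refine le_trans ?_ (single_le_sum hnn hbB)
      rw [if_pos (hlog4 _ hDe)]
      rw [← sum_mul, mul_comm]
      refine mul_le_mul (hlog4' _).le ?_ (sum_nonneg fun w _ => h.hf w) (by positivity)
      refine sum_le_sum_of_subset_of_nonneg ?_ fun w _ _ => h.hf w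
      intro w hw
      rw [mem_filter] at hw ⊢
      refine ⟨hw.1, ?_⟩
      obtain ⟨_, h1, h2⟩ := hw
      have hy := h.hy z hz w
      set b := Int.log 4 (Dd e) with hb
      have h3 : (ρ * D.y z w / u) ^ 2 < (Real.sqrt c * (2:ℝ) ^ b) ^ 2 := by
        have h8 : (Real.sqrt c * (2:ℝ) ^ b) ^ 2 = c * (4:ℝ) ^ b := by
          rw [mul_pow, Real.sq_sqrt hc0.le]
          congr 1
          rw [← zpow_natCast, ← zpow_mul, mul_comm b, zpow_mul]
          norm_num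
        rw [h8, hc, div_pow, div_mul_eq_mul_div, div_lt_div_iff₀ (by positivity) hu0]
        have h9 := hlog4' (Dd e)
        rw [← hb] at h9
        have h10 : D.F f' z' e i = Dd e * D.g e := by
          simp only [hDd]; rw [div_mul_cancel₀ _ hg.ne']
        rw [h10] at h2
        have h11 : 2 * (ρ * D.y z w) ^ 2 < Dd e * Δ * u := by
          have h12 : 2 * (ρ * D.y z w) ^ 2 * D.g e < Dd e * Δ * u * D.g e := by linarith
          exact lt_of_mul_lt_mul_right h12 hg.le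
        have h13 : Dd e * Δ * u < 4 * (4:ℝ) ^ b * Δ * u := by
          have : 0 < Δ * u := by positivity
          nlinarith
        have h14 : (ρ * D.y z w) ^ 2 < 2 * Δ * (4:ℝ) ^ b * u := by nlinarith
        calc (ρ * D.y z w) ^ 2 * u < 2 * Δ * (4:ℝ) ^ b * u * u :=
              mul_lt_mul_of_pos_right h14 hu0
          _ = 2 * Δ * (4:ℝ) ^ b * u ^ 2 := by ring
      have hsc : 0 < Real.sqrt c := Real.sqrt_pos.2 hc0
      have h4 : ρ * D.y z w / u < Real.sqrt c * (2:ℝ) ^ b :=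
        lt_of_pow_lt_pow_left₀ 2 (by positivity) h3
      have h5 : ρ * D.y z w / u < 1 := by rw [div_lt_one hu0]; exact h1
      have h6 : ρ * D.y z w / u ≤ min 1 (Real.sqrt c * (2:ℝ) ^ b) := le_min h5.le h4.le
      simp only [hτ]
      calc D.y z w = u / ρ * (ρ * D.y z w / u) := by field_simp
        _ ≤ _ := mul_le_mul_of_nonneg_left h6 (by positivity)
  -- step 2
  have s2 : ∑ z ∈ D.Zs with D.R z z', ∑ e ∈ D.Nd z with e ∈ D.Nd z',
      ∑ w ∈ D.A z e with ρ * D.y z w < u ∧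
        2 * (ρ * D.y z w) ^ 2 * D.g e < D.F f' z' e i * Δ * u, f w * Dd e ≤
      ∑ b ∈ B, 4 * (4:ℝ) ^ b * ∑ z ∈ D.Zs with D.R z z',
        ∑ e ∈ D.Nd z with e ∈ D.Nd z' ∧ (4:ℝ) ^ b ≤ Dd e,
          ∑ w ∈ D.A z e with D.y z w ≤ τ b, f w := by
    calc _ ≤ ∑ z ∈ D.Zs with D.R z z', ∑ e ∈ D.Nd z with e ∈ D.Nd z',
          ∑ b ∈ B, if (4:ℝ) ^ b ≤ Dd e then
            4 * (4:ℝ) ^ b * ∑ w ∈ D.A z e with D.y z w ≤ τ b, f w else 0 := by
          refine sum_le_sum fun z hz => sum_le_sum fun e he => ?_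
          rw [mem_filter] at hz he
          exact s1 z hz.1 hz.2 e he.1 he.2
      _ = ∑ z ∈ D.Zs with D.R z z', ∑ b ∈ B, ∑ e ∈ D.Nd z with e ∈ D.Nd z',
            if (4:ℝ) ^ b ≤ Dd e then
            4 * (4:ℝ) ^ b * ∑ w ∈ D.A z e with D.y z w ≤ τ b, f w else 0 :=
          sum_congr rfl fun z _ => sum_comm
      _ = ∑ b ∈ B, ∑ z ∈ D.Zs with D.R z z', ∑ e ∈ D.Nd z with e ∈ D.Nd z',
            if (4:ℝ) ^ b ≤ Dd e then
            4 * (4:ℝ) ^ b * ∑ w ∈ D.A z e with D.y z w ≤ τ b, f w else 0 := sum_comm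
      _ = _ := by
          refine sum_congr rfl fun b _ => ?_
          rw [mul_sum]
          refine sum_congr rfl fun z _ => ?_
          rw [← sum_filter, filter_filter, mul_sum]
  -- step 3
  have s3 : ∀ b ∈ B, 4 * (4:ℝ) ^ b * ∑ z ∈ D.Zs with D.R z z',
        ∑ e ∈ D.Nd z with e ∈ D.Nd z' ∧ (4:ℝ) ^ b ≤ Dd e,
          ∑ w ∈ D.A z e with D.y z w ≤ τ b, f w ≤ 4 * C1 * τ b * M := by
    intro b _
    set Q : N → Prop := fun e => (4:ℝ) ^ b ≤ Dd e with hQ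
    have h1 : ∑ z ∈ D.Zs with D.R z z', ∑ e ∈ D.Nd z with e ∈ D.Nd z' ∧ Q e,
        ∑ w ∈ D.A z e with D.y z w ≤ τ b, f w ≤
        ∑ z ∈ D.Zs with D.R z z', ∑ e ∈ First (D.Nd z') D.P D.rk Q,
          ∑ w ∈ D.Ch z ∩ D.P e with D.y z w ≤ τ b, f w :=
      sum_le_sum fun z hz => below_first h (mem_filter.1 hz).1 hz' Q (τ b)
    rw [sum_comm] at h1
    have h2 : ∀ e ∈ First (D.Nd z') D.P D.rk Q, ∑ z ∈ D.Zs with D.R z z',
        ∑ w ∈ D.Ch z ∩ D.P e with D.y z w ≤ τ b, f w ≤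
        C1 * τ b * ((4:ℝ) ^ b)⁻¹ * D.F f' z' e i := by
      intro e he
      unfold First at he
      rw [mem_filter] at he
      refine (h.hyp2 z' hz' e he.1 (τ b) (hτ0 b)).trans ?_
      have h3 : (4:ℝ) ^ b ≤ D.F f' z' e i / D.g e := he.2.1
      rw [le_div_iff₀ (h.hg z' hz' e he.1)] at h3
      rw [mul_assoc (C1 * τ b)]
      refine mul_le_mul_of_nonneg_left ?_ (mul_nonneg hC0.le (hτ0 b).le)
      rw [← div_eq_inv_mul, le_div_iff₀ (by positivity)]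
      linarith
    have h3 := h1.trans (sum_le_sum h2)
    rw [← mul_sum] at h3
    have h4 := first_mass h hz' Q i
    have h5 : 0 ≤ C1 * τ b * ((4:ℝ) ^ b)⁻¹ :=
      mul_nonneg (mul_nonneg hC0.le (hτ0 b).le) (by positivity)
    calc _ ≤ 4 * (4:ℝ) ^ b * (C1 * τ b * ((4:ℝ) ^ b)⁻¹ * M) :=
          mul_le_mul_of_nonneg_left (h3.trans (mul_le_mul_of_nonneg_left h4 h5)) (by positivity)
      _ = 4 * C1 * τ b * M := by field_simp
  -- step 4
  have s4 : ∑ b ∈ B, min 1 (Real.sqrt c * (2:ℝ) ^ b) ≤ 4 + Real.logb 4 (C1 * Δ) := by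
    have hCΔ : 1 ≤ C1 * Δ := by nlinarith [h.hC, h.hΔ]
    have h1 := sum_min B c (4 * (C1 * Δ)) hc0 (by linarith) fun b hb => by
      rw [hB] at hb
      obtain ⟨e, he, rfl⟩ := mem_image.1 hb
      rw [hE', mem_filter] at he
      obtain ⟨he', hF, z, hz, hR, hez⟩ := he
      have hg := h.hg z' hz' e he'
      have hDe : 0 < Dd e := div_pos hF hg
      have h2 := h.hyp1 z hz e hez (2 * u) (by positivity)
      have h3 : D.F f' z' e i ≤ C1 * (2 * u) * D.g e := by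
        refine le_trans ?_ h2
        have h4 : ∑ w ∈ D.S z' e with D.y z' w ≤ 2 * u, f' w ≤
            ∑ z'' ∈ D.nb z e, ∑ w ∈ D.S z'' e with D.y z'' w ≤ 2 * u, f' w :=
          single_le_sum (f := fun z'' => ∑ w ∈ D.S z'' e with D.y z'' w ≤ 2 * u, f' w)
            (fun z'' _ => sum_nonneg fun w _ => h.hf' w) (by
              unfold GZ.nb
              rw [mem_filter]
              exact ⟨hz', hR, he'⟩)
        refine le_trans ?_ h4
        refine sum_le_sum_of_subset_of_nonneg ?_ fun w _ _ => h.hf' w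
        intro w hw
        rw [mem_filter] at hw ⊢
        refine ⟨hw.1, ?_⟩
        have h5 := @log_lt_two (D.y z' w)
        rw [hw.2] at h5
        exact h5.le
      have h4 : Dd e ≤ C1 * (2 * u) := by
        simp only [hDd]
        rw [div_le_iff₀ hg]
        exact h3
      calc c * (4:ℝ) ^ (Int.log 4 (Dd e)) ≤ c * (C1 * (2 * u)) :=
            mul_le_mul_of_nonneg_left ((hlog4 _ hDe).trans h4) hc0.le
        _ = 4 * (C1 * Δ) := by rw [hc]; field_simp; ring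
    have h2 : Real.logb 4 (4 * (C1 * Δ)) = 1 + Real.logb 4 (C1 * Δ) := by
      rw [Real.logb_mul (by norm_num) (by positivity), Real.logb_self_eq_one (by norm_num)]
    linarith
  calc _ ≤ _ := s2
    _ ≤ ∑ b ∈ B, 4 * C1 * τ b * M := sum_le_sum s3
    _ = 4 * C1 * (u / ρ) * M * ∑ b ∈ B, min 1 (Real.sqrt c * (2:ℝ) ^ b) := by
        rw [mul_sum]
        refine sum_congr rfl fun b _ => ?_
        simp only [hτ]
        ring
    _ ≤ 4 * C1 * (u / ρ) * M * (4 + Real.logb 4 (C1 * Δ)) :=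
        mul_le_mul_of_nonneg_left s4 (by positivity)
    _ = _ := by ring

open Classical in
/-- the exchange of the sums in (IIb) -/
lemma exchange (D : GZ Ω N Z) (X : Z → N → Z → ℝ) :
    ∑ z ∈ D.Zs, ∑ e ∈ D.Nd z, ∑ z' ∈ D.nb z e, X z e z' =
      ∑ z' ∈ D.Zs, ∑ z ∈ D.Zs with D.R z z', ∑ e ∈ D.Nd z with e ∈ D.Nd z', X z e z' := by
  have e1 : ∀ z ∈ D.Zs, ∑ e ∈ D.Nd z, ∑ z' ∈ D.nb z e, X z e z' =
      ∑ z' ∈ D.Zs with D.R z z', ∑ e ∈ D.Nd z with e ∈ D.Nd z', X z e z' := by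
    intro z _
    refine sum_comm' fun e z' => ?_
    unfold GZ.nb
    simp only [mem_filter]
    tauto
  rw [sum_congr rfl e1]
  refine sum_comm' fun z z' => ?_
  simp only [mem_filter]
  tauto

/-- **LEMMA V** (helper8) -/
theorem lemmaV (D : GZ Ω N Z) (f f' : Ω → ℝ) (C1 Δ : ℝ) (h : D.Ok f f' C1 Δ)
    (ρ : ℝ) (hρ : 0 < ρ) :
    ∑ z ∈ D.Zs, ∑ e ∈ D.Nd z,
      (∑ w ∈ D.A z e, ∑ z' ∈ D.nb z e, ∑ w' ∈ D.S z' e, f w * f' w') / D.g e ≤
      6 * C1 * ρ * (∑ z ∈ D.Zs, ∑ w ∈ D.Ch z, f w * D.y z w) +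
      4 * C1 * (4 + Real.logb 4 (C1 * Δ)) / ρ *
        (∑ z ∈ D.Zs, ∑ w ∈ D.Zone z, f' w * D.y z w) := by
  classical
  have hC0 : 0 < C1 := by linarith [h.hC]
  have hΔ0 : 0 < Δ := by linarith [h.hΔ]
  have hlog : 0 ≤ Real.logb 4 (C1 * Δ) :=
    Real.logb_nonneg (by norm_num) (by nlinarith [h.hC, h.hΔ])
  -- the condition of (IIb)
  set cnd : Z → N → Z → ℤ → Ω → Prop := fun z e z' i w => ρ * D.y z w < (2:ℝ) ^ i ∧
        2 * (ρ * D.y z w) ^ 2 * D.g e < D.F f' z' e i * Δ * (2:ℝ) ^ i with hcnd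
  have h1 : ∀ z ∈ D.Zs, ∀ e ∈ D.Nd z,
      (∑ w ∈ D.A z e, ∑ z' ∈ D.nb z e, ∑ w' ∈ D.S z' e, f w * f' w') / D.g e ≤
      6 * C1 * ρ * (∑ w ∈ D.A z e, f w * D.y z w) +
        ∑ z' ∈ D.nb z e, ∑ i ∈ D.I, ∑ w ∈ D.A z e with cnd z e z' i w,
          f w * (D.F f' z' e i / D.g e) := by
    intro z hz e he
    have hg := h.hg z hz e he
    rw [div_le_iff₀ hg]
    have h2 : ∑ w ∈ D.A z e, ∑ z' ∈ D.nb z e, ∑ w' ∈ D.S z' e, f w * f' w' ≤
        ∑ w ∈ D.A z e, f w * (6 * C1 * (ρ * D.y z w) * D.g e +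
          ∑ z' ∈ D.nb z e, ∑ i ∈ D.I with cnd z e z' i w, D.F f' z' e i) := by
      refine sum_le_sum fun w _ => ?_
      have h3 := inner h hz he (ρ * D.y z w) (mul_pos hρ (h.hy z hz w))
      have e3 : ∑ z' ∈ D.nb z e, ∑ w' ∈ D.S z' e, f w * f' w' =
          f w * ∑ z' ∈ D.nb z e, ∑ w' ∈ D.S z' e, f' w' := by
        simp only [mul_sum]
      rw [e3]
      exact mul_le_mul_of_nonneg_left h3 (h.hf w)
    refine h2.trans (le_of_eq ?_)
    rw [add_mul, mul_sum, sum_mul, ← sum_congr rfl (fun w _ => (mul_add _ _ _).symm),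
      sum_add_distrib]
    congr 1
    · exact sum_congr rfl fun w _ => by ring
    · have e4 : ∀ w ∈ D.A z e, f w * ∑ z' ∈ D.nb z e, ∑ i ∈ D.I with cnd z e z' i w,
          D.F f' z' e i = ∑ z' ∈ D.nb z e, ∑ i ∈ D.I,
            if cnd z e z' i w then f w * (D.F f' z' e i / D.g e) * D.g e else 0 := by
        intro w _
        rw [mul_sum]
        refine sum_congr rfl fun z' _ => ?_
        rw [mul_sum, sum_filter]
        refine sum_congr rfl fun i _ => ?_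
        split_ifs
        · rw [mul_assoc, div_mul_cancel₀ _ hg.ne']
        · rfl
      rw [sum_congr rfl e4, sum_comm, sum_mul]
      refine sum_congr rfl fun z' _ => ?_
      rw [sum_comm, sum_mul]
      refine sum_congr rfl fun i _ => ?_
      rw [sum_filter, sum_mul]
      refine sum_congr rfl fun w _ => ?_
      split_ifs
      · rfl
      · rw [zero_mul]
  have h2 : ∑ z ∈ D.Zs, ∑ e ∈ D.Nd z,
      (∑ w ∈ D.A z e, ∑ z' ∈ D.nb z e, ∑ w' ∈ D.S z' e, f w * f' w') / D.g e ≤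
      ∑ z ∈ D.Zs, ∑ e ∈ D.Nd z, (6 * C1 * ρ * (∑ w ∈ D.A z e, f w * D.y z w) +
        ∑ z' ∈ D.nb z e, ∑ i ∈ D.I, ∑ w ∈ D.A z e with cnd z e z' i w,
          f w * (D.F f' z' e i / D.g e)) :=
    sum_le_sum fun z hz => sum_le_sum fun e he => h1 z hz e he
  refine h2.trans ?_
  simp only [sum_add_distrib]
  refine add_le_add (le_of_eq ?_) ?_
  · rw [mul_sum]
    refine sum_congr rfl fun z hz => ?_
    rw [← mul_sum]
    congr 1
    unfold GZ.Ch
    rw [sum_biUnion]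
    intro e he e' he' hne
    exact h.hAd z hz e (mem_coe.1 he) e' (mem_coe.1 he') hne
  · rw [exchange D (fun z e z' => ∑ i ∈ D.I, ∑ w ∈ D.A z e with cnd z e z' i w,
          f w * (D.F f' z' e i / D.g e))]
    have h3 : ∀ z' ∈ D.Zs, ∑ z ∈ D.Zs with D.R z z', ∑ e ∈ D.Nd z with e ∈ D.Nd z',
        ∑ i ∈ D.I, ∑ w ∈ D.A z e with cnd z e z' i w, f w * (D.F f' z' e i / D.g e) ≤
        ∑ i ∈ D.I, 4 * C1 * ((2:ℝ) ^ i / ρ) * (4 + Real.logb 4 (C1 * Δ)) *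
          ∑ w ∈ D.Zone z' with Int.log 2 (D.y z' w) = i, f' w := by
      intro z' hz'
      have e5 : ∑ z ∈ D.Zs with D.R z z', ∑ e ∈ D.Nd z with e ∈ D.Nd z',
          ∑ i ∈ D.I, ∑ w ∈ D.A z e with cnd z e z' i w, f w * (D.F f' z' e i / D.g e) =
          ∑ i ∈ D.I, ∑ z ∈ D.Zs with D.R z z', ∑ e ∈ D.Nd z with e ∈ D.Nd z',
            ∑ w ∈ D.A z e with cnd z e z' i w, f w * (D.F f' z' e i / D.g e) := by
        rw [sum_comm (s := D.I)]
        exact sum_congr rfl fun z _ => sum_comm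
      rw [e5]
      exact sum_le_sum fun i _ => level h hz' i ρ hρ
    refine (sum_le_sum h3).trans ?_
    rw [mul_sum]
    refine sum_le_sum fun z' hz' => ?_
    have hfib : ∑ i ∈ D.I, ∑ w ∈ D.Zone z' with Int.log 2 (D.y z' w) = i, f' w * D.y z' w =
        ∑ w ∈ D.Zone z', f' w * D.y z' w := by
      refine sum_fiberwise_of_maps_to (fun w hw => ?_) _
      unfold GZ.I
      exact mem_biUnion.2 ⟨z', hz', mem_image_of_mem _ hw⟩
    rw [← hfib, mul_sum]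
    refine sum_le_sum fun i _ => ?_
    have h4 : (2:ℝ) ^ i * ∑ w ∈ D.Zone z' with Int.log 2 (D.y z' w) = i, f' w ≤
        ∑ w ∈ D.Zone z' with Int.log 2 (D.y z' w) = i, f' w * D.y z' w := by
      rw [mul_sum]
      refine sum_le_sum fun w hw => ?_
      rw [mem_filter] at hw
      rw [mul_comm, ← hw.2]
      exact mul_le_mul_of_nonneg_left (two_le_log (h.hy z' hz' w)) (h.hf' w)
    calc 4 * C1 * ((2:ℝ) ^ i / ρ) * (4 + Real.logb 4 (C1 * Δ)) *
          ∑ w ∈ D.Zone z' with Int.log 2 (D.y z' w) = i, f' w =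
        4 * C1 * (4 + Real.logb 4 (C1 * Δ)) / ρ *
          ((2:ℝ) ^ i * ∑ w ∈ D.Zone z' with Int.log 2 (D.y z' w) = i, f' w) := by
          field_simp
      _ ≤ _ := mul_le_mul_of_nonneg_left h4 (by positivity)

end Crest.Agent.R4C.GWrelx110
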