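import Crest.Agent.R4C.GWzone_9

/-!
# Row 4, GW section, vector case: LEMMA V (bilinear antichain lemma for a graph of zones)

helper318 (second hand of helper8's note 3941).

Zones `z` (families), prefixes `e` with fibres `P e` (laminar), at most one node `S z e` per zone and
prefix, `A z e ⊆ S z e` = words changing there (at most one prefix per word and zone), relation
`z ~ z'` (changer's zone, partner's zone) with at most `Δ` partner zones at every prefix.
Weights `f, f' ≥ 0`, `y, y' > 0`.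
Hypotheses, for all `t > 0`:
* `H1` at a node `(z, e)`: `∑_{z' ~ z} f'{w' ∈ S z' e : y' ≤ t} ≤ C1 t g(e)`,
* `H2` at a node `(z', e)`: `∑_{z ~ z'} f{w ∈ Zone z ∩ P e : y ≤ t} ≤ C1 t g(e)`.
Conclusion (`lemmaV`), all `ρ > 0`, `n ≥ 2`:
`∑_{z,e} ∑_{w ∈ A z e} ∑_{z' ~ z} ∑_{w' ∈ S z' e} f f' / g(e)
   ≤ (C1 + 2) ρ ∑ f y + 2 C1 n (C1 Δ)^{1/n} ρ⁻¹ ∑ f' y'`.
`lemmaV_log`: the same with `2 e C1 (log (C1 Δ) + 3)`.
`lemmaV_W`: with `min (W z w) (W' z' w')` and the weights `f y W`, `f' y' W'` on the right.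
-/

set_option autoImplicit false
set_option linter.unusedSectionVars false

open Finset MeasureTheory

noncomputable section

namespace Crest.Agent.R4C.GWrelx318

open Crest.Agent.R4C.GWzonex9

variable {Ω E Z : Type*} [DecidableEq Ω] [DecidableEq E] [DecidableEq Z]

/-- the combinatorial data -/
structure VD (Ω E Z : Type*) [DecidableEq Ω] where
  Zs : Finset Z
  Es : Finset E
  P : E → Finset Ω
  S : Z → E → Finset Ω
  A : Z → E → Finset Ω
  rk : E → ℕ
  g : E → ℝ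
  rel : Z → Z → Prop

/-- the words of a zone -/
def VD.zone (D : VD Ω E Z) (z : Z) : Finset Ω := D.Es.biUnion (D.S z)

open Classical in
/-- partner zones of `z` -/
def VD.out (D : VD Ω E Z) (z : Z) : Finset Z := D.Zs.filter fun z' => D.rel z z'

open Classical in
/-- changer zones of `z'` -/
def VD.inn (D : VD Ω E Z) (z' : Z) : Finset Z := D.Zs.filter fun z => D.rel z z'

/-- the structural hypotheses -/
structure VD.Geo (D : VD Ω E Z) (Δ : ℝ) : Prop where
  hΔ : 1 ≤ Δ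
  lamP : ∀ e ∈ D.Es, ∀ e' ∈ D.Es, D.rk e ≤ D.rk e' → ¬ Disjoint (D.P e) (D.P e') →
    D.P e' ⊆ D.P e
  lamS : ∀ z ∈ D.Zs, Lam D.Es (D.S z) D.rk
  SP : ∀ z ∈ D.Zs, ∀ e ∈ D.Es, D.S z e ⊆ D.P e
  AS : ∀ z ∈ D.Zs, ∀ e ∈ D.Es, D.A z e ⊆ D.S z e
  Ad : ∀ z ∈ D.Zs, ∀ e ∈ D.Es, ∀ e' ∈ D.Es, e ≠ e' → Disjoint (D.A z e) (D.A z e')
  hg : ∀ e ∈ D.Es, 0 < D.g e
  deg : ∀ z ∈ D.Zs, ∀ e ∈ D.Es, (D.A z e).Nonempty →
    (((D.out z).filter fun z' => (D.S z' e).Nonempty).card : ℝ) ≤ Δ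

/-- the hypotheses on the weights -/
structure VD.Hyp (D : VD Ω E Z) (f f' y y' : Z → Ω → ℝ) (C1 : ℝ) : Prop where
  hC : 1 ≤ C1
  hf : ∀ z w, 0 ≤ f z w
  hf' : ∀ z w, 0 ≤ f' z w
  hy : ∀ z w, 0 < y z w
  hy' : ∀ z w, 0 < y' z w
  H1 : ∀ z ∈ D.Zs, ∀ e ∈ D.Es, (D.A z e).Nonempty → ∀ t : ℝ, 0 < t →
    ∑ z' ∈ D.out z, ∑ w ∈ D.S z' e with y' z' w ≤ t, f' z' w ≤ C1 * t * D.g e
  H2 : ∀ z' ∈ D.Zs, ∀ e ∈ D.Es, (D.S z' e).Nonempty → ∀ t : ℝ, 0 < t →
    ∑ z ∈ D.inn z', ∑ w ∈ D.zone z ∩ D.P e with y z w ≤ t, f z w ≤ C1 * t * D.g e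

lemma mem_out {D : VD Ω E Z} {z z' : Z} : z' ∈ D.out z ↔ z' ∈ D.Zs ∧ D.rel z z' := by
  classical
  unfold VD.out
  rw [mem_filter]

lemma mem_inn {D : VD Ω E Z} {z z' : Z} : z ∈ D.inn z' ↔ z ∈ D.Zs ∧ D.rel z z' := by
  classical
  unfold VD.inn
  rw [mem_filter]

/-- sum over pairs of zones, swapped -/
lemma sum_swap (D : VD Ω E Z) (F : Z → Z → ℝ) :
    ∑ z ∈ D.Zs, ∑ z' ∈ D.out z, F z z' = ∑ z' ∈ D.Zs, ∑ z ∈ D.inn z', F z z' := by
  classical
  unfold VD.out VD.inn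
  simp only [sum_filter]
  rw [sum_comm]

/-! ### first nodes -/

lemma mem_first {N : Type*} {Nd : Finset N} {S : N → Finset Ω} {rk : N → ℕ} {P : N → Prop}
    {n : N} : n ∈ First Nd S rk P ↔
      n ∈ Nd ∧ P n ∧ ∀ n' ∈ Nd, P n' → rk n' < rk n → Disjoint (S n') (S n) := by
  classical
  unfold First
  rw [mem_filter]

/-- words changing (in the zones `R`) at a node of `z'` with property `Q` lie in the fibres of the
first nodes of `z'` with property `Q` -/
lemma first_fibre {D : VD Ω E Z} {Δ : ℝ} (G : D.Geo Δ) (z' : Z) (hz' : z' ∈ D.Zs)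
    (Q : E → Prop) [DecidablePred Q] (hQ : ∀ e, Q e → (D.S z' e).Nonempty) (z : Z) (hz : z ∈ D.Zs)
    (p : Ω → Prop) [DecidablePred p] (F : Ω → ℝ) (hF : ∀ w, 0 ≤ F w) :
    ∑ e ∈ D.Es with Q e, ∑ w ∈ D.A z e with p w, F w ≤
      ∑ e ∈ First D.Es (D.S z') D.rk Q, ∑ w ∈ D.zone z ∩ D.P e with p w, F w := by
  classical
  have hpd : Set.PairwiseDisjoint (↑(D.Es.filter Q) : Set E) (fun e => (D.A z e).filter p) := by
    intro e he e' he' hne
    have h1 : e ∈ D.Es.filter Q := by simpa using he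
    have h2 : e' ∈ D.Es.filter Q := by simpa using he'
    exact (G.Ad z hz e (mem_filter.1 h1).1 e' (mem_filter.1 h2).1 hne).mono
      (filter_subset _ _) (filter_subset _ _)
  rw [← sum_biUnion hpd]
  set U := (D.Es.filter Q).biUnion fun e => (D.A z e).filter p with hU
  have h1 : ∀ w ∈ U, F w ≤ ∑ e ∈ First D.Es (D.S z') D.rk Q,
      if w ∈ (D.zone z ∩ D.P e).filter p then F w else 0 := by
    intro w hw
    rw [hU, mem_biUnion] at hw
    obtain ⟨e, he, hwe⟩ := hw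
    rw [mem_filter] at he hwe
    obtain ⟨w', hw'⟩ := hQ e he.2
    obtain ⟨e0, he0, hw0⟩ := first_cover (G.lamS z' hz') Q he.1 he.2 hw'
    have he0' := mem_first.1 he0
    have hrk : D.rk e0 ≤ D.rk e := by
      by_contra hlt
      push Not at hlt
      exact (disjoint_left.1 (he0'.2.2 e he.1 he.2 hlt) hw') hw0
    have hsub : D.P e ⊆ D.P e0 := G.lamP e0 he0'.1 e he.1 hrk
      (not_disjoint_iff.2 ⟨w', G.SP z' hz' e0 he0'.1 hw0, G.SP z' hz' e he.1 hw'⟩)
    have hwS := G.AS z hz e he.1 hwe.1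
    have hmem : w ∈ (D.zone z ∩ D.P e0).filter p := by
      rw [mem_filter, mem_inter]
      exact ⟨⟨mem_biUnion.2 ⟨e, he.1, hwS⟩, hsub (G.SP z hz e he.1 hwS)⟩, hwe.2⟩
    calc F w = if w ∈ (D.zone z ∩ D.P e0).filter p then F w else 0 := by rw [if_pos hmem]
      _ ≤ _ := single_le_sum (f := fun e => if w ∈ (D.zone z ∩ D.P e).filter p then F w else 0)
          (fun e _ => by split_ifs; exacts [hF w, le_rfl]) he0
  refine (sum_le_sum h1).trans ?_
  rw [sum_comm]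
  refine sum_le_sum fun e _ => ?_
  rw [← sum_filter]
  exact sum_le_sum_of_subset_of_nonneg (fun w hw => (mem_filter.1 hw).2) fun w _ _ => hF w

/-- total mass of the first nodes with density `> s` -/
lemma first_mass {D : VD Ω E Z} {Δ : ℝ} (G : D.Geo Δ) (z' : Z) (hz' : z' ∈ D.Zs)
    (F' : Ω → ℝ) (hF' : ∀ w, 0 ≤ F' w) (s : ℝ) (hs : 0 < s) :
    ∑ e ∈ First D.Es (D.S z') D.rk (fun e => s < (∑ w ∈ D.S z' e, F' w) / D.g e), D.g e ≤
      (∑ w ∈ D.zone z', F' w) / s := by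
  classical
  rw [le_div_iff₀ hs, sum_mul]
  have h1 : ∀ e ∈ First D.Es (D.S z') D.rk (fun e => s < (∑ w ∈ D.S z' e, F' w) / D.g e),
      D.g e * s ≤ ∑ w ∈ D.S z' e, F' w := by
    intro e he
    have he' := mem_first.1 he
    have h2 : s < (∑ w ∈ D.S z' e, F' w) / D.g e := he'.2.1
    rw [lt_div_iff₀ (G.hg e he'.1)] at h2
    linarith
  refine (sum_le_sum h1).trans ?_
  have hpf : Set.PairwiseDisjoint
      (↑(First D.Es (D.S z') D.rk (fun e => s < (∑ w ∈ D.S z' e, F' w) / D.g e)) : Set E)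
      (fun e => D.S z' e) := by
    intro e he e' he' hne
    exact first_disj (G.lamS z' hz') _ e (by simpa using he) e' (by simpa using he') hne
  rw [← sum_biUnion hpf]
  refine sum_le_sum_of_subset_of_nonneg ?_ fun w _ _ => hF' w
  intro w hw
  rw [mem_biUnion] at hw
  obtain ⟨e, he, hwe⟩ := hw
  exact mem_biUnion.2 ⟨e, (mem_first.1 he).1, hwe⟩

/-- one level: changers with `y ≤ t` at nodes of density `> s` -/
lemma level {D : VD Ω E Z} {Δ C1 : ℝ} {f f' y y' : Z → Ω → ℝ} (G : D.Geo Δ)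
    (H : D.Hyp f f' y y' C1) (z' : Z) (hz' : z' ∈ D.Zs)
    (F' : Ω → ℝ) (hF' : ∀ w, 0 ≤ F' w) (s t : ℝ) (hs : 0 < s) (ht : 0 < t) :
    ∑ e ∈ D.Es with s < (∑ w ∈ D.S z' e, F' w) / D.g e,
      ∑ z ∈ D.inn z', ∑ w ∈ D.A z e with y z w ≤ t, f z w ≤
      C1 * t * ((∑ w ∈ D.zone z', F' w) / s) := by
  classical
  set Q : E → Prop := fun e => s < (∑ w ∈ D.S z' e, F' w) / D.g e with hQdef
  have hQ : ∀ e, Q e → (D.S z' e).Nonempty := by
    intro e he
    by_contra hne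
    rw [not_nonempty_iff_eq_empty] at hne
    simp only [hQdef, hne, sum_empty, zero_div] at he
    linarith
  have hC0 : 0 ≤ C1 * t := mul_nonneg (by have := H.hC; linarith) ht.le
  calc ∑ e ∈ D.Es with Q e, ∑ z ∈ D.inn z', ∑ w ∈ D.A z e with y z w ≤ t, f z w
      = ∑ z ∈ D.inn z', ∑ e ∈ D.Es with Q e, ∑ w ∈ D.A z e with y z w ≤ t, f z w := sum_comm
    _ ≤ ∑ z ∈ D.inn z', ∑ e ∈ First D.Es (D.S z') D.rk Q,
          ∑ w ∈ D.zone z ∩ D.P e with y z w ≤ t, f z w :=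
        sum_le_sum fun z hz => first_fibre G z' hz' Q hQ z (mem_inn.1 hz).1 _ _ (H.hf z)
    _ = ∑ e ∈ First D.Es (D.S z') D.rk Q, ∑ z ∈ D.inn z',
          ∑ w ∈ D.zone z ∩ D.P e with y z w ≤ t, f z w := sum_comm
    _ ≤ ∑ e ∈ First D.Es (D.S z') D.rk Q, C1 * t * D.g e := by
        refine sum_le_sum fun e he => ?_
        have he' := mem_first.1 he
        exact H.H2 z' hz' e he'.1 (hQ e he'.2.1) t ht
    _ = C1 * t * ∑ e ∈ First D.Es (D.S z') D.rk Q, D.g e := by rw [mul_sum]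
    _ ≤ C1 * t * ((∑ w ∈ D.zone z', F' w) / s) :=
        mul_le_mul_of_nonneg_left (first_mass G z' hz' F' hF' s hs) hC0

/-! ### one class -/

lemma int_between (u v V : ℝ) (hv : 0 ≤ v) (hu : u ≤ V) :
    max (u - v) 0 = ∫ s in Set.Ioc (0:ℝ) V, (if v < s ∧ s < u then (1:ℝ) else 0) := by
  have h1 : (fun s : ℝ => if v < s ∧ s < u then (1:ℝ) else 0) =
      (Set.Ioo v u).indicator (fun _ => (1:ℝ)) := by
    funext s
    by_cases hs : v < s ∧ s < u
    · simp [hs]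
    · rw [if_neg hs, Set.indicator_of_notMem]
      simpa using hs
  rw [h1, setIntegral_indicator measurableSet_Ioo, setIntegral_const, smul_eq_mul, mul_one]
  have h2 : (Set.Ioc (0:ℝ) V ∩ Set.Ioo v u : Set ℝ) = Set.Ioo v u := by
    ext s
    simp only [Set.mem_inter_iff, Set.mem_Ioc, Set.mem_Ioo]
    constructor
    · rintro ⟨_, h⟩; exact h
    · rintro ⟨a, b⟩; exact ⟨⟨by linarith, by linarith⟩, a, b⟩
  rw [h2]
  simp only [Measure.real, Real.volume_Ioo]
  rcases le_total (u - v) 0 with h | h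
  · rw [max_eq_right h, ENNReal.ofReal_of_nonpos h]; simp
  · rw [max_eq_left h, ENNReal.toReal_ofReal h]

lemma integrable_between (u v V : ℝ) :
    IntegrableOn (fun s : ℝ => if v < s ∧ s < u then (1:ℝ) else 0) (Set.Ioc 0 V) := by
  have h1 : (fun s : ℝ => if v < s ∧ s < u then (1:ℝ) else 0) =
      (Set.Ioo v u).indicator (fun _ => (1:ℝ)) := by
    funext s
    by_cases hs : v < s ∧ s < u
    · simp [hs]
    · rw [if_neg hs, Set.indicator_of_notMem]
      simpa using hs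
  rw [h1]
  apply Integrable.indicator _ measurableSet_Ioo
  exact integrableOn_const (by simp)

/-- the threshold -/
def vv (Δ Y ρ : ℝ) (n : ℕ) (y : ℝ) : ℝ := Y / Δ * (ρ * y / Y) ^ n

lemma le_of_vv {Δ Y ρ : ℝ} {n : ℕ} {y s : ℝ} (hΔ : 0 < Δ) (hY : 0 < Y) (hρ : 0 < ρ) (hn : 0 < n)
    (hy : 0 ≤ y) (h : vv Δ Y ρ n y < s) : y ≤ Y / ρ * (Δ / Y * s) ^ (1 / n : ℝ) := by
  unfold vv at h
  have h0 : 0 ≤ ρ * y / Y := by positivity
  have h1 : (ρ * y / Y) ^ n ≤ Δ / Y * s := by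
    have : (ρ * y / Y) ^ n = Δ / Y * (Y / Δ * (ρ * y / Y) ^ n) := by
      field_simp
    rw [this]
    exact mul_le_mul_of_nonneg_left h.le (by positivity)
  have h2 : ρ * y / Y ≤ (Δ / Y * s) ^ (1 / n : ℝ) := by
    have h3 := Real.rpow_le_rpow (by positivity) h1 (by positivity : (0:ℝ) ≤ 1 / n)
    rw [← Real.rpow_natCast, ← Real.rpow_mul h0, mul_one_div_cancel (by positivity),
      Real.rpow_one] at h3
    exact h3
  calc y = Y / ρ * (ρ * y / Y) := by field_simp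
    _ ≤ _ := mul_le_mul_of_nonneg_left h2 (by positivity)

/-- one partner zone, one class of sizes of `y'` -/
lemma class_bound {D : VD Ω E Z} {Δ C1 : ℝ} {f f' y y' : Z → Ω → ℝ} (G : D.Geo Δ)
    (H : D.Hyp f f' y y' C1) (z' : Z) (hz' : z' ∈ D.Zs)
    (F' : Ω → ℝ) (hF' : ∀ w, 0 ≤ F' w) (Y ρ : ℝ) (hY : 0 < Y) (hρ : 0 < ρ) (n : ℕ) (hn : 0 < n)
    (hub : ∀ z ∈ D.inn z', ∀ e ∈ D.Es, (D.A z e).Nonempty →
      ∑ w ∈ D.S z' e, F' w ≤ C1 * Y * D.g e) :
    ∑ e ∈ D.Es, ∑ z ∈ D.inn z', ∑ w ∈ D.A z e,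
      f z w * max ((∑ w ∈ D.S z' e, F' w) / D.g e - vv Δ Y ρ n (y z w)) 0 ≤
      C1 * (Y / ρ) * (n * (C1 * Δ) ^ (1 / n : ℝ)) * ∑ w ∈ D.zone z', F' w := by
  classical
  have hC : 1 ≤ C1 := H.hC
  have hC0 : 0 < C1 := by linarith
  have hΔ0 : 0 < Δ := lt_of_lt_of_le one_pos G.hΔ
  have hn' : (0:ℝ) < n := by exact_mod_cast hn
  set V : ℝ := C1 * Y with hV
  have hV0 : 0 < V := by positivity
  set u : E → ℝ := fun e => (∑ w ∈ D.S z' e, F' w) / D.g e with hu
  set M' : ℝ := ∑ w ∈ D.zone z', F' w with hM'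
  have hM0 : 0 ≤ M' := sum_nonneg fun w _ => hF' w
  set K : ℝ := C1 * M' * (Y / ρ) * (Δ / Y) ^ (1 / n : ℝ) with hK
  have hK0 : 0 ≤ K := by positivity
  have hvv0 : ∀ z w, 0 ≤ vv Δ Y ρ n (y z w) := by
    intro z w
    have := H.hy z w
    unfold vv
    positivity
  have e1 : ∑ e ∈ D.Es, ∑ z ∈ D.inn z', ∑ w ∈ D.A z e,
      f z w * max (u e - vv Δ Y ρ n (y z w)) 0 =
      ∑ e ∈ D.Es, ∑ z ∈ D.inn z', ∑ w ∈ D.A z e, ∫ s in Set.Ioc (0:ℝ) V,
        f z w * (if vv Δ Y ρ n (y z w) < s ∧ s < u e then (1:ℝ) else 0) := by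
    refine sum_congr rfl fun e he => sum_congr rfl fun z hz => sum_congr rfl fun w hw => ?_
    rw [integral_const_mul, int_between _ _ V (hvv0 z w)]
    rw [hu, div_le_iff₀ (G.hg e he)]
    exact hub z hz e he ⟨w, hw⟩
  have hint : ∀ (e : E) (z : Z) (w : Ω), Integrable (fun s : ℝ => f z w *
      (if vv Δ Y ρ n (y z w) < s ∧ s < u e then (1:ℝ) else 0))
      (volume.restrict (Set.Ioc 0 V)) := fun e z w => (integrable_between _ _ V).const_mul _
  have e2 : ∑ e ∈ D.Es, ∑ z ∈ D.inn z', ∑ w ∈ D.A z e, ∫ s in Set.Ioc (0:ℝ) V,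
        f z w * (if vv Δ Y ρ n (y z w) < s ∧ s < u e then (1:ℝ) else 0) =
      ∫ s in Set.Ioc (0:ℝ) V, ∑ e ∈ D.Es, ∑ z ∈ D.inn z', ∑ w ∈ D.A z e,
        f z w * (if vv Δ Y ρ n (y z w) < s ∧ s < u e then (1:ℝ) else 0) := by
    rw [integral_finsetSum _ fun e _ => integrable_finsetSum _ fun z _ =>
      integrable_finsetSum _ fun w _ => hint e z w]
    refine sum_congr rfl fun e _ => ?_
    rw [integral_finsetSum _ fun z _ => integrable_finsetSum _ fun w _ => hint e z w]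
    refine sum_congr rfl fun z _ => ?_
    rw [integral_finsetSum _ fun w _ => hint e z w]
  have hrp : IntervalIntegrable (fun s : ℝ => s ^ ((1 / n : ℝ) - 1)) volume 0 V := by
    apply intervalIntegral.intervalIntegrable_rpow'
    have : (0:ℝ) < 1 / n := by positivity
    linarith
  have hrp' : IntegrableOn (fun s : ℝ => K * s ^ ((1 / n : ℝ) - 1)) (Set.Ioc 0 V) := by
    rw [intervalIntegrable_iff_integrableOn_Ioc_of_le hV0.le] at hrp
    exact hrp.const_mul K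
  rw [e1, e2]
  have hle : ∫ s in Set.Ioc (0:ℝ) V, (∑ e ∈ D.Es, ∑ z ∈ D.inn z', ∑ w ∈ D.A z e,
        f z w * (if vv Δ Y ρ n (y z w) < s ∧ s < u e then (1:ℝ) else 0)) ≤
      ∫ s in Set.Ioc (0:ℝ) V, K * s ^ ((1 / n : ℝ) - 1) := by
    refine setIntegral_mono_on ?_ hrp' measurableSet_Ioc ?_
    · exact integrable_finsetSum _ fun e _ => integrable_finsetSum _ fun z _ =>
        integrable_finsetSum _ fun w _ => hint e z w
    · intro s hs
      have hs0 : 0 < s := hs.1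
      set t : ℝ := Y / ρ * (Δ / Y * s) ^ (1 / n : ℝ) with ht
      have ht0 : 0 < t := by positivity
      have h1 := level G H z' hz' F' hF' s t hs0 ht0
      have h2 : ∑ e ∈ D.Es, ∑ z ∈ D.inn z', ∑ w ∈ D.A z e,
          f z w * (if vv Δ Y ρ n (y z w) < s ∧ s < u e then (1:ℝ) else 0) ≤
          ∑ e ∈ D.Es with s < (∑ w ∈ D.S z' e, F' w) / D.g e,
            ∑ z ∈ D.inn z', ∑ w ∈ D.A z e with y z w ≤ t, f z w := by
        rw [sum_filter]
        refine sum_le_sum fun e _ => ?_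
        by_cases hse : s < (∑ w ∈ D.S z' e, F' w) / D.g e
        · rw [if_pos hse]
          refine sum_le_sum fun z _ => ?_
          rw [sum_filter]
          refine sum_le_sum fun w _ => ?_
          by_cases hv : vv Δ Y ρ n (y z w) < s ∧ s < u e
          · have h3 := le_of_vv hΔ0 hY hρ hn (H.hy z w).le hv.1
            rw [if_pos hv, if_pos h3, mul_one]
          · rw [if_neg hv, mul_zero]
            split_ifs
            · exact H.hf z w
            · exact le_rfl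
        · rw [if_neg hse]
          refine le_of_eq (sum_eq_zero fun z _ => sum_eq_zero fun w _ => ?_)
          rw [if_neg fun hh => hse hh.2, mul_zero]
      refine (h2.trans h1).trans (le_of_eq ?_)
      rw [ht, Real.mul_rpow (by positivity) hs0.le, Real.rpow_sub_one hs0.ne']
      rw [hK, hM']
      field_simp
  refine hle.trans (le_of_eq ?_)
  rw [integral_const_mul, ← intervalIntegral.integral_of_le hV0.le, integral_rpow
    (Or.inl (by have : (0:ℝ) < 1 / n := by positivity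
                linarith))]
  have h0 : (0:ℝ) ^ ((1 / n : ℝ) - 1 + 1) = 0 := by
    rw [sub_add_cancel]
    exact Real.zero_rpow (by positivity)
  rw [h0, sub_zero, sub_add_cancel, hK, hV]
  have h4 : (Δ / Y) ^ (1 / n : ℝ) * (C1 * Y) ^ (1 / n : ℝ) = (C1 * Δ) ^ (1 / n : ℝ) := by
    rw [← Real.mul_rpow (by positivity) (by positivity)]
    congr 1
    field_simp
  rw [← h4]
  field_simp

/-! ### assembly -/

lemma geom_int (I : Finset ℤ) (a : ℝ) (ha : 0 < a) :
    ∑ i ∈ I with a < (2:ℝ) ^ i, a / (2:ℝ) ^ i ≤ 2 := by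
  classical
  set i0 : ℤ := Int.clog 2 a with hi0
  have ha2 : a ≤ (2:ℝ) ^ i0 := by
    have := Int.self_le_zpow_clog (R := ℝ) (b := 2) (by norm_num) a
    simpa [hi0] using this
  have h1 : ∀ i ∈ I.filter (fun i => a < (2:ℝ) ^ i), i0 ≤ i := by
    intro i hi
    rw [mem_filter] at hi
    have := (Int.le_zpow_iff_clog_le (R := ℝ) (b := 2) (by norm_num) ha (x := i)).1
      (by simpa using hi.2.le)
    exact this
  have h2 : ∑ i ∈ I with a < (2:ℝ) ^ i, a / (2:ℝ) ^ i ≤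
      ∑ i ∈ I with a < (2:ℝ) ^ i, (1 / 2 : ℝ) ^ (i - i0).toNat := by
    refine sum_le_sum fun i hi => ?_
    have h3 := h1 i hi
    have h4 : (1 / 2 : ℝ) ^ (i - i0).toNat = (2:ℝ) ^ i0 / (2:ℝ) ^ i := by
      have h5 : ((i - i0).toNat : ℤ) = i - i0 := Int.toNat_of_nonneg (by omega)
      rw [one_div, inv_pow, ← zpow_natCast, h5, ← zpow_neg, neg_sub, zpow_sub₀ (by norm_num)]
    rw [h4]
    exact div_le_div_of_nonneg_right ha2 (by positivity)
  refine h2.trans ?_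
  have hinj : Set.InjOn (fun i : ℤ => (i - i0).toNat) (I.filter fun i => a < (2:ℝ) ^ i : Finset ℤ) := by
    intro i hi j hj hij
    have h3 := h1 i (by simpa using hi)
    have h4 := h1 j (by simpa using hj)
    simp only at hij
    omega
  rw [← sum_image (f := fun k : ℕ => (1 / 2 : ℝ) ^ k) hinj]
  exact (summable_geometric_two.sum_le_tsum _ fun k _ => by positivity).trans
    (le_of_eq tsum_geometric_two)

/-- mass of the class `i` -/
def cl (f' y' : Z → Ω → ℝ) (i : ℤ) (z' : Z) (w : Ω) : ℝ :=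
  if Int.clog 2 (y' z' w) = i then f' z' w else 0

/-- the classes that occur -/
def VD.cls (D : VD Ω E Z) (y' : Z → Ω → ℝ) : Finset ℤ :=
  D.Zs.biUnion fun z' => (D.zone z').image fun w => Int.clog 2 (y' z' w)

lemma le_clog {y : ℝ} : y ≤ (2:ℝ) ^ (Int.clog 2 y) := by
  simpa using Int.self_le_zpow_clog (R := ℝ) (b := 2) (by norm_num) y

lemma clog_le {y : ℝ} (hy : 0 < y) : (2:ℝ) ^ (Int.clog 2 y) ≤ 2 * y := by
  have h := Int.zpow_pred_clog_lt_self (R := ℝ) (b := 2) (by norm_num) hy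
  have h2 : (2:ℝ) ^ (Int.clog 2 y) = 2 * (2:ℝ) ^ (Int.clog 2 y - 1) := by
    rw [zpow_sub₀ (by norm_num)]
    ring
  rw [h2]
  have h3 : (2:ℝ) ^ (Int.clog 2 y - 1) < y := by simpa using h
  linarith

/-- **LEMMA V** -/
theorem lemmaV (D : VD Ω E Z) {Δ C1 : ℝ} {f f' y y' : Z → Ω → ℝ} (G : D.Geo Δ)
    (H : D.Hyp f f' y y' C1) (ρ : ℝ) (hρ : 0 < ρ) (n : ℕ) (hn : 2 ≤ n) :
    ∑ z ∈ D.Zs, ∑ e ∈ D.Es, ∑ z' ∈ D.out z,
        (∑ w ∈ D.A z e, ∑ w' ∈ D.S z' e, f z w * f' z' w') / D.g e ≤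
      (C1 + 2) * ρ * (∑ z ∈ D.Zs, ∑ w ∈ D.zone z, f z w * y z w) +
      2 * C1 * (n * (C1 * Δ) ^ (1 / n : ℝ)) / ρ *
        ∑ z' ∈ D.Zs, ∑ w ∈ D.zone z', f' z' w * y' z' w := by
  classical
  have hC : 1 ≤ C1 := H.hC
  have hC0 : 0 < C1 := by linarith
  have hΔ0 : 0 < Δ := lt_of_lt_of_le one_pos G.hΔ
  have hf := H.hf
  have hf' := H.hf'
  have hy := H.hy
  have hy' := H.hy'
  set I := D.cls y' with hI
  set u : ℤ → Z → E → ℝ := fun i z' e => (∑ w ∈ D.S z' e, cl f' y' i z' w) / D.g e with hu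
  set v : ℤ → ℝ → ℝ := fun i a => vv Δ ((2:ℝ) ^ i) ρ n a with hv
  have hcl : ∀ i z' w, 0 ≤ cl f' y' i z' w := by
    intro i z' w
    unfold cl
    split_ifs
    exacts [hf' z' w, le_rfl]
  -- the pointwise bound
  have key : ∀ z ∈ D.Zs, ∀ e ∈ D.Es, ∀ w ∈ D.A z e,
      ∑ z' ∈ D.out z, (∑ w' ∈ D.S z' e, f' z' w') / D.g e ≤
        (C1 + 2) * ρ * y z w + ∑ i ∈ I, ∑ z' ∈ D.out z, max (u i z' e - v i (y z w)) 0 := by
    intro z hz e he w hw
    have hge := G.hg e he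
    have hyw := hy z w
    have hρy : 0 < ρ * y z w := mul_pos hρ hyw
    have hne : (D.A z e).Nonempty := ⟨w, hw⟩
    -- small partners
    have hI1 : ∑ z' ∈ D.out z, (∑ w' ∈ D.S z' e with y' z' w' ≤ ρ * y z w, f' z' w') / D.g e ≤
        C1 * (ρ * y z w) := by
      rw [← sum_div, div_le_iff₀ hge]
      exact H.H1 z hz e he hne _ hρy
    -- large partners
    have hI2 : ∀ z' ∈ D.out z, (∑ w' ∈ D.S z' e with ¬ y' z' w' ≤ ρ * y z w, f' z' w') / D.g e ≤
        ∑ i ∈ I with ρ * y z w < (2:ℝ) ^ i, u i z' e := by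
      intro z' hz'
      have hz'' := (mem_out.1 hz').1
      rw [hu]
      simp only
      rw [← sum_div, sum_comm]
      refine div_le_div_of_nonneg_right ?_ hge.le
      rw [sum_filter]
      refine sum_le_sum fun w' hw' => ?_
      by_cases hlt : y' z' w' ≤ ρ * y z w
      · rw [if_neg (not_not.2 hlt)]
        exact sum_nonneg fun i _ => hcl i z' w'
      · rw [if_pos hlt]
        push Not at hlt
        have hmem : Int.clog 2 (y' z' w') ∈ I.filter fun i => ρ * y z w < (2:ℝ) ^ i := by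
          rw [mem_filter]
          refine ⟨?_, hlt.trans_le le_clog⟩
          rw [hI]
          unfold VD.cls VD.zone
          rw [mem_biUnion]
          exact ⟨z', hz'', mem_image.2 ⟨w', mem_biUnion.2 ⟨e, he, hw'⟩, rfl⟩⟩
        calc f' z' w' = cl f' y' (Int.clog 2 (y' z' w')) z' w' := by
              unfold cl; rw [if_pos rfl]
          _ ≤ _ := single_le_sum (f := fun i => cl f' y' i z' w')
              (fun i _ => hcl i z' w') hmem
    have hI3 : ∀ i, ρ * y z w < (2:ℝ) ^ i → ∑ z' ∈ D.out z, u i z' e ≤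
        ρ * y z w * (ρ * y z w / (2:ℝ) ^ i) +
          ∑ z' ∈ D.out z, max (u i z' e - v i (y z w)) 0 := by
      intro i hi
      have h2i : (0:ℝ) < (2:ℝ) ^ i := by positivity
      have hv0 : 0 ≤ v i (y z w) := by rw [hv]; simp only; unfold vv; positivity
      have h1 : ∑ z' ∈ D.out z, u i z' e =
          ∑ z' ∈ (D.out z).filter (fun z' => (D.S z' e).Nonempty), u i z' e := by
        rw [sum_filter]
        refine sum_congr rfl fun z' _ => ?_
        split_ifs with hS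
        · rfl
        · rw [not_nonempty_iff_eq_empty] at hS
          rw [hu]; simp [hS]
      rw [h1]
      calc ∑ z' ∈ (D.out z).filter (fun z' => (D.S z' e).Nonempty), u i z' e
          ≤ ∑ z' ∈ (D.out z).filter (fun z' => (D.S z' e).Nonempty),
              (v i (y z w) + max (u i z' e - v i (y z w)) 0) := by
            refine sum_le_sum fun z' _ => ?_
            have := le_max_left (u i z' e - v i (y z w)) 0
            linarith
        _ = (((D.out z).filter fun z' => (D.S z' e).Nonempty).card : ℝ) * v i (y z w) +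
              ∑ z' ∈ (D.out z).filter (fun z' => (D.S z' e).Nonempty),
                max (u i z' e - v i (y z w)) 0 := by
            rw [sum_add_distrib, sum_const, nsmul_eq_mul]
        _ ≤ Δ * v i (y z w) + ∑ z' ∈ D.out z, max (u i z' e - v i (y z w)) 0 := by
            refine add_le_add (mul_le_mul_of_nonneg_right (G.deg z hz e he hne) hv0) ?_
            exact sum_le_sum_of_subset_of_nonneg (filter_subset _ _) fun z' _ _ => le_max_right _ _
        _ ≤ _ := by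
            refine add_le_add ?_ le_rfl
            have hr0 : 0 ≤ ρ * y z w / (2:ℝ) ^ i := by positivity
            have hr1 : ρ * y z w / (2:ℝ) ^ i ≤ 1 := (div_le_one h2i).2 hi.le
            have h3 : (ρ * y z w / (2:ℝ) ^ i) ^ n ≤ (ρ * y z w / (2:ℝ) ^ i) ^ 2 :=
              pow_le_pow_of_le_one hr0 hr1 hn
            rw [hv]
            simp only
            unfold vv
            calc Δ * ((2:ℝ) ^ i / Δ * (ρ * y z w / (2:ℝ) ^ i) ^ n)
                = (2:ℝ) ^ i * (ρ * y z w / (2:ℝ) ^ i) ^ n := by field_simp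
              _ ≤ (2:ℝ) ^ i * (ρ * y z w / (2:ℝ) ^ i) ^ 2 :=
                  mul_le_mul_of_nonneg_left h3 h2i.le
              _ = _ := by field_simp
    have hsplit : ∑ z' ∈ D.out z, (∑ w' ∈ D.S z' e, f' z' w') / D.g e =
        ∑ z' ∈ D.out z, (∑ w' ∈ D.S z' e with y' z' w' ≤ ρ * y z w, f' z' w') / D.g e +
        ∑ z' ∈ D.out z, (∑ w' ∈ D.S z' e with ¬ y' z' w' ≤ ρ * y z w, f' z' w') / D.g e := by
      rw [← sum_add_distrib]
      refine sum_congr rfl fun z' _ => ?_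
      rw [← add_div, sum_filter_add_sum_filter_not]
    have hI4 : ∑ z' ∈ D.out z, (∑ w' ∈ D.S z' e with ¬ y' z' w' ≤ ρ * y z w, f' z' w') / D.g e ≤
        2 * (ρ * y z w) + ∑ i ∈ I, ∑ z' ∈ D.out z, max (u i z' e - v i (y z w)) 0 := by
      calc ∑ z' ∈ D.out z, (∑ w' ∈ D.S z' e with ¬ y' z' w' ≤ ρ * y z w, f' z' w') / D.g e
          ≤ ∑ z' ∈ D.out z, ∑ i ∈ I with ρ * y z w < (2:ℝ) ^ i, u i z' e := sum_le_sum hI2
        _ = ∑ i ∈ I with ρ * y z w < (2:ℝ) ^ i, ∑ z' ∈ D.out z, u i z' e := sum_comm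
        _ ≤ ∑ i ∈ I with ρ * y z w < (2:ℝ) ^ i, (ρ * y z w * (ρ * y z w / (2:ℝ) ^ i) +
              ∑ z' ∈ D.out z, max (u i z' e - v i (y z w)) 0) :=
            sum_le_sum fun i hi => hI3 i (mem_filter.1 hi).2
        _ = ρ * y z w * ∑ i ∈ I with ρ * y z w < (2:ℝ) ^ i, ρ * y z w / (2:ℝ) ^ i +
              ∑ i ∈ I with ρ * y z w < (2:ℝ) ^ i,
                ∑ z' ∈ D.out z, max (u i z' e - v i (y z w)) 0 := by
            rw [sum_add_distrib, mul_sum]
        _ ≤ _ := by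
            refine add_le_add ?_ ?_
            · have := mul_le_mul_of_nonneg_left (geom_int I _ hρy) hρy.le
              linarith
            · exact sum_le_sum_of_subset_of_nonneg (filter_subset _ _) fun i _ _ =>
                sum_nonneg fun z' _ => le_max_right _ _
    rw [hsplit]
    linarith
  -- sum up
  have hcost : ∑ z ∈ D.Zs, ∑ e ∈ D.Es, ∑ z' ∈ D.out z,
        (∑ w ∈ D.A z e, ∑ w' ∈ D.S z' e, f z w * f' z' w') / D.g e =
      ∑ z ∈ D.Zs, ∑ e ∈ D.Es, ∑ w ∈ D.A z e, f z w *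
        ∑ z' ∈ D.out z, (∑ w' ∈ D.S z' e, f' z' w') / D.g e := by
    refine sum_congr rfl fun z _ => sum_congr rfl fun e _ => ?_
    simp only [mul_sum, sum_div]
    rw [sum_comm]
    refine sum_congr rfl fun w _ => sum_congr rfl fun z' _ => sum_congr rfl fun w' _ => ?_
    ring
  rw [hcost]
  have hstep : ∑ z ∈ D.Zs, ∑ e ∈ D.Es, ∑ w ∈ D.A z e, f z w *
        ∑ z' ∈ D.out z, (∑ w' ∈ D.S z' e, f' z' w') / D.g e ≤
      ∑ z ∈ D.Zs, ∑ e ∈ D.Es, ∑ w ∈ D.A z e, f z w * ((C1 + 2) * ρ * y z w) +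
      ∑ z ∈ D.Zs, ∑ e ∈ D.Es, ∑ w ∈ D.A z e, f z w *
        ∑ i ∈ I, ∑ z' ∈ D.out z, max (u i z' e - v i (y z w)) 0 := by
    simp only [← sum_add_distrib, ← mul_add]
    exact sum_le_sum fun z hz => sum_le_sum fun e he => sum_le_sum fun w hw =>
      mul_le_mul_of_nonneg_left (key z hz e he w hw) (hf z w)
  refine hstep.trans (add_le_add ?_ ?_)
  · rw [mul_sum]
    refine sum_le_sum fun z hz => ?_
    have hpd : Set.PairwiseDisjoint (↑D.Es : Set E) (fun e => D.A z e) := by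
      intro e he e' he' hne
      exact G.Ad z hz e (by simpa using he) e' (by simpa using he') hne
    rw [← sum_biUnion hpd, mul_sum]
    have hsub : D.Es.biUnion (fun e => D.A z e) ⊆ D.zone z := by
      intro w hw
      rw [mem_biUnion] at hw
      obtain ⟨e, he, hw⟩ := hw
      exact mem_biUnion.2 ⟨e, he, G.AS z hz e he hw⟩
    refine (sum_le_sum_of_subset_of_nonneg hsub fun w _ _ => ?_).trans
      (le_of_eq (sum_congr rfl fun w _ => by ring))
    have := hf z w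
    have := hy z w
    positivity
  · have hsw : ∑ z ∈ D.Zs, ∑ e ∈ D.Es, ∑ w ∈ D.A z e, f z w *
        ∑ i ∈ I, ∑ z' ∈ D.out z, max (u i z' e - v i (y z w)) 0 =
        ∑ i ∈ I, ∑ z' ∈ D.Zs, ∑ e ∈ D.Es, ∑ z ∈ D.inn z', ∑ w ∈ D.A z e,
          f z w * max (u i z' e - v i (y z w)) 0 := by
      have e1 : ∀ z ∈ D.Zs, ∑ e ∈ D.Es, ∑ w ∈ D.A z e, f z w *
          ∑ i ∈ I, ∑ z' ∈ D.out z, max (u i z' e - v i (y z w)) 0 =
          ∑ i ∈ I, ∑ z' ∈ D.out z, ∑ e ∈ D.Es, ∑ w ∈ D.A z e,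
            f z w * max (u i z' e - v i (y z w)) 0 := by
        intro z _
        calc ∑ e ∈ D.Es, ∑ w ∈ D.A z e, f z w *
              ∑ i ∈ I, ∑ z' ∈ D.out z, max (u i z' e - v i (y z w)) 0
            = ∑ e ∈ D.Es, ∑ w ∈ D.A z e, ∑ i ∈ I, ∑ z' ∈ D.out z,
                f z w * max (u i z' e - v i (y z w)) 0 := by
              simp only [mul_sum]
          _ = ∑ e ∈ D.Es, ∑ i ∈ I, ∑ w ∈ D.A z e, ∑ z' ∈ D.out z,
                f z w * max (u i z' e - v i (y z w)) 0 := by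
              refine sum_congr rfl fun e _ => ?_
              rw [sum_comm]
          _ = ∑ i ∈ I, ∑ e ∈ D.Es, ∑ w ∈ D.A z e, ∑ z' ∈ D.out z,
                f z w * max (u i z' e - v i (y z w)) 0 := sum_comm
          _ = ∑ i ∈ I, ∑ e ∈ D.Es, ∑ z' ∈ D.out z, ∑ w ∈ D.A z e,
                f z w * max (u i z' e - v i (y z w)) 0 := by
              refine sum_congr rfl fun i _ => sum_congr rfl fun e _ => ?_
              rw [sum_comm]
          _ = _ := by
              refine sum_congr rfl fun i _ => ?_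
              rw [sum_comm]
      rw [sum_congr rfl e1, sum_comm]
      refine sum_congr rfl fun i _ => ?_
      rw [sum_swap D fun z z' => ∑ e ∈ D.Es, ∑ w ∈ D.A z e,
        f z w * max (u i z' e - v i (y z w)) 0]
      refine sum_congr rfl fun z' _ => ?_
      rw [sum_comm]
    rw [hsw]
    have hcb : ∀ i ∈ I, ∀ z' ∈ D.Zs, ∑ e ∈ D.Es, ∑ z ∈ D.inn z', ∑ w ∈ D.A z e,
          f z w * max (u i z' e - v i (y z w)) 0 ≤
        C1 * ((2:ℝ) ^ i / ρ) * (n * (C1 * Δ) ^ (1 / n : ℝ)) *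
          ∑ w ∈ D.zone z', cl f' y' i z' w := by
      intro i _ z' hz'
      refine class_bound G H z' hz' (cl f' y' i z') (hcl i z') ((2:ℝ) ^ i) ρ (by positivity) hρ n
        (by omega) ?_
      intro z hz e he hne
      have hzz := mem_inn.1 hz
      have h1 := H.H1 z hzz.1 e he hne ((2:ℝ) ^ i) (by positivity)
      refine le_trans ?_ h1
      have h2 : ∑ w ∈ D.S z' e, cl f' y' i z' w ≤
          ∑ w ∈ D.S z' e with y' z' w ≤ (2:ℝ) ^ i, f' z' w := by
        rw [sum_filter]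
        refine sum_le_sum fun w _ => ?_
        unfold cl
        by_cases hc : Int.clog 2 (y' z' w) = i
        · rw [if_pos hc, if_pos (by rw [← hc]; exact le_clog)]
        · rw [if_neg hc]
          split_ifs
          exacts [hf' z' w, le_rfl]
      exact h2.trans (single_le_sum
        (f := fun z' => ∑ w ∈ D.S z' e with y' z' w ≤ (2:ℝ) ^ i, f' z' w)
        (fun z' _ => sum_nonneg fun w _ => hf' z' w) (mem_out.2 ⟨hz', hzz.2⟩))
    refine (sum_le_sum fun i hi => sum_le_sum fun z' hz' => hcb i hi z' hz').trans ?_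
    set K : ℝ := n * (C1 * Δ) ^ (1 / n : ℝ) with hK
    have hK0 : 0 ≤ K := by positivity
    rw [sum_comm, mul_sum]
    refine sum_le_sum fun z' hz' => ?_
    have e3 : ∑ i ∈ I, C1 * ((2:ℝ) ^ i / ρ) * K * ∑ w ∈ D.zone z', cl f' y' i z' w =
        C1 * K / ρ * ∑ w ∈ D.zone z', ∑ i ∈ I, (2:ℝ) ^ i * cl f' y' i z' w := by
      rw [sum_comm (s := D.zone z'), mul_sum]
      refine sum_congr rfl fun i _ => ?_
      rw [← mul_sum]
      ring
    rw [e3]
    have e4 : ∀ w ∈ D.zone z', ∑ i ∈ I, (2:ℝ) ^ i * cl f' y' i z' w ≤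
        2 * (f' z' w * y' z' w) := by
      intro w _
      have h1 : ∑ i ∈ I, (2:ℝ) ^ i * cl f' y' i z' w =
          ∑ i ∈ I, if Int.clog 2 (y' z' w) = i then (2:ℝ) ^ i * f' z' w else 0 := by
        refine sum_congr rfl fun i _ => ?_
        unfold cl
        split_ifs <;> simp
      rw [h1, sum_ite_eq]
      have h2 := clog_le (hy' z' w)
      have h3 := hf' z' w
      have h4 := hy' z' w
      split_ifs
      · nlinarith
      · positivity
    have e5 := mul_le_mul_of_nonneg_left (sum_le_sum e4) (by positivity : 0 ≤ C1 * K / ρ)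
    refine e5.trans (le_of_eq ?_)
    rw [← mul_sum]
    ring

/-- LEMMA V with `log Δ` -/
theorem lemmaV_log (D : VD Ω E Z) {Δ C1 : ℝ} {f f' y y' : Z → Ω → ℝ} (G : D.Geo Δ)
    (H : D.Hyp f f' y y' C1) (ρ : ℝ) (hρ : 0 < ρ) :
    ∑ z ∈ D.Zs, ∑ e ∈ D.Es, ∑ z' ∈ D.out z,
        (∑ w ∈ D.A z e, ∑ w' ∈ D.S z' e, f z w * f' z' w') / D.g e ≤
      (C1 + 2) * ρ * (∑ z ∈ D.Zs, ∑ w ∈ D.zone z, f z w * y z w) +
      2 * C1 * (Real.exp 1 * (Real.log (C1 * Δ) + 3)) / ρ *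
        ∑ z' ∈ D.Zs, ∑ w ∈ D.zone z', f' z' w * y' z' w := by
  classical
  have hC : 1 ≤ C1 := H.hC
  have hΔ := G.hΔ
  have hCD : 1 ≤ C1 * Δ := by nlinarith
  have hlog : 0 ≤ Real.log (C1 * Δ) := Real.log_nonneg hCD
  set n : ℕ := ⌈Real.log (C1 * Δ)⌉₊ + 2 with hn
  have h1 : (n : ℝ) ≤ Real.log (C1 * Δ) + 3 := by
    have := (Nat.ceil_lt_add_one hlog).le
    rw [hn]; push_cast; linarith
  have h2 : Real.log (C1 * Δ) ≤ n := by
    have := Nat.le_ceil (Real.log (C1 * Δ))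
    rw [hn]; push_cast; linarith
  have hn0 : (0:ℝ) < n := by rw [hn]; positivity
  have h3 : (C1 * Δ) ^ (1 / n : ℝ) ≤ Real.exp 1 := by
    rw [Real.rpow_def_of_pos (by linarith)]
    apply Real.exp_le_exp.2
    rw [mul_one_div]
    exact (div_le_one hn0).2 h2
  refine (lemmaV D G H ρ hρ n (by omega)).trans (add_le_add le_rfl ?_)
  refine mul_le_mul_of_nonneg_right ?_ (sum_nonneg fun z _ => sum_nonneg fun w _ =>
    mul_nonneg (H.hf' z w) (H.hy' z w).le)
  refine div_le_div_of_nonneg_right ?_ hρ.le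
  refine mul_le_mul_of_nonneg_left ?_ (by linarith)
  calc (n:ℝ) * (C1 * Δ) ^ (1 / n : ℝ) ≤ n * Real.exp 1 :=
        mul_le_mul_of_nonneg_left h3 hn0.le
    _ ≤ (Real.log (C1 * Δ) + 3) * Real.exp 1 :=
        mul_le_mul_of_nonneg_right h1 (Real.exp_pos 1).le
    _ = _ := mul_comm _ _

end Crest.Agent.R4C.GWrelx318
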