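import Crest.Agent.R4C.HypT_473
import Crest.Agent.R4C.F5d_634
import Crest.Agent.R4C.F5b_20
import Crest.Agent.R4C.GWnode_863
import Crest.Agent.R4C.GWasm_982

/-!
# Row 4, GW section, scalar case: the natural hypothesis (F5) in the world of a core (helper473)

* `births_of_Y` : small `Y` gives two births after the node;
* `f5d_prefix` : mass of the heavy words in a prefix class;
* `dict` : the dictionary of coins outside the heavy words (`nc_safe` of helper20);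
* `hyp_world` : HYP of `GWasm_982` for an abstract world from `Dict` at every node;
* **`hyp_inst`** : `Ev`-form: `HYP (inst F (ParOf cp A m0 γ L M B) G σ K1 c) C1`.
-/

set_option autoImplicit false

open Finset
open Crest.Agent.R4C.Basex935 Crest.Agent.R4C.Cutx50 Crest.Agent.R4C.PrefixMx882
open Crest.Agent.R4C.FLDefx935 Crest.Agent.R4C.Rulex945 Crest.Agent.R4C.PureClsx863
open Crest.Agent.R4C.GWdefx982 Crest.Agent.R4C.GWinstx982 Crest.Agent.R4C.Spinex946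
open Crest.Agent.R4C.NodeMassx634 Crest.Agent.R4C.NodeMassRx634 Crest.Agent.R4C.F5dx634
open Crest.Agent.R4C.DictAx20 (tN cutR)
open Crest.Agent.R4C.FLExx326 (ind)
open Crest.Agent.R4C.NHx656
open Crest.Agent.R4C.GWbirthx33 (cutT)
open Crest.Agent.R4C.HypTx473 (EvT Dict hypT exp_le)

namespace Crest.Agent.R4C.HypF5x473

/-! ### abstract world -/

section world

variable {Z : World}

/-- small `Y` gives two births after the node -/
lemma births_of_Y {i w : ℕ} {z : Node} (hz : Z.bi i w = z.1) (hY : Z.Y z w < 1) :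
    ∃ b1 b2, i < b1 ∧ b1 < b2 ∧ Z.birth b1 w ∧ Z.birth b2 w ∧
      Z.Y z w = 1 - Z.Wp (Z.cut z.1) (Z.cut b2) w := by
  classical
  have hb : Z.hasNb z.1 w ∧ Z.hasNb (Z.nb z.1 w) w := by
    by_contra hcon
    unfold World.Y at hY
    rw [if_neg hcon] at hY
    exact lt_irrefl _ hY
  obtain ⟨hb1, hb2⟩ := hb
  obtain ⟨p1, _, p3⟩ := GWbirthx33.nb_spec hb1
  obtain ⟨q1, _, q3⟩ := GWbirthx33.nb_spec hb2
  have hi1 : i < Z.nb z.1 w := by
    by_contra hcon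
    have h1 := GWbirthx33.le_bi (not_lt.1 hcon) p3
    omega
  refine ⟨Z.nb z.1 w, Z.nb (Z.nb z.1 w) w, hi1, q1, p3, q3, ?_⟩
  unfold World.Y
  rw [if_pos ⟨hb1, hb2⟩]

lemma S_eq {ν : Node} {w : ℕ} (hZ : Z.Ok) (hw : w ∈ Z.S ν) :
    w ∣ Z.N ∧ Z.nd ν.1 w ∧ low (Z.cut ν.1) w = ν.2.1 := by
  obtain ⟨h1, h2, h3⟩ := (GWnodex863.mem_S hZ).1 hw
  exact ⟨h1, h2, by rw [← h3]; rfl⟩

/-- previous node of the birth node of the zone -/
lemma pz_spec (hZ : Z.Ok) {z ν : Node} (hν : ν ∈ Z.Nd z) :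
    Z.pz z = 0 ∨ (∀ w ∈ Z.S ν, Z.hasPrev z.1 w ∧ Z.prev z.1 w = Z.pz z ∧
      Z.pz z < z.1 ∧ Z.i0 ≤ Z.pz z) := by
  classical
  obtain ⟨w1, hw1, _⟩ := (GWnodex863.mem_Nd_S hZ).1 hν
  obtain ⟨_, hw1z, _, _, _⟩ := GWnodex863.Nd_all hZ hν hw1
  have hne : (Z.S z).Nonempty := ⟨w1, hw1z⟩
  have hc := hne.choose_spec
  have hpz : Z.pz z = Z.prev z.1 hne.choose := by
    unfold World.pz
    rw [dif_pos hne]
  by_cases hp : Z.hasPrev z.1 hne.choose
  · right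
    intro w hw
    obtain ⟨_, hwz, _, _, _⟩ := GWnodex863.Nd_all hZ hν hw
    have h1 : Z.hasPrev z.1 w := (GWnodex863.S_hasPrev hZ hc hwz le_rfl).1 hp
    have h2 : Z.prev z.1 w = Z.pz z := by
      rw [hpz]
      exact (GWnodex863.S_prev hZ hc hwz le_rfl).symm
    obtain ⟨a1, a2, _⟩ := GWbirthx33.prev_spec h1
    rw [h2] at a1 a2
    exact ⟨h1, h2, a1, a2.1⟩
  · left
    rw [hpz]
    unfold World.prev
    rw [Nat.findGreatest_eq_zero_iff]
    intro k _ _ hk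
    exact hp ⟨k, hk⟩

lemma K0_le {cp K0 : ℝ} (hcp : 0 < cp) {p : ℕ} (h1 : (2 : ℝ) ^ (cp * p) / 16 ≤ K0) :
    K0 ^ (-(1 / 4 : ℝ)) ≤ 2 / min (cp * Real.log 2 / 4) 1 * (1 / ((p : ℝ) + 1)) := by
  have hl2 : 0 < Real.log 2 := Real.log_pos (by norm_num)
  have ha0 : 0 < cp * Real.log 2 / 4 := by positivity
  have h2 : K0 ^ (-(1 / 4 : ℝ)) ≤ ((2 : ℝ) ^ (cp * p) / 16) ^ (-(1 / 4 : ℝ)) :=
    Real.rpow_le_rpow_of_nonpos (by positivity) h1 (by norm_num)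
  have h3 : ((2 : ℝ) ^ (cp * p) / 16) ^ (-(1 / 4 : ℝ)) =
      2 * Real.exp (-(cp * Real.log 2 / 4 * p)) := by
    rw [Real.div_rpow (by positivity) (by norm_num), ← Real.rpow_mul (by norm_num)]
    have h4 : (16 : ℝ) ^ (-(1 / 4 : ℝ)) = 1 / 2 := by
      rw [show (16 : ℝ) = 2 ^ (4 : ℝ) by norm_num, ← Real.rpow_mul (by norm_num)]
      norm_num
    rw [h4, Real.rpow_def_of_pos (by norm_num)]
    have h5 : Real.log 2 * (cp * p * -(1 / 4 : ℝ)) = -(cp * Real.log 2 / 4 * p) := by ring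
    rw [h5]
    ring
  rw [h3] at h2
  have h4 := exp_le ha0 p
  calc K0 ^ (-(1 / 4 : ℝ)) ≤ 2 * Real.exp (-(cp * Real.log 2 / 4 * p)) := h2
    _ ≤ 2 * (1 / min (cp * Real.log 2 / 4) 1 * (1 / ((p : ℝ) + 1))) :=
        mul_le_mul_of_nonneg_left h4 (by norm_num)
    _ = _ := by ring

lemma two_pow_le' {i : ℕ} {u : ℝ} (hiu : 1 / ((i : ℝ) + 1) ≤ u) :
    (2 : ℝ) ^ (-((i : ℝ) / 2)) ≤ 3 * u := by
  have hl2 : 0 < Real.log 2 := Real.log_pos (by norm_num)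
  have h0 : 0 < Real.log 2 / 2 := by positivity
  have h1 : (2 : ℝ) ^ (-((i : ℝ) / 2)) = Real.exp (-(Real.log 2 / 2 * i)) := by
    rw [Real.rpow_def_of_pos (by norm_num)]
    congr 1
    ring
  rw [h1]
  refine (exp_le h0 i).trans ?_
  have h2 : (0.6931471803 : ℝ) < Real.log 2 := Real.log_two_gt_d9
  have h3 : Real.log 2 < 0.6931471808 := Real.log_two_lt_d9
  have h4 : min (Real.log 2 / 2) 1 = Real.log 2 / 2 := min_eq_left (by linarith)
  rw [h4]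
  have h5 : 1 / (Real.log 2 / 2) ≤ 3 := by
    rw [div_le_iff₀ h0]; linarith
  calc 1 / (Real.log 2 / 2) * (1 / ((i : ℝ) + 1)) ≤ 3 * (1 / ((i : ℝ) + 1)) :=
        mul_le_mul_of_nonneg_right h5 (by positivity)
    _ ≤ 3 * u := mul_le_mul_of_nonneg_left hiu (by norm_num)

lemma num {C Cs Cx m s u x k t v C1 : ℝ} {i : ℕ} (hC : 0 ≤ C) (hCs : 0 ≤ Cs) (hCx : 0 ≤ Cx)
    (hm : 0 < m) (hs : 0 ≤ s) (hu : 0 ≤ u) (hx0 : 0 ≤ x) (hx : x ≤ 2) (hk0 : 0 ≤ k)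
    (hk : k ≤ 2 / m * u) (ht : t ≤ 3 * u) (ht0 : 0 ≤ t) (hv : v ≤ u)
    (hC1 : C1 = C * (1 + Cs + 2 * (2 / m + 3) + 1) + Cx + 1) (hv2 : v = 1 / ((i : ℝ) + 1)) :
    C * (s + Cs / ((i : ℝ) + 1) + x * (k + t) + v) + Cx / ((i : ℝ) + 1) ≤ C1 * (s + u) := by
  have e3 : x * (k + t) ≤ 2 * (2 / m + 3) * u := by
    calc x * (k + t) ≤ 2 * (2 / m * u + 3 * u) :=
          mul_le_mul hx (add_le_add hk ht) (by positivity) (by norm_num)
      _ = 2 * (2 / m + 3) * u := by ring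
  have e4 : Cs / ((i : ℝ) + 1) ≤ Cs * u := by
    rw [div_eq_mul_one_div, ← hv2]
    exact mul_le_mul_of_nonneg_left hv hCs
  have e5 : Cx / ((i : ℝ) + 1) ≤ Cx * u := by
    rw [div_eq_mul_one_div, ← hv2]
    exact mul_le_mul_of_nonneg_left hv hCx
  have h3 : C * (s + Cs / ((i : ℝ) + 1) + x * (k + t) + v) ≤
      C * (s + Cs * u + 2 * (2 / m + 3) * u + u) := mul_le_mul_of_nonneg_left (by linarith) hC
  have h4 : 0 ≤ C * (Cs + 2 * (2 / m + 3) + 1) := by positivity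
  have h5 : 0 ≤ C * u := by positivity
  have e6 : C1 * (s + u) = C * s + C * (Cs + 2 * (2 / m + 3) + 1) * s + Cx * s + s + C * u +
      C * (Cs * u + 2 * (2 / m + 3) * u + u) + Cx * u + u := by
    rw [hC1]; ring
  have h6 : 0 ≤ C * (Cs + 2 * (2 / m + 3) + 1) * s := mul_nonneg h4 hs
  have h7 : 0 ≤ Cx * s := mul_nonneg hCx hs
  have e7 : C * (s + Cs * u + 2 * (2 / m + 3) * u + u) =
      C * s + C * (Cs * u + 2 * (2 / m + 3) * u + u) := by ring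
  rw [e6]
  linarith

open Classical in
/-- **HYP for an abstract world** -/
theorem hyp_world {A : ℕ} (hA : 16 ≤ A) {δ : ℝ} (hδ0 : 0 < δ) (hδ : δ ≤ 1 / 128) {cp Cs Cx : ℝ}
    (hcp : 0 < cp) (hCs : 0 ≤ Cs) (hCx : 0 ≤ Cx) :
    ∃ C1 : ℝ, 1 ≤ C1 ∧ ∀ Z : World, Z.Ok → (∀ i, Z.cut i = 2 ^ (A * i)) →
      (∀ j, Z.i0 ≤ j → ∀ r : ℕ, r ≤ 2 ^ (j + 1) → 3 * (r : ℝ) ^ δ ≤ Z.θ j) →
      (∀ j, Z.i0 ≤ j → (2 : ℝ) ^ (cp * j) / 16 ≤ Z.θ j) →
      (∀ i w0, w0 ∣ Z.N → Z.nd i w0 → ∃ Exc : ℕ → Prop,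
        ∑ w ∈ Z.N.divisors with (low (Z.cut i) w = low (Z.cut i) w0 ∧ Exc w), nu Z.N w ≤
          Cx / ((i : ℝ) + 1) * nu (low (Z.cut i) Z.N) (low (Z.cut i) w0) ∧
        Dict Z δ (Cs / ((i : ℝ) + 1)) i (low (Z.cut i) w0) Exc) →
      GWasmx982.HYP Z C1 := by
  obtain ⟨C, hC, hmain⟩ := hypT hA hδ0 hδ
  have hl2 : 0 < Real.log 2 := Real.log_pos (by norm_num)
  set a : ℝ := cp * Real.log 2 / 4 with ha
  have ha0 : 0 < a := by positivity
  set m : ℝ := min a 1 with hm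
  have hm0 : 0 < m := lt_min ha0 one_pos
  set C1 : ℝ := C * (1 + Cs + 2 * (2 / m + 3) + 1) + Cx + 1 with hC1
  have hC0 : 0 ≤ C := by linarith
  have hC11 : 1 ≤ C1 := by
    have : 0 ≤ C * (1 + Cs + 2 * (2 / m + 3) + 1) := by positivity
    rw [hC1]; linarith
  have hCC1 : C ≤ C1 := by
    have h1 : C * 1 ≤ C * (1 + Cs + 2 * (2 / m + 3) + 1) := by
      refine mul_le_mul_of_nonneg_left ?_ hC0
      have : 0 ≤ 2 / m := by positivity
      linarith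
    rw [hC1]; linarith
  refine ⟨C1, hC11, ?_⟩
  intro Z hZ hcut hθ hθ2 hnode z hz ν hν s hs0 hs1
  have hg0 : 0 ≤ Z.g ν := nu_nonneg _ _
  have hk0 : 0 ≤ Z.kap z := GWasmx982.kap_nonneg hZ z
  have hmass : ∑ w ∈ (Z.S ν).filter (fun w => Z.Y z w ≤ s), nu Z.N w ≤ Z.g ν :=
    (sum_le_sum_of_subset_of_nonneg (filter_subset _ _) fun b _ _ => nu_nonneg _ _).trans
      (GWnodex863.sum_S_le hZ ν)
  by_cases htriv : 1 ≤ C1 * (s + Z.kap z)
  · calc _ ≤ Z.g ν := hmass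
      _ = 1 * Z.g ν := (one_mul _).symm
      _ ≤ _ := mul_le_mul_of_nonneg_right htriv hg0
  push Not at htriv
  have hs2 : s < 1 := by
    by_contra hcon
    push Not at hcon
    have : 1 ≤ C1 * (s + Z.kap z) := by
      calc (1 : ℝ) ≤ C1 := hC11
        _ = C1 * 1 := (mul_one _).symm
        _ ≤ C1 * (s + Z.kap z) := mul_le_mul_of_nonneg_left (by linarith) (by linarith)
    linarith
  -- a word of the node
  obtain ⟨w1, hw1, _⟩ := (GWnodex863.mem_Nd_S hZ).1 hν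
  obtain ⟨_, _, hzν, _, _⟩ := GWnodex863.Nd_all hZ hν hw1
  rcases pz_spec hZ hν with hpz | hpz
  · exfalso
    have h1 : 1 ≤ Z.kap z := by
      unfold World.kap
      rw [hpz]
      have := hZ.hK1
      simpa using this
    have : 1 ≤ C1 * (s + Z.kap z) := by
      calc (1 : ℝ) ≤ C1 := hC11
        _ = C1 * 1 := (mul_one _).symm
        _ ≤ C1 * (s + Z.kap z) := mul_le_mul_of_nonneg_left (by linarith) (by linarith)
    linarith
  obtain ⟨_, _, hpzz, hpzi⟩ := hpz w1 hw1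
  obtain ⟨hw1N, hw1nd, hw1n⟩ := S_eq hZ hw1
  obtain ⟨AA, hAA, htar⟩ := HypWx473.two_targets hZ ν
  obtain ⟨Exc, hexc, hdict⟩ := hnode ν.1 w1 hw1N hw1nd
  rw [hw1n] at hexc hdict
  set K0 := Z.θ (Z.pz z) with hK0
  have hK01 : 1 ≤ K0 := (hZ.hθ _ hpzi).le
  set i := ν.1 with hi
  set p := Z.pz z with hp
  have hpi : p + 1 ≤ i := by omega
  have hi0' : (0 : ℝ) ≤ i := Nat.cast_nonneg i
  have hp0' : (0 : ℝ) ≤ p := Nat.cast_nonneg p
  have hfin := hmain Z hZ hcut hθ i ν.2.1 AA K0 s (Cs / ((i : ℝ) + 1)) (Cx / ((i : ℝ) + 1)) Exc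
    hK01 hs0 (by positivity) (by positivity) (by convert hexc) hdict
  have hsub : ∑ w ∈ (Z.S ν).filter (fun w => Z.Y z w ≤ s), nu Z.N w ≤
      ∑ w ∈ Z.N.divisors with (low (Z.cut i) w = ν.2.1 ∧ EvT Z i AA K0 s w), nu Z.N w := by
    refine sum_le_sum_of_subset_of_nonneg ?_ fun b _ _ => nu_nonneg _ _
    intro w hw
    rw [mem_filter] at hw
    obtain ⟨hwS, hwY⟩ := hw
    obtain ⟨g1, g2, g3⟩ := S_eq hZ hwS
    obtain ⟨_, _, _, hbz, hbi⟩ := GWnodex863.Nd_all hZ hν hwS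
    rw [mem_filter, Nat.mem_divisors]
    refine ⟨⟨g1, hZ.hN.ne'⟩, g3, g2, htar w hwS, ?_, ?_⟩
    · obtain ⟨q1, q2, _, _⟩ := hpz w hwS
      have := GWbirthx33.not_on_later hZ g1 hbz q1 hzν
      rwa [q2] at this
    · obtain ⟨b1, b2, c1, c2, c3, c4, c5⟩ := births_of_Y hbi (lt_of_le_of_lt hwY hs2)
      refine ⟨b1, b2, c1, c2, c3.1, c4, ?_⟩
      have := GWbirthx33.Wp_le (Z := Z) (w := w) (hZ.hcut hzν) (le_refl (Z.cut b2))
      rw [c5] at hwY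
      linarith
  refine hsub.trans ((le_of_eq (sum_congr ?_ fun _ _ => rfl)).trans
    (hfin.trans (mul_le_mul_of_nonneg_right ?_ hg0)))
  · ext w
    simp only [mem_filter]
  -- the numbers
  have hAA' : (AA.card : ℝ) ≤ 2 := by exact_mod_cast hAA
  have hpi' : (p : ℝ) + 1 ≤ i := by exact_mod_cast hpi
  have hiu : 1 / ((i : ℝ) + 1) ≤ 1 / ((p : ℝ) + 1) :=
    one_div_le_one_div_of_le (by positivity) (by linarith)
  have hk : 1 / ((p : ℝ) + 1) ≤ Z.kap z := by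
    unfold World.kap
    rw [← hp]
    exact div_le_div_of_nonneg_right hZ.hK1 (by positivity)
  have e1 := K0_le hcp (hθ2 p hpzi)
  have e2 := two_pow_le' hiu
  rw [← ha, ← hm] at e1
  refine le_trans (num hC0 hCs hCx hm0 hs0 (by positivity) (Nat.cast_nonneg _) hAA'
    (Real.rpow_nonneg (by linarith) _) e1 e2 (by positivity) hiu hC1 rfl) ?_
  exact mul_le_mul_of_nonneg_left (by linarith) (by linarith)

end world

/-! ### heavy words in a prefix class -/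

open Classical in
/-- **(F5d), prefix form** -/
theorem f5d_prefix {A : ℕ} (hA : 1 ≤ A) : ∃ C : ℝ, 0 ≤ C ∧
    ∀ (η L : ℝ) (m0 M : ℕ) (B : Finset ℕ) (F : FL M) (x0 : ℕ),
      Setup η L M B F →
      (∀ q : ℕ, q.Prime → x0 < q → 1 / (q : ℝ) ≤ sA η * (q : ℝ) ^ (-(sE η))) →
      x0 ≤ 2 ^ (A * m0) → ∀ G ∈ cores F, ∀ i w0 : ℕ, w0 ∣ PM F G → m0 ≤ i →
      D F G ≤ 2 ^ (A * i) →
      ∑ w ∈ (PM F G).divisors with (low (2 ^ (A * i)) w = low (2 ^ (A * i)) w0 ∧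
          Hvy F B L A i (G * w)), nu (PM F G) w ≤
        C * (2 : ℝ) ^ (-(2 * (i : ℝ))) * nu (low (2 ^ (A * i)) (PM F G)) (low (2 ^ (A * i)) w0) := by
  have hA0 : (0 : ℝ) < A := by exact_mod_cast hA
  obtain ⟨C, hC, h⟩ := exc_class (a := 1 / (A : ℝ)) (U := 5 / (A : ℝ)) (Ch := 2)
    (by rw [div_lt_div_iff₀ hA0 hA0]; linarith) (by norm_num)
  refine ⟨C, hC, fun η L m0 M B F x0 S hq hx0 G hG i w0 hw0 hmi hDx => ?_⟩
  have hx0' : x0 ≤ 2 ^ (A * i) :=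
    hx0.trans (Nat.pow_le_pow_right (by norm_num) (Nat.mul_le_mul_left A hmi))
  have h1 := h M F B (sA η) (sE η) x0 (2 ^ (A * i)) G w0 (A * i + 1) (M + 1) L S.hM S.hB
    S.node hq hG hw0 hDx hx0' (Nat.pow_le_pow_right (by norm_num) (Nat.le_succ _))
    (Nat.succ_le_succ (Nat.zero_le _)) S.hL.le S.mass
  have h2 : ∑ w ∈ (PM F G).divisors with low (2 ^ (A * i)) w = low (2 ^ (A * i)) w0,
      nu (PM F G) w = nu (low (2 ^ (A * i)) (PM F G)) (low (2 ^ (A * i)) w0) :=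
    CellLawx276.cell_mass (PM_pos G) _ (low_dvd _ (PM_pos G).ne' hw0)
  rw [h2] at h1
  have hexp : (2 : ℝ) ^ (-((5 / (A : ℝ) - 1 / (A : ℝ)) * ((A * i + 1 : ℕ) : ℝ) / 2)) ≤
      (2 : ℝ) ^ (-(2 * (i : ℝ))) := by
    refine Real.rpow_le_rpow_of_exponent_le (by norm_num) (neg_le_neg ?_)
    push_cast
    have e : (5 / (A : ℝ) - 1 / (A : ℝ)) * ((A : ℝ) * i + 1) / 2 = 2 * i + 2 / A := by
      field_simp
      ring
    rw [e]
    have : 0 ≤ 2 / (A : ℝ) := by positivity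
    linarith
  refine le_trans ?_ (mul_le_mul_of_nonneg_right (mul_le_mul_of_nonneg_left hexp hC)
    (nu_nonneg _ _))
  refine (le_of_eq (sum_congr ?_ fun _ _ => rfl)).trans h1
  ext w
  simp only [mem_filter]
  rfl

/-! ### the dictionary in the world of a core -/

/-- **dictionary** outside the heavy words -/
theorem dict {M : ℕ} {F : FL M} {cp γ L σ K1 c : ℝ} {A m0 : ℕ} {B : Finset ℕ} (hM : 0 < M)
    (hA : 1 ≤ A) (hL : 0 < L) {G : ℕ} (hG : G ∈ cores F) {i n : ℕ} (hi : 1 ≤ i)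
    (hDx : D F G ≤ 2 ^ (A * i)) :
    Dict (inst F (ParOf cp A m0 γ L M B) G σ K1 c) (1 / (4 * (A : ℝ))) (9 / ((A : ℝ) * i)) i n
      (fun w => Hvy F B L A i (G * w)) := by
  classical
  set P := ParOf cp A m0 γ L M B with hP
  have hPT : F5bx20.ParT M P A B (1 / (4 * (A : ℝ))) (1 / 20) := F5bx20.parT_ParOf hA hL
  intro w hwN hnd _ hnx hsq
  have hw0 : w ≠ 0 := (Nat.pos_of_dvd_of_pos hwN (PM_pos G)).ne'
  have hn : (2 : ℝ) ^ i ≤ tN P (P.cut i) G w := by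
    unfold DictAx20.tN
    rw [le_div_iff₀ (show (0 : ℝ) < P.L from hL)]
    exact hnd.2.1
  have hat : F5bx20.AtW F P A B (1 / (4 * (A : ℝ))) (1 / 20) G w i (M + 1) := by
    refine ⟨hM, hG, hwN, hDx, hsq, hn, _, _, _, fun k => le_rfl, rfl, le_rfl, ?_⟩
    rw [div_eps hA]
    exact hnx
  refine ⟨fun r => (nc (cutT (inst F P G σ K1 c)) (1 / (4 * (A : ℝ))) γ
    ((inst F P G σ K1 c).tt i w) (upp (P.cut i) (PM F G)).primeFactors
    (upp (P.cut i) w).primeFactors r).filter fun q => ¬ P.Y (P.blk q) < r, ?_, ?_⟩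
  · intro r hr
    have hri : P.cut i < r := CellLawx276.prime_upp hr
    have hr2 : 2 ≤ r := (Nat.prime_of_mem_primeFactors hr).two_le
    refine (F5bx20.sum_unsafe hPT hr2 _ fun q hq => ?_).trans (F5bx20.err_le hPT hi hri)
    rw [mem_filter] at hq
    obtain ⟨hq1, hq2⟩ := hq
    unfold nc at hq1
    rw [mem_filter] at hq1
    exact ⟨Nat.prime_of_mem_primeFactors hq1.1, hq1.2.2.1, not_lt.1 hq2⟩
  · intro r hr q hq hqD
    have hri : P.cut i < r := CellLawx276.prime_upp hr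
    have hs : P.Y (P.blk q) < r := by
      by_contra hcon
      exact hqD (mem_filter.2 ⟨hq, hcon⟩)
    have hrM : r ≤ 2 ^ (M + 1) := by
      have h1 : r ∣ w := (Nat.dvd_of_mem_primeFactors hr).trans (upp_dvd_self _ _)
      have h2 : r ∣ G * w := h1.mul_left _
      have h3 : r ≤ M := Nat.le_of_dvd hM (h2.trans (mul_dvd hM hG hwN))
      exact h3.trans ((Nat.lt_succ_self M).le.trans Nat.lt_two_pow_self.le)
    have e2 : (upp (P.cut i) (PM F G)).primeFactors =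
        (PM F G).primeFactors.filter (P.cut i < ·) := F5bx20.primeFactors_upp (PM_pos G).ne'
    have hq' : q ∈ nc (cutR P) (1 / (4 * (A : ℝ))) P.γ (tN P (P.cut i) G w)
        ((PM F G).primeFactors.filter (P.cut i < ·)) (upp (P.cut i) w).primeFactors r := by
      rw [← e2]
      exact hq
    exact F5bx20.nc_safe hPT hat hi hri hrM hq' hs

/-! ### the instance -/

lemma theta_cond {cp : ℝ} (hcp : 0 < cp) (hcp1 : cp ≤ 1) {A : ℕ} (hA : 1 / cp ≤ A) {j : ℕ}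
    (hj : 9 / cp ≤ j) {r : ℕ} (hr : r ≤ 2 ^ (j + 1)) :
    3 * (r : ℝ) ^ (1 / (4 * (A : ℝ))) ≤ (2 : ℝ) ^ (cp * j) / 16 := by
  have hA0 : (0 : ℝ) < A := lt_of_lt_of_le (by positivity) hA
  have h1 : (r : ℝ) ≤ (2 : ℝ) ^ ((j : ℝ) + 1) := by
    have : (r : ℝ) ≤ ((2 ^ (j + 1) : ℕ) : ℝ) := by exact_mod_cast hr
    refine this.trans (le_of_eq ?_)
    push_cast
    rw [← Real.rpow_natCast]
    push_cast
    rfl
  have h2 : (r : ℝ) ^ (1 / (4 * (A : ℝ))) ≤ (2 : ℝ) ^ (cp * ((j : ℝ) + 1) / 4) := by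
    calc (r : ℝ) ^ (1 / (4 * (A : ℝ))) ≤ ((2 : ℝ) ^ ((j : ℝ) + 1)) ^ (1 / (4 * (A : ℝ))) :=
          Real.rpow_le_rpow (Nat.cast_nonneg _) h1 (by positivity)
      _ = (2 : ℝ) ^ (((j : ℝ) + 1) * (1 / (4 * (A : ℝ)))) := by
          rw [← Real.rpow_mul (by norm_num)]
      _ ≤ _ := by
          refine Real.rpow_le_rpow_of_exponent_le (by norm_num) ?_
          have h3 : 1 / (4 * (A : ℝ)) ≤ cp / 4 := by
            rw [div_le_iff₀ hcp] at hA
            rw [div_le_iff₀ (by positivity)]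
            linarith
          have h4 : (0 : ℝ) ≤ (j : ℝ) + 1 := by positivity
          calc ((j : ℝ) + 1) * (1 / (4 * (A : ℝ))) ≤ ((j : ℝ) + 1) * (cp / 4) :=
                mul_le_mul_of_nonneg_left h3 h4
            _ = _ := by ring
  rw [le_div_iff₀ (by norm_num)]
  calc 3 * (r : ℝ) ^ (1 / (4 * (A : ℝ))) * 16
      ≤ 64 * (2 : ℝ) ^ (cp * ((j : ℝ) + 1) / 4) := by
        have : 0 ≤ (r : ℝ) ^ (1 / (4 * (A : ℝ))) := by positivity
        nlinarith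
    _ = (2 : ℝ) ^ ((6 : ℝ) + cp * ((j : ℝ) + 1) / 4) := by
        rw [Real.rpow_add (by norm_num)]
        norm_num
    _ ≤ (2 : ℝ) ^ (cp * j) := by
        refine Real.rpow_le_rpow_of_exponent_le (by norm_num) ?_
        rw [div_le_iff₀ hcp] at hj
        linarith

/-- **(F5) in the world of a core** -/
theorem hyp_inst : Ev fun cp η A m0 => ∃ C1 : ℝ, 1 ≤ C1 ∧
    ∀ (γ L : ℝ) (M : ℕ) (B : Finset ℕ) (F : FL M), Setup η L M B F → ∀ G ∈ cores F,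
      ∀ σ K1 c : ℝ, 0 ≤ σ → 1 ≤ K1 → 0 < c →
        GWasmx982.HYP (inst F (ParOf cp A m0 γ L M B) G σ K1 c) C1 := by
  refine ((((Ev.basic.and ev_x0).and (Ev.le_A fun cp _ => max 32 (1 / cp))).and
    (Ev.le_m0 fun cp _ _ => max 3 (9 / cp)))).mono ?_
  rintro cp η A m0 ⟨⟨⟨⟨hcp, hcp2, _, _, _, hA1, _⟩, x0, hq, hx0⟩, hA⟩, hm⟩
  have hA32 : 32 ≤ A := by
    have : (32 : ℝ) ≤ A := (le_max_left _ _).trans hA
    exact_mod_cast this
  have hAcp : 1 / cp ≤ A := (le_max_right _ _).trans hA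
  have hm3 : 3 ≤ m0 := by
    have : (3 : ℝ) ≤ m0 := (le_max_left _ _).trans hm
    exact_mod_cast this
  have hmcp : 9 / cp ≤ m0 := (le_max_right _ _).trans hm
  have hA0 : (0 : ℝ) < A := by exact_mod_cast hA1
  obtain ⟨Cx, hCx, hexc⟩ := f5d_prefix hA1
  have hA32' : (32 : ℝ) ≤ A := by exact_mod_cast hA32
  obtain ⟨C1, hC1, hw⟩ := hyp_world (A := A) (by omega) (δ := 1 / (4 * (A : ℝ))) (by positivity)
    (by rw [div_le_div_iff₀ (by positivity) (by norm_num)]; linarith) hcp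
    (show (0 : ℝ) ≤ 18 by norm_num) hCx
  refine ⟨C1, hC1, fun γ L M B F S G hG σ K1 c hσ hK1 hc => ?_⟩
  set P := ParOf cp A m0 γ L M B with hP
  have hcut : Monotone P.cut := fun a b h =>
    Nat.pow_le_pow_right (by norm_num) (Nat.mul_le_mul_left A h)
  have hcut2 : ∀ i, 2 ^ i ≤ P.cut i := fun i => by
    show 2 ^ i ≤ 2 ^ (A * i)
    exact Nat.pow_le_pow_right (by norm_num) (Nat.le_mul_of_pos_left _ hA1)
  have hun : ∀ n, ∃ i, n ≤ P.cut i := fun n => ⟨n, Nat.lt_two_pow_self.le.trans (hcut2 n)⟩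
  have hth : ∀ j : ℕ, m0 ≤ j → ∀ r : ℕ, r ≤ 2 ^ (j + 1) →
      3 * (r : ℝ) ^ (1 / (4 * (A : ℝ))) ≤ P.E j / 16 := by
    intro j hj r hr
    refine theta_cond hcp (by linarith) hAcp ?_ hr
    have : (m0 : ℝ) ≤ j := by exact_mod_cast hj
    linarith
  have hE : ∀ i, P.m0 ≤ i → 16 < P.E i := by
    intro i hi
    have h1 := hth i hi 1 Nat.one_le_two_pow
    rw [Nat.cast_one, Real.one_rpow, mul_one, le_div_iff₀ (by norm_num)] at h1
    linarith
  have hZ : (inst F P G σ K1 c).Ok := inst_ok S.hM hG S.hL hcut hcut2 hm3 (Nat.le_ceil _) hσ hE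
    hK1 hc
  refine hw _ hZ (fun i => rfl) ?_ ?_ ?_
  · intro j hj r hr
    exact hth j ((le_max_left _ _).trans hj) r hr
  · intro j _
    exact le_rfl
  · intro i w0 hw0 hnd
    have him : m0 ≤ i := (le_max_left _ _).trans hnd.1
    have hi1 : 1 ≤ i := by omega
    have hDx : D F G ≤ 2 ^ (A * i) := D_le_cut hcut hun ((le_max_right _ _).trans hnd.1)
    have hi0 : (0 : ℝ) < i := by exact_mod_cast hi1
    refine ⟨fun w => Hvy F B L A i (G * w), ?_, ?_⟩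
    · refine (hexc η L m0 M B F x0 S hq hx0 G hG i w0 hw0 him hDx).trans ?_
      refine mul_le_mul_of_nonneg_right ?_ (nu_nonneg _ _)
      rw [div_eq_mul_one_div]
      refine mul_le_mul_of_nonneg_left ?_ hCx
      rw [Real.rpow_neg (by norm_num), ← one_div]
      refine one_div_le_one_div_of_le (by positivity) ?_
      have h1 : (i : ℝ) + 1 ≤ 2 ^ i := by
        have : i + 1 ≤ 2 ^ i := Nat.lt_two_pow_self
        exact_mod_cast this
      refine h1.trans ?_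
      rw [← Real.rpow_natCast]
      exact Real.rpow_le_rpow_of_exponent_le (by norm_num) (by linarith)
    · have h1 := dict (cp := cp) (γ := γ) (σ := σ) (K1 := K1) (c := c) (m0 := m0) (B := B)
        (n := low ((inst F P G σ K1 c).cut i) w0) S.hM hA1 S.hL hG hi1 hDx
      intro w a1 a2 a3 a4 a5
      obtain ⟨D, hD1, hD2⟩ := h1 w a1 a2 a3 a4 a5
      refine ⟨D, fun r hr => (hD1 r hr).trans ?_, hD2⟩
      rw [div_le_div_iff₀ (by positivity) (by positivity)]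
      have : (1 : ℝ) ≤ i := by exact_mod_cast hi1
      nlinarith

end Crest.Agent.R4C.HypF5x473
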