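import Crest.Agent.R4C.GWscal_982
import Crest.Agent.R4C.HypF5_473

/-!
# Row 4, GW section, scalar case: COMPLETE (helper982)

* `hypEv` : leaf F5 (helper473);
* **`cls_sc_ok`** : `ClsOK γ (DomRedx244.cSc γ)`;
* **`cls_domP1_ok`** : `ClsOK γ (nH γ (clsDomP1 γ))`.
-/

set_option autoImplicit false

namespace Crest.Agent.R4C.GWfinx982

open Crest.Agent.R4C.Spinex946

/-- leaf F5 (helper473) -/
theorem hypEv (γ : ℝ) : HypEv γ :=
  HypF5x473.hyp_inst.mono fun _ _ _ _ h => by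
    obtain ⟨C1, hC1, h⟩ := h
    exact ⟨C1, hC1, fun L M B F S G0 hG σ hσ _ => h γ L M B F S G0 hG σ 1 1 hσ le_rfl one_pos⟩

/-- **the scalar class** -/
theorem cls_sc_ok (γ : ℝ) : ClsOK γ (DomRedx244.cSc γ) := cls_sc' (hypEv γ)

/-- **the class of the pure pairs with low words `(1,1)`** -/
theorem cls_domP1_ok (γ : ℝ) : ClsOK γ (Coverx946.nH γ (clsDomP1 γ)) := cls_domP1' (hypEv γ)

end Crest.Agent.R4C.GWfinx982
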