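import Crest.Agent.R4C.GWfinZ_982
import Crest.Agent.R4C.GWkillP_22

/-!
# Row 4, GW section, scalar case: leaf F2 plugged (helper982)
-/

set_option autoImplicit false

namespace Crest.Agent.R4C.GWfinx982

open Crest.Agent.R4C.Spinex946

/-- leaf F2 (helper22) -/
theorem killEv (γ : ℝ) : KillEv γ :=
  GWkillPx22.killP_ev.mono fun _ _ _ _ h _ _ _ _ S => h 1 γ _ _ _ _ le_rfl S

/-- the scalar class from the natural hypothesis -/
theorem cls_sc' {γ : ℝ} (h5 : HypEv γ) : ClsOK γ (DomRedx244.cSc γ) := cls_sc h5 (killEv γ)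

/-- the scalar class from the natural hypothesis -/
theorem cls_domP1' {γ : ℝ} (h5 : HypEv γ) : ClsOK γ (Coverx946.nH γ (clsDomP1 γ)) :=
  cls_domP1 h5 (killEv γ)

end Crest.Agent.R4C.GWfinx982
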