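import Crest.Agent.R4C.GWmz_9

/-!
# Row 4, GW section: the set form with square roots (input (0) of helper50's 3703, `θ = 1/2`)

`zone_sqrt` : one zone, `A n ⊆ S n ∩ B1`:  `∑_n f(A n) f(S n ∩ B2) / g n ≤ 16 C1 √(μ(B1) μ(B2))`,
`μ(B') = ∑_{w ∈ zone ∩ B'} f w (Y w + κ)`.
`zones_sqrt`: all zones with the weights `min (W b) (W c)`.
-/

set_option autoImplicit false
set_option linter.unusedSectionVars false

open Finset

noncomputable section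

namespace Crest.Agent.R4C.GWsqx9

open Crest.Agent.R4C.GWzonex9 Crest.Agent.R4C.GWmzx9

variable {Ω N Z : Type*} [DecidableEq Ω] [DecidableEq N]

lemma opt (X E1 E2 K : ℝ) (h1 : 0 ≤ E1) (h2 : 0 ≤ E2) (hK : 0 ≤ K)
    (h : ∀ lam : ℝ, 0 < lam → X ≤ K * (E1 / lam + lam * E2)) :
    X ≤ 2 * K * Real.sqrt (E1 * E2) := by
  rcases h1.eq_or_lt with h1' | h1'
  · rw [← h1'] at h ⊢
    rw [zero_mul, Real.sqrt_zero, mul_zero]
    refine le_of_forall_pos_le_add fun ε hε => ?_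
    have := h (ε / (K * E2 + 1)) (by positivity)
    rw [zero_div, zero_add] at this
    refine this.trans ?_
    have h3 : K * (ε / (K * E2 + 1) * E2) = ε * ((K * E2) / (K * E2 + 1)) := by
      field_simp
    rw [h3, zero_add]
    have h4 : (K * E2) / (K * E2 + 1) ≤ 1 := by
      rw [div_le_one (by positivity)]; linarith
    nlinarith
  · rcases h2.eq_or_lt with h2' | h2'
    · rw [← h2'] at h ⊢
      rw [mul_zero, Real.sqrt_zero, mul_zero]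
      refine le_of_forall_pos_le_add fun ε hε => ?_
      have := h ((K * E1 + 1) / ε) (by positivity)
      rw [mul_zero, add_zero] at this
      refine this.trans ?_
      have h3 : K * (E1 / ((K * E1 + 1) / ε)) = ε * ((K * E1) / (K * E1 + 1)) := by
        field_simp
      rw [h3, zero_add]
      have h4 : (K * E1) / (K * E1 + 1) ≤ 1 := by
        rw [div_le_one (by positivity)]; linarith
      nlinarith
    · have hs1 : 0 < Real.sqrt E1 := Real.sqrt_pos.2 h1'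
      have hs2 : 0 < Real.sqrt E2 := Real.sqrt_pos.2 h2'
      have e1 : Real.sqrt E1 * Real.sqrt E1 = E1 := Real.mul_self_sqrt h1
      have e2 : Real.sqrt E2 * Real.sqrt E2 = E2 := Real.mul_self_sqrt h2
      have := h (Real.sqrt E1 / Real.sqrt E2) (by positivity)
      refine this.trans (le_of_eq ?_)
      rw [Real.sqrt_mul h1]
      have h3 : E1 / (Real.sqrt E1 / Real.sqrt E2) = Real.sqrt E1 * Real.sqrt E2 := by
        rw [div_div_eq_mul_div, div_eq_iff hs1.ne']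
        nlinarith
      have h4 : Real.sqrt E1 / Real.sqrt E2 * E2 = Real.sqrt E1 * Real.sqrt E2 := by
        rw [div_mul_eq_mul_div, div_eq_iff hs2.ne']
        nlinarith
      rw [h3, h4]
      ring

/-- one zone, sets, square-root form -/
theorem zone_sqrt {Nd : Finset N} {S : N → Finset Ω} {rk : N → ℕ} (hL : Lam Nd S rk)
    (B1 B2 : Finset Ω) (A : N → Finset Ω) (hA : ∀ n ∈ Nd, A n ⊆ S n ∩ B1)
    (hAd : ∀ n ∈ Nd, ∀ n' ∈ Nd, n ≠ n' → Disjoint (A n) (A n'))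
    (f Y : Ω → ℝ) (hf : ∀ w, 0 ≤ f w) (hY : ∀ w, 0 ≤ Y w) (g : N → ℝ) (hg : ∀ n ∈ Nd, 0 < g n)
    (C1 κ : ℝ) (hC : 1 ≤ C1) (hκ : 0 ≤ κ)
    (hm1 : ∀ n ∈ Nd, ∑ w ∈ S n ∩ B1, f w ≤ g n) (hm2 : ∀ n ∈ Nd, ∑ w ∈ S n ∩ B2, f w ≤ g n)
    (hyp1 : ∀ n ∈ Nd, ∀ s, 0 ≤ s → s ≤ 1 →
      ∑ w ∈ S n ∩ B1 with Y w ≤ s, f w ≤ C1 * (s + κ) * g n)
    (hyp2 : ∀ n ∈ Nd, ∀ s, 0 ≤ s → s ≤ 1 →
      ∑ w ∈ S n ∩ B2 with Y w ≤ s, f w ≤ C1 * (s + κ) * g n) :
    ∑ n ∈ Nd, (∑ w ∈ A n, f w) * (∑ w ∈ S n ∩ B2, f w) / g n ≤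
      16 * C1 * Real.sqrt ((∑ w ∈ (Nd.biUnion S) ∩ B1, f w * (Y w + κ)) *
        ∑ w ∈ (Nd.biUnion S) ∩ B2, f w * (Y w + κ)) := by
  have hC0 : 0 < C1 := by linarith
  have h0 : ∀ B : Finset Ω, 0 ≤ ∑ w ∈ (Nd.biUnion S) ∩ B, f w * (Y w + κ) := fun B =>
    sum_nonneg fun w _ => mul_nonneg (hf w) (add_nonneg (hY w) hκ)
  have := opt _ _ _ (8 * C1) (h0 B1) (h0 B2) (by positivity) fun lam hlam =>
    zone_charge hL B1 B2 A hA hAd f Y hf hY g hg C1 κ hC hκ hm1 hm2 hyp1 hyp2 lam hlam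
  linarith

/-- energy of a set of words -/
def mu (D : ZD Ω N Z) (f : Ω → ℝ) (B' : Finset Ω) : ℝ :=
  ∑ z ∈ D.Zs, ∑ w ∈ D.zone z ∩ B', f w * (D.Y z w + D.κ z) * D.W z w

lemma mu_nonneg {D : ZD Ω N Z} {B : Finset Ω} {f : Ω → ℝ} {C1 : ℝ} (h : D.Ok B f C1)
    (B' : Finset Ω) : 0 ≤ mu D f B' :=
  sum_nonneg fun z hz => sum_nonneg fun w _ =>
    mul_nonneg (mul_nonneg (h.hf w) (add_nonneg (h.hY z hz w) (h.hκ z hz))) (h.hW0 z hz w)

/-- all zones, bilinear, square-root form -/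
theorem zones_sqrt (D : ZD Ω N Z) (B B1 B2 : Finset Ω) (f : Ω → ℝ) (C1 : ℝ) (h : D.Ok B f C1)
    (h1 : B1 ⊆ B) (h2 : B2 ⊆ B) :
    ∑ z ∈ D.Zs, ∑ n ∈ D.Nd z, (∑ b ∈ D.A z n ∩ B1, ∑ c ∈ D.S z n ∩ B2,
        f b * f c * min (D.W z b) (D.W z c)) / D.g z n ≤
      16 * C1 * Real.sqrt (mu D f B1 * mu D f B2) := by
  have hC0 : 0 < C1 := by have := h.hC; linarith
  have := opt _ _ _ (8 * C1) (mu_nonneg h B1) (mu_nonneg h B2) (by positivity) fun lam hlam =>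
    zones_W D B B1 B2 f C1 h h1 h2 lam hlam
  linarith

/-- the energy of a set, given a budget per word -/
lemma mu_le (D : ZD Ω N Z) (B' : Finset Ω) (f : Ω → ℝ) (T : ℝ) (hf : ∀ w, 0 ≤ f w)
    (hT : ∀ w ∈ B', ∑ z ∈ D.Zs with w ∈ D.zone z, D.W z w * (D.Y z w + D.κ z) ≤ T) :
    mu D f B' ≤ T * ∑ w ∈ B', f w := by
  classical
  unfold mu
  have e1 : ∀ z ∈ D.Zs, ∑ w ∈ D.zone z ∩ B', f w * (D.Y z w + D.κ z) * D.W z w =
      ∑ w ∈ B', if w ∈ D.zone z then f w * (D.Y z w + D.κ z) * D.W z w else 0 := by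
    intro z _
    rw [← sum_filter]
    congr 1
    ext w
    simp [and_comm]
  rw [sum_congr rfl e1, sum_comm, mul_sum]
  refine sum_le_sum fun w hw => ?_
  rw [← sum_filter]
  have e2 : ∑ z ∈ D.Zs with w ∈ D.zone z, f w * (D.Y z w + D.κ z) * D.W z w =
      f w * ∑ z ∈ D.Zs with w ∈ D.zone z, D.W z w * (D.Y z w + D.κ z) := by
    rw [mul_sum]
    exact sum_congr rfl fun z _ => by ring
  rw [e2, mul_comm T]
  exact mul_le_mul_of_nonneg_left (hT w hw) (hf w)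

end Crest.Agent.R4C.GWsqx9
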