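import Crest.Agent.R4C.GWmin_18

/-!
# Row 4, GW LEMMA, VECTOR CASE (low words related by a matching kernel); helper610, note 3388

A node has high words `β ∈ F` (natural weights `ν`), members `b ∈ S` with `pr b = β ∈ F`, low
weights `a b`, a pair kernel `K b c` on members with

* `K b c ≤ θ (a b + a c) / 2`  (e.g. `θ √(a b · a c)`), `K b c ≤ a b`, `K b c ≤ a c`;
* for fixed `(pr b, pr c)` the allowed pairs form a partial matching.

`node_vec` : if `ν(1 - om ≤ s | F) ≤ C1 (s + kap)` (natural law of the HIGH word, `0 ≤ s ≤ 1`) then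
`∑_{b,c ∈ S} ν(pr b) ν(pr c) K b c min (W b) (W c) / ν F ≤`
`2 √θ (16 C1 ∑_S ν(pr b) a b W b (1 - om (pr b)) + 2 C1 ∑_S ν(pr b) a b kap W b)`.

`gw_vec` : sum over nodes; `gw_vec_levels` : level form, automatic telescoping.
Scalar case: `θ = 1`, `a = 1`, one member per high word.
-/

set_option autoImplicit false
set_option linter.unusedSectionVars false

open Finset MeasureTheory

noncomputable section

namespace Crest.Agent.R4C.GWvecx610

open Crest.Agent.R4C.GWminx18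

section layer

variable {ι κ : Type*}

lemma prod_expand (S : Finset ι) (T : Finset κ) (g U : ι → ℝ) (h V : κ → ℝ) (x : ℝ) :
    (∑ b ∈ S.filter (fun b => x < U b), g b) * (∑ c ∈ T.filter (fun c => x < V c), h c) =
      ∑ b ∈ S, ∑ c ∈ T, g b * h c * (if x < min (U b) (V c) then (1:ℝ) else 0) := by
  rw [sum_filter, sum_filter, sum_mul_sum]
  refine sum_congr rfl fun b _ => sum_congr rfl fun c _ => ?_
  by_cases hb : x < U b <;> by_cases hc : x < V c <;> simp [hb, hc]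

/-- bilinear layer cake -/
lemma layer2 (S : Finset ι) (T : Finset κ) (g U : ι → ℝ) (h V : κ → ℝ)
    (hU0 : ∀ b ∈ S, 0 ≤ U b) (hU1 : ∀ b ∈ S, U b ≤ 1) (hV0 : ∀ c ∈ T, 0 ≤ V c) :
    ∫ x in Set.Ioc (0:ℝ) 1, (∑ b ∈ S.filter (fun b => x < U b), g b) *
        (∑ c ∈ T.filter (fun c => x < V c), h c) =
      ∑ b ∈ S, ∑ c ∈ T, g b * h c * min (U b) (V c) := by
  simp_rw [prod_expand]
  rw [integral_finsetSum _ fun b _ => integrable_finsetSum _ fun c _ =>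
    (integrable_ind _).const_mul _]
  refine sum_congr rfl fun b hb => ?_
  rw [integral_finsetSum _ fun c _ => (integrable_ind _).const_mul _]
  refine sum_congr rfl fun c hc => ?_
  rw [integral_const_mul, int_ind _ (le_min (hU0 b hb) (hV0 c hc))
    ((min_le_left _ _).trans (hU1 b hb))]

lemma integrable_prod (S : Finset ι) (T : Finset κ) (g U : ι → ℝ) (h V : κ → ℝ) :
    IntegrableOn (fun x : ℝ => (∑ b ∈ S.filter (fun b => x < U b), g b) *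
        (∑ c ∈ T.filter (fun c => x < V c), h c)) (Set.Ioc 0 1) := by
  simp_rw [prod_expand]
  exact integrable_finsetSum _ fun b _ => integrable_finsetSum _ fun c _ =>
    (integrable_ind _).const_mul _

end layer

variable {Ω ι : Type*} [DecidableEq Ω] [DecidableEq ι]

/-- Cauchy–Schwarz for the positive kernel `min`, values in `[0,1]` -/
lemma min_cauchy01 (F : Finset Ω) (ν U : Ω → ℝ) (hU0 : ∀ b ∈ F, 0 ≤ U b) (hU1 : ∀ b ∈ F, U b ≤ 1)
    (θ : ℝ) (hθ0 : 0 < θ) (hθ1 : θ ≤ 1) :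
    ∑ b ∈ F, ∑ c ∈ F, ν b * ν c * min (U b) (θ * U c) ≤
      Real.sqrt θ * ∑ b ∈ F, ∑ c ∈ F, ν b * ν c * min (U b) (U c) := by
  have hV0 : ∀ c ∈ F, 0 ≤ θ * U c := fun c hc => mul_nonneg hθ0.le (hU0 c hc)
  have hV1 : ∀ c ∈ F, θ * U c ≤ 1 := fun c hc => by nlinarith [hU0 c hc, hU1 c hc]
  have hs : 0 < Real.sqrt θ := Real.sqrt_pos.2 hθ0
  have hss : Real.sqrt θ * Real.sqrt θ = θ := Real.mul_self_sqrt hθ0.le
  set E := ∑ b ∈ F, ∑ c ∈ F, ν b * ν c * min (U b) (U c) with hE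
  have e2 : ∑ b ∈ F, ∑ c ∈ F, ν b * ν c * min (θ * U b) (θ * U c) = θ * E := by
    rw [hE, mul_sum]
    refine sum_congr rfl fun b _ => ?_
    rw [mul_sum]
    refine sum_congr rfl fun c _ => ?_
    rw [← mul_min_of_nonneg _ _ hθ0.le]
    ring
  rw [← layer2 F F ν U ν (fun c => θ * U c) hU0 hU1 hV0]
  have i1 := integrable_prod F F ν U ν (fun c => θ * U c)
  have i2 := integrable_prod F F ν U ν U
  have i3 := integrable_prod F F ν (fun c => θ * U c) ν (fun c => θ * U c)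
  have key : ∀ x : ℝ, (∑ b ∈ F.filter (fun b => x < U b), ν b) *
        (∑ c ∈ F.filter (fun c => x < θ * U c), ν c) ≤
      (Real.sqrt θ / 2) * ((∑ b ∈ F.filter (fun b => x < U b), ν b) *
          (∑ b ∈ F.filter (fun b => x < U b), ν b)) +
        (1 / (2 * Real.sqrt θ)) * ((∑ c ∈ F.filter (fun c => x < θ * U c), ν c) *
          (∑ c ∈ F.filter (fun c => x < θ * U c), ν c)) := by
    intro x
    set p := ∑ b ∈ F.filter (fun b => x < U b), ν b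
    set q := ∑ c ∈ F.filter (fun c => x < θ * U c), ν c
    have h : 0 ≤ (Real.sqrt θ * p - q) ^ 2 / (2 * Real.sqrt θ) := by positivity
    have h2 : (Real.sqrt θ * p - q) ^ 2 / (2 * Real.sqrt θ) =
        (Real.sqrt θ / 2) * (p * p) + (1 / (2 * Real.sqrt θ)) * (q * q) - p * q := by
      field_simp
      ring
    linarith
  have h1 := setIntegral_mono (μ := volume) (s := Set.Ioc (0:ℝ) 1) i1
    ((i2.const_mul (Real.sqrt θ / 2)).add (i3.const_mul (1 / (2 * Real.sqrt θ)))) key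
  refine h1.trans (le_of_eq ?_)
  have h2 : ∫ x in Set.Ioc (0:ℝ) 1,
      ((fun x => (Real.sqrt θ / 2) * ((∑ b ∈ F.filter (fun b => x < U b), ν b) *
          (∑ b ∈ F.filter (fun b => x < U b), ν b))) +
        (fun x => (1 / (2 * Real.sqrt θ)) * ((∑ c ∈ F.filter (fun c => x < θ * U c), ν c) *
          (∑ c ∈ F.filter (fun c => x < θ * U c), ν c)))) x =
      (Real.sqrt θ / 2) * E + (1 / (2 * Real.sqrt θ)) * (θ * E) := by
    simp only [Pi.add_apply]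
    rw [integral_add (i2.const_mul _) (i3.const_mul _), integral_const_mul, integral_const_mul,
      layer2 F F ν U ν U hU0 hU1 hU0,
      layer2 F F ν (fun c => θ * U c) ν (fun c => θ * U c) hV0 hV1 hV0, e2]
  rw [h2]
  have h3 : (1 / (2 * Real.sqrt θ)) * (θ * E) = (Real.sqrt θ / 2) * E := by
    have h4 : θ * E = Real.sqrt θ * Real.sqrt θ * E := by rw [hss]
    rw [h4]
    field_simp
  rw [h3]
  ring

/-- Cauchy–Schwarz for the kernel `min` -/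
lemma min_cauchy (F : Finset Ω) (ν D : Ω → ℝ) (hD0 : ∀ b ∈ F, 0 ≤ D b)
    (θ : ℝ) (hθ0 : 0 < θ) (hθ1 : θ ≤ 1) :
    ∑ b ∈ F, ∑ c ∈ F, ν b * ν c * min (D b) (θ * D c) ≤
      Real.sqrt θ * ∑ b ∈ F, ∑ c ∈ F, ν b * ν c * min (D b) (D c) := by
  set R : ℝ := 1 + ∑ b ∈ F, D b with hR
  have hS0 : 0 ≤ ∑ b ∈ F, D b := sum_nonneg hD0
  have hR0 : 0 < R := by linarith
  have hDR : ∀ b ∈ F, D b ≤ R := fun b hb => by
    have := single_le_sum hD0 hb
    linarith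
  have h := min_cauchy01 F ν (fun b => D b / R) (fun b hb => div_nonneg (hD0 b hb) hR0.le)
    (fun b hb => by rw [div_le_one hR0]; exact hDR b hb) θ hθ0 hθ1
  have e : ∀ t : ℝ, ∑ b ∈ F, ∑ c ∈ F, ν b * ν c * min (D b) (t * D c) =
      R * ∑ b ∈ F, ∑ c ∈ F, ν b * ν c * min (D b / R) (t * (D c / R)) := by
    intro t
    rw [mul_sum]
    refine sum_congr rfl fun b _ => ?_
    rw [mul_sum]
    refine sum_congr rfl fun c _ => ?_
    have : min (D b) (t * D c) = R * min (D b / R) (t * (D c / R)) := by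
      rw [mul_min_of_nonneg _ _ hR0.le]
      congr 1 <;> field_simp
    rw [this]
    ring
  have e1 := e θ
  have e2 := e 1
  simp only [one_mul] at e2
  rw [e1, e2]
  calc R * ∑ b ∈ F, ∑ c ∈ F, ν b * ν c * min (D b / R) (θ * (D c / R))
      ≤ R * (Real.sqrt θ * ∑ b ∈ F, ∑ c ∈ F, ν b * ν c * min (D b / R) (D c / R)) :=
        mul_le_mul_of_nonneg_left h hR0.le
    _ = _ := by ring

/-- scalar GW for a level function `D` of the high word -/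
lemma node_lev (F : Finset Ω) (ν D om : Ω → ℝ) (hν : ∀ b ∈ F, 0 ≤ ν b)
    (hD0 : ∀ b ∈ F, 0 ≤ D b) (hom : ∀ b ∈ F, om b ≤ 1) (kap C1 : ℝ)
    (hk : 0 ≤ kap) (hC1 : 1 ≤ C1)
    (hyp : ∀ s : ℝ, 0 ≤ s → s ≤ 1 →
      ∑ b ∈ F.filter (fun b => 1 - om b ≤ s), ν b ≤ C1 * (s + kap) * ∑ b ∈ F, ν b) :
    (∑ b ∈ F, ∑ c ∈ F, ν b * ν c * min (D b) (D c)) / (∑ b ∈ F, ν b) ≤
      16 * C1 * (∑ b ∈ F, ν b * (D b * (1 - om b))) +
        2 * C1 * (∑ b ∈ F, ν b * (kap * D b)) := by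
  set R : ℝ := 1 + ∑ b ∈ F, D b with hR
  have hS0 : 0 ≤ ∑ b ∈ F, D b := sum_nonneg hD0
  have hR0 : 0 < R := by linarith
  have hDR : ∀ b ∈ F, D b ≤ R := fun b hb => by
    have := single_le_sum hD0 hb
    linarith
  have h := node_min F F subset_rfl ν (fun _ => 1) om hν (fun _ _ => zero_le_one)
    (fun _ _ => le_rfl) hom (fun b => D b / R) kap C1
    (fun b hb => div_nonneg (hD0 b hb) hR0.le)
    (fun b hb => by rw [div_le_one hR0]; exact hDR b hb) hk hC1 hyp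
  simp only [mul_one] at h
  have e1 : ∑ b ∈ F, ∑ c ∈ F, ν b * ν c * min (D b) (D c) =
      R * ∑ b ∈ F, ∑ c ∈ F, ν b * ν c * min (D b / R) (D c / R) := by
    rw [mul_sum]
    refine sum_congr rfl fun b _ => ?_
    rw [mul_sum]
    refine sum_congr rfl fun c _ => ?_
    have : min (D b) (D c) = R * min (D b / R) (D c / R) := by
      rw [mul_min_of_nonneg _ _ hR0.le]
      congr 1 <;> field_simp
    rw [this]
    ring
  have e2 : ∑ b ∈ F, ν b * (D b * (1 - om b)) =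
      R * ∑ b ∈ F, ν b * (D b / R * (1 - om b)) := by
    rw [mul_sum]
    refine sum_congr rfl fun b _ => ?_
    field_simp
  have e3 : ∑ b ∈ F, ν b * (kap * D b) = R * ∑ b ∈ F, ν b * (kap * (D b / R)) := by
    rw [mul_sum]
    refine sum_congr rfl fun b _ => ?_
    field_simp
  rw [e1, e2, e3, mul_div_assoc]
  calc R * ((∑ b ∈ F, ∑ c ∈ F, ν b * ν c * min (D b / R) (D c / R)) / ∑ b ∈ F, ν b)
      ≤ R * (16 * C1 * (∑ b ∈ F, ν b * (D b / R * (1 - om b))) +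
          2 * C1 * (∑ b ∈ F, ν b * (kap * (D b / R)))) := mul_le_mul_of_nonneg_left h hR0.le
    _ = _ := by ring

/-- rows and columns of a matching -/
lemma card_row (Y : Finset ι) (k : ι → ℝ) (h : ∀ c ∈ Y, ∀ d ∈ Y, k c ≠ 0 → k d ≠ 0 → c = d) :
    ∑ c ∈ Y, (if k c = 0 then (0:ℝ) else 1) ≤ 1 := by
  have h1 : ∑ c ∈ Y, (if k c = 0 then (0:ℝ) else 1) = ((Y.filter (fun c => k c ≠ 0)).card : ℝ) := by
    rw [card_eq_sum_ones, sum_filter]
    push_cast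
    refine sum_congr rfl fun c _ => ?_
    by_cases hc : k c = 0 <;> simp [hc]
  rw [h1]
  have : (Y.filter (fun c => k c ≠ 0)).card ≤ 1 := by
    rw [card_le_one]
    intro c hc d hd
    rw [mem_filter] at hc hd
    exact h c hc.1 d hd.1 hc.2 hd.2
  exact_mod_cast this

/-- the kernel of one pair of high words -/
lemma pair_bound (X Y : Finset ι) (a : ι → ℝ) (K : ι → ι → ℝ) (θ : ℝ) (hθ0 : 0 < θ)
    (haX : ∀ b ∈ X, 0 ≤ a b) (haY : ∀ c ∈ Y, 0 ≤ a c)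
    (hK1 : ∀ b ∈ X, ∀ c ∈ Y, K b c ≤ θ * (a b + a c) / 2)
    (hK2 : ∀ b ∈ X, ∀ c ∈ Y, K b c ≤ a b) (hK3 : ∀ b ∈ X, ∀ c ∈ Y, K b c ≤ a c)
    (hM1 : ∀ b ∈ X, ∀ c ∈ Y, ∀ d ∈ Y, K b c ≠ 0 → K b d ≠ 0 → c = d)
    (hM2 : ∀ b ∈ Y, ∀ c ∈ X, ∀ d ∈ X, K c b ≠ 0 → K d b ≠ 0 → c = d) :
    ∑ b ∈ X, ∑ c ∈ Y, K b c ≤
      min (∑ b ∈ X, a b) (θ * ∑ c ∈ Y, a c) + min (θ * ∑ b ∈ X, a b) (∑ c ∈ Y, a c) := by
  set DX := ∑ b ∈ X, a b with hDX
  set DY := ∑ c ∈ Y, a c with hDY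
  have hX0 : 0 ≤ DX := sum_nonneg haX
  have hY0 : 0 ≤ DY := sum_nonneg haY
  have row : ∀ b ∈ X, ∑ c ∈ Y, (if K b c = 0 then (0:ℝ) else 1) ≤ 1 := fun b hb =>
    card_row Y (K b) (hM1 b hb)
  have col : ∀ c ∈ Y, ∑ b ∈ X, (if K b c = 0 then (0:ℝ) else 1) ≤ 1 := fun c hc =>
    card_row X (fun b => K b c) (hM2 c hc)
  have sX : ∑ b ∈ X, ∑ c ∈ Y, a b * (if K b c = 0 then (0:ℝ) else 1) ≤ DX := by
    refine sum_le_sum fun b hb => ?_
    rw [← mul_sum]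
    have := mul_le_mul_of_nonneg_left (row b hb) (haX b hb)
    linarith
  have sY : ∑ b ∈ X, ∑ c ∈ Y, a c * (if K b c = 0 then (0:ℝ) else 1) ≤ DY := by
    rw [sum_comm]
    refine sum_le_sum fun c hc => ?_
    rw [← mul_sum]
    have := mul_le_mul_of_nonneg_left (col c hc) (haY c hc)
    linarith
  have k2 : ∑ b ∈ X, ∑ c ∈ Y, K b c ≤ DX := by
    refine le_trans (sum_le_sum fun b hb => sum_le_sum fun c hc => ?_) sX
    by_cases h : K b c = 0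
    · simp [h]
    · simp only [h, if_false, mul_one]; exact hK2 b hb c hc
  have k3 : ∑ b ∈ X, ∑ c ∈ Y, K b c ≤ DY := by
    refine le_trans (sum_le_sum fun b hb => sum_le_sum fun c hc => ?_) sY
    by_cases h : K b c = 0
    · simp [h]
    · simp only [h, if_false, mul_one]; exact hK3 b hb c hc
  have k1 : ∑ b ∈ X, ∑ c ∈ Y, K b c ≤ θ / 2 * (DX + DY) := by
    calc ∑ b ∈ X, ∑ c ∈ Y, K b c
        ≤ ∑ b ∈ X, ∑ c ∈ Y, (θ / 2) * (a b * (if K b c = 0 then (0:ℝ) else 1) +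
            a c * (if K b c = 0 then (0:ℝ) else 1)) := by
          refine sum_le_sum fun b hb => sum_le_sum fun c hc => ?_
          by_cases h : K b c = 0
          · simp [h]
          · simp only [h, if_false, mul_one]
            have := hK1 b hb c hc
            linarith
      _ = (θ / 2) * (∑ b ∈ X, ∑ c ∈ Y, a b * (if K b c = 0 then (0:ℝ) else 1) +
            ∑ b ∈ X, ∑ c ∈ Y, a c * (if K b c = 0 then (0:ℝ) else 1)) := by
          rw [← sum_add_distrib, mul_sum]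
          refine sum_congr rfl fun b _ => ?_
          rw [← sum_add_distrib, mul_sum]
      _ ≤ (θ / 2) * (DX + DY) := mul_le_mul_of_nonneg_left (add_le_add sX sY) (by linarith)
  rcases le_total DX DY with h | h
  · have h1 : ∑ b ∈ X, ∑ c ∈ Y, K b c ≤ min DX (θ * DY) := le_min k2 (k1.trans (by nlinarith))
    have h2 : 0 ≤ min (θ * DX) DY := le_min (mul_nonneg hθ0.le hX0) hY0
    linarith
  · have h1 : ∑ b ∈ X, ∑ c ∈ Y, K b c ≤ min (θ * DX) DY := le_min (k1.trans (by nlinarith)) k3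
    have h2 : 0 ≤ min DX (θ * DY) := le_min hX0 (mul_nonneg hθ0.le hY0)
    linarith

/-- fibre sums -/
lemma sum_fib (F : Finset Ω) (S : Finset ι) (pr : ι → Ω) (hpr : ∀ b ∈ S, pr b ∈ F)
    (g : ι → ℝ) (ν : Ω → ℝ) :
    ∑ b ∈ S, ν (pr b) * g b = ∑ β ∈ F, ν β * ∑ b ∈ S.filter (fun b => pr b = β), g b := by
  rw [← sum_fiberwise_of_maps_to hpr]
  refine sum_congr rfl fun β _ => ?_
  rw [mul_sum]
  refine sum_congr rfl fun b hb => ?_
  rw [(mem_filter.1 hb).2]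

lemma sum_fib2 (F : Finset Ω) (S : Finset ι) (pr : ι → Ω) (hpr : ∀ b ∈ S, pr b ∈ F)
    (K : ι → ι → ℝ) (ν : Ω → ℝ) :
    ∑ b ∈ S, ∑ c ∈ S, ν (pr b) * ν (pr c) * K b c = ∑ β ∈ F, ∑ β' ∈ F, ν β * ν β' *
      ∑ b ∈ S.filter (fun b => pr b = β), ∑ c ∈ S.filter (fun b => pr b = β'), K b c := by
  calc ∑ b ∈ S, ∑ c ∈ S, ν (pr b) * ν (pr c) * K b c
      = ∑ b ∈ S, ν (pr b) * ∑ c ∈ S, ν (pr c) * K b c := by
        refine sum_congr rfl fun b _ => ?_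
        rw [mul_sum]
        exact sum_congr rfl fun c _ => by ring
    _ = ∑ β ∈ F, ν β * ∑ b ∈ S.filter (fun b => pr b = β), ∑ c ∈ S, ν (pr c) * K b c :=
        sum_fib F S pr hpr _ ν
    _ = ∑ β ∈ F, ν β * ∑ b ∈ S.filter (fun b => pr b = β), ∑ β' ∈ F,
          ν β' * ∑ c ∈ S.filter (fun b => pr b = β'), K b c := by
        refine sum_congr rfl fun β _ => ?_
        congr 1
        exact sum_congr rfl fun b _ => sum_fib F S pr hpr _ ν
    _ = _ := by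
        refine sum_congr rfl fun β _ => ?_
        rw [sum_comm, mul_sum]
        refine sum_congr rfl fun β' _ => ?_
        rw [← mul_sum]
        ring

/-- one level of the layer cake in `W` (`S` = the members with `W > x`) -/
lemma node_one (F : Finset Ω) (S : Finset ι) (pr : ι → Ω) (hpr : ∀ b ∈ S, pr b ∈ F)
    (ν om : Ω → ℝ) (a : ι → ℝ) (K : ι → ι → ℝ) (θ kap C1 : ℝ) (hθ0 : 0 < θ) (hθ1 : θ ≤ 1)
    (hν : ∀ b ∈ F, 0 ≤ ν b) (ha : ∀ b ∈ S, 0 ≤ a b) (hom : ∀ b ∈ F, om b ≤ 1)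
    (hk : 0 ≤ kap) (hC1 : 1 ≤ C1)
    (hK1 : ∀ b ∈ S, ∀ c ∈ S, K b c ≤ θ * (a b + a c) / 2)
    (hK2 : ∀ b ∈ S, ∀ c ∈ S, K b c ≤ a b) (hK3 : ∀ b ∈ S, ∀ c ∈ S, K b c ≤ a c)
    (hM1 : ∀ b ∈ S, ∀ c ∈ S, ∀ d ∈ S, pr c = pr d → K b c ≠ 0 → K b d ≠ 0 → c = d)
    (hM2 : ∀ b ∈ S, ∀ c ∈ S, ∀ d ∈ S, pr c = pr d → K c b ≠ 0 → K d b ≠ 0 → c = d)
    (hyp : ∀ s : ℝ, 0 ≤ s → s ≤ 1 →
      ∑ b ∈ F.filter (fun b => 1 - om b ≤ s), ν b ≤ C1 * (s + kap) * ∑ b ∈ F, ν b) :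
    (∑ b ∈ S, ∑ c ∈ S, ν (pr b) * ν (pr c) * K b c) / (∑ b ∈ F, ν b) ≤
      2 * Real.sqrt θ * (16 * C1 * (∑ b ∈ S, ν (pr b) * (a b * (1 - om (pr b)))) +
        2 * C1 * (∑ b ∈ S, ν (pr b) * (kap * a b))) := by
  set D : Ω → ℝ := fun β => ∑ b ∈ S.filter (fun b => pr b = β), a b with hD
  have hD0 : ∀ β ∈ F, 0 ≤ D β := fun β _ => sum_nonneg fun b hb => ha b (mem_filter.1 hb).1
  have hV0 : 0 ≤ ∑ b ∈ F, ν b := sum_nonneg hν
  have h1 : ∑ b ∈ S, ∑ c ∈ S, ν (pr b) * ν (pr c) * K b c ≤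
      ∑ β ∈ F, ∑ β' ∈ F, ν β * ν β' * (min (D β) (θ * D β') + min (θ * D β) (D β')) := by
    rw [sum_fib2 F S pr hpr K ν]
    refine sum_le_sum fun β hβ => sum_le_sum fun β' hβ' =>
      mul_le_mul_of_nonneg_left ?_ (mul_nonneg (hν β hβ) (hν β' hβ'))
    refine pair_bound _ _ a K θ hθ0 (fun b hb => ha b (mem_filter.1 hb).1)
      (fun b hb => ha b (mem_filter.1 hb).1) ?_ ?_ ?_ ?_ ?_
    · exact fun b hb c hc => hK1 b (mem_filter.1 hb).1 c (mem_filter.1 hc).1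
    · exact fun b hb c hc => hK2 b (mem_filter.1 hb).1 c (mem_filter.1 hc).1
    · exact fun b hb c hc => hK3 b (mem_filter.1 hb).1 c (mem_filter.1 hc).1
    · intro b hb c hc d hd
      rw [mem_filter] at hb hc hd
      exact hM1 b hb.1 c hc.1 d hd.1 (hc.2.trans hd.2.symm)
    · intro b hb c hc d hd
      rw [mem_filter] at hb hc hd
      exact hM2 b hb.1 c hc.1 d hd.1 (hc.2.trans hd.2.symm)
  have h2 : ∑ β ∈ F, ∑ β' ∈ F, ν β * ν β' * (min (D β) (θ * D β') + min (θ * D β) (D β')) =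
      2 * ∑ β ∈ F, ∑ β' ∈ F, ν β * ν β' * min (D β) (θ * D β') := by
    have e : ∑ β ∈ F, ∑ β' ∈ F, ν β * ν β' * min (θ * D β) (D β') =
        ∑ β ∈ F, ∑ β' ∈ F, ν β * ν β' * min (D β) (θ * D β') := by
      rw [sum_comm]
      refine sum_congr rfl fun β _ => sum_congr rfl fun β' _ => ?_
      rw [min_comm]
      ring
    simp only [mul_add, sum_add_distrib]
    rw [e]
    ring
  have h3 := min_cauchy F ν D hD0 θ hθ0 hθ1
  have h4 := node_lev F ν D om hν hD0 hom kap C1 hk hC1 hyp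
  have e1 : ∑ β ∈ F, ν β * (D β * (1 - om β)) = ∑ b ∈ S, ν (pr b) * (a b * (1 - om (pr b))) := by
    rw [sum_fib F S pr hpr (fun b => a b * (1 - om (pr b))) ν]
    refine sum_congr rfl fun β _ => ?_
    congr 1
    rw [hD, sum_mul]
    refine sum_congr rfl fun b hb => ?_
    rw [(mem_filter.1 hb).2]
  have e2 : ∑ β ∈ F, ν β * (kap * D β) = ∑ b ∈ S, ν (pr b) * (kap * a b) := by
    rw [sum_fib F S pr hpr (fun b => kap * a b) ν]
    refine sum_congr rfl fun β _ => ?_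
    rw [hD, mul_sum]
  rw [e1, e2] at h4
  calc (∑ b ∈ S, ∑ c ∈ S, ν (pr b) * ν (pr c) * K b c) / (∑ b ∈ F, ν b)
      ≤ (2 * (Real.sqrt θ * ∑ b ∈ F, ∑ c ∈ F, ν b * ν c * min (D b) (D c))) /
          (∑ b ∈ F, ν b) := by
        refine div_le_div_of_nonneg_right (h1.trans ?_) hV0
        rw [h2]
        linarith
    _ = 2 * Real.sqrt θ * ((∑ b ∈ F, ∑ c ∈ F, ν b * ν c * min (D b) (D c)) /
          (∑ b ∈ F, ν b)) := by ring
    _ ≤ _ := mul_le_mul_of_nonneg_left h4 (by positivity)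

/-- **one node, vector case, weights depending on the word** -/
theorem node_vec (F : Finset Ω) (S : Finset ι) (pr : ι → Ω) (hpr : ∀ b ∈ S, pr b ∈ F)
    (ν om : Ω → ℝ) (a : ι → ℝ) (K : ι → ι → ℝ) (θ kap C1 : ℝ) (hθ0 : 0 < θ) (hθ1 : θ ≤ 1)
    (hν : ∀ b ∈ F, 0 ≤ ν b) (ha : ∀ b ∈ S, 0 ≤ a b) (hom : ∀ b ∈ F, om b ≤ 1)
    (W : ι → ℝ) (hW0 : ∀ b ∈ S, 0 ≤ W b) (hW1 : ∀ b ∈ S, W b ≤ 1)
    (hk : 0 ≤ kap) (hC1 : 1 ≤ C1)
    (hK1 : ∀ b ∈ S, ∀ c ∈ S, K b c ≤ θ * (a b + a c) / 2)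
    (hK2 : ∀ b ∈ S, ∀ c ∈ S, K b c ≤ a b) (hK3 : ∀ b ∈ S, ∀ c ∈ S, K b c ≤ a c)
    (hM1 : ∀ b ∈ S, ∀ c ∈ S, ∀ d ∈ S, pr c = pr d → K b c ≠ 0 → K b d ≠ 0 → c = d)
    (hM2 : ∀ b ∈ S, ∀ c ∈ S, ∀ d ∈ S, pr c = pr d → K c b ≠ 0 → K d b ≠ 0 → c = d)
    (hyp : ∀ s : ℝ, 0 ≤ s → s ≤ 1 →
      ∑ b ∈ F.filter (fun b => 1 - om b ≤ s), ν b ≤ C1 * (s + kap) * ∑ b ∈ F, ν b) :
    (∑ b ∈ S, ∑ c ∈ S, ν (pr b) * ν (pr c) * K b c * min (W b) (W c)) / (∑ b ∈ F, ν b) ≤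
      2 * Real.sqrt θ * (16 * C1 * (∑ b ∈ S, ν (pr b) * a b * (W b * (1 - om (pr b)))) +
        2 * C1 * (∑ b ∈ S, ν (pr b) * a b * (kap * W b))) := by
  -- the level set of `W`
  have key : ∀ x : ℝ, (∑ b ∈ S, ∑ c ∈ S, ν (pr b) * ν (pr c) * K b c *
        (if x < min (W b) (W c) then (1:ℝ) else 0)) / (∑ b ∈ F, ν b) ≤
      2 * Real.sqrt θ * 16 * C1 *
        (∑ b ∈ S.filter (fun b => x < W b), ν (pr b) * a b * (1 - om (pr b))) +
      2 * Real.sqrt θ * 2 * C1 *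
        (∑ b ∈ S.filter (fun b => x < W b), ν (pr b) * a b * kap) := by
    intro x
    have hs := filter_subset (fun b => x < W b) S
    have h := node_one F (S.filter (fun b => x < W b)) pr (fun b hb => hpr b (hs hb)) ν om a K θ
      kap C1 hθ0 hθ1 hν (fun b hb => ha b (hs hb)) hom hk hC1
      (fun b hb c hc => hK1 b (hs hb) c (hs hc)) (fun b hb c hc => hK2 b (hs hb) c (hs hc))
      (fun b hb c hc => hK3 b (hs hb) c (hs hc))
      (fun b hb c hc d hd => hM1 b (hs hb) c (hs hc) d (hs hd))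
      (fun b hb c hc d hd => hM2 b (hs hb) c (hs hc) d (hs hd)) hyp
    have e : ∑ b ∈ S.filter (fun b => x < W b), ∑ c ∈ S.filter (fun b => x < W b),
        ν (pr b) * ν (pr c) * K b c = ∑ b ∈ S, ∑ c ∈ S, ν (pr b) * ν (pr c) * K b c *
        (if x < min (W b) (W c) then (1:ℝ) else 0) := by
      rw [sum_filter]
      refine sum_congr rfl fun b _ => ?_
      by_cases hb : x < W b
      · simp only [hb, if_true]
        rw [sum_filter]
        refine sum_congr rfl fun c _ => ?_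
        by_cases hc : x < W c <;> simp [hb, hc]
      · simp [hb]
    rw [e] at h
    refine h.trans (le_of_eq ?_)
    have e1 : ∑ b ∈ S.filter (fun b => x < W b), ν (pr b) * (a b * (1 - om (pr b))) =
        ∑ b ∈ S.filter (fun b => x < W b), ν (pr b) * a b * (1 - om (pr b)) :=
      sum_congr rfl fun b _ => by ring
    have e2 : ∑ b ∈ S.filter (fun b => x < W b), ν (pr b) * (kap * a b) =
        ∑ b ∈ S.filter (fun b => x < W b), ν (pr b) * a b * kap :=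
      sum_congr rfl fun b _ => by ring
    rw [e1, e2]
    ring
  have iK : IntegrableOn (fun x : ℝ => ∑ b ∈ S, ∑ c ∈ S, ν (pr b) * ν (pr c) * K b c *
      (if x < min (W b) (W c) then (1:ℝ) else 0)) (Set.Ioc 0 1) :=
    integrable_finsetSum _ fun b _ => integrable_finsetSum _ fun c _ =>
      (integrable_ind _).const_mul _
  have h1 := setIntegral_mono (μ := volume) (s := Set.Ioc (0:ℝ) 1)
    (iK.div_const (∑ b ∈ F, ν b))
    (((integrable_sum1 S (fun b => ν (pr b) * a b * (1 - om (pr b))) W).const_mul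
        (2 * Real.sqrt θ * 16 * C1)).add
      ((integrable_sum1 S (fun b => ν (pr b) * a b * kap) W).const_mul
        (2 * Real.sqrt θ * 2 * C1))) key
  have eK : ∫ x in Set.Ioc (0:ℝ) 1, ∑ b ∈ S, ∑ c ∈ S, ν (pr b) * ν (pr c) * K b c *
      (if x < min (W b) (W c) then (1:ℝ) else 0) =
      ∑ b ∈ S, ∑ c ∈ S, ν (pr b) * ν (pr c) * K b c * min (W b) (W c) := by
    rw [integral_finsetSum _ fun b _ => integrable_finsetSum _ fun c _ =>
      (integrable_ind _).const_mul _]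
    refine sum_congr rfl fun b hb => ?_
    rw [integral_finsetSum _ fun c _ => (integrable_ind _).const_mul _]
    refine sum_congr rfl fun c hc => ?_
    rw [integral_const_mul, int_ind _ (le_min (hW0 b hb) (hW0 c hc))
      ((min_le_left _ _).trans (hW1 b hb))]
  rw [integral_div, eK] at h1
  have h2 : ∫ x in Set.Ioc (0:ℝ) 1,
      ((fun x => 2 * Real.sqrt θ * 16 * C1 *
          (∑ b ∈ S.filter (fun b => x < W b), ν (pr b) * a b * (1 - om (pr b)))) +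
        (fun x => 2 * Real.sqrt θ * 2 * C1 *
          (∑ b ∈ S.filter (fun b => x < W b), ν (pr b) * a b * kap))) x =
      2 * Real.sqrt θ * 16 * C1 * (∑ b ∈ S, ν (pr b) * a b * (1 - om (pr b)) * W b) +
        2 * Real.sqrt θ * 2 * C1 * (∑ b ∈ S, ν (pr b) * a b * kap * W b) := by
    simp only [Pi.add_apply]
    rw [integral_add ((integrable_sum1 S _ W).const_mul _) ((integrable_sum1 S _ W).const_mul _),
      integral_const_mul, integral_const_mul, layer1 S _ W hW0 hW1, layer1 S _ W hW0 hW1]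
  rw [h2] at h1
  refine h1.trans (le_of_eq ?_)
  have e1 : ∑ b ∈ S, ν (pr b) * a b * (1 - om (pr b)) * W b =
      ∑ b ∈ S, ν (pr b) * a b * (W b * (1 - om (pr b))) := sum_congr rfl fun b _ => by ring
  have e2 : ∑ b ∈ S, ν (pr b) * a b * kap * W b =
      ∑ b ∈ S, ν (pr b) * a b * (kap * W b) := sum_congr rfl fun b _ => by ring
  rw [e1, e2]
  ring

section nodes

variable {N : Type*}

/-- **VECTOR GW LEMMA**: sum over nodes.  `mass b` = mass of the member `b` (window included),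
`ν_n(pr_n b) a_n(b) ≤ mass b` for every node of `b`.  `Tl` = telescoping bound (number of scales
of one splitting letter), `Kp` = bound of `∑ kap`. -/
theorem gw_vec (Nd : Finset N) (B : Finset ι) (F : N → Finset Ω) (S : N → Finset ι)
    (pr : N → ι → Ω) (hpr : ∀ n ∈ Nd, ∀ b ∈ S n, pr n b ∈ F n) (hSB : ∀ n ∈ Nd, S n ⊆ B)
    (ν om : N → Ω → ℝ) (a : N → ι → ℝ) (K : N → ι → ι → ℝ) (mass : ι → ℝ)
    (θ C1 Tl Kp : ℝ) (kap : N → ℝ) (hθ0 : 0 < θ) (hθ1 : θ ≤ 1)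
    (hν : ∀ n ∈ Nd, ∀ b ∈ F n, 0 ≤ ν n b) (ha : ∀ n ∈ Nd, ∀ b ∈ S n, 0 ≤ a n b)
    (hmass : ∀ n ∈ Nd, ∀ b ∈ S n, ν n (pr n b) * a n b ≤ mass b) (hmass0 : ∀ b ∈ B, 0 ≤ mass b)
    (hom : ∀ n ∈ Nd, ∀ b ∈ F n, om n b ≤ 1)
    (W : N → ι → ℝ) (hW0 : ∀ n ∈ Nd, ∀ b ∈ S n, 0 ≤ W n b) (hW1 : ∀ n ∈ Nd, ∀ b ∈ S n, W n b ≤ 1)
    (hk : ∀ n ∈ Nd, 0 ≤ kap n) (hC1 : 1 ≤ C1)
    (hK1 : ∀ n ∈ Nd, ∀ b ∈ S n, ∀ c ∈ S n, K n b c ≤ θ * (a n b + a n c) / 2)
    (hK2 : ∀ n ∈ Nd, ∀ b ∈ S n, ∀ c ∈ S n, K n b c ≤ a n b)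
    (hK3 : ∀ n ∈ Nd, ∀ b ∈ S n, ∀ c ∈ S n, K n b c ≤ a n c)
    (hM1 : ∀ n ∈ Nd, ∀ b ∈ S n, ∀ c ∈ S n, ∀ d ∈ S n, pr n c = pr n d → K n b c ≠ 0 →
      K n b d ≠ 0 → c = d)
    (hM2 : ∀ n ∈ Nd, ∀ b ∈ S n, ∀ c ∈ S n, ∀ d ∈ S n, pr n c = pr n d → K n c b ≠ 0 →
      K n d b ≠ 0 → c = d)
    (hyp : ∀ n ∈ Nd, ∀ s : ℝ, 0 ≤ s → s ≤ 1 →
      ∑ b ∈ (F n).filter (fun b => 1 - om n b ≤ s), ν n b ≤
        C1 * (s + kap n) * ∑ b ∈ F n, ν n b)
    (tele : ∀ b ∈ B, ∑ n ∈ Nd with b ∈ S n, W n b * (1 - om n (pr n b)) ≤ Tl)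
    (hKp : ∀ b ∈ B, ∑ n ∈ Nd with b ∈ S n, kap n * W n b ≤ Kp) :
    ∑ n ∈ Nd, (∑ b ∈ S n, ∑ c ∈ S n, ν n (pr n b) * ν n (pr n c) * K n b c *
        min (W n b) (W n c)) / (∑ b ∈ F n, ν n b) ≤
      2 * Real.sqrt θ * (16 * C1 * Tl + 2 * C1 * Kp) * ∑ b ∈ B, mass b := by
  have hC0 : 0 < C1 := by linarith
  have hs : 0 < Real.sqrt θ := Real.sqrt_pos.2 hθ0
  have swap : ∀ g : N → ι → ℝ, (∀ n ∈ Nd, ∀ b ∈ S n, 0 ≤ g n b) →
      ∑ n ∈ Nd, ∑ b ∈ S n, ν n (pr n b) * a n b * g n b ≤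
      ∑ b ∈ B, mass b * ∑ n ∈ Nd with b ∈ S n, g n b := by
    intro g hg
    have h1 : ∀ n ∈ Nd, ∑ b ∈ S n, ν n (pr n b) * a n b * g n b ≤
        ∑ b ∈ B, if b ∈ S n then mass b * g n b else 0 := by
      intro n hn
      rw [← sum_filter]
      have e : B.filter (fun b => b ∈ S n) = S n := by
        ext b
        simp only [mem_filter]
        exact ⟨fun h => h.2, fun h => ⟨hSB n hn h, h⟩⟩
      rw [e]
      exact sum_le_sum fun b hb => mul_le_mul_of_nonneg_right (hmass n hn b hb) (hg n hn b hb)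
    refine (sum_le_sum h1).trans (le_of_eq ?_)
    rw [sum_comm]
    refine sum_congr rfl fun b _ => ?_
    rw [sum_filter, mul_sum]
    refine sum_congr rfl fun n _ => ?_
    split_ifs <;> simp
  have s1 := swap (fun n b => W n b * (1 - om n (pr n b))) fun n hn b hb =>
    mul_nonneg (hW0 n hn b hb) (by linarith [hom n hn _ (hpr n hn b hb)])
  have s2 := swap (fun n b => kap n * W n b) fun n hn b hb =>
    mul_nonneg (hk n hn) (hW0 n hn b hb)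
  have a1 : ∑ b ∈ B, mass b * ∑ n ∈ Nd with b ∈ S n, W n b * (1 - om n (pr n b)) ≤
      Tl * ∑ b ∈ B, mass b := by
    rw [mul_sum]
    refine sum_le_sum fun b hb => ?_
    have := mul_le_mul_of_nonneg_left (tele b hb) (hmass0 b hb)
    linarith
  have a2 : ∑ b ∈ B, mass b * ∑ n ∈ Nd with b ∈ S n, kap n * W n b ≤
      Kp * ∑ b ∈ B, mass b := by
    rw [mul_sum]
    refine sum_le_sum fun b hb => ?_
    have := mul_le_mul_of_nonneg_left (hKp b hb) (hmass0 b hb)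
    linarith
  calc ∑ n ∈ Nd, (∑ b ∈ S n, ∑ c ∈ S n, ν n (pr n b) * ν n (pr n c) * K n b c *
        min (W n b) (W n c)) / (∑ b ∈ F n, ν n b)
      ≤ ∑ n ∈ Nd, 2 * Real.sqrt θ *
          (16 * C1 * (∑ b ∈ S n, ν n (pr n b) * a n b * (W n b * (1 - om n (pr n b)))) +
            2 * C1 * (∑ b ∈ S n, ν n (pr n b) * a n b * (kap n * W n b))) :=
        sum_le_sum fun n hn => node_vec (F n) (S n) (pr n) (hpr n hn) (ν n) (om n) (a n) (K n) θ
          (kap n) C1 hθ0 hθ1 (hν n hn) (ha n hn) (hom n hn) (W n) (hW0 n hn) (hW1 n hn)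
          (hk n hn) hC1 (hK1 n hn) (hK2 n hn) (hK3 n hn) (hM1 n hn) (hM2 n hn) (hyp n hn)
    _ = 2 * Real.sqrt θ *
          (16 * C1 * (∑ n ∈ Nd, ∑ b ∈ S n, ν n (pr n b) * a n b *
              (W n b * (1 - om n (pr n b)))) +
            2 * C1 * (∑ n ∈ Nd, ∑ b ∈ S n, ν n (pr n b) * a n b * (kap n * W n b))) := by
        rw [← mul_sum, sum_add_distrib, ← mul_sum, ← mul_sum]
    _ ≤ 2 * Real.sqrt θ * (16 * C1 * (Tl * ∑ b ∈ B, mass b) +
            2 * C1 * (Kp * ∑ b ∈ B, mass b)) := by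
        refine mul_le_mul_of_nonneg_left (add_le_add ?_ ?_) (by positivity)
        · exact mul_le_mul_of_nonneg_left (s1.trans a1) (by positivity)
        · exact mul_le_mul_of_nonneg_left (s2.trans a2) (by positivity)
    _ = _ := by ring

/-- level form.  `Nd j` = nodes of level `j` (the `j`-th splitting letter), a member lies in at
most `R` nodes of level `j`; `Wl j b` = product of the coins of `b` below level `j`,
`Wl (j+1) b ≤ Wl j b * om` on the nodes of `b`. -/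
theorem gw_vec_levels (J : ℕ) (B : Finset ι) (Nd : ℕ → Finset N) (F : ℕ → N → Finset Ω)
    (S : ℕ → N → Finset ι) (pr : ℕ → N → ι → Ω)
    (hpr : ∀ j, ∀ n ∈ Nd j, ∀ b ∈ S j n, pr j n b ∈ F j n) (hSB : ∀ j, ∀ n ∈ Nd j, S j n ⊆ B)
    (R : ℕ) (hR : ∀ j, ∀ b ∈ B, ((Nd j).filter (fun n => b ∈ S j n)).card ≤ R)
    (ν om : ℕ → N → Ω → ℝ) (a : ℕ → N → ι → ℝ) (K : ℕ → N → ι → ι → ℝ) (mass : ι → ℝ)
    (θ C1 Kp : ℝ) (kap : ℕ → N → ℝ) (hθ0 : 0 < θ) (hθ1 : θ ≤ 1)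
    (hν : ∀ j, ∀ n ∈ Nd j, ∀ b ∈ F j n, 0 ≤ ν j n b)
    (ha : ∀ j, ∀ n ∈ Nd j, ∀ b ∈ S j n, 0 ≤ a j n b)
    (hmass : ∀ j, ∀ n ∈ Nd j, ∀ b ∈ S j n, ν j n (pr j n b) * a j n b ≤ mass b)
    (hmass0 : ∀ b ∈ B, 0 ≤ mass b)
    (hom : ∀ j, ∀ n ∈ Nd j, ∀ b ∈ F j n, om j n b ≤ 1)
    (Wl : ℕ → ι → ℝ) (hW0 : ∀ j, ∀ b ∈ B, 0 ≤ Wl j b) (hW1 : ∀ b ∈ B, Wl 0 b ≤ 1)
    (hmono : ∀ j, ∀ b ∈ B, Wl (j + 1) b ≤ Wl j b)
    (hstep : ∀ j, ∀ n ∈ Nd j, ∀ b ∈ S j n, Wl (j + 1) b ≤ Wl j b * om j n (pr j n b))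
    (hk : ∀ j, ∀ n ∈ Nd j, 0 ≤ kap j n) (hC1 : 1 ≤ C1)
    (hK1 : ∀ j, ∀ n ∈ Nd j, ∀ b ∈ S j n, ∀ c ∈ S j n,
      K j n b c ≤ θ * (a j n b + a j n c) / 2)
    (hK2 : ∀ j, ∀ n ∈ Nd j, ∀ b ∈ S j n, ∀ c ∈ S j n, K j n b c ≤ a j n b)
    (hK3 : ∀ j, ∀ n ∈ Nd j, ∀ b ∈ S j n, ∀ c ∈ S j n, K j n b c ≤ a j n c)
    (hM1 : ∀ j, ∀ n ∈ Nd j, ∀ b ∈ S j n, ∀ c ∈ S j n, ∀ d ∈ S j n, pr j n c = pr j n d →
      K j n b c ≠ 0 → K j n b d ≠ 0 → c = d)
    (hM2 : ∀ j, ∀ n ∈ Nd j, ∀ b ∈ S j n, ∀ c ∈ S j n, ∀ d ∈ S j n, pr j n c = pr j n d →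
      K j n c b ≠ 0 → K j n d b ≠ 0 → c = d)
    (hyp : ∀ j, ∀ n ∈ Nd j, ∀ s : ℝ, 0 ≤ s → s ≤ 1 →
      ∑ b ∈ (F j n).filter (fun b => 1 - om j n b ≤ s), ν j n b ≤
        C1 * (s + kap j n) * ∑ b ∈ F j n, ν j n b)
    (hKp : ∀ b ∈ B, ∑ j ∈ range J, ∑ n ∈ Nd j with b ∈ S j n, kap j n ≤ Kp) :
    ∑ j ∈ range J, ∑ n ∈ Nd j,
      (∑ b ∈ S j n, ∑ c ∈ S j n, ν j n (pr j n b) * ν j n (pr j n c) * K j n b c *
        min (Wl j b) (Wl j c)) / (∑ b ∈ F j n, ν j n b) ≤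
      2 * Real.sqrt θ * (16 * C1 * R + 2 * C1 * Kp) * ∑ b ∈ B, mass b := by
  classical
  have hWle : ∀ j, ∀ b ∈ B, Wl j b ≤ 1 := by
    intro j
    induction j with
    | zero => exact hW1
    | succ j ih => intro b hb; exact (hmono j b hb).trans (ih b hb)
  have h := gw_vec (N := (_ : ℕ) × N) ((range J).sigma Nd) B (fun p => F p.1 p.2)
    (fun p => S p.1 p.2) (fun p => pr p.1 p.2)
    (fun p hp => hpr p.1 p.2 (mem_sigma.1 hp).2) (fun p hp => hSB p.1 p.2 (mem_sigma.1 hp).2)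
    (fun p => ν p.1 p.2) (fun p => om p.1 p.2) (fun p => a p.1 p.2) (fun p => K p.1 p.2) mass
    θ C1 R Kp (fun p => kap p.1 p.2) hθ0 hθ1
    (fun p hp => hν p.1 p.2 (mem_sigma.1 hp).2) (fun p hp => ha p.1 p.2 (mem_sigma.1 hp).2)
    (fun p hp => hmass p.1 p.2 (mem_sigma.1 hp).2) hmass0
    (fun p hp => hom p.1 p.2 (mem_sigma.1 hp).2) (fun p => Wl p.1)
    (fun p hp b hb => hW0 p.1 b (hSB p.1 p.2 (mem_sigma.1 hp).2 hb))
    (fun p hp b hb => hWle p.1 b (hSB p.1 p.2 (mem_sigma.1 hp).2 hb))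
    (fun p hp => hk p.1 p.2 (mem_sigma.1 hp).2) hC1
    (fun p hp => hK1 p.1 p.2 (mem_sigma.1 hp).2) (fun p hp => hK2 p.1 p.2 (mem_sigma.1 hp).2)
    (fun p hp => hK3 p.1 p.2 (mem_sigma.1 hp).2) (fun p hp => hM1 p.1 p.2 (mem_sigma.1 hp).2)
    (fun p hp => hM2 p.1 p.2 (mem_sigma.1 hp).2) (fun p hp => hyp p.1 p.2 (mem_sigma.1 hp).2)
    ?_ ?_
  · rw [sum_sigma] at h
    exact h
  · intro b hb
    rw [sum_filter, sum_sigma]
    calc ∑ j ∈ range J, ∑ n ∈ Nd j,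
          (if b ∈ S j n then Wl j b * (1 - om j n (pr j n b)) else 0)
        ≤ ∑ j ∈ range J, (R : ℝ) * (Wl j b - Wl (j + 1) b) := by
          refine sum_le_sum fun j _ => ?_
          rw [← sum_filter]
          have hd : 0 ≤ Wl j b - Wl (j + 1) b := sub_nonneg.2 (hmono j b hb)
          calc ∑ n ∈ (Nd j).filter (fun n => b ∈ S j n), Wl j b * (1 - om j n (pr j n b))
              ≤ ∑ _n ∈ (Nd j).filter (fun n => b ∈ S j n), (Wl j b - Wl (j + 1) b) := by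
                refine sum_le_sum fun n hn => ?_
                rw [mem_filter] at hn
                have := hstep j n hn.1 b hn.2
                linarith
            _ = (((Nd j).filter (fun n => b ∈ S j n)).card : ℝ) * (Wl j b - Wl (j + 1) b) := by
                rw [sum_const, nsmul_eq_mul]
            _ ≤ _ := mul_le_mul_of_nonneg_right (by exact_mod_cast hR j b hb) hd
      _ = (R : ℝ) * (Wl 0 b - Wl J b) := by
          rw [← mul_sum, Finset.sum_range_sub' (fun j => Wl j b)]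
      _ ≤ R := by
          have h1 := hW1 b hb
          have h2 := hW0 J b hb
          have h3 : (0:ℝ) ≤ R := Nat.cast_nonneg R
          nlinarith
  · intro b hb
    rw [sum_filter, sum_sigma]
    refine le_trans ?_ (hKp b hb)
    refine sum_le_sum fun j _ => ?_
    rw [← sum_filter]
    refine sum_le_sum fun n hn => ?_
    rw [mem_filter] at hn
    have h1 := hk j n hn.1
    have h2 := hWle j b hb
    simp only
    nlinarith

end nodes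

end Crest.Agent.R4C.GWvecx610
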