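import Crest.Agent.R4C.GWmin_18

/-!
# Row 4: GW lemma with persisters (notes 3419 and its correction); helper966

ZONE = maximal subtree of nodes with the same centre.  A word which CHANGES its centre at a node is
charged with ALL members of the node (changers and persisters).  `D` = normalisation of a node
(= `ν` of the words with prefix `G`), superadditive along the zone.

* `charge_le` : one zone, `∑_c g c g(node of c)/D ≤ 10 ∑_regions b_R²/D_R`, in the form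
  `≤ 10 (∑_b g b q b)` when `g(T)²/D(n) ≤ ∑_T g q` for all subsets `T` of all nodes `n`.
* `zone_min` : one zone, word-dependent weights `W b` (layer cake) and the natural hypothesis
  `ν (1 - om ≤ s) ≤ C1 (s + κ) D` at every node of the zone.
* `gw_zones` : sum over the zones, telescoping `∑_{z ∋ b} W z b (1 - om z b) ≤ 1`.
-/

set_option autoImplicit false
set_option linter.unusedSectionVars false

open Finset MeasureTheory

noncomputable section

namespace Crest.Agent.R4C.GWzx966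

variable {Ω N : Type*} [DecidableEq Ω] [DecidableEq N]

/-! ### conditional expectations on finite sets -/

lemma fib_le (S : Finset Ω) (ℓ : Ω → N) (h h' : Ω → ℝ)
    (H : ∀ c ∈ S, ∑ b ∈ S with ℓ b = ℓ c, h b ≤ ∑ b ∈ S with ℓ b = ℓ c, h' b) :
    ∑ b ∈ S, h b ≤ ∑ b ∈ S, h' b := by
  rw [← sum_fiberwise_of_maps_to (s := S) (t := S.image ℓ) (g := ℓ)
      (fun x hx => mem_image_of_mem _ hx) h,
    ← sum_fiberwise_of_maps_to (s := S) (t := S.image ℓ) (g := ℓ)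
      (fun x hx => mem_image_of_mem _ hx) h']
  apply sum_le_sum
  intro a ha
  obtain ⟨c, hc, rfl⟩ := mem_image.1 ha
  exact H c hc

lemma fib_eq (S : Finset Ω) (ℓ : Ω → N) (h h' : Ω → ℝ)
    (H : ∀ c ∈ S, ∑ b ∈ S with ℓ b = ℓ c, h b = ∑ b ∈ S with ℓ b = ℓ c, h' b) :
    ∑ b ∈ S, h b = ∑ b ∈ S, h' b :=
  le_antisymm (fib_le S ℓ h h' fun c hc => (H c hc).le) (fib_le S ℓ h' h fun c hc => (H c hc).ge)

/-- average of `g` with respect to `ν` on the fibre of `ℓ` -/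
def avg (S : Finset Ω) (ℓ : Ω → N) (ν g : Ω → ℝ) (c : Ω) : ℝ :=
  (∑ b ∈ S with ℓ b = ℓ c, g b) / (∑ b ∈ S with ℓ b = ℓ c, ν b)

lemma avg_congr {S : Finset Ω} {ℓ : Ω → N} {ν g : Ω → ℝ} {b c : Ω} (h : ℓ b = ℓ c) :
    avg S ℓ ν g b = avg S ℓ ν g c := by
  unfold avg; rw [h]

lemma den_pos {S : Finset Ω} {ℓ : Ω → N} {ν : Ω → ℝ} (hν : ∀ b ∈ S, 0 < ν b) {c : Ω}
    (hc : c ∈ S) : 0 < ∑ b ∈ S with ℓ b = ℓ c, ν b := by
  apply sum_pos
  · intro b hb; exact hν b (mem_filter.1 hb).1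
  · exact ⟨c, mem_filter.2 ⟨hc, rfl⟩⟩

lemma avg_nonneg {S : Finset Ω} {ℓ : Ω → N} {ν g : Ω → ℝ} (hν : ∀ b ∈ S, 0 < ν b)
    (hg : ∀ b ∈ S, 0 ≤ g b) (c : Ω) : 0 ≤ avg S ℓ ν g c :=
  div_nonneg (sum_nonneg fun b hb => hg b (mem_filter.1 hb).1)
    (sum_nonneg fun b hb => (hν b (mem_filter.1 hb).1).le)

/-- self-adjointness of the conditional expectation -/
lemma adj (S : Finset Ω) (ℓ : Ω → N) (ν g x : Ω → ℝ) (hν : ∀ b ∈ S, 0 < ν b)
    (hx : ∀ b ∈ S, ∀ c ∈ S, ℓ b = ℓ c → x b = x c) :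
    ∑ b ∈ S, x b * (ν b * avg S ℓ ν g b) = ∑ b ∈ S, x b * g b := by
  apply fib_eq S ℓ
  intro c hc
  have h1 : ∑ b ∈ S with ℓ b = ℓ c, x b * (ν b * avg S ℓ ν g b) =
      x c * avg S ℓ ν g c * ∑ b ∈ S with ℓ b = ℓ c, ν b := by
    rw [mul_sum]
    apply sum_congr rfl
    intro b hb
    obtain ⟨hb1, hb2⟩ := mem_filter.1 hb
    rw [hx b hb1 c hc hb2, avg_congr hb2]; ring
  have h2 : ∑ b ∈ S with ℓ b = ℓ c, x b * g b = x c * ∑ b ∈ S with ℓ b = ℓ c, g b := by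
    rw [mul_sum]
    apply sum_congr rfl
    intro b hb
    obtain ⟨hb1, hb2⟩ := mem_filter.1 hb
    rw [hx b hb1 c hc hb2]
  rw [h1, h2]
  have h3 : avg S ℓ ν g c * ∑ b ∈ S with ℓ b = ℓ c, ν b = ∑ b ∈ S with ℓ b = ℓ c, g b := by
    unfold avg
    exact div_mul_cancel₀ _ (den_pos hν hc).ne'
  rw [mul_assoc, h3]

/-- averages over a fibre-closed subset -/
lemma avg_sub {S T : Finset Ω} {ℓ : Ω → N} {ν g : Ω → ℝ} (hT : T ⊆ S) {c : Ω}
    (hc : ∀ b ∈ S, ℓ b = ℓ c → b ∈ T) : avg S ℓ ν g c = avg T ℓ ν g c := by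
  have h : S.filter (fun b => ℓ b = ℓ c) = T.filter (fun b => ℓ b = ℓ c) := by
    ext b
    simp only [mem_filter]
    exact ⟨fun h => ⟨hc b h.1 h.2, h.2⟩, fun h => ⟨hT h.1, h.2⟩⟩
  unfold avg
  rw [h]

/-! ### the regions of one zone

`A k` = words of the zone alive at level `k` (`k ≤ σ b`), `u k b` = density of the node of `b`. -/

section zone

variable (B : Finset Ω) (σ : Ω → ℕ) (nd : ℕ → Ω → N) (δ : ℕ → Ω → ℝ) (g : Ω → ℝ)

/-- alive words -/
def Al (k : ℕ) : Finset Ω := B.filter (fun b => k ≤ σ b)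

/-- density of the node -/
def u (k : ℕ) (b : Ω) : ℝ := avg (Al B σ k) (nd k) (δ k) g b

/-- reference density and level of the root of the current region -/
def rr : ℕ → Ω → ℝ × ℕ
  | 0, b => (u B σ nd δ g 0 b, 0)
  | k + 1, b =>
    if (rr k b).1 / 2 ≤ u B σ nd δ g (k + 1) b ∧ u B σ nd δ g (k + 1) b ≤ 2 * (rr k b).1
    then rr k b else (u B σ nd δ g (k + 1) b, k + 1)

lemma mem_Al {k : ℕ} {b : Ω} : b ∈ Al B σ k ↔ b ∈ B ∧ k ≤ σ b := by simp [Al]

lemma Al_succ_sub (k : ℕ) : Al B σ (k + 1) ⊆ Al B σ k := by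
  intro b hb
  rw [mem_Al] at *
  exact ⟨hb.1, by omega⟩

lemma u_congr {k : ℕ} {b c : Ω} (h : nd k b = nd k c) :
    u B σ nd δ g k b = u B σ nd δ g k c := avg_congr h

/-- the reference is the density at the root level -/
lemma rr_fst (k : ℕ) (b : Ω) :
    (rr B σ nd δ g k b).1 = u B σ nd δ g (rr B σ nd δ g k b).2 b := by
  induction k with
  | zero => rfl
  | succ k ih =>
    rw [rr]
    split_ifs
    · exact ih
    · rfl

lemma rr_le (k : ℕ) (b : Ω) : (rr B σ nd δ g k b).2 ≤ k := by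
  induction k with
  | zero => exact le_rfl
  | succ k ih =>
    rw [rr]
    split_ifs
    · omega
    · exact le_rfl

/-- at the root level of the region of level `k` the region is rooted -/
lemma rr_root (k : ℕ) (b : Ω) :
    (rr B σ nd δ g (rr B σ nd δ g k b).2 b).2 = (rr B σ nd δ g k b).2 := by
  induction k with
  | zero => rfl
  | succ k ih =>
    by_cases h : (rr B σ nd δ g k b).1 / 2 ≤ u B σ nd δ g (k + 1) b ∧
        u B σ nd δ g (k + 1) b ≤ 2 * (rr B σ nd δ g k b).1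
    · have h1 : rr B σ nd δ g (k + 1) b = rr B σ nd δ g k b := by rw [rr]; simp [h]
      rw [h1]; exact ih
    · have h1 : rr B σ nd δ g (k + 1) b = (u B σ nd δ g (k + 1) b, k + 1) := by
        rw [rr]; simp [h]
      rw [h1]; simp only; rw [h1]

variable (hnest : ∀ k, ∀ b ∈ B, ∀ c ∈ B, k + 1 ≤ σ b → k + 1 ≤ σ c →
    nd (k + 1) b = nd (k + 1) c → nd k b = nd k c)

include hnest in
lemma rr_congr {k : ℕ} {b c : Ω} (hb : b ∈ Al B σ k) (hc : c ∈ Al B σ k)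
    (h : nd k b = nd k c) : rr B σ nd δ g k b = rr B σ nd δ g k c := by
  induction k with
  | zero => rw [rr, rr, u_congr B σ nd δ g h]
  | succ k ih =>
    have hb' := (mem_Al B σ).1 hb
    have hc' := (mem_Al B σ).1 hc
    have h1 := hnest k b hb'.1 c hc'.1 hb'.2 hc'.2 h
    have h2 := ih (Al_succ_sub B σ k hb) (Al_succ_sub B σ k hc) h1
    rw [rr, rr, h2, u_congr B σ nd δ g h]

/-- the density stays within a factor 2 above the reference -/
lemma u_le (hg : ∀ b ∈ B, 0 ≤ g b) (hδ : ∀ k, ∀ b ∈ Al B σ k, 0 < δ k b) (k : ℕ) (b : Ω) :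
    u B σ nd δ g k b ≤ 2 * (rr B σ nd δ g k b).1 := by
  have h0 : 0 ≤ u B σ nd δ g k b :=
    avg_nonneg (hδ k) (fun b hb => hg b ((mem_Al B σ).1 hb).1) b
  cases k with
  | zero => rw [rr]; simp only; linarith
  | succ k =>
    rw [rr]
    split_ifs with h
    · exact h.2
    · simp only; linarith

/-- superadditivity against nonnegative node functions -/
lemma trans (x : Ω → ℝ) (k : ℕ) (hx0 : ∀ b ∈ Al B σ k, 0 ≤ x b)
    (hx : ∀ b ∈ Al B σ k, ∀ c ∈ Al B σ k, nd k b = nd k c → x b = x c)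
    (hsup : ∀ c ∈ Al B σ k, ∑ b ∈ Al B σ (k + 1) with nd k b = nd k c, δ (k + 1) b ≤
      ∑ b ∈ Al B σ k with nd k b = nd k c, δ k b) :
    ∑ b ∈ Al B σ (k + 1), x b * δ (k + 1) b ≤ ∑ b ∈ Al B σ k, x b * δ k b := by
  have h1 : ∑ b ∈ Al B σ (k + 1), x b * δ (k + 1) b =
      ∑ b ∈ Al B σ k, if k + 1 ≤ σ b then x b * δ (k + 1) b else 0 := by
    rw [← sum_filter]
    apply sum_congr _ fun _ _ => rfl
    ext b
    simp only [mem_filter, mem_Al]
    exact ⟨fun h => ⟨⟨h.1, by omega⟩, h.2⟩, fun h => ⟨h.1.1, h.2⟩⟩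
  rw [h1]
  apply fib_le _ (nd k)
  intro c hc
  have h2 : ∑ b ∈ Al B σ k with nd k b = nd k c, (if k + 1 ≤ σ b then x b * δ (k + 1) b else 0) =
      x c * ∑ b ∈ Al B σ (k + 1) with nd k b = nd k c, δ (k + 1) b := by
    rw [mul_sum, ← sum_filter, filter_filter]
    apply sum_congr
    · ext b
      simp only [mem_filter, mem_Al]
      exact ⟨fun h => ⟨⟨h.1.1, h.2.2⟩, h.2.1⟩, fun h => ⟨⟨h.1.1, by omega⟩, h.2, h.1.2⟩⟩
    · intro b hb
      simp only [mem_filter] at hb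
      rw [hx b (Al_succ_sub B σ k hb.1) c hc hb.2]
  have h3 : ∑ b ∈ Al B σ k with nd k b = nd k c, x b * δ k b =
      x c * ∑ b ∈ Al B σ k with nd k b = nd k c, δ k b := by
    rw [mul_sum]
    apply sum_congr rfl
    intro b hb
    rw [hx b (mem_filter.1 hb).1 c hc (mem_filter.1 hb).2]
  rw [h2, h3]
  exact mul_le_mul_of_nonneg_left (hsup c hc) (hx0 c hc)

/-- words whose node at level `k` is a region root -/
def X (k : ℕ) : Finset Ω := (Al B σ k).filter (fun b => (rr B σ nd δ g k b).2 = k)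

/-- the potential -/
def Z (k : ℕ) : ℝ := ∑ b ∈ Al B σ k,
  (5 / 2 * ((rr B σ nd δ g k b).1 * g b) - (rr B σ nd δ g k b).1 ^ 2 * δ k b)

lemma X_sub (k : ℕ) : X B σ nd δ g k ⊆ Al B σ k := filter_subset _ _

include hnest in
lemma X_closed {k : ℕ} {c : Ω} (hc : c ∈ X B σ nd δ g k) :
    ∀ b ∈ Al B σ k, nd k b = nd k c → b ∈ X B σ nd δ g k := by
  intro b hb h
  have hc' := mem_filter.1 hc
  refine mem_filter.2 ⟨hb, ?_⟩
  rw [rr_congr B σ nd δ g hnest hb hc'.1 h]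
  exact hc'.2

include hnest in
lemma u_X {k : ℕ} {c : Ω} (hc : c ∈ X B σ nd δ g k) :
    avg (X B σ nd δ g k) (nd k) (δ k) g c = u B σ nd δ g k c :=
  (avg_sub (X_sub B σ nd δ g k) (X_closed B σ nd δ g hnest hc)).symm

include hnest in
/-- `∑_X x δ u = ∑_X x g` -/
lemma adj_X (k : ℕ) (x : Ω → ℝ) (hδ : ∀ k, ∀ b ∈ Al B σ k, 0 < δ k b)
    (hx : ∀ b ∈ X B σ nd δ g k, ∀ c ∈ X B σ nd δ g k, nd k b = nd k c → x b = x c) :
    ∑ b ∈ X B σ nd δ g k, x b * (δ k b * u B σ nd δ g k b) =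
      ∑ b ∈ X B σ nd δ g k, x b * g b := by
  rw [← adj (X B σ nd δ g k) (nd k) (δ k) g x (fun b hb => hδ k b (X_sub B σ nd δ g k hb)) hx]
  apply sum_congr rfl
  intro b hb
  rw [u_X B σ nd δ g hnest hb]

lemma rr_nonneg (hg : ∀ b ∈ B, 0 ≤ g b) (hδ : ∀ k, ∀ b ∈ Al B σ k, 0 < δ k b) (k : ℕ) (b : Ω) :
    0 ≤ (rr B σ nd δ g k b).1 := by
  rw [rr_fst]
  exact avg_nonneg (hδ _) (fun b hb => hg b ((mem_Al B σ).1 hb).1) b

include hnest in
lemma Z_step (hg : ∀ b ∈ B, 0 ≤ g b) (hδ : ∀ k, ∀ b ∈ Al B σ k, 0 < δ k b) (k : ℕ)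
    (hsup : ∀ c ∈ Al B σ k, ∑ b ∈ Al B σ (k + 1) with nd k b = nd k c, δ (k + 1) b ≤
      ∑ b ∈ Al B σ k with nd k b = nd k c, δ k b) :
    Z B σ nd δ g k - 5 / 2 * ∑ b ∈ B with σ b = k, (rr B σ nd δ g k b).1 * g b +
      1 / 2 * ∑ b ∈ X B σ nd δ g (k + 1), u B σ nd δ g (k + 1) b * g b ≤
      Z B σ nd δ g (k + 1) := by
  set r : Ω → ℝ := fun b => (rr B σ nd δ g k b).1 with hr
  set U : Ω → ℝ := u B σ nd δ g (k + 1) with hU
  set X' := X B σ nd δ g (k + 1) with hX'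
  have hr0 : ∀ b, 0 ≤ r b := rr_nonneg B σ nd δ g hg hδ k
  have hrc : ∀ b ∈ Al B σ k, ∀ c ∈ Al B σ k, nd k b = nd k c → r b = r c := by
    intro b hb c hc h
    simp only [hr, rr_congr B σ nd δ g hnest hb hc h]
  -- part outside X
  have hout : ∀ b ∈ Al B σ (k + 1), b ∉ X' → rr B σ nd δ g (k + 1) b = rr B σ nd δ g k b := by
    intro b hb hbX
    rw [rr]
    split_ifs with h
    · rfl
    · exfalso
      apply hbX
      refine mem_filter.2 ⟨hb, ?_⟩
      rw [rr]; simp [h]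
  have hin : ∀ b ∈ X', (rr B σ nd δ g (k + 1) b).1 = U b ∧
      0 ≤ (U b - r b / 2) * (U b - 2 * r b) := by
    intro b hb
    have hb2 := (mem_filter.1 hb).2
    have hnot : ¬ (r b / 2 ≤ U b ∧ U b ≤ 2 * r b) := by
      intro h
      have h' : (rr B σ nd δ g k b).1 / 2 ≤ u B σ nd δ g (k + 1) b ∧
        u B σ nd δ g (k + 1) b ≤ 2 * (rr B σ nd δ g k b).1 := h
      have h1 : rr B σ nd δ g (k + 1) b = rr B σ nd δ g k b := by rw [rr]; simp [h']
      rw [h1] at hb2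
      have := rr_le B σ nd δ g k b
      omega
    have hnot' : ¬ ((rr B σ nd δ g k b).1 / 2 ≤ u B σ nd δ g (k + 1) b ∧
        u B σ nd δ g (k + 1) b ≤ 2 * (rr B σ nd δ g k b).1) := hnot
    refine ⟨by rw [rr]; simp [hnot', hU], ?_⟩
    have h0 := hr0 b
    by_cases h : r b / 2 ≤ U b
    · have h2 : 2 * r b < U b := by
        by_contra h3
        exact hnot ⟨h, not_lt.1 h3⟩
      exact mul_nonneg (by linarith) (by linarith)
    · have h1 := not_le.1 h
      exact mul_nonneg_of_nonpos_of_nonpos (by linarith) (by linarith)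
  -- the two parts of level k+1
  have hXs : X' ⊆ Al B σ (k + 1) := X_sub B σ nd δ g (k + 1)
  have hsplit : ∀ F : Ω → ℝ, ∑ b ∈ Al B σ (k + 1), F b =
      ∑ b ∈ X', F b + ∑ b ∈ Al B σ (k + 1) \ X', F b := by
    intro F
    exact (sum_sdiff hXs).symm.trans (add_comm _ _)
  have hZ : Z B σ nd δ g (k + 1) =
      ∑ b ∈ X', (5 / 2 * (U b * g b) - U b ^ 2 * δ (k + 1) b) +
      ∑ b ∈ Al B σ (k + 1) \ X', (5 / 2 * (r b * g b) - r b ^ 2 * δ (k + 1) b) := by
    unfold Z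
    rw [hsplit]
    congr 1
    · exact sum_congr rfl fun b hb => by rw [(hin b hb).1]
    · refine sum_congr rfl fun b hb => ?_
      rw [hout b (mem_sdiff.1 hb).1 (mem_sdiff.1 hb).2]
  -- inequality on X
  have hrX : ∀ b ∈ X', ∀ c ∈ X', nd (k + 1) b = nd (k + 1) c → r b = r c := by
    intro b hb c hc h
    have hb' := (mem_Al B σ).1 (hXs hb)
    have hc' := (mem_Al B σ).1 (hXs hc)
    exact hrc b (Al_succ_sub B σ k (hXs hb)) c (Al_succ_sub B σ k (hXs hc))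
      (hnest k b hb'.1 c hc'.1 hb'.2 hc'.2 h)
  have eU := adj_X B σ nd δ g hnest (k + 1) U hδ (fun b _ c _ h => u_congr B σ nd δ g h)
  have er := adj_X B σ nd δ g hnest (k + 1) r hδ hrX
  rw [← hU, ← hX'] at eU er
  have hX : ∑ b ∈ X', (5 / 2 * (r b * g b) - r b ^ 2 * δ (k + 1) b) +
      1 / 2 * ∑ b ∈ X', U b * g b ≤
      ∑ b ∈ X', (5 / 2 * (U b * g b) - U b ^ 2 * δ (k + 1) b) := by
    rw [sum_sub_distrib, sum_sub_distrib, ← mul_sum, ← mul_sum, ← eU, ← er, mul_sum, mul_sum,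
      mul_sum, ← sum_sub_distrib, ← sum_add_distrib, ← sum_sub_distrib]
    apply sum_le_sum
    intro b hb
    have h1 := (hδ (k + 1) b (hXs hb)).le
    have h2 := mul_nonneg h1 (hin b hb).2
    nlinarith
  -- transition
  have htr := trans B σ nd δ (fun b => r b ^ 2) k (fun b _ => sq_nonneg _)
    (fun b hb c hc h => by simp only [hrc b hb c hc h]) hsup
  have hA : ∑ b ∈ Al B σ k, r b * g b = ∑ b ∈ Al B σ (k + 1), r b * g b +
      ∑ b ∈ B with σ b = k, r b * g b := by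
    have hd : Disjoint (Al B σ (k + 1)) (B.filter (fun b => σ b = k)) := by
      rw [disjoint_left]
      intro b h1 h2
      have h3 := ((mem_Al B σ).1 h1).2
      have h4 := (mem_filter.1 h2).2
      omega
    rw [← sum_union hd]
    apply sum_congr _ fun _ _ => rfl
    ext b
    simp only [mem_union, mem_filter, mem_Al]
    constructor
    · rintro ⟨h1, h2⟩
      rcases Nat.lt_or_ge k (σ b) with h3 | h3
      · exact Or.inl ⟨h1, h3⟩
      · exact Or.inr ⟨h1, by omega⟩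
    · rintro (⟨h1, h2⟩ | ⟨h1, h2⟩)
      · exact ⟨h1, by omega⟩
      · exact ⟨h1, by omega⟩
  have hZk : Z B σ nd δ g k = 5 / 2 * ∑ b ∈ Al B σ k, r b * g b -
      ∑ b ∈ Al B σ k, r b ^ 2 * δ k b := by
    unfold Z
    rw [sum_sub_distrib, ← mul_sum]
  have hfull : ∑ b ∈ X', (5 / 2 * (r b * g b) - r b ^ 2 * δ (k + 1) b) +
      ∑ b ∈ Al B σ (k + 1) \ X', (5 / 2 * (r b * g b) - r b ^ 2 * δ (k + 1) b) =
      5 / 2 * ∑ b ∈ Al B σ (k + 1), r b * g b - ∑ b ∈ Al B σ (k + 1), r b ^ 2 * δ (k + 1) b := by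
    rw [← hsplit, sum_sub_distrib, ← mul_sum]
  rw [hZ, hZk, hA]
  linarith

/-- charge units -/
def Cg : ℝ := ∑ b ∈ B, (rr B σ nd δ g (σ b) b).1 * g b

include hnest in
/-- (a): the energies of the region roots are at most 5 times the charge -/
lemma energy_le (hg : ∀ b ∈ B, 0 ≤ g b) (hδ : ∀ k, ∀ b ∈ Al B σ k, 0 < δ k b)
    (hsup : ∀ k, ∀ c ∈ Al B σ k, ∑ b ∈ Al B σ (k + 1) with nd k b = nd k c, δ (k + 1) b ≤
      ∑ b ∈ Al B σ k with nd k b = nd k c, δ k b) (K : ℕ) (hK : ∀ b ∈ B, σ b < K) :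
    ∑ i ∈ range K, ∑ b ∈ X B σ nd δ g i, u B σ nd δ g i b * g b ≤ 5 * Cg B σ nd δ g := by
  have hE0 : ∀ i, 0 ≤ ∑ b ∈ X B σ nd δ g i, u B σ nd δ g i b * g b := by
    intro i
    refine sum_nonneg fun b hb => mul_nonneg ?_ (hg b ((mem_Al B σ).1 (X_sub _ _ _ _ _ i hb)).1)
    exact avg_nonneg (hδ i) (fun b hb => hg b ((mem_Al B σ).1 hb).1) b
  have hZ0 : Z B σ nd δ g 0 = 3 / 2 * ∑ b ∈ X B σ nd δ g 0, u B σ nd δ g 0 b * g b := by
    have hX0 : X B σ nd δ g 0 = Al B σ 0 := by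
      ext b; simp [X, rr]
    have e := adj_X B σ nd δ g hnest 0 (u B σ nd δ g 0) hδ (fun b _ c _ h => u_congr B σ nd δ g h)
    rw [hX0] at e ⊢
    unfold Z
    simp only [rr]
    rw [sum_sub_distrib, ← mul_sum, ← e, mul_sum, mul_sum, ← sum_sub_distrib]
    exact sum_congr rfl fun b _ => by ring
  have hZK : Z B σ nd δ g K = 0 := by
    have hAK : Al B σ K = ∅ := by
      rw [Al, filter_eq_empty_iff]
      intro b hb
      have := hK b hb
      omega
    unfold Z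
    rw [hAK, sum_empty]
  have hind : ∀ n, Z B σ nd δ g 0 - 5 / 2 * ∑ k ∈ range n, ∑ b ∈ B with σ b = k,
      (rr B σ nd δ g k b).1 * g b + 1 / 2 * ∑ k ∈ range n,
      ∑ b ∈ X B σ nd δ g (k + 1), u B σ nd δ g (k + 1) b * g b ≤ Z B σ nd δ g n := by
    intro n
    induction n with
    | zero => simp
    | succ n ih =>
      rw [sum_range_succ, sum_range_succ]
      have := Z_step B σ nd δ g hnest hg hδ n (hsup n)
      linarith
  have hC : ∑ k ∈ range K, ∑ b ∈ B with σ b = k, (rr B σ nd δ g k b).1 * g b =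
      Cg B σ nd δ g := by
    unfold Cg
    rw [← sum_fiberwise_of_maps_to (s := B) (t := range K) (g := σ)
      (fun b hb => mem_range.2 (hK b hb))]
    apply sum_congr rfl
    intro k _
    apply sum_congr rfl
    intro b hb
    rw [(mem_filter.1 hb).2]
  have h := hind K
  rw [hZK, hC, hZ0] at h
  have hs : ∑ i ∈ range K, ∑ b ∈ X B σ nd δ g i, u B σ nd δ g i b * g b ≤
      ∑ b ∈ X B σ nd δ g 0, u B σ nd δ g 0 b * g b +
        ∑ k ∈ range K, ∑ b ∈ X B σ nd δ g (k + 1), u B σ nd δ g (k + 1) b * g b := by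
    rw [← sum_range_succ' (fun i => ∑ b ∈ X B σ nd δ g i, u B σ nd δ g i b * g b) K |>.trans
      (add_comm _ _), sum_range_succ]
    linarith [hE0 K]
  have h0 := hE0 0
  linarith

/-- words changing in a region rooted at level `i` -/
def T (i : ℕ) : Finset Ω := B.filter (fun b => (rr B σ nd δ g (σ b) b).2 = i)

lemma T_sub (i : ℕ) : T B σ nd δ g i ⊆ X B σ nd δ g i := by
  intro b hb
  obtain ⟨h1, h2⟩ := mem_filter.1 hb
  have h3 := rr_le B σ nd δ g (σ b) b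
  have h4 := rr_root B σ nd δ g (σ b) b
  rw [h2] at h3 h4
  exact mem_filter.2 ⟨(mem_Al B σ).2 ⟨h1, h3⟩, h4⟩

include hnest in
/-- ONE ZONE: the charge is at most `10 ∑ g q`. -/
theorem charge_le (q : Ω → ℝ) (hg : ∀ b ∈ B, 0 ≤ g b) (hδ : ∀ k, ∀ b ∈ Al B σ k, 0 < δ k b)
    (hsup : ∀ k, ∀ c ∈ Al B σ k, ∑ b ∈ Al B σ (k + 1) with nd k b = nd k c, δ (k + 1) b ≤
      ∑ b ∈ Al B σ k with nd k b = nd k c, δ k b)
    (hGW : ∀ k, ∀ c ∈ Al B σ k, ∀ S ⊆ (Al B σ k).filter (fun b => nd k b = nd k c),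
      (∑ b ∈ S, g b) ^ 2 ≤ (∑ b ∈ Al B σ k with nd k b = nd k c, δ k b) * ∑ b ∈ S, g b * q b) :
    ∑ b ∈ B, g b * u B σ nd δ g (σ b) b ≤ 10 * ∑ b ∈ B, g b * q b := by
  obtain ⟨K, hK⟩ : ∃ K, ∀ b ∈ B, σ b < K :=
    ⟨B.sup σ + 1, fun b hb => Nat.lt_succ_of_le (le_sup (f := σ) hb)⟩
  have hE := energy_le B σ nd δ g hnest hg hδ hsup K hK
  -- indicator of T i
  set g1 : ℕ → Ω → ℝ := fun i b => if b ∈ T B σ nd δ g i then g b else 0 with hg1
  have hlev : ∀ i ∈ range K, ∑ b ∈ T B σ nd δ g i, u B σ nd δ g i b * g b ≤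
      1 / 10 * ∑ b ∈ X B σ nd δ g i, u B σ nd δ g i b * g b +
      5 / 2 * ∑ b ∈ T B σ nd δ g i, g b * q b := by
    intro i _
    set Xi := X B σ nd δ g i with hXi
    set w : Ω → ℝ := avg Xi (nd i) (δ i) (g1 i) with hw
    have hδX : ∀ b ∈ Xi, 0 < δ i b := fun b hb => hδ i b (X_sub B σ nd δ g i hb)
    have a1 := adj Xi (nd i) (δ i) (g1 i) (u B σ nd δ g i) hδX
      (fun b _ c _ h => u_congr B σ nd δ g h)
    have a2 := adj Xi (nd i) (δ i) (g1 i) w hδX (fun b _ c _ h => avg_congr h)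
    have a3 := adj_X B σ nd δ g hnest i (u B σ nd δ g i) hδ
      (fun b _ c _ h => u_congr B σ nd δ g h)
    have hT : ∀ F : Ω → ℝ, ∑ b ∈ T B σ nd δ g i, F b * g b = ∑ b ∈ Xi, F b * g1 i b := by
      intro F
      rw [← sum_subset (T_sub B σ nd δ g i)]
      · exact sum_congr rfl fun b hb => by simp [hg1, hb]
      · intro b _ hb; simp [hg1, hb]
    have h1 : ∑ b ∈ T B σ nd δ g i, u B σ nd δ g i b * g b ≤
        1 / 10 * ∑ b ∈ Xi, u B σ nd δ g i b * g b + 5 / 2 * ∑ b ∈ Xi, w b * g1 i b := by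
      rw [hT, ← a1, ← a2, ← a3, mul_sum, mul_sum, ← sum_add_distrib]
      apply sum_le_sum
      intro b hb
      have := (hδX b hb).le
      have h2 := mul_nonneg this (sq_nonneg (u B σ nd δ g i b - 5 * w b))
      rw [← hw]
      nlinarith
    have h2 : ∑ b ∈ Xi, w b * g1 i b ≤ ∑ b ∈ T B σ nd δ g i, g b * q b := by
      have h3 : ∑ b ∈ T B σ nd δ g i, g b * q b = ∑ b ∈ Xi, q b * g1 i b := by
        rw [← hT]; exact sum_congr rfl fun b _ => by ring
      rw [h3]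
      apply fib_le Xi (nd i)
      intro c hc
      have hcA := X_sub B σ nd δ g i hc
      set S := (T B σ nd δ g i).filter (fun b => nd i b = nd i c) with hS
      have hSsub : S ⊆ (Al B σ i).filter (fun b => nd i b = nd i c) :=
        filter_subset_filter _ ((T_sub B σ nd δ g i).trans (X_sub B σ nd δ g i))
      have h4 := hGW i c hcA S hSsub
      have hfib : (Al B σ i).filter (fun b => nd i b = nd i c) =
          Xi.filter (fun b => nd i b = nd i c) := by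
        ext b
        simp only [mem_filter]
        exact ⟨fun h => ⟨X_closed B σ nd δ g hnest hc b h.1 h.2, h.2⟩,
          fun h => ⟨X_sub B σ nd δ g i h.1, h.2⟩⟩
      rw [hfib] at h4
      have hSg : ∀ F : Ω → ℝ, ∑ b ∈ Xi with nd i b = nd i c, F b * g1 i b =
          ∑ b ∈ S, F b * g b := by
        intro F
        rw [hS, sum_filter, sum_filter]
        rw [← sum_subset (T_sub B σ nd δ g i)]
        · apply sum_congr rfl; intro b hb; simp [hg1, hb]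
        · intro b _ hb; simp [hg1, hb]
      have hw' : ∑ b ∈ Xi with nd i b = nd i c, w b * g1 i b =
          (∑ b ∈ S, g b) ^ 2 / ∑ b ∈ Xi with nd i b = nd i c, δ i b := by
        have h5 : ∑ b ∈ Xi with nd i b = nd i c, w b * g1 i b =
            w c * ∑ b ∈ Xi with nd i b = nd i c, 1 * g1 i b := by
          rw [mul_sum]
          apply sum_congr rfl
          intro b hb
          rw [hw, avg_congr (mem_filter.1 hb).2]; ring
        have h6 : w c = (∑ b ∈ Xi with nd i b = nd i c, 1 * g1 i b) /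
            ∑ b ∈ Xi with nd i b = nd i c, δ i b := by
          rw [hw]; unfold avg; simp only [one_mul]
        rw [h5, h6, hSg (fun _ => 1)]
        simp only [one_mul]
        ring
      have hpos : 0 < ∑ b ∈ Xi with nd i b = nd i c, δ i b := den_pos hδX hc
      rw [hw', hSg q, div_le_iff₀ hpos]
      calc (∑ b ∈ S, g b) ^ 2 ≤ _ := h4
        _ = (∑ b ∈ S, q b * g b) * ∑ b ∈ Xi with nd i b = nd i c, δ i b := by
            rw [mul_comm]
            congr 1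
            exact sum_congr rfl fun b _ => by ring
    linarith
  -- sum over the levels
  have hpart : ∀ F : Ω → ℝ, ∑ i ∈ range K, ∑ b ∈ T B σ nd δ g i, F b = ∑ b ∈ B, F b := by
    intro F
    exact sum_fiberwise_of_maps_to (s := B) (t := range K)
      (g := fun b => (rr B σ nd δ g (σ b) b).2)
      (fun b hb => mem_range.2 (lt_of_le_of_lt (rr_le B σ nd δ g (σ b) b) (hK b hb))) F
  have hCg : Cg B σ nd δ g = ∑ i ∈ range K, ∑ b ∈ T B σ nd δ g i, u B σ nd δ g i b * g b := by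
    unfold Cg
    rw [← hpart]
    apply sum_congr rfl
    intro i _
    apply sum_congr rfl
    intro b hb
    rw [rr_fst, (mem_filter.1 hb).2]
  have hsum := sum_le_sum hlev
  rw [sum_add_distrib, ← mul_sum, ← mul_sum, hpart, ← hCg] at hsum
  have hcharge : ∑ b ∈ B, g b * u B σ nd δ g (σ b) b ≤ 2 * Cg B σ nd δ g := by
    unfold Cg
    rw [mul_sum]
    apply sum_le_sum
    intro b hb
    have h1 := u_le B σ nd δ g hg hδ (σ b) b
    nlinarith [hg b hb]
  linarith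

end zone

/-! ### node normalisation `D` -/

lemma fib_div (S : Finset Ω) (ℓ : Ω → N) (φ : N → ℝ) {c : Ω} (hc : c ∈ S) :
    ∑ b ∈ S with ℓ b = ℓ c, φ (ℓ b) / ((S.filter (fun b' => ℓ b' = ℓ b)).card : ℝ) = φ (ℓ c) := by
  have h1 : ∀ b ∈ S.filter (fun b => ℓ b = ℓ c),
      φ (ℓ b) / ((S.filter (fun b' => ℓ b' = ℓ b)).card : ℝ) =
        φ (ℓ c) / ((S.filter (fun b' => ℓ b' = ℓ c)).card : ℝ) := by
    intro b hb
    rw [(mem_filter.1 hb).2]
  rw [sum_congr rfl h1, sum_const, nsmul_eq_mul]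
  have h3 : 0 < (S.filter (fun b' => ℓ b' = ℓ c)).card :=
    card_pos.2 ⟨c, mem_filter.2 ⟨hc, rfl⟩⟩
  have h2 : (0:ℝ) < ((S.filter (fun b' => ℓ b' = ℓ c)).card : ℝ) := by
    exact_mod_cast h3
  field_simp

lemma img_div (S : Finset Ω) (ℓ : Ω → N) (φ : N → ℝ) :
    ∑ b ∈ S, φ (ℓ b) / ((S.filter (fun b' => ℓ b' = ℓ b)).card : ℝ) = ∑ a ∈ S.image ℓ, φ a := by
  rw [← sum_fiberwise_of_maps_to (s := S) (t := S.image ℓ) (g := ℓ)
      (fun x hx => mem_image_of_mem _ hx)]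
  apply sum_congr rfl
  intro a ha
  obtain ⟨c, hc, rfl⟩ := mem_image.1 ha
  exact fib_div S ℓ φ hc

/-- ONE ZONE with a node normalisation `D k (node)`. -/
theorem charge_le_D (B : Finset Ω) (σ : Ω → ℕ) (nd : ℕ → Ω → N) (D : ℕ → N → ℝ) (g q : Ω → ℝ)
    (hnest : ∀ k, ∀ b ∈ B, ∀ c ∈ B, k + 1 ≤ σ b → k + 1 ≤ σ c →
      nd (k + 1) b = nd (k + 1) c → nd k b = nd k c)
    (hg : ∀ b ∈ B, 0 ≤ g b) (hD : ∀ k, ∀ b ∈ Al B σ k, 0 < D k (nd k b))
    (hsup : ∀ k, ∀ c ∈ Al B σ k,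
      ∑ a ∈ ((Al B σ (k + 1)).filter (fun b => nd k b = nd k c)).image (nd (k + 1)),
        D (k + 1) a ≤ D k (nd k c))
    (hGW : ∀ k, ∀ c ∈ Al B σ k, ∀ S ⊆ (Al B σ k).filter (fun b => nd k b = nd k c),
      (∑ b ∈ S, g b) ^ 2 ≤ D k (nd k c) * ∑ b ∈ S, g b * q b) :
    ∑ b ∈ B, g b * ((∑ c ∈ Al B σ (σ b) with nd (σ b) c = nd (σ b) b, g c) /
      D (σ b) (nd (σ b) b)) ≤ 10 * ∑ b ∈ B, g b * q b := by
  set δ : ℕ → Ω → ℝ := fun k b =>
    D k (nd k b) / (((Al B σ k).filter (fun b' => nd k b' = nd k b)).card : ℝ) with hδdef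
  have hfib : ∀ k, ∀ c ∈ Al B σ k, ∑ b ∈ Al B σ k with nd k b = nd k c, δ k b = D k (nd k c) :=
    fun k c hc => fib_div (Al B σ k) (nd k) (D k) hc
  have hδ : ∀ k, ∀ b ∈ Al B σ k, 0 < δ k b := by
    intro k b hb
    have h3 : 0 < ((Al B σ k).filter (fun b' => nd k b' = nd k b)).card :=
      card_pos.2 ⟨b, mem_filter.2 ⟨hb, rfl⟩⟩
    refine div_pos (hD k b hb) ?_
    exact_mod_cast h3
  have hsup' : ∀ k, ∀ c ∈ Al B σ k, ∑ b ∈ Al B σ (k + 1) with nd k b = nd k c, δ (k + 1) b ≤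
      ∑ b ∈ Al B σ k with nd k b = nd k c, δ k b := by
    intro k c hc
    rw [hfib k c hc]
    refine le_trans (le_of_eq ?_) (hsup k c hc)
    rw [← img_div]
    apply sum_congr rfl
    intro b hb
    have hb' := mem_filter.1 hb
    simp only [hδdef]
    congr 3
    ext b'
    simp only [mem_filter]
    constructor
    · rintro ⟨h1, h2⟩
      refine ⟨⟨h1, ?_⟩, h2⟩
      have m1 := (mem_Al B σ).1 h1
      have m2 := (mem_Al B σ).1 hb'.1
      rw [hnest k b' m1.1 b m2.1 m1.2 m2.2 h2]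
      exact hb'.2
    · rintro ⟨⟨h1, _⟩, h2⟩
      exact ⟨h1, h2⟩
  have h := charge_le B σ nd δ g hnest q hg hδ hsup' (by
    intro k c hc S hS
    rw [hfib k c hc]
    exact hGW k c hc S hS)
  refine le_trans (le_of_eq ?_) h
  apply sum_congr rfl
  intro b hb
  have hbA : b ∈ Al B σ (σ b) := (mem_Al B σ).2 ⟨hb, le_rfl⟩
  rw [u, avg, hfib (σ b) b hbA]

/-! ### word-dependent weights -/

open GWminx18 in
/-- ONE ZONE, weights `W b` depending on the word, natural hypothesis at every node. -/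
theorem zone_min (B : Finset Ω) (σ : Ω → ℕ) (nd : ℕ → Ω → N) (F : ℕ → N → Finset Ω)
    (ν f : Ω → ℝ) (om : ℕ → N → Ω → ℝ) (om0 W : Ω → ℝ) (kap C1 : ℝ)
    (hnest : ∀ k, ∀ b ∈ B, ∀ c ∈ B, k + 1 ≤ σ b → k + 1 ≤ σ c →
      nd (k + 1) b = nd (k + 1) c → nd k b = nd k c)
    (hF : ∀ k, ∀ b ∈ B, k ≤ σ b → b ∈ F k (nd k b))
    (hν : ∀ k a, ∀ b ∈ F k a, 0 ≤ ν b) (hνB : ∀ b ∈ B, 0 < ν b)
    (hf0 : ∀ b, 0 ≤ f b) (hf1 : ∀ b, f b ≤ 1)
    (hom : ∀ k, ∀ b ∈ B, k ≤ σ b → om k (nd k b) b = om0 b)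
    (hom1 : ∀ k a, ∀ b ∈ F k a, om k a b ≤ 1)
    (hW0 : ∀ b ∈ B, 0 ≤ W b) (hW1 : ∀ b ∈ B, W b ≤ 1) (hk : 0 ≤ kap) (hC1 : 1 ≤ C1)
    (hsup : ∀ k, ∀ c ∈ Al B σ k,
      ∑ a ∈ ((Al B σ (k + 1)).filter (fun b => nd k b = nd k c)).image (nd (k + 1)),
        ∑ b ∈ F (k + 1) a, ν b ≤ ∑ b ∈ F k (nd k c), ν b)
    (hyp : ∀ k, ∀ c ∈ Al B σ k, ∀ s : ℝ, 0 ≤ s → s ≤ 1 →
      ∑ b ∈ (F k (nd k c)).filter (fun b => 1 - om k (nd k c) b ≤ s), ν b ≤
        C1 * (s + kap) * ∑ b ∈ F k (nd k c), ν b) :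
    ∑ c ∈ B, (∑ b ∈ Al B σ (σ c) with nd (σ c) b = nd (σ c) c,
        (ν c * f c) * (ν b * f b) * min (W c) (W b)) / (∑ b ∈ F (σ c) (nd (σ c) c), ν b) ≤
      10 * (16 * C1 * (∑ b ∈ B, ν b * f b * (W b * (1 - om0 b))) +
        2 * C1 * (∑ b ∈ B, ν b * f b * (kap * W b))) := by
  set D : ℕ → N → ℝ := fun k a => ∑ b ∈ F k a, ν b with hDdef
  have hD0 : ∀ k a, 0 ≤ D k a := fun k a => sum_nonneg fun b hb => hν k a b hb
  have hDpos : ∀ k, ∀ b ∈ Al B σ k, 0 < D k (nd k b) := by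
    intro k b hb
    have hb' := (mem_Al B σ).1 hb
    exact lt_of_lt_of_le (hνB b hb'.1)
      (single_le_sum (f := ν) (fun c hc => hν k _ c hc) (hF k b hb'.1 hb'.2))
  -- the layer at height x
  have key : ∀ x : ℝ, ∑ c ∈ B, (∑ b ∈ Al B σ (σ c) with nd (σ c) b = nd (σ c) c,
        (ν c * f c) * (ν b * f b) * (if x < min (W c) (W b) then (1:ℝ) else 0)) /
          D (σ c) (nd (σ c) c) ≤
      10 * ((16 * C1) * (∑ b ∈ B.filter (fun b => x < W b), ν b * f b * (1 - om0 b)) +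
        (2 * C1) * (∑ b ∈ B.filter (fun b => x < W b), ν b * f b * kap)) := by
    intro x
    set Bx := B.filter (fun b => x < W b) with hBx
    have hBs : Bx ⊆ B := filter_subset _ _
    have hAs : ∀ k, Al Bx σ k ⊆ Al B σ k := fun k => filter_subset_filter _ hBs
    have h := charge_le_D Bx σ nd D (fun b => ν b * f b)
      (fun b => 16 * C1 * (1 - om0 b) + 2 * C1 * kap)
      (fun k b hb c hc => hnest k b (hBs hb) c (hBs hc))
      (fun b hb => mul_nonneg (hνB b (hBs hb)).le (hf0 b))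
      (fun k b hb => hDpos k b (hAs k hb))
      (fun k c hc => le_trans (sum_le_sum_of_subset_of_nonneg
        (image_subset_image (filter_subset_filter _ (hAs (k + 1)))) fun a _ _ => hD0 _ _)
        (hsup k c (hAs k hc)))
      (fun k c hc S hS => by
        have hcA := hAs k hc
        have hSF : S ⊆ F k (nd k c) := by
          intro b hb
          have h1 := mem_filter.1 (hS hb)
          have h2 := (mem_Al B σ).1 (hAs k h1.1)
          have h3 := hF k b h2.1 h2.2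
          rwa [h1.2] at h3
        have h2 := GWx972.node_bound (F k (nd k c)) S hSF ν f (om k (nd k c))
          (hν k _) (fun b _ => hf0 b) (fun b _ => hf1 b) (hom1 k _) 1 kap C1 zero_le_one le_rfl
          hk hC1 (hyp k c hcA)
        rw [one_mul, div_le_iff₀ (hDpos k c hcA)] at h2
        refine h2.trans (le_of_eq ?_)
        rw [mul_comm]
        congr 1
        rw [mul_sum, mul_sum, ← sum_add_distrib]
        apply sum_congr rfl
        intro b hb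
        have h1 := mem_filter.1 (hS hb)
        have h3 := (mem_Al B σ).1 (hAs k h1.1)
        rw [← hom k b h3.1 h3.2, h1.2]
        ring)
    have e1 : ∑ c ∈ B, (∑ b ∈ Al B σ (σ c) with nd (σ c) b = nd (σ c) c,
        (ν c * f c) * (ν b * f b) * (if x < min (W c) (W b) then (1:ℝ) else 0)) /
          D (σ c) (nd (σ c) c) = ∑ b ∈ Bx, (ν b * f b) *
          ((∑ c ∈ Al Bx σ (σ b) with nd (σ b) c = nd (σ b) b, ν c * f c) /
            D (σ b) (nd (σ b) b)) := by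
      rw [hBx, sum_filter]
      apply sum_congr rfl
      intro c _
      split_ifs with hc
      · rw [mul_div_assoc', mul_sum]
        congr 1
        have e2 : (Al (B.filter (fun b => x < W b)) σ (σ c)).filter
            (fun b => nd (σ c) b = nd (σ c) c) =
            ((Al B σ (σ c)).filter (fun b => nd (σ c) b = nd (σ c) c)).filter
              (fun b => x < W b) := by
          ext b
          simp only [mem_filter, Al]
          tauto
        rw [e2, sum_filter (p := fun b => x < W b)]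
        apply sum_congr rfl
        intro b _
        by_cases hb : x < W b <;> simp [hb, hc]
      · rw [sum_eq_zero, zero_div]
        intro b _
        simp [hc]
    rw [e1]
    refine h.trans (le_of_eq ?_)
    congr 1
    rw [mul_sum, mul_sum, ← sum_add_distrib]
    exact sum_congr rfl fun b _ => by ring
  -- integrate
  have hint : ∀ c b : Ω, IntegrableOn (fun x : ℝ => (ν c * f c) * (ν b * f b) *
      (if x < min (W c) (W b) then (1:ℝ) else 0)) (Set.Ioc 0 1) :=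
    fun c b => (integrable_ind _).const_mul _
  have hintL : ∀ c : Ω, IntegrableOn (fun x : ℝ =>
      (∑ b ∈ Al B σ (σ c) with nd (σ c) b = nd (σ c) c,
        (ν c * f c) * (ν b * f b) * (if x < min (W c) (W b) then (1:ℝ) else 0)) /
          D (σ c) (nd (σ c) c)) (Set.Ioc 0 1) :=
    fun c => (integrable_finsetSum _ fun b _ => hint c b).div_const _
  have h1 := setIntegral_mono (μ := volume) (s := Set.Ioc (0:ℝ) 1)
    (integrable_finsetSum _ fun c _ => hintL c)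
    ((((integrable_sum1 B (fun b => ν b * f b * (1 - om0 b)) W).const_mul (16 * C1)).add
      ((integrable_sum1 B (fun b => ν b * f b * kap) W).const_mul (2 * C1))).const_mul 10) key
  rw [integral_finsetSum _ fun c _ => hintL c] at h1
  have h2 : ∀ c ∈ B, ∫ x in Set.Ioc (0:ℝ) 1,
      (∑ b ∈ Al B σ (σ c) with nd (σ c) b = nd (σ c) c,
        (ν c * f c) * (ν b * f b) * (if x < min (W c) (W b) then (1:ℝ) else 0)) /
          D (σ c) (nd (σ c) c) =
      (∑ b ∈ Al B σ (σ c) with nd (σ c) b = nd (σ c) c,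
        (ν c * f c) * (ν b * f b) * min (W c) (W b)) / D (σ c) (nd (σ c) c) := by
    intro c hc
    rw [integral_div, integral_finsetSum _ fun b _ => hint c b]
    congr 1
    apply sum_congr rfl
    intro b hb
    have hb' := (mem_Al B σ).1 (mem_filter.1 hb).1
    rw [integral_const_mul, int_ind _ (le_min (hW0 c hc) (hW0 b hb'.1))
      ((min_le_left _ _).trans (hW1 c hc))]
  rw [sum_congr rfl h2] at h1
  refine h1.trans (le_of_eq ?_)
  rw [integral_const_mul]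
  congr 1
  simp only [Pi.add_apply]
  rw [integral_add ((integrable_sum1 B _ W).const_mul _) ((integrable_sum1 B _ W).const_mul _),
    integral_const_mul, integral_const_mul, layer1 B _ W hW0 hW1, layer1 B _ W hW0 hW1]
  congr 2
  · exact sum_congr rfl fun b _ => by ring
  · exact sum_congr rfl fun b _ => by ring

/-- GW LEMMA WITH PERSISTERS, all zones: `S z` = words of `B` in the zone `z`; every changer `c`
(level `σ z c`) is charged with all members of its node. -/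
theorem gw_zones {Zt : Type*} (Zs : Finset Zt) (B : Finset Ω) (S : Zt → Finset Ω)
    (hSB : ∀ z ∈ Zs, S z ⊆ B) (σ : Zt → Ω → ℕ) (nd : Zt → ℕ → Ω → N)
    (F : Zt → ℕ → N → Finset Ω)
    (ν f : Ω → ℝ) (om : Zt → ℕ → N → Ω → ℝ) (om0 W : Zt → Ω → ℝ) (kap : Zt → ℝ) (C1 K : ℝ)
    (hnest : ∀ z ∈ Zs, ∀ k, ∀ b ∈ S z, ∀ c ∈ S z, k + 1 ≤ σ z b → k + 1 ≤ σ z c →
      nd z (k + 1) b = nd z (k + 1) c → nd z k b = nd z k c)
    (hF : ∀ z ∈ Zs, ∀ k, ∀ b ∈ S z, k ≤ σ z b → b ∈ F z k (nd z k b))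
    (hν : ∀ z ∈ Zs, ∀ k a, ∀ b ∈ F z k a, 0 ≤ ν b) (hνB : ∀ b ∈ B, 0 < ν b)
    (hf0 : ∀ b, 0 ≤ f b) (hf1 : ∀ b, f b ≤ 1)
    (hom : ∀ z ∈ Zs, ∀ k, ∀ b ∈ S z, k ≤ σ z b → om z k (nd z k b) b = om0 z b)
    (hom1 : ∀ z ∈ Zs, ∀ k a, ∀ b ∈ F z k a, om z k a b ≤ 1)
    (hW0 : ∀ z ∈ Zs, ∀ b ∈ S z, 0 ≤ W z b) (hW1 : ∀ z ∈ Zs, ∀ b ∈ S z, W z b ≤ 1)
    (hk : ∀ z ∈ Zs, 0 ≤ kap z) (hC1 : 1 ≤ C1)
    (hsup : ∀ z ∈ Zs, ∀ k, ∀ c ∈ Al (S z) (σ z) k,
      ∑ a ∈ ((Al (S z) (σ z) (k + 1)).filter (fun b => nd z k b = nd z k c)).image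
        (nd z (k + 1)), ∑ b ∈ F z (k + 1) a, ν b ≤ ∑ b ∈ F z k (nd z k c), ν b)
    (hyp : ∀ z ∈ Zs, ∀ k, ∀ c ∈ Al (S z) (σ z) k, ∀ s : ℝ, 0 ≤ s → s ≤ 1 →
      ∑ b ∈ (F z k (nd z k c)).filter (fun b => 1 - om z k (nd z k c) b ≤ s), ν b ≤
        C1 * (s + kap z) * ∑ b ∈ F z k (nd z k c), ν b)
    (tele : ∀ b ∈ B, ∑ z ∈ Zs with b ∈ S z, W z b * (1 - om0 z b) ≤ 1)
    (hK : ∀ b ∈ B, ∑ z ∈ Zs with b ∈ S z, kap z * W z b ≤ K) :
    ∑ z ∈ Zs, ∑ c ∈ S z,
      (∑ b ∈ Al (S z) (σ z) (σ z c) with nd z (σ z c) b = nd z (σ z c) c,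
        (ν c * f c) * (ν b * f b) * min (W z c) (W z b)) /
          (∑ b ∈ F z (σ z c) (nd z (σ z c) c), ν b) ≤
      10 * (16 * C1 + 2 * C1 * K) * ∑ b ∈ B, ν b * f b := by
  have hC0 : 0 < C1 := by linarith
  have swap : ∀ h : Zt → Ω → ℝ, ∑ z ∈ Zs, ∑ b ∈ S z, ν b * f b * h z b =
      ∑ b ∈ B, ν b * f b * ∑ z ∈ Zs with b ∈ S z, h z b := by
    intro h
    have h1 : ∀ z ∈ Zs, ∑ b ∈ S z, ν b * f b * h z b =
        ∑ b ∈ B, if b ∈ S z then ν b * f b * h z b else 0 := by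
      intro z hz
      rw [← sum_filter]
      apply sum_congr _ fun _ _ => rfl
      ext b
      simp only [mem_filter]
      exact ⟨fun h => ⟨hSB z hz h, h⟩, fun h => h.2⟩
    rw [sum_congr rfl h1, sum_comm]
    apply sum_congr rfl
    intro b _
    rw [sum_filter, mul_sum]
    apply sum_congr rfl
    intro z _
    split_ifs <;> simp
  have hνf : ∀ b ∈ B, 0 ≤ ν b * f b := fun b hb => mul_nonneg (hνB b hb).le (hf0 b)
  calc _ ≤ ∑ z ∈ Zs, 10 * (16 * C1 * (∑ b ∈ S z, ν b * f b * (W z b * (1 - om0 z b))) +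
          2 * C1 * (∑ b ∈ S z, ν b * f b * (kap z * W z b))) :=
        sum_le_sum fun z hz => zone_min (S z) (σ z) (nd z) (F z) ν f (om z) (om0 z) (W z) (kap z)
          C1 (hnest z hz) (hF z hz) (hν z hz) (fun b hb => hνB b (hSB z hz hb)) hf0 hf1
          (hom z hz) (hom1 z hz) (hW0 z hz) (hW1 z hz) (hk z hz) hC1 (hsup z hz) (hyp z hz)
    _ = 10 * (16 * C1 * (∑ b ∈ B, ν b * f b * ∑ z ∈ Zs with b ∈ S z, W z b * (1 - om0 z b)) +
          2 * C1 * (∑ b ∈ B, ν b * f b * ∑ z ∈ Zs with b ∈ S z, kap z * W z b)) := by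
        rw [← mul_sum, sum_add_distrib, ← mul_sum, ← mul_sum,
          swap (fun z b => W z b * (1 - om0 z b)), swap (fun z b => kap z * W z b)]
    _ ≤ 10 * (16 * C1 * (∑ b ∈ B, ν b * f b * 1) + 2 * C1 * (∑ b ∈ B, ν b * f b * K)) := by
        have a1 : ∑ b ∈ B, ν b * f b * ∑ z ∈ Zs with b ∈ S z, W z b * (1 - om0 z b) ≤
            ∑ b ∈ B, ν b * f b * 1 :=
          sum_le_sum fun b hb => mul_le_mul_of_nonneg_left (tele b hb) (hνf b hb)
        have a2 : ∑ b ∈ B, ν b * f b * ∑ z ∈ Zs with b ∈ S z, kap z * W z b ≤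
            ∑ b ∈ B, ν b * f b * K :=
          sum_le_sum fun b hb => mul_le_mul_of_nonneg_left (hK b hb) (hνf b hb)
        have b1 := mul_le_mul_of_nonneg_left a1 (show (0:ℝ) ≤ 16 * C1 by positivity)
        have b2 := mul_le_mul_of_nonneg_left a2 (show (0:ℝ) ≤ 2 * C1 by positivity)
        linarith
    _ = 10 * (16 * C1 + 2 * C1 * K) * ∑ b ∈ B, ν b * f b := by
        rw [← sum_mul, ← sum_mul]; ring

end Crest.Agent.R4C.GWzx966
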