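import Crest.Agent.R4C.HDelta_60
import Crest.Agent.R4C.RelGn_15
import Crest.Agent.R4C.VDepth_952

/-!
# Row 4, GW section, vector case: `GN.Ok` from the natural hypothesis with the coin error `KE`
(helper9; the proof is helper60's `HDelta_60.gn_ok`)

* `small`, `mass_small` : `HDelta_60` for the payment `Y3 + kapV` of `HDdef_529` and for
  `HDdef_529.HypT Z C1 c KE`;
* **`gn_okK`** : `(HDx529.gn Z R KV).Ok ν ν (4 C1) Δ` from `HDeltax60.RelP Z R Δ`;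
* **`relP_rel`** : `RelP` for the relation of `RelDeg_15`;
* **`gn_ok_rel`** : both orders for `Rel Z W R0`.
-/

set_option autoImplicit false

open Finset
open Crest.Agent.R4C.Basex935 Crest.Agent.R4C.Cutx50 Crest.Agent.R4C.PrefixMx882
open Crest.Agent.R4C.GWdefx982 Crest.Agent.R4C.GWrelx8 Crest.Agent.R4C.GWrelWx8
open Crest.Agent.R4C.NHx656 (On)
open Crest.Agent.R4C.GWnodex863
open Crest.Agent.R4C.HDx529 (Y3 kapV badT HypT gn)
open Crest.Agent.R4C.HDeltax60 (RelP Tgt Wp_nonneg Wp_le_one pz_eq mass_prefix g_eq low_node)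

namespace Crest.Agent.R4C.HDelKx9

variable {Z : World}

/-! ### the payment -/

lemma Y3_nonneg (z : Node) (w : ℕ) : 0 ≤ Y3 Z z w := by
  unfold HDx529.Y3
  split_ifs
  · linarith [Wp_le_one (Z := Z) (Z.cut (Z.pz z)) (Z.cut (Z.nb (Z.nb z.1 w) w)) w]
  · exact zero_le_one

lemma kapV_pos {KV : ℝ} (hK : 1 ≤ KV) (z : Node) : 0 < kapV Z KV z := by
  unfold HDx529.kapV
  exact lt_min one_pos (div_pos (by linarith) (by positivity))

lemma y_pos {KV : ℝ} (hK : 1 ≤ KV) (z : Node) (w : ℕ) : 0 < Y3 Z z w + kapV Z KV z := by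
  have h1 := Y3_nonneg (Z := Z) z w
  have h2 := kapV_pos (Z := Z) hK z
  linarith

lemma kapV_lt {KV t : ℝ} {z : Node} (ht : t < 1) (h : kapV Z KV z ≤ t) :
    KV / ((Z.pz z : ℝ) + 1) ≤ t := by
  unfold HDx529.kapV at h
  rcases min_le_iff.1 h with h2 | h2
  · linarith
  · exact h2

/-- everything about a word of a node with small payment -/
lemma small (hZ : Z.Ok) {KV t : ℝ} (hK : 1 ≤ KV) (ht : t < 1) {z n : Node} {w : ℕ}
    (hn : n ∈ Z.Nd z) (hw : w ∈ Z.S n) (hy : Y3 Z z w + kapV Z KV z ≤ t) :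
    Z.i0 ≤ Z.pz z ∧ KV / ((Z.pz z : ℝ) + 1) ≤ t ∧ Z.pz z < z.1 ∧ z.1 ≤ n.1 ∧
    Z.birth z.1 w ∧ Z.prev z.1 w = Z.pz z ∧ Z.hasPrev z.1 w ∧
    ∃ b1 b2, n.1 < b1 ∧ b1 < b2 ∧ Z.birth b1 w ∧ Z.birth b2 w ∧
      ∀ i, Z.pz z ≤ i → 1 - Z.Wp (Z.cut i) (Z.cut b2) w ≤ t := by
  classical
  obtain ⟨h1, h2, h3, h4, h5⟩ := Nd_all hZ hn hw
  have hY0 := Y3_nonneg (Z := Z) z w
  have hk0 := kapV_pos (Z := Z) hK z
  have hkt : kapV Z KV z ≤ t := by linarith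
  have hYt : Y3 Z z w ≤ t := by linarith
  have a2 := kapV_lt ht hkt
  have hpz := pz_eq hZ h2
  have hpzpos : 0 < Z.pz z := by
    rcases Nat.eq_zero_or_pos (Z.pz z) with h | h
    · rw [h] at a2
      have : KV / ((0 : ℕ) + 1 : ℝ) = KV := by simp
      rw [this] at a2
      linarith
    · exact h
  have hprev0 : Z.prev z.1 w ≠ 0 := by omega
  have hprev := Nat.findGreatest_of_ne_zero (P := fun i' => i' < z.1 ∧ Z.nd i' w)
    (n := z.1) (m := Z.prev z.1 w) rfl hprev0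
  have a1 : Z.i0 ≤ Z.pz z := by rw [hpz]; exact hprev.2.1
  have hb : Z.hasNb z.1 w ∧ Z.hasNb (Z.nb z.1 w) w := by
    by_contra hcon
    unfold HDx529.Y3 at hYt
    rw [if_neg hcon] at hYt
    linarith
  obtain ⟨p1, _, p3⟩ := GWbirthx33.nb_spec hb.1
  obtain ⟨q1, _, q3⟩ := GWbirthx33.nb_spec hb.2
  have hi1 : n.1 < Z.nb z.1 w := by
    by_contra hcon
    have h6 := le_bi (not_lt.1 hcon) p3
    omega
  refine ⟨a1, a2, by omega, h3, h4, hpz.symm, ⟨_, hprev.1, hprev.2⟩,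
    Z.nb z.1 w, Z.nb (Z.nb z.1 w) w, hi1, q1, p3, q3, fun i hi => ?_⟩
  unfold HDx529.Y3 at hYt
  rw [if_pos hb] at hYt
  have h7 := GWbirthx33.Wp_le (Z := Z) (w := w) (hZ.hcut hi)
    (le_refl (Z.cut (Z.nb (Z.nb z.1 w) w)))
  linarith

/-! ### the mass bound -/

/-- masses of sets of words with small payment over one prefix -/
lemma mass_small (hZ : Z.Ok) (hθ : ∀ i, Z.i0 ≤ i → Z.θ i ≤ 2 ^ i) {KV KE C1 c Δ : ℝ}
    (hKE : 0 ≤ KE) (hC1 : 1 ≤ C1)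
    (hθm : ∀ i j, Z.i0 ≤ i → i ≤ j → Z.θ i ≤ Z.θ j) (hH : HypT Z C1 c KE)
    (hnum : ∀ p : ℕ, Z.i0 ≤ p → Δ * Z.θ p ^ (-c) + KE / ((p : ℝ) + 1) ≤ KV / ((p : ℝ) + 1))
    {i n : ℕ} {AA : Finset ℝ} (hAA : (AA.card : ℝ) ≤ Δ) {t : ℝ} (ht0 : 0 < t)
    (U : Finset ℕ) (hU0 : ∀ w ∈ U, w ∣ Z.N ∧ low (Z.cut i) w = n)
    (hU : t < 1 → ∀ w ∈ U, Z.nd i w ∧ Tgt Z AA i w ∧
      ∃ p, Z.i0 ≤ p ∧ p ≤ i ∧ KV / ((p : ℝ) + 1) ≤ t ∧ ¬ On (Z.θ p) (Z.yy i w) (Z.tt i w) ∧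
        ∃ b1 b2, i < b1 ∧ b1 < b2 ∧ Z.birth b1 w ∧ Z.birth b2 w ∧
          1 - Z.Wp (Z.cut i) (Z.cut b2) w ≤ t) :
    ∑ w ∈ U, nu Z.N w ≤ 2 * C1 * t * nu (low (Z.cut i) Z.N) n := by
  classical
  have hg0 := nu_nonneg (low (Z.cut i) Z.N) n
  rcases le_or_gt t (1 / 2) with ht | ht
  swap
  · have h1 := mass_prefix (n := n) hZ U hU0
    have : 1 ≤ 2 * C1 * t := by nlinarith
    nlinarith
  rcases U.eq_empty_or_nonempty with hE | ⟨w0, hw0⟩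
  · rw [hE, sum_empty]
    positivity
  have hU' := hU (by linarith)
  obtain ⟨-, -, q, hq1, hq2, hq3, -⟩ := hU' w0 hw0
  have hex : ∃ p : ℕ, Z.i0 ≤ p ∧ KV / ((p : ℝ) + 1) ≤ t := ⟨q, hq1, hq3⟩
  set p0 := Nat.find hex with hp0
  obtain ⟨hp1, hp2⟩ := Nat.find_spec hex
  have hpi : p0 ≤ i := (Nat.find_min' hex ⟨hq1, hq3⟩).trans hq2
  have hθ1 : 1 < Z.θ p0 := hZ.hθ _ hp1
  have hsub : U ⊆ badT Z i n AA (Z.θ p0) t := by
    intro w hw
    obtain ⟨h1, h3⟩ := hU0 w hw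
    obtain ⟨h2, h4, p, h5, h6, h7, h8, b1, b2, h9, h10, h11, h12, h13⟩ := hU' w hw
    unfold HDx529.badT
    rw [mem_filter, Nat.mem_divisors]
    refine ⟨⟨h1, hZ.hN.ne'⟩, h2, h3, h4, fun hon => h8 ?_, b1, b2, h9, h10, h11.1, h12, h13⟩
    exact hon.mono (hθm _ _ hp1 (Nat.find_min' hex ⟨h5, h7⟩))
  have hmain := hH i n AA (Z.θ p0) t (hp1.trans hpi) hθ1.le
    ((hθm _ _ hp1 hpi).trans (hθ i (hp1.trans hpi))) ht0.le ht
  refine (sum_le_sum_of_subset_of_nonneg hsub fun w _ _ => nu_nonneg _ _).trans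
    (hmain.trans ?_)
  refine mul_le_mul_of_nonneg_right ?_ hg0
  have h1i : KE / ((i : ℝ) + 1) ≤ KE / ((p0 : ℝ) + 1) := by
    refine div_le_div_of_nonneg_left hKE (by positivity) ?_
    have : (p0 : ℝ) ≤ i := by exact_mod_cast hpi
    linarith
  have hθp : 0 ≤ Z.θ p0 ^ (-c) := Real.rpow_nonneg (by linarith) _
  have h3 : (AA.card : ℝ) * Z.θ p0 ^ (-c) ≤ Δ * Z.θ p0 ^ (-c) :=
    mul_le_mul_of_nonneg_right hAA hθp
  have h4 := hnum p0 hp1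
  have h5 : t + (AA.card : ℝ) * Z.θ p0 ^ (-c) + KE / ((i : ℝ) + 1) ≤ 2 * t := by linarith
  calc C1 * (t + AA.card * Z.θ p0 ^ (-c) + KE / ((i : ℝ) + 1))
      ≤ C1 * (2 * t) := mul_le_mul_of_nonneg_left h5 (by linarith)
    _ = 2 * C1 * t := by ring

/-! ### the three hypotheses -/

section main

variable {R : Node → Node → Prop} {KV KE C1 c Δ : ℝ}

/-- first order -/
lemma H1_aux (hZ : Z.Ok) (hθ : ∀ i, Z.i0 ≤ i → Z.θ i ≤ 2 ^ i) (hR : RelP Z R Δ) (hK : 1 ≤ KV)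
    (hKE : 0 ≤ KE) (hC1 : 1 ≤ C1)
    (hθm : ∀ i j, Z.i0 ≤ i → i ≤ j → Z.θ i ≤ Z.θ j) (hH : HypT Z C1 c KE)
    (hnum : ∀ p : ℕ, Z.i0 ≤ p → Δ * Z.θ p ^ (-c) + KE / ((p : ℝ) + 1) ≤ KV / ((p : ℝ) + 1))
    {z n : Node} (hn : n ∈ Z.Nd z) {t : ℝ} (ht : 0 < t) :
    ∑ z' ∈ (gn Z R KV).Zs, ∑ n' ∈ (gn Z R KV).Out z n z',
      ∑ w ∈ ((gn Z R KV).S z' n').filter (fun w => (gn Z R KV).y' z' w ≤ t), nu Z.N w ≤
      4 * C1 * t * Z.g n := by
  classical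
  set G := gn Z R KV with hG
  set U : Finset ℕ := Z.N.divisors.filter fun w => (GN.pairs1 G z n t w).Nonempty with hUdef
  have hpair : ∀ {w : ℕ} {x : (_ : Node) × Node}, x ∈ GN.pairs1 G z n t w →
      x.2 ∈ Z.Nd x.1 ∧ R n x.2 ∧ w ∈ Z.S x.2 ∧ Y3 Z x.1 w + kapV Z KV x.1 ≤ t := by
    intro w x hx
    unfold GN.pairs1 at hx
    rw [mem_filter, mem_sigma] at hx
    obtain ⟨⟨-, h2⟩, h3, h4⟩ := hx
    unfold GN.Out at h2
    rw [mem_filter] at h2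
    exact ⟨h2.1, h2.2, h3, h4⟩
  have hmem : ∀ w, (GN.pairs1 G z n t w).Nonempty → w ∈ U := by
    intro w hw
    obtain ⟨x, hx⟩ := hw
    rw [hUdef, mem_filter, Nat.mem_divisors]
    exact ⟨⟨(low_node hZ (hpair hx).2.2.1).1, hZ.hN.ne'⟩, x, hx⟩
  have hcard : ∀ w ∈ U, ((GN.pairs1 G z n t w).card : ℝ) ≤ 1 := by
    intro w _
    have : (GN.pairs1 G z n t w).card ≤ 1 := by
      rw [Finset.card_le_one]
      intro x hx y hy
      obtain ⟨a1, a2, a3, -⟩ := hpair hx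
      obtain ⟨b1, b2, b3, -⟩ := hpair hy
      obtain ⟨-, -, -, c1⟩ := low_node hZ a3
      obtain ⟨-, -, -, c2⟩ := low_node hZ b3
      have e1 : x.2.1 = y.2.1 := (hR.idx a2).1.symm.trans (hR.idx b2).1
      have e2 : x.2 = y.2 := by rw [← c1, ← c2, e1]
      have e3 : x.1 = y.1 := by
        rw [← (Nd_all hZ a1 a3).1, ← (Nd_all hZ b1 b3).1, e1]
      exact Sigma.ext e3 (heq_of_eq e2)
    exact_mod_cast this
  obtain ⟨AA, hAA, hAA2⟩ := hR.tgtO n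
  have hmass : ∑ w ∈ U, nu Z.N w ≤ 2 * C1 * t * Z.g n := by
    refine mass_small (n := n.2.1) hZ hθ hKE hC1 hθm hH hnum hAA ht U ?_ ?_
    · intro w hw
      rw [hUdef, mem_filter] at hw
      obtain ⟨x, hx⟩ := hw.2
      obtain ⟨a1, a2, a3, a4⟩ := hpair hx
      obtain ⟨b1, b2, b3, b4⟩ := low_node hZ a3
      obtain ⟨i1, i2⟩ := hR.idx a2
      rw [← i1, ← i2] at b3
      exact ⟨b1, b3⟩
    · intro ht1 w hw
      rw [hUdef, mem_filter] at hw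
      obtain ⟨x, hx⟩ := hw.2
      obtain ⟨a1, a2, a3, a4⟩ := hpair hx
      obtain ⟨b1, b2, b3, b4⟩ := low_node hZ a3
      obtain ⟨i1, i2⟩ := hR.idx a2
      obtain ⟨c1, c2, c3, c4, c5, c6, c7, β1, β2, d1, d2, d3, d4, d5⟩ := small hZ hK ht1 a1 a3 a4
      have htg := hAA2 _ a2 w a3
      rw [← i1] at b2 b3 c4 d1 htg
      refine ⟨b2, htg, Z.pz x.1, c1, by omega, c2, ?_, β1, β2, d1, d2, d3, d4, d5 _ (by omega)⟩
      have := GWbirthx33.not_on_later hZ b1 c5 c7 c4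
      rwa [c6] at this
  refine (H1_of_mult G (fun _ => nu Z.N) (nu Z.N) (fun w => nu_nonneg _ _) (fun _ _ => le_rfl)
    (z := z) (n := n) (t := t) (μ := 1) zero_le_one U hmem hcard hmass).trans ?_
  have hg := (g_pos hZ hn).le
  have : 0 ≤ 2 * C1 * t * Z.g n := by positivity
  linarith

/-- one node -/
lemma H0_aux (hZ : Z.Ok) (hθ : ∀ i, Z.i0 ≤ i → Z.θ i ≤ 2 ^ i) (hK : 1 ≤ KV) (hKE : 0 ≤ KE)
    (hC1 : 1 ≤ C1) (hΔ : 2 ≤ Δ)
    (hθm : ∀ i j, Z.i0 ≤ i → i ≤ j → Z.θ i ≤ Z.θ j) (hH : HypT Z C1 c KE)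
    (hnum : ∀ p : ℕ, Z.i0 ≤ p → Δ * Z.θ p ^ (-c) + KE / ((p : ℝ) + 1) ≤ KV / ((p : ℝ) + 1))
    {z n : Node} (hn : n ∈ Z.Nd z) {t : ℝ} (ht : 0 < t) :
    ∑ w ∈ (Z.S n).filter (fun w => Y3 Z z w + kapV Z KV z ≤ t), nu Z.N w ≤
      4 * C1 * t * Z.g n := by
  classical
  have hg := (g_pos hZ hn).le
  have key : ∑ w ∈ (Z.S n).filter (fun w => Y3 Z z w + kapV Z KV z ≤ t), nu Z.N w ≤
      2 * C1 * t * Z.g n := by
    obtain ⟨AA, hAA, hAA2⟩ := HypWx473.two_targets hZ n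
    have hAA' : (AA.card : ℝ) ≤ Δ := by
      have : (AA.card : ℝ) ≤ 2 := by exact_mod_cast hAA
      linarith
    refine mass_small (n := n.2.1) hZ hθ hKE hC1 hθm hH hnum hAA' ht _ ?_ ?_
    · intro w hw
      obtain ⟨b1, b2, b3, b4⟩ := low_node hZ (mem_filter.1 hw).1
      exact ⟨b1, b3⟩
    · intro ht1 w hw
      rw [mem_filter] at hw
      obtain ⟨hwS, hwy⟩ := hw
      obtain ⟨b1, b2, b3, b4⟩ := low_node hZ hwS
      obtain ⟨c1, c2, c3, c4, c5, c6, c7, β1, β2, d1, d2, d3, d4, d5⟩ := small hZ hK ht1 hn hwS hwy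
      refine ⟨b2, hAA2 w hwS, Z.pz z, c1, by omega, c2, ?_, β1, β2, d1, d2, d3, d4,
        d5 _ (by omega)⟩
      have := GWbirthx33.not_on_later hZ b1 c5 c7 c4
      rwa [c6] at this
  have : 0 ≤ 2 * C1 * t * Z.g n := by positivity
  linarith

/-- second order -/
lemma H2_aux (hZ : Z.Ok) (hsq : ∀ i, Z.i0 ≤ i → 128 * Z.θ i ^ 2 ≤ 2 ^ i)
    (hθ : ∀ i, Z.i0 ≤ i → Z.θ i ≤ 2 ^ i) (hR : RelP Z R Δ) (hK : 1 ≤ KV) (hKE : 0 ≤ KE)
    (hC1 : 1 ≤ C1) (hθm : ∀ i j, Z.i0 ≤ i → i ≤ j → Z.θ i ≤ Z.θ j) (hH : HypT Z C1 c KE)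
    (hnum : ∀ p : ℕ, Z.i0 ≤ p → Δ * Z.θ p ^ (-c) + KE / ((p : ℝ) + 1) ≤ KV / ((p : ℝ) + 1))
    {z' m : Node} (hm : m ∈ Z.Nd z') {t : ℝ} (ht : 0 < t) :
    ∑ n' ∈ (gn Z R KV).Bl z' m, ∑ z ∈ (gn Z R KV).Zs, ∑ n ∈ (gn Z R KV).In z' n' z,
      ∑ w ∈ ((gn Z R KV).A z n).filter (fun w => (gn Z R KV).y z w ≤ t), nu Z.N w ≤
      4 * C1 * t * Z.g m := by
  classical
  set G := gn Z R KV with hG
  set U : Finset ℕ := Z.N.divisors.filter fun w => (GN.pairs2 G z' m t w).Nonempty with hUdef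
  have hpair : ∀ {w : ℕ} {x : (_ : Node) × (_ : Node) × Node}, x ∈ GN.pairs2 G z' m t w →
      x.1 ∈ Z.Nd z' ∧ m.1 ≤ x.1.1 ∧ Z.S x.1 ⊆ Z.S m ∧ (Z.S x.1).Nonempty ∧
      x.2.2 ∈ Z.Nd x.2.1 ∧ R x.2.2 x.1 ∧ w ∈ Z.A x.2.1 x.2.2 ∧ w ∈ Z.S x.2.2 ∧
      Y3 Z x.2.1 w + kapV Z KV x.2.1 ≤ t := by
    intro w x hx
    unfold GN.pairs2 at hx
    rw [mem_filter, mem_sigma, mem_sigma] at hx
    obtain ⟨⟨h1, -, h2⟩, h3, h4⟩ := hx
    unfold GN.Bl at h1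
    unfold GN.In at h2
    rw [mem_filter] at h1 h2
    exact ⟨h1.1, h1.2.1, h1.2.2.1, h1.2.2.2, h2.1, h2.2, h3, A_sub _ _ h3, h4⟩
  have hpre : ∀ {w : ℕ} {x : (_ : Node) × (_ : Node) × Node}, x ∈ GN.pairs2 G z' m t w →
      Z.nd m.1 w ∧ low (Z.cut m.1) w = m.2.1 := by
    intro w x hx
    obtain ⟨h1, h2, h3, ⟨u, hu⟩, h5, h6, -, h7, -⟩ := hpair hx
    obtain ⟨-, a2, a3, -⟩ := low_node hZ h7
    obtain ⟨-, b2, b3, -⟩ := low_node hZ hu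
    obtain ⟨-, c2, c3, -⟩ := low_node hZ (h3 hu)
    obtain ⟨i1, i2⟩ := hR.idx h6
    have e1 : low (Z.cut x.1.1) w = low (Z.cut x.1.1) u := by
      rw [b3, ← i2, ← i1, a3]
    have e2 := low_congr hZ h2 e1
    exact ⟨(nd_congr' e2).2 c2, e2.trans c3⟩
  have hmem : ∀ w, (GN.pairs2 G z' m t w).Nonempty → w ∈ U := by
    intro w hw
    obtain ⟨x, hx⟩ := hw
    rw [hUdef, mem_filter, Nat.mem_divisors]
    exact ⟨⟨(low_node hZ (hpair hx).2.2.2.2.2.2.2.1).1, hZ.hN.ne'⟩, x, hx⟩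
  -- multiplicity
  have hcard : ∀ w ∈ U, ((GN.pairs2 G z' m t w).card : ℝ) ≤ 2 := by
    intro w _
    have hinj : Set.InjOn (fun x : (_ : Node) × (_ : Node) × Node => decide (x.2.1.1 ≤ m.1))
        (GN.pairs2 G z' m t w : Set ((_ : Node) × (_ : Node) × Node)) := by
      intro x hx y hy hxy
      have hx' := hpair (mem_coe.1 hx)
      have hy' := hpair (mem_coe.1 hy)
      obtain ⟨x1, x2, x3, x4, x5, x6, x7, x8, -⟩ := hx'
      obtain ⟨y1, y2, y3', y4, y5, y6, y7, y8, -⟩ := hy'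
      obtain ⟨px, -⟩ := hpre (mem_coe.1 hx)
      obtain ⟨cx1, cx2, cx3, cx4, cx5⟩ := Nd_all hZ x5 x8
      obtain ⟨cy1, cy2, cy3, cy4, cy5⟩ := Nd_all hZ y5 y8
      obtain ⟨ix1, ix2⟩ := hR.idx x6
      obtain ⟨iy1, iy2⟩ := hR.idx y6
      -- the zones agree
      have hzz : x.2.1 = y.2.1 := by
        have hlab : ∀ {a : Node}, w ∈ Z.S a → Z.lab a.1 w = a := fun h => ((mem_S hZ).1 h).2.2
        have h1 : x.2.1.1 = y.2.1.1 := by
          simp only [decide_eq_decide] at hxy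
          by_cases hle : x.2.1.1 ≤ m.1
          · have hle' := hxy.1 hle
            have a1 : Z.bi m.1 w = x.2.1.1 := by
              refine le_antisymm ?_ (le_bi hle cx4)
              rw [← cx5]
              exact le_bi ((bi_le _ _).trans (by omega)) (birth_bi px)
            have a2 : Z.bi m.1 w = y.2.1.1 := by
              refine le_antisymm ?_ (le_bi hle' cy4)
              rw [← cy5]
              exact le_bi ((bi_le _ _).trans (by omega)) (birth_bi px)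
            rw [← a1, a2]
          · have hle' : ¬ y.2.1.1 ≤ m.1 := fun h => hle (hxy.2 h)
            obtain ⟨a1, -⟩ := hR.one x5 x1 hm x2 x3 x4 x6 x8 (not_le.1 hle)
            obtain ⟨b1, -⟩ := hR.one y5 y1 hm y2 y3' y4 y6 y8 (not_le.1 hle')
            rw [pz_eq hZ cx2] at a1
            rw [pz_eq hZ cy2] at b1
            have p1 := (ZCellx60.prev_spec (Z := Z) (j := x.2.1.1) (w := w)
              ⟨m.1, not_le.1 hle, px⟩).2.2
            have p2 := (ZCellx60.prev_spec (Z := Z) (j := y.2.1.1) (w := w)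
              ⟨m.1, not_le.1 hle', px⟩).2.2
            rcases lt_trichotomy x.2.1.1 y.2.1.1 with h | h | h
            · have := p2 _ h cx4.1
              omega
            · exact h
            · have := p1 _ h cy4.1
              omega
        rw [← hlab cx2, ← hlab cy2, h1]
      -- the nodes agree
      have hnn : x.2.2 = y.2.2 := by
        by_contra hne
        have := A_disj hZ x.2.1 x.2.2 x5 y.2.2 (by rw [hzz]; exact y5) hne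
        refine disjoint_left.1 this x7 ?_
        rw [hzz]; exact y7
      have hn'n' : x.1 = y.1 := by
        refine ZCellx60.cell_unique hZ hsq x1 y1 ?_ ?_
        · rw [← ix1, ← iy1, hnn]
        · rw [← ix2, ← iy2, hnn]
      refine Sigma.ext hn'n' (heq_of_eq (Sigma.ext hzz (heq_of_eq hnn)))
    have h2 := Finset.card_le_card_of_injOn (s := GN.pairs2 G z' m t w) (t := (univ : Finset Bool))
      (fun x : (_ : Node) × (_ : Node) × Node => decide (x.2.1.1 ≤ m.1)) (fun _ _ => mem_univ _) hinj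
    have h3 : (univ : Finset Bool).card = 2 := rfl
    rw [h3] at h2
    exact_mod_cast h2
  obtain ⟨AA, hAA, hAA2⟩ := hR.tgtI m
  have hmass : ∑ w ∈ U, nu Z.N w ≤ 2 * C1 * t * Z.g m := by
    refine mass_small (n := m.2.1) hZ hθ hKE hC1 hθm hH hnum hAA ht U ?_ ?_
    · intro w hw
      rw [hUdef, mem_filter] at hw
      obtain ⟨x, hx⟩ := hw.2
      exact ⟨(low_node hZ (hpair hx).2.2.2.2.2.2.2.1).1, (hpre hx).2⟩
    · intro ht1 w hw
      rw [hUdef, mem_filter] at hw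
      obtain ⟨x, hx⟩ := hw.2
      obtain ⟨x1, x2, x3, x4, x5, x6, x7, x8, x9⟩ := hpair hx
      obtain ⟨px1, px2⟩ := hpre hx
      obtain ⟨b1, b2, b3, b4⟩ := low_node hZ x8
      obtain ⟨i1, i2⟩ := hR.idx x6
      obtain ⟨c1, c2, c3, c4, c5, c6, c7, β1, β2, d1, d2, d3, d4, d5⟩ := small hZ hK ht1 x5 x8 x9
      have htg := hAA2 _ _ x6 x2 x3 x4 w x8 px1
      refine ⟨px1, htg, Z.pz x.2.1, c1, ?_, c2, ?_, β1, β2, by omega, d2, d3, d4, d5 _ ?_⟩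
      · by_cases hle : x.2.1.1 ≤ m.1
        · omega
        · exact (hR.one x5 x1 hm x2 x3 x4 x6 x8 (not_le.1 hle)).1.le
      · by_cases hle : x.2.1.1 ≤ m.1
        · have := GWbirthx33.not_on_later hZ b1 c5 c7 hle
          rwa [c6] at this
        · obtain ⟨e1, e2⟩ := hR.one x5 x1 hm x2 x3 x4 x6 x8 (not_le.1 hle)
          rw [e1]; exact e2
      · by_cases hle : x.2.1.1 ≤ m.1
        · omega
        · exact (hR.one x5 x1 hm x2 x3 x4 x6 x8 (not_le.1 hle)).1.le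
  refine (H2_of_mult G (fun _ => nu Z.N) (nu Z.N) (fun w => nu_nonneg _ _) (fun _ _ => le_rfl)
    (z' := z') (m := m) (t := t) (μ := 2) zero_le_two U hmem hcard hmass).trans ?_
  linarith

/-- **`GN.Ok` over the world, coin error `KE`** -/
theorem gn_okK (hZ : Z.Ok) (hsq : ∀ i, Z.i0 ≤ i → 128 * Z.θ i ^ 2 ≤ 2 ^ i) (hR : RelP Z R Δ)
    (hK : 1 ≤ KV) (hKE : 0 ≤ KE) (hC1 : 1 ≤ C1) (hΔ : 2 ≤ Δ)
    (hθm : ∀ i j, Z.i0 ≤ i → i ≤ j → Z.θ i ≤ Z.θ j) (hH : HypT Z C1 c KE)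
    (hnum : ∀ p : ℕ, Z.i0 ≤ p → Δ * Z.θ p ^ (-c) + KE / ((p : ℝ) + 1) ≤ KV / ((p : ℝ) + 1)) :
    (gn Z R KV).Ok (fun _ => nu Z.N) (fun _ => nu Z.N) (4 * C1) Δ := by
  have hθ : ∀ i, Z.i0 ≤ i → Z.θ i ≤ 2 ^ i := by
    intro i hi
    have h1 := hZ.hθ i hi
    have h2 := hsq i hi
    nlinarith
  exact
  { C0 := by linarith
    Δ1 := by linarith
    lam := fun z _ => lamNd hZ z
    g0 := fun z _ n hn => g_pos hZ hn
    gR := fun z _ n _ z' _ n' _ h => g_eq (hR.idx h)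
    f0 := fun _ w => nu_nonneg _ _
    f0' := fun _ w => nu_nonneg _ _
    y0 := fun z w => y_pos hK z w
    y0' := fun z w => y_pos hK z w
    deg := by
      classical
      intro z hz n hn
      have hdisj : Set.PairwiseDisjoint (↑(gn Z R KV).Zs : Set Node)
          (fun z' => (gn Z R KV).Out z n z') := by
        intro z1 _ z2 _ hne
        rw [Function.onFun, disjoint_left]
        intro n' h1 h2
        unfold GN.Out at h1 h2
        rw [mem_filter] at h1 h2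
        obtain ⟨w, hw, hw1⟩ := (mem_Nd_S hZ).1 h1.1
        exact hne (hw1.symm.trans (Nd_all hZ h2.1 hw).1)
      have h1 := card_biUnion hdisj
      have h2 := hR.deg n ((gn Z R KV).Zs.biUnion fun z' => (gn Z R KV).Out z n z') (by
        intro ν' hν'
        rw [mem_biUnion] at hν'
        obtain ⟨z', _, h3⟩ := hν'
        unfold GN.Out at h3
        exact (mem_filter.1 h3).2)
      rw [h1] at h2
      push_cast at h2
      exact h2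
    H0 := fun z' _ n' hn' t ht => H0_aux hZ hθ hK hKE hC1 hΔ hθm hH hnum hn' ht
    H1 := fun z hz n hn t ht => H1_aux hZ hθ hR hK hKE hC1 hθm hH hnum hn ht
    H2 := fun z' hz' m hm t ht => H2_aux hZ hsq hθ hR hK hKE hC1 hθm hH hnum hm ht }

end main

/-! ### the relation of `RelDeg_15` -/

open Crest.Agent.R4C.RelDegx15 in
/-- **`RelP` for the relation of `RelDeg_15`** -/
theorem relP_rel (hZ : Z.Ok) (hσ : Z.σ ≤ 1) {W : Finset (ℕ × ℕ)} (hW1 : ∀ p ∈ W, 0 < p.1)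
    (hW2 : ∀ p ∈ W, 0 < p.2) {R0 D Δ : ℝ} (hR0 : 0 ≤ R0) (hG : VDepthx952.Grow Z D)
    (hD : ∀ p ∈ W, 64 * ((p.1 : ℝ) + p.2 + R0) ≤ D)
    (h1 : 3 * (Dl W R0 : ℝ) ≤ Δ) (h2 : 3 * (Dl (W.image Prod.swap) R0 : ℝ) ≤ Δ) :
    RelP Z (Rel Z W R0) Δ where
  idx := fun h => ⟨h.1, h.2.1⟩
  deg := by
    classical
    intro ν T hT
    have h3 := card_rel_le hZ hσ hW2 hR0 T ν
    have h4 : T.filter (fun ν' => Rel Z W R0 ν ν') = T := filter_true_of_mem hT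
    have h5 : (T.card : ℝ) ≤ Dl W R0 := by
      have h6 : T.card ≤ Dl W R0 := by
        refine le_trans (le_of_eq ?_) h3
        congr 1
        rw [← h4]
        congr!
        rw [h4]
      exact_mod_cast h6
    have h7 : (0 : ℝ) ≤ Dl W R0 := Nat.cast_nonneg _
    linarith
  tgtO := by
    intro ν
    obtain ⟨AA, hAA, hAA2⟩ := exists_targets hZ hσ hW2 hR0 ν
    refine ⟨AA, ?_, fun ν' h w hw => ?_⟩
    · have : (AA.card : ℝ) ≤ 3 * (Dl W R0 : ℝ) := by exact_mod_cast hAA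
      linarith
    · have := hAA2 ν' h w hw
      rw [h.1] at this
      exact this
  tgtI := by
    intro m
    have hW2' : ∀ p ∈ W.image Prod.swap, 0 < p.2 := by
      intro p hp
      obtain ⟨q, hq, rfl⟩ := mem_image.1 hp
      exact hW1 q hq
    obtain ⟨AA, hAA, hAA2⟩ := exists_targets hZ hσ hW2' hR0 m
    refine ⟨AA, ?_, fun n n' h hmn hsub hne w hw hnd => ?_⟩
    · have : (AA.card : ℝ) ≤ 3 * (Dl (W.image Prod.swap) R0 : ℝ) := by exact_mod_cast hAA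
      linarith
    · obtain ⟨w', hw'⟩ := hne
      obtain ⟨a1, a2, a3⟩ := h.down_node hZ hmn hw hw' (hsub hw')
      have := hAA2 (Z.lab m.1 w) (rel_swap hZ a3) w a2
      exact this
  one := by
    intro z z' m n n' w hn hn' hm hmn hsub hne h hw hlt
    obtain ⟨e1, e2, w1, hw1, w1', hw1', p, hp, k, hk⟩ := h
    have h3 := VDepthx952.left_zone hZ (hW1 p hp) hG (hD p hp) hn hn' hm hmn hsub
      ⟨e1, e2, w1, hw1, w1', hw1', k, hk⟩ hw
    obtain ⟨_, _, h4⟩ := h3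
    rcases h4 with h4 | ⟨_, _, _, _, _, h5, h6⟩
    · exfalso
      have h5 : (Z.zone m.1 w).1 ≤ m.1 := bi_le _ _
      rw [h4] at h5
      omega
    · exact ⟨h5, h6⟩

open Crest.Agent.R4C.RelDegx15 in
/-- **both orders** -/
theorem gn_ok_rel (hZ : Z.Ok) (hσ : Z.σ ≤ 1) {W : Finset (ℕ × ℕ)} (hW1 : ∀ p ∈ W, 0 < p.1)
    (hW2 : ∀ p ∈ W, 0 < p.2) {R0 D Δ KV KE C1 c : ℝ} (hR0 : 0 ≤ R0) (hG : VDepthx952.Grow Z D)
    (hD : ∀ p ∈ W, 64 * ((p.1 : ℝ) + p.2 + R0) ≤ D)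
    (hsq : ∀ i, Z.i0 ≤ i → 128 * Z.θ i ^ 2 ≤ 2 ^ i)
    (h1 : 3 * (Dl W R0 : ℝ) ≤ Δ) (h2 : 3 * (Dl (W.image Prod.swap) R0 : ℝ) ≤ Δ)
    (hK : 1 ≤ KV) (hKE : 0 ≤ KE) (hC1 : 1 ≤ C1) (hΔ : 2 ≤ Δ) (hH : HypT Z C1 c KE)
    (hnum : ∀ p : ℕ, Z.i0 ≤ p → Δ * Z.θ p ^ (-c) + KE / ((p : ℝ) + 1) ≤ KV / ((p : ℝ) + 1)) :
    (gn Z (Rel Z W R0) KV).Ok (fun _ => nu Z.N) (fun _ => nu Z.N) (4 * C1) Δ ∧
    (gn Z (fun ν ν' => Rel Z W R0 ν' ν) KV).Ok (fun _ => nu Z.N) (fun _ => nu Z.N) (4 * C1) Δ := by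
  have hθm : ∀ i j, Z.i0 ≤ i → i ≤ j → Z.θ i ≤ Z.θ j := fun i j hi hij => hG.mono i j hi hij
  refine ⟨gn_okK hZ hsq (relP_rel hZ hσ hW1 hW2 hR0 hG hD h1 h2) hK hKE hC1 hΔ hθm hH hnum, ?_⟩
  have e : (fun ν ν' => Rel Z W R0 ν' ν) = Rel Z (W.image Prod.swap) R0 := by
    funext ν ν'
    exact propext (relT_iff hZ)
  rw [e]
  have hsw : (W.image Prod.swap).image Prod.swap = W := by
    ext p
    simp only [mem_image]
    constructor
    · rintro ⟨q, ⟨r, hr, rfl⟩, rfl⟩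
      rwa [Prod.swap_swap]
    · intro hp
      exact ⟨p.swap, ⟨p, hp, rfl⟩, Prod.swap_swap p⟩
  refine gn_okK hZ hsq (relP_rel hZ hσ ?_ ?_ hR0 hG ?_ h2 (by rw [hsw]; exact h1)) hK hKE hC1 hΔ hθm
    hH hnum
  · intro p hp
    obtain ⟨q, hq, rfl⟩ := mem_image.1 hp
    exact hW2 q hq
  · intro p hp
    obtain ⟨q, hq, rfl⟩ := mem_image.1 hp
    exact hW1 q hq
  · intro p hp
    obtain ⟨q, hq, rfl⟩ := mem_image.1 hp
    have := hD q hq
    simp only [Prod.fst_swap, Prod.snd_swap]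
    linarith

end Crest.Agent.R4C.HDelKx9
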