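import Crest.Agent.R4C.HDpt_529

/-!
# Row 4, GW section, vector case: `(H_Δ)` = the fields `H0`, `H1`, `H2` of Lemma V over the world of
`GWdef_982`, from the natural hypothesis per prefix with a finite set of targets (helper529)
-/

set_option autoImplicit false

open Finset
open Crest.Agent.R4C.Basex935 Crest.Agent.R4C.Cutx50 Crest.Agent.R4C.PrefixMx882
open Crest.Agent.R4C.GWdefx982
open Crest.Agent.R4C.NHx656 (On)
open Crest.Agent.R4C.GWcellx284 (tt_pos on_of_light dist_of_S tt_of_S pos_of_S)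
open Crest.Agent.R4C.GWnodex863
open Crest.Agent.R4C.ZCellx60 (yy_down prev_spec coprime_of_lt cell_unique)
open Crest.Agent.R4C.GWrelx8 (GN)
open Crest.Agent.R4C.GWrelWx8 (H1_of_mult H2_of_mult)

namespace Crest.Agent.R4C.HDx529

/-! ### targets -/

/-- a point linked with precision `R` is close to one of the targets -/
lemma near_target {y β τ R : ℝ} {u i J : ℕ} {h : ℤ} (hu : 1 ≤ u) (hτ1 : (2 : ℝ) ^ i ≤ τ)
    (hτ2 : τ < 2 ^ (i + 1)) (hR : 0 ≤ R) (hJ : R + 1 ≤ J) (hl : |(u : ℝ) * y - β + h| ≤ R / τ) :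
    ∃ a ∈ range u, ∃ j ∈ Icc (-(J : ℤ)) J, ∃ m : ℤ,
      |y - ((β + a) / u + j / 2 ^ i) - m| ≤ 1 / τ := by
  have hu0 : (0 : ℝ) < u := by exact_mod_cast hu
  have h2i : (0 : ℝ) < 2 ^ i := by positivity
  have hτ : 0 < τ := lt_of_lt_of_le h2i hτ1
  set m : ℤ := (-h) / u with hm
  set a : ℤ := (-h) % u with ha
  have huz : (0 : ℤ) < u := by exact_mod_cast hu
  have ha0 : 0 ≤ a := Int.emod_nonneg _ huz.ne'
  have ha1 : a < u := Int.emod_lt_of_pos _ huz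
  have hdec : -h = a + u * m := by
    rw [ha, hm]; exact (Int.emod_add_mul_ediv (-h) u).symm
  obtain ⟨a', ha'⟩ : ∃ a' : ℕ, a = a' := ⟨a.toNat, (Int.toNat_of_nonneg ha0).symm⟩
  set ε : ℝ := y - (β + a') / u - m with hε
  have e1 : (u : ℝ) * ε = (u : ℝ) * y - β + h := by
    have h2 : (h : ℝ) = -(a' : ℝ) - u * m := by
      have : ((-h : ℤ) : ℝ) = ((a' : ℤ) + u * m : ℤ) := by rw [hdec, ha']
      push_cast at this
      linarith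
    rw [hε, h2]
    field_simp
    ring
  have h1 : |ε| ≤ R / 2 ^ i := by
    have h3 : (u : ℝ) * |ε| ≤ R / τ := by
      rw [← abs_of_pos hu0, ← abs_mul, e1]; exact hl
    have h4 : |ε| ≤ (u : ℝ) * |ε| := by
      have : (1 : ℝ) ≤ u := by exact_mod_cast hu
      nlinarith [abs_nonneg ε]
    exact (h4.trans h3).trans (div_le_div_of_nonneg_left hR h2i hτ1)
  set j : ℤ := round (ε * 2 ^ i) with hj
  have h2 : |ε * 2 ^ i - j| ≤ 1 / 2 := abs_sub_round _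
  have h3 : |ε - j / 2 ^ i| ≤ 1 / τ := by
    have e2 : ε - j / 2 ^ i = (ε * 2 ^ i - j) / 2 ^ i := by field_simp
    rw [e2, abs_div, abs_of_pos h2i, div_le_div_iff₀ h2i hτ]
    have h4 : τ ≤ 2 * 2 ^ i := by rw [pow_succ] at hτ2; linarith
    nlinarith [abs_nonneg (ε * 2 ^ i - j)]
  have h5 : |(j : ℝ)| ≤ J := by
    have h6 : |(j : ℝ)| ≤ |ε * 2 ^ i| + |ε * 2 ^ i - j| := by
      have := abs_sub (ε * 2 ^ i) (ε * 2 ^ i - j)
      rwa [sub_sub_cancel] at this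
    have h7 : |ε * 2 ^ i| ≤ R := by
      rw [abs_mul, abs_of_pos h2i]
      calc |ε| * 2 ^ i ≤ R / 2 ^ i * 2 ^ i := mul_le_mul_of_nonneg_right h1 h2i.le
        _ = R := by field_simp
    linarith
  have h5' : |j| ≤ (J : ℤ) := by
    have : ((|j| : ℤ) : ℝ) ≤ ((J : ℤ) : ℝ) := by rw [Int.cast_abs]; exact_mod_cast h5
    exact_mod_cast this
  refine ⟨a', mem_range.2 ?_, j, mem_Icc.2 (abs_le.1 h5'), m, ?_⟩
  · have : (a' : ℤ) < u := by rw [← ha']; exact ha1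
    exact_mod_cast this
  · have e3 : y - ((β + a') / u + j / 2 ^ i) - m = ε - j / 2 ^ i := by rw [hε]; ring
    rw [e3]; exact h3

/-- the targets -/
noncomputable def tgt (W : Finset (ℕ × ℕ)) (β : ℕ × ℕ → ℝ) (g : ℕ × ℕ → ℕ) (i J : ℕ) :
    Finset ℝ :=
  W.biUnion fun p => (range (g p) ×ˢ Icc (-(J : ℤ)) J).image
    fun x => (β p + x.1) / (g p) + x.2 / 2 ^ i

lemma card_tgt (W : Finset (ℕ × ℕ)) (β : ℕ × ℕ → ℝ) (g : ℕ × ℕ → ℕ) (i J : ℕ) {Pi : ℝ}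
    (hg : ∀ p ∈ W, (g p : ℝ) ≤ Pi) :
    ((tgt W β g i J).card : ℝ) ≤ W.card * Pi * (2 * J + 1) := by
  have h1 : (tgt W β g i J).card ≤ ∑ p ∈ W, g p * (2 * J + 1) := by
    refine card_biUnion_le.trans (sum_le_sum fun p _ => card_image_le.trans ?_)
    rw [card_product, card_range, Int.card_Icc]
    refine Nat.mul_le_mul_left _ ?_
    omega
  calc ((tgt W β g i J).card : ℝ) ≤ ((∑ p ∈ W, g p * (2 * J + 1) : ℕ) : ℝ) := by exact_mod_cast h1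
    _ = ∑ p ∈ W, (g p : ℝ) * (2 * J + 1) := by push_cast; rfl
    _ ≤ ∑ _p ∈ W, Pi * (2 * J + 1) := by
        refine sum_le_sum fun p hp => mul_le_mul_of_nonneg_right (hg p hp) (by positivity)
    _ = W.card * Pi * (2 * J + 1) := by rw [sum_const, nsmul_eq_mul]; ring

lemma mem_tgt {W : Finset (ℕ × ℕ)} {β : ℕ × ℕ → ℝ} {g : ℕ × ℕ → ℕ} {i J : ℕ} {p : ℕ × ℕ}
    (hp : p ∈ W) {y τ R : ℝ} {h : ℤ} (hu : 1 ≤ g p) (hτ1 : (2 : ℝ) ^ i ≤ τ)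
    (hτ2 : τ < 2 ^ (i + 1)) (hR : 0 ≤ R) (hJ : R + 1 ≤ J)
    (hl : |(g p : ℝ) * y - β p + h| ≤ R / τ) :
    ∃ α ∈ tgt W β g i J, ∃ m : ℤ, |y - α - m| ≤ 1 / τ := by
  obtain ⟨a, ha, j, hj, m, hm⟩ := near_target hu hτ1 hτ2 hR hJ hl
  refine ⟨(β p + a) / (g p) + j / 2 ^ i, ?_, m, hm⟩
  unfold tgt
  rw [mem_biUnion]
  exact ⟨p, hp, mem_image.2 ⟨(a, j), mem_product.2 ⟨ha, hj⟩, rfl⟩⟩

/-! ### words with a small payment -/

variable {Z : World}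

lemma Y3_nonneg (z : Node) (w : ℕ) : 0 ≤ Y3 Z z w := by
  unfold Y3
  split_ifs
  · have := Budgetx966.Wp_le_one (Z := Z) (Z.cut (Z.pz z)) (Z.cut (Z.nb (Z.nb z.1 w) w)) w
    linarith
  · exact zero_le_one

lemma kapV_pos {KV : ℝ} (hKV : 1 ≤ KV) (z : Node) : 0 < kapV Z KV z := by
  unfold kapV
  exact lt_min one_pos (by positivity)

lemma pz_eq (hZ : Z.Ok) {z : Node} {w : ℕ} (hw : w ∈ Z.S z) : Z.pz z = Z.prev z.1 w := by
  unfold World.pz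
  rw [dif_pos ⟨w, hw⟩]
  exact S_prev hZ (Exists.choose_spec (⟨w, hw⟩ : (Z.S z).Nonempty)) hw le_rfl

lemma hasPrev_of_prev {i w : ℕ} (h : 0 < Z.prev i w) : Z.hasPrev i w := by
  classical
  by_contra hc
  have h2 : Z.prev i w = 0 := by
    unfold World.prev
    rw [Nat.findGreatest_eq_zero_iff]
    intro k _ _ hk
    exact hc ⟨k, hk⟩
  omega

/-- what a small payment gives -/
lemma small_pay (hZ : Z.Ok) {KV t : ℝ} (hKV : 1 ≤ KV) (ht : t < 1) {z ν : Node} {w : ℕ}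
    (hν : ν ∈ Z.Nd z) (hw : w ∈ Z.S ν) (hy : Y3 Z z w + kapV Z KV z ≤ t) :
    Z.pz z = Z.prev z.1 w ∧ Z.hasPrev z.1 w ∧ Z.i0 ≤ Z.pz z ∧ Z.pz z < z.1 ∧
      KV / ((Z.pz z : ℝ) + 1) ≤ t ∧
      ∃ b1 b2, ν.1 < b1 ∧ z.1 < b1 ∧ b1 < b2 ∧ Z.nd b1 w ∧ Z.birth b2 w ∧
        1 - Z.Wp (Z.cut (Z.pz z)) (Z.cut b2) w ≤ t := by
  classical
  obtain ⟨a1, a2, a3, a4, a5⟩ := Nd_all hZ hν hw
  have hY0 := Y3_nonneg (Z := Z) z w
  have hk0 := kapV_pos (Z := Z) hKV z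
  have hk : kapV Z KV z ≤ t := by linarith
  have hY : Y3 Z z w ≤ t := by linarith
  have hk2 : KV / ((Z.pz z : ℝ) + 1) ≤ t := by
    unfold kapV at hk
    rcases min_le_iff.1 hk with h | h
    · linarith
    · exact h
  have e1 := pz_eq hZ a2
  have hpos : 0 < Z.pz z := by
    by_contra hc
    have h0 : Z.pz z = 0 := by omega
    rw [h0] at hk2
    norm_num at hk2
    linarith
  have hprev : Z.hasPrev z.1 w := hasPrev_of_prev (by rw [← e1]; exact hpos)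
  obtain ⟨p1, p2, p3⟩ := prev_spec hprev
  have hb : Z.hasNb z.1 w ∧ Z.hasNb (Z.nb z.1 w) w := by
    by_contra hcon
    unfold Y3 at hY
    rw [if_neg hcon] at hY
    linarith
  obtain ⟨hb1, hb2⟩ := hb
  obtain ⟨q1, _, q3⟩ := GWbirthx33.nb_spec hb1
  obtain ⟨r1, _, r3⟩ := GWbirthx33.nb_spec hb2
  refine ⟨e1, hprev, ?_, ?_, hk2, Z.nb z.1 w, Z.nb (Z.nb z.1 w) w, ?_, q1, r1, q3.1, r3, ?_⟩
  · rw [e1]; exact p2.1
  · rw [e1]; exact p1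
  · by_contra hcon
    have h1 := le_bi (not_lt.1 hcon) q3
    omega
  · unfold Y3 at hY
    rw [if_pos ⟨hb1, hb2⟩] at hY
    exact hY

/-- the index from which on the payments may be `≤ t` -/
noncomputable def P0 (Z : World) (KV t : ℝ) : ℕ := max Z.i0 ⌈KV / t - 1⌉₊

lemma le_P0 {KV t : ℝ} (ht : 0 < t) : KV / ((P0 Z KV t : ℝ) + 1) ≤ t := by
  have h1 : KV / t - 1 ≤ (P0 Z KV t : ℝ) :=
    (Nat.le_ceil _).trans (by exact_mod_cast le_max_right _ _)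
  have h2 : (0 : ℝ) < (P0 Z KV t : ℝ) + 1 := by positivity
  rw [div_le_iff₀ h2]
  have h3 : KV / t ≤ (P0 Z KV t : ℝ) + 1 := by linarith
  rw [div_le_iff₀ ht] at h3
  linarith

lemma P0_le {KV t : ℝ} (ht : 0 < t) {p : ℕ} (h0 : Z.i0 ≤ p) (h : KV / ((p : ℝ) + 1) ≤ t) :
    P0 Z KV t ≤ p := by
  refine max_le h0 (Nat.ceil_le.2 ?_)
  have h2 : (0 : ℝ) < (p : ℝ) + 1 := by positivity
  rw [div_le_iff₀ h2] at h
  have h3 : KV / t ≤ (p : ℝ) + 1 := by rw [div_le_iff₀ ht]; linarith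
  linarith

lemma theta_le (hZ : Z.Ok) (hsq : ∀ i, Z.i0 ≤ i → 128 * Z.θ i ^ 2 ≤ 2 ^ i) {i : ℕ}
    (hi : Z.i0 ≤ i) : Z.θ i ≤ 2 ^ i := by
  have h1 := hZ.hθ i hi
  have h2 := hsq i hi
  nlinarith

/-- depth bound of the class of payments `≤ t` -/
noncomputable def K0 (Z : World) (KV Cb t : ℝ) : ℝ := max 1 (Z.θ (P0 Z KV t) / Cb ^ 2)

lemma not_on_K0 {KV Cb t y τ : ℝ} (h : ¬ On (Z.θ (P0 Z KV t) / Cb ^ 2) y τ) :
    ¬ On (K0 Z KV Cb t) y τ := by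
  intro hon
  unfold K0 at hon
  rcases le_total (1 : ℝ) (Z.θ (P0 Z KV t) / Cb ^ 2) with h1 | h1
  · rw [max_eq_right h1] at hon
    exact h hon
  · rw [max_eq_left h1] at hon
    exact absurd hon.one_lt (lt_irrefl _)

/-- **main estimate** : the natural hypothesis for payments `≤ t` -/
theorem mass_small (hZ : Z.Ok) {W : Finset (ℕ × ℕ)} {Pi R0 KV C1 c KE : ℝ} (hn : Num Z W Pi R0)
    (hC1 : 0 < C1) (hc : 0 < c) (hT : HypT Z C1 c KE) (hKV1 : 1 ≤ KV) (hKVE : KE ≤ KV)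
    {Cb : ℝ} (hCb : 1 ≤ Cb)
    (hKV : ∀ p : ℕ, Z.i0 ≤ p → ((p : ℝ) + 1) * (DT W Pi R0 * (Cb ^ 2 / Z.θ p) ^ c) ≤ KV)
    {i n : ℕ} {Λ : Finset ℝ} (hΛ : (Λ.card : ℝ) ≤ DT W Pi R0) {t : ℝ} (ht : 0 < t)
    (ht2 : t ≤ 1 / 2) (hPi : P0 Z KV t ≤ i) :
    ∑ w ∈ badT Z i n Λ (K0 Z KV Cb t) t, nu Z.N w ≤
      3 * C1 * t * nu (low (Z.cut i) Z.N) n := by
  have hi0 : Z.i0 ≤ P0 Z KV t := le_max_left _ _
  have hi : Z.i0 ≤ i := hi0.trans hPi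
  have hCb0 : 0 < Cb := by linarith
  have hθ := hZ.hθ _ hi0
  have hK1 : 1 ≤ K0 Z KV Cb t := le_max_left _ _
  have hK2 : K0 Z KV Cb t ≤ 2 ^ i := by
    refine max_le (one_le_pow₀ (by norm_num)) ?_
    calc Z.θ (P0 Z KV t) / Cb ^ 2 ≤ Z.θ (P0 Z KV t) := by
          refine div_le_self (by linarith) ?_
          exact one_le_pow₀ hCb
      _ ≤ 2 ^ (P0 Z KV t) := theta_le hZ hn.sq hi0
      _ ≤ 2 ^ i := pow_le_pow_right₀ (by norm_num) hPi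
  refine (hT i n Λ _ t hi hK1 hK2 ht.le ht2).trans ?_
  refine mul_le_mul_of_nonneg_right ?_ (nu_nonneg _ _)
  have hKV' := hKV _ hi0
  have hp1 : (0 : ℝ) < (P0 Z KV t : ℝ) + 1 := by positivity
  have hle := le_P0 (Z := Z) (KV := KV) ht
  have h1 : (Λ.card : ℝ) * K0 Z KV Cb t ^ (-c) ≤ t := by
    have h2 : K0 Z KV Cb t ^ (-c) ≤ (Cb ^ 2 / Z.θ (P0 Z KV t)) ^ c := by
      have h3 : Z.θ (P0 Z KV t) / Cb ^ 2 ≤ K0 Z KV Cb t := le_max_right _ _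
      have h4 : (0 : ℝ) < Z.θ (P0 Z KV t) / Cb ^ 2 := by positivity
      calc K0 Z KV Cb t ^ (-c) ≤ (Z.θ (P0 Z KV t) / Cb ^ 2) ^ (-c) :=
            Real.rpow_le_rpow_of_nonpos h4 h3 (by linarith)
        _ = (Cb ^ 2 / Z.θ (P0 Z KV t)) ^ c := by
            rw [Real.rpow_neg h4.le, ← Real.inv_rpow h4.le, inv_div]
    have h3 : (0 : ℝ) ≤ K0 Z KV Cb t ^ (-c) := by positivity
    have hD0 : 0 ≤ DT W Pi R0 := le_trans (Nat.cast_nonneg _) hΛ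
    calc (Λ.card : ℝ) * K0 Z KV Cb t ^ (-c)
        ≤ DT W Pi R0 * (Cb ^ 2 / Z.θ (P0 Z KV t)) ^ c := mul_le_mul hΛ h2 h3 hD0
      _ ≤ KV / ((P0 Z KV t : ℝ) + 1) := by
          rw [le_div_iff₀ hp1]; linarith
      _ ≤ t := hle
  have h2 : KE / ((i : ℝ) + 1) ≤ t := by
    have hi1 : (0 : ℝ) < (i : ℝ) + 1 := by positivity
    calc KE / ((i : ℝ) + 1) ≤ KV / ((i : ℝ) + 1) := div_le_div_of_nonneg_right hKVE hi1.le
      _ ≤ KV / ((P0 Z KV t : ℝ) + 1) := by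
          refine div_le_div_of_nonneg_left (by linarith) hp1 ?_
          have : (P0 Z KV t : ℝ) ≤ i := by exact_mod_cast hPi
          linarith
      _ ≤ t := hle
  nlinarith

/-- all words of a prefix -/
lemma mass_all (hZ : Z.Ok) {i n w : ℕ} (hw : w ∣ Z.N) (hl : low (Z.cut i) w = n) :
    ∑ w ∈ Z.N.divisors.filter (fun w => low (Z.cut i) w = n), nu Z.N w ≤
      nu (low (Z.cut i) Z.N) n := by
  have hd : n ∣ low (Z.cut i) Z.N := by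
    rw [← hl]; exact low_dvd _ hZ.hN.ne' hw
  exact (Lawx69.prob_part_eq (fun p => p ≤ Z.cut i) hZ.hN hd).le

/-! ### the relation -/

/-- numbers of the class -/
lemma cls_bd {W : Finset (ℕ × ℕ)} {Pi R0 : ℝ} (hn : Num Z W Pi R0) {p : ℕ × ℕ} (hp : p ∈ W) :
    1 ≤ p.1 ∧ 1 ≤ p.2 ∧ (p.1 : ℝ) ≤ Pi ∧ (p.2 : ℝ) ≤ Pi :=
  ⟨(hn.one_le p hp).1, (hn.one_le p hp).2, (hn.le_Pi p hp).1, (hn.le_Pi p hp).2⟩

/-- scale of a word of a node -/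
lemma tt_bd (hZ : Z.Ok) {i w : ℕ} (h : Z.nd i w) :
    (2 : ℝ) ^ i ≤ Z.tt i w ∧ Z.tt i w < 2 ^ (i + 1) := GWbirthx33.tt_bounds hZ h

/-- number of targets used -/
noncomputable def JJ (Pi R0 : ℝ) : ℕ := ⌈R0 + 9 * Pi + 1⌉₊

lemma JJ_ge (Pi R0 : ℝ) : R0 + 9 * Pi + 1 ≤ JJ Pi R0 := Nat.le_ceil _

lemma JJ_le {Pi R0 : ℝ} (h : 0 ≤ R0 + 9 * Pi + 1) : (2 * (JJ Pi R0 : ℝ) + 1) ≤
    2 * R0 + 18 * Pi + 5 := by
  have := (Nat.ceil_lt_add_one h).le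
  unfold JJ
  linarith

lemma card_le_DT {W : Finset (ℕ × ℕ)} {Pi R0 : ℝ} (hn : Num Z W Pi R0) (β : ℕ × ℕ → ℝ)
    (g : ℕ × ℕ → ℕ) (i : ℕ) (hg : ∀ p ∈ W, (g p : ℝ) ≤ Pi) :
    ((tgt W β g i (JJ Pi R0)).card : ℝ) ≤ DT W Pi R0 := by
  have h1 := hn.Pi_one
  have h2 := hn.R0_nonneg
  have h3 := JJ_le (Pi := Pi) (R0 := R0) (by linarith)
  refine (card_tgt W β g i _ hg).trans ?_
  unfold DT
  have h4 : (0 : ℝ) ≤ W.card := Nat.cast_nonneg _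
  calc (W.card : ℝ) * Pi * (2 * (JJ Pi R0 : ℝ) + 1) ≤
        (W.card : ℝ) * Pi * (2 * R0 + 18 * Pi + 5) :=
        mul_le_mul_of_nonneg_left h3 (by positivity)
    _ ≤ ((W.card : ℝ) + 1) * Pi * (2 * R0 + 18 * Pi + 5) := by
        refine mul_le_mul_of_nonneg_right ?_ (by linarith)
        exact mul_le_mul_of_nonneg_right (by linarith) (by linarith)

/-- deep at later indices -/
lemma deep_later (hZ : Z.Ok) {W : Finset (ℕ × ℕ)} {Pi R0 : ℝ} (hn : Num Z W Pi R0) {KV Cb t : ℝ}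
    (hCb : 1 ≤ Cb) (ht : 0 < t) {z ν : Node} {w i : ℕ} (hν : ν ∈ Z.Nd z) (hw : w ∈ Z.S ν)
    (hzi : z.1 ≤ i) (e1 : Z.pz z = Z.prev z.1 w) (hprev : Z.hasPrev z.1 w) (hi0 : Z.i0 ≤ Z.pz z)
    (hk : KV / ((Z.pz z : ℝ) + 1) ≤ t) :
    ¬ On (K0 Z KV Cb t) (Z.yy i w) (Z.tt i w) := by
  refine not_on_K0 fun hon => ?_
  have hwN : w ∣ Z.N := ((mem_S hZ).1 hw).1
  have hb := (Nd_all hZ hν hw).2.2.2.1
  refine GWbirthx33.not_on_later hZ hwN hb hprev hzi (hon.mono ?_)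
  rw [← e1]
  have h1 := P0_le (Z := Z) ht hi0 hk
  have h2 : Z.θ (P0 Z KV t) ≤ Z.θ (Z.pz z) := hn.mono _ _ (le_max_left _ _) h1
  have h3 := hZ.hθ _ (le_max_left Z.i0 ⌈KV / t - 1⌉₊)
  refine le_trans (div_le_self ?_ (one_le_pow₀ hCb)) h2
  have : (1 : ℝ) < Z.θ (P0 Z KV t) := h3
  linarith

/-- words of a node with a small payment lie in the bad set of the natural hypothesis -/
lemma mem_badT (hZ : Z.Ok) {W : Finset (ℕ × ℕ)} {Pi R0 : ℝ} (hn : Num Z W Pi R0) {KV Cb t : ℝ}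
    (hCb : 1 ≤ Cb) (hKV : 1 ≤ KV) (ht : 0 < t) (ht1 : t < 1) {z ν : Node} {w : ℕ}
    (hν : ν ∈ Z.Nd z) (hw : w ∈ Z.S ν) (hy : Y3 Z z w + kapV Z KV z ≤ t) {Λ : Finset ℝ}
    (hΛ : ∃ α ∈ Λ, ∃ m : ℤ, |Z.yy ν.1 w - α - m| ≤ 1 / Z.tt ν.1 w) :
    P0 Z KV t ≤ ν.1 ∧ w ∈ badT Z ν.1 ν.2.1 Λ (K0 Z KV Cb t) t := by
  classical
  obtain ⟨e1, hprev, hi0, hlt, hk, b1, b2, h1, _, h2, h3, h4, h5⟩ :=
    small_pay hZ hKV ht1 hν hw hy
  obtain ⟨a1, a2, a3, a4, a5⟩ := Nd_all hZ hν hw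
  obtain ⟨c1, c2, c3⟩ := (mem_S hZ).1 hw
  have hP := P0_le (Z := Z) ht hi0 hk
  refine ⟨by omega, ?_⟩
  unfold badT
  rw [mem_filter, Nat.mem_divisors]
  refine ⟨⟨c1, hZ.hN.ne'⟩, c2, ?_, hΛ, ?_, b1, b2, h1, h2, h3, h4, ?_⟩
  · rw [← c3]; rfl
  · exact deep_later hZ hn hCb ht hν hw a3 e1 hprev hi0 hk
  · have h6 := GWbirthx33.Wp_le (Z := Z) (w := w) (hZ.hcut (by omega : Z.pz z ≤ ν.1))
      (le_refl (Z.cut b2))
    linarith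

section main

variable {W : Finset (ℕ × ℕ)} {Pi R0 KV C1 c KE : ℝ} {R : Node → Node → Prop}

/-- `H0` and `H1` at one node: a family of nodes of the prefix of `ν` -/
theorem H1_core (hZ : Z.Ok) (hn : Num Z W Pi R0) (hC1 : 0 < C1) (hc : 0 < c)
    (hT : HypT Z C1 c KE) (hKV1 : 1 ≤ KV) (hKVE : KE ≤ KV)
    (hKV : ∀ p : ℕ, Z.i0 ≤ p →
      ((p : ℝ) + 1) * (DT W Pi R0 * ((R0 + 8 * Pi) ^ 2 / Z.θ p) ^ c) ≤ KV)
    {ν : Node} {Λ : Finset ℝ} (hΛ : (Λ.card : ℝ) ≤ DT W Pi R0) {t : ℝ} (ht : 0 < t) :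
    ∃ U : Finset ℕ, (∀ z' ν' w, ν' ∈ Z.Nd z' → w ∈ Z.S ν' → ν'.1 = ν.1 → ν'.2.1 = ν.2.1 →
        Y3 Z z' w + kapV Z KV z' ≤ t →
        (∃ α ∈ Λ, ∃ m : ℤ, |Z.yy ν.1 w - α - m| ≤ 1 / Z.tt ν.1 w) → w ∈ U) ∧
      ∑ w ∈ U, nu Z.N w ≤ (3 * C1 + 2) * t * Z.g ν := by
  classical
  have hPi := hn.Pi_one
  have hR0 := hn.R0_nonneg
  have hCb : 1 ≤ R0 + 8 * Pi := by linarith
  have hg0 : 0 ≤ Z.g ν := nu_nonneg _ _
  by_cases ht2 : t ≤ 1 / 2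
  · by_cases hP : P0 Z KV t ≤ ν.1
    · refine ⟨badT Z ν.1 ν.2.1 Λ (K0 Z KV (R0 + 8 * Pi) t) t, ?_, ?_⟩
      · intro z' ν' w hν' hw h1 h2 hy hnear
        rw [← h1] at hnear
        have := (mem_badT hZ hn hCb hKV1 ht (by linarith) hν' hw hy hnear).2
        rwa [h1, h2] at this
      · refine (mass_small hZ hn hC1 hc hT hKV1 hKVE hCb hKV hΛ ht ht2 hP).trans ?_
        unfold World.g at hg0 ⊢
        refine mul_le_mul_of_nonneg_right ?_ hg0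
        nlinarith
    · refine ⟨∅, ?_, ?_⟩
      · intro z' ν' w hν' hw h1 h2 hy hnear
        rw [← h1] at hnear
        have := (mem_badT hZ hn hCb hKV1 ht (by linarith) hν' hw hy hnear).1
        rw [h1] at this
        exact absurd this hP
      · rw [sum_empty]
        have : 0 ≤ (3 * C1 + 2) * t := by positivity
        exact mul_nonneg this hg0
  · push Not at ht2
    by_cases hex : ∃ w, w ∣ Z.N ∧ low (Z.cut ν.1) w = ν.2.1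
    · obtain ⟨w0, h1, h2⟩ := hex
      refine ⟨Z.N.divisors.filter (fun w => low (Z.cut ν.1) w = ν.2.1), ?_, ?_⟩
      · intro z' ν' w hν' hw h1 h2 _ _
        obtain ⟨c1, c2, c3⟩ := (mem_S hZ).1 hw
        rw [mem_filter, Nat.mem_divisors]
        refine ⟨⟨c1, hZ.hN.ne'⟩, ?_⟩
        rw [← h2, ← h1, ← c3]; rfl
      · refine (mass_all hZ h1 h2).trans ?_
        have h3 : (1 : ℝ) ≤ (3 * C1 + 2) * t := by nlinarith
        have h4 : nu (low (Z.cut ν.1) Z.N) ν.2.1 = Z.g ν := rfl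
        rw [h4]
        nlinarith
    · refine ⟨∅, ?_, ?_⟩
      · intro z' ν' w hν' hw h1 h2 _ _
        obtain ⟨c1, c2, c3⟩ := (mem_S hZ).1 hw
        refine absurd ⟨w, c1, ?_⟩ hex
        rw [← h2, ← h1, ← c3]; rfl
      · rw [sum_empty]
        have : 0 ≤ (3 * C1 + 2) * t := by positivity
        exact mul_nonneg this hg0

end main

end Crest.Agent.R4C.HDx529
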