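import Crest.Agent.R4C.HDelta_529

/-!
# Row 4, GW section, vector case: `(gn Z R KV).Ok` = all hypotheses of Lemma V (helper529)
-/

set_option autoImplicit false

open Finset
open Crest.Agent.R4C.Basex935 Crest.Agent.R4C.Cutx50 Crest.Agent.R4C.PrefixMx882
open Crest.Agent.R4C.GWdefx982
open Crest.Agent.R4C.NHx656 (On)
open Crest.Agent.R4C.GWcellx284 (tt_pos on_of_light dist_of_S tt_of_S pos_of_S)
open Crest.Agent.R4C.GWnodex863
open Crest.Agent.R4C.ZCellx60 (yy_down prev_spec coprime_of_lt cell_unique)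
open Crest.Agent.R4C.GWrelx8 (GN)
open Crest.Agent.R4C.GWrelWx8 (H1_of_mult H2_of_mult)

namespace Crest.Agent.R4C.HDx529

variable {Z : World} {W : Finset (ℕ × ℕ)} {Pi R0 KV C1 c KE : ℝ} {R : Node → Node → Prop}

/-- **`H0`** -/
theorem H0 (hZ : Z.Ok) (hn : Num Z W Pi R0) (hC1 : 0 < C1) (hc : 0 < c)
    (hT : HypT Z C1 c KE) (hKV1 : 1 ≤ KV) (hKVE : KE ≤ KV)
    (hKV : ∀ p : ℕ, Z.i0 ≤ p →
      ((p : ℝ) + 1) * (DT W Pi R0 * ((R0 + 8 * Pi) ^ 2 / Z.θ p) ^ c) ≤ KV)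
    {z' n' : Node} (hn' : n' ∈ Z.Nd z') {t : ℝ} (ht : 0 < t) :
    ∑ w ∈ (Z.S n').filter (fun w => Y3 Z z' w + kapV Z KV z' ≤ t), nu Z.N w ≤
      (3 * C1 + 2) * t * Z.g n' := by
  classical
  have hPi := hn.Pi_one
  have hR0 := hn.R0_nonneg
  obtain ⟨w0, hw0, _⟩ := (mem_Nd_S hZ).1 hn'
  set Λ : Finset ℝ := tgt {((1 : ℕ), (1 : ℕ))} (fun _ => Z.yy n'.1 w0) (fun _ => 1) n'.1
    (JJ Pi R0) with hΛ
  have hcard : (Λ.card : ℝ) ≤ DT W Pi R0 := by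
    have h1 := card_tgt {((1 : ℕ), (1 : ℕ))} (fun _ => Z.yy n'.1 w0) (fun _ => 1) n'.1
      (JJ Pi R0) (Pi := Pi) (fun p _ => by simpa using hPi)
    refine h1.trans ?_
    have h3 := JJ_le (Pi := Pi) (R0 := R0) (by linarith)
    rw [card_singleton]
    unfold DT
    have h4 : (0 : ℝ) ≤ W.card := Nat.cast_nonneg _
    push_cast
    calc (1 : ℝ) * Pi * (2 * (JJ Pi R0 : ℝ) + 1) ≤ 1 * Pi * (2 * R0 + 18 * Pi + 5) :=
          mul_le_mul_of_nonneg_left h3 (by positivity)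
      _ ≤ ((W.card : ℝ) + 1) * Pi * (2 * R0 + 18 * Pi + 5) := by
          refine mul_le_mul_of_nonneg_right ?_ (by linarith)
          exact mul_le_mul_of_nonneg_right (by linarith) (by linarith)
  obtain ⟨U, hU, hmass⟩ := H1_core hZ hn hC1 hc hT hKV1 hKVE hKV (ν := n') hcard ht
  refine le_trans (sum_le_sum_of_subset_of_nonneg ?_ fun w _ _ => nu_nonneg _ _) hmass
  intro w hw
  rw [mem_filter] at hw
  refine hU z' n' w hn' hw.1 rfl rfl hw.2 ?_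
  obtain ⟨z, hz⟩ := dist_of_S hZ hw.1 hw0
  obtain ⟨b1, b2⟩ := tt_bd hZ ((mem_S hZ).1 hw.1).2.1
  have hJ := JJ_ge Pi R0
  refine mem_tgt (p := ((1 : ℕ), (1 : ℕ))) (mem_singleton_self _) (h := -z) le_rfl b1 b2
    (R := 3) (by norm_num) (by linarith) ?_
  have e1 : ((1 : ℕ) : ℝ) * Z.yy n'.1 w - Z.yy n'.1 w0 + ((-z : ℤ) : ℝ) =
      Z.yy n'.1 w - Z.yy n'.1 w0 - z := by push_cast; ring
  rw [e1]
  exact hz.le

/-- **`H1`** -/
theorem H1 (hZ : Z.Ok) (hn : Num Z W Pi R0) (hR : RelOk Z W R0 R) (hC1 : 0 < C1) (hc : 0 < c)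
    (hT : HypT Z C1 c KE) (hKV1 : 1 ≤ KV) (hKVE : KE ≤ KV)
    (hKV : ∀ p : ℕ, Z.i0 ≤ p →
      ((p : ℝ) + 1) * (DT W Pi R0 * ((R0 + 8 * Pi) ^ 2 / Z.θ p) ^ c) ≤ KV)
    {z n : Node} (hnz : n ∈ Z.Nd z) {t : ℝ} (ht : 0 < t) :
    ∑ z' ∈ (gn Z R KV).Zs, ∑ n' ∈ (gn Z R KV).Out z n z',
      ∑ w ∈ ((gn Z R KV).S z' n').filter (fun w => (gn Z R KV).y' z' w ≤ t), nu Z.N w ≤
      (3 * C1 + 2) * t * Z.g n := by
  classical
  have hPi := hn.Pi_one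
  have hR0 := hn.R0_nonneg
  obtain ⟨w0, hw0, _⟩ := (mem_Nd_S hZ).1 hnz
  set Λ : Finset ℝ := tgt W (fun p => (p.1 : ℝ) * Z.yy n.1 w0) (fun p => p.2) n.1 (JJ Pi R0)
    with hΛ
  have hcard : (Λ.card : ℝ) ≤ DT W Pi R0 :=
    card_le_DT hn _ _ _ (fun p hp => (hn.le_Pi p hp).2)
  obtain ⟨U, hU, hmass⟩ := H1_core hZ hn hC1 hc hT hKV1 hKVE hKV (ν := n) hcard ht
  have key := H1_of_mult (gn Z R KV) (fun _ => nu Z.N) (nu Z.N) (fun w => nu_nonneg _ _)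
    (fun _ _ => le_rfl) (z := z) (n := n) (t := t) (μ := 1) (c := (3 * C1 + 2) * t * Z.g n)
    zero_le_one U ?_ ?_ hmass
  · rw [one_mul] at key
    exact key
  · intro w hne
    obtain ⟨⟨z', n'⟩, hx⟩ := hne
    unfold GWrelWx8.GN.pairs1 at hx
    rw [mem_filter, mem_sigma] at hx
    obtain ⟨⟨_, hx2⟩, hx3, hx4⟩ := hx
    unfold GN.Out at hx2
    rw [mem_filter] at hx2
    have hn' : n' ∈ Z.Nd z' := hx2.1
    have hw : w ∈ Z.S n' := hx3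
    obtain ⟨r1, r2, w1, hw1, w1', hw1', p, hp, h, hl⟩ := hR n n' hx2.2
    obtain ⟨q1, q2, q3, q4⟩ := cls_bd hn hp
    refine hU z' n' w hn' hw r1.symm r2.symm hx4 ?_
    have hlow : low (Z.cut n.1) w0 = low (Z.cut n.1) w := by
      have a1 : low (Z.cut n.1) w0 = n.2.1 := by
        rw [← ((mem_S hZ).1 hw0).2.2]; rfl
      have a2 : low (Z.cut n'.1) w = n'.2.1 := by
        conv_rhs => rw [← ((mem_S hZ).1 hw).2.2]
        rfl
      rw [a1, r2, ← a2, r1]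
    obtain ⟨h', hl'⟩ := lk_cell hZ r1 hlow hw0 hw1 hw hw1' hl
    have htt : Z.tt n.1 w0 = Z.tt n.1 w := by
      unfold World.tt
      rw [e_congr hlow]
    rw [htt] at hl'
    have hndw : Z.nd n.1 w := by rw [r1]; exact ((mem_S hZ).1 hw).2.1
    obtain ⟨b1, b2⟩ := tt_bd hZ hndw
    have hJ := JJ_ge Pi R0
    refine mem_tgt (p := p) hp (h := -h') q2 b1 b2 (R := R0 + 3 * p.1 + 3 * p.2)
      (by positivity) (by linarith) ?_
    have e1 : (p.2 : ℝ) * Z.yy n.1 w - (p.1 : ℝ) * Z.yy n.1 w0 + ((-h' : ℤ) : ℝ) =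
        -((p.1 : ℝ) * Z.yy n.1 w0 - p.2 * Z.yy n.1 w + h') := by push_cast; ring
    rw [e1, abs_neg]
    exact hl'
  · intro w _
    have : (GWrelWx8.GN.pairs1 (gn Z R KV) z n t w).card ≤ 1 := by
      rw [card_le_one]
      rintro ⟨z1, n1⟩ h1 ⟨z2, n2⟩ h2
      unfold GWrelWx8.GN.pairs1 at h1 h2
      rw [mem_filter, mem_sigma] at h1 h2
      obtain ⟨⟨_, a2⟩, a3, _⟩ := h1
      obtain ⟨⟨_, b2⟩, b3, _⟩ := h2
      unfold GN.Out at a2 b2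
      rw [mem_filter] at a2 b2
      have r1 := (hR n n1 a2.2).1
      have r2 := (hR n n2 b2.2).1
      have e1 : n1 = n2 := by
        have c1 := ((mem_S hZ).1 (show w ∈ Z.S n1 from a3)).2.2
        have c2 := ((mem_S hZ).1 (show w ∈ Z.S n2 from b3)).2.2
        rw [← c1, ← c2, ← r1, ← r2]
      subst e1
      have e2 : z1 = z2 := by
        have c1 := (Nd_all hZ (show n1 ∈ Z.Nd z1 from a2.1) (show w ∈ Z.S n1 from a3)).1
        have c2 := (Nd_all hZ (show n1 ∈ Z.Nd z2 from b2.1) (show w ∈ Z.S n1 from b3)).1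
        rw [← c1, ← c2]
      subst e2
      rfl
    exact_mod_cast this

/-- what is known of a changer linked with a node of the zone `z'` below `m` -/
theorem H2_pair (hZ : Z.Ok) (hn : Num Z W Pi R0) (hR : RelOk Z W R0 R)
    {z' m n' z n : Node} (hm : m ∈ Z.Nd z') (hn' : n' ∈ Z.Nd z') (hmn : m.1 ≤ n'.1)
    (hsub : Z.S n' ⊆ Z.S m) (hnz : n ∈ Z.Nd z) (hr : R n n') {w : ℕ} (hw : w ∈ Z.S n) :
    Z.nd m.1 w ∧ low (Z.cut m.1) w = m.2.1 ∧ m.1 ≤ n.1 ∧ n.1 = n'.1 ∧ n.2.1 = n'.2.1 ∧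
      (m.1 < z.1 → Z.prev z.1 w = m.1 ∧
        ¬ On (Z.θ m.1 / (R0 + 8 * Pi) ^ 2) (Z.yy m.1 w) (Z.tt m.1 w)) ∧
      ∀ wm ∈ Z.S m, ∃ p ∈ W, ∃ h : ℤ, |(p.1 : ℝ) * Z.yy m.1 w - (p.2 : ℝ) * Z.yy m.1 wm + h| ≤
        (R0 + 3 * p.1 + 6 * p.2) / Z.tt m.1 w := by
  classical
  have hPi := hn.Pi_one
  have hR0 := hn.R0_nonneg
  obtain ⟨r1, r2, w1, hw1, w', hw1', p, hp, h, hl⟩ := hR n n' hr
  obtain ⟨q1, q2, q3, q4⟩ := cls_bd hn hp
  obtain ⟨c1, c2, c3⟩ := (mem_S hZ).1 hw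
  obtain ⟨d1, d2, d3⟩ := (mem_S hZ).1 hw1'
  have hw'm : w' ∈ Z.S m := hsub hw1'
  obtain ⟨f1, f2, f3⟩ := (mem_S hZ).1 hw'm
  have hlow : low (Z.cut n.1) w = low (Z.cut n.1) w' := by
    have a1 : low (Z.cut n.1) w = n.2.1 := by
      conv_rhs => rw [← c3]
      rfl
    have a2 : low (Z.cut n'.1) w' = n'.2.1 := by
      conv_rhs => rw [← d3]
      rfl
    rw [a1, r2, ← a2, r1]
  obtain ⟨h', hl'⟩ := lk_cell hZ r1 hlow hw hw1 hw1' hw1' hl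
  have hmn1 : m.1 ≤ n.1 := by rw [r1]; exact hmn
  have hw0 : 0 < w := Nat.pos_of_dvd_of_pos c1 hZ.hN
  have hw0' : 0 < w' := Nat.pos_of_dvd_of_pos d1 hZ.hN
  have hlowm : low (Z.cut m.1) w = low (Z.cut m.1) w' := low_congr hZ hmn1 hlow
  have hndm : Z.nd m.1 w := (nd_congr' hlowm).2 f2
  refine ⟨hndm, ?_, hmn1, r1, r2, ?_, ?_⟩
  · rw [hlowm]
    conv_rhs => rw [← f3]
    rfl
  · intro hlt
    obtain ⟨a1, a2, a3, a4, a5⟩ := Nd_all hZ hnz hw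
    have hno := no_birth hZ hm hn' hw'm hw1'
    have huv : (p.1 : ℝ) + p.2 + (R0 + 3 * p.1 + 3 * p.2) ≤ R0 + 8 * Pi := by linarith
    obtain ⟨g1, _, g3⟩ := late hZ hn.sq hn.mono (Cb := R0 + 8 * Pi) (by linarith)
      (fun i j hi hj => hn.grow i j hi hj) c1 d1 f2 hlow hlt a3
      (fun k hk1 hk2 => hno k hk1 (by rw [← r1]; exact hk2)) a4 q1 q2 huv hl'
    exact ⟨g1, g3⟩
  · intro wm hwm
    obtain ⟨h0, hl0⟩ := lk_down hZ hw0 hw0' hmn1 hlow hl'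
    obtain ⟨zz, hzz⟩ := dist_of_S hZ hw'm hwm
    have htt : Z.tt m.1 w' = Z.tt m.1 w := by
      unfold World.tt
      rw [e_congr hlowm]
    rw [htt] at hzz
    refine ⟨p, hp, h0 - p.2 * zz, ?_⟩
    have e1 : (p.1 : ℝ) * Z.yy m.1 w - (p.2 : ℝ) * Z.yy m.1 wm + ((h0 - p.2 * zz : ℤ) : ℝ) =
        ((p.1 : ℝ) * Z.yy m.1 w - p.2 * Z.yy m.1 w' + h0) +
          p.2 * (Z.yy m.1 w' - Z.yy m.1 wm - zz) := by push_cast; ring
    rw [e1]
    refine (abs_add_le _ _).trans ?_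
    have e2 : (R0 + 3 * p.1 + 6 * p.2) / Z.tt m.1 w =
        (R0 + 3 * (p.1 : ℝ) + 3 * p.2) / Z.tt m.1 w + p.2 * (3 / Z.tt m.1 w) := by ring
    rw [e2]
    refine add_le_add hl0 ?_
    rw [abs_mul, Nat.abs_cast]
    exact mul_le_mul_of_nonneg_left hzz.le (Nat.cast_nonneg _)

/-- multiplicity in `H2` -/
theorem mult2 (hZ : Z.Ok) (hn : Num Z W Pi R0) (hR : RelOk Z W R0 R)
    {z' m : Node} (hm : m ∈ Z.Nd z') (t : ℝ) (w : ℕ) :
    (GWrelWx8.GN.pairs2 (gn Z R KV) z' m t w).card ≤ 2 := by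
  classical
  set P := GWrelWx8.GN.pairs2 (gn Z R KV) z' m t w with hP
  have hmem : ∀ x ∈ P, x.1 ∈ Z.Nd z' ∧ m.1 ≤ x.1.1 ∧ Z.S x.1 ⊆ Z.S m ∧ x.2.2 ∈ Z.Nd x.2.1 ∧
      R x.2.2 x.1 ∧ w ∈ Z.A x.2.1 x.2.2 ∧ w ∈ Z.S x.2.2 := by
    rintro ⟨n', z, n⟩ hx
    rw [hP] at hx
    unfold GWrelWx8.GN.pairs2 at hx
    rw [mem_filter, mem_sigma, mem_sigma] at hx
    obtain ⟨⟨h1, _, h3⟩, h4, _⟩ := hx
    unfold GN.Bl at h1
    unfold GN.In at h3
    rw [mem_filter] at h1 h3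
    exact ⟨h1.1, h1.2.1, h1.2.2.1, h3.1, h3.2, h4, A_sub _ _ h4⟩
  have hinj : Set.InjOn (fun x : (_ : Node) × (_ : Node) × Node =>
      if x.2.1.1 ≤ m.1 then 0 else 1) (P : Set ((_ : Node) × (_ : Node) × Node)) := by
    rintro ⟨n1', z1, n1⟩ hx1 ⟨n2', z2, n2⟩ hx2 heq
    obtain ⟨a1, a2, a3, a4, a5, a6, a7⟩ := hmem _ (mem_coe.1 hx1)
    obtain ⟨b1, b2, b3, b4, b5, b6, b7⟩ := hmem _ (mem_coe.1 hx2)
    simp only at a1 a2 a3 a4 a5 a6 a7 b1 b2 b3 b4 b5 b6 b7 heq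
    obtain ⟨c1, c2, c3, c4, c5, c6, _⟩ := H2_pair hZ hn hR hm a1 a2 a3 a4 a5 a7
    obtain ⟨d1, d2, d3, d4, d5, d6, _⟩ := H2_pair hZ hn hR hm b1 b2 b3 b4 b5 b7
    obtain ⟨f1, f2, f3, f4, f5⟩ := Nd_all hZ a4 a7
    obtain ⟨g1, g2, g3, g4, g5⟩ := Nd_all hZ b4 b7
    have hz1 : z1.1 = z2.1 := by
      by_cases hle1 : z1.1 ≤ m.1
      · by_cases hle2 : z2.1 ≤ m.1
        · have hbi := birth_bi c1
          have k1 : Z.bi m.1 w = z1.1 := by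
            refine le_antisymm ?_ (le_bi hle1 f4)
            rw [← f5]
            exact le_bi ((bi_le _ _).trans c3) hbi
          have k2 : Z.bi m.1 w = z2.1 := by
            refine le_antisymm ?_ (le_bi hle2 g4)
            rw [← g5]
            exact le_bi ((bi_le _ _).trans d3) hbi
          rw [← k1, ← k2]
        · rw [if_pos hle1, if_neg hle2] at heq
          omega
      · by_cases hle2 : z2.1 ≤ m.1
        · rw [if_neg hle1, if_pos hle2] at heq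
          omega
        · have e1 := (c6 (not_le.1 hle1)).1
          have e2 := (d6 (not_le.1 hle2)).1
          rcases lt_trichotomy z1.1 z2.1 with h | h | h
          · have := (prev_spec (Z := Z) (j := z2.1) (w := w) ⟨z1.1, h, f4.1⟩).2.2 _ h f4.1
            omega
          · exact h
          · have := (prev_spec (Z := Z) (j := z1.1) (w := w) ⟨z2.1, h, g4.1⟩).2.2 _ h g4.1
            omega
    have hz : z1 = z2 := by
      have k1 := ((mem_S hZ).1 f2).2.2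
      have k2 := ((mem_S hZ).1 g2).2.2
      rw [← k1, ← k2, hz1]
    subst hz
    have hnn : n1 = n2 := by
      by_contra hne
      exact disjoint_left.1 (A_disj hZ z1 n1 a4 n2 b4 hne) a6 b6
    subst hnn
    have hnn' : n1' = n2' := cell_unique hZ hn.sq a1 b1 (by rw [← c4, ← d4]) (by rw [← c5, ← d5])
    subst hnn'
    rfl
  have h1 := card_le_card_of_injOn (s := P) (t := range 2)
    (fun x : (_ : Node) × (_ : Node) × Node => if x.2.1.1 ≤ m.1 then 0 else 1)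
    (by
      intro x _
      simp only [coe_range, Set.mem_Iio]
      split_ifs <;> omega) hinj
  rwa [card_range] at h1

/-- **`H2`** -/
theorem H2 (hZ : Z.Ok) (hn : Num Z W Pi R0) (hR : RelOk Z W R0 R) (hC1 : 0 < C1) (hc : 0 < c)
    (hT : HypT Z C1 c KE) (hKV1 : 1 ≤ KV) (hKVE : KE ≤ KV)
    (hKV : ∀ p : ℕ, Z.i0 ≤ p →
      ((p : ℝ) + 1) * (DT W Pi R0 * ((R0 + 8 * Pi) ^ 2 / Z.θ p) ^ c) ≤ KV)
    {z' m : Node} (hm : m ∈ Z.Nd z') {t : ℝ} (ht : 0 < t) :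
    ∑ n' ∈ (gn Z R KV).Bl z' m, ∑ z ∈ (gn Z R KV).Zs, ∑ n ∈ (gn Z R KV).In z' n' z,
      ∑ w ∈ ((gn Z R KV).A z n).filter (fun w => (gn Z R KV).y z w ≤ t), nu Z.N w ≤
      (6 * C1 + 4) * t * Z.g m := by
  classical
  have hPi := hn.Pi_one
  have hR0 := hn.R0_nonneg
  have hCb : 1 ≤ R0 + 8 * Pi := by linarith
  have hg0 : 0 ≤ Z.g m := nu_nonneg _ _
  obtain ⟨wm, hwm, _⟩ := (mem_Nd_S hZ).1 hm
  set Λ : Finset ℝ := tgt W (fun p => (p.2 : ℝ) * Z.yy m.1 wm) (fun p => p.1) m.1 (JJ Pi R0)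
    with hΛ
  have hcard : (Λ.card : ℝ) ≤ DT W Pi R0 :=
    card_le_DT hn _ _ _ (fun p hp => (hn.le_Pi p hp).1)
  -- the data of a pair
  have hpair : ∀ w, (GWrelWx8.GN.pairs2 (gn Z R KV) z' m t w).Nonempty → ∃ n' z n, n' ∈ Z.Nd z' ∧
      m.1 ≤ n'.1 ∧ Z.S n' ⊆ Z.S m ∧ n ∈ Z.Nd z ∧ R n n' ∧ w ∈ Z.S n ∧
      Y3 Z z w + kapV Z KV z ≤ t := by
    rintro w ⟨⟨n', z, n⟩, hx⟩
    unfold GWrelWx8.GN.pairs2 at hx
    rw [mem_filter, mem_sigma, mem_sigma] at hx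
    obtain ⟨⟨h1, _, h3⟩, h4, h5⟩ := hx
    unfold GN.Bl at h1
    unfold GN.In at h3
    rw [mem_filter] at h1 h3
    exact ⟨n', z, n, h1.1, h1.2.1, h1.2.2.1, h3.1, h3.2, A_sub _ _ h4, h5⟩
  have hfin : ∃ U : Finset ℕ, (∀ w, (GWrelWx8.GN.pairs2 (gn Z R KV) z' m t w).Nonempty → w ∈ U) ∧
      ∑ w ∈ U, nu Z.N w ≤ (3 * C1 + 2) * t * Z.g m := by
    by_cases ht2 : t ≤ 1 / 2
    · have hmain : ∀ w, (GWrelWx8.GN.pairs2 (gn Z R KV) z' m t w).Nonempty →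
          P0 Z KV t ≤ m.1 ∧ w ∈ badT Z m.1 m.2.1 Λ (K0 Z KV (R0 + 8 * Pi) t) t := by
        intro w hne
        obtain ⟨n', z, n, hn', hmn, hsub, hnz, hr, hw, hy⟩ := hpair w hne
        obtain ⟨c1, c2, c3, c4, c5, c6, c7⟩ := H2_pair hZ hn hR hm hn' hmn hsub hnz hr hw
        obtain ⟨e1, hprev, hi0, hlt, hk, b1, b2, h1, h1', h2, h3, h4, h5⟩ :=
          small_pay hZ hKV1 (by linarith : t < 1) hnz hw hy
        have hwN : w ∣ Z.N := ((mem_S hZ).1 hw).1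
        have hP := P0_le (Z := Z) ht hi0 hk
        have hpzm : Z.pz z ≤ m.1 := by
          by_cases hle : z.1 ≤ m.1
          · omega
          · rw [e1, (c6 (not_le.1 hle)).1]
        refine ⟨hP.trans hpzm, ?_⟩
        unfold badT
        rw [mem_filter, Nat.mem_divisors]
        refine ⟨⟨hwN, hZ.hN.ne'⟩, c1, c2, ?_, ?_, b1, b2, by omega, h2, h3, h4, ?_⟩
        · obtain ⟨p, hp, h, hl⟩ := c7 wm hwm
          obtain ⟨q1, q2, q3, q4⟩ := cls_bd hn hp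
          obtain ⟨t1, t2⟩ := tt_bd hZ c1
          have hJ := JJ_ge Pi R0
          exact mem_tgt (p := p) hp (h := h) q1 t1 t2 (R := R0 + 3 * p.1 + 6 * p.2)
            (by positivity) (by linarith) hl
        · by_cases hle : z.1 ≤ m.1
          · exact deep_later hZ hn hCb ht hnz hw hle e1 hprev hi0 hk
          · obtain ⟨k1, k2⟩ := c6 (not_le.1 hle)
            refine not_on_K0 fun hon => k2 (hon.mono ?_)
            have hpm : Z.pz z = m.1 := by rw [e1, k1]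
            have h6 : Z.θ (P0 Z KV t) ≤ Z.θ m.1 := by
              rw [← hpm]; exact hn.mono _ _ (le_max_left _ _) hP
            exact div_le_div_of_nonneg_right h6 (by positivity)
        · have h6 := GWbirthx33.Wp_le (Z := Z) (w := w) (hZ.hcut hpzm) (le_refl (Z.cut b2))
          linarith
      by_cases hP : P0 Z KV t ≤ m.1
      · refine ⟨badT Z m.1 m.2.1 Λ (K0 Z KV (R0 + 8 * Pi) t) t, fun w hw => (hmain w hw).2, ?_⟩
        refine (mass_small hZ hn hC1 hc hT hKV1 hKVE hCb hKV hcard ht ht2 hP).trans ?_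
        unfold World.g at hg0 ⊢
        refine mul_le_mul_of_nonneg_right ?_ hg0
        nlinarith
      · refine ⟨∅, fun w hw => absurd (hmain w hw).1 hP, ?_⟩
        rw [sum_empty]
        have : 0 ≤ (3 * C1 + 2) * t := by positivity
        exact mul_nonneg this hg0
    · push Not at ht2
      refine ⟨Z.N.divisors.filter (fun w => low (Z.cut m.1) w = m.2.1), ?_, ?_⟩
      · intro w hne
        obtain ⟨n', z, n, hn', hmn, hsub, hnz, hr, hw, hy⟩ := hpair w hne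
        obtain ⟨c1, c2, _⟩ := H2_pair hZ hn hR hm hn' hmn hsub hnz hr hw
        rw [mem_filter, Nat.mem_divisors]
        exact ⟨⟨((mem_S hZ).1 hw).1, hZ.hN.ne'⟩, c2⟩
      · obtain ⟨a1, a2, a3⟩ := (mem_S hZ).1 hwm
        have hl : low (Z.cut m.1) wm = m.2.1 := by
          conv_rhs => rw [← a3]
          rfl
        refine (mass_all hZ a1 hl).trans ?_
        have h3 : (1 : ℝ) ≤ (3 * C1 + 2) * t := by nlinarith
        have h4 : nu (low (Z.cut m.1) Z.N) m.2.1 = Z.g m := rfl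
        rw [h4]
        nlinarith
  obtain ⟨U, hU, hmass⟩ := hfin
  have key := H2_of_mult (gn Z R KV) (fun _ => nu Z.N) (nu Z.N) (fun w => nu_nonneg _ _)
    (fun _ _ => le_rfl) (z' := z') (m := m) (t := t) (μ := 2) (c := (3 * C1 + 2) * t * Z.g m)
    zero_le_two U hU (fun w _ => by exact_mod_cast mult2 (KV := KV) hZ hn hR hm t w) hmass
  refine key.trans (le_of_eq ?_)
  ring

/-- **all hypotheses of Lemma V over the world `Z`** -/
theorem gn_ok (hZ : Z.Ok) (hn : Num Z W Pi R0) (hR : RelOk Z W R0 R) (hC1 : 0 < C1)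
    (hc : 0 < c) (hT : HypT Z C1 c KE) (hKV1 : 1 ≤ KV) (hKVE : KE ≤ KV)
    (hKV : ∀ p : ℕ, Z.i0 ≤ p →
      ((p : ℝ) + 1) * (DT W Pi R0 * ((R0 + 8 * Pi) ^ 2 / Z.θ p) ^ c) ≤ KV)
    {Δ : ℝ} (hΔ : 1 ≤ Δ)
    (hdeg : ∀ z ∈ Z.Zs, ∀ n ∈ Z.Nd z,
      ∑ z' ∈ Z.Zs, (((gn Z R KV).Out z n z').card : ℝ) ≤ Δ) :
    (gn Z R KV).Ok (fun _ => nu Z.N) (fun _ => nu Z.N) (6 * C1 + 4) Δ where
  C0 := by positivity
  Δ1 := hΔ
  lam := fun z _ => lamNd hZ z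
  g0 := fun z _ n hn => g_pos hZ hn
  gR := by
    intro z _ n _ z' _ n' _ hr
    obtain ⟨r1, r2, _⟩ := hR n n' hr
    show Z.g n = Z.g n'
    unfold World.g
    rw [r1, r2]
  f0 := fun _ w => nu_nonneg _ _
  f0' := fun _ w => nu_nonneg _ _
  y0 := fun z w => add_pos_of_nonneg_of_pos (Y3_nonneg z w) (kapV_pos hKV1 z)
  y0' := fun z w => add_pos_of_nonneg_of_pos (Y3_nonneg z w) (kapV_pos hKV1 z)
  deg := hdeg
  H0 := by
    intro z' _ n' hn' t ht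
    refine (H0 hZ hn hC1 hc hT hKV1 hKVE hKV hn' ht).trans ?_
    show (3 * C1 + 2) * t * Z.g n' ≤ (6 * C1 + 4) * t * Z.g n'
    have hg0 : 0 ≤ Z.g n' := nu_nonneg _ _
    refine mul_le_mul_of_nonneg_right (mul_le_mul_of_nonneg_right (by linarith) ht.le) hg0
  H1 := by
    intro z _ n hnz t ht
    refine (H1 hZ hn hR hC1 hc hT hKV1 hKVE hKV hnz ht).trans ?_
    show (3 * C1 + 2) * t * Z.g n ≤ (6 * C1 + 4) * t * Z.g n
    have hg0 : 0 ≤ Z.g n := nu_nonneg _ _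
    refine mul_le_mul_of_nonneg_right (mul_le_mul_of_nonneg_right (by linarith) ht.le) hg0
  H2 := fun z' _ m hm t ht => H2 hZ hn hR hC1 hc hT hKV1 hKVE hKV hm ht

end Crest.Agent.R4C.HDx529
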