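import Crest.Agent.R4C.HDdef_529
import Crest.Agent.R4C.ZCell_60
import Crest.Agent.R4C.Budget_966

/-!
# Row 4, GW section, vector case: linked words, constant depth, late births (helper529)
-/

set_option autoImplicit false

open Finset
open Crest.Agent.R4C.Basex935 Crest.Agent.R4C.Cutx50 Crest.Agent.R4C.PrefixMx882
open Crest.Agent.R4C.GWdefx982
open Crest.Agent.R4C.NHx656 (On frac_unique)
open Crest.Agent.R4C.GWcellx284 (tt_pos on_of_light dist_of_S tt_of_S pos_of_S)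
open Crest.Agent.R4C.GWnodex863
open Crest.Agent.R4C.ZCellx60 (yy_down prev_spec coprime_of_lt cell_unique)
open Crest.Agent.R4C.LinkOnx617 (on_link on_reduced)

namespace Crest.Agent.R4C.HDx529

/-! ### depth -/

/-- a run of letters: the depth does not change (general multiplier) -/
lemma on_up {K1 K2 y t : ℝ} {m : ℕ} (hm0 : 0 < m) (ht : 0 < t)
    (hm : ∀ p : ℕ, p.Prime → p ∣ m → K2 ≤ p) (h12 : 2 * K1 * K2 ≤ t)
    (h1 : On K1 (m * y) t) (h2 : On K2 y (t * m)) : On K1 y (t * m) := by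
  obtain ⟨a, k, hk, hcop, hak⟩ := on_reduced h2
  obtain ⟨b, l, hl, hbl⟩ := h1
  have hmR : (0 : ℝ) < m := by exact_mod_cast hm0
  have hk0 : (0 : ℝ) < k := by exact_mod_cast hk
  have hl0 : (0 : ℝ) < l := by exact_mod_cast hl
  have e0 : t * |(m : ℝ) * y - ((m * a : ℤ) : ℝ) / k| = t * m * |y - a / k| := by
    have : (m : ℝ) * y - ((m * a : ℤ) : ℝ) / k = m * (y - a / k) := by push_cast; ring
    rw [this, abs_mul, Nat.abs_cast, mul_assoc]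
  have h3 : (k : ℝ) * max 1 (t * |(m : ℝ) * y - ((m * a : ℤ) : ℝ) / k|) < K2 := by
    rw [e0]; exact hak
  have h4 : K1 * K2 * (1 / t + 1 / t) ≤ 1 := by
    have : K1 * K2 * (1 / t + 1 / t) = 2 * K1 * K2 / t := by ring
    rw [this, div_le_one ht]; exact h12
  have h5 := frac_unique hl hk ht ht hbl h3 h4
  -- `b k = m a l`
  have hkK : (k : ℝ) < K2 :=
    lt_of_le_of_lt (by nlinarith [le_max_left (1 : ℝ) (t * m * |y - a / k|)]) hak
  have c1 : Nat.Coprime k m := coprime_of_lt hk hkK hm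
  have h6 : (k : ℤ) ∣ l := by
    have h7 : (k : ℤ) ∣ (m * a : ℤ) * l := ⟨b, by linarith⟩
    have h8 : IsCoprime (k : ℤ) (m * a : ℤ) := by
      refine IsCoprime.mul_right ?_ ?_
      · rw [Nat.isCoprime_iff_coprime]; exact c1
      · rw [Int.isCoprime_iff_gcd_eq_one, Int.gcd_comm]; exact hcop
    exact h8.dvd_of_dvd_mul_left h7
  have h7 : (k : ℝ) ≤ l := by
    have : k ≤ l := Nat.le_of_dvd hl (by exact_mod_cast h6)
    exact_mod_cast this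
  have h8 : ((m * a : ℤ) : ℝ) / k = (b : ℝ) / l := by
    rw [div_eq_div_iff hk0.ne' hl0.ne']
    have : ((m * a : ℤ) : ℤ) * l = b * k := by linarith
    exact_mod_cast this
  refine ⟨a, k, hk, ?_⟩
  calc (k : ℝ) * max 1 (t * m * |y - a / k|) = k * max 1 (t * |(m : ℝ) * y - (b : ℝ) / l|) := by
        rw [← h8, e0]
    _ ≤ l * max 1 (t * |(m : ℝ) * y - (b : ℝ) / l|) :=
        mul_le_mul_of_nonneg_right h7 (le_trans zero_le_one (le_max_left _ _))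
    _ < K1 := hbl

/-! ### linked words -/

variable {Z : World}

/-- linked points: depth -/
lemma on_lk {K y y' τ R : ℝ} {u v : ℕ} {h : ℤ} (hu : 1 ≤ u) (hτ : 0 < τ)
    (hl : |(u : ℝ) * y - v * y' + h| ≤ R / τ) (hon : On K y' τ) : On ((u + v + R) * K) y τ := by
  refine on_link (m := -h) hu hτ ?_ hon
  rw [le_div_iff₀ hτ] at hl
  push_cast
  rw [sub_neg_eq_add]
  linarith

/-- linked points, the other order -/
lemma on_lk' {K y y' τ R : ℝ} {u v : ℕ} {h : ℤ} (hv : 1 ≤ v) (hτ : 0 < τ)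
    (hl : |(u : ℝ) * y - v * y' + h| ≤ R / τ) (hon : On K y τ) : On ((v + u + R) * K) y' τ := by
  refine on_lk (h := -h) hv hτ ?_ hon
  have e1 : (v : ℝ) * y' - u * y + ((-h : ℤ) : ℝ) = -((u : ℝ) * y - v * y' + h) := by
    push_cast; ring
  rw [e1, abs_neg]
  exact hl

/-- the link at a lower index -/
lemma lk_down (hZ : Z.Ok) {i j w w' : ℕ} (hw : 0 < w) (hw' : 0 < w') (hij : i ≤ j)
    (hlow : low (Z.cut j) w = low (Z.cut j) w') {u v : ℕ} {h : ℤ} {R : ℝ}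
    (hl : |(u : ℝ) * Z.yy j w - v * Z.yy j w' + h| ≤ R / Z.tt j w) :
    ∃ h' : ℤ, |(u : ℝ) * Z.yy i w - v * Z.yy i w' + h'| ≤ R / Z.tt i w := by
  obtain ⟨m, hm0, hm, hy, ht, hp⟩ := yy_down hZ hw hij
  obtain ⟨m', hm0', hm', hy', ht', hp'⟩ := yy_down hZ hw' hij
  have hlow0 : low (Z.cut i) w = low (Z.cut i) w' := low_congr hZ hij hlow
  have hmm : m' = m := by
    rw [hlow, hlow0, hm'] at hm
    exact Nat.eq_of_mul_eq_mul_left (low_pos _ _) hm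
  subst hmm
  have hmR : (0 : ℝ) < m' := by exact_mod_cast hm0
  have ht0 := tt_pos hZ i w
  refine ⟨m' * h, ?_⟩
  have e1 : (u : ℝ) * Z.yy i w - v * Z.yy i w' + ((m' * h : ℤ) : ℝ) =
      m' * ((u : ℝ) * Z.yy j w - v * Z.yy j w' + h) := by
    rw [hy, hy']; push_cast; ring
  rw [e1, abs_mul, Nat.abs_cast, le_div_iff₀ ht0]
  rw [ht, le_div_iff₀ (mul_pos ht0 hmR)] at hl
  nlinarith

/-- the link for all words of two nodes -/
lemma lk_cell (hZ : Z.Ok) {ν ν' : Node} (h1 : ν.1 = ν'.1) {w w1 w' w1' : ℕ}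
    (hlow : low (Z.cut ν.1) w = low (Z.cut ν.1) w')
    (hw : w ∈ Z.S ν) (hw1 : w1 ∈ Z.S ν) (hw' : w' ∈ Z.S ν') (hw1' : w1' ∈ Z.S ν')
    {u v : ℕ} {h : ℤ} {R : ℝ}
    (hl : |(u : ℝ) * Z.yy ν.1 w1 - v * Z.yy ν.1 w1' + h| ≤ R / Z.tt ν.1 w1) :
    ∃ h' : ℤ, |(u : ℝ) * Z.yy ν.1 w - v * Z.yy ν.1 w' + h'| ≤
      (R + 3 * u + 3 * v) / Z.tt ν.1 w := by
  obtain ⟨z, hz⟩ := dist_of_S hZ hw hw1
  obtain ⟨z', hz'⟩ := dist_of_S hZ hw' hw1'
  rw [← h1] at hz'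
  have ht1 : Z.tt ν.1 w1 = Z.tt ν.1 w := tt_of_S hw1 hw
  have ht2 : Z.tt ν.1 w' = Z.tt ν.1 w := by
    unfold World.tt
    rw [e_congr hlow]
  rw [ht1] at hl
  rw [ht2] at hz'
  have ht := tt_pos hZ ν.1 w
  have hu : (0 : ℝ) ≤ u := Nat.cast_nonneg _
  have hv : (0 : ℝ) ≤ v := Nat.cast_nonneg _
  refine ⟨h - u * z + v * z', ?_⟩
  have e1 : (u : ℝ) * Z.yy ν.1 w - v * Z.yy ν.1 w' + ((h - u * z + v * z' : ℤ) : ℝ) =
      ((u : ℝ) * Z.yy ν.1 w1 - v * Z.yy ν.1 w1' + h) + (u * (Z.yy ν.1 w - Z.yy ν.1 w1 - z) -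
        v * (Z.yy ν.1 w' - Z.yy ν.1 w1' - z')) := by push_cast; ring
  rw [e1]
  refine (abs_add_le _ _).trans ?_
  have a1 : |(u : ℝ) * (Z.yy ν.1 w - Z.yy ν.1 w1 - z) - v * (Z.yy ν.1 w' - Z.yy ν.1 w1' - z')| ≤
      u * (3 / Z.tt ν.1 w) + v * (3 / Z.tt ν.1 w) := by
    refine (abs_sub _ _).trans ?_
    rw [abs_mul, abs_mul, Nat.abs_cast, Nat.abs_cast]
    exact add_le_add (mul_le_mul_of_nonneg_left hz.le hu) (mul_le_mul_of_nonneg_left hz'.le hv)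
  have e2 : (R + 3 * u + 3 * v) / Z.tt ν.1 w =
      R / Z.tt ν.1 w + (u * (3 / Z.tt ν.1 w) + v * (3 / Z.tt ν.1 w)) := by ring
  rw [e2]
  exact add_le_add hl a1

/-! ### births -/

/-- a word without birth in `(i0, j]`: depth `< 4 θ(i0)` at `j`, and any small depth at `i0` is the
depth at `j` -/
theorem on_run (hZ : Z.Ok) (hsq : ∀ i, Z.i0 ≤ i → 128 * Z.θ i ^ 2 ≤ 2 ^ i)
    (hmono : ∀ i j, Z.i0 ≤ i → i ≤ j → Z.θ i ≤ Z.θ j) {i0 w : ℕ} (hw : w ∣ Z.N)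
    (hnd0 : Z.nd i0 w) : ∀ {j : ℕ}, i0 < j → Z.nd j w →
    (∀ k, i0 < k → k ≤ j → ¬ Z.birth k w) →
    On (4 * Z.θ i0) (Z.yy j w) (Z.tt j w) ∧
      ∀ K, K ≤ 4 * Z.θ i0 → On K (Z.yy i0 w) (Z.tt i0 w) → On K (Z.yy j w) (Z.tt j w) := by
  have hw0 : 0 < w := Nat.pos_of_dvd_of_pos hw hZ.hN
  intro j
  induction j using Nat.strong_induction_on with
  | _ j ih =>
    intro hij hnd hno
    have hprev : Z.hasPrev j w := ⟨i0, hij, hnd0⟩
    have hl : Z.light j w := by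
      by_contra hc
      exact hno j hij le_rfl ⟨hnd, fun h => hc h.2⟩
    obtain ⟨p1, p2, p3⟩ := prev_spec hprev
    set p := Z.prev j w with hp
    have hip : i0 ≤ p := p3 _ hij hnd0
    have hon := on_of_light hZ hw hnd hl
    rw [← hp] at hon
    obtain ⟨m, hm0, hm, hy, ht, hpr⟩ := yy_down hZ hw0 p1.le
    have htp := tt_pos hZ p w
    have hi0p : Z.i0 ≤ p := p2.1
    have hθp := hZ.hθ p hi0p
    have hsqp := hsq p hi0p
    have h2p : (2 : ℝ) ^ p ≤ Z.tt p w := by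
      unfold World.tt
      rw [le_div_iff₀ hZ.hL]
      exact p2.2.1
    have hcut2 : (2 : ℝ) ^ p ≤ Z.cut p := by exact_mod_cast hZ.hcut2 p
    have hmK : ∀ q : ℕ, q.Prime → q ∣ m → 4 * Z.θ p ≤ q := by
      intro q hq hqm
      have a1 : (Z.cut p : ℝ) < q := by exact_mod_cast hpr q hq hqm
      nlinarith
    have hle : Z.θ i0 ≤ Z.θ p := hmono _ _ hnd0.1 hip
    have hθ0 := hZ.hθ i0 hnd0.1
    have step : ∀ K, K ≤ 4 * Z.θ i0 → On K (Z.yy p w) (Z.tt p w) →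
        On K (Z.yy j w) (Z.tt j w) := by
      intro K hK hKon
      have hK1 := hKon.one_lt
      rw [ht]
      rw [ht] at hon
      rw [hy] at hKon
      refine on_up hm0 htp hmK ?_ hKon hon
      have : 2 * K * (4 * Z.θ p) ≤ 2 * (4 * Z.θ p) * (4 * Z.θ p) := by
        have h1 : K ≤ 4 * Z.θ p := by linarith
        nlinarith
      nlinarith
    rcases Nat.eq_or_lt_of_le hip with h | h
    · refine ⟨?_, ?_⟩
      · rw [h]; exact hon
      · intro K hK hKon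
        refine step K hK ?_
        rwa [← h]
    · obtain ⟨h1, h2⟩ := ih p p1 h p2 (fun k hk1 hk2 => hno k hk1 (hk2.trans p1.le))
      exact ⟨step _ le_rfl h1, fun K hK hKon => step K hK (h2 K hK hKon)⟩

/-- births in a run: no birth between the first node of the run and a node of the same zone -/
lemma no_birth {z' m n' : Node} (hZ : Z.Ok) (hm : m ∈ Z.Nd z') (hn' : n' ∈ Z.Nd z') {w' : ℕ}
    (hwm : w' ∈ Z.S m) (hwn : w' ∈ Z.S n') : ∀ k, m.1 < k → k ≤ n'.1 → ¬ Z.birth k w' := by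
  intro k h1 h2
  obtain ⟨_, _, a3, _, _⟩ := Nd_all hZ hm hwm
  obtain ⟨_, _, _, _, b5⟩ := Nd_all hZ hn' hwn
  exact not_birth_of_bi_lt (by rw [b5]; omega) h2

/-- **the late birth** : `w'` has no birth in `(i0, j]`, `w` is linked to it at `j` (precision `Rb`,
`Cb = u + v + Rb` at most) and has a birth `b ∈ (i0, j]`: then `b` is the first node after `i0`, and
`w` is deep at `i0` -/
theorem late (hZ : Z.Ok) (hsq : ∀ i, Z.i0 ≤ i → 128 * Z.θ i ^ 2 ≤ 2 ^ i)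
    (hmono : ∀ i j, Z.i0 ≤ i → i ≤ j → Z.θ i ≤ Z.θ j) {Cb : ℝ} (hCb : 1 ≤ Cb)
    (hgrow : ∀ i j, Z.i0 ≤ i → 2 * i ≤ j → 4 * Cb * Z.θ i ≤ Z.θ j)
    {i0 j b w w' : ℕ} (hw : w ∣ Z.N) (hw' : w' ∣ Z.N) (hnd0 : Z.nd i0 w')
    (hlow : low (Z.cut j) w = low (Z.cut j) w') (h0b : i0 < b) (hbj : b ≤ j)
    (hno : ∀ k, i0 < k → k ≤ j → ¬ Z.birth k w') (hb : Z.birth b w)
    {u v : ℕ} {h : ℤ} {R : ℝ} (hu : 1 ≤ u) (hv : 1 ≤ v) (huv : (u : ℝ) + v + R ≤ Cb)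
    (hl : |(u : ℝ) * Z.yy j w - v * Z.yy j w' + h| ≤ R / Z.tt j w) :
    Z.prev b w = i0 ∧ Z.hasPrev b w ∧
      ¬ On (Z.θ i0 / Cb ^ 2) (Z.yy i0 w) (Z.tt i0 w) := by
  have hw0 : 0 < w := Nat.pos_of_dvd_of_pos hw hZ.hN
  have hw0' : 0 < w' := Nat.pos_of_dvd_of_pos hw' hZ.hN
  have hlowb : low (Z.cut b) w = low (Z.cut b) w' := low_congr hZ hbj hlow
  have hlow0 : low (Z.cut i0) w = low (Z.cut i0) w' := low_congr hZ (h0b.le.trans hbj) hlow
  have hnd0w : Z.nd i0 w := (nd_congr' hlow0).2 hnd0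
  have hndb' : Z.nd b w' := (nd_congr' hlowb).1 hb.1
  have hprev : Z.hasPrev b w := ⟨i0, h0b, hnd0w⟩
  obtain ⟨p1, p2, p3⟩ := prev_spec hprev
  have hip : i0 ≤ Z.prev b w := p3 _ h0b hnd0w
  have hnl : ¬ Z.light b w := fun hc => hb.2 ⟨hprev, hc⟩
  have hself : ∀ {K : ℝ}, K ≤ Z.θ (Z.prev b w) → ¬ On K (Z.yy b w) (Z.tt b w) := by
    intro K hK hon
    exact hnl ⟨w, mem_S_lab hZ hw hb.1, hon.mono hK⟩
  have hrun := on_run hZ hsq hmono hw' hnd0 h0b hndb'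
    (fun k h1 h2 => hno k h1 (h2.trans hbj))
  have httb : Z.tt b w' = Z.tt b w := by unfold World.tt; rw [e_congr hlowb]
  have htt0 : Z.tt i0 w' = Z.tt i0 w := by unfold World.tt; rw [e_congr hlow0]
  rw [httb, htt0] at hrun
  obtain ⟨hb', hlb⟩ := lk_down hZ hw0 hw0' hbj hlow hl
  obtain ⟨h0', hl0⟩ := lk_down hZ hw0 hw0' (h0b.le.trans hbj) hlow hl
  have htb := tt_pos hZ b w
  have ht0 := tt_pos hZ i0 w
  have hθ0 := hZ.hθ i0 hnd0.1
  have hCb0 : 0 < Cb := by linarith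
  have hR : (u : ℝ) + v + R ≤ Cb := huv
  have hpe : Z.prev b w = i0 := by
    by_contra hne
    have hlt : i0 < Z.prev b w := lt_of_le_of_ne hip (fun h => hne h.symm)
    have h2 : 2 * i0 ≤ Z.prev b w := Budgetx966.nd_growth hZ hZ.hcut2 hnd0w p2 hlt
    have hg := hgrow i0 (Z.prev b w) hnd0.1 h2
    have hon := on_lk hu htb hlb hrun.1
    refine hself ?_ hon
    calc ((u : ℝ) + v + R) * (4 * Z.θ i0) ≤ Cb * (4 * Z.θ i0) :=
          mul_le_mul_of_nonneg_right hR (by linarith)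
      _ = 4 * Cb * Z.θ i0 := by ring
      _ ≤ _ := hg
  refine ⟨hpe, hprev, ?_⟩
  intro hon
  have h1 := on_lk' hv ht0 hl0 hon
  have h2 : ((v : ℝ) + u + R) * (Z.θ i0 / Cb ^ 2) ≤ Z.θ i0 / Cb := by
    have : ((v : ℝ) + u + R) ≤ Cb := by linarith
    calc ((v : ℝ) + u + R) * (Z.θ i0 / Cb ^ 2) ≤ Cb * (Z.θ i0 / Cb ^ 2) :=
          mul_le_mul_of_nonneg_right this (by positivity)
      _ = Z.θ i0 / Cb := by field_simp
  have h3 : Z.θ i0 / Cb ≤ 4 * Z.θ i0 := by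
    rw [div_le_iff₀ hCb0]
    nlinarith
  have h4 := hrun.2 _ h3 (h1.mono h2)
  have h5 := on_lk hu htb hlb h4
  refine hself ?_ h5
  rw [hpe]
  calc ((u : ℝ) + v + R) * (Z.θ i0 / Cb) ≤ Cb * (Z.θ i0 / Cb) :=
        mul_le_mul_of_nonneg_right hR (by positivity)
    _ = Z.θ i0 := by field_simp

end Crest.Agent.R4C.HDx529
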