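import Crest.Agent.R4C.GlueH_81

/-!
# Row 4: class (H), general exponent (S6 v1.1 (3463) B1) (helper81)

`HvKa F f L a P K₀ x b` : some depth `K ≥ K₀` with `uu x b ≤ K^a L` and `Θ_x(b) ≥ K^P`
(heavy at a cut `z ≤ x`).  `class_Ka` : pairs good at `x`, scale `t`, any partner; `class_Ka_set` :
sets, pointwise weight, either member; `sA η a P = (P - a) (1-η)/2 - a > 0`.
-/

set_option autoImplicit false

namespace Crest.Agent.R4C.HclsAx81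

open Finset Crest.Agent.R4C.Basex935 Crest.Agent.R4C.Cutx50 Crest.Agent.R4C.FLDefx935
  Crest.Agent.R4C.HeavyLx50 Crest.Agent.R4C.Hclsx81 Crest.Agent.R4C.GlueHx81

/-- general exponent form -/
def HvKa {M : ℕ} (F : FL M) (f : ℕ → ℝ) (L a P K₀ : ℝ) (x b : ℕ) : Prop :=
  ∃ K : ℝ, K₀ ≤ K ∧ (F.uu x b : ℝ) ≤ K ^ a * L ∧ HeavyAt M f x (K ^ P) b

/-- exponent of the gain -/
noncomputable def sA (η a P : ℝ) : ℝ := (P - a) * ((1 - η) / 2) - a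

lemma cost_eq {η a P K t : ℝ} (hK : 0 < K) (ht : 0 < t) :
    t ^ η * (((2 * K) ^ a / t) * (K ^ P / (2 * K) ^ a) ^ (-((1 - η) / 2))) =
      2 ^ (a * (1 + (1 - η) / 2)) * t ^ (η - 1) * K ^ (-(sA η a P)) := by
  have e2 : (0 : ℝ) < 2 := by norm_num
  have h0 : (2 * K) ^ a = 2 ^ a * K ^ a := Real.mul_rpow e2.le hK.le
  have h1 : K ^ P / (2 * K) ^ a = 2 ^ (-a) * K ^ (P - a) := by
    rw [h0, Real.rpow_neg e2.le, Real.rpow_sub hK]
    field_simp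
  have hK2 : (0 : ℝ) ≤ K ^ (P - a) := Real.rpow_nonneg hK.le _
  rw [h1, Real.mul_rpow (Real.rpow_nonneg e2.le _) hK2, ← Real.rpow_mul e2.le,
    ← Real.rpow_mul hK.le, h0]
  have h2 : (2 : ℝ) ^ (a * (1 + (1 - η) / 2)) = 2 ^ a * 2 ^ (-a * -((1 - η) / 2)) := by
    rw [← Real.rpow_add e2]
    congr 1
    ring
  have h3 : t ^ (η - 1) = t ^ η / t := by rw [Real.rpow_sub ht, Real.rpow_one]
  have h4 : K ^ (-(sA η a P)) = K ^ a * K ^ ((P - a) * -((1 - η) / 2)) := by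
    rw [← Real.rpow_add hK]
    congr 1
    unfold sA
    ring
  rw [h2, h3, h4]
  field_simp

open Classical in
/-- **class (H), general exponent, all depths `K ≥ K₀`** -/
theorem class_Ka {M : ℕ} (hM : 0 < M) (F : FL M) (x : ℕ)
    {η C t L a P K₀ : ℝ} (hη0 : 0 ≤ η) (hη1 : η ≤ 1) (ha : 0 ≤ a) (hP : 0 < P)
    (hs : 0 < sA η a P)
    (hC : 0 ≤ C) (ht : 0 < t) (hL : 0 < L) (hK₀ : 0 < K₀) {f f' : ℕ → ℝ}
    (hf : ∀ b, 0 ≤ f b ∧ f b ≤ 1) (hf' : ∀ b, 0 ≤ f' b ∧ f' b ≤ 1)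
    (HVW : ∀ M' : ℕ, M' ∣ M → ∀ f f' : ℕ → ℝ, (∀ b, 0 ≤ f b ∧ f b ≤ 1) →
      (∀ b, 0 ≤ f' b ∧ f' b ≤ 1) → ∀ X : ℝ, 0 < X →
      frm M' (fun b c => if X ≤ (Nat.gcd b c : ℝ) ∧ (Nat.gcd b c : ℝ) < 2 * X
        then f b * f' c else 0) ≤ C * X ^ η * (Ex M' f * Ex M' f') ^ ((1 + η) / 2)) :
    L * frm M (fun b c =>
      if F.good x b c ∧ HvKa F f L a P K₀ x b ∧
        t * L ≤ (Nat.gcd b c : ℝ) ∧ (Nat.gcd b c : ℝ) < 2 * (t * L) then f b * f' c else 0) ≤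
      C * (2 ^ (a * (1 + (1 - η) / 2)) / (1 - 2 ^ (-(sA η a P)))) * t ^ (η - 1) *
        K₀ ^ (-(sA η a P)) * (L * Ex M f) * (L * Ex M f') ^ ((1 + η) / 2) := by
  set s := sA η a P with hsd
  obtain ⟨N, hN⟩ : ∃ N : ℕ, (M : ℝ) < (2 ^ N * K₀) ^ P := by
    obtain ⟨N, hN⟩ := pow_unbounded_of_one_lt (((M : ℝ) + 1) ^ P⁻¹ / K₀)
      (by norm_num : (1 : ℝ) < 2)
    refine ⟨N, ?_⟩
    have h1 : ((M : ℝ) + 1) ^ P⁻¹ < 2 ^ N * K₀ := (div_lt_iff₀ hK₀).1 hN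
    have h2 : (((M : ℝ) + 1) ^ P⁻¹) ^ P ≤ (2 ^ N * K₀) ^ P :=
      Real.rpow_le_rpow (by positivity) h1.le hP.le
    rw [← Real.rpow_mul (by positivity), inv_mul_cancel₀ hP.ne', Real.rpow_one] at h2
    linarith
  have h1 : L * frm M (fun b c =>
      if F.good x b c ∧ HvKa F f L a P K₀ x b ∧
        t * L ≤ (Nat.gcd b c : ℝ) ∧ (Nat.gcd b c : ℝ) < 2 * (t * L) then f b * f' c else 0) ≤
      ∑ j ∈ range N, L * frm M (fun b c =>
      if F.good x b c ∧ (F.uu x b : ℝ) ≤ (2 * (2 ^ j * K₀)) ^ a * L ∧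
        HeavyAt M f x ((2 ^ j * K₀) ^ P) b ∧
        t * L ≤ (Nat.gcd b c : ℝ) ∧ (Nat.gcd b c : ℝ) < 2 * (t * L) then f b * f' c else 0) := by
    rw [← Finset.mul_sum, frm_sum]
    refine mul_le_mul_of_nonneg_left (frm_mono fun b c hb hc => ?_) hL.le
    have hterm : ∀ j ∈ range N, (0 : ℝ) ≤
        if F.good x b c ∧ (F.uu x b : ℝ) ≤ (2 * (2 ^ j * K₀)) ^ a * L ∧
        HeavyAt M f x ((2 ^ j * K₀) ^ P) b ∧
        t * L ≤ (Nat.gcd b c : ℝ) ∧ (Nat.gcd b c : ℝ) < 2 * (t * L)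
        then f b * f' c else 0 := by
      intro j _
      split_ifs
      · exact mul_nonneg (hf b).1 (hf' c).1
      · exact le_rfl
    by_cases h : F.good x b c ∧ HvKa F f L a P K₀ x b ∧
        t * L ≤ (Nat.gcd b c : ℝ) ∧ (Nat.gcd b c : ℝ) < 2 * (t * L)
    swap
    · rw [if_neg h]
      exact Finset.sum_nonneg hterm
    obtain ⟨hg, ⟨K, hK, hu, hH⟩, h2, h3⟩ := h
    obtain ⟨j, hj, hj'⟩ := exists_dyad hK₀ hK
    have hKj : (0 : ℝ) < 2 ^ j * K₀ := by positivity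
    have hH' : HeavyAt M f x ((2 ^ j * K₀) ^ P) b :=
      HeavyAt_mono (Real.rpow_le_rpow hKj.le hj hP.le) hH
    have hjN : j ∈ range N := by
      rw [Finset.mem_range]
      by_contra hcon
      push Not at hcon
      have h4 := HeavyAt_le hM hf hb hH'
      have h5 : (2 ^ N * K₀) ^ P ≤ (2 ^ j * K₀) ^ P := by
        refine Real.rpow_le_rpow (by positivity) ?_ hP.le
        exact mul_le_mul_of_nonneg_right (pow_le_pow_right₀ (by norm_num) hcon) hK₀.le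
      linarith
    have hu' : (F.uu x b : ℝ) ≤ (2 * (2 ^ j * K₀)) ^ a * L := by
      refine hu.trans (mul_le_mul_of_nonneg_right ?_ hL.le)
      refine Real.rpow_le_rpow (hKj.le.trans hj) ?_ ha
      rw [pow_succ] at hj'
      linarith
    refine le_trans ?_ (Finset.single_le_sum hterm hjN)
    rw [if_pos ⟨hg, ⟨K, hK, hu, hH⟩, h2, h3⟩, if_pos ⟨hg, hu', hH', h2, h3⟩]
  refine h1.trans ?_
  have hE' : 0 ≤ L * Ex M f' := mul_nonneg hL.le (Ex_nonneg _ fun b => (hf' b).1)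
  have hE : 0 ≤ L * Ex M f := mul_nonneg hL.le (Ex_nonneg _ fun b => (hf b).1)
  have hterm : ∀ j ∈ range N, L * frm M (fun b c =>
      if F.good x b c ∧ (F.uu x b : ℝ) ≤ (2 * (2 ^ j * K₀)) ^ a * L ∧
        HeavyAt M f x ((2 ^ j * K₀) ^ P) b ∧
        t * L ≤ (Nat.gcd b c : ℝ) ∧ (Nat.gcd b c : ℝ) < 2 * (t * L) then f b * f' c else 0) ≤
      (C * 2 ^ (a * (1 + (1 - η) / 2)) * t ^ (η - 1) * K₀ ^ (-s) * (L * Ex M f) *
        (L * Ex M f') ^ ((1 + η) / 2)) * (2 ^ (-s)) ^ j := by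
    intro j _
    have hKj : (0 : ℝ) < 2 ^ j * K₀ := by positivity
    have h2 := class_J hM F x (η := η) (C := C) (t := t) (L := L) (U := (2 * (2 ^ j * K₀)) ^ a)
      (H := (2 ^ j * K₀) ^ P) hη0 hη1 hC ht hL (Real.rpow_pos_of_pos (by positivity) _)
      (Real.rpow_pos_of_pos hKj _) hf hf' HVW
    refine h2.trans (le_of_eq ?_)
    have h3 := cost_eq (η := η) (a := a) (P := P) hKj ht
    rw [← hsd] at h3
    have h4 : (2 ^ j * K₀) ^ (-s) = (2 ^ (-s)) ^ j * K₀ ^ (-s) := by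
      rw [Real.mul_rpow (by positivity) hK₀.le, ← Real.rpow_natCast, ← Real.rpow_natCast,
        ← Real.rpow_mul (by norm_num), ← Real.rpow_mul (by norm_num)]
      congr 2
      ring
    rw [h4] at h3
    calc C * t ^ η * (((2 * (2 ^ j * K₀)) ^ a / t) *
          ((2 ^ j * K₀) ^ P / (2 * (2 ^ j * K₀)) ^ a) ^ (-((1 - η) / 2))) * (L * Ex M f) *
            (L * Ex M f') ^ ((1 + η) / 2)
        = C * (t ^ η * (((2 * (2 ^ j * K₀)) ^ a / t) *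
          ((2 ^ j * K₀) ^ P / (2 * (2 ^ j * K₀)) ^ a) ^ (-((1 - η) / 2)))) * (L * Ex M f) *
            (L * Ex M f') ^ ((1 + η) / 2) := by ring
      _ = _ := by rw [h3]; ring
  refine (Finset.sum_le_sum hterm).trans ?_
  rw [← Finset.mul_sum]
  have h2s : (2 : ℝ) ^ (-s) < 1 := Real.rpow_lt_one_of_one_lt_of_neg (by norm_num) (by linarith)
  have h2s0 : (0 : ℝ) < (2 : ℝ) ^ (-s) := Real.rpow_pos_of_pos (by norm_num) _
  have hgeo : ∑ j ∈ range N, ((2 : ℝ) ^ (-s)) ^ j ≤ (1 - 2 ^ (-s))⁻¹ := by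
    have := Summable.sum_le_tsum (range N) (fun j _ => pow_nonneg h2s0.le j)
      (summable_geometric_of_lt_one h2s0.le h2s)
    rwa [tsum_geometric_of_lt_one h2s0.le h2s] at this
  have hA : 0 ≤ C * 2 ^ (a * (1 + (1 - η) / 2)) * t ^ (η - 1) * K₀ ^ (-s) * (L * Ex M f) *
        (L * Ex M f') ^ ((1 + η) / 2) := by positivity
  refine (mul_le_mul_of_nonneg_left hgeo hA).trans (le_of_eq ?_)
  rw [div_eq_mul_inv]
  ring

/-- **class (H), general exponent, set form**: pointwise weight `≤ W`, either member -/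
theorem class_Ka_set {η a P : ℝ} (hη0 : 0 < η) (hη1 : η < 1) (ha : 0 ≤ a) (hP : 0 < P)
    (hs : 0 < sA η a P) :
    ∃ C : ℝ, 0 < C ∧ ∀ (M : ℕ) (F : FL M) (B : Finset ℕ) (x : ℕ) (L t K₀ W : ℝ)
      (w : ℕ → ℕ → ℝ), 0 < M → B ⊆ M.divisors → 0 < L → 0 < t → 0 < K₀ →
      L * ∑ b ∈ B, nu M b ≤ 1 → 0 ≤ W →
      (∀ b ∈ B, ∀ c ∈ B, w b c ≤ W ∧ (w b c ≠ 0 → F.good x b c ∧
        (HvKa F (ind B) L a P K₀ x b ∨ HvKa F (ind B) L a P K₀ x c) ∧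
        t * L ≤ (Nat.gcd b c : ℝ) ∧ (Nat.gcd b c : ℝ) < 2 * (t * L))) →
      L * ∑ b ∈ B, ∑ c ∈ B, (Nat.gcd b c : ℝ) * nu M b * nu M c * w b c ≤
        C * W * t ^ (η - 1) * K₀ ^ (-(sA η a P)) * (L * ∑ b ∈ B, nu M b) := by
  classical
  obtain ⟨C, hC, h⟩ := Crest.Agent.R4C.HeavyUx50.hvw hη0 hη1
  have h2s : (2 : ℝ) ^ (-(sA η a P)) < 1 :=
    Real.rpow_lt_one_of_one_lt_of_neg (by norm_num) (by linarith)
  have h2s' : (0 : ℝ) < 1 - 2 ^ (-(sA η a P)) := by linarith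
  set C₁ := C * (2 ^ (a * (1 + (1 - η) / 2)) / (1 - 2 ^ (-(sA η a P)))) with hC₁
  have hC₁0 : 0 < C₁ := by positivity
  refine ⟨2 * C₁, by positivity, fun M F B x L t K₀ W w hM hB hL ht hK₀ hm hW hw => ?_⟩
  have hf := ind_bd B
  have h1 := class_Ka hM F x (η := η) (C := C) (t := t) (L := L) (a := a) (P := P) (K₀ := K₀)
    hη0.le hη1.le ha hP hs hC.le ht hL hK₀ hf hf
    (fun M' hM' => h M' (Nat.pos_of_dvd_of_pos hM' hM))
  rw [Ex_ind hB, ← hC₁] at h1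
  set m := L * ∑ b ∈ B, nu M b with hmd
  have hm0 : 0 ≤ m := mul_nonneg hL.le (Finset.sum_nonneg fun b _ => nu_nonneg M b)
  have hmm : m * m ^ ((1 + η) / 2) ≤ m :=
    mul_le_of_le_one_right hm0 (Real.rpow_le_one hm0 hm (by linarith))
  have h1' : L * frm M (fun b c => if F.good x b c ∧ HvKa F (ind B) L a P K₀ x b ∧
        t * L ≤ (Nat.gcd b c : ℝ) ∧ (Nat.gcd b c : ℝ) < 2 * (t * L)
        then ind B b * ind B c else 0) ≤ C₁ * t ^ (η - 1) * K₀ ^ (-(sA η a P)) * m := by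
    refine h1.trans ?_
    calc C₁ * t ^ (η - 1) * K₀ ^ (-(sA η a P)) * m * m ^ ((1 + η) / 2)
        = (C₁ * t ^ (η - 1) * K₀ ^ (-(sA η a P))) * (m * m ^ ((1 + η) / 2)) := by ring
      _ ≤ _ := mul_le_mul_of_nonneg_left hmm (by positivity)
  have h2' : L * frm M (fun b c => if F.good x b c ∧ HvKa F (ind B) L a P K₀ x c ∧
        t * L ≤ (Nat.gcd b c : ℝ) ∧ (Nat.gcd b c : ℝ) < 2 * (t * L)
        then ind B b * ind B c else 0) ≤ C₁ * t ^ (η - 1) * K₀ ^ (-(sA η a P)) * m := by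
    refine le_trans (le_of_eq ?_) h1'
    rw [← frm_swap]
    congr 1
    refine frm_congr fun b c hb hc => ?_
    have e1 : F.good x c b ↔ F.good x b c := ⟨FL.good_symm hc hb, FL.good_symm hb hc⟩
    rw [Nat.gcd_comm c b, e1, mul_comm (ind B c)]
  refine (set_wrap hB hL.le hW (HvKa F (ind B) L a P K₀ x) (HvKa F (ind B) L a P K₀ x)
    h1' h2' w hw).trans (le_of_eq ?_)
  ring

end Crest.Agent.R4C.HclsAx81
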