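import Crest.Agent.R4C.Heavy_129
import Crest.Agent.R4C.BoostC_972

/-!
# A heavy low cut makes every higher cut heavy (helper726; input (2) of 610's vector GW)

`heavy_up` : for `b ∣ M`, `y ≤ P`, `f ≥ 0`
  `low y b * mass_y(b) * ∏_{y < p ≤ P, p ∣ M} (1 - 1/p) ≤ low P b * mass_P(b)`,
`mass_x(b) = mass M f x (upp x b)` (the natural mass of `f` below the cut `x`, letters of `b` above).
`heavy_up_log`: `low y b * mass_y(b) ≤ CM * log P * (low P b * mass_P(b))` (`CM` of `BoostC_972`).
-/

set_option autoImplicit false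

open Finset

namespace Crest.Agent.R4C.HeavyUpx726

open Crest.Agent.R4C.Basex935 Crest.Agent.R4C.Cutx50 Crest.Agent.R4C.Lawx69
  Crest.Agent.R4C.HeavyLx50 Crest.Agent.R4C.Heavyx129 Crest.Agent.R4C.PrefixMx882

/-- the thinning between two cuts -/
noncomputable def thin (M y P : ℕ) : ℝ :=
  ∏ p ∈ M.primeFactors with (y < p ∧ p ≤ P), (1 - 1 / (p : ℝ))

lemma thin_pos (M y P : ℕ) : 0 < thin M y P := by
  refine Finset.prod_pos fun p hp => ?_
  have hp' := Nat.prime_of_mem_primeFactors (Finset.mem_filter.1 hp).1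
  have : (1 : ℝ) / p < 1 := by
    rw [div_lt_one (by exact_mod_cast hp'.pos)]
    exact_mod_cast hp'.one_lt
  linarith

lemma thin_le_one (M y P : ℕ) : thin M y P ≤ 1 :=
  Finset.prod_le_one (fun p _ => one_sub_nonneg p) fun p _ => one_sub_le_one p

/-- the middle word: `upp y (low P b)` -/
lemma mid_mul {y P b : ℕ} (h : y ≤ P) : upp y (low P b) * upp P b = upp y b := by
  refine Nat.eq_of_factorization_eq (mul_ne_zero (upp_pos _ _).ne' (upp_pos _ _).ne')
    (upp_pos _ _).ne' fun p => ?_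
  rw [Nat.factorization_mul (upp_pos _ _).ne' (upp_pos _ _).ne', Finsupp.add_apply,
    fact_upp, fact_low, fact_upp, fact_upp]
  by_cases h1 : p ≤ P
  · by_cases h2 : p ≤ y <;> simp [h1, h2]
  · have h2 : ¬ p ≤ y := by omega
    simp [h1, h2]

lemma low_mid {y P b : ℕ} (h : y ≤ P) : low y b * upp y (low P b) = low P b := by
  have h1 := low_mul_upp y (b := low P b) (low_pos P b).ne'
  rwa [low_low h] at h1

/-- the thinning of the middle word -/
lemma thin_le_Vm {M y P b : ℕ} :
    thin M y P ≤ Vm (upp y (low P M)) (upp y (low P b)) := by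
  unfold thin Vm
  have hsub : free (upp y (low P M)) (upp y (low P b)) ⊆
      M.primeFactors.filter (fun p => y < p ∧ p ≤ P) := by
    intro p hp
    unfold free at hp
    rw [Finset.mem_filter, Nat.mem_primeFactors] at hp
    obtain ⟨⟨hpp, hpd, _⟩, h2⟩ := hp
    have h3 : (upp y (low P M)).factorization p ≠ 0 := by omega
    rw [fact_upp, fact_low] at h3
    have h4 : ¬ p ≤ y := by
      intro hc
      simp [hc] at h3
    have h5 : p ≤ P := by
      by_contra hc
      simp [hc] at h3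
    rw [if_pos h4, if_pos h5] at h3
    rw [Finset.mem_filter, ← Nat.support_factorization, Finsupp.mem_support_iff]
    exact ⟨h3, by omega, h5⟩
  rw [← Finset.prod_sdiff hsub]
  have h1 : ∏ p ∈ (M.primeFactors.filter (fun p => y < p ∧ p ≤ P)) \
      free (upp y (low P M)) (upp y (low P b)), (1 - 1 / (p : ℝ)) ≤ 1 :=
    Finset.prod_le_one (fun p _ => one_sub_nonneg p) fun p _ => one_sub_le_one p
  have h2 : 0 ≤ ∏ p ∈ free (upp y (low P M)) (upp y (low P b)), (1 - 1 / (p : ℝ)) :=
    Finset.prod_nonneg fun p _ => one_sub_nonneg p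
  nlinarith

/-- one term of the refinement of a node mass -/
lemma mass_refine {M b y P : ℕ} (hM : 0 < M) (hb : b ∣ M) (h : y ≤ P) {f : ℕ → ℝ}
    (hf : ∀ b, 0 ≤ f b) :
    nu (upp y (low P M)) (upp y (low P b)) * mass M f y (upp y b) ≤ mass M f P (upp P b) := by
  have hlow := low_pos P M
  have e1 : mass M f P (upp P b) =
      Ex (upp y (low P M)) (fun T => mass M f y (T * upp P b)) := by
    have h1 : mass M f P (upp P b) = Ex (low P M) (fun n => f (n * upp P b)) := rfl
    rw [h1, Ex_cut hlow y]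
    unfold Ex
    refine Finset.sum_congr rfl fun T _ => ?_
    beta_reduce
    rw [mass_prefix h]
  rw [e1]
  unfold Ex
  have hmem : upp y (low P b) ∈ (upp y (low P M)).divisors := by
    rw [Nat.mem_divisors]
    exact ⟨upp_dvd y hlow.ne' (low_dvd P hM.ne' hb), (upp_pos _ _).ne'⟩
  have h2 := Finset.single_le_sum (f := fun T => nu (upp y (low P M)) T *
    mass M f y (T * upp P b)) (fun T _ => mul_nonneg (nu_nonneg _ _) (mass_nonneg M hf _ _)) hmem
  beta_reduce at h2
  rwa [mid_mul h] at h2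

/-- **heavy at a low cut implies heavy (up to the thinning) at every higher cut** -/
theorem heavy_up {M b y P : ℕ} (hM : 0 < M) (hb : b ∣ M) (h : y ≤ P) {f : ℕ → ℝ}
    (hf : ∀ b, 0 ≤ f b) :
    (low y b : ℝ) * mass M f y (upp y b) * thin M y P ≤
      (low P b : ℝ) * mass M f P (upp P b) := by
  have h1 := mass_refine hM hb h hf
  have hd : upp y (low P b) ∣ upp y (low P M) :=
    upp_dvd y (low_pos P M).ne' (low_dvd P hM.ne' hb)
  rw [nu_eq_Vm (upp_pos _ _) hd] at h1
  have hu : (0 : ℝ) < upp y (low P b) := by exact_mod_cast upp_pos y (low P b)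
  have hl : (0 : ℝ) < low y b := by exact_mod_cast low_pos y b
  have hm := mass_nonneg M hf y (upp y b)
  have h2 : Vm (upp y (low P M)) (upp y (low P b)) * mass M f y (upp y b) ≤
      (upp y (low P b) : ℝ) * mass M f P (upp P b) := by
    rw [div_mul_eq_mul_div, div_le_iff₀ hu] at h1
    linarith
  have h3 : mass M f y (upp y b) * thin M y P ≤
      (upp y (low P b) : ℝ) * mass M f P (upp P b) := by
    have h4 := mul_le_mul_of_nonneg_right (thin_le_Vm (M := M) (y := y) (P := P) (b := b)) hm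
    linarith
  have e : (low P b : ℝ) = (low y b : ℝ) * (upp y (low P b) : ℝ) := by
    rw [← Nat.cast_mul, low_mid h]
  rw [e, mul_assoc, mul_assoc]
  exact mul_le_mul_of_nonneg_left h3 hl.le

/-- with an explicit bound for the inverse thinning -/
theorem heavy_up_le {M b y P : ℕ} (hM : 0 < M) (hb : b ∣ M) (h : y ≤ P) {f : ℕ → ℝ}
    (hf : ∀ b, 0 ≤ f b) {C : ℝ} (hC : (thin M y P)⁻¹ ≤ C) :
    (low y b : ℝ) * mass M f y (upp y b) ≤ C * ((low P b : ℝ) * mass M f P (upp P b)) := by
  have h1 := heavy_up hM hb h hf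
  have h2 := thin_pos M y P
  have h3 : (low y b : ℝ) * mass M f y (upp y b) ≤
      (thin M y P)⁻¹ * ((low P b : ℝ) * mass M f P (upp P b)) := by
    rw [inv_mul_eq_div, le_div_iff₀ h2]
    exact h1
  refine h3.trans (mul_le_mul_of_nonneg_right hC ?_)
  exact mul_nonneg (Nat.cast_nonneg _) (mass_nonneg M hf _ _)

/-- monotone in the interval -/
lemma thin_mono {M y y' P P' : ℕ} (hy : y' ≤ y) (hP : P ≤ P') : thin M y' P' ≤ thin M y P := by
  unfold thin
  have hsub : M.primeFactors.filter (fun p => y < p ∧ p ≤ P) ⊆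
      M.primeFactors.filter (fun p => y' < p ∧ p ≤ P') := by
    intro p hp
    rw [Finset.mem_filter] at hp ⊢
    exact ⟨hp.1, by omega, by omega⟩
  rw [← Finset.prod_sdiff hsub]
  have h1 : ∏ p ∈ (M.primeFactors.filter (fun p => y' < p ∧ p ≤ P')) \
      M.primeFactors.filter (fun p => y < p ∧ p ≤ P), (1 - 1 / (p : ℝ)) ≤ 1 :=
    Finset.prod_le_one (fun p _ => one_sub_nonneg p) fun p _ => one_sub_le_one p
  have h2 : 0 ≤ ∏ p ∈ M.primeFactors with (y < p ∧ p ≤ P), (1 - 1 / (p : ℝ)) :=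
    Finset.prod_nonneg fun p _ => one_sub_nonneg p
  nlinarith

/-- Mertens: `(thin M y P)⁻¹ ≤ CM log P` -/
lemma thin_inv_le (M y : ℕ) {P : ℕ} (hP : 2 ≤ P) :
    (thin M y P)⁻¹ ≤ BoostCx972.CM * Real.log P := by
  have h := BoostCx972.prod_pf_le_mertens (y := (P : ℝ)) (by exact_mod_cast hP)
    (S := M.primeFactors.filter (fun p => y < p ∧ p ≤ P)) (fun p hp => by
      rw [Finset.mem_filter] at hp
      exact ⟨Nat.prime_of_mem_primeFactors hp.1, by exact_mod_cast hp.2.2⟩)
  refine le_trans (le_of_eq ?_) h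
  unfold thin BoostCx972.pf
  rw [Finset.prod_inv_distrib]

/-- **610's input (2)**: `Θ` over cuts below `P` is at most `CM log P` times its value at `P` -/
theorem heavy_up_log {M b y P : ℕ} (hM : 0 < M) (hb : b ∣ M) (h : y ≤ P) (hP : 2 ≤ P)
    {f : ℕ → ℝ} (hf : ∀ b, 0 ≤ f b) :
    (low y b : ℝ) * mass M f y (upp y b) ≤
      BoostCx972.CM * Real.log P * ((low P b : ℝ) * mass M f P (upp P b)) :=
  heavy_up_le hM hb h hf (thin_inv_le M y hP)

/-- contrapositive: light at the cut `P` ⇒ light at every cut `y ≤ P` with threshold times `CM log P` -/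
theorem light_down {M b P : ℕ} (hM : 0 < M) (hb : b ∣ M) (hP : 2 ≤ P)
    {f : ℕ → ℝ} (hf : ∀ b, 0 ≤ f b) {L H : ℝ} (hL : 0 ≤ L)
    (hH : L * ((low P b : ℝ) * mass M f P (upp P b)) ≤ H) :
    ∀ y ≤ P, L * ((low y b : ℝ) * mass M f y (upp y b)) ≤ BoostCx972.CM * Real.log P * H := by
  intro y hy
  have h1 := mul_le_mul_of_nonneg_left (heavy_up_log hM hb hy hP hf) hL
  have hc : 0 ≤ BoostCx972.CM * Real.log P :=
    mul_nonneg BoostCx972.CM_pos.le (Real.log_nonneg (by
      have : (1 : ℝ) ≤ P := by exact_mod_cast (by omega : 1 ≤ P)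
      exact this))
  have h2 := mul_le_mul_of_nonneg_left hH hc
  nlinarith

end Crest.Agent.R4C.HeavyUpx726
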