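import Crest.Agent.R4C.FLDef_935
import Crest.Agent.R4C.Law_69
import Crest.Agent.R4C.HeavyL_50

/-!
# HEAVY = NATURALLY RARE (823's note 2986 (4)), general `M` (helper129)

`U` any modulus, `w ∣ U` a fixed word, `Fr` the free primes.  The words `w * lam`,
`lam ∣ part Fr (U / w)`, have the exact law `nu U (w * lam) = kap / w * nu (part Fr (U / w)) lam`,
`kap = ∏_{p ∣ U / w, p not free} (1 - 1/p)`.  Hence
* `Ex_free_le`, `free_rare` (Markov), `free_holder` (Hölder);
* `heavy_rare` : `ν {lam : H e ≤ L mass (e S lam)} ≤ S m / (H kap)`, `m = L Ex M f`;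
* `heavy_holder` : `∑_heavy ν δ^ρ ≤ (S m / (H kap))^(1-ρ) (E δ)^ρ`.

Over an abstract F-Λ structure (`FLDef_935`): for a good pair `(b, c)` at the cut `x` the upper
word of `b` is `e * S * lam`, `e = gcd` of the upper words, `S = ell x c`, `lam = lam x b`
supported on the free primes `Frp F x c (ell x b)`; `class_sum_le`, `class_rare`, `class_holder`.

* `doob`, `doob_prefix` : `P(∃ y ≤ N, a ≤ mass M f y (upp y b)) ≤ Ex M f / a`.
-/

set_option autoImplicit false

open Finset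

namespace Crest.Agent.R4C.Heavyx129

open Crest.Agent.R4C.Basex935 Crest.Agent.R4C.Cutx50 Crest.Agent.R4C.Lawx69
  Crest.Agent.R4C.FLDefx935 Crest.Agent.R4C.HeavyLx50 Crest.Agent.R4C.PrefixMx882

/-! ### Words supported on a set of primes -/

lemma part_eq_self {S : ℕ → Prop} [DecidablePred S] {b : ℕ} (hb : b ≠ 0)
    (h : ∀ p, p.Prime → p ∣ b → S p) : part S b = b := by
  refine Nat.eq_of_factorization_eq (part_ne S b) hb fun p => ?_
  rw [fact_part]
  by_cases hS : S p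
  · rw [if_pos hS]
  · rw [if_neg hS]
    by_contra hc
    have hp : p.Prime := by
      by_contra hp
      exact hc (Nat.factorization_eq_zero_of_not_prime _ hp).symm
    exact hS (h p hp (Nat.dvd_of_factorization_pos (fun h0 => hc h0.symm)))

lemma dvd_part_of {S : ℕ → Prop} [DecidablePred S] {b N : ℕ} (hN : N ≠ 0) (hb : b ∣ N)
    (h : ∀ p, p.Prime → p ∣ b → S p) : b ∣ part S N := by
  have hb0 : b ≠ 0 := fun hc => hN (Nat.eq_zero_of_zero_dvd (hc ▸ hb))
  rw [← part_eq_self hb0 h]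
  exact part_dvd S hN hb

/-- thinning of the non-free letters -/
noncomputable def kap (Fr : ℕ → Prop) [DecidablePred Fr] (N : ℕ) : ℝ :=
  ∏ p ∈ N.primeFactors with ¬ Fr p, (1 - 1 / (p : ℝ))

section free

variable (Fr : ℕ → Prop) [DecidablePred Fr]

lemma part_one : part Fr 1 = 1 := by
  unfold part
  simp

lemma kap_pos (N : ℕ) : 0 < kap Fr N := by
  refine Finset.prod_pos fun p hp => ?_
  have hp' := Nat.prime_of_mem_primeFactors (Finset.mem_filter.1 hp).1
  have : (1 : ℝ) / p < 1 := by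
    rw [div_lt_one (by exact_mod_cast hp'.pos)]
    exact_mod_cast hp'.one_lt
  linarith

lemma kap_le_one (N : ℕ) : kap Fr N ≤ 1 :=
  Finset.prod_le_one (fun p _ => one_sub_nonneg p) fun p _ => one_sub_le_one p

lemma nu_one_eq_kap {N : ℕ} (hN : 0 < N) : nu (part (fun p => ¬ Fr p) N) 1 = kap Fr N := by
  have h1 := Vm_part (fun p => ¬ Fr p) (b := 1) hN
  rw [part_one, Vm_eq (part_pos _ _) (one_dvd _), Nat.cast_one, one_mul,
    free_eq hN (one_dvd N), Nat.div_one] at h1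
  exact h1

/-- **exact law of a free word over a fixed word** -/
theorem nu_free {U w lam : ℕ} (hU : 0 < U) (hw : w ∣ U) (hl : lam ∣ part Fr (U / w)) :
    nu U (w * lam) = kap Fr (U / w) / (w : ℝ) * nu (part Fr (U / w)) lam := by
  have hw0 : 0 < w := Nat.pos_of_dvd_of_pos hw hU
  have hUw : 0 < U / w := Nat.div_pos (Nat.le_of_dvd hU hw) hw0
  have h1 := nu_cut Fr hUw hl (one_dvd (part (fun p => ¬ Fr p) (U / w)))
  rw [mul_one, nu_one_eq_kap Fr hUw] at h1
  rw [nu_cofactor hU hw, h1]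
  ring

lemma mul_dvd_of_free {U w lam : ℕ} (hw : w ∣ U) (hl : lam ∣ part Fr (U / w)) :
    w * lam ∣ U :=
  (Nat.dvd_div_iff_mul_dvd hw).1 (hl.trans (part_dvd_self _ _))

/-- sums over the free words of a fixed word are part of the full sum -/
theorem sum_free_le {U w : ℕ} (hU : 0 < U) (hw : w ∣ U) {s : Finset ℕ}
    (hs : s ⊆ (part Fr (U / w)).divisors) {g : ℕ → ℝ} (hg : ∀ b, 0 ≤ g b) :
    kap Fr (U / w) / (w : ℝ) * ∑ lam ∈ s, nu (part Fr (U / w)) lam * g (w * lam) ≤ Ex U g := by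
  classical
  have hw0 : 0 < w := Nat.pos_of_dvd_of_pos hw hU
  rw [Finset.mul_sum]
  have h1 : ∑ lam ∈ s, kap Fr (U / w) / (w : ℝ) * (nu (part Fr (U / w)) lam * g (w * lam)) =
      ∑ b ∈ s.image (fun lam => w * lam), nu U b * g b := by
    rw [Finset.sum_image (fun x _ y _ h => Nat.eq_of_mul_eq_mul_left hw0 h)]
    refine Finset.sum_congr rfl fun lam hl => ?_
    rw [nu_free Fr hU hw (Nat.dvd_of_mem_divisors (hs hl))]
    ring
  rw [h1]
  unfold Ex
  refine Finset.sum_le_sum_of_subset_of_nonneg ?_ fun b _ _ => mul_nonneg (nu_nonneg _ _) (hg b)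
  intro b hb
  rw [Finset.mem_image] at hb
  obtain ⟨lam, hl, rfl⟩ := hb
  exact Nat.mem_divisors.2 ⟨mul_dvd_of_free Fr hw (Nat.dvd_of_mem_divisors (hs hl)), hU.ne'⟩

theorem Ex_free_le {U w : ℕ} (hU : 0 < U) (hw : w ∣ U) {g : ℕ → ℝ} (hg : ∀ b, 0 ≤ g b) :
    kap Fr (U / w) / (w : ℝ) * Ex (part Fr (U / w)) (fun lam => g (w * lam)) ≤ Ex U g :=
  sum_free_le Fr hU hw (Finset.Subset.refl _) hg

open Classical in
/-- **Markov over the free word**: `ν {lam : a ≤ g (w lam)} ≤ w E g / (a kap)` -/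
theorem free_rare {U w : ℕ} (hU : 0 < U) (hw : w ∣ U) {g : ℕ → ℝ} (hg : ∀ b, 0 ≤ g b)
    {a : ℝ} (ha : 0 < a) :
    ∑ lam ∈ (part Fr (U / w)).divisors with a ≤ g (w * lam), nu (part Fr (U / w)) lam ≤
      w * Ex U g / (a * kap Fr (U / w)) := by
  have hw0 : 0 < w := Nat.pos_of_dvd_of_pos hw hU
  have hw' : (0 : ℝ) < w := by exact_mod_cast hw0
  have hk := kap_pos Fr (U / w)
  have h1 := Ex_free_le Fr hU hw hg
  rw [le_div_iff₀ (mul_pos ha hk)]
  have h2 : (∑ lam ∈ (part Fr (U / w)).divisors with a ≤ g (w * lam),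
      nu (part Fr (U / w)) lam) * a ≤ Ex (part Fr (U / w)) (fun lam => g (w * lam)) := by
    unfold Ex
    rw [Finset.sum_mul, Finset.sum_filter]
    refine Finset.sum_le_sum fun lam _ => ?_
    split_ifs with h
    · exact mul_le_mul_of_nonneg_left h (nu_nonneg _ _)
    · exact mul_nonneg (nu_nonneg _ _) (hg _)
  calc (∑ lam ∈ (part Fr (U / w)).divisors with a ≤ g (w * lam),
        nu (part Fr (U / w)) lam) * (a * kap Fr (U / w))
      = kap Fr (U / w) * ((∑ lam ∈ (part Fr (U / w)).divisors with a ≤ g (w * lam),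
        nu (part Fr (U / w)) lam) * a) := by ring
    _ ≤ kap Fr (U / w) * Ex (part Fr (U / w)) (fun lam => g (w * lam)) :=
        mul_le_mul_of_nonneg_left h2 hk.le
    _ = w * (kap Fr (U / w) / (w : ℝ) * Ex (part Fr (U / w)) (fun lam => g (w * lam))) := by
        field_simp
    _ ≤ w * Ex U g := mul_le_mul_of_nonneg_left h1 hw'.le

end free

/-! ### Hölder -/

/-- Hölder with weights on a finite set, `0 ≤ r ≤ 1` -/
lemma holder {ι : Type*} (s : Finset ι) {r : ℝ} (hr0 : 0 < r) (hr1 : r ≤ 1) (w g : ι → ℝ)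
    (hw : ∀ i, 0 ≤ w i) (hg : ∀ i, 0 ≤ g i) :
    ∑ i ∈ s, w i * g i ^ r ≤ (∑ i ∈ s, w i) ^ (1 - r) * (∑ i ∈ s, w i * g i) ^ r := by
  have hp : 1 ≤ r⁻¹ := (one_le_inv₀ hr0).2 hr1
  have h := Real.inner_le_weight_mul_Lp_of_nonneg s hp w (fun i => g i ^ r) hw
    (fun i => Real.rpow_nonneg (hg i) _)
  simp only [inv_inv] at h
  have e : ∀ i, (g i ^ r) ^ r⁻¹ = g i := fun i => by
    rw [← Real.rpow_mul (hg i), mul_inv_cancel₀ hr0.ne', Real.rpow_one]
  simpa only [e] using h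

/-- Hölder on a rare event: `∑_P ν g^r ≤ P^(1-r) (E g)^r` -/
theorem holder_rare {N : ℕ} {P : ℕ → Prop} [DecidablePred P] {r Q : ℝ} (hr0 : 0 < r)
    (hr1 : r ≤ 1) {g : ℕ → ℝ} (hg : ∀ b, 0 ≤ g b)
    (hQ : ∑ b ∈ N.divisors with P b, nu N b ≤ Q) :
    ∑ b ∈ N.divisors with P b, nu N b * g b ^ r ≤ Q ^ (1 - r) * (Ex N g) ^ r := by
  refine (holder _ hr0 hr1 (fun b => nu N b) g (fun b => nu_nonneg _ _) hg).trans ?_
  have h1 : ∑ b ∈ N.divisors with P b, nu N b * g b ≤ Ex N g := by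
    unfold Ex
    exact Finset.sum_le_sum_of_subset_of_nonneg (Finset.filter_subset _ _)
      fun b _ _ => mul_nonneg (nu_nonneg _ _) (hg b)
  have h0 : 0 ≤ ∑ b ∈ N.divisors with P b, nu N b := Finset.sum_nonneg fun b _ => nu_nonneg _ _
  have h2 : 0 ≤ ∑ b ∈ N.divisors with P b, nu N b * g b :=
    Finset.sum_nonneg fun b _ => mul_nonneg (nu_nonneg _ _) (hg b)
  exact mul_le_mul (Real.rpow_le_rpow h0 hQ (by linarith)) (Real.rpow_le_rpow h2 h1 hr0.le)
    (Real.rpow_nonneg h2 _) (Real.rpow_nonneg (h0.trans hQ) _)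

section free

variable (Fr : ℕ → Prop) [DecidablePred Fr]

open Classical in
/-- **Markov + Hölder over the free word** -/
theorem free_holder {U w : ℕ} (hU : 0 < U) (hw : w ∣ U) {g δ : ℕ → ℝ} (hg : ∀ b, 0 ≤ g b)
    (hδ : ∀ b, 0 ≤ δ b) {a r : ℝ} (ha : 0 < a) (hr0 : 0 < r) (hr1 : r ≤ 1) :
    ∑ lam ∈ (part Fr (U / w)).divisors with a ≤ g (w * lam),
      nu (part Fr (U / w)) lam * δ lam ^ r ≤
      (w * Ex U g / (a * kap Fr (U / w))) ^ (1 - r) * (Ex (part Fr (U / w)) δ) ^ r :=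
  holder_rare hr0 hr1 hδ (free_rare Fr hU hw hg ha)

/-! ### Node masses -/

lemma node_mass_le {M : ℕ} (hM : 0 < M) (x : ℕ) {f : ℕ → ℝ} (hf : ∀ b, 0 ≤ f b) {w : ℕ}
    (hw : w ∣ upp x M) {s : Finset ℕ} (hs : s ⊆ (part Fr (upp x M / w)).divisors) :
    kap Fr (upp x M / w) / (w : ℝ) *
      ∑ lam ∈ s, nu (part Fr (upp x M / w)) lam * mass M f x (w * lam) ≤ Ex M f := by
  rw [Ex_cut hM x f]
  exact sum_free_le Fr (upp_pos x M) hw hs fun T => mass_nonneg M hf x T

open Classical in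
/-- **HEAVY = NATURALLY RARE** (2986 (4)).  `e * S` fixed word, `lam` free word:
`ν {lam : H e ≤ L mass (e S lam)} ≤ S m / (H kap)`, `m = L Ex M f`. -/
theorem heavy_rare {M : ℕ} (hM : 0 < M) (x : ℕ) {f : ℕ → ℝ} (hf : ∀ b, 0 ≤ f b) {L H : ℝ}
    (hL : 0 < L) (hH : 0 < H) {e S : ℕ} (hw : e * S ∣ upp x M) :
    ∑ lam ∈ (part Fr (upp x M / (e * S))).divisors with
      H * (e : ℝ) ≤ L * mass M f x (e * S * lam), nu (part Fr (upp x M / (e * S))) lam ≤
      S * (L * Ex M f) / (H * kap Fr (upp x M / (e * S))) := by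
  have hw0 : 0 < e * S := Nat.pos_of_dvd_of_pos hw (upp_pos x M)
  have he0 : 0 < e := Nat.pos_of_mul_pos_right hw0
  have he : (0 : ℝ) < e := by exact_mod_cast he0
  have h := free_rare Fr (upp_pos x M) hw (g := fun T => L * mass M f x T)
    (fun T => mul_nonneg hL.le (mass_nonneg M hf x T)) (a := H * e) (by positivity)
  have e1 : Ex (upp x M) (fun T => L * mass M f x T) = L * Ex M f := by
    rw [Ex_cut hM x f]
    unfold Ex
    rw [Finset.mul_sum]
    exact Finset.sum_congr rfl fun T _ => by ring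
  rw [e1] at h
  refine h.trans (le_of_eq ?_)
  have hk := (kap_pos Fr (upp x M / (e * S))).ne'
  push_cast
  field_simp

open Classical in
/-- **Hölder form**: the heavy part of a low bound with exponent `ρ < 1` gains
`(S m / (H kap))^(1-ρ)` -/
theorem heavy_holder {M : ℕ} (hM : 0 < M) (x : ℕ) {f : ℕ → ℝ} (hf : ∀ b, 0 ≤ f b) {L H : ℝ}
    (hL : 0 < L) (hH : 0 < H) {e S : ℕ} (hw : e * S ∣ upp x M) {δ : ℕ → ℝ} (hδ : ∀ b, 0 ≤ δ b)
    {ρ : ℝ} (hr0 : 0 < ρ) (hr1 : ρ ≤ 1) :
    ∑ lam ∈ (part Fr (upp x M / (e * S))).divisors with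
      H * (e : ℝ) ≤ L * mass M f x (e * S * lam),
        nu (part Fr (upp x M / (e * S))) lam * δ lam ^ ρ ≤
      (S * (L * Ex M f) / (H * kap Fr (upp x M / (e * S)))) ^ (1 - ρ) *
        (Ex (part Fr (upp x M / (e * S))) δ) ^ ρ :=
  holder_rare hr0 hr1 hδ (heavy_rare Fr hM x hf hL hH hw)

open Classical in
/-- the natural weight restored: `∑_{lam heavy} nu (e S lam) (mass (e S lam))^ρ ≤
(m / (H e))^(1-ρ) (∑_lam nu (e S lam) mass (e S lam))^ρ` -/
theorem heavy_mass {M : ℕ} (hM : 0 < M) (x : ℕ) {f : ℕ → ℝ} (hf : ∀ b, 0 ≤ f b) {L H : ℝ}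
    (hL : 0 < L) (hH : 0 < H) {e S : ℕ} (hw : e * S ∣ upp x M) {δ : ℕ → ℝ} (hδ : ∀ b, 0 ≤ δ b)
    {ρ : ℝ} (hr0 : 0 < ρ) (hr1 : ρ ≤ 1) :
    ∑ lam ∈ (part Fr (upp x M / (e * S))).divisors with
      H * (e : ℝ) ≤ L * mass M f x (e * S * lam),
        nu (upp x M) (e * S * lam) * δ lam ^ ρ ≤
      ((L * Ex M f) / (H * e)) ^ (1 - ρ) *
        (kap Fr (upp x M / (e * S)) / ((e * S : ℕ) : ℝ) *
          Ex (part Fr (upp x M / (e * S))) δ) ^ ρ := by
  have hw0 : 0 < e * S := Nat.pos_of_dvd_of_pos hw (upp_pos x M)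
  have he0 : 0 < e := Nat.pos_of_mul_pos_right hw0
  have hS0 : 0 < S := Nat.pos_of_mul_pos_left hw0
  have he : (0 : ℝ) < e := by exact_mod_cast he0
  have hS : (0 : ℝ) < S := by exact_mod_cast hS0
  have hk := kap_pos Fr (upp x M / (e * S))
  set k := kap Fr (upp x M / (e * S)) with hkdef
  have hm : 0 ≤ L * Ex M f := mul_nonneg hL.le (Ex_nonneg M hf)
  have h := heavy_holder Fr hM x hf hL hH hw hδ hr0 hr1
  rw [← hkdef] at h
  have h1 : ∑ lam ∈ (part Fr (upp x M / (e * S))).divisors with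
      H * (e : ℝ) ≤ L * mass M f x (e * S * lam),
        nu (upp x M) (e * S * lam) * δ lam ^ ρ =
      k / ((e * S : ℕ) : ℝ) * ∑ lam ∈ (part Fr (upp x M / (e * S))).divisors with
        H * (e : ℝ) ≤ L * mass M f x (e * S * lam),
          nu (part Fr (upp x M / (e * S))) lam * δ lam ^ ρ := by
    rw [Finset.mul_sum]
    refine Finset.sum_congr rfl fun lam hl => ?_
    rw [Finset.mem_filter] at hl
    rw [nu_free Fr (upp_pos x M) hw (Nat.dvd_of_mem_divisors hl.1)]
    ring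
  rw [h1]
  have hc : 0 < k / ((e * S : ℕ) : ℝ) := div_pos hk (by exact_mod_cast hw0)
  have hE : 0 ≤ Ex (part Fr (upp x M / (e * S))) δ := Ex_nonneg _ hδ
  refine (mul_le_mul_of_nonneg_left h hc.le).trans (le_of_eq ?_)
  have e2 : k / ((e * S : ℕ) : ℝ) =
      (k / ((e * S : ℕ) : ℝ)) ^ (1 - ρ) * (k / ((e * S : ℕ) : ℝ)) ^ ρ := by
    rw [← Real.rpow_add hc]
    norm_num
  have e3 : L * Ex M f / (H * e) =
      k / ((e * S : ℕ) : ℝ) * (S * (L * Ex M f) / (H * k)) := by
    push_cast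
    field_simp
  rw [e3, Real.mul_rpow hc.le (by positivity), Real.mul_rpow hc.le hE]
  conv_lhs => rw [e2]
  ring

end free

/-! ### Over an F-Λ structure -/

section FLs

variable {M : ℕ} {F : FL M}

lemma mul_dvd_mul_upp {b : ℕ} (hb : b ≠ 0) (x : ℕ) : low x b * upp x b = b := low_mul_upp x hb

/-- upper word, centre, excess and deficit -/
lemma upp_mul_ell {x b : ℕ} (hM : 0 < M) (hb : b ∣ M) :
    upp x b * F.ell x b = F.cen x b * F.lam x b := by
  have hb0 : b ≠ 0 := (Nat.pos_of_dvd_of_pos hb hM).ne'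
  have h1 := FL.mul_ell (F := F) (x := x) hM hb
  have h2 := low_mul_upp x hb0
  refine Nat.eq_of_mul_eq_mul_left (low_pos x b) ?_
  calc low x b * (upp x b * F.ell x b) = (low x b * upp x b) * F.ell x b := by ring
    _ = b * F.ell x b := by rw [h2]
    _ = low x b * F.cen x b * F.lam x b := h1
    _ = _ := by ring

lemma gcd_split {x b c : ℕ} (hM : 0 < M) (hb : b ∣ M) (hc : c ∣ M) :
    Nat.gcd b c = Nat.gcd (low x b) (low x c) * Nat.gcd (upp x b) (upp x c) := by
  have hb0 : b ≠ 0 := (Nat.pos_of_dvd_of_pos hb hM).ne'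
  have hc0 : c ≠ 0 := (Nat.pos_of_dvd_of_pos hc hM).ne'
  have h := gcd_cut (M := M) (M' := M) (fun p => p ≤ x) (low_dvd x hM.ne' hb)
    (upp_dvd x hM.ne' hb) (low_dvd x hM.ne' hc) (upp_dvd x hM.ne' hc)
  rwa [low_mul_upp x hb0, low_mul_upp x hc0] at h

/-- common part of the upper words of a good pair: `e * (ell b * ell c) = cen` -/
lemma gcd_upp_mul {x b c : ℕ} (hM : 0 < M) (hb : b ∣ M) (hc : c ∣ M) (h : F.good x b c) :
    Nat.gcd (upp x b) (upp x c) * (F.ell x b * F.ell x c) = F.cen x c := by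
  have h1 := FL.good_gcd hM hb hc h
  rw [gcd_split (x := x) hM hb hc, FL.cen_eq hM hb hc h.1] at h1
  have h0 : 0 < Nat.gcd (low x b) (low x c) := Nat.gcd_pos_of_pos_left _ (low_pos x b)
  refine Nat.eq_of_mul_eq_mul_left h0 ?_
  rw [← h1]
  ring

/-- **the upper word of `b` is `e * S * lam`**, `e` the common part, `S = ell x c` -/
theorem upp_eq {x b c : ℕ} (hM : 0 < M) (hb : b ∣ M) (hc : c ∣ M) (h : F.good x b c) :
    upp x b = Nat.gcd (upp x b) (upp x c) * F.ell x c * F.lam x b := by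
  have h1 := upp_mul_ell (F := F) (x := x) hM hb
  have h2 := gcd_upp_mul hM hb hc h
  rw [FL.cen_eq hM hb hc h.1, ← h2] at h1
  refine Nat.eq_of_mul_eq_mul_right (FL.ell_pos (F := F) x b) ?_
  rw [h1]
  ring

variable (F)

/-- free primes of `b` for a fixed `c` and a fixed deficit word `l` of `b`: passive primes above
the cut at which `c` is at the centre and `l` has no letter -/
def Frp (x c l p : ℕ) : Prop := x < p ∧ F.ctr c p = some (c.factorization p) ∧ ¬ p ∣ l

instance (x c l : ℕ) : DecidablePred (Frp F x c l) := by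
  intro p
  unfold Frp
  infer_instance

variable {F}

lemma lam_free {x b c : ℕ} (hM : 0 < M) (hb : b ∣ M) (hc : c ∣ M) (h : F.good x b c) {p : ℕ}
    (hp : p.Prime) (hd : p ∣ F.lam x b) : Frp F x c (F.ell x b) p := by
  obtain ⟨hx, v, hv, h3⟩ := FL.prime_dvd_lam hM hb hp hd
  refine ⟨hx, ?_, ?_⟩
  · rw [← FL.ctr_eq hb hc h.1 hp hx.le, hv]
    rcases h.2 p hp hx v hv with h4 | h4
    · omega
    · rw [h4]
  · intro hl
    exact hp.one_lt.ne' (Nat.dvd_one.1 ((FL.coprime_lam_ell (F := F) (x := x) hM hb).gcd_eq_one ▸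
      Nat.dvd_gcd hd hl))

lemma fixed_dvd {x b c : ℕ} (hM : 0 < M) (hb : b ∣ M) (hc : c ∣ M) (h : F.good x b c) :
    Nat.gcd (upp x b) (upp x c) * F.ell x c ∣ upp x M := by
  have h1 := upp_eq hM hb hc h
  exact (Dvd.intro _ h1.symm).trans (upp_dvd x hM.ne' hb)

/-- the excess word is a free word -/
lemma lam_dvd_free {x b c : ℕ} (hM : 0 < M) (hb : b ∣ M) (hc : c ∣ M) (h : F.good x b c) :
    F.lam x b ∣ part (Frp F x c (F.ell x b))
      (upp x M / (Nat.gcd (upp x b) (upp x c) * F.ell x c)) := by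
  have hw := fixed_dvd hM hb hc h
  have hw0 := Nat.pos_of_dvd_of_pos hw (upp_pos x M)
  refine dvd_part_of (Nat.div_pos (Nat.le_of_dvd (upp_pos x M) hw) hw0).ne' ?_
    fun p hp hd => lam_free hM hb hc h hp hd
  rw [Nat.dvd_div_iff_mul_dvd hw, ← upp_eq hM hb hc h]
  exact upp_dvd x hM.ne' hb

variable (F)

open Classical in
/-- the words `b` with fixed low word `n`, deficit word `l` and common part `e` with `c` -/
noncomputable def cls (x c n l e : ℕ) : Finset ℕ :=
  M.divisors.filter (fun b => F.good x b c ∧ low x b = n ∧ F.ell x b = l ∧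
    Nat.gcd (upp x b) (upp x c) = e)

variable {F}

lemma mem_cls {x c n l e b : ℕ} (hM : 0 < M) : b ∈ cls F x c n l e ↔
    b ∣ M ∧ F.good x b c ∧ low x b = n ∧ F.ell x b = l ∧ Nat.gcd (upp x b) (upp x c) = e := by
  classical
  unfold cls
  rw [Finset.mem_filter, Nat.mem_divisors]
  exact ⟨fun h => ⟨h.1.1, h.2⟩, fun h => ⟨⟨h.1, hM.ne'⟩, h.2⟩⟩

lemma cls_eq {x c n l e b : ℕ} (hM : 0 < M) (hc : c ∣ M) (h : b ∈ cls F x c n l e) :
    b = n * (e * F.ell x c * F.lam x b) ∧ upp x b = e * F.ell x c * F.lam x b ∧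
      n ∣ low x M ∧ e * F.ell x c ∣ upp x M ∧
      F.lam x b ∣ part (Frp F x c l) (upp x M / (e * F.ell x c)) := by
  rw [mem_cls hM] at h
  obtain ⟨hb, hg, rfl, rfl, rfl⟩ := h
  have hb0 : b ≠ 0 := (Nat.pos_of_dvd_of_pos hb hM).ne'
  have h1 := upp_eq hM hb hc hg
  refine ⟨?_, h1, low_dvd x hM.ne' hb, fixed_dvd hM hb hc hg, lam_dvd_free hM hb hc hg⟩
  rw [← h1]
  exact (low_mul_upp x hb0).symm

/-- **the natural mass of a class is the exact law of the free word** -/
theorem class_sum_le {x c n l e : ℕ} (hM : 0 < M) (hc : c ∣ M) {P : ℕ → Prop} [DecidablePred P]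
    {G : ℕ → ℝ} (hG : ∀ b, 0 ≤ G b) (hne : (cls F x c n l e).Nonempty) :
    ∑ b ∈ cls F x c n l e with P b, nu M b * G b ≤
      nu (low x M) n * (kap (Frp F x c l) (upp x M / (e * F.ell x c)) /
        ((e * F.ell x c : ℕ) : ℝ)) *
        ∑ lam ∈ (part (Frp F x c l) (upp x M / (e * F.ell x c))).divisors with
          P (n * (e * F.ell x c * lam)),
          nu (part (Frp F x c l) (upp x M / (e * F.ell x c))) lam *
            G (n * (e * F.ell x c * lam)) := by
  classical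
  obtain ⟨b₀, hb₀⟩ := hne
  obtain ⟨-, -, hn, hw, -⟩ := cls_eq hM hc hb₀
  have hinj : ∀ b ∈ (cls F x c n l e).filter P, ∀ b' ∈ (cls F x c n l e).filter P,
      F.lam x b = F.lam x b' → b = b' := by
    intro b hb b' hb' h
    rw [(cls_eq hM hc (Finset.mem_filter.1 hb).1).1, (cls_eq hM hc (Finset.mem_filter.1 hb').1).1,
      h]
  have h1 : ∑ b ∈ cls F x c n l e with P b, nu M b * G b =
      ∑ b ∈ cls F x c n l e with P b,
        nu (low x M) n * (kap (Frp F x c l) (upp x M / (e * F.ell x c)) /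
          ((e * F.ell x c : ℕ) : ℝ)) *
        (nu (part (Frp F x c l) (upp x M / (e * F.ell x c))) (F.lam x b) *
          G (n * (e * F.ell x c * F.lam x b))) := by
    refine Finset.sum_congr rfl fun b hb => ?_
    obtain ⟨h2, h3, -, -, h4⟩ := cls_eq hM hc (Finset.mem_filter.1 hb).1
    have h5 : e * F.ell x c * F.lam x b ∣ upp x M := mul_dvd_of_free _ hw h4
    have h6 : nu M b = nu (low x M) n * nu (upp x M) (e * F.ell x c * F.lam x b) := by
      conv_lhs => rw [h2]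
      exact nu_low_upp hM hn h5
    rw [h6, nu_free _ (upp_pos x M) hw h4, ← h2]
    ring
  rw [h1, ← Finset.mul_sum]
  have hk : 0 ≤ nu (low x M) n * (kap (Frp F x c l) (upp x M / (e * F.ell x c)) /
      ((e * F.ell x c : ℕ) : ℝ)) :=
    mul_nonneg (nu_nonneg _ _) (div_nonneg (kap_pos _ _).le (Nat.cast_nonneg _))
  refine mul_le_mul_of_nonneg_left ?_ hk
  rw [← Finset.sum_image (s := (cls F x c n l e).filter P) (g := fun b => F.lam x b)
    (f := fun lam => nu (part (Frp F x c l) (upp x M / (e * F.ell x c))) lam *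
      G (n * (e * F.ell x c * lam))) hinj]
  refine Finset.sum_le_sum_of_subset_of_nonneg ?_
    fun lam _ _ => mul_nonneg (nu_nonneg _ _) (hG _)
  intro lam hl
  rw [Finset.mem_image] at hl
  obtain ⟨b, hb, rfl⟩ := hl
  rw [Finset.mem_filter] at hb
  obtain ⟨h2, -, -, -, h4⟩ := cls_eq hM hc hb.1
  rw [Finset.mem_filter, Nat.mem_divisors]
  refine ⟨⟨h4, part_ne _ _⟩, ?_⟩
  rw [← h2]
  exact hb.2

open Classical in
/-- **heavy words of a class are rare**: `∑ nu b ≤ nu n * m / (H e)` -/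
theorem class_rare {x c n l e : ℕ} (hM : 0 < M) (hc : c ∣ M) {f : ℕ → ℝ} (hf : ∀ b, 0 ≤ f b)
    {L H : ℝ} (hL : 0 < L) (hH : 0 < H) :
    ∑ b ∈ cls F x c n l e with H * (e : ℝ) ≤ L * mass M f x (upp x b), nu M b ≤
      nu (low x M) n * ((L * Ex M f) / (H * e)) := by
  have hm : 0 ≤ L * Ex M f := mul_nonneg hL.le (Ex_nonneg M hf)
  rcases (cls F x c n l e).eq_empty_or_nonempty with h0 | hne
  · rw [h0, Finset.filter_empty, Finset.sum_empty]
    exact mul_nonneg (nu_nonneg _ _) (div_nonneg hm (mul_nonneg hH.le (Nat.cast_nonneg _)))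
  · obtain ⟨b₀, hb₀⟩ := id hne
    obtain ⟨-, -, hn, hw, -⟩ := cls_eq hM hc hb₀
    have hw0 : 0 < e * F.ell x c := Nat.pos_of_dvd_of_pos hw (upp_pos x M)
    have he0 : 0 < e := Nat.pos_of_mul_pos_right hw0
    have he : (0 : ℝ) < e := by exact_mod_cast he0
    have hS : (0 : ℝ) < (F.ell x c : ℝ) := by exact_mod_cast FL.ell_pos (F := F) x c
    have hk := kap_pos (Frp F x c l) (upp x M / (e * F.ell x c))
    have h1 := class_sum_le (F := F) (x := x) (c := c) (n := n) (l := l) (e := e) hM hc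
      (P := fun b => H * (e : ℝ) ≤ L * mass M f x (upp x b)) (G := fun _ => 1)
      (fun _ => zero_le_one) hne
    simp only [mul_one] at h1
    refine h1.trans ?_
    have h2 := heavy_rare (Frp F x c l) hM x hf hL hH hw
    have e1 : (part (Frp F x c l) (upp x M / (e * F.ell x c))).divisors.filter
        (fun lam => H * (e : ℝ) ≤ L * mass M f x (upp x (n * (e * F.ell x c * lam)))) =
        (part (Frp F x c l) (upp x M / (e * F.ell x c))).divisors.filter
        (fun lam => H * (e : ℝ) ≤ L * mass M f x (e * F.ell x c * lam)) := by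
      refine Finset.filter_congr fun lam hl => ?_
      rw [Nat.mem_divisors] at hl
      rw [upp_of_mul hn (mul_dvd_of_free _ hw hl.1)]
    rw [e1]
    have hc0 : 0 ≤ nu (low x M) n * (kap (Frp F x c l) (upp x M / (e * F.ell x c)) /
      ((e * F.ell x c : ℕ) : ℝ)) :=
      mul_nonneg (nu_nonneg _ _) (div_nonneg hk.le (Nat.cast_nonneg _))
    refine (mul_le_mul_of_nonneg_left h2 hc0).trans (le_of_eq ?_)
    rw [mul_assoc]
    congr 1
    push_cast
    field_simp

open Classical in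
/-- **Hölder form over a class**, `δ` any nonnegative function of the word:
`∑_heavy nu b δ^ρ ≤ nu n (m / (H e))^(1-ρ) (kap / (e S) E_lam δ)^ρ` -/
theorem class_holder {x c n l e : ℕ} (hM : 0 < M) (hc : c ∣ M) {f : ℕ → ℝ} (hf : ∀ b, 0 ≤ f b)
    {L H : ℝ} (hL : 0 < L) (hH : 0 < H) {δ : ℕ → ℝ} (hδ : ∀ b, 0 ≤ δ b) {ρ : ℝ} (hr0 : 0 < ρ)
    (hr1 : ρ ≤ 1) :
    ∑ b ∈ cls F x c n l e with H * (e : ℝ) ≤ L * mass M f x (upp x b), nu M b * δ b ^ ρ ≤
      nu (low x M) n * (((L * Ex M f) / (H * e)) ^ (1 - ρ) *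
        (kap (Frp F x c l) (upp x M / (e * F.ell x c)) / ((e * F.ell x c : ℕ) : ℝ) *
          Ex (part (Frp F x c l) (upp x M / (e * F.ell x c)))
            (fun lam => δ (n * (e * F.ell x c * lam)))) ^ ρ) := by
  have hm : 0 ≤ L * Ex M f := mul_nonneg hL.le (Ex_nonneg M hf)
  have hrhs : 0 ≤ nu (low x M) n * (((L * Ex M f) / (H * e)) ^ (1 - ρ) *
        (kap (Frp F x c l) (upp x M / (e * F.ell x c)) / ((e * F.ell x c : ℕ) : ℝ) *
          Ex (part (Frp F x c l) (upp x M / (e * F.ell x c)))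
            (fun lam => δ (n * (e * F.ell x c * lam)))) ^ ρ) := by
    refine mul_nonneg (nu_nonneg _ _) (mul_nonneg (Real.rpow_nonneg (div_nonneg hm
      (mul_nonneg hH.le (Nat.cast_nonneg _))) _) (Real.rpow_nonneg (mul_nonneg (div_nonneg
      (kap_pos _ _).le (Nat.cast_nonneg _)) (Ex_nonneg _ fun _ => hδ _)) _))
  rcases (cls F x c n l e).eq_empty_or_nonempty with h0 | hne
  · rw [h0, Finset.filter_empty, Finset.sum_empty]
    exact hrhs
  · obtain ⟨b₀, hb₀⟩ := id hne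
    obtain ⟨-, -, hn, hw, -⟩ := cls_eq hM hc hb₀
    have h1 := class_sum_le (F := F) (x := x) (c := c) (n := n) (l := l) (e := e) hM hc
      (P := fun b => H * (e : ℝ) ≤ L * mass M f x (upp x b)) (G := fun b => δ b ^ ρ)
      (fun b => Real.rpow_nonneg (hδ b) _) hne
    refine h1.trans ?_
    have e1 : (part (Frp F x c l) (upp x M / (e * F.ell x c))).divisors.filter
        (fun lam => H * (e : ℝ) ≤ L * mass M f x (upp x (n * (e * F.ell x c * lam)))) =
        (part (Frp F x c l) (upp x M / (e * F.ell x c))).divisors.filter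
        (fun lam => H * (e : ℝ) ≤ L * mass M f x (e * F.ell x c * lam)) := by
      refine Finset.filter_congr fun lam hl => ?_
      rw [Nat.mem_divisors] at hl
      rw [upp_of_mul hn (mul_dvd_of_free _ hw hl.1)]
    rw [e1, mul_assoc]
    refine mul_le_mul_of_nonneg_left ?_ (nu_nonneg _ _)
    have h2 := heavy_mass (Frp F x c l) hM x hf hL hH hw
      (δ := fun lam => δ (n * (e * F.ell x c * lam))) (fun _ => hδ _) hr0 hr1
    refine le_trans (le_of_eq ?_) h2
    rw [Finset.mul_sum]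
    refine Finset.sum_congr rfl fun lam hl => ?_
    rw [Finset.mem_filter, Nat.mem_divisors] at hl
    rw [nu_free _ (upp_pos x M) hw hl.1.1]
    ring

/-- the last factor of `class_holder` is at most the mass of `δ` over the words `n * T`,
`T ∣ upp x M` (drop the class) -/
lemma class_mass_le {x c n l e : ℕ} (hw : e * F.ell x c ∣ upp x M) {δ : ℕ → ℝ}
    (hδ : ∀ b, 0 ≤ δ b) :
    kap (Frp F x c l) (upp x M / (e * F.ell x c)) / ((e * F.ell x c : ℕ) : ℝ) *
      Ex (part (Frp F x c l) (upp x M / (e * F.ell x c)))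
        (fun lam => δ (n * (e * F.ell x c * lam))) ≤ Ex (upp x M) (fun T => δ (n * T)) :=
  Ex_free_le _ (upp_pos x M) hw (g := fun T => δ (n * T)) fun _ => hδ _

end FLs

/-! ### Maximal inequality -/

open Classical in
/-- **Doob**: `P(∃ y ≤ N, a ≤ mass (y, b_{>y})) ≤ Ex M f / a` -/
theorem doob {M : ℕ} (hM : 0 < M) (N : ℕ) {f : ℕ → ℝ} (hf : ∀ b, 0 ≤ f b) {a : ℝ} (ha : 0 < a) :
    ∑ b ∈ M.divisors with (∃ y ≤ N, a ≤ mass M f y (upp y b)), nu M b ≤ Ex M f / a := by
  rw [le_div_iff₀ ha]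
  refine le_trans ?_ (antichain hM (Heavy M f a) N hf)
  have h1 : ∀ x ∈ range (N + 1),
      Ex M (fun b => if Fst (Heavy M f a) N x b then a else 0) ≤
      Ex (upp x M) (fun T => if Fst (Heavy M f a) N x T then mass M f x T else 0) := by
    intro x _
    rw [Ex_cut hM x (fun b => if Fst (Heavy M f a) N x b then a else 0)]
    refine Ex_mono _ fun T hT => ?_
    unfold mass
    rw [Ex_congr (g := fun _ => if Fst (Heavy M f a) N x T then a else 0)
      (fun n hn => by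
        have e3 : upp x (n * T) = T := upp_of_mul hn hT
        have e4 : Fst (Heavy M f a) N x (n * T) ↔ Fst (Heavy M f a) N x T := by
          rw [← Fst_upp, e3]
        simp only [e4])]
    rw [Ex_const (low_pos x M)]
    split_ifs with h
    · have h5 := h.1
      have e : upp x T = T := by
        have := upp_of_mul (x := x) (n := 1) (one_dvd (low x M)) hT
        rwa [one_mul] at this
      rw [e] at h5
      exact h5
    · exact le_rfl
  refine le_trans ?_ (Finset.sum_le_sum h1)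
  unfold Ex
  rw [Finset.sum_comm, Finset.sum_mul, Finset.sum_filter]
  refine Finset.sum_le_sum fun b _ => ?_
  rw [← Finset.mul_sum]
  split_ifs with h
  · refine mul_le_mul_of_nonneg_left ?_ (nu_nonneg _ _)
    obtain ⟨y, hy, h2⟩ := h
    obtain ⟨z, hz1, hz2, hz3⟩ := Fst_exists (S := Heavy M f a) (b := b) hy h2
    refine le_trans ?_ (Finset.single_le_sum
      (f := fun x => if Fst (Heavy M f a) N x b then a else 0)
      (fun x _ => by split_ifs <;> [exact ha.le; exact le_rfl])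
      (Finset.mem_range.2 (Nat.lt_succ_of_le hz2)))
    rw [if_pos hz3]
  · refine mul_nonneg (nu_nonneg _ _) (Finset.sum_nonneg fun x _ => ?_)
    beta_reduce
    split_ifs
    · exact ha.le
    · exact le_rfl

open Classical in
/-- the same with thresholds in the `L, m` normalisation -/
theorem doob_norm {M : ℕ} (hM : 0 < M) (N : ℕ) {f : ℕ → ℝ} (hf : ∀ b, 0 ≤ f b) {L H : ℝ}
    (hL : 0 < L) (hH : 0 < H) :
    ∑ b ∈ M.divisors with (∃ y ≤ N, H ≤ L * mass M f y (upp y b)), nu M b ≤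
      (L * Ex M f) / H := by
  have h := doob hM N hf (a := H / L) (div_pos hH hL)
  have e : Ex M f / (H / L) = L * Ex M f / H := by field_simp
  rw [e] at h
  refine le_trans (le_of_eq ?_) h
  refine Finset.sum_congr (Finset.filter_congr fun b _ => ?_) fun _ _ => rfl
  refine exists_congr fun y => and_congr_right fun _ => ?_
  rw [div_le_iff₀ hL, mul_comm L]

/-- node mass of the low modulus, fixed prefix `T₁` above `p` -/
lemma mass_prefix {M : ℕ} {f : ℕ → ℝ} {y p T T₁ : ℕ} (hy : y ≤ p) :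
    mass (low p M) (fun n => f (n * T₁)) y T = mass M f y (T * T₁) := by
  unfold mass
  rw [low_low hy]
  unfold Ex
  refine Finset.sum_congr rfl fun n _ => ?_
  beta_reduce
  rw [mul_assoc n T T₁]

open Classical in
/-- **Doob below a fixed prefix** `T₁` above `p`: the natural probability that some node
`(y, b_{(y, p]} T₁)`, `y ≤ p`, has `L mass ≥ H` is at most `L mass (p, T₁) / H` -/
theorem doob_prefix {M : ℕ} (p : ℕ) {f : ℕ → ℝ} (hf : ∀ b, 0 ≤ f b) (T₁ : ℕ)
    {L H : ℝ} (hL : 0 < L) (hH : 0 < H) :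
    ∑ n ∈ (low p M).divisors with (∃ y ≤ p, H ≤ L * mass M f y (upp y n * T₁)),
      nu (low p M) n ≤ (L * mass M f p T₁) / H := by
  have h := doob_norm (low_pos p M) p (f := fun n => f (n * T₁)) (fun n => hf _) hL hH
  refine le_trans (le_of_eq ?_) h
  refine Finset.sum_congr (Finset.filter_congr fun b _ => ?_) fun _ _ => rfl
  refine exists_congr fun y => and_congr_right fun hy => ?_
  rw [mass_prefix hy]

end Crest.Agent.R4C.Heavyx129
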