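import Crest.Agent.R4C.PureCls_863

/-!
# Row 4, GW section, vector case: the F-Λ structure of the letters above a cut `y` (helper772)

`hi y F : FL (upp y M)`: status of `F` at the primes `> y`, passive with centre `0` at the primes
`≤ y`.  For every cut `x ≥ y` and `b ∣ M` with `β = upp y b`:

* `same_hi`, `good_hi` : `same`, `good` at the cut `x`;
* `lam_hi`, `ell_hi`   : `lam x β = F.lam x b`, `ell x β = F.ell x b`;
* `uu_hi`              : `F.uu x b = low y b * (hi y F).uu x β`;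
* `Pair y F x b c`     : no deficits above `x`, good at `x`, equal letters in `(y, x]`;
  `Pair.core_eq`, `Pair.D_le`, `Pair.low_wd`, `Pair.min_wd`, `Pair.gcd_wd`, `Pair.PP`,
  `Pair.gcd_hi`, `Pair.gcd_eq`, `Pair.uu_eq`: one class `H0`, `β = H0 * w`, `γ = H0 * w'`,
  `gcd b c = gcd (low y b) (low y c) * (H0 * low x w)`.
* `idx` : the scale of the pair in the world of the dyadic size `U` of `gcd (low y b) (low y c)`.
-/

set_option autoImplicit false

open Finset
open Crest.Agent.R4C.Basex935 Crest.Agent.R4C.Cutx50 Crest.Agent.R4C.FLDefx935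
open Crest.Agent.R4C.PureL2x232 Crest.Agent.R4C.PureClsx863

namespace Crest.Agent.R4C.HighFLx772

variable {M : ℕ}

/-- the structure above `y` -/
def hi (y : ℕ) (F : FL M) : FL (upp y M) where
  ctr b p := if y < p then F.ctr b p else some 0
  coh := by
    intro b c p hb hc hp h
    by_cases hy : y < p
    · simp only [hy, if_true]
      refine F.coh (hb.trans (upp_dvd_self y M)) (hc.trans (upp_dvd_self y M)) hp
        fun q hq hpq hn => h q hq hpq ?_
      simp only [hy.trans hpq, if_true]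
      exact hn
    · simp only [hy, if_false]
  le := by
    intro b p v hb hp h
    by_cases hy : y < p
    · simp only [hy, if_true] at h
      rw [fact_upp, if_pos (not_le.2 hy)]
      exact F.le (hb.trans (upp_dvd_self y M)) hp h
    · simp only [hy, if_false, Option.some.injEq] at h
      omega

variable {F : FL M} {y x b c p : ℕ}

lemma ctr_hi (h : y < p) (b : ℕ) : (hi y F).ctr b p = F.ctr b p := by
  show (if y < p then F.ctr b p else some 0) = _
  rw [if_pos h]

lemma ctr_hi_le (h : p ≤ y) (b : ℕ) : (hi y F).ctr b p = some 0 := by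
  show (if y < p then F.ctr b p else some 0) = _
  rw [if_neg (not_lt.2 h)]

lemma fact_upp_lt (h : y < p) (b : ℕ) : (upp y b).factorization p = b.factorization p := by
  rw [fact_upp, if_pos (not_le.2 h)]

lemma fact_upp_le (h : p ≤ y) (b : ℕ) : (upp y b).factorization p = 0 := by
  rw [fact_upp, if_neg (not_not.2 h)]

/-- the statuses above `y` depend only on the letters above `y` -/
lemma ctr_upp (hb : b ∣ M) (hp : p.Prime) (h : y < p) : F.ctr (upp y b) p = F.ctr b p :=
  F.coh ((upp_dvd_self y b).trans hb) hb hp fun _ _ hpq _ => fact_upp_lt (h.trans hpq) b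

lemma ctr_hi_upp (hb : b ∣ M) (hp : p.Prime) (h : y < p) :
    (hi y F).ctr (upp y b) p = F.ctr b p := by
  rw [ctr_hi h, ctr_upp hb hp h]

theorem same_hi (hb : b ∣ M) (hyx : y ≤ x) :
    (hi y F).same x (upp y b) (upp y c) ↔ F.same x b c := by
  constructor
  · intro h q hq hx hn
    have hy : y < q := lt_of_le_of_lt hyx hx
    have h1 := h q hq hx (by rw [ctr_hi_upp hb hq hy]; exact hn)
    rwa [fact_upp_lt hy, fact_upp_lt hy] at h1
  · intro h q hq hx hn
    have hy : y < q := lt_of_le_of_lt hyx hx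
    rw [ctr_hi_upp hb hq hy] at hn
    rw [fact_upp_lt hy, fact_upp_lt hy]
    exact h q hq hx hn

theorem good_hi (hb : b ∣ M) (hyx : y ≤ x) :
    (hi y F).good x (upp y b) (upp y c) ↔ F.good x b c := by
  unfold FL.good
  rw [same_hi hb hyx]
  refine and_congr_right fun _ => ?_
  constructor
  · intro h q hq hx v hv
    have hy : y < q := lt_of_le_of_lt hyx hx
    have h1 := h q hq hx v (by rw [ctr_hi_upp hb hq hy]; exact hv)
    rwa [fact_upp_lt hy, fact_upp_lt hy] at h1
  · intro h q hq hx v hv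
    have hy : y < q := lt_of_le_of_lt hyx hx
    rw [ctr_hi_upp hb hq hy] at hv
    rw [fact_upp_lt hy, fact_upp_lt hy]
    exact h q hq hx v hv

lemma mem_pf (hM : 0 < M) (hp : p.Prime) (h : y < p) :
    p ∈ (upp y M).primeFactors ↔ p ∈ M.primeFactors := by
  have h1 : ∀ n : ℕ, n ≠ 0 → (p ∈ n.primeFactors ↔ 0 < n.factorization p) := fun n hn => by
    rw [← Nat.support_factorization, Finsupp.mem_support_iff, Nat.pos_iff_ne_zero]
  rw [h1 _ (upp_pos y M).ne', h1 _ hM.ne', fact_upp_lt h]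

lemma not_mem_pf (h : p ≤ y) : p ∉ (upp y M).primeFactors := by
  rw [← Nat.support_factorization, Finsupp.mem_support_iff, fact_upp_le h]
  simp

lemma upp_dvd' (hM : 0 < M) (hb : b ∣ M) : upp y b ∣ upp y M := upp_dvd y hM.ne' hb

/-- excess words -/
theorem lam_hi (hM : 0 < M) (hb : b ∣ M) (hyx : y ≤ x) :
    (hi y F).lam x (upp y b) = F.lam x b := by
  refine eq_of_fact (FL.lam_pos _ _).ne' (FL.lam_pos _ _).ne' fun p hp => ?_
  rw [FL.fact_lam (upp_pos y M) (upp_dvd' hM hb), FL.fact_lam hM hb]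
  by_cases hx : x < p
  · have hy : y < p := lt_of_le_of_lt hyx hx
    simp only [mem_pf hM hp hy, FL.lamE, hx, if_true, ctr_hi_upp hb hp hy, fact_upp_lt hy]
  · have e1 : (hi y F).lamE x (upp y b) p = 0 := by simp [FL.lamE, hx]
    have e2 : F.lamE x b p = 0 := by simp [FL.lamE, hx]
    rw [e1, e2]
    split_ifs <;> rfl

/-- deficit words -/
theorem ell_hi (hM : 0 < M) (hb : b ∣ M) (hyx : y ≤ x) :
    (hi y F).ell x (upp y b) = F.ell x b := by
  refine eq_of_fact (FL.ell_pos _ _).ne' (FL.ell_pos _ _).ne' fun p hp => ?_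
  rw [FL.fact_ell, FL.fact_ell]
  by_cases hx : x < p
  · have hy : y < p := lt_of_le_of_lt hyx hx
    simp only [mem_pf hM hp hy, FL.ellE, hx, if_true, ctr_hi_upp hb hp hy, fact_upp_lt hy]
  · have e1 : (hi y F).ellE x (upp y b) p = 0 := by simp [FL.ellE, hx]
    have e2 : F.ellE x b p = 0 := by simp [FL.ellE, hx]
    rw [e1, e2]
    split_ifs <;> rfl

/-- the base words -/
theorem uu_hi (hM : 0 < M) (hb : b ∣ M) (hyx : y ≤ x) :
    F.uu x b = low y b * (hi y F).uu x (upp y b) := by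
  have hb0 : b ≠ 0 := (Nat.pos_of_dvd_of_pos hb hM).ne'
  have h1 := FL.uu_mul_lam (F := F) (x := x) hM hb
  have h2 := FL.uu_mul_lam (F := hi y F) (x := x) (upp_pos y M) (upp_dvd' hM hb)
  rw [lam_hi hM hb hyx] at h2
  have h3 := low_mul_upp y hb0
  refine Nat.eq_of_mul_eq_mul_right (FL.lam_pos (F := F) x b) ?_
  rw [h1, mul_assoc, h2, h3]

/-! ### pure pairs with equal letters in `(y, x]` -/

/-- pure good pair at the cut `x` with equal letters in `(y, x]` -/
structure Pair (y : ℕ) (F : FL M) (x b c : ℕ) : Prop where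
  hb : b ∣ M
  hc : c ∣ M
  le : y ≤ x
  good : F.good x b c
  eb : F.ell x b = 1
  ec : F.ell x c = 1
  eq : ∀ q, q.Prime → y < q → q ≤ x → b.factorization q = c.factorization q

/-- the class of the high parts -/
noncomputable def H0 (y : ℕ) (F : FL M) (b : ℕ) : ℕ := core (hi y F) (upp y b)

/-- the world word -/
noncomputable def ww (y : ℕ) (F : FL M) (b : ℕ) : ℕ := wd (hi y F) (upp y b)

section

variable (hM : 0 < M)
include hM

lemma H0_mem (hb : b ∣ M) : H0 y F b ∈ cores (hi y F) :=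
  core_mem (upp_pos y M) (upp_dvd' hM hb)

lemma ww_dvd (hb : b ∣ M) : ww y F b ∣ PM (hi y F) (H0 y F b) :=
  wd_dvd (upp_pos y M) (upp_dvd' hM hb)

lemma H0_mul_ww (hb : b ∣ M) : H0 y F b * ww y F b = upp y b :=
  core_mul_wd (upp_pos y M) (upp_dvd' hM hb)

/-- `b = low y b * (H0 * w)` -/
lemma split (hb : b ∣ M) : low y b * (H0 y F b * ww y F b) = b := by
  have hb0 : b ≠ 0 := (Nat.pos_of_dvd_of_pos hb hM).ne'
  rw [H0_mul_ww hM hb, low_mul_upp y hb0]

lemma H0_pos (hb : b ∣ M) : 0 < H0 y F b :=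
  Nat.pos_of_dvd_of_pos (mem_cores.1 (H0_mem (y := y) (F := F) hM hb)).1.1 (upp_pos y M)

lemma ww_ne (b : ℕ) : ww y F b ≠ 0 := (wd_pos _).ne'

/-- no deficits above `x`: the class has no deficits above `x` -/
lemma D_le (hb : b ∣ M) (hyx : y ≤ x) (he : F.ell x b = 1) :
    D (hi y F) (H0 y F b) ≤ x := by
  classical
  unfold H0
  rw [D_core (upp_pos y M) (upp_dvd' hM hb)]
  unfold D
  refine Finset.sup_le fun p hp => ?_
  rw [Finset.mem_filter] at hp
  obtain ⟨hp1, v, h1, h2⟩ := hp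
  by_contra hx
  push Not at hx
  have hpp := Nat.prime_of_mem_primeFactors hp1
  have h3 : p ∣ (hi y F).ell x (upp y b) :=
    FL.dvd_ell (upp_pos y M) (upp_dvd' hM hb) hpp hx h1 h2
  rw [ell_hi hM hb hyx, he] at h3
  exact hpp.one_lt.ne' (Nat.dvd_one.1 h3)

end

namespace Pair

variable (h : Pair y F x b c) (hM : 0 < M)
include h hM

lemma symm : Pair y F x c b where
  hb := h.hc
  hc := h.hb
  le := h.le
  good := FL.good_symm h.hb h.hc h.good
  eb := h.ec
  ec := h.eb
  eq := fun q h1 h2 h3 => (h.eq q h1 h2 h3).symm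

lemma low_upp : low x (upp y b) = low x (upp y c) := by
  refine eq_of_fact (low_pos _ _).ne' (low_pos _ _).ne' fun p hp => ?_
  rw [fact_low, fact_low]
  by_cases h1 : p ≤ x
  · rw [if_pos h1, if_pos h1]
    by_cases h2 : y < p
    · rw [fact_upp_lt h2, fact_upp_lt h2, h.eq p hp h2 h1]
    · rw [fact_upp_le (not_lt.1 h2), fact_upp_le (not_lt.1 h2)]
  · rw [if_neg h1, if_neg h1]

lemma pureG (hne : upp y b ≠ upp y c) : PureG (hi y F) (upp y b) (upp y c) :=
  pureG_of_good _ (upp_dvd' hM h.hb) (upp_dvd' hM h.hc) (upp_pos y M) hne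
    ((good_hi h.hb h.le).2 h.good) (h.low_upp hM) (by rw [ell_hi hM h.hb h.le, h.eb])
    (by rw [ell_hi hM h.hc h.le, h.ec])

/-- **one class** -/
theorem core_eq : H0 y F b = H0 y F c := by
  by_cases hne : upp y b = upp y c
  · unfold H0; rw [hne]
  · exact pureG_core (upp_pos y M) (upp_dvd' hM h.hb) (upp_dvd' hM h.hc) (h.pureG hM hne)

lemma D_le : D (hi y F) (H0 y F b) ≤ x := HighFLx772.D_le hM h.hb h.le h.eb

lemma ww_dvd' : ww y F c ∣ PM (hi y F) (H0 y F b) := by
  rw [h.core_eq hM]; exact ww_dvd hM h.hc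

lemma fact_b (p : ℕ) :
    (upp y b).factorization p = (H0 y F b).factorization p + (ww y F b).factorization p := by
  rw [← fact_mul_word (upp_pos y M) (H0_mem hM h.hb) (ww_dvd hM h.hb), H0_mul_ww hM h.hb]

lemma fact_c (p : ℕ) :
    (upp y c).factorization p = (H0 y F b).factorization p + (ww y F c).factorization p := by
  rw [h.core_eq hM, ← fact_mul_word (upp_pos y M) (H0_mem hM h.hc) (ww_dvd hM h.hc),
    H0_mul_ww hM h.hc]

/-- equal letters `≤ x` -/
theorem low_wd : low x (ww y F b) = low x (ww y F c) := by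
  refine eq_of_fact (low_pos _ _).ne' (low_pos _ _).ne' fun p _ => ?_
  have h1 := congrArg (fun n => n.factorization p) (h.low_upp hM)
  simp only [fact_low] at h1 ⊢
  by_cases h2 : p ≤ x
  · rw [if_pos h2, if_pos h2] at h1 ⊢
    have h3 := h.fact_b hM p
    have h4 := h.fact_c hM p
    omega
  · rw [if_neg h2, if_neg h2]

/-- no common letters above `x` -/
theorem min_wd {q : ℕ} (hq : q.Prime) (hx : x < q) :
    (ww y F b).factorization q = 0 ∨ (ww y F c).factorization q = 0 := by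
  have hy : y < q := lt_of_le_of_lt h.le hx
  have hG := H0_mem (y := y) (F := F) hM h.hb
  have hb' := fact_word (p := q) (ww_dvd (y := y) (F := F) hM h.hb)
  have hc' := fact_word (p := q) (h.ww_dvd' hM)
  have hct : (hi y F).ctr (H0 y F b) q = F.ctr b q := by
    unfold H0
    rw [ctr_core (upp_pos y M) (upp_dvd' hM h.hb) hq, ctr_hi_upp h.hb hq hy]
  cases h1 : F.ctr b q with
  | none =>
    rw [fact_PM_none (by rw [hct]; exact h1)] at hb'
    left; omega
  | some v =>
    have hG2 := G_fact_some (upp_pos y M) hG hq (lt_of_le_of_lt (h.D_le hM) hx)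
      (by rw [hct]; exact h1)
    have h3 := h.fact_b hM q
    have h4 := h.fact_c hM q
    rw [fact_upp_lt hy] at h3 h4
    rcases h.good.2 q hq hx v h1 with h5 | h5
    · left; omega
    · right; omega

/-- the gcd of the world words -/
theorem gcd_wd : Nat.gcd (ww y F b) (ww y F c) = low x (ww y F b) := by
  refine eq_of_fact (Nat.gcd_pos_of_pos_left _ (Nat.pos_of_ne_zero (ww_ne hM b))).ne'
    (low_pos _ _).ne' fun p hp => ?_
  rw [Nat.factorization_gcd (ww_ne hM b) (ww_ne hM c), Finsupp.inf_apply, fact_low]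
  by_cases h1 : p ≤ x
  · rw [if_pos h1]
    have h2 := congrArg (fun n => n.factorization p) (h.low_wd hM)
    simp only [fact_low, if_pos h1] at h2
    rw [← h2, min_self]
  · rw [if_neg h1]
    rcases h.min_wd hM hp (not_le.1 h1) with h2 | h2 <;> rw [h2] <;> simp

/-- the world words form a prefix pair -/
theorem pp (hne : ww y F b ≠ ww y F c) : PP (ww y F b) (ww y F c) := by
  have hne' : upp y b ≠ upp y c := by
    intro hc
    apply hne
    unfold ww
    rw [hc]
  have h1 := h.pureG hM hne'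
  have h2 := H0_mul_ww (y := y) (F := F) hM h.hb
  have h3 := H0_mul_ww (y := y) (F := F) hM h.hc
  rw [← h.core_eq hM] at h3
  rw [← h2, ← h3] at h1
  exact (pureG_iff (upp_pos y M) (H0_mem hM h.hb) (ww_dvd hM h.hb) (h.ww_dvd' hM)).1 h1

/-- the gcd of the high parts -/
theorem gcd_hi : Nat.gcd (upp y b) (upp y c) = H0 y F b * low x (ww y F b) := by
  have h2 := H0_mul_ww (y := y) (F := F) hM h.hb
  have h3 := H0_mul_ww (y := y) (F := F) hM h.hc
  rw [← h.core_eq hM] at h3
  rw [← h2, ← h3, Nat.gcd_mul_left, h.gcd_wd hM]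

/-- **the gcd of the pair** -/
theorem gcd_eq :
    Nat.gcd b c = Nat.gcd (low y b) (low y c) * (H0 y F b * low x (ww y F b)) := by
  have hb0 : b ≠ 0 := (Nat.pos_of_dvd_of_pos h.hb hM).ne'
  have hc0 : c ≠ 0 := (Nat.pos_of_dvd_of_pos h.hc hM).ne'
  have h1 : Nat.gcd (low y b * upp y b) (low y c * upp y c) =
      Nat.gcd (low y b) (low y c) * Nat.gcd (upp y b) (upp y c) :=
    gcd_cut (S := fun p => p ≤ y) (M := M) (M' := M) (low_dvd y hM.ne' h.hb)
      (upp_dvd y hM.ne' h.hb) (low_dvd y hM.ne' h.hc) (upp_dvd y hM.ne' h.hc)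
  rw [low_mul_upp y hb0, low_mul_upp y hc0] at h1
  rw [h1, h.gcd_hi hM]

/-- `uu` of a member at the cut `x` -/
theorem uu_eq : F.uu x b = low y b * (H0 y F b * low x (ww y F b)) := by
  rw [uu_hi hM h.hb h.le]
  congr 1
  have h2 := H0_mul_ww (y := y) (F := F) hM h.hb
  rw [← h2, uu_class (upp_pos y M) (H0_mem hM h.hb) (ww_dvd hM h.hb),
    uu_core_of_le (upp_pos y M) (H0_mem hM h.hb) (h.D_le hM)]

/-- excess of a member at the cut `x` = the world word above `x` -/
theorem lam_eq : F.lam x b = upp x (ww y F b) := by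
  rw [← lam_hi hM h.hb h.le]
  have h2 := H0_mul_ww (y := y) (F := F) hM h.hb
  rw [← h2, lam_class (upp_pos y M) (H0_mem hM h.hb) (ww_dvd hM h.hb),
    lam_core_of_le (upp_pos y M) (H0_mem hM h.hb) (h.D_le hM), one_mul]

end Pair

/-- `uu` at a cut above `y` and above the deficits (no partner needed) -/
theorem uu_word {G w om : ℕ} (hM : 0 < M) (hG : G ∈ cores (hi y F)) (hw : w ∣ PM (hi y F) G)
    (hom : om ∣ low y M) (hyx : y ≤ x) (hD : D (hi y F) G ≤ x) :
    F.uu x (om * (G * w)) = om * (G * low x w) := by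
  have hGw : G * w ∣ upp y M := mul_dvd (upp_pos y M) hG hw
  have hb : om * (G * w) ∣ M := by
    have := Nat.mul_dvd_mul hom hGw
    rwa [low_mul_upp y hM.ne'] at this
  have h1 : upp y (om * (G * w)) = G * w := upp_of_mul hom hGw
  have h2 : low y (om * (G * w)) = om := low_of_mul hom hGw
  rw [uu_hi hM hb hyx, h1, h2, uu_class (upp_pos y M) hG hw, uu_core_of_le (upp_pos y M) hG hD]

theorem lam_word {G w om : ℕ} (hM : 0 < M) (hG : G ∈ cores (hi y F)) (hw : w ∣ PM (hi y F) G)
    (hom : om ∣ low y M) (hyx : y ≤ x) (hD : D (hi y F) G ≤ x) :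
    F.lam x (om * (G * w)) = upp x w := by
  have hGw : G * w ∣ upp y M := mul_dvd (upp_pos y M) hG hw
  have hb : om * (G * w) ∣ M := by
    have := Nat.mul_dvd_mul hom hGw
    rwa [low_mul_upp y hM.ne'] at this
  have h1 : upp y (om * (G * w)) = G * w := upp_of_mul hom hGw
  rw [← lam_hi hM hb hyx, h1, lam_class (upp_pos y M) hG hw, lam_core_of_le (upp_pos y M) hG hD,
    one_mul]

/-- natural law of `ω * (G * w)` -/
theorem nu_word {G w om : ℕ} (hM : 0 < M) (hG : G ∈ cores (hi y F)) (hw : w ∣ PM (hi y F) G)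
    (hom : om ∣ low y M) :
    nu M (om * (G * w)) = nu (low y M) om * (nu0 (hi y F) G * nu (PM (hi y F) G) w) := by
  have hGw : G * w ∣ upp y M := mul_dvd (upp_pos y M) hG hw
  rw [nu_low_upp hM hom hGw, nu_class (upp_pos y M) hG hw]

/-- **sum over the divisors of `M`** = low words × classes × world words -/
theorem sum_word (F : FL M) (hM : 0 < M) (y : ℕ) (f : ℕ → ℝ) :
    ∑ b ∈ M.divisors, f b = ∑ G ∈ cores (hi y F), ∑ w ∈ (PM (hi y F) G).divisors,
      ∑ om ∈ (low y M).divisors, f (om * (G * w)) := by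
  rw [sum_low_upp hM y f, sum_class (F := hi y F) (upp_pos y M)]

/-- **scale**: `g = l * e`, `U ≤ l < 2 U`; the own index `i` of the pair in `[2^i L, 2^(i+1) L)`
and the scale `e` in the world with window `L / U`: shift `s = 0` or `1` -/
theorem idx {L : ℝ} {U l e i : ℕ} (hL : 0 < L) (hU : 0 < U) (h1 : U ≤ l) (h2 : l < 2 * U)
    (hlo : 2 ^ i * L ≤ (l : ℝ) * e) (hup : (l : ℝ) * e < 2 ^ (i + 1) * L) :
    (2 ^ i * (L / U) ≤ (e : ℝ) ∧ (e : ℝ) < 2 ^ (i + 1) * (L / U)) ∨
      (2 ^ i * (L / U) ≤ 2 * (e : ℝ) ∧ (e : ℝ) < 2 ^ i * (L / U)) := by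
  have hU' : (0 : ℝ) < U := by exact_mod_cast hU
  have h1' : (U : ℝ) ≤ l := by exact_mod_cast h1
  have h2' : (l : ℝ) < 2 * U := by exact_mod_cast h2
  have he : (0 : ℝ) ≤ e := Nat.cast_nonneg e
  have a1 : (e : ℝ) < 2 ^ (i + 1) * (L / U) := by
    rw [← mul_div_assoc, lt_div_iff₀ hU']
    nlinarith
  have a2 : 2 ^ i * (L / U) ≤ 2 * (e : ℝ) := by
    rw [← mul_div_assoc, div_le_iff₀ hU']
    nlinarith
  rcases le_or_gt (2 ^ i * (L / U)) (e : ℝ) with h | h
  · exact Or.inl ⟨h, a1⟩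
  · exact Or.inr ⟨a2, h⟩

/-- the same with index and shift: `i = j + s`, `2^j (L/U) ≤ e < 2^(j+1) (L/U)` -/
theorem idx' {L : ℝ} {U l e i : ℕ} (hL : 0 < L) (hU : 0 < U) (hi0 : 0 < i) (h1 : U ≤ l)
    (h2 : l < 2 * U) (hlo : 2 ^ i * L ≤ (l : ℝ) * e) (hup : (l : ℝ) * e < 2 ^ (i + 1) * L) :
    ∃ s j : ℕ, s ≤ 1 ∧ i = j + s ∧ 2 ^ j * (L / U) ≤ (e : ℝ) ∧
      (e : ℝ) < 2 ^ (j + 1) * (L / U) := by
  rcases idx hL hU h1 h2 hlo hup with ⟨a, b⟩ | ⟨a, b⟩
  · exact ⟨0, i, by omega, rfl, a, b⟩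
  · refine ⟨1, i - 1, le_rfl, by omega, ?_, ?_⟩
    · have e1 : (2 : ℝ) ^ i = 2 * 2 ^ (i - 1) := by
        rw [← pow_succ']
        congr 1
        omega
      rw [e1] at a
      linarith
    · have e2 : i - 1 + 1 = i := by omega
      rw [e2]
      exact b

end Crest.Agent.R4C.HighFLx772
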