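import Crest.Agent.R4C.VDef_24
import Crest.Agent.R4C.ClsExc_634

/-!
# Row 4, CDomP vector: heavy members in the form of `VDef_24` (helper18)

* `hvyR_of` : `VDefx24.HvyR` (exponent `k / A` in `ℕ`) implies 634's `HvyR` (real exponent).
* `exc24` : `ClsOK` for the pure pairs of case A with `u v < (i+1)^8` and a `VDefx24.HvyR` member.
* `qq_or` : a pair of CDomP with `u v < (i+1)^8` is in `exc24`, in `CHvy`, or satisfies `QQ`.
-/

set_option autoImplicit false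

open Finset

namespace Crest.Agent.R4C.HvyBrx18

open Crest.Agent.R4C.Basex935 Crest.Agent.R4C.Cutx50 Crest.Agent.R4C.FLDefx935
  Crest.Agent.R4C.Rulex945 Crest.Agent.R4C.Splitx945 Crest.Agent.R4C.Spinex946
open Crest.Agent.R4C.FLExx326 (ind)

/-- 24's form implies 634's form -/
theorem hvyR_of {M : ℕ} {F : FL M} {B : Finset ℕ} {L R : ℝ} {A i b : ℕ} (hL : 0 ≤ L) (hR : 0 ≤ R)
    (h : VDefx24.HvyR F B L A R i b) : ExcRowx634.HvyR F B L A R i b := by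
  obtain ⟨k, h1, h2, h3, h4⟩ := h
  refine ⟨k, h1, h2, h3.trans (mul_le_mul_of_nonneg_right ?_ hL), h4⟩
  refine mul_le_mul_of_nonneg_left ?_ (by positivity)
  rw [← Real.rpow_natCast]
  refine Real.rpow_le_rpow_of_exponent_le (by norm_num) ?_
  rcases Nat.eq_zero_or_pos A with rfl | hA
  · simp
  · have hA0 : (0 : ℝ) < A := by exact_mod_cast hA
    rw [one_div_mul_eq_div]
    exact Nat.cast_div_le

/-- pure pairs of case A with a short word and a heavy member (24's form) -/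
def Exc24 (γ : ℝ) : Cls := fun cp _ A m0 L M B F b c h =>
  ∃ i, FarA F (ParOf cp A m0 γ L M B) i b c h ∧ Pure F ((ParOf cp A m0 γ L M B).cut i) b c ∧
    (low ((ParOf cp A m0 γ L M B).cut i) (b / Nat.gcd b c) : ℝ) *
      low ((ParOf cp A m0 γ L M B).cut i) (c / Nat.gcd b c) < ((i : ℝ) + 1) ^ 8 ∧
    (VDefx24.HvyR F B L A (4 * ((i : ℝ) + 1) ^ 8) (i - 1) b ∨
      VDefx24.HvyR F B L A (4 * ((i : ℝ) + 1) ^ 8) (i - 1) c)

/-- monotonicity of `ClsOK` -/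
lemma clsOK_mono {γ : ℝ} {R R' : Cls} (h : ClsOK γ R')
    (H : ∀ cp η A m0 L M B F, Setup η L M B F → ∀ b c h, R cp η A m0 L M B F b c h →
      R' cp η A m0 L M B F b c h) : ClsOK γ R := by
  refine Ev.mono h ?_
  rintro cp η A m0 ⟨C, hC⟩
  refine ⟨C, fun L M B F hS => (FarKitx179.EnR_mono hS.hL.le ?_).trans (hC L M B F hS)⟩
  intro b _ c _ _ h _ _ hR
  exact H cp η A m0 L M B F hS b c h hR

theorem exc24 (γ : ℝ) : ClsOK γ (Exc24 γ) := by
  refine clsOK_mono (ClsExcx634.cls_exc γ) ?_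
  rintro cp η A m0 L M B F hS b c h ⟨i, h1, h2, h3, h4⟩
  refine ⟨i, h1, h2, ?_, ?_⟩
  · have h5 : (low ((2 : ℕ) ^ (A * i)) (b / Nat.gcd b c) : ℝ) *
        low ((2 : ℕ) ^ (A * i)) (c / Nat.gcd b c) < ((i : ℝ) + 1) ^ 8 := h3
    have h6 : low ((2 : ℕ) ^ (A * i)) (b / Nat.gcd b c) *
        low ((2 : ℕ) ^ (A * i)) (c / Nat.gcd b c) < (i + 1) ^ 8 := by exact_mod_cast h5
    exact h6.le
  · have hR : (0 : ℝ) ≤ 4 * ((i : ℝ) + 1) ^ 8 := by positivity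
    exact h4.imp (hvyR_of hS.hL.le hR) (hvyR_of hS.hL.le hR)

/-- **cover** : short words -/
theorem qq_or {γ cp η : ℝ} {A m0 : ℕ} {L : ℝ} {M : ℕ} {B : Finset ℕ} {F : FL M} {b c i : ℕ}
    {h : ℤ} (h1 : FarA F (ParOf cp A m0 γ L M B) i b c h)
    (h2 : Pure F ((ParOf cp A m0 γ L M B).cut i) b c)
    (h3 : (low ((ParOf cp A m0 γ L M B).cut i) (b / Nat.gcd b c) : ℝ) *
      low ((ParOf cp A m0 γ L M B).cut i) (c / Nat.gcd b c) < ((i : ℝ) + 1) ^ 8) :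
    Exc24 γ cp η A m0 L M B F b c h ∨
      CHvy F (ParOf cp A m0 γ L M B) (ind B) (1 / 20) b c h ∨
      VDefx24.QQ cp A m0 γ L M B F i b c h := by
  by_cases ha : VDefx24.HvyR F B L A (4 * ((i : ℝ) + 1) ^ 8) (i - 1) b ∨
      VDefx24.HvyR F B L A (4 * ((i : ℝ) + 1) ^ 8) (i - 1) c
  · exact Or.inl ⟨i, h1, h2, h3, ha⟩
  · by_cases hb : CHvy F (ParOf cp A m0 γ L M B) (ind B) (1 / 20) b c h
    · exact Or.inr (Or.inl hb)
    · push Not at ha
      exact Or.inr (Or.inr ⟨ha.1, ha.2, hb⟩)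

end Crest.Agent.R4C.HvyBrx18
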