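import Crest.Agent.R4C.HypW_473
import Crest.Agent.R4C.GWbirth_33
import Crest.Agent.R4C.NH_656
import Crest.Agent.R4C.DictA_20

/-!
# Row 4, GW section: the natural hypothesis (F5), zone-free form with targets (helper473)

World `Z` of `GWdef_982` with `cut i = 2^(A i)`; prefix `(i, n)`; finite set `AA` of targets.

* `EvT Z i AA K0 s w` : `i` is a node index of `w`, the point of `w` is within `1/t` of a target,
  is not `On K0`, and there are two births `b1 < b2` after `i` with loss `≤ s` between `cut i` and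
  `cut b2`.
* `Dict Z δ s' i n Exc` : the dictionary of coins: outside `Exc`, nominal coins are coins up to a
  set of mass `≤ s'`.
* `hypT` : the natural mass of `EvT` in the prefix class is
  `≤ (C (s + s' + |AA| (K0^(-1/4) + 2^(-i/2)) + 1/(i+1)) + Bx) * nu(prefix)`.
-/

set_option autoImplicit false

open Finset
open Crest.Agent.R4C.Basex935 Crest.Agent.R4C.Cutx50 Crest.Agent.R4C.PrefixMx882
open Crest.Agent.R4C.GWdefx982
open Crest.Agent.R4C.NHx656
open Crest.Agent.R4C.GWhx656 (law law_nonneg)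
open Crest.Agent.R4C.GWbirthx33 (cutT)

namespace Crest.Agent.R4C.HypTx473

/-! ### law of a prefix class -/

lemma squarefree_prod {S : Finset ℕ} (hS : ∀ p ∈ S, p.Prime) : Squarefree (∏ p ∈ S, p) := by
  refine Finset.squarefree_prod_of_pairwise_isCoprime (fun p hp q hq hpq => ?_)
    fun p hp => (hS p hp).squarefree
  exact Nat.coprime_iff_isRelPrime.1 ((Nat.coprime_primes (hS p hp) (hS q hq)).2 hpq)

open Classical in
/-- **prefix law**: exceptional words, non-squarefree words and the law of the others -/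
theorem prefix_law {N c n : ℕ} (hN : 0 < N) (hn : n ∣ low c N) (hc : 1 ≤ c) (Ev Exc : ℕ → Prop)
    {Bx Bl : ℝ} (hexc : ∑ w ∈ N.divisors with (low c w = n ∧ Exc w), nu N w ≤ Bx * nu (low c N) n)
    (hlaw : ∑ S ∈ (upp c N).primeFactors.powerset with
      (Ev (n * ∏ p ∈ S, p) ∧ ¬ Exc (n * ∏ p ∈ S, p)), law (upp c N).primeFactors S ≤ Bl) :
    ∑ w ∈ N.divisors with (low c w = n ∧ Ev w), nu N w ≤ (Bx + Bl + 2 / c) * nu (low c N) n := by
  have h1 := CellLawx276.cell_low_le hN hc hn (fun u => Ev (n * u) ∧ ¬ Exc (n * u)) (s := Bl)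
    (by convert hlaw)
  have h2 : ∑ w ∈ N.divisors with (low c w = n ∧ Ev w), nu N w ≤
      ∑ w ∈ N.divisors with (low c w = n ∧ Exc w), nu N w +
        ∑ w ∈ N.divisors with (low c w = n ∧ (Ev (n * upp c w) ∧ ¬ Exc (n * upp c w))), nu N w := by
    refine le_trans (sum_le_sum_of_subset_of_nonneg
      (t := (N.divisors.filter fun w => low c w = n ∧ Exc w) ∪
      (N.divisors.filter fun w => low c w = n ∧ (Ev (n * upp c w) ∧ ¬ Exc (n * upp c w)))) ?_
      fun b _ _ => nu_nonneg N b) ?_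
    · intro w hw
      rw [mem_filter] at hw
      obtain ⟨hwN, hwn, hwE⟩ := hw
      rw [mem_union, mem_filter, mem_filter]
      by_cases hx : Exc w
      · exact Or.inl ⟨hwN, hwn, hx⟩
      · right
        have hw0 : w ≠ 0 := (Nat.pos_of_mem_divisors hwN).ne'
        have hww : n * upp c w = w := by rw [← hwn, low_mul_upp _ hw0]
        refine ⟨hwN, hwn, ?_⟩
        rw [hww]
        exact ⟨hwE, hx⟩
    · rw [← sum_union_inter]
      exact le_add_of_nonneg_right (sum_nonneg fun b _ => nu_nonneg N b)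
  calc ∑ w ∈ N.divisors with (low c w = n ∧ Ev w), nu N w
      ≤ Bx * nu (low c N) n + nu (low c N) n * (Bl + 2 / c) := 
        h2.trans (add_le_add hexc (le_trans (le_of_eq (by congr!)) h1))
    _ = (Bx + Bl + 2 / c) * nu (low c N) n := by ring

/-! ### the cuts -/

variable {Z : World}

lemma one_le_cutT {A : ℕ} (hcut : ∀ i, Z.cut i = 2 ^ (A * i)) (τ : ℝ) : 1 ≤ cutT Z τ := by
  unfold cutT
  rw [hcut]
  exact_mod_cast Nat.one_le_two_pow

lemma cutT_le {A : ℕ} (hcut : ∀ i, Z.cut i = 2 ^ (A * i)) {τ : ℝ} (h : 1 ≤ τ) :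
    cutT Z τ ≤ τ ^ A := by
  unfold cutT
  rw [hcut]
  push_cast
  rw [mul_comm, pow_mul]
  exact pow_le_pow_left₀ (by positivity) (DictAx20.two_pow_le h) A

lemma le_cutT {A : ℕ} (hcut : ∀ i, Z.cut i = 2 ^ (A * i)) {τ : ℝ} (h : 0 ≤ τ) :
    (τ / 2) ^ A ≤ cutT Z τ := by
  unfold cutT
  rw [hcut]
  push_cast
  rw [mul_comm, pow_mul]
  refine pow_le_pow_left₀ (by positivity) ?_ A
  have h1 := DictAx20.lt_two_pow τ
  rw [pow_succ] at h1
  linarith

lemma pow8_le_cutT {A : ℕ} (hA : 16 ≤ A) (hcut : ∀ i, Z.cut i = 2 ^ (A * i)) {τ : ℝ}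
    (h : 4 ≤ τ) : τ ^ 8 ≤ cutT Z τ := by
  refine le_trans ?_ (le_cutT hcut (by linarith))
  have h1 : (1 : ℝ) ≤ τ / 2 := by linarith
  calc τ ^ 8 ≤ ((τ / 2) ^ 2) ^ 8 := pow_le_pow_left₀ (by linarith) (by nlinarith) 8
    _ = (τ / 2) ^ 16 := by rw [← pow_mul]
    _ ≤ (τ / 2) ^ A := pow_le_pow_right₀ h1 hA

/-! ### the event -/

/-- the event of the natural hypothesis at the index `i` -/
def EvT (Z : World) (i : ℕ) (AA : Finset ℝ) (K0 s : ℝ) (w : ℕ) : Prop :=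
  Z.nd i w ∧ (∃ α ∈ AA, ∃ m : ℤ, |Z.yy i w - α - m| ≤ 1 / Z.tt i w) ∧
    ¬ On K0 (Z.yy i w) (Z.tt i w) ∧
    ∃ b1 b2, i < b1 ∧ b1 < b2 ∧ Z.nd b1 w ∧ Z.birth b2 w ∧
      1 - Z.Wp (Z.cut i) (Z.cut b2) w ≤ s

/-- the dictionary of coins at the prefix `(i, n)`, outside `Exc` -/
def Dict (Z : World) (δ s' : ℝ) (i n : ℕ) (Exc : ℕ → Prop) : Prop :=
  ∀ w, w ∣ Z.N → Z.nd i w → low (Z.cut i) w = n → ¬ Exc w → Squarefree (upp (Z.cut i) w) →
    ∃ D : ℕ → Finset ℕ, (∀ r ∈ (upp (Z.cut i) w).primeFactors, ∑ q ∈ D r, (1 : ℝ) / q ≤ s') ∧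
      ∀ r ∈ (upp (Z.cut i) w).primeFactors,
        ∀ q ∈ nc (cutT Z) δ Z.γ (Z.tt i w) (upp (Z.cut i) Z.N).primeFactors
          (upp (Z.cut i) w).primeFactors r, q ∉ D r → q ∈ free Z.N w ∧ Z.coin w q

/-- `2^(-a i) ≤ 1 / (min a 1 · ... (i+1))` -/
lemma exp_le {a : ℝ} (ha : 0 < a) (i : ℕ) :
    Real.exp (-(a * i)) ≤ 1 / min a 1 * (1 / ((i : ℝ) + 1)) := by
  have hm : 0 < min a 1 := lt_min ha one_pos
  have hi : (0 : ℝ) ≤ i := Nat.cast_nonneg i
  have h1 : min a 1 * ((i : ℝ) + 1) ≤ 1 + a * i := by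
    have h2 := min_le_left a 1
    have h3 := min_le_right a 1
    nlinarith
  have h2 : 1 + a * i ≤ Real.exp (a * i) := by linarith [Real.add_one_le_exp (a * i)]
  rw [Real.exp_neg, one_div_mul_one_div, ← one_div]
  exact one_div_le_one_div_of_le (by positivity) (h1.trans h2)

lemma num {C m s s' κ u yc c2 x i1 : ℝ} (hC : 0 < C) (hm : 0 < m) (hm1 : m ≤ 1) (hs : 0 ≤ s)
    (hs' : 0 ≤ s') (hκ : 0 ≤ κ) (hu : 0 ≤ u) (hi1 : 0 ≤ i1) (hyc : yc ≤ 1 / m * u)
    (hc2 : c2 ≤ 2 * u) (hx : x ≤ κ) :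
    C * ((2 * s + s') + x + yc) + c2 ≤ (2 * C / m + 2 + (i1 + 2)) * (s + s' + κ + u) := by
  have hCm : C ≤ C / m := by
    rw [le_div_iff₀ hm]
    nlinarith
  have h1 : C * ((2 * s + s') + x + yc) ≤ C * ((2 * s + s') + κ + 1 / m * u) :=
    mul_le_mul_of_nonneg_left (by linarith) hC.le
  have e2 : C * ((2 * s + s') + κ + 1 / m * u) = C * (2 * s + s' + κ) + C / m * u := by ring
  have h3 : C * (2 * s + s' + κ) ≤ 2 * (C / m) * (s + s' + κ) := by
    have h4 : 0 ≤ s + s' + κ := by positivity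
    calc C * (2 * s + s' + κ) ≤ C * (2 * (s + s' + κ)) :=
          mul_le_mul_of_nonneg_left (by linarith) hC.le
      _ = 2 * C * (s + s' + κ) := by ring
      _ ≤ 2 * (C / m) * (s + s' + κ) :=
          mul_le_mul_of_nonneg_right (by linarith) h4
  have h5 : (2 * C / m + 2 + (i1 + 2)) * (s + s' + κ + u) =
      2 * (C / m) * (s + s' + κ) + 2 * (C / m) * u +
        2 * (s + s' + κ + u) + (i1 + 2) * (s + s' + κ + u) := by ring
  have h6 : 0 ≤ (i1 + 2) * (s + s' + κ + u) := by positivity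
  have h7 : 0 ≤ C / m * u := by positivity
  have h8 : 0 ≤ 2 * (s + s' + κ) := by positivity
  rw [h5]
  linarith

open Classical in
/-- **(F5), zone-free form with targets** -/
theorem hypT {A : ℕ} (hA : 16 ≤ A) {δ : ℝ} (hδ0 : 0 < δ) (hδ : δ ≤ 1 / 128) :
    ∃ C : ℝ, 1 ≤ C ∧ ∀ Z : World, Z.Ok → (∀ i, Z.cut i = 2 ^ (A * i)) →
      (∀ j, Z.i0 ≤ j → ∀ r : ℕ, r ≤ 2 ^ (j + 1) → 3 * (r : ℝ) ^ δ ≤ Z.θ j) →
      ∀ (i n : ℕ) (AA : Finset ℝ) (K0 s s' Bx : ℝ) (Exc : ℕ → Prop),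
        1 ≤ K0 → 0 ≤ s → 0 ≤ s' → 0 ≤ Bx →
        ∑ w ∈ Z.N.divisors with (low (Z.cut i) w = n ∧ Exc w), nu Z.N w ≤
          Bx * nu (low (Z.cut i) Z.N) n →
        Dict Z δ s' i n Exc →
        ∑ w ∈ Z.N.divisors with (low (Z.cut i) w = n ∧ EvT Z i AA K0 s w), nu Z.N w ≤
          (C * (s + s' + AA.card * (K0 ^ (-(1 / 4 : ℝ)) + (2 : ℝ) ^ (-((i : ℝ) / 2))) +
            1 / ((i : ℝ) + 1)) + Bx) * nu (low (Z.cut i) Z.N) n := by
  obtain ⟨C, c, y0, hC, hc, hy0, hnh⟩ := nh (A : ℝ) δ (by exact_mod_cast (by omega : 1 ≤ A)) hδ0 hδ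
  -- the first index
  obtain ⟨i1, hi1⟩ : ∃ i1 : ℕ, y0 ≤ (2 : ℝ) ^ i1 := by
    obtain ⟨n, hn⟩ := pow_unbounded_of_one_lt y0 (by norm_num : (1 : ℝ) < 2)
    exact ⟨n, hn.le⟩
  set a : ℝ := c * Real.log 2 * A with ha
  have hl2 : 0 < Real.log 2 := Real.log_pos (by norm_num)
  have hA0 : (0 : ℝ) < A := by exact_mod_cast (by omega : 0 < A)
  have ha0 : 0 < a := by positivity
  have hm : 0 < min a 1 := lt_min ha0 one_pos
  have hm1 : min a 1 ≤ 1 := min_le_right _ _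
  set C1 : ℝ := 2 * C / min a 1 + 2 + (i1 + 2) with hC1
  have hCm : C ≤ C / min a 1 := by
    rw [le_div_iff₀ hm]
    nlinarith
  refine ⟨C1, ?_, ?_⟩
  · have : 0 ≤ C / min a 1 := by positivity
    have h2 : (0 : ℝ) ≤ i1 := Nat.cast_nonneg _
    have e : 2 * C / min a 1 = 2 * (C / min a 1) := by ring
    rw [hC1, e]
    linarith
  intro Z hZ hcut hθ i n AA K0 s s' Bx Exc hK0 hs hs' hBx hexc hdict
  have hC1i : (i1 : ℝ) + 2 ≤ C1 := by
    have : 0 ≤ 2 * C / min a 1 := by positivity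
    rw [hC1]; linarith
  have hC12 : 2 ≤ C1 := by
    have h2 : (0 : ℝ) ≤ i1 := Nat.cast_nonneg _
    linarith
  have hg0 : 0 ≤ nu (low (Z.cut i) Z.N) n := nu_nonneg _ _
  set κ : ℝ := AA.card * (K0 ^ (-(1 / 4 : ℝ)) + (2 : ℝ) ^ (-((i : ℝ) / 2))) with hκ
  have hκ0 : 0 ≤ κ := by positivity
  have hi0' : (0 : ℝ) ≤ i := Nat.cast_nonneg i
  have hip : 0 ≤ 1 / ((i : ℝ) + 1) := by positivity
  -- the prefix
  by_cases hn : n ∣ low (Z.cut i) Z.N
  swap
  · rw [filter_false_of_mem, sum_empty]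
    · positivity
    · rintro w hw ⟨h1, _⟩
      apply hn
      rw [← h1]
      exact low_dvd _ hZ.hN.ne' (Nat.dvd_of_mem_divisors hw)
  have hmass : ∑ w ∈ Z.N.divisors with (low (Z.cut i) w = n ∧ EvT Z i AA K0 s w), nu Z.N w ≤
      nu (low (Z.cut i) Z.N) n := by
    rw [← CellLawx276.cell_mass hZ.hN (Z.cut i) hn]
    refine sum_le_sum_of_subset_of_nonneg ?_ fun b _ _ => nu_nonneg _ _
    intro w hw
    rw [mem_filter] at hw ⊢
    exact ⟨hw.1, hw.2.1⟩
  -- trivial cases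
  by_cases htriv : 1 ≤ C1 * (s + s' + κ + 1 / ((i : ℝ) + 1)) + Bx
  · calc _ ≤ nu (low (Z.cut i) Z.N) n := hmass
      _ = 1 * nu (low (Z.cut i) Z.N) n := (one_mul _).symm
      _ ≤ _ := mul_le_mul_of_nonneg_right htriv hg0
  push Not at htriv
  have hs2 : s ≤ 1 / 2 := by
    by_contra hcon
    push Not at hcon
    have : 1 ≤ C1 * s := by nlinarith
    have h3 : 0 ≤ C1 * (s' + κ + 1 / ((i : ℝ) + 1)) := by positivity
    nlinarith
  have hii : i1 + 1 ≤ i := by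
    by_contra hcon
    have h4 : i ≤ i1 := by omega
    have h5 : (i : ℝ) + 1 ≤ i1 + 1 := by exact_mod_cast (by omega : i + 1 ≤ i1 + 1)
    have h6 : 1 ≤ C1 * (1 / ((i : ℝ) + 1)) := by
      rw [mul_one_div, le_div_iff₀ (by positivity)]
      linarith
    have h3 : 0 ≤ C1 * (s + s' + κ) := by positivity
    nlinarith
  -- the scale
  rcases Finset.eq_empty_or_nonempty
    (Z.N.divisors.filter fun w => low (Z.cut i) w = n ∧ EvT Z i AA K0 s w) with hemp | ⟨w0, hw0⟩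
  · rw [hemp, sum_empty]
    positivity
  rw [mem_filter] at hw0
  obtain ⟨hw0N, hw0n, hw0E⟩ := hw0
  have htt : ∀ w, low (Z.cut i) w = n → Z.tt i w = Z.tt i w0 := by
    intro w hw
    unfold World.tt World.e
    rw [hw, hw0n]
  set t := Z.tt i w0 with ht
  obtain ⟨ht1, ht2⟩ := GWbirthx33.tt_bounds hZ hw0E.1
  rw [← ht] at ht1 ht2
  have h1i : (1 : ℝ) ≤ 2 ^ i := one_le_pow₀ (by norm_num)
  have ht1' : 1 ≤ t := h1i.trans ht1
  -- the smallest letter
  set y : ℝ := (Z.cut i : ℝ) with hy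
  have hyA : y = (2 : ℝ) ^ (A * i) := by
    rw [hy, hcut]; push_cast; rfl
  have h2i : (2 : ℝ) ^ i1 ≤ 2 ^ i := pow_le_pow_right₀ (by norm_num) (by omega)
  have hyi : (2 : ℝ) ^ i ≤ y := by
    rw [hyA]
    exact pow_le_pow_right₀ (by norm_num) (Nat.le_mul_of_pos_left i (by omega))
  have hyy0 : y0 ≤ y := hi1.trans (h2i.trans hyi)
  have hAi : 16 * i ≤ A * i := Nat.mul_le_mul_right i hA
  have ht4 : t ^ 4 ≤ y := by
    calc t ^ 4 ≤ ((2 : ℝ) ^ (i + 1)) ^ 4 := pow_le_pow_left₀ (by linarith) ht2.le 4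
      _ = 2 ^ ((i + 1) * 4) := by rw [← pow_mul]
      _ ≤ 2 ^ (A * i) := pow_le_pow_right₀ (by norm_num) (by omega)
      _ = y := hyA.symm
  have hy4 : 4 ≤ y := by
    rw [hyA]
    calc (4 : ℝ) = 2 ^ 2 := by norm_num
      _ ≤ 2 ^ (A * i) := pow_le_pow_right₀ (by norm_num) (by omega)
  -- the depth
  set K : ℝ := min K0 (t ^ 2) with hK
  have hK1 : 1 ≤ K := le_min hK0 (one_le_pow₀ ht1')
  have hKt : Real.sqrt K ≤ t := by
    rw [Real.sqrt_le_left (by linarith)]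
    exact min_le_right _ _
  have hKκ : 1 / Real.sqrt (Real.sqrt K) ≤ K0 ^ (-(1 / 4 : ℝ)) + (2 : ℝ) ^ (-((i : ℝ) / 2)) := by
    have e1 : Real.sqrt (Real.sqrt K) = K ^ (1 / 4 : ℝ) := by
      rw [Real.sqrt_eq_rpow, Real.sqrt_eq_rpow, ← Real.rpow_mul (by linarith)]
      norm_num
    rw [e1, one_div, ← Real.rpow_neg (by linarith)]
    rcases min_choice K0 (t ^ 2) with h | h
    · rw [hK, h]
      exact le_add_of_nonneg_right (by positivity)
    · rw [hK, h]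
      refine le_trans ?_ (le_add_of_nonneg_left (by positivity))
      have e2 : (t ^ 2) ^ (-(1 / 4 : ℝ)) = t ^ (-(1 / 2 : ℝ)) := by
        rw [← Real.rpow_natCast, ← Real.rpow_mul (by linarith)]
        norm_num
      rw [e2]
      calc t ^ (-(1 / 2 : ℝ)) ≤ ((2 : ℝ) ^ i) ^ (-(1 / 2 : ℝ)) :=
            Real.rpow_le_rpow_of_nonpos (by positivity) ht1 (by norm_num)
        _ = (2 : ℝ) ^ (-((i : ℝ) / 2)) := by
            rw [← Real.rpow_natCast, ← Real.rpow_mul (by norm_num)]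
            congr 1
            ring
  set P := (upp (Z.cut i) Z.N).primeFactors with hP
  -- the law of the letters
  have hlaw : ∑ S ∈ P.powerset with ((n * ∏ p ∈ S, p ∣ Z.N ∧ low (Z.cut i) (n * ∏ p ∈ S, p) = n ∧
      EvT Z i AA K0 s (n * ∏ p ∈ S, p)) ∧ ¬ Exc (n * ∏ p ∈ S, p)), law P S ≤
      C * ((2 * s + s') + AA.card / Real.sqrt (Real.sqrt K) + y ^ (-c)) := by
    refine hnh (cutT Z) P Z.γ t (2 * s + s') K y AA hyy0 (by linarith) hK1 hKt ht4
      (fun τ hτ => ⟨one_le_cutT hcut τ, ?_⟩) (fun τ hτ => pow8_le_cutT hA hcut (hy4.trans hτ))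
      (fun p hp => Nat.prime_of_mem_primeFactors hp) ?_ ?_ _ ?_
    · rw [Real.rpow_natCast]
      exact cutT_le hcut hτ
    · intro p hp
      have := CellLawx276.prime_upp hp
      rw [hy]
      exact_mod_cast this.le
    · intro p hp
      have h1 := CellLawx276.prime_upp hp
      unfold cutT
      rw [ht, GWbirthx33.log_tt hZ hw0E.1]
      exact_mod_cast h1
    · intro S hS
      rw [mem_filter, mem_powerset] at hS
      obtain ⟨hSP, ⟨hwN, hwn, hnd, htar, hnon, b1, b2, hb1, hb12, hnb1, hbb2, hW⟩, hnx⟩ := hS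
      set w := n * ∏ p ∈ S, p with hw
      have hSp : ∀ p ∈ S, p.Prime := fun p hp => Nat.prime_of_mem_primeFactors (hSP hp)
      have hw0 : w ≠ 0 := (Nat.pos_of_dvd_of_pos hwN hZ.hN).ne'
      have hn0 : 0 < n := Nat.pos_of_ne_zero fun h0 => hw0 (by rw [hw, h0, zero_mul])
      have hupp : upp (Z.cut i) w = ∏ p ∈ S, p := by
        have h1 := low_mul_upp (Z.cut i) hw0
        rw [hwn] at h1
        exact Nat.eq_of_mul_eq_mul_left hn0 h1
      have hsq : Squarefree (upp (Z.cut i) w) := by rw [hupp]; exact squarefree_prod hSp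
      have hpf : (upp (Z.cut i) w).primeFactors = S := by
        rw [hupp]; exact Nat.primeFactors_prod hSp
      have hyyw : Z.yy i w = ((∏ p ∈ S, p : ℕ) : ℝ) * Z.γ := by
        unfold World.yy
        rw [hupp]
      have httw : Z.tt i w = t := htt w hwn
      refine ⟨hSP, ⟨?_, ?_⟩, ?_⟩
      · rw [hyyw, httw] at htar
        exact htar
      · rw [hyyw, httw] at hnon
        exact fun h => hnon (h.mono (min_le_left _ _))
      · obtain ⟨D, hD1, hD2⟩ := hdict w hwN hnd hwn hnx hsq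
        have h1 := GWbirthx33.bad_of_gap hZ hθ hwN hsq hnd hb1 hb12 hnb1 hbb2 hs2 hW (P := P)
          hD1 hD2
        rw [hpf, httw] at h1
        exact h1
  have hmain := prefix_law hZ.hN hn (by rw [hcut]; exact Nat.one_le_two_pow)
    (fun w => w ∣ Z.N ∧ low (Z.cut i) w = n ∧ EvT Z i AA K0 s w) Exc hexc
    (Bl := C * ((2 * s + s') + AA.card / Real.sqrt (Real.sqrt K) + y ^ (-c))) (by convert hlaw)
  refine le_trans (le_of_eq ?_) (hmain.trans (mul_le_mul_of_nonneg_right ?_ hg0))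
  · refine sum_congr ?_ fun _ _ => rfl
    ext w
    simp only [mem_filter, Nat.mem_divisors]
    tauto
  -- the numbers
  have hyc : y ^ (-c) ≤ 1 / min a 1 * (1 / ((i : ℝ) + 1)) := by
    have e1 : y ^ (-c) = Real.exp (-(a * i)) := by
      rw [hyA, Real.rpow_def_of_pos (by positivity), Real.log_pow, ha]
      push_cast
      congr 1
      ring
    rw [e1]
    exact exp_le ha0 i
  have hci : 2 / (Z.cut i : ℝ) ≤ 2 * (1 / ((i : ℝ) + 1)) := by
    have h1 : (i : ℝ) + 1 ≤ 2 ^ i := by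
      have : i + 1 ≤ 2 ^ i := Nat.lt_two_pow_self
      exact_mod_cast this
    have h2 : (i : ℝ) + 1 ≤ y := h1.trans hyi
    rw [mul_one_div]
    exact div_le_div_of_nonneg_left (by norm_num) (by positivity) h2
  have hcard : (AA.card : ℝ) / Real.sqrt (Real.sqrt K) ≤ κ := by
    rw [hκ, div_eq_mul_one_div]
    exact mul_le_mul_of_nonneg_left hKκ (Nat.cast_nonneg _)
  have h1 := num hC hm hm1 hs hs' hκ0 hip (Nat.cast_nonneg i1) hyc hci hcard
  rw [hC1]
  linarith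

end Crest.Agent.R4C.HypTx473
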