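import Crest.Agent.R4C.NHnu_656
import Crest.Agent.R4C.GWbirth2_516

/-!
# Row 4, GW section: (A) HypT, the natural hypothesis per prefix in 982's world (helper656)

`hypT`: words `w ∣ N` of the world with prefix `n` at the cut `i` (a node index), in `|AA|` target
arcs of radius `1/t`, of depth `≥ K0`, with two later nodes/births `b1 < b2` and loss of coins
`1 - Wp (cut i) (cut b2) w ≤ s` have mass `≤ C (s + u + |AA| (K0^{-1/4} + 2^{-i/2}) + 1/(i+1)) g`
plus the mass of the exceptional words; `u` bounds the mass of the nominal coins which are not coins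
(words which are not exceptional).
-/

set_option autoImplicit false

open Finset
open Crest.Agent.R4C.Basex935 Crest.Agent.R4C.Cutx50 Crest.Agent.R4C.PrefixMx882
open Crest.Agent.R4C.NHx656 Crest.Agent.R4C.GWdefx982 Crest.Agent.R4C.GWbirthx516
open Crest.Agent.R4C.GWhx656

namespace Crest.Agent.R4C.HypTx656

/-! ### numerics -/

lemma cutR_facts {A : ℕ} (hA : 16 ≤ A) {cut : ℕ → ℕ} (hcut : ∀ i, cut i = 2 ^ (A * i)) :
    (∀ τ : ℝ, 1 ≤ τ → 1 ≤ cutR cut τ ∧ cutR cut τ ≤ τ ^ (A : ℝ)) ∧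
      (∀ τ : ℝ, 4 ≤ τ → τ ^ 8 ≤ cutR cut τ) := by
  constructor
  · intro τ hτ
    unfold cutR
    rw [hcut]
    push_cast
    refine ⟨one_le_pow₀ (by norm_num), ?_⟩
    rw [Real.rpow_natCast, mul_comm, pow_mul]
    exact pow_le_pow_left₀ (by positivity) (lv_le hτ) _
  · intro τ hτ
    unfold cutR
    rw [hcut]
    push_cast
    have h1 := lt_lv τ
    have h2 : τ / 2 ≤ (2 : ℝ) ^ lv τ := by
      rw [pow_succ] at h1
      linarith
    have h3 : (1 : ℝ) ≤ (2 : ℝ) ^ lv τ := one_le_pow₀ (by norm_num)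
    calc τ ^ 8 ≤ (τ / 2) ^ 16 := by
          have h4 : (τ / 2) ^ 16 = τ ^ 8 * (τ ^ 8 / 2 ^ 16) := by ring
          rw [h4]
          have h5 : (4 : ℝ) ^ 8 ≤ τ ^ 8 := pow_le_pow_left₀ (by norm_num) hτ 8
          have h6 : (1 : ℝ) ≤ τ ^ 8 / 2 ^ 16 := by
            rw [le_div_iff₀ (by positivity)]
            norm_num at h5 ⊢
            exact h5
          exact le_mul_of_one_le_right (by positivity) h6
      _ ≤ ((2 : ℝ) ^ lv τ) ^ 16 := pow_le_pow_left₀ (by linarith) h2 16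
      _ ≤ ((2 : ℝ) ^ lv τ) ^ A := pow_le_pow_right₀ h3 hA
      _ = 2 ^ (A * lv τ) := by rw [mul_comm, pow_mul]

lemma lv_eq {τ : ℝ} {i : ℕ} (h1 : (2 : ℝ) ^ i ≤ τ) (h2 : τ < 2 ^ (i + 1)) : lv τ = i := by
  have h0 : (1 : ℝ) ≤ τ := le_trans (one_le_pow₀ (by norm_num)) h1
  have h3 := lv_le h0
  have h4 := lt_lv τ
  have h5 : (2 : ℝ) ^ lv τ < 2 ^ (i + 1) := lt_of_le_of_lt h3 h2
  have h6 : (2 : ℝ) ^ i < 2 ^ (lv τ + 1) := lt_of_le_of_lt h1 h4
  rw [pow_lt_pow_iff_right₀ (by norm_num)] at h5 h6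
  omega

/-- `2^{-c i} ≤ C / (i + 1)` -/
lemma pow_le_inv {c : ℝ} (hc : 0 < c) : ∃ C : ℝ, 0 < C ∧ ∀ (A i : ℕ), 1 ≤ A →
    ((2 ^ (A * i) : ℕ) : ℝ) ^ (-c) ≤ C * (1 / ((i : ℝ) + 1)) := by
  have hl : 0 < Real.log 2 := Real.log_pos (by norm_num)
  set m := min 1 (c * Real.log 2) with hm
  have hm0 : 0 < m := lt_min one_pos (by positivity)
  refine ⟨1 / m, by positivity, fun A i hA => ?_⟩
  have e1 : ((2 ^ (A * i) : ℕ) : ℝ) ^ (-c) = Real.exp (-(c * Real.log 2 * (A * i))) := by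
    push_cast
    rw [← Real.rpow_natCast, ← Real.rpow_mul (by norm_num),
      Real.rpow_def_of_pos (by norm_num)]
    congr 1
    push_cast
    ring
  have h1 : m * ((i : ℝ) + 1) ≤ Real.exp (c * Real.log 2 * (A * i)) := by
    have h2 := Real.add_one_le_exp (c * Real.log 2 * (A * i))
    have h3 : m ≤ 1 := min_le_left _ _
    have h4 : m ≤ c * Real.log 2 := min_le_right _ _
    have h5 : (1 : ℝ) ≤ A := by exact_mod_cast hA
    have h6 : (0 : ℝ) ≤ i := Nat.cast_nonneg _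
    have h7 : m * (i : ℝ) ≤ c * Real.log 2 * (A * i) := by
      refine mul_le_mul h4 ?_ h6 (by positivity)
      nlinarith
    linarith
  rw [e1, Real.exp_neg, div_mul_div_comm, one_mul, ← one_div]
  refine one_div_le_one_div_of_le (by positivity) h1

open Classical in
/-- the event of HypT -/
def EvC (Z : World) (i : ℕ) (AA : Finset ℝ) (K0 s : ℝ) (w : ℕ) : Prop :=
  Z.nd i w ∧ (∃ al ∈ AA, ∃ m : ℤ, |Z.yy i w - al - m| ≤ 1 / Z.tt i w) ∧
    ¬ On K0 (Z.yy i w) (Z.tt i w) ∧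
    ∃ b1 b2, i < b1 ∧ b1 < b2 ∧ Z.nd b1 w ∧ Z.birth b2 w ∧
      1 - Z.Wp (Z.cut i) (Z.cut b2) w ≤ s

set_option maxHeartbeats 1600000 in
open Classical in
/-- **(A) HypT** -/
theorem hypT (A : ℕ) (δ : ℝ) (hA : 16 ≤ A) (hδ0 : 0 < δ) (hδ : δ ≤ 1 / 128) : ∃ C : ℝ, 0 < C ∧
    ∀ (Z : World), Z.Ok → (∀ i, Z.cut i = 2 ^ (A * i)) →
      (∀ k, Z.i0 ≤ k → 3 * ((2 : ℝ) ^ k) ^ δ ≤ Z.θ k) →
    ∀ (i n : ℕ) (AA : Finset ℝ) (K0 s u : ℝ) (Exc : ℕ → Prop), n ∣ low (Z.cut i) Z.N →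
      1 ≤ K0 → 0 ≤ s → 0 ≤ u →
      (∀ w, w ∣ Z.N → Z.nd i w → low (Z.cut i) w = n → Squarefree (upp (Z.cut i) w) → ¬ Exc w →
        ∀ r ∈ (upp (Z.cut i) w).primeFactors,
        ∀ G ⊆ nc (cutR Z.cut) δ Z.γ (Z.tt i w) (upp (Z.cut i) Z.N).primeFactors
          (upp (Z.cut i) w).primeFactors r, (∀ q ∈ G, ¬ Z.coin w q) → ∑ q ∈ G, (1 : ℝ) / q ≤ u) →
      ∑ w ∈ Z.N.divisors with (low (Z.cut i) w = n ∧ EvC Z i AA K0 s w), nu Z.N w ≤
        C * (s + u + AA.card * (K0 ^ (-(1 / 4) : ℝ) + (2 : ℝ) ^ (-((i : ℝ) / 2))) +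
          1 / ((i : ℝ) + 1)) * nu (low (Z.cut i) Z.N) n +
        ∑ w ∈ Z.N.divisors with (low (Z.cut i) w = n ∧ Z.nd i w ∧ Exc w), nu Z.N w := by
  obtain ⟨C, c, y0, hC, hc, hy0, hnh⟩ := nh_node (A : ℝ) δ
    (by have : (16 : ℝ) ≤ A := by exact_mod_cast hA
        linarith) hδ0 hδ
  obtain ⟨C', hC', hpow⟩ := pow_le_inv hc
  -- threshold
  obtain ⟨i1, hi1⟩ : ∃ i1 : ℕ, y0 ≤ (2 : ℝ) ^ i1 := by
    obtain ⟨k, hk⟩ := pow_unbounded_of_one_lt y0 (by norm_num : (1 : ℝ) < 2)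
    exact ⟨k, hk.le⟩
  refine ⟨2 * C + C * C' + (i1 + 1) + 2, by positivity, ?_⟩
  intro Z hZ hcut hθ i n AA K0 s u Exc hn hK0 hs hu hcoin
  set g := nu (low (Z.cut i) Z.N) n with hg
  have hg0 : 0 ≤ g := nu_nonneg _ _
  set κ := (AA.card : ℝ) * (K0 ^ (-(1 / 4) : ℝ) + (2 : ℝ) ^ (-((i : ℝ) / 2))) with hκ
  have hκ0 : 0 ≤ κ := by
    have h1 : 0 ≤ K0 ^ (-(1 / 4) : ℝ) := Real.rpow_nonneg (by linarith) _
    have h2 : 0 ≤ (2 : ℝ) ^ (-((i : ℝ) / 2)) := by positivity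
    positivity
  set v := 1 / ((i : ℝ) + 1) with hv
  have hv0 : 0 < v := by positivity
  have hexc0 : 0 ≤ ∑ w ∈ Z.N.divisors with (low (Z.cut i) w = n ∧ Z.nd i w ∧ Exc w), nu Z.N w :=
    sum_nonneg fun w _ => nu_nonneg _ _
  set Ex := ∑ w ∈ Z.N.divisors with (low (Z.cut i) w = n ∧ Z.nd i w ∧ Exc w), nu Z.N w with hEx
  set F := Z.N.divisors.filter (fun w => low (Z.cut i) w = n ∧ EvC Z i AA K0 s w) with hF
  -- the trivial bound
  have htriv : ∑ w ∈ F, nu Z.N w ≤ g := by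
    rw [hg, ← CellLawx276.cell_mass hZ.hN (Z.cut i) hn]
    refine sum_le_sum_of_subset_of_nonneg ?_ fun b _ _ => nu_nonneg _ b
    intro w hw
    rw [hF, mem_filter] at hw
    exact mem_filter.2 ⟨hw.1, hw.2.1⟩
  have hbig : 0 ≤ C * (s + u + κ + v) := by positivity
  by_cases hs2 : 1 / 2 < s
  · refine (htriv.trans ?_).trans (le_add_of_nonneg_right hexc0)
    have h1 : (1 : ℝ) ≤ (2 * C + C * C' + (i1 + 1) + 2) * (s + u + κ + v) := by
      have h2 : (2 : ℝ) ≤ 2 * C + C * C' + (i1 + 1) + 2 := by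
        have : (0 : ℝ) ≤ i1 := Nat.cast_nonneg _
        nlinarith [mul_pos hC hC']
      have h3 : 1 / 2 ≤ s + u + κ + v := by linarith
      nlinarith
    nlinarith
  by_cases hii : i < i1
  · refine (htriv.trans ?_).trans (le_add_of_nonneg_right hexc0)
    have h1 : (1 : ℝ) ≤ (2 * C + C * C' + (i1 + 1) + 2) * (s + u + κ + v) := by
      have h2 : ((i1 : ℝ) + 1) ≤ 2 * C + C * C' + (i1 + 1) + 2 := by
        nlinarith [mul_pos hC hC']
      have h3 : v ≤ s + u + κ + v := by linarith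
      have h4 : (1 : ℝ) ≤ ((i1 : ℝ) + 1) * v := by
        rw [hv, mul_one_div, le_div_iff₀ (by positivity)]
        have : (i : ℝ) < i1 := by exact_mod_cast hii
        linarith
      calc (1 : ℝ) ≤ ((i1 : ℝ) + 1) * v := h4
        _ ≤ _ := mul_le_mul h2 h3 hv0.le (by positivity)
    nlinarith
  rw [not_lt] at hs2 hii
  rcases F.eq_empty_or_nonempty with hFe | ⟨w0, hw0⟩
  · rw [hFe, sum_empty]
    have h1 : (0 : ℝ) ≤ 2 * C + C * C' + (i1 + 1) + 2 := by
      have : (0 : ℝ) ≤ i1 := Nat.cast_nonneg _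
      have := mul_pos hC hC'
      linarith
    have h2 : 0 ≤ s + u + κ + v := by linarith
    exact add_nonneg (mul_nonneg (mul_nonneg h1 h2) hg0) hexc0
  -- the scale
  rw [hF, mem_filter] at hw0
  obtain ⟨hw0N, hlow0, hnd0, -⟩ := hw0
  set t : ℝ := ((Z.G0 * n : ℕ) : ℝ) / Z.L with ht
  have htt : ∀ w, low (Z.cut i) w = n → Z.tt i w = t := by
    intro w hw
    unfold World.tt World.e
    rw [hw]
  have ht1 : (2 : ℝ) ^ i ≤ t := by rw [← htt w0 hlow0]; exact tt_ge hZ hnd0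
  have ht2 : t < (2 : ℝ) ^ (i + 1) := by rw [← htt w0 hlow0]; exact tt_lt hZ hnd0
  have hi3 : 3 ≤ i := hZ.hi0.trans hnd0.1
  have h2i : (1 : ℝ) ≤ 2 ^ i := one_le_pow₀ (by norm_num)
  have ht0 : 0 < t := by linarith
  have ht1' : 1 ≤ t := h2i.trans ht1
  have hlv : lv t = i := lv_eq ht1 ht2
  set y : ℕ := Z.cut i with hy
  have hyR : (y : ℝ) = (2 : ℝ) ^ (A * i) := by
    rw [hy, hcut]; push_cast; ring
  have hy16 : (2 : ℝ) ^ (16 * i) ≤ y := by
    rw [hyR]
    exact pow_le_pow_right₀ (by norm_num) (Nat.mul_le_mul_right _ hA)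
  have hyi : (2 : ℝ) ^ i ≤ y := by
    refine le_trans (pow_le_pow_right₀ (by norm_num) ?_) hy16
    omega
  have hyy0 : y0 ≤ y := by
    refine hi1.trans (le_trans (pow_le_pow_right₀ (by norm_num) hii) hyi)
  have hy4 : (4 : ℝ) ≤ y := by
    refine le_trans ?_ hyi
    calc (4 : ℝ) = 2 ^ 2 := by norm_num
      _ ≤ 2 ^ i := pow_le_pow_right₀ (by norm_num) (by omega)
  obtain ⟨hcA, hc8⟩ := cutR_facts hA hcut
  -- the depth
  set K0' := min K0 (t ^ 2) with hK0'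
  have hK1 : 1 ≤ K0' := le_min hK0 (one_le_pow₀ ht1')
  have hKt : Real.sqrt K0' ≤ t := by
    rw [Real.sqrt_le_left ht0.le]
    exact min_le_right _ _
  have ht4 : t ^ 4 ≤ (y : ℝ) := by
    refine le_trans ?_ hy16
    calc t ^ 4 ≤ ((2 : ℝ) ^ (i + 1)) ^ 4 := pow_le_pow_left₀ ht0.le ht2.le 4
      _ = 2 ^ ((i + 1) * 4) := by rw [← pow_mul]
      _ ≤ 2 ^ (16 * i) := pow_le_pow_right₀ (by norm_num) (by omega)
  have hctR : cutR Z.cut t ≤ y := by
    unfold cutR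
    rw [hlv]
  -- the predicate on the upper part
  set E : ℕ → Prop := fun x => n * x ∣ Z.N ∧ EvC Z i AA K0 s (n * x) ∧ ¬ Exc (n * x) with hE
  have hmain := hnh (cutR Z.cut) Z.N y n Z.γ t (2 * s + u) K0' AA E hZ.hN hn hyy0 (by positivity)
    hK1 hKt ht4 hcA (fun τ hτ => hc8 τ (hy4.trans hτ)) hctR ?_
  swap
  · intro S hS hES
    obtain ⟨hdv, ⟨hnd, hal, hno, b1, b2, hb1, hb2, hnb1, hbb2, hW⟩, hnex⟩ := hES
    have hSp : ∀ p ∈ S, p.Prime := fun p hp => Nat.prime_of_mem_primeFactors (hS hp)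
    have hSd : ∏ p ∈ S, p ∣ upp y Z.N := by
      refine (Finset.prod_dvd_prod_of_subset _ _ _ hS).trans ?_
      exact Nat.prod_primeFactors_dvd _
    have hlow : low y (n * ∏ p ∈ S, p) = n := low_of_mul hn hSd
    have hupp : upp y (n * ∏ p ∈ S, p) = ∏ p ∈ S, p := upp_of_mul hn hSd
    have hpf : (∏ p ∈ S, p).primeFactors = S := Nat.primeFactors_prod hSp
    have hsq : Squarefree (∏ p ∈ S, p) := by
      rw [Nat.squarefree_iff_prime_squarefree]
      intro p hp hdd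
      have h1 : (∏ q ∈ S, q).factorization p ≤ 1 := by
        rw [Nat.factorization_prod fun q hq => (hSp q hq).ne_zero]
        rw [Finset.sum_apply']
        by_cases hpS : p ∈ S
        · rw [Finset.sum_eq_single p]
          · rw [(hSp p hpS).factorization_self]
          · intro q hq hqp
            rw [(hSp q hq).factorization, Finsupp.single_eq_of_ne]
            exact fun h => hqp h.symm
          · exact fun h => absurd hpS h
        · rw [Finset.sum_eq_zero]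
          · exact zero_le_one
          · intro q hq
            rw [(hSp q hq).factorization, Finsupp.single_eq_of_ne]
            rintro rfl
            exact hpS hq
      have h2 : 2 ≤ (∏ q ∈ S, q).factorization p := by
        refine (hp.pow_dvd_iff_le_factorization ?_).1 ?_
        · exact Finset.prod_ne_zero_iff.2 fun q hq => (hSp q hq).ne_zero
        · rwa [pow_two]
      omega
    set w := n * ∏ p ∈ S, p with hw
    have htw : Z.tt i w = t := htt w hlow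
    have hyw : Z.yy i w = ((∏ p ∈ S, p : ℕ) : ℝ) * Z.γ := by
      unfold World.yy
      rw [hupp]
    have hsq' : Squarefree (upp (Z.cut i) w) := by rw [hupp]; exact hsq
    have hpf' : (upp (Z.cut i) w).primeFactors = S := by rw [hupp]; exact hpf
    refine ⟨⟨?_, ?_⟩, ?_⟩
    · obtain ⟨al, h1, m, h2⟩ := hal
      refine ⟨al, h1, m, ?_⟩
      rw [← hyw, ← htw]
      exact h2
    · rw [← hyw, ← htw]
      exact fun h => hno (h.mono (min_le_left _ _))
    · have hbad := GWbirth2x516.bad_of_W hZ hZ.hcut2 hδ0.le hθ hdv hsq' hnd hb1 hnb1 hb2 hbb2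
        (hcoin w hdv hnd hlow hsq' hnex) hs2 hW
      rw [hpf', htw] at hbad
      exact hbad
  -- decomposition
  have hsplit : ∑ w ∈ F, nu Z.N w ≤
      ∑ w ∈ Z.N.divisors with (low y w = n ∧ E (upp y w)), nu Z.N w + Ex := by
    rw [hEx]
    refine le_trans (sum_le_sum_of_subset_of_nonneg (t :=
      (Z.N.divisors.filter fun w => low y w = n ∧ E (upp y w)) ∪
      (Z.N.divisors.filter fun w => low (Z.cut i) w = n ∧ Z.nd i w ∧ Exc w)) ?_
      fun b _ _ => nu_nonneg _ b) ?_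
    · intro w hw
      rw [hF, mem_filter] at hw
      obtain ⟨h1, h2, h3⟩ := hw
      rw [mem_union, mem_filter, mem_filter]
      by_cases hx : Exc w
      · exact Or.inr ⟨h1, h2, h3.1, hx⟩
      · refine Or.inl ⟨h1, h2, ?_⟩
        have hw0 : w ≠ 0 := (Nat.pos_of_mem_divisors h1).ne'
        have e1 : n * upp y w = w := by
          rw [← h2]
          exact low_mul_upp _ hw0
        show n * upp y w ∣ Z.N ∧ EvC Z i AA K0 s (n * upp y w) ∧ ¬ Exc (n * upp y w)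
        rw [e1]
        exact ⟨Nat.dvd_of_mem_divisors h1, h3, hx⟩
    · rw [← sum_union_inter]
      exact le_add_of_nonneg_right (sum_nonneg fun b _ => nu_nonneg _ b)
  refine hsplit.trans (add_le_add_left ?_ _)
  refine le_trans (le_of_eq (by congr!)) (hmain.trans ?_)
  rw [mul_comm]
  refine mul_le_mul_of_nonneg_right ?_ hg0
  -- numerics
  have hkap : (AA.card : ℝ) / Real.sqrt (Real.sqrt K0') ≤ κ := by
    rw [hκ, div_eq_mul_inv]
    refine mul_le_mul_of_nonneg_left ?_ (Nat.cast_nonneg _)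
    have hr : ∀ x : ℝ, 0 < x → (Real.sqrt (Real.sqrt x))⁻¹ = x ^ (-(1 / 4) : ℝ) := by
      intro x hx
      rw [Real.sqrt_eq_rpow, Real.sqrt_eq_rpow, ← Real.rpow_mul hx.le, Real.rpow_neg hx.le]
      norm_num
    have hK0p : 0 < K0' := by linarith
    rw [hr K0' hK0p]
    rcases le_total K0 (t ^ 2) with h | h
    · rw [hK0', min_eq_left h]
      have : 0 ≤ (2 : ℝ) ^ (-((i : ℝ) / 2)) := by positivity
      linarith
    · rw [hK0', min_eq_right h]
      have h1 : 0 ≤ K0 ^ (-(1 / 4) : ℝ) := Real.rpow_nonneg (by linarith) _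
      have h2 : (t ^ 2 : ℝ) ^ (-(1 / 4) : ℝ) ≤ (2 : ℝ) ^ (-((i : ℝ) / 2)) := by
        have e1 : (t ^ 2 : ℝ) ^ (-(1 / 4) : ℝ) = t ^ (-(1 / 2) : ℝ) := by
          rw [← Real.rpow_natCast, ← Real.rpow_mul ht0.le]
          norm_num
        have e2 : (2 : ℝ) ^ (-((i : ℝ) / 2)) = ((2 : ℝ) ^ i) ^ (-(1 / 2) : ℝ) := by
          rw [← Real.rpow_natCast, ← Real.rpow_mul (by norm_num)]
          congr 1
          ring
        rw [e1, e2]
        exact Real.rpow_le_rpow_of_nonpos (by positivity) ht1 (by norm_num)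
      linarith
  have hpw : (y : ℝ) ^ (-c) ≤ C' * v := by
    have := hpow A i (by omega)
    rw [← hcut i] at this
    exact this
  have hCC : 0 < C * C' := mul_pos hC hC'
  calc C * (2 * s + u + (AA.card : ℝ) / Real.sqrt (Real.sqrt K0') + (y : ℝ) ^ (-c))
      ≤ C * (2 * s + u + κ + C' * v) := by
        refine mul_le_mul_of_nonneg_left ?_ hC.le
        linarith
    _ ≤ (2 * C + C * C' + (i1 + 1) + 2) * (s + u + κ + v) := by
        have h1 : 0 ≤ (i1 : ℝ) := Nat.cast_nonneg _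
        have e1 : (2 * C + C * C' + (i1 + 1) + 2) * (s + u + κ + v) =
          C * (2 * s + u + κ + C' * v) + (C * u + C * κ + 2 * C * v + C * C' * (s + u + κ) +
            ((i1 : ℝ) + 3) * (s + u + κ + v)) := by ring
        rw [e1]
        have h2 : 0 ≤ C * u + C * κ + 2 * C * v + C * C' * (s + u + κ) +
            ((i1 : ℝ) + 3) * (s + u + κ + v) := by positivity
        linarith

end Crest.Agent.R4C.HypTx656
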