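import Crest.Agent.R4C.GWnode_863

/-!
# Row 4, GW section, vector case, line (V1) of 4130: the jump prefixes (helper9)

World `Z` (982's `GWdef_982`) with the window `L' = L / U`.  A linked pair of low gcd `l ∈ [U, 2U)`
and own index `i` has world index `i` (then `nd i`) or `i - 1`; in the second case either the prefix
is a node of index `i - 1`, or a letter of the common prefix lies in `(cut (i-1), cut i]` (`Jmp`).

* `cyl_sqrt`   : disjoint cylinders `P e` with `f(P e), f'(P e) ≤ g e`: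
                 `∑_e f(P e ∩ B1) f'(P e ∩ B2) / g e ≤ √(f(B1)) √(f'(B2))`.
* `Jmp_unique` : a word has at most one jump index.
* `nd_or_jmp`  : index `i`, or index `i - 1`, or jump.
* `jump_sqrt`  : the sum over all pairs with a common jump prefix is `≤ √(ν S) √(ν S')`.
-/

set_option autoImplicit false

open Finset
open Crest.Agent.R4C.Basex935 Crest.Agent.R4C.Cutx50
open Crest.Agent.R4C.GWdefx982 Crest.Agent.R4C.GWnodex863

namespace Crest.Agent.R4C.Jumpx9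

/-! ### disjoint cylinders -/

lemma xy_le {x y g : ℝ} (hx : 0 ≤ x) (hy : 0 ≤ y) (hg : 0 < g) (hxg : x ≤ g) (hyg : y ≤ g) :
    x * y / g ≤ Real.sqrt x * Real.sqrt y := by
  rw [div_le_iff₀ hg]
  have h1 : Real.sqrt x * Real.sqrt x = x := Real.mul_self_sqrt hx
  have h2 : Real.sqrt y * Real.sqrt y = y := Real.mul_self_sqrt hy
  have h3 : Real.sqrt x ≤ Real.sqrt g := Real.sqrt_le_sqrt hxg
  have h4 : Real.sqrt y ≤ Real.sqrt g := Real.sqrt_le_sqrt hyg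
  have h5 : Real.sqrt g * Real.sqrt g = g := Real.mul_self_sqrt hg.le
  have h6 : Real.sqrt x * Real.sqrt y ≤ g := by
    rw [← h5]
    exact mul_le_mul h3 h4 (Real.sqrt_nonneg _) (Real.sqrt_nonneg _)
  have h7 : 0 ≤ Real.sqrt x * Real.sqrt y := mul_nonneg (Real.sqrt_nonneg _) (Real.sqrt_nonneg _)
  calc x * y = (Real.sqrt x * Real.sqrt y) * (Real.sqrt x * Real.sqrt y) := by
        rw [← h1, ← h2]
        simp only [h1, h2]
        ring_nf
        rw [Real.sq_sqrt hx, Real.sq_sqrt hy]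
    _ ≤ (Real.sqrt x * Real.sqrt y) * g := mul_le_mul_of_nonneg_left h6 h7

/-- **disjoint cylinders** -/
theorem cyl_sqrt {Ω E : Type*} [DecidableEq Ω] (Es : Finset E) (P : E → Finset Ω) (g : E → ℝ)
    (hd : ∀ e ∈ Es, ∀ e' ∈ Es, e ≠ e' → Disjoint (P e) (P e'))
    (hg : ∀ e ∈ Es, (P e).Nonempty → 0 < g e) (f f' : Ω → ℝ) (hf : ∀ w, 0 ≤ f w)
    (hf' : ∀ w, 0 ≤ f' w) (B1 B2 : Finset Ω) (hm : ∀ e ∈ Es, ∑ w ∈ P e ∩ B1, f w ≤ g e)
    (hm' : ∀ e ∈ Es, ∑ w ∈ P e ∩ B2, f' w ≤ g e) :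
    ∑ e ∈ Es, (∑ w ∈ P e ∩ B1, f w) * (∑ w ∈ P e ∩ B2, f' w) / g e ≤
      Real.sqrt (∑ w ∈ B1, f w) * Real.sqrt (∑ w ∈ B2, f' w) := by
  classical
  have key : ∀ (B : Finset Ω) (F : Ω → ℝ), (∀ w, 0 ≤ F w) →
      ∑ e ∈ Es, ∑ w ∈ P e ∩ B, F w ≤ ∑ w ∈ B, F w := by
    intro B F hF
    have hpd : Set.PairwiseDisjoint (↑Es : Set E) (fun e => P e ∩ B) := by
      intro e he e' he' hne
      exact (hd e (by simpa using he) e' (by simpa using he') hne).mono inter_subset_left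
        inter_subset_left
    rw [← sum_biUnion hpd]
    refine sum_le_sum_of_subset_of_nonneg ?_ fun w _ _ => hF w
    intro w hw
    rw [mem_biUnion] at hw
    obtain ⟨e, _, h⟩ := hw
    exact (mem_inter.1 h).2
  have h0 : ∀ e ∈ Es, (∑ w ∈ P e ∩ B1, f w) * (∑ w ∈ P e ∩ B2, f' w) / g e ≤
      Real.sqrt (∑ w ∈ P e ∩ B1, f w) * Real.sqrt (∑ w ∈ P e ∩ B2, f' w) := by
    intro e he
    rcases (P e).eq_empty_or_nonempty with h | h
    · simp [h]
    · exact xy_le (sum_nonneg fun w _ => hf w) (sum_nonneg fun w _ => hf' w) (hg e he h)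
        (hm e he) (hm' e he)
  refine (sum_le_sum h0).trans ?_
  refine (Real.sum_mul_le_sqrt_mul_sqrt Es _ _).trans ?_
  have e1 : ∀ (B : Finset Ω) (F : Ω → ℝ), (∀ w, 0 ≤ F w) →
      ∑ e ∈ Es, Real.sqrt (∑ w ∈ P e ∩ B, F w) ^ 2 = ∑ e ∈ Es, ∑ w ∈ P e ∩ B, F w :=
    fun B F hF => sum_congr rfl fun e _ => Real.sq_sqrt (sum_nonneg fun w _ => hF w)
  rw [e1 B1 f hf, e1 B2 f' hf']
  exact mul_le_mul (Real.sqrt_le_sqrt (key B1 f hf)) (Real.sqrt_le_sqrt (key B2 f' hf'))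
    (Real.sqrt_nonneg _) (Real.sqrt_nonneg _)

/-! ### jumps in a world -/

variable (Z : World)

/-- the prefix of `w` at the cut `i` has scale `2^(i-1)` and a letter in `(cut (i-1), cut i]` -/
def Jmp (i w : ℕ) : Prop :=
  2 ≤ i ∧ (∃ p, p.Prime ∧ p ∣ w ∧ Z.cut (i - 1) < p ∧ p ≤ Z.cut i) ∧
    (2 : ℝ) ^ (i - 1) * Z.L ≤ Z.e i w ∧ (Z.e i w : ℝ) < 2 ^ i * Z.L

variable {Z}

lemma prime_dvd_low {x w p : ℕ} (hw : w ≠ 0) (hp : p.Prime) (hpw : p ∣ w) (hpx : p ≤ x) :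
    p ∣ low x w := by
  have h1 : 0 < (low x w).factorization p := by
    rw [fact_low, if_pos hpx]
    exact hp.factorization_pos_of_dvd hw hpw
  exact Nat.dvd_of_factorization_pos h1.ne'

lemma prime_dvd_upp {x w p : ℕ} (hw : w ≠ 0) (hp : p.Prime) (hpw : p ∣ w) (hpx : x < p) :
    p ∣ upp x w := by
  have h1 : 0 < (upp x w).factorization p := by
    rw [fact_upp, if_pos (by omega)]
    exact hp.factorization_pos_of_dvd hw hpw
  exact Nat.dvd_of_factorization_pos h1.ne'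

lemma Jmp_congr {i w w' : ℕ} (hw : w ≠ 0)
    (hl : low (Z.cut i) w = low (Z.cut i) w') (hj : Jmp Z i w) : Jmp Z i w' := by
  obtain ⟨h2, ⟨p, hp, hpw, h3, h4⟩, h5, h6⟩ := hj
  refine ⟨h2, ⟨p, hp, ?_, h3, h4⟩, ?_, ?_⟩
  · have : p ∣ low (Z.cut i) w' := hl ▸ prime_dvd_low hw hp hpw h4
    exact this.trans (low_dvd_self _ _)
  · rw [← e_congr hl]; exact h5
  · rw [← e_congr hl]; exact h6

/-- the prefix grows by the jump letter -/
lemma e_jump (h : Z.Ok) {i w p : ℕ} (hw : w ≠ 0) (hp : p.Prime) (hpw : p ∣ w)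
    (h3 : Z.cut (i - 1) < p) (h4 : p ≤ Z.cut i) : Z.e (i - 1) w * p ≤ Z.e i w := by
  have hl : low (Z.cut i) w ≠ 0 := (low_pos _ _).ne'
  have hc : Z.cut (i - 1) ≤ Z.cut i := h.hcut (Nat.sub_le _ _)
  have h1 : low (Z.cut (i - 1)) w * upp (Z.cut (i - 1)) (low (Z.cut i) w) = low (Z.cut i) w := by
    have h2 := low_mul_upp (Z.cut (i - 1)) hl
    rwa [low_low hc] at h2
  have h5 : p ≤ upp (Z.cut (i - 1)) (low (Z.cut i) w) :=
    Nat.le_of_dvd (upp_pos _ _) (prime_dvd_upp hl hp (prime_dvd_low hw hp hpw h4) h3)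
  unfold World.e
  calc Z.G0 * low (Z.cut (i - 1)) w * p
      ≤ Z.G0 * low (Z.cut (i - 1)) w * upp (Z.cut (i - 1)) (low (Z.cut i) w) :=
        Nat.mul_le_mul_left _ h5
    _ = Z.G0 * (low (Z.cut (i - 1)) w * upp (Z.cut (i - 1)) (low (Z.cut i) w)) := by ring
    _ = _ := by rw [h1]

/-- a word has at most one jump index -/
theorem Jmp_unique (h : Z.Ok) {i j w : ℕ} (hw : w ≠ 0) (hi : Jmp Z i w) (hj : Jmp Z j w) :
    i = j := by
  -- it is enough to exclude `i < j`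
  have key : ∀ i j, Jmp Z i w → Jmp Z j w → ¬ i < j := by
    intro i j hi hj hlt
    obtain ⟨h2, _, h5, _⟩ := hi
    obtain ⟨k2, ⟨p, hp, hpw, k3, k4⟩, _, k6⟩ := hj
    have a1 := e_jump h hw hp hpw k3 k4
    have a2 : Z.e i w ≤ Z.e (j - 1) w := e_le h (by omega) w
    have a3 : 2 ^ (j - 1) ≤ p := (h.hcut2 (j - 1)).trans k3.le
    have a4 : Z.e i w * 2 ^ (j - 1) ≤ Z.e j w := (Nat.mul_le_mul a2 a3).trans a1
    have a5 : (Z.e i w : ℝ) * 2 ^ (j - 1) ≤ Z.e j w := by exact_mod_cast a4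
    have a6 : (2 : ℝ) * Z.L ≤ Z.e i w := by
      refine le_trans ?_ h5
      refine mul_le_mul_of_nonneg_right ?_ h.hL.le
      calc (2 : ℝ) = 2 ^ 1 := by norm_num
        _ ≤ 2 ^ (i - 1) := pow_le_pow_right₀ (by norm_num) (by omega)
    have a7 : (2 : ℝ) ^ j * Z.L ≤ (Z.e i w : ℝ) * 2 ^ (j - 1) := by
      have e1 : (2 : ℝ) ^ j = 2 * 2 ^ (j - 1) := by
        rw [← pow_succ']
        congr 1
        omega
      rw [e1]
      have : (0 : ℝ) < 2 ^ (j - 1) := by positivity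
      nlinarith
    linarith
  rcases lt_trichotomy i j with h1 | h1 | h1
  · exact absurd h1 (key i j hi hj)
  · exact h1
  · exact absurd h1 (key j i hj hi)

/-- **the cases of (V1)** : own index `i`, low gcd `l`, `U ≤ l < 2 U` (`Z.L = L / U`) -/
theorem nd_or_jmp (h : Z.Ok) {i w : ℕ} {L U l : ℝ} (hU : 0 < U) (hL : Z.L = L / U)
    (hl1 : U ≤ l) (hl2 : l < 2 * U) (hi0 : Z.i0 < i)
    (h1 : (2 : ℝ) ^ i * L ≤ l * Z.e i w) (h2 : l * Z.e i w < 2 ^ (i + 1) * L) :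
    Z.nd i w ∨ (Z.nd (i - 1) w ∧ low (Z.cut (i - 1)) w = low (Z.cut i) w) ∨ Jmp Z i w := by
  have hLU : L = Z.L * U := by rw [hL]; field_simp
  have hep : (0 : ℝ) < Z.e i w := by exact_mod_cast e_pos h i w
  have hi3 := h.hi0
  have g1 : (2 : ℝ) ^ (i - 1) * Z.L ≤ Z.e i w := by
    have e1 : (2 : ℝ) ^ i = 2 * 2 ^ (i - 1) := by
      rw [← pow_succ']
      congr 1
      omega
    rw [hLU, e1] at h1
    have h3 : (2 * 2 ^ (i - 1) * (Z.L * U) : ℝ) < 2 * U * Z.e i w :=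
      lt_of_le_of_lt h1 (mul_lt_mul_of_pos_right hl2 hep)
    have h4 : (2 : ℝ) ^ (i - 1) * Z.L * (2 * U) < Z.e i w * (2 * U) := by nlinarith
    exact (lt_of_mul_lt_mul_right h4 (by positivity)).le
  have g2 : (Z.e i w : ℝ) < 2 ^ (i + 1) * Z.L := by
    rw [hLU] at h2
    have h3 : U * (Z.e i w : ℝ) < 2 ^ (i + 1) * (Z.L * U) :=
      lt_of_le_of_lt (mul_le_mul_of_nonneg_right hl1 hep.le) h2
    have h4 : (Z.e i w : ℝ) * U < 2 ^ (i + 1) * Z.L * U := by nlinarith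
    exact lt_of_mul_lt_mul_right h4 hU.le
  by_cases hc : (2 : ℝ) ^ i * Z.L ≤ Z.e i w
  · exact Or.inl ⟨hi0.le, hc, g2⟩
  · push Not at hc
    right
    by_cases hp : ∃ p, p.Prime ∧ p ∣ w ∧ Z.cut (i - 1) < p ∧ p ≤ Z.cut i
    · exact Or.inr ⟨by omega, hp, g1, hc⟩
    · left
      have hlow : low (Z.cut (i - 1)) w = low (Z.cut i) w := by
        refine Nat.eq_of_factorization_eq (low_pos _ _).ne' (low_pos _ _).ne' fun p => ?_
        rw [fact_low, fact_low]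
        by_cases ha : p ≤ Z.cut (i - 1)
        · rw [if_pos ha, if_pos (ha.trans (h.hcut (Nat.sub_le _ _)))]
        · rw [if_neg ha]
          by_cases hb : p ≤ Z.cut i
          · rw [if_pos hb]
            by_contra hne
            have hpp : p.Prime := by
              by_contra hnp
              exact hne (by rw [Nat.factorization_eq_zero_of_not_prime _ hnp])
            exact hp ⟨p, hpp, Nat.dvd_of_factorization_pos (fun h0 => hne h0.symm),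
              not_le.1 ha, hb⟩
          · rw [if_neg hb]
      have he : Z.e (i - 1) w = Z.e i w := by unfold World.e; rw [hlow]
      refine ⟨⟨by omega, ?_, ?_⟩, hlow⟩
      · rw [he]; exact g1
      · rw [he, Nat.sub_add_cancel (by omega)]; exact hc

open Classical in
/-- the words of the jump prefix `(i, n)` -/
noncomputable def JP (Z : World) (x : ℕ × ℕ) : Finset ℕ :=
  Z.N.divisors.filter fun w => Jmp Z x.1 w ∧ low (Z.cut x.1) w = x.2

open Classical in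
/-- the jump prefixes -/
noncomputable def JE (Z : World) : Finset (ℕ × ℕ) :=
  ((range (Z.top + 2) ×ˢ Z.N.divisors).filter fun x => Jmp Z x.1 x.2).image
    fun x => (x.1, low (Z.cut x.1) x.2)

lemma mem_JP {x : ℕ × ℕ} {w : ℕ} (h : Z.Ok) :
    w ∈ JP Z x ↔ w ∣ Z.N ∧ Jmp Z x.1 w ∧ low (Z.cut x.1) w = x.2 := by
  classical
  unfold JP
  rw [mem_filter, Nat.mem_divisors]
  constructor
  · rintro ⟨⟨a, _⟩, b⟩; exact ⟨a, b⟩
  · rintro ⟨a, b⟩; exact ⟨⟨a, h.hN.ne'⟩, b⟩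

lemma JP_disj (h : Z.Ok) {x y : ℕ × ℕ} (hxy : x ≠ y) : Disjoint (JP Z x) (JP Z y) := by
  classical
  rw [disjoint_left]
  intro w hx hy
  obtain ⟨a1, a2, a3⟩ := (mem_JP h).1 hx
  obtain ⟨_, b2, b3⟩ := (mem_JP h).1 hy
  have hw : w ≠ 0 := fun h0 => h.hN.ne' (Nat.eq_zero_of_zero_dvd (h0 ▸ a1))
  have e1 := Jmp_unique h hw a2 b2
  refine hxy (Prod.ext e1 ?_)
  rw [← a3, ← b3, e1]

lemma JP_mass (h : Z.Ok) (x : ℕ × ℕ) : ∑ w ∈ JP Z x, nu Z.N w ≤ nu (low (Z.cut x.1) Z.N) x.2 := by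
  classical
  rcases (JP Z x).eq_empty_or_nonempty with he | ⟨w0, hw0⟩
  · rw [he, sum_empty]; exact nu_nonneg _ _
  · obtain ⟨a1, a2, a3⟩ := (mem_JP h).1 hw0
    have hd : x.2 ∣ low (Z.cut x.1) Z.N := by
      rw [← a3]
      exact low_dvd _ h.hN.ne' a1
    have hsub : JP Z x ⊆ Z.N.divisors.filter fun w => low (Z.cut x.1) w = x.2 := by
      intro w hw
      obtain ⟨b1, b2, b3⟩ := (mem_JP h).1 hw
      rw [mem_filter, Nat.mem_divisors]
      exact ⟨⟨b1, h.hN.ne'⟩, b3⟩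
    refine (sum_le_sum_of_subset_of_nonneg hsub fun w _ _ => nu_nonneg _ _).trans ?_
    exact (Lawx69.prob_part_eq (fun p => p ≤ Z.cut x.1) h.hN hd).le

lemma JP_g_pos (h : Z.Ok) {x : ℕ × ℕ} (hx : (JP Z x).Nonempty) :
    0 < nu (low (Z.cut x.1) Z.N) x.2 := by
  obtain ⟨w, hw⟩ := hx
  obtain ⟨a1, a2, a3⟩ := (mem_JP h).1 hw
  refine nu_pos (low_pos _ _) ?_
  rw [← a3]
  exact low_dvd _ h.hN.ne' a1

/-- **the jump pairs cost at most the square root of the masses** -/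
theorem jump_sqrt (h : Z.Ok) (S S' : Finset ℕ) :
    ∑ x ∈ JE Z, (∑ w ∈ JP Z x ∩ S, nu Z.N w) * (∑ w ∈ JP Z x ∩ S', nu Z.N w) /
      nu (low (Z.cut x.1) Z.N) x.2 ≤
    Real.sqrt (∑ w ∈ S, nu Z.N w) * Real.sqrt (∑ w ∈ S', nu Z.N w) := by
  classical
  have hm : ∀ (T : Finset ℕ) (x : ℕ × ℕ), ∑ w ∈ JP Z x ∩ T, nu Z.N w ≤
      nu (low (Z.cut x.1) Z.N) x.2 := fun T x =>
    (sum_le_sum_of_subset_of_nonneg inter_subset_left fun w _ _ => nu_nonneg _ _).trans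
      (JP_mass h x)
  exact cyl_sqrt (JE Z) (JP Z) (fun x => nu (low (Z.cut x.1) Z.N) x.2)
    (fun x _ y _ hxy => JP_disj h hxy) (fun x _ hx => JP_g_pos h hx) (nu Z.N) (nu Z.N)
    (fun w => nu_nonneg _ _) (fun w => nu_nonneg _ _) S S' (fun x _ => hm S x) fun x _ => hm S' x

open Classical in
/-- the kernel of the jump pairs -/
noncomputable def jk (Z : World) (w w' : ℕ) : ℝ :=
  ∑ x ∈ JE Z, if w ∈ JP Z x ∧ w' ∈ JP Z x then 1 / nu (low (Z.cut x.1) Z.N) x.2 else 0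

lemma jk_nonneg (w w' : ℕ) : 0 ≤ jk Z w w' := by
  classical
  unfold jk
  refine sum_nonneg fun x _ => ?_
  split_ifs
  · exact div_nonneg zero_le_one (nu_nonneg _ _)
  · exact le_rfl

/-- pair form -/
theorem jk_sqrt (h : Z.Ok) (S S' : Finset ℕ) :
    ∑ w ∈ S, ∑ w' ∈ S', nu Z.N w * nu Z.N w' * jk Z w w' ≤
      Real.sqrt (∑ w ∈ S, nu Z.N w) * Real.sqrt (∑ w ∈ S', nu Z.N w) := by
  classical
  refine le_trans (le_of_eq ?_) (jump_sqrt h S S')
  unfold jk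
  have e1 : ∀ w ∈ S, ∑ w' ∈ S', nu Z.N w * nu Z.N w' * (∑ x ∈ JE Z,
      if w ∈ JP Z x ∧ w' ∈ JP Z x then 1 / nu (low (Z.cut x.1) Z.N) x.2 else 0) =
      ∑ x ∈ JE Z, ∑ w' ∈ S', nu Z.N w * nu Z.N w' *
        (if w ∈ JP Z x ∧ w' ∈ JP Z x then 1 / nu (low (Z.cut x.1) Z.N) x.2 else 0) := by
    intro w _
    rw [sum_comm]
    exact sum_congr rfl fun w' _ => by rw [mul_sum]
  rw [sum_congr rfl e1, sum_comm]
  refine sum_congr rfl fun x _ => ?_
  have e2 : ∀ T : Finset ℕ, ∑ w ∈ JP Z x ∩ T, nu Z.N w =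
      ∑ w ∈ T, if w ∈ JP Z x then nu Z.N w else 0 := by
    intro T
    rw [← sum_filter]
    congr 1
    ext w
    simp [and_comm]
  rw [e2 S, e2 S', sum_mul_sum, sum_div]
  refine sum_congr rfl fun w _ => ?_
  rw [sum_div]
  refine sum_congr rfl fun w' _ => ?_
  by_cases h1 : w ∈ JP Z x <;> by_cases h2 : w' ∈ JP Z x <;> simp [h1, h2, div_eq_mul_inv]

/-- a pair with a common jump prefix -/
lemma jk_ge (h : Z.Ok) {i w w' : ℕ} (hw : w ∣ Z.N) (hw' : w' ∣ Z.N) (hi : i ≤ Z.top + 1)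
    (hj : Jmp Z i w) (hl : low (Z.cut i) w = low (Z.cut i) w') :
    1 / nu (low (Z.cut i) Z.N) (low (Z.cut i) w) ≤ jk Z w w' := by
  classical
  have hw0 : w ≠ 0 := fun h0 => h.hN.ne' (Nat.eq_zero_of_zero_dvd (h0 ▸ hw))
  set x : ℕ × ℕ := (i, low (Z.cut i) w) with hx
  have hxE : x ∈ JE Z := by
    unfold JE
    rw [mem_image]
    refine ⟨(i, w), ?_, rfl⟩
    rw [mem_filter, mem_product, mem_range, Nat.mem_divisors]
    exact ⟨⟨by omega, hw, h.hN.ne'⟩, hj⟩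
  have h1 : w ∈ JP Z x := (mem_JP h).2 ⟨hw, hj, rfl⟩
  have h2 : w' ∈ JP Z x := (mem_JP h).2 ⟨hw', Jmp_congr hw0 hl hj, hl.symm⟩
  unfold jk
  refine le_trans (le_of_eq ?_) (single_le_sum (f := fun x => if w ∈ JP Z x ∧ w' ∈ JP Z x then
    1 / nu (low (Z.cut x.1) Z.N) x.2 else (0:ℝ)) (fun y _ => ?_) hxE)
  · rw [if_pos ⟨h1, h2⟩]
  · split_ifs
    · exact div_nonneg zero_le_one (nu_nonneg _ _)
    · exact le_rfl

end Crest.Agent.R4C.Jumpx9
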