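import Crest.Agent.R4C.Bridge_882

/-!
# Row 4: exact averaged energy in the `b`-language (helper935)

`EnX γ L M lam b c` = the exact averaged energy `EnA` (coins averaged) of the pair `b, c`, so that
near pairs may use exact CRT averages; `EnX ≤ EnB` (pointwise boost bound).
`KCa γ` : interface with `EnX`; `KCl_of_KCa`, `KCa_of_KCb`.
-/

set_option autoImplicit false

open Finset

namespace Crest.Agent.R4C.KCax935

open Crest.Agent.R4C.Basex935 Crest.Agent.R4C.PrefixMx882 Crest.Agent.R4C.CrCountx935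
  Crest.Agent.R4C.CrCoinx935 Crest.Agent.R4C.Bridgex882

/-- exact averaged energy of a pair, `b`-language (without the factor `L`) -/
noncomputable def EnX (γ L : ℝ) (M : ℕ) (lam : ℕ → ℕ → Option ℤ) (b c : ℕ) : ℝ :=
  EnA γ (L / (2 * M)) (fun r => lam (M / r)) (M / b) (M / c) / M

/-- the interface -/
def KCa (γ : ℝ) : Prop := ∃ c : ℝ, 0 < c ∧ ∃ C : ℝ, ∃ δ : ℝ, 0 < δ ∧ ∃ P : ℕ,
  ∀ (M : ℕ) (B : Finset ℕ) (L : ℝ), 0 < M → B ⊆ M.divisors → 0 < L →
    (∀ b ∈ B, P ≤ M / b) → (∀ b ∈ B, L ≤ δ * b) →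
    1 / 2 ≤ L * ∑ b ∈ B, nu M b → L * ∑ b ∈ B, nu M b ≤ 1 →
    ∃ B' ⊆ B, ∃ lam : ℕ → ℕ → Option ℤ, c ≤ L * ∑ b ∈ B', nu M b ∧
      L * ∑ b ∈ B', ∑ b' ∈ B'.erase b, EnX γ L M lam b b' ≤ C

lemma EnX_div {γ ρ : ℝ} {M q q' : ℕ} (hM : 0 < M) (hq : q ∣ M) (hq' : q' ∣ M)
    (lam : ℕ → ℕ → Option ℤ) :
    M * EnX γ (2 * ρ * M) M lam (M / q) (M / q') =
      EnA γ ρ (fun q p => lam (M / q) p) q q' := by
  have hMr : (M : ℝ) ≠ 0 := by exact_mod_cast hM.ne'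
  unfold EnX
  rw [Nat.div_div_self hq hM.ne', Nat.div_div_self hq' hM.ne', mul_div_cancel₀ _ hMr]
  congr 1
  field_simp

/-- pointwise bound -/
theorem EnX_le_EnB {γ L : ℝ} {M b c : ℕ} (hM : 0 < M) (hb : b ∣ M) (hc : c ∣ M)
    (lam : ℕ → ℕ → Option ℤ) : EnX γ L M lam b c ≤ EnB γ L M lam b c := by
  have hMr : (0 : ℝ) < M := by exact_mod_cast hM
  have h := EnA_le_EnB (γ := γ) (ρ := L / (2 * M)) hM (Nat.div_dvd_of_dvd hb)
    (Nat.div_dvd_of_dvd hc) lam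
  rw [Nat.div_div_self hb hM.ne', Nat.div_div_self hc hM.ne'] at h
  have e : 2 * (L / (2 * (M : ℝ))) * M = L := by field_simp
  rw [e] at h
  unfold EnX
  rw [div_le_iff₀ hMr, mul_comm (EnB γ L M lam b c)]
  exact h

theorem KCa_of_KCb {γ : ℝ} (H : KCb γ) : KCa γ := by
  obtain ⟨c, hc, C, δ, hδ, P, H⟩ := H
  refine ⟨c, hc, C, δ, hδ, P, fun M B L hM hB hL h1 h2 h3 h4 => ?_⟩
  obtain ⟨B', hB', lam, h5, h6⟩ := H M B L hM hB hL h1 h2 h3 h4
  refine ⟨B', hB', lam, h5, le_trans (mul_le_mul_of_nonneg_left ?_ hL.le) h6⟩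
  refine sum_le_sum fun b hb => sum_le_sum fun b' hb' => ?_
  exact EnX_le_EnB hM (Nat.dvd_of_mem_divisors (hB (hB' hb)))
    (Nat.dvd_of_mem_divisors (hB (hB' (mem_of_mem_erase hb')))) lam

theorem KCl_of_KCa {γ : ℝ} (H : KCa γ) : KCl γ := by
  classical
  obtain ⟨c, hc, C, δ, hδ, P, H⟩ := H
  refine ⟨c / 2, by linarith, C / 2, min (δ / 2) (1 / 4), lt_min (by linarith) (by norm_num), P,
    fun Q ρ hQ hρ hmass hs => ?_⟩
  -- the common multiple
  set M := Q.lcm id with hMdef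
  have hdvd : ∀ q ∈ Q, q ∣ M := fun q hq => Finset.dvd_lcm (f := id) hq
  have hM : 0 < M := by
    rw [Nat.pos_iff_ne_zero, hMdef, Ne, Finset.lcm_eq_zero_iff]
    rintro ⟨q, hq, h0⟩
    have := (hQ q hq).1
    simp only [id] at h0
    omega
  have hMr : (0 : ℝ) < M := by exact_mod_cast hM
  have hL : 0 < 2 * ρ * M := by positivity
  -- selection
  obtain ⟨Q1, hQ1, h1, h2⟩ := exists_half (fun q => 2 * ρ * (Nat.totient q : ℝ)) Q
    (fun q _ => by positivity)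
    (fun q hq => by
      have h3 : (Nat.totient q : ℝ) ≤ q := by exact_mod_cast Nat.totient_le q
      have h4 : ρ * q ≤ 1 / 4 := (hs q hq).trans (min_le_right _ _)
      have h5 : ρ * (Nat.totient q : ℝ) ≤ ρ * q := mul_le_mul_of_nonneg_left h3 hρ.le
      linarith)
    (by
      rw [← mul_sum]
      linarith)
  rw [← mul_sum] at h1 h2
  have hQ1d : ∀ q ∈ Q1, q ∣ M := fun q hq => hdvd q (hQ1 hq)
  set B := Q1.image (fun q => M / q) with hB
  have hmassB : ∀ T : Finset ℕ, T ⊆ Q1 → ∑ b ∈ T.image (fun q => M / q), nu M b =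
      (∑ q ∈ T, (Nat.totient q : ℝ)) / M := by
    intro T hT
    rw [sum_image_div hM T (fun q hq => hQ1d q (hT hq)), sum_div]
    refine sum_congr rfl fun q hq => ?_
    rw [mass_div hM (hQ1d q (hT hq))]
    field_simp
  have hBd : B ⊆ M.divisors := by
    intro b hb
    rw [hB, mem_image] at hb
    obtain ⟨q, hq, rfl⟩ := hb
    exact Nat.mem_divisors.2 ⟨Nat.div_dvd_of_dvd (hQ1d q hq), hM.ne'⟩
  have hmB : (2 * ρ * M) * ∑ b ∈ B, nu M b = 2 * ρ * ∑ q ∈ Q1, (Nat.totient q : ℝ) := by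
    rw [hB, hmassB Q1 subset_rfl]
    field_simp
  obtain ⟨B', hB', lam, h3, h4⟩ := H M B (2 * ρ * M) hM hBd hL
    (fun b hb => by
      rw [hB, mem_image] at hb
      obtain ⟨q, hq, rfl⟩ := hb
      rw [Nat.div_div_self (hQ1d q hq) hM.ne']
      exact (hQ q (hQ1 hq)).2)
    (fun b hb => by
      rw [hB, mem_image] at hb
      obtain ⟨q, hq, rfl⟩ := hb
      have hq0 : (0 : ℝ) < q := by exact_mod_cast (hQ q (hQ1 hq)).1
      rw [Nat.cast_div (hQ1d q hq) hq0.ne']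
      have h5 : ρ * q ≤ δ / 2 := (hs q (hQ1 hq)).trans (min_le_left _ _)
      rw [← mul_div_assoc, le_div_iff₀ hq0]
      nlinarith)
    (by rw [hmB]; exact h1) (by rw [hmB]; exact h2)
  -- back to `Q`
  set Q' := Q1.filter (fun q => M / q ∈ B') with hQ'
  have hQ'1 : Q' ⊆ Q1 := filter_subset _ _
  have himg : Q'.image (fun q => M / q) = B' := by
    ext b
    rw [mem_image]
    constructor
    · rintro ⟨q, hq, rfl⟩
      exact (mem_filter.1 hq).2
    · intro hb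
      have h5 := hB' hb
      rw [hB, mem_image] at h5
      obtain ⟨q, hq, rfl⟩ := h5
      exact ⟨q, mem_filter.2 ⟨hq, hb⟩, rfl⟩
  have hinj : ∀ q ∈ Q', ∀ q' ∈ Q', M / q = M / q' → q = q' := by
    intro q hq q' hq' he
    have h5 := Nat.div_div_self (hQ1d q (hQ'1 hq)) hM.ne'
    have h6 := Nat.div_div_self (hQ1d q' (hQ'1 hq')) hM.ne'
    rw [← h5, ← h6, he]
  refine ⟨Q', hQ'1.trans hQ1, fun q p => lam (M / q) p, ?_, ?_⟩
  · have h5 : (2 * ρ * M) * ∑ b ∈ B', nu M b = 2 * ρ * ∑ q ∈ Q', (Nat.totient q : ℝ) := by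
      rw [← himg, hmassB Q' hQ'1]
      field_simp
    rw [h5] at h3
    linarith
  · have h5 : ∑ q ∈ Q', ∑ q' ∈ Q'.erase q, EnA γ ρ (fun q p => lam (M / q) p) q q' ≤
        ∑ q ∈ Q', ∑ q' ∈ Q'.erase q, M * EnX γ (2 * ρ * M) M lam (M / q) (M / q') := by
      refine sum_le_sum fun q hq => sum_le_sum fun q' hq' => ?_
      rw [EnX_div hM (hQ1d q (hQ'1 hq)) (hQ1d q' (hQ'1 (mem_of_mem_erase hq')))]
    have h6 : ∑ q ∈ Q', ∑ q' ∈ Q'.erase q, M * EnX γ (2 * ρ * M) M lam (M / q) (M / q') =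
        M * ∑ b ∈ B', ∑ b' ∈ B'.erase b, EnX γ (2 * ρ * M) M lam b b' := by
      rw [mul_sum, ← himg, sum_image hinj]
      refine sum_congr rfl fun q hq => ?_
      rw [mul_sum]
      have h7 : (Q'.image (fun q => M / q)).erase (M / q) =
          (Q'.erase q).image (fun q => M / q) := by
        ext b
        simp only [mem_erase, mem_image]
        constructor
        · rintro ⟨h8, q', hq', rfl⟩
          exact ⟨q', ⟨fun h9 => h8 (by rw [h9]), hq'⟩, rfl⟩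
        · rintro ⟨q', ⟨h8, hq'⟩, rfl⟩
          exact ⟨fun h9 => h8 (hinj q' hq' q hq h9), q', hq', rfl⟩
      rw [h7, sum_image fun x hx y hy h => hinj x (mem_of_mem_erase hx) y (mem_of_mem_erase hy) h]
    calc ρ * ∑ q ∈ Q', ∑ q' ∈ Q'.erase q, EnA γ ρ (fun q p => lam (M / q) p) q q'
        ≤ ρ * (M * ∑ b ∈ B', ∑ b' ∈ B'.erase b, EnX γ (2 * ρ * M) M lam b b') := by
          rw [← h6]
          exact mul_le_mul_of_nonneg_left h5 hρ.le
      _ = (2 * ρ * M * ∑ b ∈ B', ∑ b' ∈ B'.erase b, EnX γ (2 * ρ * M) M lam b b') / 2 := by ring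
      _ ≤ C / 2 := by linarith


end Crest.Agent.R4C.KCax935
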