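import Crest.Agent.R4C.KyCls_971
import Crest.Agent.R4C.BadTot_14

/-!
# Row 4: bad pairs at a smaller cut (helper971)

* `clsBadK k γ` : a level `t` of the pair (`LevT`) with the pair NOT good at the cut `t / k`;
* **`clsBadK_ok`** : `ClsOK γ (clsBadK k γ)` for every `k ≥ 1`;
* **`ClsOK_good`** : it is enough to bound a class on the pairs which are good at `cut (t / k)` for
  all their levels `t` (and off the event `K_y`).
-/

set_option autoImplicit false

open Finset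

namespace Crest.Agent.R4C.KyBadx971

open Crest.Agent.R4C.Basex935 Crest.Agent.R4C.FLDefx935 Crest.Agent.R4C.BoostCx972
  Crest.Agent.R4C.CrCoinx935 Crest.Agent.R4C.CrCountx935 Crest.Agent.R4C.Bridgex882
  Crest.Agent.R4C.Rulex945 Crest.Agent.R4C.Sharedx11
  Crest.Agent.R4C.Splitx945 Crest.Agent.R4C.Spinex946 Crest.Agent.R4C.Kyx952
  Crest.Agent.R4C.Topx971 Crest.Agent.R4C.KyClsx971

/-- level `t`, not good at the cut `t / k` -/
def BadKP {M : ℕ} (F : FL M) (P : Par) (k b c : ℕ) (h : ℤ) : Prop :=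
  ∃ t, LevT F P t b c h ∧ ¬ F.good (P.cut (t / k)) b c

/-- the class in the form of the spine -/
def clsBadK (k : ℕ) (γ : ℝ) : Cls := fun cp _ A m0 L M B F b c h =>
  BadKP F (ParOf cp A m0 γ L M B) k b c h

/-- everything is good at `M` -/
lemma good_top {M : ℕ} {F : FL M} (hM : 0 < M) {b c : ℕ} (hb : b ∣ M) (hc : c ∣ M) :
    F.good M b c := by
  have hz : ∀ {d q : ℕ}, d ∣ M → M < q → d.factorization q = 0 := by
    intro d q hd hMq
    refine Nat.factorization_eq_zero_of_not_dvd fun h => ?_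
    have := Nat.le_of_dvd hM (h.trans hd)
    omega
  refine ⟨fun q hq hMq _ => by rw [hz hb hMq, hz hc hMq], fun q hq hMq v hv => ?_⟩
  have h1 := F.le hb hq hv
  rw [hz dvd_rfl hMq] at h1
  left
  rw [hz hb hMq]
  omega

section

variable {M : ℕ} {F : FL M} {cp γ L : ℝ} {A m0 : ℕ} {B : Finset ℕ}

lemma oS_zero {lam : ℕ → ℕ → Option ℤ} {R : ℕ → ℕ → ℤ → Prop} {b c : ℕ}
    (h : ∀ x ∈ Lnk γ L b c, ¬ R b c x) : oS γ L M lam R b c = 0 := by
  classical
  unfold oS
  refine Finset.sum_eq_zero fun x hx => ?_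
  rw [Finset.mem_filter] at hx
  exact absurd hx.2.2 (h x hx.1)

open Classical in
/-- one value of the constants -/
theorem badK_en {η : ℝ} (hη : 0 < η) (hη1 : η < 1) {k : ℕ} (hk : 1 ≤ k) (hA : 1 ≤ A)
    (hAk : η + 0 < (A : ℝ) / (2 * k) * bc η) (hm0 : k ≤ m0) : ∃ C : ℝ,
    ∀ (L : ℝ) (M : ℕ) (B : Finset ℕ) (F : FL M), Setup η L M B F →
    EnR γ L M B (lamOf cp A m0 γ L M B F) (fun b c x => BadKP F (ParOf cp A m0 γ L M B) k b c x ∧
      ¬ CKyP F (ParOf cp A m0 γ L M B) b c x) ≤ C := by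
  obtain ⟨hT, _⟩ := tree_spec hη hη1
  have hKB := KB_nonneg A
  obtain ⟨C, hC, H⟩ := BadTotx14.bad_final (η := η) (c := bc η) (C0 := bC η)
    (A := (A : ℝ) / (2 * k)) (β := 0) (K := 3 * (A : ℝ) ^ 8 * KB A) hη hT.c_pos hT.C_nonneg
    (by positivity) hAk 10
  refine ⟨C, fun L M B F S => ?_⟩
  set P := ParOf cp A m0 γ L M B with hP
  set lam := lamOf cp A m0 γ L M B F with hlam
  set R : ℕ → ℕ → ℕ → ℤ → Prop := fun t b c x =>
    (LevT F P t b c x ∧ ¬ F.good (P.cut (t / k)) b c) ∧ ¬ CKyP F P b c x with hR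
  set s : Finset ℕ := Finset.Ico m0 (k * (M + 1)) with hs
  have hcut : ∀ m, P.cut m = 2 ^ (A * m) := fun m => rfl
  have hpos : ∀ b ∈ B, 0 < b := fun b hb => S.pos hb
  have hmass : 0 ≤ (L * ∑ b ∈ B, nu M b) := S.mass_nonneg
  have hlin : ∀ (t : ℝ) (x : ℕ), 0 < t → badEn F B L t x ≤
      bC η * t ^ η * ((x : ℝ) + 1) ^ (-bc η) * (L * ∑ b ∈ B, nu M b) :=
    fun t x ht => S.bad_lin hη hη1 t x ht
  have hmain := H M F B L (L * ∑ b ∈ B, nu M b) S.hL hmass hpos hlin (fun σ => P.cut (σ / k)) s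
    (fun t b c => oS γ L M lam (R t) b c) ?_ ?_ ?_ ?_
  · have h1 : EnR γ L M B lam (fun b c x => BadKP F P k b c x ∧ ¬ CKyP F P b c x) ≤
        EnR γ L M B lam (fun b c x => ∃ t ∈ s, R t b c x) := by
      refine EnR_mono S.hL.le fun b hb c hc _ x _ _ hx => ?_
      obtain ⟨⟨t, ht, hbad⟩, hky⟩ := hx
      refine ⟨t, ?_, ⟨ht, hbad⟩, hky⟩
      rw [hs, Finset.mem_Ico]
      refine ⟨ht.m0, ?_⟩
      by_contra hcon
      push Not at hcon
      refine hbad (FL.good_mono ?_ (good_top S.hM (S.dvd hb) (S.dvd hc)))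
      have h2 : M + 1 ≤ t / k := by
        rw [Nat.le_div_iff_mul_le (by omega)]
        rw [mul_comm]
        exact hcon
      rw [hcut]
      have h3 : t / k < 2 ^ (t / k) := Nat.lt_two_pow_self
      have h4 : 2 ^ (t / k) ≤ 2 ^ (A * (t / k)) :=
        Nat.pow_le_pow_right (by norm_num) (Nat.le_mul_of_pos_left _ (by omega))
      omega
    have h2 := EnR_exists_le (γ := γ) (M := M) (B := B) (lam := lam) S.hL.le s R
    have h3 : ∑ t ∈ s, EnR γ L M B lam (R t) ≤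
        L * ∑ b ∈ B, ∑ c ∈ B, (Nat.gcd b c : ℝ) * nu M b * nu M c *
          ∑ t ∈ s, oS γ L M lam (R t) b c := by
      simp only [EnR_eq]
      rw [← Finset.mul_sum]
      refine mul_le_mul_of_nonneg_left ?_ S.hL.le
      rw [Finset.sum_comm]
      refine Finset.sum_le_sum fun b _ => ?_
      calc ∑ t ∈ s, ∑ c ∈ B.erase b, (Nat.gcd b c : ℝ) * nu M b * nu M c *
            oS γ L M lam (R t) b c ≤ ∑ t ∈ s, ∑ c ∈ B, (Nat.gcd b c : ℝ) * nu M b * nu M c *
            oS γ L M lam (R t) b c := Finset.sum_le_sum fun t _ =>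
            Finset.sum_le_sum_of_subset_of_nonneg (Finset.erase_subset _ _) fun c _ _ =>
              mul_nonneg (pref_nonneg _ _ _) (oS_nonneg _ _ _)
        _ = _ := by
            rw [Finset.sum_comm]
            exact Finset.sum_congr rfl fun c _ => by rw [Finset.mul_sum]
    have h4 : C * (L * ∑ b ∈ B, nu M b) ≤ C := mul_le_of_le_one_right hC S.mass
    exact h1.trans (h2.trans (h3.trans (hmain.trans h4)))
  · intro σ hσ
    rw [hs, Finset.mem_Ico] at hσ
    have h1 : σ ≤ 2 * k * (σ / k) := by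
      have h2 := Nat.div_add_mod σ k
      have h3 := Nat.mod_lt σ (show 0 < k by omega)
      have h4 : 1 ≤ σ / k := by
        rw [Nat.le_div_iff_mul_le (by omega)]
        omega
      nlinarith
    have h5 : (A : ℝ) / (2 * k) * σ ≤ ((A * (σ / k) : ℕ) : ℝ) := by
      have hk0 : (0 : ℝ) < 2 * k := by
        have : (1 : ℝ) ≤ k := by exact_mod_cast hk
        linarith
      rw [div_mul_eq_mul_div, div_le_iff₀ hk0]
      have h6 : A * σ ≤ A * (σ / k) * (2 * k) := by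
        calc A * σ ≤ A * (2 * k * (σ / k)) := Nat.mul_le_mul_left _ h1
          _ = _ := by ring
      exact_mod_cast h6
    rw [hcut]
    push_cast
    have h7 : (2 : ℝ) ^ ((A : ℝ) / (2 * k) * σ) ≤ (2 : ℝ) ^ (((A * (σ / k) : ℕ) : ℝ)) :=
      Real.rpow_le_rpow_of_exponent_le (by norm_num) h5
    rw [Real.rpow_natCast] at h7
    linarith
  · intro σ hσ b hb c hc
    rw [hs, Finset.mem_Ico] at hσ
    have hσ1 : 1 ≤ σ := by omega
    have h1 := oS_off (F := F) (cp := cp) (A := A) (m0 := m0) (B := B) (γ := γ) (L := L) (t := σ)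
      S.hM (S.dvd hb) (S.dvd hc) S.hL hA hσ1 (R := R σ) (fun h _ hR' => ⟨hR'.1.1, hR'.2⟩)
    refine h1.trans ?_
    refine mul_le_mul_of_nonneg_left ?_ (by positivity)
    rw [zero_mul, Real.rpow_zero, mul_one]
    have h2 : (1 : ℝ) ≤ σ := by exact_mod_cast hσ1
    have h3 : 1 + Real.log σ ≤ (σ : ℝ) + 1 := by
      have := Real.log_le_sub_one_of_pos (show (0 : ℝ) < σ by linarith)
      linarith
    have h4 : (0 : ℝ) ≤ 1 + Real.log σ := by
      have := Real.log_nonneg h2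
      linarith
    calc (σ : ℝ) ^ 9 * (1 + Real.log σ) ≤ ((σ : ℝ) + 1) ^ 9 * ((σ : ℝ) + 1) := by
          refine mul_le_mul ?_ h3 h4 (by positivity)
          exact pow_le_pow_left₀ (by positivity) (by linarith) _
      _ = _ := by ring
  · intro σ _ b _ c _ hg
    exact le_of_eq (oS_zero fun x _ hx => hx.1.2 hg)
  · intro σ _ b _ c _ hg
    refine le_of_eq (oS_zero fun x _ hx => ?_)
    have : (Nat.gcd b c : ℝ) < 2 ^ (σ + 1) * L := hx.1.1.scl
    linarith

end

/-- **bad at `cut (t / k)`** -/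
theorem clsBadK_ok {k : ℕ} (hk : 1 ≤ k) (γ : ℝ) : ClsOK γ (clsBadK k γ) := by
  refine ClsOK_off ?_
  unfold ClsOK
  refine ((Ev.basic).and ((Ev.le_A fun _ η => (η + 1) / bc η * (2 * k)).and
    (Ev.le_m0 fun _ _ _ => (k : ℝ)))).mono ?_
  rintro cp η A m0 ⟨⟨hcp, _, hη, _, hη1, hA, _⟩, h1, h2⟩
  obtain ⟨hT, _⟩ := tree_spec hη hη1
  have hk0 : (0 : ℝ) < 2 * k := by
    have : (1 : ℝ) ≤ k := by exact_mod_cast hk
    linarith
  refine badK_en hη hη1 hk hA ?_ (by exact_mod_cast h2)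
  have h3 : (η + 1) / bc η ≤ (A : ℝ) / (2 * k) := by
    rw [le_div_iff₀ hk0]
    exact h1
  rw [div_le_iff₀ hT.c_pos] at h3
  linarith

/-- **reduction**: off the event `K_y`, and good at `cut (t / k)` at all levels `t` -/
theorem ClsOK_good {γ : ℝ} {k : ℕ} (hk : 1 ≤ k) {R : Cls}
    (h : ClsOK γ (fun cp η A m0 L M B F b c x => R cp η A m0 L M B F b c x ∧
      ¬ clsKy γ cp η A m0 L M B F b c x ∧
      ∀ t, LevT F (ParOf cp A m0 γ L M B) t b c x →
        F.good ((ParOf cp A m0 γ L M B).cut (t / k)) b c)) : ClsOK γ R := by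
  refine (h.or ((clsKy_ok γ).or (clsBadK_ok hk γ))).mono
    (Ev.of_forall fun cp η A m0 L M B F _ b _ c _ _ x _ _ hx => ?_)
  by_cases h1 : clsKy γ cp η A m0 L M B F b c x
  · exact Or.inr (Or.inl h1)
  · by_cases h2 : clsBadK k γ cp η A m0 L M B F b c x
    · exact Or.inr (Or.inr h2)
    · refine Or.inl ⟨hx, h1, fun t ht => ?_⟩
      by_contra h3
      exact h2 ⟨t, ht, h3⟩

end Crest.Agent.R4C.KyBadx971
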