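import Crest.Agent.R4C.PrefixM_882

/-!
# Row 4: LEMMA LN (note 2673 (1), helper589), general `M` (helper581)

Nodes of the decreasing order: prime `q ∣ M`, upper part `T ∣ hi q M` (primes `> q`), conditional
masses `δ_v = dch q M f T v = ∑_{l ∣ lo q M} ν(l) f(T q^v l)` of the children and
`δ_T = ∑_v ν_q(v) δ_v`.  The node cost is

  `T ν(T)^2 * ∑_{v ≠ v'} (q^{min v v'})^{2(1-κ)} ν_q(v) ν_q(v') (δ_v δ_{v'})^κ δ_T^{1-2κ}`.

`LN` : the sum of all node costs over the nodes with `δ_T ≤ Γ` is at most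
`C (N + Γ^s N^{1-s})`, `N = ∑ ν f`, for every `s ∈ (0,1)`; `C = C(κ, s)`.
-/

set_option autoImplicit false

open Finset

namespace Crest.Agent.R4C.LNx581

open Crest.Agent.R4C.Basex935 Crest.Agent.R4C.PrefixMx882

/-! ### The pointwise entropy -/

/-- `ψ(D) = (1-s) D + s - D^{1-s}` -/
noncomputable def psi (s D : ℝ) : ℝ := (1 - s) * D + s - D ^ (1 - s)

lemma psi_nonneg {s D : ℝ} (hs0 : 0 < s) (hs1 : s < 1) (hD : 0 ≤ D) : 0 ≤ psi s D := by
  have h := Real.geom_mean_le_arith_mean2_weighted (w₁ := 1 - s) (w₂ := s) (p₁ := D) (p₂ := 1)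
    (by linarith) hs0.le hD zero_le_one (by ring)
  rw [Real.one_rpow, mul_one, mul_one] at h
  unfold psi
  linarith

lemma exists_K0 {s : ℝ} (hs0 : 0 < s) (hs1 : s < 1) :
    ∃ K0 c : ℝ, 1 ≤ K0 ∧ 0 < c ∧ (∀ D, K0 ≤ D → c * D ≤ psi s D) ∧
      (∀ D, 0 ≤ D → D ≤ 1 / K0 → c ≤ psi s D) := by
  set e1 : ℝ := (1 - s) / 2 with he1
  set e2 : ℝ := s / 2 with he2
  have h1 : 0 < e1 := by rw [he1]; linarith
  have h2 : 0 < e2 := by rw [he2]; linarith
  set K0 : ℝ := max 1 (max (e1 ^ (-(1 / s))) (e2 ^ (-(1 / (1 - s))))) with hK0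
  have hK1 : 1 ≤ K0 := le_max_left _ _
  have hKp : 0 < K0 := by linarith
  have hKa : e1 ^ (-(1 / s)) ≤ K0 := (le_max_left _ _).trans (le_max_right _ _)
  have hKb : e2 ^ (-(1 / (1 - s))) ≤ K0 := (le_max_right _ _).trans (le_max_right _ _)
  have hA : K0 ^ (-s) ≤ e1 := by
    have h3 : K0 ^ (-s) ≤ (e1 ^ (-(1 / s))) ^ (-s) :=
      Real.rpow_le_rpow_of_nonpos (Real.rpow_pos_of_pos h1 _) hKa (by linarith)
    rw [← Real.rpow_mul h1.le] at h3
    have h4 : -(1 / s) * -s = 1 := by field_simp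
    rwa [h4, Real.rpow_one] at h3
  have hB : K0 ^ (-(1 - s)) ≤ e2 := by
    have hs' : (1 - s) ≠ 0 := by linarith
    have h3 : K0 ^ (-(1 - s)) ≤ (e2 ^ (-(1 / (1 - s)))) ^ (-(1 - s)) :=
      Real.rpow_le_rpow_of_nonpos (Real.rpow_pos_of_pos h2 _) hKb (by linarith)
    rw [← Real.rpow_mul h2.le] at h3
    have h4 : -(1 / (1 - s)) * -(1 - s) = 1 := by field_simp
    rwa [h4, Real.rpow_one] at h3
  refine ⟨K0, min e1 e2, hK1, lt_min h1 h2, ?_, ?_⟩
  · intro D hD
    have hD0 : 0 < D := by linarith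
    have h3 : D ^ (1 - s) ≤ e1 * D := by
      have h4 : D ^ (1 - s) = D * D ^ (-s) := by
        conv_lhs => rw [show (1 - s) = 1 + (-s) by ring, Real.rpow_add hD0, Real.rpow_one]
      have h5 : D ^ (-s) ≤ K0 ^ (-s) := Real.rpow_le_rpow_of_nonpos hKp hD (by linarith)
      rw [h4, mul_comm]
      exact mul_le_mul_of_nonneg_right (h5.trans hA) hD0.le
    have h6 : min e1 e2 * D ≤ e1 * D := mul_le_mul_of_nonneg_right (min_le_left _ _) hD0.le
    unfold psi
    have h7 : (1 - s) * D = 2 * (e1 * D) := by rw [he1]; ring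
    linarith
  · intro D hD0 hD
    have h3 : D ^ (1 - s) ≤ e2 := by
      have h4 : D ^ (1 - s) ≤ (1 / K0) ^ (1 - s) := Real.rpow_le_rpow hD0 hD (by linarith)
      have h5 : (1 / K0) ^ (1 - s) = K0 ^ (-(1 - s)) := by
        rw [one_div, Real.inv_rpow hKp.le, Real.rpow_neg hKp.le]
      rw [h5] at h4
      exact h4.trans hB
    have h6 : min e1 e2 ≤ e2 := min_le_right _ _
    unfold psi
    have h7 : 0 ≤ (1 - s) * D := mul_nonneg (by linarith) hD0
    have h8 : s = 2 * e2 := by rw [he2]; ring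
    linarith

set_option maxHeartbeats 2000000 in
/-- the pair term of one prime -/
lemma pair_bound {κ s : ℝ} (hκ : 1 / 2 < κ) (hκ1 : κ < 1) (hs0 : 0 < s) (hs1 : s < 1) :
    ∃ K : ℝ, 0 < K ∧ ∀ X Z w w' D D' : ℝ, 1 ≤ X → 1 ≤ Z → 0 < w → 0 < w' →
      w ≤ 1 / X → 1 / (2 * X) ≤ w → w' ≤ 1 / (X * Z) → 1 / (2 * (X * Z)) ≤ w' →
      0 ≤ D → 0 ≤ D' → w * D ≤ 1 → w' * D' ≤ 1 →
      X ^ (2 * (1 - κ)) * (w * w') * (D * D') ^ κ ≤
        K * (Z ^ (-(1 - κ)) * (w * psi s D + w' * psi s D') + X ^ (-(2 * κ - 1)) * (w' * psi s D') +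
          Z⁻¹ * (w * D)) := by
  obtain ⟨K0, c, hK1, hc, hbig, hsmall⟩ := exists_K0 hs0 hs1
  have hK0 : 0 < K0 := by linarith
  refine ⟨2 * K0 ^ 2 + 2 * K0 / c + 2 / c, by positivity, ?_⟩
  intro X Z w w' D D' hX hZ hw hw' hw1 hw2 hw1' hw2' hD hD' hy hy'
  have hX0 : 0 < X := by linarith
  have hZ0 : 0 < Z := by linarith
  have hE : 0 ≤ w * psi s D := mul_nonneg hw.le (psi_nonneg hs0 hs1 hD)
  have hE' : 0 ≤ w' * psi s D' := mul_nonneg hw'.le (psi_nonneg hs0 hs1 hD')
  have hZk : 0 < Z ^ (-(1 - κ)) := Real.rpow_pos_of_pos hZ0 _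
  have hXk : 0 < X ^ (-(2 * κ - 1)) := Real.rpow_pos_of_pos hX0 _
  have hX2 : 0 < X ^ (2 * (1 - κ)) := Real.rpow_pos_of_pos hX0 _
  have hwX : 1 / X ≤ 2 * w := by
    have : 1 / X = 2 * (1 / (2 * X)) := by field_simp
    rw [this]; linarith
  have hwX' : 1 / (X * Z) ≤ 2 * w' := by
    have : 1 / (X * Z) = 2 * (1 / (2 * (X * Z))) := by field_simp
    rw [this]; linarith
  have hDD : 0 ≤ (D * D') ^ κ := Real.rpow_nonneg (mul_nonneg hD hD') _
  -- first bound
  have h0 : X ^ (2 * (1 - κ)) * (w * w') * (D * D') ^ κ ≤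
      Z⁻¹ * X ^ (-(2 * κ)) * (D ^ κ * D' ^ κ) := by
    rw [Real.mul_rpow hD hD']
    have h1 : w * w' ≤ (1 / X) * (1 / (X * Z)) := mul_le_mul hw1 hw1' hw'.le (by positivity)
    have h2 : X ^ (2 * (1 - κ)) * ((1 / X) * (1 / (X * Z))) = Z⁻¹ * X ^ (-(2 * κ)) := by
      have h3 : X ^ (2 * (1 - κ)) = X ^ (2 : ℝ) * X ^ (-(2 * κ)) := by
        rw [← Real.rpow_add hX0]; congr 1; ring
      rw [h3, Real.rpow_two]
      field_simp
    calc X ^ (2 * (1 - κ)) * (w * w') * (D ^ κ * D' ^ κ)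
        ≤ X ^ (2 * (1 - κ)) * ((1 / X) * (1 / (X * Z))) * (D ^ κ * D' ^ κ) := by
          have h4 : 0 ≤ D ^ κ * D' ^ κ := mul_nonneg (Real.rpow_nonneg hD _) (Real.rpow_nonneg hD' _)
          exact mul_le_mul_of_nonneg_right (mul_le_mul_of_nonneg_left h1 hX2.le) h4
      _ = _ := by rw [h2]
  have hX2k : X ^ (-(2 * κ)) ≤ 1 / X := by
    rw [one_div, ← Real.rpow_neg_one]
    exact Real.rpow_le_rpow_of_exponent_le hX (by linarith)
  have hZi : Z⁻¹ ≤ Z ^ (-(1 - κ)) := by
    rw [← Real.rpow_neg_one]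
    exact Real.rpow_le_rpow_of_exponent_le hZ (by linarith)
  have hZi0 : 0 < Z⁻¹ := by positivity
  have hX2k0 : 0 < X ^ (-(2 * κ)) := Real.rpow_pos_of_pos hX0 _
  have hKk : K0 ^ κ ≤ K0 := by
    conv_rhs => rw [← Real.rpow_one K0]
    exact Real.rpow_le_rpow_of_exponent_le hK1 hκ1.le
  have hKk' : K0 ^ (1 - κ) ≤ K0 := by
    conv_rhs => rw [← Real.rpow_one K0]
    exact Real.rpow_le_rpow_of_exponent_le hK1 (by linarith)
  refine h0.trans ?_
  have hdn : 0 ≤ D ^ κ := Real.rpow_nonneg hD _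
  have hdn' : 0 ≤ D' ^ κ := Real.rpow_nonneg hD' _
  have hKc : 0 ≤ 2 * K0 / c := by positivity
  have hKc2 : 0 ≤ 2 / c := by positivity
  have hT3 : 0 ≤ Z⁻¹ * (w * D) := by positivity
  have hT1 : 0 ≤ Z ^ (-(1 - κ)) * (w * psi s D + w' * psi s D') := by positivity
  have hT2 : 0 ≤ X ^ (-(2 * κ - 1)) * (w' * psi s D') := by positivity
  by_cases hD'K : D' ≤ K0
  · have hd' : D' ^ κ ≤ K0 :=
      (Real.rpow_le_rpow hD' hD'K (by linarith)).trans hKk
    by_cases hDK : 1 / K0 ≤ D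
    · -- natural or large `D`
      have hD0 : 0 < D := lt_of_lt_of_le (by positivity) hDK
      have hd : D ^ κ ≤ K0 * D := by
        have h4 : D ^ κ = D * D ^ (κ - 1) := by
          conv_lhs => rw [show κ = 1 + (κ - 1) by ring, Real.rpow_add hD0, Real.rpow_one]
        have h5 : D ^ (κ - 1) ≤ (1 / K0) ^ (κ - 1) :=
          Real.rpow_le_rpow_of_nonpos (by positivity) hDK (by linarith)
        have h6 : (1 / K0) ^ (κ - 1) = K0 ^ (1 - κ) := by
          rw [one_div, Real.inv_rpow hK0.le, ← Real.rpow_neg hK0.le]; congr 1; ring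
        rw [h4, mul_comm]
        exact mul_le_mul_of_nonneg_right (h5.trans (h6.le.trans hKk')) hD
      have h7 : Z⁻¹ * X ^ (-(2 * κ)) * (D ^ κ * D' ^ κ) ≤ 2 * K0 ^ 2 * (Z⁻¹ * (w * D)) := by
        calc Z⁻¹ * X ^ (-(2 * κ)) * (D ^ κ * D' ^ κ)
            ≤ Z⁻¹ * (1 / X) * ((K0 * D) * K0) := by
              refine mul_le_mul ?_ ?_ (mul_nonneg hdn hdn') (by positivity)
              · exact mul_le_mul_of_nonneg_left hX2k hZi0.le
              · exact mul_le_mul hd hd' hdn' (by positivity)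
          _ ≤ Z⁻¹ * (2 * w) * ((K0 * D) * K0) := by
              refine mul_le_mul_of_nonneg_right ?_ (by positivity)
              exact mul_le_mul_of_nonneg_left hwX hZi0.le
          _ = _ := by ring
      refine h7.trans ?_
      have h8 : 2 * K0 ^ 2 * (Z⁻¹ * (w * D)) ≤ (2 * K0 ^ 2 + 2 * K0 / c + 2 / c) * (Z⁻¹ * (w * D)) :=
        mul_le_mul_of_nonneg_right (by linarith) hT3
      refine h8.trans (mul_le_mul_of_nonneg_left ?_ (by positivity))
      linarith
    · push Not at hDK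
      have hd : D ^ κ ≤ 1 := by
        have h9 : 1 / K0 ≤ 1 := by rw [div_le_one hK0]; exact hK1
        exact Real.rpow_le_one hD (hDK.le.trans h9) (by linarith)
      have hps := hsmall D hD hDK.le
      have h7 : Z⁻¹ * X ^ (-(2 * κ)) * (D ^ κ * D' ^ κ) ≤
          2 * K0 / c * (Z ^ (-(1 - κ)) * (w * psi s D)) := by
        calc Z⁻¹ * X ^ (-(2 * κ)) * (D ^ κ * D' ^ κ)
            ≤ Z ^ (-(1 - κ)) * (1 / X) * (1 * K0) := by
              refine mul_le_mul ?_ ?_ (mul_nonneg hdn hdn') (by positivity)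
              · exact mul_le_mul hZi hX2k hX2k0.le hZk.le
              · exact mul_le_mul hd hd' hdn' (by norm_num)
          _ ≤ Z ^ (-(1 - κ)) * (2 * w) * (1 * K0) := by
              refine mul_le_mul_of_nonneg_right ?_ (by positivity)
              exact mul_le_mul_of_nonneg_left hwX hZk.le
          _ = 2 * K0 / c * (Z ^ (-(1 - κ)) * (w * c)) := by field_simp
          _ ≤ _ := by
              refine mul_le_mul_of_nonneg_left ?_ hKc
              refine mul_le_mul_of_nonneg_left ?_ hZk.le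
              exact mul_le_mul_of_nonneg_left hps hw.le
      refine h7.trans ?_
      have h10 : Z ^ (-(1 - κ)) * (w * psi s D) ≤
          Z ^ (-(1 - κ)) * (w * psi s D + w' * psi s D') :=
        mul_le_mul_of_nonneg_left (by linarith) hZk.le
      have h11 : 2 * K0 / c ≤ 2 * K0 ^ 2 + 2 * K0 / c + 2 / c := by
        have : 0 ≤ 2 * K0 ^ 2 := by positivity
        linarith
      refine mul_le_mul h11 (by linarith) (mul_nonneg hZk.le hE) (by positivity)
  · push Not at hD'K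
    have hD'0 : 0 < D' := by linarith
    have hps' := hbig D' hD'K.le
    by_cases hDK : D ≤ K0
    · have hd : D ^ κ ≤ K0 := (Real.rpow_le_rpow hD hDK (by linarith)).trans hKk
      have hd' : D' ^ κ ≤ D' := by
        conv_rhs => rw [← Real.rpow_one D']
        exact Real.rpow_le_rpow_of_exponent_le (by linarith) hκ1.le
      have h12 : Z⁻¹ * X ^ (-(2 * κ)) = X ^ (-(2 * κ - 1)) * (1 / (X * Z)) := by
        have h13 : X ^ (-(2 * κ - 1)) = X ^ (-(2 * κ)) * X := by
          conv_rhs => rw [← Real.rpow_one X]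
          rw [← Real.rpow_mul hX0.le, one_mul, ← Real.rpow_add hX0]
          congr 1; ring
        rw [h13]
        field_simp
      have h7 : Z⁻¹ * X ^ (-(2 * κ)) * (D ^ κ * D' ^ κ) ≤
          2 * K0 / c * (X ^ (-(2 * κ - 1)) * (w' * psi s D')) := by
        calc Z⁻¹ * X ^ (-(2 * κ)) * (D ^ κ * D' ^ κ)
            ≤ X ^ (-(2 * κ - 1)) * (1 / (X * Z)) * (K0 * D') := by
              rw [h12]
              refine mul_le_mul_of_nonneg_left ?_ (by positivity)
              exact mul_le_mul hd hd' hdn' hK0.le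
          _ ≤ X ^ (-(2 * κ - 1)) * (2 * w') * (K0 * D') := by
              refine mul_le_mul_of_nonneg_right ?_ (by positivity)
              exact mul_le_mul_of_nonneg_left hwX' hXk.le
          _ = 2 * K0 / c * (X ^ (-(2 * κ - 1)) * (w' * (c * D'))) := by field_simp
          _ ≤ _ := by
              refine mul_le_mul_of_nonneg_left ?_ hKc
              refine mul_le_mul_of_nonneg_left ?_ hXk.le
              exact mul_le_mul_of_nonneg_left hps' hw'.le
      refine h7.trans ?_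
      have h11 : 2 * K0 / c ≤ 2 * K0 ^ 2 + 2 * K0 / c + 2 / c := by
        have : 0 ≤ 2 * K0 ^ 2 := by positivity
        linarith
      refine mul_le_mul h11 (by linarith) hT2 (by positivity)
    · push Not at hDK
      have hD0 : 0 < D := by linarith
      have hps := hbig D hDK.le
      have hy0 : 0 ≤ w * D := by positivity
      have hy0' : 0 ≤ w' * D' := by positivity
      have hDy : D ≤ 2 * X * (w * D) := by
        have h1 : 1 ≤ 2 * X * w := by
          rw [div_le_iff₀ (by positivity)] at hw2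
          linarith
        calc D = 1 * D := (one_mul D).symm
          _ ≤ (2 * X * w) * D := mul_le_mul_of_nonneg_right h1 hD
          _ = _ := by ring
      have hDy' : D' ≤ 2 * (X * Z) * (w' * D') := by
        have h1 : 1 ≤ 2 * (X * Z) * w' := by
          rw [div_le_iff₀ (by positivity)] at hw2'
          linarith
        calc D' = 1 * D' := (one_mul D').symm
          _ ≤ (2 * (X * Z) * w') * D' := mul_le_mul_of_nonneg_right h1 hD'
          _ = _ := by ring
      have hyk : (w * D) ^ κ * (w' * D') ^ κ ≤ (w * D + w' * D') / 2 := by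
        rw [← Real.mul_rpow hy0 hy0']
        have h1 : (w * D * (w' * D')) ^ κ ≤ (w * D * (w' * D')) ^ (1 / 2 : ℝ) := by
          rcases eq_or_lt_of_le (mul_nonneg hy0 hy0') with h2 | h2
          · rw [← h2, Real.zero_rpow (by linarith), Real.zero_rpow (by norm_num)]
          · exact Real.rpow_le_rpow_of_exponent_ge h2 (mul_le_one₀ hy hy0' hy') hκ.le
        refine h1.trans ?_
        rw [← Real.sqrt_eq_rpow]
        rw [Real.sqrt_le_left (by positivity)]
        nlinarith [sq_nonneg (w * D - w' * D')]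
      have hdk : D ^ κ ≤ 2 * X ^ κ * (w * D) ^ κ := by
        have h1 : D ^ κ ≤ (2 * X * (w * D)) ^ κ := Real.rpow_le_rpow hD hDy (by linarith)
        rw [Real.mul_rpow (by positivity) hy0, Real.mul_rpow (by norm_num) hX0.le] at h1
        have h2 : (2 : ℝ) ^ κ ≤ 2 := by
          conv_rhs => rw [← Real.rpow_one (2 : ℝ)]
          exact Real.rpow_le_rpow_of_exponent_le (by norm_num) hκ1.le
        refine h1.trans ?_
        have h3 : 0 ≤ X ^ κ * (w * D) ^ κ := by positivity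
        nlinarith
      have hdk' : D' ^ κ ≤ 2 * (X ^ κ * Z ^ κ) * (w' * D') ^ κ := by
        have h1 : D' ^ κ ≤ (2 * (X * Z) * (w' * D')) ^ κ := Real.rpow_le_rpow hD' hDy' (by linarith)
        rw [Real.mul_rpow (by positivity) hy0', Real.mul_rpow (by norm_num) (by positivity),
          Real.mul_rpow hX0.le hZ0.le] at h1
        have h2 : (2 : ℝ) ^ κ ≤ 2 := by
          conv_rhs => rw [← Real.rpow_one (2 : ℝ)]
          exact Real.rpow_le_rpow_of_exponent_le (by norm_num) hκ1.le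
        refine h1.trans ?_
        have h3 : 0 ≤ X ^ κ * Z ^ κ * (w' * D') ^ κ := by positivity
        nlinarith
      have hXX : X ^ (-(2 * κ)) * (X ^ κ * X ^ κ) = 1 := by
        rw [← Real.rpow_add hX0, ← Real.rpow_add hX0]
        have : -(2 * κ) + (κ + κ) = 0 := by ring
        rw [this, Real.rpow_zero]
      have hZZ : Z⁻¹ * Z ^ κ = Z ^ (-(1 - κ)) := by
        rw [← Real.rpow_neg_one, ← Real.rpow_add hZ0]; congr 1; ring
      have h7 : Z⁻¹ * X ^ (-(2 * κ)) * (D ^ κ * D' ^ κ) ≤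
          2 / c * (Z ^ (-(1 - κ)) * (w * psi s D + w' * psi s D')) := by
        calc Z⁻¹ * X ^ (-(2 * κ)) * (D ^ κ * D' ^ κ)
            ≤ Z⁻¹ * X ^ (-(2 * κ)) *
              ((2 * X ^ κ * (w * D) ^ κ) * (2 * (X ^ κ * Z ^ κ) * (w' * D') ^ κ)) := by
              refine mul_le_mul_of_nonneg_left ?_ (by positivity)
              exact mul_le_mul hdk hdk' hdn' (by positivity)
          _ = 4 * (X ^ (-(2 * κ)) * (X ^ κ * X ^ κ)) * (Z⁻¹ * Z ^ κ) *
              ((w * D) ^ κ * (w' * D') ^ κ) := by ring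
          _ = 4 * Z ^ (-(1 - κ)) * ((w * D) ^ κ * (w' * D') ^ κ) := by rw [hXX, hZZ]; ring
          _ ≤ 4 * Z ^ (-(1 - κ)) * ((w * D + w' * D') / 2) :=
              mul_le_mul_of_nonneg_left hyk (by positivity)
          _ = 2 / c * (Z ^ (-(1 - κ)) * (w * (c * D) + w' * (c * D'))) := by field_simp; ring
          _ ≤ _ := by
              refine mul_le_mul_of_nonneg_left ?_ hKc2
              refine mul_le_mul_of_nonneg_left ?_ hZk.le
              exact add_le_add (mul_le_mul_of_nonneg_left hps hw.le)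
                (mul_le_mul_of_nonneg_left hps' hw'.le)
      refine h7.trans ?_
      have h11 : 2 / c ≤ 2 * K0 ^ 2 + 2 * K0 / c + 2 / c := by
        have : 0 ≤ 2 * K0 ^ 2 := by positivity
        linarith
      refine mul_le_mul h11 (by linarith) hT1 (by positivity)

end Crest.Agent.R4C.LNx581
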