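import Crest.Agent.R4C.LN_581

/-!
# Row 4: LEMMA LN (note 2673 (1)), part 2: the one-prime inequality (helper581)
-/

set_option autoImplicit false

open Finset

namespace Crest.Agent.R4C.LNx581

open Crest.Agent.R4C.Basex935 Crest.Agent.R4C.PrefixMx882

/-! ### Geometric sums -/

lemma geo_r {r : ℝ} (h0 : 0 ≤ r) (h1 : r < 1) (n : ℕ) : ∑ i ∈ range n, r ^ (i + 1) ≤ r / (1 - r) := by
  have h2 : ∑ i ∈ range n, r ^ (i + 1) = r * ∑ i ∈ range n, r ^ i := by
    rw [mul_sum]; exact sum_congr rfl fun i _ => by ring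
  have h3 : ∑ i ∈ range n, r ^ i ≤ 1 / (1 - r) := by
    have h4 : (∑ i ∈ range n, r ^ i) * (1 - r) = 1 - r ^ n := geom_sum_mul_neg r n
    rw [le_div_iff₀ (by linarith), h4]
    have : 0 ≤ r ^ n := pow_nonneg h0 n
    linarith
  rw [h2]
  calc r * ∑ i ∈ range n, r ^ i ≤ r * (1 / (1 - r)) := mul_le_mul_of_nonneg_left h3 h0
    _ = _ := by ring

lemma geo_0 {r : ℝ} (h0 : 0 ≤ r) (h1 : r < 1) (n : ℕ) : ∑ i ∈ range n, r ^ i ≤ 1 / (1 - r) := by
  have h4 : (∑ i ∈ range n, r ^ i) * (1 - r) = 1 - r ^ n := geom_sum_mul_neg r n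
  rw [le_div_iff₀ (by linarith), h4]
  have : 0 ≤ r ^ n := pow_nonneg h0 n
  linarith

lemma geo_gt {r : ℝ} (h0 : 0 ≤ r) (h1 : r < 1) (v N : ℕ) :
    ∑ v' ∈ range N, (if v < v' then r ^ (v' - v) else 0) ≤ r / (1 - r) := by
  rw [← sum_filter]
  have e : (range N).filter (fun v' => v < v') = Ico (v + 1) N := by
    ext x; simp only [mem_filter, mem_range, mem_Ico]; omega
  rw [e, sum_Ico_eq_sum_range]
  refine le_trans (le_of_eq ?_) (geo_r h0 h1 (N - (v + 1)))
  refine sum_congr rfl fun i _ => ?_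
  congr 1; omega

lemma geo_lt {r : ℝ} (h0 : 0 ≤ r) (h1 : r < 1) (v' N : ℕ) :
    ∑ v ∈ range N, (if v < v' then r ^ (v' - v) else 0) ≤ r / (1 - r) := by
  rw [← sum_filter]
  have e : (range N).filter (fun v => v < v') ⊆ range v' := by
    intro x; simp only [mem_filter, mem_range]; exact fun h => h.2
  refine (sum_le_sum_of_subset_of_nonneg e fun i _ _ => pow_nonneg h0 _).trans ?_
  have h2 : ∑ v ∈ range v', r ^ (v' - v) = ∑ i ∈ range v', r ^ (i + 1) := by
    rw [← sum_range_reflect (fun i => r ^ (i + 1)) v']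
    refine sum_congr rfl fun i hi => ?_
    rw [mem_range] at hi
    congr 1; omega
  rw [h2]
  exact geo_r h0 h1 v'

/-! ### The node of one prime -/

/-- cross energy of a node with child masses `d v` -/
noncomputable def node (κ : ℝ) (q a : ℕ) (d : ℕ → ℝ) (Γ : ℝ) : ℝ :=
  if ∑ v ∈ range (a + 1), nup q a v * d v ≤ Γ then
    ∑ v ∈ range (a + 1), ∑ v' ∈ range (a + 1), (if v = v' then 0 else
      ((q : ℝ) ^ (min v v')) ^ (2 * (1 - κ)) * (nup q a v * nup q a v') * (d v * d v') ^ κ *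
        (∑ v ∈ range (a + 1), nup q a v * d v) ^ (1 - 2 * κ))
  else 0

lemma nup_pos' {q a v : ℕ} (hq : 2 ≤ q) (hv : v ≤ a) : 1 / (2 * (q : ℝ) ^ v) ≤ nup q a v := by
  have h1 := nup_ge (by omega : 0 < q) a v hv
  have hq2 : (2 : ℝ) ≤ q := by exact_mod_cast hq
  have h2 : (1 : ℝ) / q ≤ 1 / 2 := one_div_le_one_div_of_le (by norm_num) hq2
  have h3 : (1 / (q : ℝ)) ^ v = 1 / (q : ℝ) ^ v := by rw [one_div_pow]
  have h4 : (0 : ℝ) < 1 / (q : ℝ) ^ v := by positivity
  rw [h3] at h1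
  have h5 : 1 / (2 * (q : ℝ) ^ v) = 1 / 2 * (1 / (q : ℝ) ^ v) := by field_simp
  rw [h5]
  refine le_trans ?_ h1
  exact mul_le_mul_of_nonneg_right (by linarith) h4.le

lemma nup_le' {q a v : ℕ} (hq : 2 ≤ q) (hv : v ≤ a) : nup q a v ≤ 1 / (q : ℝ) ^ v := by
  have h1 := nup_le (by omega : 0 < q) a v hv
  rwa [one_div_pow] at h1

lemma nup_pos {q a v : ℕ} (hq : 2 ≤ q) (hv : v ≤ a) : 0 < nup q a v := by
  have hq2 : (0 : ℝ) < q := by exact_mod_cast (by omega : 0 < q)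
  exact lt_of_lt_of_le (by positivity) (nup_pos' hq hv)

/-- entropy form: `δ^{1-s} - ∑ ν d^{1-s} = δ^{1-s} ∑ ν ψ(d/δ)` -/
lemma ent_eq {s : ℝ} (q a : ℕ) (d : ℕ → ℝ) (hd : ∀ v, 0 ≤ d v)
    (hδ : 0 < ∑ v ∈ range (a + 1), nup q a v * d v) :
    (∑ v ∈ range (a + 1), nup q a v * d v) ^ (1 - s) -
      ∑ v ∈ range (a + 1), nup q a v * d v ^ (1 - s) =
    (∑ v ∈ range (a + 1), nup q a v * d v) ^ (1 - s) *
      ∑ v ∈ range (a + 1), nup q a v * psi s (d v / (∑ v ∈ range (a + 1), nup q a v * d v)) := by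
  set δ := ∑ v ∈ range (a + 1), nup q a v * d v with hδd
  have hp : 0 < δ ^ (1 - s) := Real.rpow_pos_of_pos hδ _
  have h1 : ∑ v ∈ range (a + 1), nup q a v * psi s (d v / δ) =
      (1 - s) * (δ / δ) + s * 1 - (∑ v ∈ range (a + 1), nup q a v * d v ^ (1 - s)) / δ ^ (1 - s) := by
    have h2 : ∀ v ∈ range (a + 1), nup q a v * psi s (d v / δ) =
        (1 - s) * (nup q a v * d v / δ) + s * nup q a v -
          nup q a v * d v ^ (1 - s) / δ ^ (1 - s) := by
      intro v _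
      unfold psi
      rw [Real.div_rpow (hd v) hδ.le]
      ring
    rw [sum_congr rfl h2, sum_sub_distrib, sum_add_distrib, ← mul_sum, ← mul_sum, ← sum_div,
      ← sum_div, nup_total, ← hδd]
  rw [h1, div_self hδ.ne']
  field_simp
  ring

lemma ent_nonneg {s : ℝ} (hs0 : 0 < s) (hs1 : s < 1) {q : ℕ} (hq : 2 ≤ q) (a : ℕ) (d : ℕ → ℝ)
    (hd : ∀ v, 0 ≤ d v) :
    0 ≤ (∑ v ∈ range (a + 1), nup q a v * d v) ^ (1 - s) -
      ∑ v ∈ range (a + 1), nup q a v * d v ^ (1 - s) := by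
  have h0 : 0 ≤ ∑ v ∈ range (a + 1), nup q a v * d v :=
    sum_nonneg fun v hv => mul_nonneg (nup_pos hq (by rw [mem_range] at hv; omega)).le (hd v)
  rcases eq_or_lt_of_le h0 with h | h
  · have h1 : ∀ v ∈ range (a + 1), nup q a v * d v = 0 := by
      rw [eq_comm, sum_eq_zero_iff_of_nonneg] at h
      · exact h
      · exact fun v hv => mul_nonneg (nup_pos hq (by rw [mem_range] at hv; omega)).le (hd v)
    have h2 : ∑ v ∈ range (a + 1), nup q a v * d v ^ (1 - s) = 0 := by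
      refine sum_eq_zero fun v hv => ?_
      have h3 : nup q a v ≠ 0 := (nup_pos hq (by rw [mem_range] at hv; omega)).ne'
      have h4 : d v = 0 := by
        rcases mul_eq_zero.1 (h1 v hv) with h5 | h5
        · exact absurd h5 h3
        · exact h5
      rw [h4, Real.zero_rpow (by linarith), mul_zero]
    rw [h2, sub_zero]
    exact Real.rpow_nonneg h0 _
  · rw [ent_eq q a d hd h]
    refine mul_nonneg (Real.rpow_nonneg h.le _) (sum_nonneg fun v hv => ?_)
    exact mul_nonneg (nup_pos hq (by rw [mem_range] at hv; omega)).le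
      (psi_nonneg hs0 hs1 (div_nonneg (hd v) h.le))


/-- the weight of a pair of exponents at one prime -/
noncomputable def tau (κ : ℝ) (q a : ℕ) (D : ℕ → ℝ) (v v' : ℕ) : ℝ :=
  ((q : ℝ) ^ (min v v')) ^ (2 * (1 - κ)) * (nup q a v * nup q a v') * (D v * D v') ^ κ

lemma tau_comm (κ : ℝ) (q a : ℕ) (D : ℕ → ℝ) (v v' : ℕ) : tau κ q a D v v' = tau κ q a D v' v := by
  unfold tau; rw [min_comm v v', mul_comm (nup q a v), mul_comm (D v)]

lemma sum_ne {N : ℕ} (F : ℕ → ℕ → ℝ) (hF : ∀ v v', F v v' = F v' v) :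
    ∑ v ∈ range N, ∑ v' ∈ range N, (if v = v' then 0 else F v v') =
      2 * ∑ v ∈ range N, ∑ v' ∈ range N, (if v < v' then F v v' else 0) := by
  have h1 : ∀ v v', (if v = v' then (0 : ℝ) else F v v') =
      (if v < v' then F v v' else 0) + (if v' < v then F v' v else 0) := by
    intro v v'
    rcases lt_trichotomy v v' with h | h | h
    · rw [if_neg h.ne, if_pos h, if_neg (by omega), add_zero]
    · rw [if_pos h, if_neg (by omega), if_neg (by omega), add_zero]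
    · rw [if_neg h.ne', if_neg (by omega), if_pos h, zero_add, hF]
  have h2 : ∑ v ∈ range N, ∑ v' ∈ range N, (if v' < v then F v' v else 0) =
      ∑ v ∈ range N, ∑ v' ∈ range N, (if v < v' then F v v' else 0) := sum_comm
  calc ∑ v ∈ range N, ∑ v' ∈ range N, (if v = v' then 0 else F v v')
      = ∑ v ∈ range N, ∑ v' ∈ range N,
          ((if v < v' then F v v' else 0) + (if v' < v then F v' v else 0)) :=
        sum_congr rfl fun v _ => sum_congr rfl fun v' _ => h1 v v'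
    _ = ∑ v ∈ range N, (∑ v' ∈ range N, (if v < v' then F v v' else 0) +
          ∑ v' ∈ range N, (if v' < v then F v' v else 0)) :=
        sum_congr rfl fun v _ => sum_add_distrib
    _ = ∑ v ∈ range N, ∑ v' ∈ range N, (if v < v' then F v v' else 0) +
          ∑ v ∈ range N, ∑ v' ∈ range N, (if v' < v then F v' v else 0) := sum_add_distrib
    _ = _ := by rw [h2, two_mul]

/-- one ordered pair of exponents -/
lemma tau_le {κ s K : ℝ} (hκ : 1 / 2 < κ) (hκ1 : κ < 1) (hs0 : 0 < s) (hs1 : s < 1) (hK : 0 < K)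
    (hpair : ∀ X Z w w' D D' : ℝ, 1 ≤ X → 1 ≤ Z → 0 < w → 0 < w' →
      w ≤ 1 / X → 1 / (2 * X) ≤ w → w' ≤ 1 / (X * Z) → 1 / (2 * (X * Z)) ≤ w' →
      0 ≤ D → 0 ≤ D' → w * D ≤ 1 → w' * D' ≤ 1 →
      X ^ (2 * (1 - κ)) * (w * w') * (D * D') ^ κ ≤
        K * (Z ^ (-(1 - κ)) * (w * psi s D + w' * psi s D') + X ^ (-(2 * κ - 1)) * (w' * psi s D') +
          Z⁻¹ * (w * D)))
    {q a : ℕ} (hq : 2 ≤ q) {D : ℕ → ℝ} (hD : ∀ v, 0 ≤ D v)
    (hD1 : ∀ v ∈ range (a + 1), nup q a v * D v ≤ 1) {v v' : ℕ} (hv : v < v') (hv' : v' ≤ a) :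
    tau κ q a D v v' ≤ K * (((2 : ℝ) ^ (-(1 - κ))) ^ (v' - v) *
      (nup q a v * psi s (D v) + nup q a v' * psi s (D v')) +
      ((2 : ℝ) ^ (-(2 * κ - 1))) ^ v * (nup q a v' * psi s (D v')) +
      (1 / (q : ℝ)) ^ (v' - v) * (nup q a v * D v)) := by
  have hq2 : (2 : ℝ) ≤ q := by exact_mod_cast hq
  have hq0 : (0 : ℝ) < q := by linarith
  have hX : (1 : ℝ) ≤ (q : ℝ) ^ v := one_le_pow₀ (by linarith)
  have hZ : (1 : ℝ) ≤ (q : ℝ) ^ (v' - v) := one_le_pow₀ (by linarith)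
  have hXZ : (q : ℝ) ^ v * (q : ℝ) ^ (v' - v) = (q : ℝ) ^ v' := by
    rw [← pow_add]; congr 1; omega
  have hw := nup_pos hq (show v ≤ a by omega)
  have hw' := nup_pos hq hv'
  have h := hpair ((q : ℝ) ^ v) ((q : ℝ) ^ (v' - v)) (nup q a v) (nup q a v') (D v) (D v') hX hZ
    hw hw' (nup_le' hq (by omega)) (nup_pos' hq (by omega)) (by rw [hXZ]; exact nup_le' hq hv')
    (by rw [hXZ]; exact nup_pos' hq hv') (hD v) (hD v') (hD1 v (by rw [mem_range]; omega))
    (hD1 v' (by rw [mem_range]; omega))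
  unfold tau
  rw [min_eq_left hv.le]
  refine h.trans (mul_le_mul_of_nonneg_left ?_ hK.le)
  have hE : 0 ≤ nup q a v * psi s (D v) := mul_nonneg hw.le (psi_nonneg hs0 hs1 (hD v))
  have hE' : 0 ≤ nup q a v' * psi s (D v') := mul_nonneg hw'.le (psi_nonneg hs0 hs1 (hD v'))
  have key : ∀ (k : ℕ) (e : ℝ), 0 < e → ((q : ℝ) ^ k) ^ (-e) ≤ ((2 : ℝ) ^ (-e)) ^ k := by
    intro k e he
    have h1 : ((2 : ℝ) ^ (-e)) ^ k = ((2 : ℝ) ^ k) ^ (-e) := by
      rw [← Real.rpow_natCast, ← Real.rpow_mul (by norm_num), ← Real.rpow_natCast (2 : ℝ) k,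
        ← Real.rpow_mul (by norm_num), mul_comm]
    rw [h1]
    refine Real.rpow_le_rpow_of_nonpos (by positivity) ?_ (by linarith)
    exact pow_le_pow_left₀ (by norm_num) hq2 k
  have h1 := key (v' - v) (1 - κ) (by linarith)
  have h2 := key v (2 * κ - 1) (by linarith)
  have h3 : ((q : ℝ) ^ (v' - v))⁻¹ = (1 / (q : ℝ)) ^ (v' - v) := by
    rw [one_div_pow, one_div]
  rw [h3]
  refine add_le_add (add_le_add ?_ ?_) le_rfl
  · exact mul_le_mul_of_nonneg_right h1 (by linarith)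
  · exact mul_le_mul_of_nonneg_right h2 hE'

set_option maxHeartbeats 1000000 in
/-- the sum over the pairs of exponents -/
theorem tau_sum {κ s : ℝ} (hκ : 1 / 2 < κ) (hκ1 : κ < 1) (hs0 : 0 < s) (hs1 : s < 1) :
    ∃ C : ℝ, 0 < C ∧ ∀ (q a : ℕ) (D : ℕ → ℝ), 2 ≤ q → (∀ v, 0 ≤ D v) →
      (∀ v ∈ range (a + 1), nup q a v * D v ≤ 1) →
      ∑ v ∈ range (a + 1), ∑ v' ∈ range (a + 1), (if v = v' then 0 else tau κ q a D v v') ≤
        C * (∑ v ∈ range (a + 1), nup q a v * psi s (D v) +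
          1 / (q : ℝ) * ∑ v ∈ range a, nup q a v * D v) := by
  obtain ⟨K, hK, hpair⟩ := pair_bound hκ hκ1 hs0 hs1
  set r : ℝ := (2 : ℝ) ^ (-(1 - κ)) with hr
  set ρ : ℝ := (2 : ℝ) ^ (-(2 * κ - 1)) with hρ
  have hr0 : 0 < r := Real.rpow_pos_of_pos (by norm_num) _
  have hρ0 : 0 < ρ := Real.rpow_pos_of_pos (by norm_num) _
  have hr1 : r < 1 := Real.rpow_lt_one_of_one_lt_of_neg (by norm_num) (by linarith)
  have hρ1 : ρ < 1 := Real.rpow_lt_one_of_one_lt_of_neg (by norm_num) (by linarith)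
  have h1 : 0 < r / (1 - r) := div_pos hr0 (by linarith)
  have h2 : 0 < 1 / (1 - ρ) := div_pos one_pos (by linarith)
  set C1 : ℝ := 2 * (r / (1 - r)) + 1 / (1 - ρ) + 2 with hC1
  have hC1p : 0 < C1 := by rw [hC1]; linarith
  refine ⟨2 * K * C1, by positivity, ?_⟩
  intro q a D hq hD hD1
  have hq2 : (2 : ℝ) ≤ q := by exact_mod_cast hq
  have hq0 : (0 : ℝ) < q := by linarith
  have hqi : 1 / (q : ℝ) ≤ 1 / 2 := one_div_le_one_div_of_le (by norm_num) hq2
  have hqi0 : 0 < 1 / (q : ℝ) := by positivity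
  set E : ℕ → ℝ := fun v => nup q a v * psi s (D v) with hE
  set Y : ℕ → ℝ := fun v => nup q a v * D v with hY
  have hE0 : ∀ v ∈ range (a + 1), 0 ≤ E v := fun v hv =>
    mul_nonneg (nup_pos hq (by rw [mem_range] at hv; omega)).le (psi_nonneg hs0 hs1 (hD v))
  have hY0 : ∀ v ∈ range (a + 1), 0 ≤ Y v := fun v hv =>
    mul_nonneg (nup_pos hq (by rw [mem_range] at hv; omega)).le (hD v)
  rw [sum_ne (fun v v' => tau κ q a D v v') (fun v v' => tau_comm κ q a D v v')]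
  set N := a + 1 with hN
  have hstep : ∀ v ∈ range N, ∀ v' ∈ range N, (if v < v' then tau κ q a D v v' else 0) ≤
      K * ((if v < v' then r ^ (v' - v) else 0) * E v + (if v < v' then r ^ (v' - v) else 0) * E v' +
        ρ ^ v * E v' + (if v < v' then (1 / (q : ℝ)) ^ (v' - v) else 0) * Y v) := by
    intro v hv v' hv'
    have hEv := hE0 v' hv'
    split_ifs with h
    · have h3 := tau_le hκ hκ1 hs0 hs1 hK hpair hq hD hD1 h (by rw [mem_range] at hv'; omega)
      refine h3.trans (le_of_eq ?_)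
      simp only [hE, hY]
      ring
    · have : 0 ≤ ρ ^ v * E v' := mul_nonneg (pow_nonneg hρ0.le _) hEv
      have h4 : K * (0 * E v + 0 * E v' + ρ ^ v * E v' + 0 * Y v) = K * (ρ ^ v * E v') := by ring
      rw [h4]
      positivity
  have hA : ∑ v ∈ range N, ∑ v' ∈ range N, (if v < v' then r ^ (v' - v) else 0) * E v ≤
      r / (1 - r) * ∑ v ∈ range N, E v := by
    rw [mul_sum]
    refine sum_le_sum fun v hv => ?_
    rw [← sum_mul]
    exact mul_le_mul_of_nonneg_right (geo_gt hr0.le hr1 v N) (hE0 v hv)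
  have hB : ∑ v ∈ range N, ∑ v' ∈ range N, (if v < v' then r ^ (v' - v) else 0) * E v' ≤
      r / (1 - r) * ∑ v ∈ range N, E v := by
    rw [sum_comm, mul_sum]
    refine sum_le_sum fun v' hv' => ?_
    rw [← sum_mul]
    exact mul_le_mul_of_nonneg_right (geo_lt hr0.le hr1 v' N) (hE0 v' hv')
  have hC : ∑ v ∈ range N, ∑ v' ∈ range N, ρ ^ v * E v' ≤ 1 / (1 - ρ) * ∑ v ∈ range N, E v := by
    rw [sum_comm, mul_sum]
    refine sum_le_sum fun v' hv' => ?_
    rw [← sum_mul]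
    exact mul_le_mul_of_nonneg_right (geo_0 hρ0.le hρ1 N) (hE0 v' hv')
  have hDD : ∑ v ∈ range N, ∑ v' ∈ range N,
      (if v < v' then (1 / (q : ℝ)) ^ (v' - v) else 0) * Y v ≤
      2 * (1 / (q : ℝ) * ∑ v ∈ range a, Y v) := by
    have h5 : ∑ v ∈ range N, ∑ v' ∈ range N,
        (if v < v' then (1 / (q : ℝ)) ^ (v' - v) else 0) * Y v =
        ∑ v ∈ range a, ∑ v' ∈ range N, (if v < v' then (1 / (q : ℝ)) ^ (v' - v) else 0) * Y v := by
      rw [hN, sum_range_succ, add_eq_left]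
      refine sum_eq_zero fun v' hv' => ?_
      rw [mem_range] at hv'
      rw [if_neg (by omega), zero_mul]
    rw [h5, mul_sum, mul_sum]
    refine sum_le_sum fun v hv => ?_
    rw [mem_range] at hv
    rw [← sum_mul]
    have h6 := geo_gt hqi0.le (by linarith : 1 / (q : ℝ) < 1) v N
    have h7 : 1 / (q : ℝ) / (1 - 1 / (q : ℝ)) ≤ 2 * (1 / (q : ℝ)) := by
      rw [div_le_iff₀ (by linarith)]
      nlinarith
    have h8 := hY0 v (by rw [mem_range]; omega)
    calc _ ≤ 2 * (1 / (q : ℝ)) * Y v := mul_le_mul_of_nonneg_right (h6.trans h7) h8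
      _ = _ := by ring
  have hsum : ∑ v ∈ range N, ∑ v' ∈ range N, (if v < v' then tau κ q a D v v' else 0) ≤
      K * (2 * (r / (1 - r)) * ∑ v ∈ range N, E v + 1 / (1 - ρ) * ∑ v ∈ range N, E v +
        2 * (1 / (q : ℝ) * ∑ v ∈ range a, Y v)) := by
    refine (sum_le_sum fun v hv => sum_le_sum fun v' hv' => hstep v hv v' hv').trans ?_
    simp only [← mul_sum, sum_add_distrib]
    refine mul_le_mul_of_nonneg_left ?_ hK.le
    have hC' : ∑ i ∈ range N, ∑ j ∈ range N, ρ ^ i * E j ≤ 1 / (1 - ρ) * ∑ v ∈ range N, E v := hC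
    simp only [← mul_sum] at hC'
    linarith
  have hEs : 0 ≤ ∑ v ∈ range N, E v := sum_nonneg hE0
  have hYs : 0 ≤ 1 / (q : ℝ) * ∑ v ∈ range a, Y v :=
    mul_nonneg hqi0.le (sum_nonneg fun v hv => hY0 v (by
      rw [mem_range] at hv ⊢; omega))
  calc 2 * ∑ v ∈ range N, ∑ v' ∈ range N, (if v < v' then tau κ q a D v v' else 0)
      ≤ 2 * (K * (2 * (r / (1 - r)) * ∑ v ∈ range N, E v + 1 / (1 - ρ) * ∑ v ∈ range N, E v +
        2 * (1 / (q : ℝ) * ∑ v ∈ range a, Y v))) := by linarith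
    _ ≤ 2 * (K * (C1 * ∑ v ∈ range N, E v + C1 * (1 / (q : ℝ) * ∑ v ∈ range a, Y v))) := by
        have h9 : 2 * (1 / (q : ℝ) * ∑ v ∈ range a, Y v) ≤
            C1 * (1 / (q : ℝ) * ∑ v ∈ range a, Y v) :=
          mul_le_mul_of_nonneg_right (by rw [hC1]; linarith) hYs
        have h10 : 2 * (r / (1 - r)) * ∑ v ∈ range N, E v + 1 / (1 - ρ) * ∑ v ∈ range N, E v ≤
            C1 * ∑ v ∈ range N, E v := by
          rw [← add_mul]
          exact mul_le_mul_of_nonneg_right (by rw [hC1]; linarith) hEs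
        have h11 := mul_le_mul_of_nonneg_left (add_le_add h10 h9) hK.le
        linarith
    _ = _ := by ring

/-- **one-prime inequality** -/
theorem one_prime {κ s : ℝ} (hκ : 1 / 2 < κ) (hκ1 : κ < 1) (hs0 : 0 < s) (hs1 : s < 1) :
    ∃ C : ℝ, 0 < C ∧ ∀ (q a : ℕ) (d : ℕ → ℝ) (Γ : ℝ), 2 ≤ q → (∀ v, 0 ≤ d v) → 0 ≤ Γ →
      node κ q a d Γ ≤ C * (Γ ^ s * ((∑ v ∈ range (a + 1), nup q a v * d v) ^ (1 - s) -
        ∑ v ∈ range (a + 1), nup q a v * d v ^ (1 - s)) +
        1 / (q : ℝ) * ∑ v ∈ range a, nup q a v * d v) := by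
  obtain ⟨C, hC, hmain⟩ := tau_sum hκ hκ1 hs0 hs1
  refine ⟨C, hC, ?_⟩
  intro q a d Γ hq hd hΓ0
  have hq0 : (0 : ℝ) < q := by exact_mod_cast (by omega : 0 < q)
  have hqi0 : 0 < 1 / (q : ℝ) := by positivity
  set δ := ∑ v ∈ range (a + 1), nup q a v * d v with hδ
  have hwp : ∀ v ∈ range (a + 1), 0 < nup q a v := fun v hv =>
    nup_pos hq (by rw [mem_range] at hv; omega)
  have hδ0 : 0 ≤ δ := sum_nonneg fun v hv => mul_nonneg (hwp v hv).le (hd v)
  have hent := ent_nonneg hs0 hs1 hq a d hd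
  rw [← hδ] at hent
  have hy0 : 0 ≤ 1 / (q : ℝ) * ∑ v ∈ range a, nup q a v * d v := by
    refine mul_nonneg hqi0.le (sum_nonneg fun v hv => mul_nonneg ?_ (hd v))
    exact nup_nonneg (by omega) _ _
  have hΓs : 0 ≤ Γ ^ s := Real.rpow_nonneg hΓ0 _
  have hR : 0 ≤ C * (Γ ^ s * (δ ^ (1 - s) - ∑ v ∈ range (a + 1), nup q a v * d v ^ (1 - s)) +
        1 / (q : ℝ) * ∑ v ∈ range a, nup q a v * d v) := by positivity
  unfold node
  rw [← hδ]
  split_ifs with hΓ
  swap
  · exact hR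
  rcases eq_or_lt_of_le hδ0 with h0 | hδp
  · -- zero mass
    have h1 : ∑ v ∈ range (a + 1), ∑ v' ∈ range (a + 1), (if v = v' then 0 else
      ((q : ℝ) ^ (min v v')) ^ (2 * (1 - κ)) * (nup q a v * nup q a v') * (d v * d v') ^ κ *
        δ ^ (1 - 2 * κ)) = 0 := by
      refine sum_eq_zero fun v _ => sum_eq_zero fun v' _ => ?_
      rw [← h0, Real.zero_rpow (by linarith : (1 - 2 * κ) ≠ 0), mul_zero, ite_self]
    rw [h1]
    exact hR
  · set D : ℕ → ℝ := fun v => d v / δ with hD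
    have hD0 : ∀ v, 0 ≤ D v := fun v => div_nonneg (hd v) hδp.le
    have hD1 : ∀ v ∈ range (a + 1), nup q a v * D v ≤ 1 := by
      intro v hv
      have h1 : nup q a v * d v ≤ δ :=
        single_le_sum (f := fun v => nup q a v * d v)
          (fun v hv => mul_nonneg (hwp v hv).le (hd v)) hv
      simp only [hD]
      rw [← mul_div_assoc, div_le_one hδp]
      exact h1
    have h1 : ∑ v ∈ range (a + 1), ∑ v' ∈ range (a + 1), (if v = v' then 0 else
      ((q : ℝ) ^ (min v v')) ^ (2 * (1 - κ)) * (nup q a v * nup q a v') * (d v * d v') ^ κ *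
        δ ^ (1 - 2 * κ)) =
        δ * ∑ v ∈ range (a + 1), ∑ v' ∈ range (a + 1), (if v = v' then 0 else tau κ q a D v v') := by
      rw [mul_sum]
      refine sum_congr rfl fun v _ => ?_
      rw [mul_sum]
      refine sum_congr rfl fun v' _ => ?_
      by_cases hvv : v = v'
      · rw [if_pos hvv, if_pos hvv, mul_zero]
      · rw [if_neg hvv, if_neg hvv]
        unfold tau
        have e1 : (d v * d v') ^ κ = δ ^ (2 * κ) * (D v * D v') ^ κ := by
          have e2 : d v * d v' = δ ^ (2 : ℝ) * (D v * D v') := by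
            simp only [hD]
            rw [Real.rpow_two]
            field_simp
          rw [e2, Real.mul_rpow (Real.rpow_nonneg hδp.le _) (mul_nonneg (hD0 v) (hD0 v')),
            ← Real.rpow_mul hδp.le]
        have e3 : δ ^ (2 * κ) * δ ^ (1 - 2 * κ) = δ := by
          rw [← Real.rpow_add hδp]
          have : 2 * κ + (1 - 2 * κ) = 1 := by ring
          rw [this, Real.rpow_one]
        rw [e1]
        calc _ = ((q : ℝ) ^ min v v') ^ (2 * (1 - κ)) * (nup q a v * nup q a v') *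
              (D v * D v') ^ κ * (δ ^ (2 * κ) * δ ^ (1 - 2 * κ)) := by ring
          _ = _ := by rw [e3]; ring
    rw [h1]
    have h2 := hmain q a D hq hD0 hD1
    have h3 := ent_eq (s := s) q a d hd (by rw [← hδ]; exact hδp)
    rw [← hδ] at h3
    have h4 : δ ≤ Γ ^ s * δ ^ (1 - s) := by
      have h5 : δ = δ ^ s * δ ^ (1 - s) := by
        rw [← Real.rpow_add hδp]
        have : s + (1 - s) = 1 := by ring
        rw [this, Real.rpow_one]
      calc δ = δ ^ s * δ ^ (1 - s) := h5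
        _ ≤ Γ ^ s * δ ^ (1 - s) :=
          mul_le_mul_of_nonneg_right (Real.rpow_le_rpow hδp.le hΓ hs0.le)
            (Real.rpow_nonneg hδp.le _)
    have hE : 0 ≤ ∑ v ∈ range (a + 1), nup q a v * psi s (D v) :=
      sum_nonneg fun v hv => mul_nonneg (hwp v hv).le (psi_nonneg hs0 hs1 (hD0 v))
    have h6 : δ * (1 / (q : ℝ) * ∑ v ∈ range a, nup q a v * D v) =
        1 / (q : ℝ) * ∑ v ∈ range a, nup q a v * d v := by
      simp only [hD]
      rw [← mul_assoc, mul_comm δ, mul_assoc, mul_sum]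
      congr 1
      refine sum_congr rfl fun v _ => ?_
      field_simp
    calc δ * ∑ v ∈ range (a + 1), ∑ v' ∈ range (a + 1), (if v = v' then 0 else tau κ q a D v v')
        ≤ δ * (C * (∑ v ∈ range (a + 1), nup q a v * psi s (D v) +
          1 / (q : ℝ) * ∑ v ∈ range a, nup q a v * D v)) := mul_le_mul_of_nonneg_left h2 hδp.le
      _ = C * (δ * ∑ v ∈ range (a + 1), nup q a v * psi s (D v) +
          δ * (1 / (q : ℝ) * ∑ v ∈ range a, nup q a v * D v)) := by ring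
      _ ≤ _ := by
          refine mul_le_mul_of_nonneg_left ?_ hC.le
          rw [h6, h3]
          refine add_le_add ?_ le_rfl
          rw [← mul_assoc]
          exact mul_le_mul_of_nonneg_right h4 hE

end Crest.Agent.R4C.LNx581
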