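import Crest.Agent.R4C.LNb_581

/-!
# Row 4: LEMMA LN (note 2673 (1)), part 3: the sum over the nodes (helper581)
-/

set_option autoImplicit false

open Finset

namespace Crest.Agent.R4C.LNx581

open Crest.Agent.R4C.Basex935 Crest.Agent.R4C.PrefixMx882

/-- part of `M` at the primes `> q` -/
def hi (q M : ℕ) : ℕ := ∏ p ∈ M.primeFactors.filter (fun p => q < p), p ^ M.factorization p

/-- part of `M` at the primes `< q` -/
def lo (q M : ℕ) : ℕ := ∏ p ∈ M.primeFactors.filter (fun p => p < q), p ^ M.factorization p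

/-- conditional mass of the child `v` of the node `(q, T)` -/
noncomputable def dch (q M : ℕ) (f : ℕ → ℝ) (T v : ℕ) : ℝ :=
  ∑ l ∈ (lo q M).divisors, nu (lo q M) l * f (T * q ^ v * l)

/-- mass -/
noncomputable def mass (M : ℕ) (f : ℕ → ℝ) : ℝ := ∑ b ∈ M.divisors, nu M b * f b

/-- the sum of the node costs over the nodes of conditional mass `≤ Γ` -/
noncomputable def LNs (κ Γ : ℝ) (M : ℕ) (f : ℕ → ℝ) : ℝ :=
  ∑ q ∈ M.primeFactors, ∑ T ∈ (hi q M).divisors,
    ((T : ℝ) * nu (hi q M) T ^ 2) * node κ q (M.factorization q) (dch q M f T) Γ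

lemma hi_pos (q M : ℕ) : 0 < hi q M :=
  prod_pos fun p hp => pow_pos (Nat.prime_of_mem_primeFactors (mem_filter.1 hp).1).pos _

lemma lo_pos (q M : ℕ) : 0 < lo q M :=
  prod_pos fun p hp => pow_pos (Nat.prime_of_mem_primeFactors (mem_filter.1 hp).1).pos _

lemma not_dvd_hi {p q M1 : ℕ} (hp : p.Prime) (hnd : ¬ p ∣ M1) : ¬ p ∣ hi q M1 := by
  intro h
  unfold hi at h
  rw [Prime.dvd_finsetProd_iff hp.prime] at h
  obtain ⟨r, hr, hpr⟩ := h
  have hr1 := (mem_filter.1 hr).1
  have h2 := (Nat.prime_dvd_prime_iff_eq hp (Nat.prime_of_mem_primeFactors hr1)).1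
    (hp.dvd_of_dvd_pow hpr)
  exact hnd (h2 ▸ Nat.dvd_of_mem_primeFactors hr1)

section split

variable {p a M1 : ℕ} (hp : p.Prime) (ha : 0 < a) (hM1 : 0 < M1) (hnd : ¬ p ∣ M1)
  (hlt : ∀ r, r.Prime → r ∣ M1 → r < p)

include hp ha hM1 hnd hlt

lemma pf_not_mem : p ∉ M1.primeFactors := fun hc => hnd (Nat.dvd_of_mem_primeFactors hc)

lemma pf_lt {r : ℕ} (hr : r ∈ M1.primeFactors) : r < p :=
  hlt r (Nat.prime_of_mem_primeFactors hr) (Nat.dvd_of_mem_primeFactors hr)

lemma hi_top : hi p (p ^ a * M1) = 1 := by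
  unfold hi
  rw [primeFactors_split hp ha hM1]
  have : (insert p M1.primeFactors).filter (fun r => p < r) = ∅ := by
    rw [filter_eq_empty_iff]
    intro r hr
    rw [mem_insert] at hr
    rcases hr with hr | hr
    · omega
    · have := pf_lt hp ha hM1 hnd hlt hr
      omega
  rw [this, prod_empty]

lemma lo_top : lo p (p ^ a * M1) = M1 := by
  unfold lo
  rw [primeFactors_split hp ha hM1]
  have : (insert p M1.primeFactors).filter (fun r => r < p) = M1.primeFactors := by
    ext r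
    rw [mem_filter, mem_insert]
    constructor
    · rintro ⟨h1 | h1, h2⟩
      · omega
      · exact h1
    · intro h1
      exact ⟨Or.inr h1, pf_lt hp ha hM1 hnd hlt h1⟩
  rw [this]
  conv_rhs => rw [← Nat.prod_factorization_pow_eq_self hM1.ne']
  unfold Finsupp.prod
  rw [Nat.support_factorization]
  refine prod_congr rfl fun r hr => ?_
  rw [fact_split_ne hp (pf_lt hp ha hM1 hnd hlt hr).ne a hM1.ne']

lemma hi_split {q : ℕ} (hq : q ∈ M1.primeFactors) : hi q (p ^ a * M1) = p ^ a * hi q M1 := by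
  unfold hi
  rw [primeFactors_split hp ha hM1, filter_insert, if_pos (pf_lt hp ha hM1 hnd hlt hq),
    prod_insert (fun h => pf_not_mem hp ha hM1 hnd hlt (mem_filter.1 h).1), fact_split_self hp a hnd]
  congr 1
  refine prod_congr rfl fun r hr => ?_
  rw [fact_split_ne hp (pf_lt hp ha hM1 hnd hlt (mem_filter.1 hr).1).ne a hM1.ne']

lemma lo_split {q : ℕ} (hq : q ∈ M1.primeFactors) : lo q (p ^ a * M1) = lo q M1 := by
  unfold lo
  rw [primeFactors_split hp ha hM1, filter_insert,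
    if_neg (by have := pf_lt hp ha hM1 hnd hlt hq; omega)]
  refine prod_congr rfl fun r hr => ?_
  rw [fact_split_ne hp (pf_lt hp ha hM1 hnd hlt (mem_filter.1 hr).1).ne a hM1.ne']

lemma mass_split (f : ℕ → ℝ) : mass (p ^ a * M1) f =
    ∑ v ∈ range (a + 1), nup p a v * mass M1 (fun x => f (p ^ v * x)) := by
  unfold mass
  rw [sum_split hp a hM1 hnd]
  refine sum_congr rfl fun v hv => ?_
  rw [mem_range] at hv
  rw [mul_sum]
  refine sum_congr rfl fun b hb => ?_
  rw [Nat.mem_divisors] at hb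
  have hcop : Nat.Coprime (p ^ a) M1 :=
    Nat.Coprime.pow_left a ((Nat.Prime.coprime_iff_not_dvd hp).2 hnd)
  rw [nu_mul hcop (pow_dvd_pow p (by omega)) hb.1, nu_prime_pow hp (by omega)]
  ring

lemma LNs_split (κ Γ : ℝ) (f : ℕ → ℝ) : LNs κ Γ (p ^ a * M1) f =
    node κ p a (fun v => mass M1 (fun x => f (p ^ v * x))) Γ +
    ∑ v ∈ range (a + 1), nup p a v * (((p : ℝ) ^ v * nup p a v) *
      LNs κ Γ M1 (fun x => f (p ^ v * x))) := by
  unfold LNs
  rw [primeFactors_split hp ha hM1, sum_insert (pf_not_mem hp ha hM1 hnd hlt)]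
  congr 1
  · rw [hi_top hp ha hM1 hnd hlt, Nat.divisors_one, sum_singleton, fact_split_self hp a hnd]
    have h1 : nu 1 1 = 1 := by simp [nu]
    rw [h1]
    have h2 : dch p (p ^ a * M1) f 1 = fun v => mass M1 (fun x => f (p ^ v * x)) := by
      funext v
      unfold dch mass
      rw [lo_top hp ha hM1 hnd hlt]
      simp only [one_mul]
    rw [h2]
    norm_num
  · have h3 : ∀ q ∈ M1.primeFactors, ∑ T ∈ (hi q (p ^ a * M1)).divisors,
        ((T : ℝ) * nu (hi q (p ^ a * M1)) T ^ 2) *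
          node κ q ((p ^ a * M1).factorization q) (dch q (p ^ a * M1) f T) Γ =
        ∑ v ∈ range (a + 1), nup p a v * (((p : ℝ) ^ v * nup p a v) *
          ∑ T ∈ (hi q M1).divisors, ((T : ℝ) * nu (hi q M1) T ^ 2) *
            node κ q (M1.factorization q) (dch q M1 (fun x => f (p ^ v * x)) T) Γ) := by
      intro q hq
      have hqp := pf_lt hp ha hM1 hnd hlt hq
      rw [hi_split hp ha hM1 hnd hlt hq, sum_split hp a (hi_pos q M1) (not_dvd_hi hp hnd),
        fact_split_ne hp hqp.ne a hM1.ne']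
      refine sum_congr rfl fun v hv => ?_
      rw [mem_range] at hv
      rw [mul_sum, mul_sum]
      refine sum_congr rfl fun T hT => ?_
      rw [Nat.mem_divisors] at hT
      have hcop : Nat.Coprime (p ^ a) (hi q M1) :=
        Nat.Coprime.pow_left a ((Nat.Prime.coprime_iff_not_dvd hp).2 (not_dvd_hi hp hnd))
      rw [nu_mul hcop (pow_dvd_pow p (by omega)) hT.1, nu_prime_pow hp (by omega)]
      have h4 : dch q (p ^ a * M1) f (p ^ v * T) = dch q M1 (fun x => f (p ^ v * x)) T := by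
        funext w
        unfold dch
        rw [lo_split hp ha hM1 hnd hlt hq]
        refine sum_congr rfl fun l _ => ?_
        simp only [mul_assoc]
      rw [h4]
      push_cast
      ring
    rw [sum_congr rfl h3, sum_comm]
    refine sum_congr rfl fun v _ => ?_
    rw [← mul_sum, ← mul_sum]

end split

/-- **LEMMA LN**, potential form -/
theorem LN_pot {κ s : ℝ} (hκ : 1 / 2 < κ) (hκ1 : κ < 1) (hs0 : 0 < s) (hs1 : s < 1) :
    ∃ C : ℝ, 0 < C ∧ ∀ (Γ : ℝ), 0 ≤ Γ → ∀ M : ℕ, 0 < M → ∀ f : ℕ → ℝ, (∀ b, 0 ≤ f b) →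
      0 ≤ mass M f ^ (1 - s) - mass M (fun b => f b ^ (1 - s)) ∧
      LNs κ Γ M f ≤ C * (Γ ^ s * (mass M f ^ (1 - s) - mass M (fun b => f b ^ (1 - s))) +
        mass M (fun b => f b * (1 - b * nu M b))) := by
  obtain ⟨C, hC, hone⟩ := one_prime hκ hκ1 hs0 hs1
  refine ⟨C, hC, ?_⟩
  intro Γ hΓ
  have hΓs : 0 ≤ Γ ^ s := Real.rpow_nonneg hΓ _
  refine ind_max ?_ ?_
  · intro f hf
    have h1 : nu 1 1 = 1 := by simp [nu]
    have h2 : ∀ g : ℕ → ℝ, mass 1 g = g 1 := by
      intro g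
      unfold mass
      rw [Nat.divisors_one, sum_singleton, h1, one_mul]
    rw [h2, h2, h2, h1]
    have h3 : LNs κ Γ 1 f = 0 := by simp [LNs]
    rw [h3]
    simp
  · intro p a M1 hp ha hM1 hnd hlt ih f hf
    have hp2 := hp.two_le
    have hpr : (0 : ℝ) < p := by exact_mod_cast hp.pos
    set N : ℕ → ℝ := fun v => mass M1 (fun x => f (p ^ v * x)) with hN
    set S : ℕ → ℝ := fun v => mass M1 (fun x => f (p ^ v * x) ^ (1 - s)) with hS
    set R : ℕ → ℝ := fun v => mass M1 (fun x => f (p ^ v * x) * (1 - x * nu M1 x)) with hR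
    have hN0 : ∀ v, 0 ≤ N v := fun v => sum_nonneg fun b _ => mul_nonneg (nu_nonneg _ _) (hf _)
    have hih : ∀ v, 0 ≤ N v ^ (1 - s) - S v ∧ LNs κ Γ M1 (fun x => f (p ^ v * x)) ≤
        C * (Γ ^ s * (N v ^ (1 - s) - S v) + R v) := fun v =>
      ih (fun x => f (p ^ v * x)) (fun _ => hf _)
    have hw : ∀ v, 0 ≤ nup p a v := fun v => nup_nonneg hp.pos a v
    have hent := ent_nonneg hs0 hs1 hp2 a N hN0
    have e1 : mass (p ^ a * M1) f = ∑ v ∈ range (a + 1), nup p a v * N v :=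
      mass_split hp ha hM1 hnd hlt f
    have e2 : mass (p ^ a * M1) (fun b => f b ^ (1 - s)) = ∑ v ∈ range (a + 1), nup p a v * S v :=
      mass_split hp ha hM1 hnd hlt _
    have hu : ∀ v ∈ range (a + 1), (p : ℝ) ^ v * nup p a v = if v < a then 1 - 1 / (p : ℝ) else 1 :=
      fun v hv => loc_agree hp.pos (by rw [mem_range] at hv; omega)
    have hu0 : ∀ v ∈ range (a + 1), 0 ≤ (p : ℝ) ^ v * nup p a v := fun v _ =>
      mul_nonneg (by positivity) (hw v)
    have hu1 : ∀ v ∈ range (a + 1), (p : ℝ) ^ v * nup p a v ≤ 1 := by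
      intro v hv
      rw [hu v hv]
      split_ifs
      · have : 0 ≤ 1 / (p : ℝ) := by positivity
        linarith
      · exact le_rfl
    have e3 : mass (p ^ a * M1) (fun b => f b * (1 - b * nu (p ^ a * M1) b)) =
        1 / (p : ℝ) * ∑ v ∈ range a, nup p a v * N v +
        ∑ v ∈ range (a + 1), nup p a v * (((p : ℝ) ^ v * nup p a v) * R v) := by
      rw [mass_split hp ha hM1 hnd hlt]
      have h1 : 1 / (p : ℝ) * ∑ v ∈ range a, nup p a v * N v =
          ∑ v ∈ range (a + 1), nup p a v * ((1 - (p : ℝ) ^ v * nup p a v) * N v) := by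
        rw [sum_range_succ, hu a (by simp), if_neg (lt_irrefl a), sub_self, zero_mul, mul_zero,
          add_zero, mul_sum]
        refine sum_congr rfl fun v hv => ?_
        rw [mem_range] at hv
        rw [hu v (by rw [mem_range]; omega), if_pos hv]
        ring
      rw [h1, ← sum_add_distrib]
      refine sum_congr rfl fun v hv => ?_
      rw [← mul_add]
      congr 1
      simp only [hN, hR]
      unfold mass
      rw [mul_sum, mul_sum, ← sum_add_distrib]
      refine sum_congr rfl fun b hb => ?_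
      rw [Nat.mem_divisors] at hb
      rw [mem_range] at hv
      have hcop : Nat.Coprime (p ^ a) M1 :=
        Nat.Coprime.pow_left a ((Nat.Prime.coprime_iff_not_dvd hp).2 hnd)
      have hv' : v ≤ a := by omega
      have h2 : nu (p ^ a * M1) (p ^ v * b) = nup p a v * nu M1 b := by
        rw [nu_mul hcop (pow_dvd_pow p hv') hb.1, nu_prime_pow hp hv']
      simp only [h2]
      push_cast
      ring
    refine ⟨?_, ?_⟩
    · rw [e1, e2]
      have h1 : ∑ v ∈ range (a + 1), nup p a v * S v ≤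
          ∑ v ∈ range (a + 1), nup p a v * N v ^ (1 - s) :=
        sum_le_sum fun v _ => mul_le_mul_of_nonneg_left (by linarith [(hih v).1]) (hw v)
      linarith
    · rw [LNs_split hp ha hM1 hnd hlt, e1, e2, e3]
      have h1 := hone p a N Γ hp2 hN0 hΓ
      have h2 : ∑ v ∈ range (a + 1), nup p a v * (((p : ℝ) ^ v * nup p a v) *
          LNs κ Γ M1 (fun x => f (p ^ v * x))) ≤
          ∑ v ∈ range (a + 1), (C * (Γ ^ s * (nup p a v * N v ^ (1 - s) - nup p a v * S v)) +
            C * (nup p a v * (((p : ℝ) ^ v * nup p a v) * R v))) := by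
        refine sum_le_sum fun v hv => ?_
        have h3 := (hih v).2
        have h4 : ((p : ℝ) ^ v * nup p a v) * LNs κ Γ M1 (fun x => f (p ^ v * x)) ≤
            ((p : ℝ) ^ v * nup p a v) * (C * (Γ ^ s * (N v ^ (1 - s) - S v) + R v)) :=
          mul_le_mul_of_nonneg_left h3 (hu0 v hv)
        have h5 : ((p : ℝ) ^ v * nup p a v) * (C * (Γ ^ s * (N v ^ (1 - s) - S v))) ≤
            C * (Γ ^ s * (N v ^ (1 - s) - S v)) := by
          have h6 : 0 ≤ C * (Γ ^ s * (N v ^ (1 - s) - S v)) :=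
            mul_nonneg hC.le (mul_nonneg hΓs (hih v).1)
          have := mul_le_mul_of_nonneg_right (hu1 v hv) h6
          linarith
        have h7 : ((p : ℝ) ^ v * nup p a v) * LNs κ Γ M1 (fun x => f (p ^ v * x)) ≤
            C * (Γ ^ s * (N v ^ (1 - s) - S v)) + C * (((p : ℝ) ^ v * nup p a v) * R v) := by
          calc _ ≤ _ := h4
            _ = ((p : ℝ) ^ v * nup p a v) * (C * (Γ ^ s * (N v ^ (1 - s) - S v))) +
                C * (((p : ℝ) ^ v * nup p a v) * R v) := by ring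
            _ ≤ _ := by linarith
        calc _ ≤ nup p a v * (C * (Γ ^ s * (N v ^ (1 - s) - S v)) +
              C * (((p : ℝ) ^ v * nup p a v) * R v)) := mul_le_mul_of_nonneg_left h7 (hw v)
          _ = _ := by ring
      have h8 : ∑ v ∈ range (a + 1), (C * (Γ ^ s * (nup p a v * N v ^ (1 - s) - nup p a v * S v)) +
            C * (nup p a v * (((p : ℝ) ^ v * nup p a v) * R v))) =
          C * (Γ ^ s * (∑ v ∈ range (a + 1), nup p a v * N v ^ (1 - s) -
            ∑ v ∈ range (a + 1), nup p a v * S v)) +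
          C * ∑ v ∈ range (a + 1), nup p a v * (((p : ℝ) ^ v * nup p a v) * R v) := by
        rw [sum_add_distrib, ← mul_sum, ← mul_sum, ← mul_sum, sum_sub_distrib]
      rw [h8] at h2
      have h9 : C * (Γ ^ s * ((∑ v ∈ range (a + 1), nup p a v * N v) ^ (1 - s) -
            ∑ v ∈ range (a + 1), nup p a v * S v) +
          (1 / (p : ℝ) * ∑ v ∈ range a, nup p a v * N v +
            ∑ v ∈ range (a + 1), nup p a v * (((p : ℝ) ^ v * nup p a v) * R v))) =
          C * (Γ ^ s * ((∑ v ∈ range (a + 1), nup p a v * N v) ^ (1 - s) -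
            ∑ v ∈ range (a + 1), nup p a v * N v ^ (1 - s)) +
            1 / (p : ℝ) * ∑ v ∈ range a, nup p a v * N v) +
          (C * (Γ ^ s * (∑ v ∈ range (a + 1), nup p a v * N v ^ (1 - s) -
            ∑ v ∈ range (a + 1), nup p a v * S v)) +
          C * ∑ v ∈ range (a + 1), nup p a v * (((p : ℝ) ^ v * nup p a v) * R v)) := by ring
      rw [h9]
      exact add_le_add h1 h2

/-- **LEMMA LN** (note 2673 (1)), general `M`: with `N = ∑ ν f` the sum of the node costs over all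
nodes `(q, T)` of conditional mass `δ_T ≤ Γ` is at most `C (N + Γ^s N^(1-s))`. -/
theorem LN {κ s : ℝ} (hκ : 1 / 2 < κ) (hκ1 : κ < 1) (hs0 : 0 < s) (hs1 : s < 1) :
    ∃ C : ℝ, 0 < C ∧ ∀ (Γ : ℝ), 0 ≤ Γ → ∀ M : ℕ, 0 < M → ∀ f : ℕ → ℝ, (∀ b, 0 ≤ f b) →
      LNs κ Γ M f ≤ C * (mass M f + Γ ^ s * mass M f ^ (1 - s)) := by
  obtain ⟨C, hC, h⟩ := LN_pot hκ hκ1 hs0 hs1
  refine ⟨C, hC, fun Γ hΓ M hM f hf => ?_⟩
  obtain ⟨_, h2⟩ := h Γ hΓ M hM f hf
  refine h2.trans (mul_le_mul_of_nonneg_left ?_ hC.le)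
  have h3 : 0 ≤ mass M (fun b => f b ^ (1 - s)) :=
    sum_nonneg fun b _ => mul_nonneg (nu_nonneg _ _) (Real.rpow_nonneg (hf b) _)
  have h4 : mass M (fun b => f b * (1 - b * nu M b)) ≤ mass M f := by
    refine sum_le_sum fun b _ => mul_le_mul_of_nonneg_left ?_ (nu_nonneg _ _)
    have h5 : 0 ≤ (b : ℝ) * nu M b := mul_nonneg (Nat.cast_nonneg _) (nu_nonneg _ _)
    have h6 := hf b
    nlinarith
  have h7 : 0 ≤ Γ ^ s := Real.rpow_nonneg hΓ _
  nlinarith

end Crest.Agent.R4C.LNx581
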