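import Crest.Agent.R4C.LBoxDef_662
import Crest.Agent.R4C.BoxW_899
import Crest.Agent.R4C.BoxKit_179
import Crest.Agent.R4C.LSmooth_808
import Crest.Agent.R4C.LCovB_11
import Crest.Agent.R4C.BoostAl_100
import Crest.Agent.R4C.ClsNP_16
import Crest.Agent.R4C.ClsHvy_281
import Crest.Agent.R4C.DomN_52
import Crest.Agent.R4C.LBoxP_500
import Crest.Agent.R4C.LBst_360

/-!
# Row 4, class (L), the smooth case (6.0): `TgtS` of `LBoxDef_662` (helper808)

Boxes `x = (n, n')`: `2^n ≤ dep b < 2^(n+1)`, `2^n' ≤ dep c < 2^(n'+1)`, `mx = max n n'`,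
`K = 2^(mx+1)`, cut `y = 2^(4 A (mx+1))` (`≥ K`, thresholds `≥ K` above it, `≤ cut t`),
`Z = ⌊4 + 2 (log K)^(5/4)⌋`: all explained primes of the pair are `≤ Z ≤ y`.

* `QS` : a pair of the box; `QS.pd`, `QS.sm` : the data of `BoxW_899` and `LSmooth_808`;
* `pairW` : the (alpha)/(beta) data for all aligned primes in `(y, cut t]`;
* `boost_box` : the boost; `box_set` : the set bound `C (mx+1) K^(-1/200)`;
* **`tgtS`** : `TgtS γ`.
-/

set_option autoImplicit false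

open Finset

namespace Crest.Agent.R4C.LSmClsx808

open Crest.Agent.R4C.Basex935 Crest.Agent.R4C.Cutx50 Crest.Agent.R4C.FLDefx935
  Crest.Agent.R4C.Rulex945 Crest.Agent.R4C.Splitx945 Crest.Agent.R4C.Bridgex882
  Crest.Agent.R4C.S7dx14 Crest.Agent.R4C.BoostCx972 Crest.Agent.R4C.PureL2x232
  Crest.Agent.R4C.Keptx559 Crest.Agent.R4C.LClassx662 Crest.Agent.R4C.LowLx899
  Crest.Agent.R4C.NonPureBlkx559 Crest.Agent.R4C.LBxx500 Crest.Agent.R4C.CrCoinx935
  Crest.Agent.R4C.Spinex946 Crest.Agent.R4C.HyOfx281 Crest.Agent.R4C.LBoxDefx662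
  Crest.Agent.R4C.BoxWx899 Crest.Agent.R4C.HighWx899
open Crest.Agent.R4C.FLExx326 (ind)
open Crest.Agent.R4C.LSmoothx808 (Sm)
open Crest.Agent.R4C.BoostRx398 (tf one_le_tf)
open Crest.Agent.R4C.BoostTopx19 (prQ)
open Crest.Agent.R4C.VecNPx50 (pr mem_pr)
open Crest.Agent.R4C.Betax7 (gap_swap killedB_symm)
open Crest.Agent.R4C.LDecx500 (upp_one_of)

/-! ### parameters of the boxes -/

/-- larger exponent -/
def mx (x : ℕ × ℕ) : ℕ := max x.1 x.2

/-- exponent of the cut -/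
def vv (A : ℕ) (x : ℕ × ℕ) : ℕ := 4 * A * (mx x + 1)

/-- the cut -/
def yy (A : ℕ) (x : ℕ × ℕ) : ℕ := 2 ^ vv A x

/-- the depth bound -/
noncomputable def KK (x : ℕ × ℕ) : ℝ := 2 ^ (mx x + 1)

/-- bound for the explained primes -/
noncomputable def ZZ (x : ℕ × ℕ) : ℕ := ⌊4 + 2 * (Real.log (KK x)) ^ (5 / 4 : ℝ)⌋₊

lemma KK_one (x : ℕ × ℕ) : 1 ≤ KK x := one_le_pow₀ (by norm_num)

lemma KK_pos (x : ℕ × ℕ) : 0 < KK x := lt_of_lt_of_le one_pos (KK_one x)

lemma log_KK (x : ℕ × ℕ) : Real.log (KK x) = ((mx x : ℝ) + 1) * Real.log 2 := by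
  unfold KK
  rw [Real.log_pow]
  push_cast
  ring

lemma log_KK_nonneg (x : ℕ × ℕ) : 0 ≤ Real.log (KK x) := Real.log_nonneg (KK_one x)

lemma log_KK_le (x : ℕ × ℕ) : Real.log (KK x) ≤ (mx x : ℝ) + 1 := by
  rw [log_KK]
  have h1 := Real.log_two_lt_d9
  have h2 : (0 : ℝ) ≤ (mx x : ℝ) + 1 := by positivity
  nlinarith

lemma KK_le_yy {A : ℕ} (hA : 1 ≤ A) (x : ℕ × ℕ) : KK x ≤ yy A x := by
  unfold KK yy vv
  push_cast
  refine pow_le_pow_right₀ (by norm_num) ?_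
  nlinarith

lemma two_le_yy {A : ℕ} (hA : 1 ≤ A) (x : ℕ × ℕ) : 2 ≤ yy A x := by
  have h1 := KK_le_yy hA x
  have h2 : (2 : ℝ) ≤ KK x := by
    unfold KK
    calc (2 : ℝ) = 2 ^ 1 := by norm_num
      _ ≤ 2 ^ (mx x + 1) := pow_le_pow_right₀ (by norm_num) (by omega)
  exact_mod_cast h2.trans h1

lemma ZZ_le (x : ℕ × ℕ) : (ZZ x : ℝ) ≤ 6 * (1 + Real.log (KK x)) ^ (5 / 4 : ℝ) := by
  have h0 := log_KK_nonneg x
  have h1 : (ZZ x : ℝ) ≤ 4 + 2 * (Real.log (KK x)) ^ (5 / 4 : ℝ) :=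
    Nat.floor_le (by positivity)
  have h2 : (Real.log (KK x)) ^ (5 / 4 : ℝ) ≤ (1 + Real.log (KK x)) ^ (5 / 4 : ℝ) :=
    Real.rpow_le_rpow h0 (by linarith) (by norm_num)
  have h3 : 1 ≤ (1 + Real.log (KK x)) ^ (5 / 4 : ℝ) := Real.one_le_rpow (by linarith) (by norm_num)
  linarith

lemma sq_le_two_pow (n : ℕ) : (n + 1) ^ 2 ≤ 2 * 2 ^ (n + 1) := by
  induction n with
  | zero => norm_num
  | succ n ih =>
    rcases Nat.lt_or_ge n 2 with h | h
    · interval_cases n <;> norm_num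
    · calc (n + 1 + 1) ^ 2 ≤ 2 * (n + 1) ^ 2 := by nlinarith
        _ ≤ 2 * (2 * 2 ^ (n + 1)) := Nat.mul_le_mul_left _ ih
        _ = _ := by ring

lemma ZZ_le_yy {A : ℕ} (hA : 1 ≤ A) (x : ℕ × ℕ) : ZZ x ≤ yy A x := by
  have h0 := log_KK_nonneg x
  have h1 : (ZZ x : ℝ) ≤ 4 + 2 * (Real.log (KK x)) ^ (5 / 4 : ℝ) :=
    Nat.floor_le (by positivity)
  have h2 : (Real.log (KK x)) ^ (5 / 4 : ℝ) ≤ ((mx x : ℝ) + 1) ^ (2 : ℝ) := by
    calc (Real.log (KK x)) ^ (5 / 4 : ℝ) ≤ ((mx x : ℝ) + 1) ^ (5 / 4 : ℝ) :=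
          Real.rpow_le_rpow h0 (log_KK_le x) (by norm_num)
      _ ≤ _ := Real.rpow_le_rpow_of_exponent_le (by
          have : (0 : ℝ) ≤ (mx x : ℝ) := Nat.cast_nonneg _
          linarith) (by norm_num)
  have h3 : ((mx x : ℝ) + 1) ^ (2 : ℝ) ≤ 2 * 2 ^ (mx x + 1) := by
    rw [Real.rpow_two]
    exact_mod_cast sq_le_two_pow (mx x)
  have h4 : (4 : ℝ) + 2 * (2 * 2 ^ (mx x + 1)) ≤ 2 ^ (4 * (mx x + 1)) := by
    have e : (2 : ℝ) ^ (4 * (mx x + 1)) = (2 ^ (mx x + 1)) ^ 4 := by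
      rw [← pow_mul]; congr 1; ring
    rw [e]
    have h5 : (2 : ℝ) ≤ 2 ^ (mx x + 1) := by
      calc (2 : ℝ) = 2 ^ 1 := by norm_num
        _ ≤ 2 ^ (mx x + 1) := pow_le_pow_right₀ (by norm_num) (by omega)
    set a : ℝ := 2 ^ (mx x + 1) with ha
    have h6 : 8 ≤ a ^ 3 := by
      calc (8 : ℝ) = 2 ^ 3 := by norm_num
        _ ≤ a ^ 3 := pow_le_pow_left₀ (by norm_num) h5 3
    have h7 : a * 8 ≤ a * a ^ 3 := mul_le_mul_of_nonneg_left h6 (by linarith)
    nlinarith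
  have h5 : (2 : ℝ) ^ (4 * (mx x + 1)) ≤ (yy A x : ℝ) := by
    unfold yy vv
    push_cast
    refine pow_le_pow_right₀ (by norm_num) ?_
    nlinarith
  have h6 : (ZZ x : ℝ) ≤ yy A x := by linarith
  exact_mod_cast h6

section par

variable {cp η : ℝ} {A m0 : ℕ} {γ L : ℝ} {M : ℕ} {B : Finset ℕ}

/-- depth exponents against the level -/
lemma mx_le (hN : Num cp η A m0) {t n : ℕ} {d : ℝ} (h1 : (2 : ℝ) ^ n ≤ d)
    (h2 : d ≤ (ParOf cp A m0 γ L M B).E t ^ 4) : 50 * n ≤ t := by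
  rw [E_pow] at h2
  have h3 : (2 : ℝ) ^ (n : ℝ) ≤ (2 : ℝ) ^ (cp * t * (4 : ℕ)) := by
    rw [Real.rpow_natCast]
    exact h1.trans h2
  have h4 : (n : ℝ) ≤ cp * t * (4 : ℕ) := (Real.rpow_le_rpow_left_iff (by norm_num)).1 h3
  have h5 : cp * t ≤ 1 / 200 * t := mul_le_mul_of_nonneg_right hN.cp_le (Nat.cast_nonneg _)
  push_cast at h4
  have h6 : (50 : ℝ) * n ≤ t := by linarith
  exact_mod_cast h6

lemma thr_ge (hA : 1 ≤ A) (x : ℕ × ℕ) (b i : ℕ)
    (hi : (yy A x : ℝ) < (ParOf cp A m0 γ L M B).Y i) :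
    KK x ≤ (ParOf cp A m0 γ L M B).thr b i := by
  have hA' : (0 : ℝ) < A := by exact_mod_cast hA
  have h0 : yy A x < 2 ^ i := by exact_mod_cast hi
  have h1 : vv A x < i := (Nat.pow_lt_pow_iff_right (by norm_num)).1 h0
  have h2 : vv A x ≤ i - 1 := by omega
  have hY : (2 : ℝ) ^ (vv A x) ≤ (((ParOf cp A m0 γ L M B).Y (i - 1) : ℕ) : ℝ) := by
    change (2 : ℝ) ^ (vv A x) ≤ ((2 ^ (i - 1) : ℕ) : ℝ)
    push_cast
    exact pow_le_pow_right₀ (by norm_num) h2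
  change KK x ≤ thrS M (ind B) (fun i => 2 ^ i) (1 / (4 * A)) (1 / 20) b i
  unfold thrS
  refine le_min (le_trans ?_ (le_max_left _ _)) ?_
  · have e : KK x = ((2 : ℝ) ^ (vv A x)) ^ (1 / (4 * A) : ℝ) := by
      rw [← Real.rpow_natCast, ← Real.rpow_mul (by norm_num)]
      unfold KK vv
      rw [← Real.rpow_natCast]
      congr 1
      push_cast
      field_simp
    rw [e]
    exact Real.rpow_le_rpow (by positivity) hY (by positivity)
  · rw [← Real.log_le_iff_le_exp (KK_pos x)]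
    refine (log_KK_le x).trans ?_
    have h3 : ((mx x : ℝ) + 1) ≤ 2 ^ (mx x + 1) := by
      have : mx x + 1 < 2 ^ (mx x + 1) := Nat.lt_two_pow_self
      exact_mod_cast this.le
    refine h3.trans ?_
    have h4 : (2 : ℝ) ^ (mx x + 1) ≤ ((2 : ℝ) ^ (vv A x)) ^ (4 / 5 : ℝ) := by
      rw [← Real.rpow_natCast, ← Real.rpow_natCast 2 (vv A x), ← Real.rpow_mul (by norm_num)]
      refine Real.rpow_le_rpow_of_exponent_le (by norm_num) ?_
      unfold vv
      push_cast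
      have h5 : (1 : ℝ) ≤ A := by exact_mod_cast hA
      have h6 : (0 : ℝ) ≤ (mx x : ℝ) + 1 := by positivity
      nlinarith
    exact h4.trans (Real.rpow_le_rpow (by positivity) hY (by norm_num))

end par

/-! ### (alpha)/(beta) data for an arbitrary set of aligned primes -/

/-- `BoxW_899.pairW` for an arbitrary set `Q` of primes in `(y, cut t]` missing in both words -/
theorem pairW {M : ℕ} {F : FL M} {P : Par} {w : ℕ → ℝ} {δ ε : ℝ} {D : ℕ → ℝ}
    (H : Hy F P w δ ε D) (hE : Monotone P.E)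
    (hG : TEndx129.CutGrow P) {K : ℝ} {t b c y Yc j0 κ κ' : ℕ} {h : ℤ} {f f' : ℚ}
    {Rs Rs' : Finset ℕ} {KK KK' : ℕ → Finset ℕ} (hb : b ∣ M) (hc : c ∣ M)
    (hP : PD F P w ε K y Yc t b c h f f')
    (hup : upp y b = κ * zz (P.cut t) y b c) (hup' : upp y c = κ' * zz (P.cut t) y c b)
    (hκ : κ ∈ KK (zz (P.cut t) y b c)) (hκ' : κ' ∈ KK' (zz (P.cut t) y c b))
    (hr : Nat.log 2 (low y b) ∈ Rs) (hr' : Nat.log 2 (low y c) ∈ Rs')
    (hz : KZ (hiFL H.hM y F) j0 (zz (P.cut t) y b c) (zz (P.cut t) y c b))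
    {Q : Finset ℕ} (hQs : Q ⊆ (upp y M).primeFactors) (hQc : ∀ q ∈ Q, q ≤ P.cut t)
    (hQm : ∀ q ∈ Q, (zz (P.cut t) y b c).factorization q < (upp y M).factorization q) :
    PairW (hiFL H.hM y F) j0 P.cut (TTs F P y K Rs KK) (XHs F P y K Rs KK Yc)
      (TTs F P y K Rs' KK') (XHs F P y K Rs' KK' Yc) (zz (P.cut t) y b c) (zz (P.cut t) y c b)
      Q := by
  have hM := H.hM
  have hb0 : b ≠ 0 := (Nat.pos_of_dvd_of_pos hb hM).ne'
  have hc0 : c ≠ 0 := (Nat.pos_of_dvd_of_pos hc hM).ne'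
  have hyt : y ≤ P.cut t := hP.yY.trans hP.Yt
  have hgc : Nat.gcd c b = Nat.gcd b c := Nat.gcd_comm c b
  -- the first difference is above the cut
  have hfst : ∀ x, Fst x (zz (P.cut t) y b c) (zz (P.cut t) y c b) → P.cut t < x := by
    intro x hx
    by_contra hcon
    refine hx.2.2 ?_
    rw [fact_zz hyt hb0, fact_zz hyt hc0, hgc]
    by_cases h1 : x ≤ y
    · rw [if_pos h1, if_pos h1]
    · rw [if_neg h1, if_neg h1, if_pos (not_lt.1 hcon), if_pos (not_lt.1 hcon)]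
  have hval : ∀ x, P.cut t < x → (zz (P.cut t) y b c).factorization x = b.factorization x ∧
      (zz (P.cut t) y c b).factorization x = c.factorization x := by
    intro x hx
    rw [fact_zz hyt hb0, fact_zz hyt hc0, if_neg (by omega), if_neg (by omega), if_neg (by omega),
      if_neg (by omega)]
    exact ⟨rfl, rfl⟩
  -- letters in `(Yc, x)` are equal
  have heq : ∀ x, Fst x (zz (P.cut t) y b c) (zz (P.cut t) y c b) → ∀ q, q.Prime → Yc < q →
      q < x → b.factorization q = c.factorization q := by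
    intro x hx q hq hYq hqx
    by_cases h1 : q ≤ P.cut t
    · have h2 := hP.top q hq hYq h1
      exact eq_of_top hb0 hc0 hP.db hP.dc hP.KY hYq h2.1 h2.2
    · have h2 := hx.2.1 q hq hqx
      have h3 := hval q (not_le.1 h1)
      rw [h3.1, h3.2] at h2
      exact h2
  have hhv : ∀ e, t ≤ e → _ := fun e he =>
    not_hvK (w := w) (ε := ε) H.cut_mono H.hL hP.m0 hP.good hP.al hP.scl hP.near hP.nh he
  refine ⟨hQs, hQm, ?_, hz, ?_, ?_⟩
  · intro x hx q hq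
    exact (hQc q hq).trans_lt (hfst x hx)
  · intro _ x hx hlt
    have h1 := hfst x hx
    have h2 := hval x h1
    rw [h2.1, h2.2] at hlt
    exact side H hE hG hP.K1 hb hc hP.pt hP.nk hP.m0 hyt hP.yY hP.Kt hP.KY
      (fun i hi => hP.thb i (by exact_mod_cast hP.Yt.trans_lt hi)) hP.ib hP.ic
      hP.db hP.dc hP.eb (fun e he => (hhv e he).1) hup hup' hκ hκ' hr hr' hx.1 hlt
      (heq x hx) (hP.Yt.trans_lt h1) h1 hQc
  · intro _ x hx hlt
    have h1 := hfst x hx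
    have h2 := hval x h1
    rw [h2.1, h2.2] at hlt
    exact side H hE hG hP.K1 hc hb (gap_swap hP.pt) (killedB_symm hP.nk) hP.m0 hyt hP.yY hP.Kt
      hP.KY (fun i hi => hP.thc i (by exact_mod_cast hP.Yt.trans_lt hi)) hP.ic hP.ib hP.dc hP.db hP.ec (fun e he => (hhv e he).2) hup' hup hκ' hκ hr' hr
      hx.1 hlt (fun q hq h3 h4 => (heq x hx q hq h3 h4).symm) (hP.Yt.trans_lt h1) h1 hQc

/-! ### the boxes -/

/-- the data of a pair of the box -/
structure LSx {M : ℕ} (F : FL M) (P : Par) (jB : ℕ → ℕ) (x : ℕ × ℕ) (t b c : ℕ) (h : ℤ)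
    (f f' : ℚ) (p : ℕ) : Prop where
  lp : LP F P t b c h f f' p
  gd : F.good (Xj (jB t)) b c
  pz : p ≤ ZZ x
  dn : (2 : ℝ) ^ x.1 ≤ dep F P t b f
  dn1 : dep F P t b f < 2 ^ (x.1 + 1)
  dn' : (2 : ℝ) ^ x.2 ≤ dep F P t c f'
  dn1' : dep F P t c f' < 2 ^ (x.2 + 1)

/-- a pair of the box -/
def QS {M : ℕ} (F : FL M) (P : Par) (w : ℕ → ℝ) (ε : ℝ) (jB : ℕ → ℕ) (x : ℕ × ℕ) (b c : ℕ)
    (h : ℤ) : Prop :=
  ¬ CHvy F P w ε b c h ∧ ∃ t f f' p, LSx F P jB x t b c h f f' p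

section box

variable {cp η : ℝ} {A m0 : ℕ} {γ L : ℝ} {M : ℕ} {B : Finset ℕ} {F : FL M}

lemma le_ZZ {p : ℕ} (hp : p.Prime) {x : ℕ × ℕ}
    (h : Real.exp (((ParOf cp A m0 γ L M B).Y ((ParOf cp A m0 γ L M B).blk p - 1) : ℝ) ^
      (4 / 5 : ℝ)) < KK x) : p ≤ ZZ x := by
  set P := ParOf cp A m0 γ L M B with hP
  have hY : StrictMono P.Y := fun a b hab => Nat.pow_lt_pow_right (by norm_num) hab
  have h1 : p ≤ P.Y (P.blk p) := Par.le_blk hY p
  have hY2 : ∀ i, P.Y i = 2 ^ i := fun i => rfl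
  have h2 : P.blk p ≠ 0 := by
    intro h0
    rw [h0, hY2] at h1
    have := hp.two_le
    omega
  obtain ⟨i, hi⟩ := Nat.exists_eq_succ_of_ne_zero h2
  rw [hi, Nat.succ_eq_add_one, hY2, pow_succ] at h1
  rw [hi, Nat.succ_eq_add_one, Nat.add_sub_cancel, hY2] at h
  set q : ℕ := 2 ^ i with hq
  have h3 : ((q : ℕ) : ℝ) ^ (4 / 5 : ℝ) < Real.log (KK x) := by
    rwa [Real.lt_log_iff_exp_lt (KK_pos x)]
  have h4 : (q : ℝ) ≤ (Real.log (KK x)) ^ (5 / 4 : ℝ) := by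
    have h5 : (q : ℝ) = (((q : ℕ) : ℝ) ^ (4 / 5 : ℝ)) ^ (5 / 4 : ℝ) := by
      rw [← Real.rpow_mul (Nat.cast_nonneg _)]
      norm_num
    rw [h5]
    exact Real.rpow_le_rpow (by positivity) h3.le (by norm_num)
  unfold ZZ
  refine Nat.le_floor ?_
  have h5 : (p : ℝ) ≤ q * 2 := by exact_mod_cast h1
  linarith

/-- cover -/
lemma cover {jB : ℕ → ℕ} {b c : ℕ} {h : ℤ} (h1 : LSm F (ParOf cp A m0 γ L M B) jB b c h)
    (hn : ¬ CHvy F (ParOf cp A m0 γ L M B) (ind B) (1 / 20) b c h) :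
    ∃ x, QS F (ParOf cp A m0 γ L M B) (ind B) (1 / 20) jB x b c h := by
  obtain ⟨t, f, f', p, hP, hg, hd⟩ := h1
  obtain ⟨n, hn1, hn2⟩ := LCovBx11.exists_dyadic
    (one_le_dep (F := F) (P := ParOf cp A m0 γ L M B) t b f)
  obtain ⟨n', hn1', hn2'⟩ := LCovBx11.exists_dyadic
    (one_le_dep (F := F) (P := ParOf cp A m0 γ L M B) t c f')
  have e1 : dep F (ParOf cp A m0 γ L M B) t b f < 2 ^ (n + 1) := by
    rw [pow_succ]; linarith
  have e2 : dep F (ParOf cp A m0 γ L M B) t c f' < 2 ^ (n' + 1) := by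
    rw [pow_succ]; linarith
  have m1 : (2 : ℝ) ^ (n + 1) ≤ KK (n, n') := by
    unfold KK mx
    exact pow_le_pow_right₀ (by norm_num) (by simp)
  have m2 : (2 : ℝ) ^ (n' + 1) ≤ KK (n, n') := by
    unfold KK mx
    exact pow_le_pow_right₀ (by norm_num) (by simp)
  refine ⟨(n, n'), hn, t, f, f', p, ⟨hP, hg, le_ZZ (cp := cp) (A := A) (m0 := m0) (γ := γ)
    (L := L) (B := B) (M := M) hP.prime ?_, hn1, e1, hn1', e2⟩⟩
  rcases hd with h2 | h2
  · exact h2.2.2.trans (e1.trans_le m1)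
  · exact h2.2.2.trans (e2.trans_le m2)

variable {jB : ℕ → ℕ} {x : ℕ × ℕ} {t b c : ℕ} {h : ℤ} {f f' : ℚ} {p : ℕ}

/-- levels -/
lemma LSx.lev (hN : Num cp η A m0) (D : LSx F (ParOf cp A m0 γ L M B) jB x t b c h f f' p) :
    14 ≤ t ∧ 50 * mx x ≤ t := by
  have h1 : m0 ≤ t := D.lp.m0
  refine ⟨hN.m0_14.trans h1, ?_⟩
  have h2 := mx_le hN D.dn D.lp.db
  have h3 := mx_le hN D.dn' D.lp.dc
  unfold mx
  omega

lemma LSx.depb (D : LSx F (ParOf cp A m0 γ L M B) jB x t b c h f f' p) :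
    dep F (ParOf cp A m0 γ L M B) t b f ≤ KK x := by
  refine D.dn1.le.trans ?_
  unfold KK mx
  exact pow_le_pow_right₀ (by norm_num) (by omega)

lemma LSx.depc (D : LSx F (ParOf cp A m0 γ L M B) jB x t b c h f f' p) :
    dep F (ParOf cp A m0 γ L M B) t c f' ≤ KK x := by
  refine D.dn1'.le.trans ?_
  unfold KK mx
  exact pow_le_pow_right₀ (by norm_num) (by omega)

lemma LSx.yt (hN : Num cp η A m0) (D : LSx F (ParOf cp A m0 γ L M B) jB x t b c h f f' p) :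
    yy A x ≤ (ParOf cp A m0 γ L M B).cut t := by
  obtain ⟨h1, h2⟩ := D.lev hN
  change 2 ^ (4 * A * (mx x + 1)) ≤ 2 ^ (A * t)
  refine Nat.pow_le_pow_right (by norm_num) ?_
  calc 4 * A * (mx x + 1) = A * (4 * (mx x + 1)) := by ring
    _ ≤ A * t := Nat.mul_le_mul_left _ (by omega)

lemma LSx.Kt (hN : Num cp η A m0) (D : LSx F (ParOf cp A m0 γ L M B) jB x t b c h f f' p) :
    4 * KK x ^ 2 < 2 ^ t := by
  obtain ⟨h1, h2⟩ := D.lev hN
  unfold KK
  calc (4 : ℝ) * (2 ^ (mx x + 1)) ^ 2 = 2 ^ (2 + (mx x + 1) * 2) := by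
        rw [← pow_mul, pow_add]; norm_num
    _ < 2 ^ t := pow_lt_pow_right₀ (by norm_num) (by omega)

/-- no prime in `(y, cut t]` divides the cofactors -/
lemma LSx.nd (hN : Num cp η A m0) (D : LSx F (ParOf cp A m0 γ L M B) jB x t b c h f f' p)
    {r : ℕ} (hr : r.Prime) (hy : yy A x < r) (hrt : r ≤ (ParOf cp A m0 γ L M B).cut t) :
    ¬ r ∣ b / Nat.gcd b c ∧ ¬ r ∣ c / Nat.gcd b c := by
  have hA := hN.A_one
  have hpr : p < r := (D.pz.trans (ZZ_le_yy hA x)).trans_lt hy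
  have h1 := D.lp.topk r hr hpr hrt
  have key : ∀ {d : ℕ} {a : ℚ}, dep F (ParOf cp A m0 γ L M B) t d a ≤ KK x →
      ¬ r ∣ k0 F ((ParOf cp A m0 γ L M B).cut t) d a := by
    intro d a hd hqd
    have h3 : r ≤ k0 F ((ParOf cp A m0 γ L M B).cut t) d a := Nat.le_of_dvd (k0_pos _ _ _) hqd
    have h4 : (k0 F ((ParOf cp A m0 γ L M B).cut t) d a : ℝ) ≤ yy A x :=
      ((k0_le_dep t d a).trans hd).trans (KK_le_yy hA x)
    have h5 : k0 F ((ParOf cp A m0 γ L M B).cut t) d a ≤ yy A x := by exact_mod_cast h4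
    omega
  exact ⟨fun h2 => key D.depb (h1.1 h2), fun h2 => key D.depc (h1.2 h2)⟩

/-- the data of `BoxW_899` -/
lemma LSx.pd (hN : Num cp η A m0) (D : LSx F (ParOf cp A m0 γ L M B) jB x t b c h f f' p)
    (hk : ¬ killedB (lamR F (ParOf cp A m0 γ L M B)) b c h)
    (hn : ¬ CHvy F (ParOf cp A m0 γ L M B) (ind B) (1 / 20) b c h) :
    PD F (ParOf cp A m0 γ L M B) (ind B) (1 / 20) (KK x) (yy A x) (yy A x) t b c h f f' where
  m0 := D.lp.m0
  good := D.lp.good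
  pt := D.lp.pt
  ib := D.lp.ib
  ic := D.lp.ic
  db := D.depb
  dc := D.depc
  eb := D.lp.db
  ec := D.lp.dc
  top := fun r hr hy hrt => D.lp.topk r hr ((D.pz.trans (ZZ_le_yy hN.A_one x)).trans_lt hy) hrt
  al := D.lp.al
  scl := D.lp.scl
  near := D.lp.near
  yY := le_rfl
  Yt := D.yt hN
  K1 := KK_one x
  KY := KK_le_yy hN.A_one x
  Kt := D.Kt hN
  thb := fun i hi => thr_ge hN.A_one x b i hi
  thc := fun i hi => thr_ge hN.A_one x c i hi
  nk := hk
  nh := hn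

/-- the data of `LSmooth_808` -/
lemma LSx.sm (hN : Num cp η A m0) (D : LSx F (ParOf cp A m0 γ L M B) jB x t b c h f f' p) :
    Sm F (ParOf cp A m0 γ L M B) (yy A x) (ZZ x) (KK x) t b c h f f' where
  m0 := D.lp.m0
  yx := D.yt hN
  good := D.lp.good
  pt := D.lp.pt
  ib := D.lp.ib
  ic := D.lp.ic
  db := D.depb
  dc := D.depc
  top := fun r hr hZ hrt => D.lp.top r hr (D.pz.trans_lt hZ) hrt
  big := by
    obtain ⟨h1, h2⟩ := D.lp.big
    have h3 := D.dn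
    have h4 := D.dn'
    unfold KK mx
    rcases le_total x.1 x.2 with h5 | h5
    · rw [max_eq_right h5, pow_succ]
      linarith
    · rw [max_eq_left h5, pow_succ]
      linarith

/-- the upper word of the first cofactor -/
lemma LSx.uppb (hN : Num cp η A m0) (D : LSx F (ParOf cp A m0 γ L M B) jB x t b c h f f' p) :
    upp (yy A x) (low ((ParOf cp A m0 γ L M B).cut t) (b / Nat.gcd b c)) = 1 ∧
      upp (yy A x) (low ((ParOf cp A m0 γ L M B).cut t) (c / Nat.gcd b c)) = 1 := by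
  constructor
  · refine upp_one_of fun q hq hd => ?_
    by_contra hcon
    have h1 : q ≤ (ParOf cp A m0 γ L M B).cut t :=
      prime_dvd_part (fun p => p ≤ (ParOf cp A m0 γ L M B).cut t) hq hd
    exact (D.nd hN hq (not_le.1 hcon) h1).1 (hd.trans (low_dvd_self _ _))
  · refine upp_one_of fun q hq hd => ?_
    by_contra hcon
    have h1 : q ≤ (ParOf cp A m0 γ L M B).cut t :=
      prime_dvd_part (fun p => p ≤ (ParOf cp A m0 γ L M B).cut t) hq hd
    exact (D.nd hN hq (not_le.1 hcon) h1).2 (hd.trans (low_dvd_self _ _))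

/-- the upper words are untwisted -/
lemma LSx.zzb (hN : Num cp η A m0) (hM : 0 < M) (hb : b ∣ M) (hc : c ∣ M)
    (D : LSx F (ParOf cp A m0 γ L M B) jB x t b c h f f' p) :
    zz ((ParOf cp A m0 γ L M B).cut t) (yy A x) b c = upp (yy A x) b ∧
      zz ((ParOf cp A m0 γ L M B).cut t) (yy A x) c b = upp (yy A x) c := by
  obtain ⟨hg, eb, ec, hcop, hs, hs'⟩ := LBoxPx500.pair_facts hM hb hc
  obtain ⟨u1, u2⟩ := D.uppb hN
  have hyx := D.yt hN
  constructor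
  · have h1 := LDecx500.upp_gs hyx hg.ne' hs.ne'
    rw [eb, u1, one_mul] at h1
    exact h1.symm
  · have h1 := LDecx500.upp_gs hyx hg.ne' hs'.ne'
    rw [ec, u2, one_mul] at h1
    unfold zz
    rw [Nat.gcd_comm c b]
    exact h1.symm

lemma jBA_facts (hA : 1 ≤ A) (ht : 14 ≤ t) :
    1 ≤ jBA A t ∧ Xj (jBA A t) ≤ 2 ^ (A * t) := by
  unfold jBA
  have h0 : 2 ≤ A * t := by nlinarith
  constructor
  · exact Nat.log_pos (by norm_num) h0
  · have h1 : 2 ^ (Nat.log 2 (A * t)) ≤ A * t := Nat.pow_log_le_self 2 (by omega)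
    unfold Xj
    exact (Nat.sub_le _ _).trans (Nat.pow_le_pow_right (by norm_num) h1)

lemma LSx.kz (hN : Num cp η A m0) (hM : 0 < M) (hb : b ∣ M) (hc : c ∣ M)
    (D : LSx F (ParOf cp A m0 γ L M B) (jBA A) x t b c h f f' p) :
    KZ (hiFL hM (yy A x) F) 1 (zz ((ParOf cp A m0 γ L M B).cut t) (yy A x) b c)
      (zz ((ParOf cp A m0 γ L M B).cut t) (yy A x) c b) := by
  obtain ⟨hg, eb, ec, hcop, hs, hs'⟩ := LBoxPx500.pair_facts hM hb hc
  obtain ⟨u1, u2⟩ := D.uppb hN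
  obtain ⟨j1, j2⟩ := jBA_facts hN.A_one (D.lev hN).1
  have hX1 : 1 ≤ Xj (jBA A t) := le_trans (by norm_num) (Xj_two j1)
  have h1 := LDecx500.kz_of (F := F) (x := (ParOf cp A m0 γ L M B).cut t) (y := yy A x)
    (g := Nat.gcd b c) (s := b / Nat.gcd b c) (s' := c / Nat.gcd b c) (j0 := 1)
    (jB := jBA A t) hM (by rw [eb]; exact hb) (by rw [ec]; exact hc) (D.yt hN) j1 j2
    (by rw [eb, ec]; exact D.gd) (by rw [u1]; exact hX1) (by rw [u2]; exact hX1)
  have e : zz ((ParOf cp A m0 γ L M B).cut t) (yy A x) c b =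
      upp (yy A x) (Nat.gcd b c) * upp ((ParOf cp A m0 γ L M B).cut t) (c / Nat.gcd b c) := by
    unfold zz
    rw [Nat.gcd_comm]
  rw [e]
  exact h1

/-- the high kernel of a box -/
noncomputable def kk (F : FL M) (P : Par) (hM : 0 < M) (A : ℕ) (x : ℕ × ℕ) (U U' z z' : ℕ) : ℝ :=
  WH (hiFL hM (yy A x) F) 1 P.cut (TTs F P (yy A x) (KK x) {U} (fun _ => {1}))
    (XHs F P (yy A x) (KK x) {U} (fun _ => {1}) (yy A x))
    (TTs F P (yy A x) (KK x) {U'} (fun _ => {1}))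
    (XHs F P (yy A x) (KK x) {U'} (fun _ => {1}) (yy A x)) z z'

lemma kk_nonneg (F : FL M) (P : Par) (hM : 0 < M) (A : ℕ) (x : ℕ × ℕ) (U U' z z' : ℕ) :
    0 ≤ kk F P hM A x U U' z z' := WH_nonneg _ _ _ _ _ _ _ _ _

/-- the aligned primes of the upper words -/
theorem LSx.high (hN : Num cp η A m0) (hA : 2 ≤ A) (hM : 0 < M) (hL : 0 < L) (hb : b ∣ M)
    (hc : c ∣ M) (D : LSx F (ParOf cp A m0 γ L M B) (jBA A) x t b c h f f' p)
    (hk : ¬ killedB (lamR F (ParOf cp A m0 γ L M B)) b c h)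
    (hn : ¬ CHvy F (ParOf cp A m0 γ L M B) (ind B) (1 / 20) b c h) :
    HighWx899.bst (Qt (M := M) (ParOf cp A m0 γ L M B) (yy A x) t (upp (yy A x) b)
      (upp (yy A x) c)) ≤ 4 * Real.exp (22 / Real.log 2) *
      kk F (ParOf cp A m0 γ L M B) hM A x (Nat.log 2 (low (yy A x) b))
        (Nat.log 2 (low (yy A x) c)) (upp (yy A x) b) (upp (yy A x) c) := by
  have H := hy_of_num (γ := γ) (B := B) hN hM hL F
  obtain ⟨z1, z2⟩ := D.zzb hN hM hb hc
  have hkz := D.kz hN hM hb hc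
  have hup : upp (yy A x) b = 1 * zz ((ParOf cp A m0 γ L M B).cut t) (yy A x) b c := by
    rw [z1, one_mul]
  have hup' : upp (yy A x) c = 1 * zz ((ParOf cp A m0 γ L M B).cut t) (yy A x) c b := by
    rw [z2, one_mul]
  have hE : Monotone (ParOf cp A m0 γ L M B).E := by
    intro a b hab
    change (2 : ℝ) ^ (cp * a) ≤ (2 : ℝ) ^ (cp * b)
    refine Real.rpow_le_rpow_of_exponent_le (by norm_num) ?_
    exact mul_le_mul_of_nonneg_left (by exact_mod_cast hab) hN.cp_pos.le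
  have hG : TEndx129.CutGrow (ParOf cp A m0 γ L M B) := TEndx129.cutA_grow hA fun m => rfl
  have hPW := pairW H hE hG (Rs := {Nat.log 2 (low (yy A x) b)})
    (Rs' := {Nat.log 2 (low (yy A x) c)}) (KK := fun _ => {1}) (KK' := fun _ => {1}) hb hc
    (D.pd hN hk hn) hup hup' (mem_singleton_self _) (mem_singleton_self _)
    (mem_singleton_self _) (mem_singleton_self _) hkz
    (Q := Qt (M := M) (ParOf cp A m0 γ L M B) (yy A x) t (upp (yy A x) b) (upp (yy A x) c))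
    (filter_subset _ _) (fun q hq => (mem_filter.1 hq).2.1)
    (fun q hq => by rw [z1]; exact (mem_filter.1 hq).2.2.1)
  rw [z1, z2] at hPW
  exact bst_le_WH (upp_pos _ M) le_rfl (upp_dvd _ hM.ne' hb) (upp_dvd _ hM.ne' hc) hPW

/-- equal letters in `(y, cut t]` -/
lemma LSx.heq (hN : Num cp η A m0) (hM : 0 < M) (hb : b ∣ M) (hc : c ∣ M)
    (D : LSx F (ParOf cp A m0 γ L M B) jB x t b c h f f' p) {q : ℕ} (hq : q.Prime)
    (hy : yy A x < q) (hqt : q ≤ (ParOf cp A m0 γ L M B).cut t) :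
    (upp (yy A x) b).factorization q = (upp (yy A x) c).factorization q := by
  obtain ⟨hg, eb, ec, hcop, hs, hs'⟩ := LBoxPx500.pair_facts hM hb hc
  obtain ⟨h1, h2⟩ := D.nd hN hq hy hqt
  have hnq : ¬ q ≤ yy A x := not_le.2 hy
  rw [fact_upp, fact_upp, if_pos hnq, if_pos hnq]
  have e1 : b.factorization q = (Nat.gcd b c).factorization q +
      (b / Nat.gcd b c).factorization q := by
    conv_lhs => rw [← eb]
    rw [Nat.factorization_mul hg.ne' hs.ne']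
    rfl
  have e2 : c.factorization q = (Nat.gcd b c).factorization q +
      (c / Nat.gcd b c).factorization q := by
    conv_lhs => rw [← ec]
    rw [Nat.factorization_mul hg.ne' hs'.ne']
    rfl
  rw [e1, e2, Nat.factorization_eq_zero_of_not_dvd h1, Nat.factorization_eq_zero_of_not_dvd h2]

/-- constant of the boost -/
noncomputable def CB (A : ℕ) : ℝ :=
  (Real.exp 1100 * (Real.exp (22 / Real.log 2) * 2) * (1 + CM) ^ 2) * (5 * A) ^ 2 *
    (4 * Real.exp (22 / Real.log 2))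

lemma CB_nonneg (A : ℕ) : 0 ≤ CB A := by
  unfold CB
  have := BoostCx972.CM_pos
  positivity

/-- **the boost of a pair of the box** -/
theorem LSx.boost (hN : Num cp η A m0) (hA : 2 ≤ A) (hM : 0 < M) (hL : 0 < L) (hb : b ∣ M)
    (hc : c ∣ M) (hl : h ∈ Lnk γ L b c)
    (D : LSx F (ParOf cp A m0 γ L M B) (jBA A) x t b c h f f' p)
    (hk : ¬ killedB (lamR F (ParOf cp A m0 γ L M B)) b c h)
    (hn : ¬ CHvy F (ParOf cp A m0 γ L M B) (ind B) (1 / 20) b c h) :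
    boostB M (lamR F (ParOf cp A m0 γ L M B)) b c h ≤ (CB A * (((mx x : ℝ) + 1) ^ 2 *
      kk F (ParOf cp A m0 γ L M B) hM A x (Nat.log 2 (low (yy A x) b))
        (Nat.log 2 (low (yy A x) c)) (upp (yy A x) b) (upp (yy A x) c))) *
      (B1Levx52.offW F 1 b * B1Levx52.offW F 1 c) := by
  set P := ParOf cp A m0 γ L M B with hP
  have hlev := (D.lev hN).1
  have hAt : 1 ≤ A * t := by nlinarith
  have hct : P.cut t = 2 ^ (A * t) := rfl
  have hc2 : P.cut (2 * t) = 2 ^ (A * (2 * t)) := rfl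
  have h2c : 2 ≤ P.cut t := by
    rw [hct]
    calc 2 = 2 ^ 1 := by norm_num
      _ ≤ 2 ^ (A * t) := Nat.pow_le_pow_right (by norm_num) hAt
  have hcc : P.cut t ≤ P.cut (2 * t) := by
    rw [hct, hc2]
    exact Nat.pow_le_pow_right (by norm_num) (Nat.mul_le_mul_left _ (by omega))
  have hnear : X1 P b c ≤ (P.cut (2 * t) : ℕ) := D.lp.near.le.trans (by exact_mod_cast hcc)
  have h1 := LBstx360.boost_word (F := F) (P := P) hM hb hc hL (fun i => rfl)
    (fun b i => thr_le_exp b i) h2c hcc D.lp.good hl D.lp.al hnear (y := yy A x) (κ := 1)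
    (κ' := 1) (z := upp (yy A x) b) (z' := upp (yy A x) c) (one_mul _).symm (one_mul _).symm
    (fun q hq h1 h2 => D.heq hN hM hb hc hq h1 h2)
  have hlog : Real.log (P.cut (2 * t) : ℕ) / Real.log (P.cut t : ℕ) = 2 := by
    rw [hct, hc2]
    push_cast
    rw [Real.log_pow, Real.log_pow]
    have hl2 : Real.log 2 ≠ 0 := (Real.log_pos (by norm_num)).ne'
    have hAt' : ((A * t : ℕ) : ℝ) ≠ 0 := by
      have : A * t ≠ 0 := by omega
      exact_mod_cast this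
    push_cast at hAt' ⊢
    rw [div_eq_iff (mul_ne_zero hAt' hl2)]
    ring
  have hly : 1 + Real.log (yy A x : ℕ) ≤ 5 * A * ((mx x : ℝ) + 1) := by
    unfold yy vv
    push_cast
    rw [Real.log_pow]
    push_cast
    have h3 := Real.log_two_lt_d9
    have h4 : (1 : ℝ) ≤ A := by exact_mod_cast hN.A_one
    have h5 : (0 : ℝ) ≤ mx x := Nat.cast_nonneg _
    have h6 : 1 ≤ (A : ℝ) * ((mx x : ℝ) + 1) := by nlinarith
    have h7 : (4 * (A : ℝ) * ((mx x : ℝ) + 1)) * Real.log 2 ≤ 4 * A * ((mx x : ℝ) + 1) * 1 :=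
      mul_le_mul_of_nonneg_left (by linarith) (by positivity)
    linarith
  have hly0 : 0 ≤ 1 + Real.log (yy A x : ℕ) := by
    have := Real.log_natCast_nonneg (yy A x)
    linarith
  have hhigh := D.high hN hA hM hL hb hc hk hn
  have hoff : B1Levx52.offW F (P.cut t) b * B1Levx52.offW F (P.cut t) c ≤
      B1Levx52.offW F 1 b * B1Levx52.offW F 1 c := by
    refine mul_le_mul (B1Levx52.offW_anti (by omega) b) (B1Levx52.offW_anti (by omega) c) ?_ ?_
    · exact zero_le_one.trans (B1Levx52.one_le_offW _ _)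
    · exact zero_le_one.trans (B1Levx52.one_le_offW _ _)
  have hoff0 : 0 ≤ B1Levx52.offW F (P.cut t) b * B1Levx52.offW F (P.cut t) c :=
    mul_nonneg (zero_le_one.trans (B1Levx52.one_le_offW _ _))
      (zero_le_one.trans (B1Levx52.one_le_offW _ _))
  have hprod : ∏ q ∈ (upp (yy A x) M).primeFactors.filter (fun q => q ≤ P.cut t ∧
        (upp (yy A x) b).factorization q < (upp (yy A x) M).factorization q ∧
        (upp (yy A x) c).factorization q < (upp (yy A x) M).factorization q), pf q =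
      HighWx899.bst (Qt (M := M) P (yy A x) t (upp (yy A x) b) (upp (yy A x) c)) := rfl
  rw [hprod, hlog] at h1
  simp only [Nat.log_one_right, Nat.cast_zero, zero_add, mul_one] at h1
  have hCM := BoostCx972.CM_pos
  have hk0 := kk_nonneg F P hM A x (Nat.log 2 (low (yy A x) b))
        (Nat.log 2 (low (yy A x) c)) (upp (yy A x) b) (upp (yy A x) c)
  set kv := kk F P hM A x (Nat.log 2 (low (yy A x) b))
        (Nat.log 2 (low (yy A x) c)) (upp (yy A x) b) (upp (yy A x) c) with hkv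
  set E0 := Real.exp 1100 * (Real.exp (22 / Real.log 2) * 2) * (1 + CM) ^ 2 with hE0
  have hE00 : 0 ≤ E0 := by positivity
  refine h1.trans ?_
  calc E0 * (1 + Real.log (yy A x : ℕ)) ^ 2 *
        (B1Levx52.offW F (P.cut t) b * B1Levx52.offW F (P.cut t) c) *
        HighWx899.bst (Qt (M := M) P (yy A x) t (upp (yy A x) b) (upp (yy A x) c))
      ≤ E0 * (5 * A * ((mx x : ℝ) + 1)) ^ 2 *
        (B1Levx52.offW F 1 b * B1Levx52.offW F 1 c) *
        (4 * Real.exp (22 / Real.log 2) * kv) := by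
        refine mul_le_mul ?_ hhigh ?_ ?_
        · refine mul_le_mul (mul_le_mul_of_nonneg_left (pow_le_pow_left₀ hly0 hly 2) hE00) hoff
            hoff0 (by positivity)
        · refine (HighWx899.bst_pos fun q hq => ?_).le
          unfold Qt at hq
          exact Nat.prime_of_mem_primeFactors (mem_filter.1 hq).1
        · exact mul_nonneg (by positivity) (hoff0.trans hoff)
    _ = _ := by
        unfold CB
        rw [← hE0]
        ring

/-- uniqueness of the offset -/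
theorem QS.uniq (hN : Num cp η A m0) (hM : 0 < M) (hL : 0 < L) (hb : b ∣ M) (hc : c ∣ M)
    {h₁ : ℤ} (h1 : QS F (ParOf cp A m0 γ L M B) (ind B) (1 / 20) (jBA A) x b c h)
    (h2 : QS F (ParOf cp A m0 γ L M B) (ind B) (1 / 20) (jBA A) x b c h₁) : h = h₁ := by
  obtain ⟨_, t, f, f', p, D⟩ := h1
  obtain ⟨_, t₁, f₁, f₁', p₁, D₁⟩ := h2
  have H := hy_of_num (γ := γ) (B := B) hN hM hL F
  have hE : ∀ m, (ParOf cp A m0 γ L M B).m0 ≤ m →
      4 * (ParOf cp A m0 γ L M B).E m ^ 8 < 2 ^ m := by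
    intro m hm
    have hm' : m0 ≤ m := hm
    have h14 : (14 : ℝ) ≤ m := by exact_mod_cast hN.m0_14.trans hm'
    rw [E_pow]
    calc (4 : ℝ) * (2 : ℝ) ^ (cp * m * (8 : ℕ)) = (2 : ℝ) ^ (2 + cp * m * (8 : ℕ)) := by
          rw [Real.rpow_add (by norm_num)]; norm_num
      _ < (2 : ℝ) ^ (m : ℝ) := Real.rpow_lt_rpow_of_exponent_lt (by norm_num) (by
          have h1 : cp * m ≤ 1 / 200 * m := mul_le_mul_of_nonneg_right hN.cp_le (by linarith)
          push_cast; linarith)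
      _ = 2 ^ m := Real.rpow_natCast 2 m
  have hcut1 : ∀ t, 1 ≤ (ParOf cp A m0 γ L M B).cut t := fun t => Nat.one_le_two_pow
  have e1 := LCovBx11.centre_eq (F := F) (P := ParOf cp A m0 γ L M B) hL hM H.cut_mono hE hb
    D.lp.m0 D₁.lp.m0 (hcut1 t) (hcut1 t₁) D.lp.ib D₁.lp.ib D.lp.db D₁.lp.db D.dn
    (by rw [← pow_succ']; exact D.dn1) D₁.dn (by rw [← pow_succ']; exact D₁.dn1)
  have e2 := LCovBx11.centre_eq (F := F) (P := ParOf cp A m0 γ L M B) hL hM H.cut_mono hE hc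
    D.lp.m0 D₁.lp.m0 (hcut1 t) (hcut1 t₁) D.lp.ic D₁.lp.ic D.lp.dc D₁.lp.dc D.dn'
    (by rw [← pow_succ']; exact D.dn1') D₁.dn' (by rw [← pow_succ']; exact D₁.dn1')
  have h3 := D.lp.pt
  rw [e1.1, e2.1] at h3
  exact LCovBx11.gap_unique h3 D₁.lp.pt

end box

/-! ### the set bound of a box -/

lemma setW_of_wbd {M : ℕ} {W : ℕ → ℕ → ℝ} {E : ℝ} (h : LTwx662.WBd M W E) : SetW M W E := by
  intro S S' hS hS'
  refine le_trans (le_of_eq ?_) (h S S' hS hS')
  exact Finset.sum_congr rfl fun z _ => Finset.sum_congr rfl fun z' _ => by ring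

open Classical in
/-- **the set bound of a box** -/
theorem box_set (A : ℕ) : ∃ C : ℝ, 0 < C ∧ ∀ {cp η : ℝ} {m0 : ℕ}, Num cp η A m0 →
    ∀ {γ L : ℝ} {M : ℕ} {B : Finset ℕ} {F : FL M} (hM : 0 < M) (_ : 0 < L) (x : ℕ × ℕ)
    (S S' : Finset ℕ), S ⊆ M.divisors → S' ⊆ M.divisors →
    ∑ b ∈ S, ∑ c ∈ S', BoxKitx179.kerW γ L M (lamR F (ParOf cp A m0 γ L M B))
      (QS F (ParOf cp A m0 γ L M B) (ind B) (1 / 20) (jBA A) x)
      (fun b c => kk F (ParOf cp A m0 γ L M B) hM A x (Nat.log 2 (low (yy A x) b))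
        (Nat.log 2 (low (yy A x) c)) (upp (yy A x) b) (upp (yy A x) c)) b c ≤
      C * KK x ^ (-(1 / 200) : ℝ) * √((∑ b ∈ S, nu M b) * ∑ c ∈ S', nu M c) := by
  obtain ⟨C1, hC1, h1⟩ := LSmoothx808.lsmooth 6
  obtain ⟨C2, hC2, h2⟩ := wbd_box A
  refine ⟨C1 * C2, by positivity, ?_⟩
  intro cp η m0 hN γ L M B F hM hL x S S' hS hS'
  set P := ParOf cp A m0 γ L M B with hP
  have H := hy_of_num (γ := γ) (B := B) hN hM hL F
  rw [← hP] at H
  set lam := lamR F P with hlam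
  set k : ℕ → ℕ → ℕ → ℕ → ℕ → ℝ := fun _ U U' z z' => kk F P hM A x U U' z z' with hk
  have hk0 : ∀ i U U' z z', 0 ≤ k i U U' z z' := fun i U U' z z' => kk_nonneg F P hM A x U U' z z'
  have hW : ∀ i U U', SetW (upp (yy A x) M) (k i U U') C2 := by
    intro i U U'
    have h3 := h2 hM F P rfl 1 le_rfl (yy A x) (yy A x) (KK x) 1 {U} {U'} (fun _ => {1})
      (fun _ => {1}) (by simp) (by simp) le_rfl
    rw [mul_one] at h3
    exact setW_of_wbd h3
  set w : ℕ → ℕ → ℝ := fun b c => kk F P hM A x (Nat.log 2 (low (yy A x) b))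
        (Nat.log 2 (low (yy A x) c)) (upp (yy A x) b) (upp (yy A x) c) with hw
  have hw0 : ∀ b c, 0 ≤ w b c := fun b c => kk_nonneg _ _ _ _ _ _ _ _ _
  set q := QS F P (ind B) (1 / 20) (jBA A) x with hq
  set Φ : ℕ → ℕ → ℝ := fun b c => if (b ∈ S ∧ c ∈ S') ∧
    ∃ h ∈ Lnk γ L b c, ¬ killedB lam b c h ∧ q b c h then w b c else 0 with hΦ
  have hΦ0 : ∀ b c, 0 ≤ Φ b c := by
    intro b c
    rw [hΦ]
    dsimp only
    split_ifs
    · exact hw0 b c
    · exact le_rfl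
  have hE3 : ∀ m, P.m0 ≤ m → 2 * P.E m ^ 3 < 2 ^ m := by
    intro m hm
    refine lt_of_le_of_lt ?_ (H.hE m hm)
    exact mul_le_mul_of_nonneg_left (pow_le_pow_right₀ (H.E_one m) (by norm_num)) (by norm_num)
  have h3 := h1 M F P (yy A x) (ZZ x) (KK x) C2 ∅ k (fun b => if b ∈ S then 1 else 0)
    (fun c => if c ∈ S' then 1 else 0) Φ hM hL H.hN hE3 H.cut_mono (KK_one x)
    (KK_le_yy hN.A_one x) (ZZ_le_yy hN.A_one x) (ZZ_le x) hk0 hC2.le hW
    (fun b => by split_ifs <;> norm_num) (fun b => by split_ifs <;> norm_num)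
    (fun b => by split_ifs <;> norm_num) (fun b => by split_ifs <;> norm_num)
    (by
      intro b c hb hc
      by_cases h4 : (b ∈ S ∧ c ∈ S') ∧ ∃ h ∈ Lnk γ L b c, ¬ killedB lam b c h ∧ q b c h
      · right
        have e : Φ b c = w b c := if_pos h4
        obtain ⟨⟨hbS, hcS⟩, h, _, _, _, t, f, f', p, D⟩ := h4
        refine ⟨?_, t, h, f, f', D.sm hN⟩
        rw [e, if_pos hbS, if_pos hcS]
        have e2 : Crest.Agent.R4C.BoostRx398.bst ∅ (low (yy A x) M) (low (yy A x) b)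
            (low (yy A x) c) = 1 := Finset.prod_empty
        rw [e2]
        simp only [mul_one]
        exact le_rfl
      · left
        exact (if_neg h4).le)
  have eEx : ∀ T : Finset ℕ, T ⊆ M.divisors →
      Ex M (fun b => if b ∈ T then (1 : ℝ) else 0) = ∑ b ∈ T, nu M b := by
    intro T hT
    unfold Ex
    simp only [mul_ite, mul_one, mul_zero]
    rw [← Finset.sum_filter]
    congr 1
    ext b
    simp only [Finset.mem_filter]
    exact ⟨fun h => h.2, fun h => ⟨hT h, h⟩⟩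
  rw [eEx S hS, eEx S' hS', ← Real.sqrt_mul (Finset.sum_nonneg fun b _ => nu_nonneg M b)] at h3
  have h4 : ∑ b ∈ S, ∑ c ∈ S', BoxKitx179.kerW γ L M lam q w b c ≤ frm M Φ := by
    have hnn : ∀ b c, (0 : ℝ) ≤ (Nat.gcd b c : ℝ) * nu M b * nu M c * Φ b c := fun b c =>
      mul_nonneg (BoxKitx179.gn M b c) (hΦ0 b c)
    calc ∑ b ∈ S, ∑ c ∈ S', BoxKitx179.kerW γ L M lam q w b c
        = ∑ b ∈ S, ∑ c ∈ S', (Nat.gcd b c : ℝ) * nu M b * nu M c * Φ b c := by
          refine Finset.sum_congr rfl fun b hb => Finset.sum_congr rfl fun c hc => ?_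
          unfold BoxKitx179.kerW
          rw [hΦ]
          dsimp only
          by_cases h5 : ∃ h ∈ Lnk γ L b c, ¬ killedB lam b c h ∧ q b c h
          · rw [if_pos h5, if_pos ⟨⟨hb, hc⟩, h5⟩]
          · rw [if_neg h5, if_neg (fun h => h5 h.2), mul_zero]
      _ ≤ ∑ b ∈ S, ∑ c ∈ M.divisors, (Nat.gcd b c : ℝ) * nu M b * nu M c * Φ b c :=
          Finset.sum_le_sum fun b _ =>
            Finset.sum_le_sum_of_subset_of_nonneg hS' fun c _ _ => hnn b c
      _ ≤ ∑ b ∈ M.divisors, ∑ c ∈ M.divisors, (Nat.gcd b c : ℝ) * nu M b * nu M c * Φ b c :=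
          Finset.sum_le_sum_of_subset_of_nonneg hS fun b _ _ =>
            Finset.sum_nonneg fun c _ => hnn b c
      _ = frm M Φ := rfl
  exact h4.trans h3

/-! ### the sum over the boxes -/

/-- the sum over the boxes -/
theorem sum_boxes : ∃ C : ℝ, 0 ≤ C ∧ ∀ T : Finset (ℕ × ℕ),
    ∑ x ∈ T, ((mx x : ℝ) + 1) ^ 2 * KK x ^ (-(1 / 200) : ℝ) ≤ C := by
  classical
  set C2 : ℝ := max 1 (1 / ((1 / 1600 : ℝ) * Real.log 2)) with hC2
  set ρ : ℝ := (2 : ℝ) ^ (-(1 / 800) : ℝ) with hρ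
  have hρ0 : 0 < ρ := by positivity
  have hρ1 : ρ < 1 := Real.rpow_lt_one_of_one_lt_of_neg (by norm_num) (by norm_num)
  have hC20 : 0 ≤ C2 := zero_le_one.trans (le_max_left _ _)
  refine ⟨C2 ^ 2 * ((1 - ρ)⁻¹ * (1 - ρ)⁻¹), by
    have : 0 < 1 - ρ := by linarith
    positivity, fun T => ?_⟩
  have key : ∀ x : ℕ × ℕ, ((mx x : ℝ) + 1) ^ 2 * KK x ^ (-(1 / 200) : ℝ) ≤
      C2 ^ 2 * (ρ ^ x.1 * ρ ^ x.2) := by
    intro x
    have h1 := TwistKKx863.succ_le_small (ε := 1 / 1600) (by norm_num) 2 (mx x) le_rfl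
    rw [← hC2] at h1
    push_cast at h1
    set a : ℝ := (2 : ℝ) ^ (mx x) with ha
    have ha1 : 1 ≤ a := one_le_pow₀ (by norm_num)
    have ha0 : 0 < a := by linarith
    have h2 : ((mx x : ℝ) + 1) ^ 2 ≤ C2 ^ 2 * a ^ (1 / 800 : ℝ) := by
      calc ((mx x : ℝ) + 1) ^ 2 ≤ (C2 * a ^ (1 / 1600 : ℝ)) ^ 2 :=
            pow_le_pow_left₀ (by positivity) h1 2
        _ = C2 ^ 2 * a ^ (1 / 800 : ℝ) := by
            rw [mul_pow, ← Real.rpow_natCast (a ^ (1 / 1600 : ℝ)), ← Real.rpow_mul ha0.le]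
            norm_num
    have h3 : KK x ^ (-(1 / 200) : ℝ) ≤ a ^ (-(1 / 200) : ℝ) := by
      refine Real.rpow_le_rpow_of_nonpos ha0 ?_ (by norm_num)
      unfold KK
      rw [ha]
      exact pow_le_pow_right₀ (by norm_num) (by omega)
    have h4 : a ^ (1 / 800 : ℝ) * a ^ (-(1 / 200) : ℝ) ≤ ρ ^ x.1 * ρ ^ x.2 := by
      rw [← Real.rpow_add ha0, ← pow_add, hρ, ha, ← Real.rpow_natCast,
        ← Real.rpow_natCast ((2 : ℝ) ^ (-(1 / 800) : ℝ)), ← Real.rpow_mul (by norm_num),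
        ← Real.rpow_mul (by norm_num)]
      refine Real.rpow_le_rpow_of_exponent_le (by norm_num) ?_
      have h5 : ((x.1 + x.2 : ℕ) : ℝ) ≤ 2 * (mx x : ℝ) := by
        have : x.1 + x.2 ≤ 2 * mx x := by unfold mx; omega
        exact_mod_cast this
      have h6 : (0 : ℝ) ≤ mx x := Nat.cast_nonneg _
      linarith
    calc ((mx x : ℝ) + 1) ^ 2 * KK x ^ (-(1 / 200) : ℝ)
        ≤ (C2 ^ 2 * a ^ (1 / 800 : ℝ)) * a ^ (-(1 / 200) : ℝ) :=
          mul_le_mul h2 h3 (by have := KK_pos x; positivity) (by positivity)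
      _ = C2 ^ 2 * (a ^ (1 / 800 : ℝ) * a ^ (-(1 / 200) : ℝ)) := by ring
      _ ≤ _ := mul_le_mul_of_nonneg_left h4 (by positivity)
  refine (Finset.sum_le_sum fun x _ => key x).trans ?_
  rw [← Finset.mul_sum]
  refine mul_le_mul_of_nonneg_left ?_ (by positivity)
  have hgeo : ∀ s : Finset ℕ, ∑ i ∈ s, ρ ^ i ≤ (1 - ρ)⁻¹ := by
    intro s
    rw [← tsum_geometric_of_lt_one hρ0.le hρ1]
    exact (summable_geometric_of_lt_one hρ0.le hρ1).sum_le_tsum s fun i _ => by positivity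
  have hsub : T ⊆ T.image Prod.fst ×ˢ T.image Prod.snd := by
    intro x hx
    exact mem_product.2 ⟨mem_image_of_mem _ hx, mem_image_of_mem _ hx⟩
  calc ∑ x ∈ T, ρ ^ x.1 * ρ ^ x.2
      ≤ ∑ x ∈ T.image Prod.fst ×ˢ T.image Prod.snd, ρ ^ x.1 * ρ ^ x.2 :=
        Finset.sum_le_sum_of_subset_of_nonneg hsub fun x _ _ => by positivity
    _ = (∑ i ∈ T.image Prod.fst, ρ ^ i) * ∑ j ∈ T.image Prod.snd, ρ ^ j := by
        rw [Finset.sum_mul_sum, Finset.sum_product]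
    _ ≤ (1 - ρ)⁻¹ * (1 - ρ)⁻¹ := by
        refine mul_le_mul (hgeo _) (hgeo _) (Finset.sum_nonneg fun _ _ => by positivity) ?_
        exact (Finset.sum_nonneg fun _ _ => by positivity).trans (hgeo ∅)

lemma kerW_smul {γ L : ℝ} {M : ℕ} {lam : ℕ → ℕ → Option ℤ} {q : ℕ → ℕ → ℤ → Prop}
    {W : ℕ → ℕ → ℝ} (a : ℝ) (b c : ℕ) :
    BoxKitx179.kerW γ L M lam q (fun b c => a * W b c) b c =
      a * BoxKitx179.kerW γ L M lam q W b c := by
  unfold BoxKitx179.kerW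
  split_ifs
  · ring
  · rw [mul_zero]

/-- the smooth pairs without heavy member -/
theorem cls_smooth (γ : ℝ) : ClsOK γ (fun cp _ A m0 L M B F b c h =>
    LSm F (ParOf cp A m0 γ L M B) (jBA A) b c h ∧
      ¬ CHvy F (ParOf cp A m0 γ L M B) (ind B) (1 / 20) b c h) := by
  obtain ⟨Cs, hCs, hsum⟩ := sum_boxes
  refine BoxKitx179.clsOK_of_boxes (ι := ℕ × ℕ) 1 ?_
  refine (evNum.and (Ev.le_A (fun _ _ => 2))).mono ?_
  rintro cp η A m0 ⟨hN, hA2⟩
  have hA : 2 ≤ A := by exact_mod_cast hA2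
  obtain ⟨C, hC, hset⟩ := box_set A
  have hCB := CB_nonneg A
  refine ⟨CB A * C * Cs, by positivity, fun _ => True, fun x => CB A * C *
    (((mx x : ℝ) + 1) ^ 2 * KK x ^ (-(1 / 200) : ℝ)), ?_, ?_, ?_⟩
  · intro x
    have := KK_pos x
    positivity
  · intro T _
    rw [← Finset.mul_sum]
    exact mul_le_mul_of_nonneg_left (hsum T) (by positivity)
  · intro L M B F hS
    have hM := hS.hM
    have hL := hS.hL
    refine ⟨fun x => QS F (ParOf cp A m0 γ L M B) (ind B) (1 / 20) (jBA A) x,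
      fun x b c => CB A * (((mx x : ℝ) + 1) ^ 2 * kk F (ParOf cp A m0 γ L M B) hM A x
        (Nat.log 2 (low (yy A x) b)) (Nat.log 2 (low (yy A x) c)) (upp (yy A x) b)
        (upp (yy A x) c)), ?_, ?_, ?_, ?_, ?_⟩
    · intro x b c
      exact mul_nonneg hCB (mul_nonneg (by positivity) (kk_nonneg _ _ _ _ _ _ _ _ _))
    · intro b _ c _ _ h _ _ hR
      obtain ⟨x, hx⟩ := cover hR.1 hR.2
      exact ⟨x, trivial, hx⟩
    · intro x _ b hb c hc _ h₁ _ h₂ _ _ _ hq1 hq2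
      exact QS.uniq hN hM hL (hS.dvd hb) (hS.dvd hc) hq1 hq2
    · intro x _ b hb c hc _ h hl hk hq
      obtain ⟨hn, t, f, f', p, D⟩ := hq
      exact D.boost hN hA hM hL (hS.dvd hb) (hS.dvd hc) hl hk hn
    · intro x _ S S' hSB hSB'
      have h1 := hset hN (γ := γ) (B := B) (F := F) hM hL x S S' (hSB.trans hS.hB)
        (hSB'.trans hS.hB)
      have hn0 : 0 ≤ ∑ b ∈ S, nu M b := Finset.sum_nonneg fun b _ => nu_nonneg M b
      have e2 : √((L * ∑ b ∈ S, nu M b) * (L * ∑ c ∈ S', nu M c)) =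
          L * √((∑ b ∈ S, nu M b) * ∑ c ∈ S', nu M c) := by
        have e1 : (L * ∑ b ∈ S, nu M b) * (L * ∑ c ∈ S', nu M c) =
            L ^ 2 * ((∑ b ∈ S, nu M b) * ∑ c ∈ S', nu M c) := by ring
        rw [e1, Real.sqrt_mul (by positivity), Real.sqrt_sq hL.le]
      rw [e2]
      have e3 : ∀ b c, BoxKitx179.kerW γ L M (lamOf cp A m0 γ L M B F)
          (QS F (ParOf cp A m0 γ L M B) (ind B) (1 / 20) (jBA A) x)
          (fun b c => CB A * (((mx x : ℝ) + 1) ^ 2 * kk F (ParOf cp A m0 γ L M B) hM A x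
            (Nat.log 2 (low (yy A x) b)) (Nat.log 2 (low (yy A x) c)) (upp (yy A x) b)
            (upp (yy A x) c))) b c = (CB A * ((mx x : ℝ) + 1) ^ 2) *
          BoxKitx179.kerW γ L M (lamR F (ParOf cp A m0 γ L M B))
            (QS F (ParOf cp A m0 γ L M B) (ind B) (1 / 20) (jBA A) x)
            (fun b c => kk F (ParOf cp A m0 γ L M B) hM A x (Nat.log 2 (low (yy A x) b))
              (Nat.log 2 (low (yy A x) c)) (upp (yy A x) b) (upp (yy A x) c)) b c := by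
        intro b c
        rw [← kerW_smul]
        congr 1
        funext b c
        ring
      simp only [e3]
      simp_rw [← Finset.mul_sum]
      have hKp := KK_pos x
      calc L * ((CB A * ((mx x : ℝ) + 1) ^ 2) * ∑ b ∈ S, ∑ c ∈ S',
            BoxKitx179.kerW γ L M (lamR F (ParOf cp A m0 γ L M B))
            (QS F (ParOf cp A m0 γ L M B) (ind B) (1 / 20) (jBA A) x)
            (fun b c => kk F (ParOf cp A m0 γ L M B) hM A x (Nat.log 2 (low (yy A x) b))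
              (Nat.log 2 (low (yy A x) c)) (upp (yy A x) b) (upp (yy A x) c)) b c)
          ≤ L * ((CB A * ((mx x : ℝ) + 1) ^ 2) * (C * KK x ^ (-(1 / 200) : ℝ) *
            √((∑ b ∈ S, nu M b) * ∑ c ∈ S', nu M c))) :=
            mul_le_mul_of_nonneg_left (mul_le_mul_of_nonneg_left h1 (by positivity)) hL.le
        _ = _ := by ring

/-- **target S of class (L)** -/
theorem tgtS (γ : ℝ) : TgtS γ := by
  refine ClsOK.mono (ClsOK.or (Crest.Agent.R4C.ClsHvyx281.cls_hvy γ) (cls_smooth γ))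
    (Ev.of_forall ?_)
  intro cp η A m0 L M B F _ b _ c _ _ h _ _ hR
  by_cases hc : CHvy F (ParOf cp A m0 γ L M B) (ind B) (1 / 20) b c h
  · exact Or.inl hc
  · exact Or.inr ⟨hR, hc⟩

end Crest.Agent.R4C.LSmClsx808
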