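import Crest.Agent.R4C.Last_79
import Crest.Agent.R4C.GWinstV3_24
import Crest.Agent.R4C.TBud_322

/-!
# Row 4: S0004 from the two targets `TOk` and `TPair` of the vector world (helper79, ledger check)
-/

set_option autoImplicit false

open MeasureTheory Filter

namespace Crest.Agent.R4C.Lastx79

/-- S0004 from `TOk` and `TPair` -/
theorem of_two {γ : ℝ} {X0 : ℕ} (hOk : Crest.Agent.R4C.VDefx24.TOk γ)
    (hPair : Crest.Agent.R4C.VDefx24.TPair γ X0)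
    (ψ : ℕ → ℝ) (hψ : ∀ q, 0 ≤ ψ q)
    (hdiv : ¬ Summable fun q : ℕ => (Nat.totient q : ℝ) / q * ψ q) :
    ∀ᵐ x : ℝ, ∃ᶠ q : ℕ in atTop, |(q : ℝ) * x - γ - round ((q : ℝ) * x - γ)| < ψ q :=
  of_total (Crest.Agent.R4C.GWinstVx24.ttot hOk (Crest.Agent.R4C.TBudx322.tbud γ) hPair)
    ψ hψ hdiv

end Crest.Agent.R4C.Lastx79
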