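import Crest.Agent.R4C.LeafTau_590
import Crest.Agent.R4C.TauMom_590

/-!
# Row 4: model density of a box-rare relation (helper590)

`rho_model`: for `K` in `[0,1]` supported on pairs of divisors of `M` whose coprime cofactors lie
in `R0`, `BoxD M R0 D`, all primes of `M` at most `Y`:
`RhoB Mz H (K(h·, h'·)) (C (v v'/D)^{1/2} (log Y)^5)` in every model `(Ma, Mz, H, h, h')`,
`v = h/(h,h')`, `v' = h'/(h,h')`.
-/

set_option autoImplicit false

namespace Crest.Agent.R4C.LeafRhox590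

open Finset Crest.Agent.R4C.Basex935 Crest.Agent.R4C.ThmRx19 Crest.Agent.R4C.PowRx473
open Crest.Agent.R4C.LeafTaux590

lemma two_pow_neg_le {κ : ℝ} (h0 : 0 ≤ κ) (h1 : κ ≤ 1) : (2 : ℝ) ^ (-κ) ≤ 1 - κ / 2 := by
  have h := Real.geom_mean_le_arith_mean2_weighted (sub_nonneg.2 h1) h0 (zero_le_one' ℝ)
    (by norm_num : (0 : ℝ) ≤ 1 / 2) (by ring)
  rw [Real.one_rpow, one_mul] at h
  have e : (2 : ℝ) ^ (-κ) = (1 / 2 : ℝ) ^ κ := by
    rw [Real.rpow_neg (by norm_num), one_div, Real.inv_rpow (by norm_num)]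
  rw [e]
  linarith

/-- Cauchy-Schwarz with the Rankin weight -/
lemma cauchy_rankin {κ : ℝ} (W : Finset (ℕ × ℕ)) (hW : ∀ w ∈ W, 0 < w.1 ∧ 0 < w.2) (t : ℕ → ℝ)
    (Dv : Finset ℕ) (hD : ∀ w ∈ W, w.1 ∈ Dv ∧ w.2 ∈ Dv) :
    ∑ w ∈ W, t w.1 * t w.2 * (1 / ((w.1 : ℝ) * w.2)) ≤
      Real.sqrt (∑ w ∈ W, ((w.1 : ℝ) * w.2) ^ (-(1 + κ))) *
        ∑ n ∈ Dv, t n ^ 2 * (n : ℝ) ^ (-(1 - κ)) := by
  classical
  have h1 : ∀ w ∈ W, t w.1 * t w.2 * (1 / ((w.1 : ℝ) * w.2)) =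
      ((w.1 : ℝ) * w.2) ^ (-(1 + κ) / 2) * (t w.1 * t w.2 * ((w.1 : ℝ) * w.2) ^ (-(1 - κ) / 2)) := by
    intro w hw
    obtain ⟨p1, p2⟩ := hW w hw
    have hp : (0 : ℝ) < (w.1 : ℝ) * w.2 := by positivity
    have e : ((w.1 : ℝ) * w.2) ^ (-(1 + κ) / 2) * ((w.1 : ℝ) * w.2) ^ (-(1 - κ) / 2) =
        1 / ((w.1 : ℝ) * w.2) := by
      rw [← Real.rpow_add hp, show -(1 + κ) / 2 + -(1 - κ) / 2 = (-1 : ℝ) by ring,
        Real.rpow_neg_one, one_div]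
    rw [← e]; ring
  rw [Finset.sum_congr rfl h1]
  refine (Real.sum_mul_le_sqrt_mul_sqrt W _ _).trans ?_
  have e1 : ∑ w ∈ W, (((w.1 : ℝ) * w.2) ^ (-(1 + κ) / 2)) ^ 2 =
      ∑ w ∈ W, ((w.1 : ℝ) * w.2) ^ (-(1 + κ)) := by
    refine Finset.sum_congr rfl fun w hw => ?_
    obtain ⟨p1, p2⟩ := hW w hw
    rw [← Real.rpow_natCast, ← Real.rpow_mul (by positivity)]
    congr 1; push_cast; ring
  have hT : 0 ≤ ∑ n ∈ Dv, t n ^ 2 * (n : ℝ) ^ (-(1 - κ)) :=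
    Finset.sum_nonneg fun n _ => mul_nonneg (sq_nonneg _) (Real.rpow_nonneg (Nat.cast_nonneg _) _)
  have e2 : ∑ w ∈ W, (t w.1 * t w.2 * ((w.1 : ℝ) * w.2) ^ (-(1 - κ) / 2)) ^ 2 ≤
      (∑ n ∈ Dv, t n ^ 2 * (n : ℝ) ^ (-(1 - κ))) ^ 2 := by
    rw [sq (∑ n ∈ Dv, t n ^ 2 * (n : ℝ) ^ (-(1 - κ))), Finset.sum_mul_sum, ← Finset.sum_product']
    calc ∑ w ∈ W, (t w.1 * t w.2 * ((w.1 : ℝ) * w.2) ^ (-(1 - κ) / 2)) ^ 2
        = ∑ w ∈ W, t w.1 ^ 2 * (w.1 : ℝ) ^ (-(1 - κ)) * (t w.2 ^ 2 * (w.2 : ℝ) ^ (-(1 - κ))) := by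
          refine Finset.sum_congr rfl fun w hw => ?_
          obtain ⟨p1, p2⟩ := hW w hw
          rw [mul_pow, mul_pow, ← Real.rpow_natCast (((w.1 : ℝ) * w.2) ^ (-(1 - κ) / 2)),
            ← Real.rpow_mul (by positivity),
            show -(1 - κ) / 2 * ((2 : ℕ) : ℝ) = -(1 - κ) by push_cast; ring,
            Real.mul_rpow (by positivity) (by positivity)]
          ring
      _ ≤ _ := by
          refine Finset.sum_le_sum_of_subset_of_nonneg ?_ ?_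
          · intro w hw
            exact Finset.mem_product.2 (hD w hw)
          · intro w _ _
            have := Real.rpow_nonneg (Nat.cast_nonneg (α := ℝ) w.1) (-(1 - κ))
            have := Real.rpow_nonneg (Nat.cast_nonneg (α := ℝ) w.2) (-(1 - κ))
            positivity
  rw [e1]
  refine mul_le_mul_of_nonneg_left ?_ (Real.sqrt_nonneg _)
  calc Real.sqrt _ ≤ Real.sqrt ((∑ n ∈ Dv, t n ^ 2 * (n : ℝ) ^ (-(1 - κ))) ^ 2) :=
        Real.sqrt_le_sqrt e2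
    _ = _ := Real.sqrt_sq hT

/-- **model density of a box-rare relation** -/
theorem rho_model : ∃ C : ℝ, 0 < C ∧ ∀ (Y D : ℝ) (M : ℕ) (R0 : ℕ → ℕ → Prop) (K : ℕ → ℕ → ℝ),
    16 ≤ Y → 0 < D → 0 < M → (∀ p, p.Prime → p ∣ M → (p : ℝ) ≤ Y) → BoxD M R0 D →
    (∀ b c, 0 ≤ K b c) → (∀ b c, K b c ≤ 1) →
    (∀ b c, b ∣ M → c ∣ M → K b c ≠ 0 → R0 (b / Nat.gcd b c) (c / Nat.gcd b c)) →
    ∀ Ma Mz H h h' : ℕ, Ma * Mz = M → Nat.Coprime Ma Mz → h ∣ Ma → h' ∣ Ma → H ∣ Mz →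
      RhoB Mz H (fun u v => K (h * u) (h' * v))
        (C * Real.sqrt (((h / Nat.gcd h h' : ℕ) : ℝ) * ((h' / Nat.gcd h h' : ℕ) : ℝ) / D) *
          Real.log Y ^ 5) := by
  classical
  obtain ⟨C0, hC0, hτ⟩ := TauMomx590.tau_moment_four
  refine ⟨8 * Real.sqrt 72 * C0, by positivity, ?_⟩
  intro Y D M R0 K hY hD hM hp hR hK hK1 hKR Ma Mz H h h' hMM hco hh hh' hH a a'
  have hMa : 0 < Ma := Nat.pos_of_ne_zero (by rintro rfl; omega)
  have hMz : 0 < Mz := Nat.pos_of_ne_zero (by rintro rfl; omega)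
  have hH0 : 0 < H := Nat.pos_of_dvd_of_pos hH hMz
  have hh0 : 0 < h := Nat.pos_of_dvd_of_pos hh hMa
  have hh0' : 0 < h' := Nat.pos_of_dvd_of_pos hh' hMa
  set v : ℕ := h / Nat.gcd h h' with hv
  set v' : ℕ := h' / Nat.gcd h h' with hv'
  have hg0 : 0 < Nat.gcd h h' := Nat.gcd_pos_of_pos_left _ hh0
  have hv0 : 0 < v := Nat.div_pos (Nat.le_of_dvd hh0 (Nat.gcd_dvd_left _ _)) hg0
  have hv0' : 0 < v' := Nat.div_pos (Nat.le_of_dvd hh0' (Nat.gcd_dvd_right _ _)) hg0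
  have hlY16 : Real.log 16 ≤ Real.log Y := Real.log_le_log (by norm_num) hY
  have hl1 : 1 ≤ Real.log Y := by
    have h1 : Real.log (Real.exp 1) ≤ Real.log Y :=
      Real.log_le_log (Real.exp_pos _) (by linarith [Real.exp_one_lt_d9])
    rwa [Real.log_exp] at h1
  set κ : ℝ := 1 / Real.log Y with hκ
  have hκ0 : 0 < κ := by positivity
  have hκ1 : κ ≤ 1 := by rw [hκ, div_le_one (by linarith)]; exact hl1
  set F : ℕ → Finset ℕ := fun x => Mz.divisors.filter (fun b => Nat.log 2 (ub H b) = x) with hF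
  set nn : ℕ × ℕ → ℕ × ℕ := fun w => (w.1 / Nat.gcd w.1 w.2, w.2 / Nat.gcd w.1 w.2) with hnn
  set W : Finset (ℕ × ℕ) := (Mz.divisors ×ˢ Mz.divisors).filter (fun z =>
    v * z.1 ∣ M ∧ v' * z.2 ∣ M ∧ Nat.Coprime (v * z.1) (v' * z.2) ∧ R0 (v * z.1) (v' * z.2)) with hWd
  set X : Finset (ℕ × ℕ) := (F a ×ˢ F a').filter (fun w => lvl Mz H w.1 w.2 ∧ nn w ∈ W) with hX
  -- pointwise bound
  have hpt : ∀ w ∈ F a ×ˢ F a',
      (if lvl Mz H w.1 w.2 then wb Mz H w.1 * wb Mz H w.2 * K (h * w.1) (h' * w.2) else 0) ≤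
      (if lvl Mz H w.1 w.2 ∧ nn w ∈ W then
        4 * 2 ^ a * 2 ^ a' * (1 / (((nn w).1 : ℝ) * (nn w).2)) else 0) := by
    intro w hw
    obtain ⟨hw1, hw2⟩ := Finset.mem_product.1 hw
    obtain ⟨d1, l1⟩ := Finset.mem_filter.1 hw1
    obtain ⟨d2, l2⟩ := Finset.mem_filter.1 hw2
    have hb := Nat.dvd_of_mem_divisors d1
    have hc := Nat.dvd_of_mem_divisors d2
    have hb0 : 0 < w.1 := Nat.pos_of_dvd_of_pos hb hMz
    have hc0 : 0 < w.2 := Nat.pos_of_dvd_of_pos hc hMz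
    have hnn0 : (0 : ℝ) ≤ 4 * 2 ^ a * 2 ^ a' * (1 / (((nn w).1 : ℝ) * (nn w).2)) := by positivity
    by_cases hl : lvl Mz H w.1 w.2
    · rw [if_pos hl]
      by_cases hz : K (h * w.1) (h' * w.2) = 0
      · rw [hz, mul_zero]
        split_ifs
        · exact hnn0
        · exact le_rfl
      · have hbM : h * w.1 ∣ M := hMM ▸ Nat.mul_dvd_mul hh hb
        have hcM : h' * w.2 ∣ M := hMM ▸ Nat.mul_dvd_mul hh' hc
        have hRR := hKR _ _ hbM hcM hz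
        have c1 := cof_mul hco hh hh' hb hc
        have c2 : (h' * w.2) / Nat.gcd (h * w.1) (h' * w.2) = v' * (w.2 / Nat.gcd w.1 w.2) := by
          rw [Nat.gcd_comm, cof_mul hco hh' hh hc hb, Nat.gcd_comm h' h, Nat.gcd_comm w.2 w.1]
        rw [c1, c2] at hRR
        have hcopr : Nat.Coprime (v * (w.1 / Nat.gcd w.1 w.2)) (v' * (w.2 / Nat.gcd w.1 w.2)) := by
          have := Nat.coprime_div_gcd_div_gcd (m := h * w.1) (n := h' * w.2)
            (Nat.gcd_pos_of_pos_left _ (Nat.mul_pos hh0 hb0))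
          rwa [c1, c2] at this
        have dv1 : v * (w.1 / Nat.gcd w.1 w.2) ∣ M :=
          (c1 ▸ Nat.div_dvd_of_dvd (Nat.gcd_dvd_left (h * w.1) (h' * w.2))).trans hbM
        have dv2 : v' * (w.2 / Nat.gcd w.1 w.2) ∣ M :=
          (c2 ▸ Nat.div_dvd_of_dvd (Nat.gcd_dvd_right (h * w.1) (h' * w.2))).trans hcM
        have hmem : nn w ∈ W := by
          rw [hWd, Finset.mem_filter, Finset.mem_product, Nat.mem_divisors, Nat.mem_divisors]
          refine ⟨⟨⟨(Nat.div_dvd_of_dvd (Nat.gcd_dvd_left _ _)).trans hb, hMz.ne'⟩,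
            ⟨(Nat.div_dvd_of_dvd (Nat.gcd_dvd_right _ _)).trans hc, hMz.ne'⟩⟩, ?_⟩
          exact ⟨dv1, dv2, hcopr, hRR⟩
        rw [if_pos ⟨hl, hmem⟩]
        have e1 : (nn w).1 = lb H w.1 * ub H w.2 := cof_lvl hMz hb hc hH hl
        have e2 : (nn w).2 = lb H w.2 * ub H w.1 := by
          have := cof_lvl hMz hc hb hH (lvl_symm hl)
          rw [← this, Nat.gcd_comm]
        have p1 : (0 : ℝ) < lb H w.1 := by exact_mod_cast lb_pos (H := H) hb0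
        have p2 : (0 : ℝ) < lb H w.2 := by exact_mod_cast lb_pos (H := H) hc0
        have p3 : (0 : ℝ) < ub H w.1 := by exact_mod_cast ub_pos (b := w.1) hH0
        have p4 : (0 : ℝ) < ub H w.2 := by exact_mod_cast ub_pos (b := w.2) hH0
        have u1 : (ub H w.1 : ℝ) ≤ 2 * 2 ^ a := by
          have := Nat.lt_pow_succ_log_self (b := 2) (by norm_num) (ub H w.1)
          rw [l1, pow_succ] at this
          have h3 : ((ub H w.1 : ℕ) : ℝ) < ((2 ^ a * 2 : ℕ) : ℝ) := by exact_mod_cast this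
          push_cast at h3; linarith
        have u2 : (ub H w.2 : ℝ) ≤ 2 * 2 ^ a' := by
          have := Nat.lt_pow_succ_log_self (b := 2) (by norm_num) (ub H w.2)
          rw [l2, pow_succ] at this
          have h3 : ((ub H w.2 : ℕ) : ℝ) < ((2 ^ a' * 2 : ℕ) : ℝ) := by exact_mod_cast this
          push_cast at h3; linarith
        have w1 := wb_le (H := H) hMz hb
        have w2 := wb_le (H := H) hMz hc
        have wn1 : 0 ≤ wb Mz H w.1 := by unfold wb; exact mul_nonneg (Nat.cast_nonneg _) (nu_nonneg _ _)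
        have wn2 : 0 ≤ wb Mz H w.2 := by unfold wb; exact mul_nonneg (Nat.cast_nonneg _) (nu_nonneg _ _)
        calc wb Mz H w.1 * wb Mz H w.2 * K (h * w.1) (h' * w.2)
            ≤ wb Mz H w.1 * wb Mz H w.2 * 1 :=
              mul_le_mul_of_nonneg_left (hK1 _ _) (mul_nonneg wn1 wn2)
          _ = wb Mz H w.1 * wb Mz H w.2 := mul_one _
          _ ≤ (1 / (lb H w.1 : ℝ)) * (1 / (lb H w.2 : ℝ)) := mul_le_mul w1 w2 wn2 (by positivity)
          _ = ((ub H w.1 : ℝ) * ub H w.2) * (1 / (((nn w).1 : ℝ) * (nn w).2)) := by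
              rw [e1, e2]; push_cast; field_simp
          _ ≤ ((2 * 2 ^ a) * (2 * 2 ^ a')) * (1 / (((nn w).1 : ℝ) * (nn w).2)) := by
              refine mul_le_mul_of_nonneg_right ?_ (by positivity)
              exact mul_le_mul u1 u2 p4.le (by positivity)
          _ = 4 * 2 ^ a * 2 ^ a' * (1 / (((nn w).1 : ℝ) * (nn w).2)) := by ring
    · rw [if_neg hl, if_neg (fun h => hl h.1)]
  -- the sum over `X`
  have hsum1 : ∑ b ∈ F a, ∑ c ∈ F a',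
      (if lvl Mz H b c then wb Mz H b * wb Mz H c * K (h * b) (h' * c) else 0) ≤
      4 * 2 ^ a * 2 ^ a' * ∑ w ∈ X, 1 / (((nn w).1 : ℝ) * (nn w).2) := by
    rw [← Finset.sum_product' (s := F a) (t := F a')
      (f := fun b c => if lvl Mz H b c then wb Mz H b * wb Mz H c * K (h * b) (h' * c) else 0)]
    refine (Finset.sum_le_sum hpt).trans (le_of_eq ?_)
    rw [← Finset.sum_filter, Finset.mul_sum]
  have hWpos : ∀ z ∈ W, 0 < z.1 ∧ 0 < z.2 := by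
    intro z hz
    have h1 := (Finset.mem_product.1 (Finset.mem_filter.1 hz).1)
    exact ⟨Nat.pos_of_mem_divisors h1.1, Nat.pos_of_mem_divisors h1.2⟩
  -- fibres
  have hsum2 : ∑ w ∈ X, 1 / (((nn w).1 : ℝ) * (nn w).2) ≤
      ∑ z ∈ W, (z.1.divisors.card : ℝ) * z.2.divisors.card * (1 / ((z.1 : ℝ) * z.2)) := by
    have hmaps : ∀ w ∈ X, nn w ∈ W := fun w hw => (Finset.mem_filter.1 hw).2.2
    rw [← Finset.sum_fiberwise_of_maps_to hmaps]
    refine Finset.sum_le_sum fun z hz => ?_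
    have hcst : ∀ w ∈ X.filter (fun w => nn w = z), 1 / (((nn w).1 : ℝ) * (nn w).2) =
        1 / ((z.1 : ℝ) * z.2) := by
      intro w hw
      rw [(Finset.mem_filter.1 hw).2]
    rw [Finset.sum_congr rfl hcst, Finset.sum_const, nsmul_eq_mul]
    refine mul_le_mul_of_nonneg_right ?_ (by positivity)
    obtain ⟨hz1, hz2⟩ := hWpos z hz
    have hfc := fib_card hMz hH X (fun w hw => ?_) z.1 z.2 hz1 hz2
    · exact_mod_cast hfc
    · obtain ⟨hw1, hw2⟩ := Finset.mem_filter.1 hw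
      obtain ⟨hw3, hw4⟩ := Finset.mem_product.1 hw1
      exact ⟨Nat.dvd_of_mem_divisors (Finset.mem_filter.1 hw3).1,
        Nat.dvd_of_mem_divisors (Finset.mem_filter.1 hw4).1, hw2.1⟩
  -- Cauchy
  have hsum3 := cauchy_rankin (κ := κ) W hWpos (fun n => (n.divisors.card : ℝ))
    Mz.divisors
    (fun z hz => Finset.mem_product.1 (Finset.mem_filter.1 hz).1)
  have hB : ∑ w ∈ W, ((w.1 : ℝ) * w.2) ^ (-(1 + κ)) ≤
      72 * ((v : ℝ) * v') / D * (1 / (1 - 2 ^ (-κ))) ^ 2 := by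
    refine box_rankin hκ0 (by positivity) W hWpos ?_
    intro i j
    refine box_shift hD hR hv0 hv0' W ?_ i j
    intro z hz
    obtain ⟨p1, p2⟩ := hWpos z hz
    obtain ⟨q1, q2, q3, q4⟩ := (Finset.mem_filter.1 hz).2
    exact ⟨p1, p2, q1, q2, q3, q4⟩
  have hgeo : 1 / (1 - (2 : ℝ) ^ (-κ)) ≤ 2 * Real.log Y := by
    have h2 := two_pow_neg_le hκ0.le hκ1
    have h3 : κ / 2 ≤ 1 - (2 : ℝ) ^ (-κ) := by linarith
    calc 1 / (1 - (2 : ℝ) ^ (-κ)) ≤ 1 / (κ / 2) := one_div_le_one_div_of_le (by linarith) h3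
      _ = 2 * Real.log Y := by rw [hκ]; field_simp
  have hpz : ∀ p, p.Prime → p ∣ Mz → (p : ℝ) ≤ Y := fun p hpp hd =>
    hp p hpp (hd.trans (hMM ▸ Dvd.intro_left Ma rfl))
  have hT := hτ Y Mz hY hMz hpz
  have hT0 : 0 ≤ ∑ n ∈ Mz.divisors, ((n.divisors.card : ℝ)) ^ 2 * (n : ℝ) ^ (-(1 - κ)) :=
    Finset.sum_nonneg fun n _ => mul_nonneg (sq_nonneg _) (Real.rpow_nonneg (Nat.cast_nonneg _) _)
  have hvv : (0 : ℝ) ≤ (v : ℝ) * v' / D := by positivity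
  have hsq : Real.sqrt (∑ w ∈ W, ((w.1 : ℝ) * w.2) ^ (-(1 + κ))) ≤
      Real.sqrt 72 * Real.sqrt ((v : ℝ) * v' / D) * (2 * Real.log Y) := by
    have h4 : ∑ w ∈ W, ((w.1 : ℝ) * w.2) ^ (-(1 + κ)) ≤
        (Real.sqrt 72 * Real.sqrt ((v : ℝ) * v' / D) * (2 * Real.log Y)) ^ 2 := by
      refine hB.trans ?_
      rw [mul_pow, mul_pow, Real.sq_sqrt (by norm_num), Real.sq_sqrt hvv]
      have h5 : 0 ≤ 1 / (1 - (2 : ℝ) ^ (-κ)) := by
        have h2 := two_pow_neg_le hκ0.le hκ1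
        exact one_div_nonneg.2 (by linarith)
      have h6 := pow_le_pow_left₀ h5 hgeo 2
      calc 72 * ((v : ℝ) * v') / D * (1 / (1 - 2 ^ (-κ))) ^ 2
          = (72 * ((v : ℝ) * v' / D)) * (1 / (1 - 2 ^ (-κ))) ^ 2 := by ring
        _ ≤ (72 * ((v : ℝ) * v' / D)) * (2 * Real.log Y) ^ 2 :=
            mul_le_mul_of_nonneg_left h6 (by positivity)
    calc Real.sqrt _ ≤ Real.sqrt ((Real.sqrt 72 * Real.sqrt ((v : ℝ) * v' / D) *
          (2 * Real.log Y)) ^ 2) := Real.sqrt_le_sqrt h4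
      _ = _ := Real.sqrt_sq (by positivity)
  have hfin : ∑ z ∈ W, (z.1.divisors.card : ℝ) * z.2.divisors.card * (1 / ((z.1 : ℝ) * z.2)) ≤
      (Real.sqrt 72 * Real.sqrt ((v : ℝ) * v' / D) * (2 * Real.log Y)) * (C0 * Real.log Y ^ 4) :=
    hsum3.trans (mul_le_mul hsq hT hT0 (by positivity))
  refine hsum1.trans ?_
  calc 4 * 2 ^ a * 2 ^ a' * ∑ w ∈ X, 1 / (((nn w).1 : ℝ) * (nn w).2)
      ≤ 4 * 2 ^ a * 2 ^ a' * ((Real.sqrt 72 * Real.sqrt ((v : ℝ) * v' / D) *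
          (2 * Real.log Y)) * (C0 * Real.log Y ^ 4)) :=
        mul_le_mul_of_nonneg_left (hsum2.trans hfin) (by positivity)
    _ = 8 * Real.sqrt 72 * C0 * Real.sqrt ((v : ℝ) * v' / D) * Real.log Y ^ 5 * 2 ^ a * 2 ^ a' := by
        ring

end Crest.Agent.R4C.LeafRhox590

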