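import Mathlib

/-!
# Row 4, LEMMA P' of note 2858 (A) (helper767), leaf 455 of helper935 (helper368)

Integers `q` in `[Y, 2Y]` for which a fraction `P / (k r q)` with `gcd (P, q) = 1` lies within
`C / (T r q)` of `γ` : at most `1 + 8 C k Y / T` of them (no primality; only `gcd (P, q) = 1` is
used, the fraction need not be reduced with respect to `k r`).

* `count` : one dyadic interval.
* `dyadic` : `∑ 1/q ≤ 2 / Y0 + 24 C k / √T` over all such `q` in `[Y0, exp √T]`, `T ≥ 1`.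
* `dyadic_log` : general upper end `Z` : `∑ 1/q ≤ 2 / Y0 + 8 C k / T * (log (Z / Y0) / log 2 + 1)`.
-/

set_option autoImplicit false

open Finset

namespace Crest.Agent.R4C.LemPx368

/-- a set of reals with gaps at least `d` in an interval of length `L` has at most `1 + L/d`
elements -/
theorem card_le_gap {ι : Type*} (A : Finset ι) (x : ι → ℝ) {d L g : ℝ} (hd : 0 < d)
    (hgap : ∀ i ∈ A, ∀ j ∈ A, i ≠ j → d ≤ |x i - x j|) (hL : ∀ i ∈ A, g ≤ x i ∧ x i ≤ g + L)
    (hL0 : 0 ≤ L) : (A.card : ℝ) ≤ 1 + L / d := by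
  classical
  rcases A.eq_empty_or_nonempty with rfl | hne
  · simp; positivity
  obtain ⟨i0, hi0, hmin⟩ := A.exists_min_image x hne
  have hinj : Set.InjOn (fun i => ⌊(x i - x i0) / d⌋) (A : Set ι) := by
    intro i hi j hj hij
    by_contra hne'
    have h1 := hgap i hi j hj hne'
    have h2 : |(x i - x i0) / d - (x j - x i0) / d| < 1 := Int.abs_sub_lt_one_of_floor_eq_floor hij
    have h3 : (x i - x i0) / d - (x j - x i0) / d = (x i - x j) / d := by ring
    rw [h3, abs_div, abs_of_pos hd, div_lt_one hd] at h2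
    linarith
  have hmaps : ∀ i ∈ A, ⌊(x i - x i0) / d⌋ ∈ Finset.Icc (0 : ℤ) ⌊L / d⌋ := by
    intro i hi
    rw [Finset.mem_Icc]
    constructor
    · apply Int.floor_nonneg.mpr
      have := hmin i hi
      apply div_nonneg _ hd.le
      linarith
    · apply Int.floor_le_floor
      apply div_le_div_of_nonneg_right _ hd.le
      have h1 := (hL i hi).2
      have h2 := (hL i0 hi0).1
      linarith
  have hcard := Finset.card_le_card_of_injOn _ hmaps hinj
  rw [Int.card_Icc] at hcard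
  have hfl : (0 : ℤ) ≤ ⌊L / d⌋ := Int.floor_nonneg.mpr (by positivity)
  have h1 : ((⌊L / d⌋ + 1 - 0).toNat : ℤ) = ⌊L / d⌋ + 1 := by
    rw [sub_zero]; exact Int.toNat_of_nonneg (by linarith)
  have h2 : (A.card : ℤ) ≤ ⌊L / d⌋ + 1 := by
    rw [← h1]; exact_mod_cast hcard
  have h3 : (A.card : ℝ) ≤ (⌊L / d⌋ : ℝ) + 1 := by exact_mod_cast h2
  have h4 := Int.floor_le (L / d)
  linarith

/-- the condition of Lemma P' -/
def Hit (γ C T : ℝ) (k r q : ℕ) : Prop :=
  ∃ P : ℤ, IsCoprime P (q : ℤ) ∧ |γ - (P : ℝ) / (k * r * q)| ≤ C / (T * r * q)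

theorem Hit_of_reduced {γ C T : ℝ} {k r q : ℕ} {P : ℤ} (h : IsCoprime P ((k * r * q : ℕ) : ℤ))
    (h' : |γ - (P : ℝ) / (k * r * q)| ≤ C / (T * r * q)) : Hit γ C T k r q := by
  refine ⟨P, ?_, h'⟩
  have : ((k * r * q : ℕ) : ℤ) = ((k * r : ℕ) : ℤ) * (q : ℤ) := by push_cast; ring
  rw [this] at h
  exact h.of_mul_right_right

/-- mutual distance of two different fractions -/
theorem gap {k r q q' : ℕ} {P P' : ℤ} (hk : 0 < k) (hr : 0 < r) (hq : 0 < q) (hq' : 0 < q')
    (hP : IsCoprime P (q : ℤ)) (hP' : IsCoprime P' (q' : ℤ)) (hne : q ≠ q') :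
    1 / ((k : ℝ) * r * q * q') ≤ |(P : ℝ) / (k * r * q) - (P' : ℝ) / (k * r * q')| := by
  have hk' : (0 : ℝ) < k := by exact_mod_cast hk
  have hr' : (0 : ℝ) < r := by exact_mod_cast hr
  have hq0 : (0 : ℝ) < q := by exact_mod_cast hq
  have hq0' : (0 : ℝ) < q' := by exact_mod_cast hq'
  have hN : P * (q' : ℤ) - P' * (q : ℤ) ≠ 0 := by
    intro h
    have h1 : P * (q' : ℤ) = P' * (q : ℤ) := by linarith
    have h2 : (q : ℤ) ∣ (q' : ℤ) := by
      apply hP.symm.dvd_of_dvd_mul_left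
      rw [h1]; exact Dvd.intro_left _ rfl
    have h3 : (q' : ℤ) ∣ (q : ℤ) := by
      apply hP'.symm.dvd_of_dvd_mul_left
      rw [← h1]; exact Dvd.intro_left _ rfl
    exact hne (Nat.dvd_antisymm (by exact_mod_cast h2) (by exact_mod_cast h3))
  have hN1 : (1 : ℝ) ≤ |(P : ℝ) * q' - P' * q| := by
    have : (1 : ℤ) ≤ |P * (q' : ℤ) - P' * (q : ℤ)| := Int.one_le_abs hN
    exact_mod_cast this
  have heq : (P : ℝ) / (k * r * q) - (P' : ℝ) / (k * r * q') =
      ((P : ℝ) * q' - P' * q) / (k * r * q * q') := by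
    field_simp
  rw [heq, abs_div, abs_of_pos (by positivity : (0 : ℝ) < k * r * q * q')]
  exact div_le_div_of_nonneg_right hN1 (by positivity)

/-- **LEMMA P'**, one dyadic interval -/
theorem count {γ C T Y : ℝ} {k r : ℕ} (hk : 0 < k) (hr : 0 < r) (hT : 0 < T) (hY : 0 < Y)
    (hC : 0 ≤ C) (A : Finset ℕ) (hA : ∀ q ∈ A, Y ≤ q ∧ (q : ℝ) ≤ 2 * Y ∧ Hit γ C T k r q) :
    (A.card : ℝ) ≤ 1 + 8 * C * k * Y / T := by
  classical
  have hk' : (0 : ℝ) < k := by exact_mod_cast hk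
  have hr' : (0 : ℝ) < r := by exact_mod_cast hr
  have hch : ∀ q : ℕ, ∃ P : ℤ, q ∈ A → IsCoprime P (q : ℤ) ∧
      |γ - (P : ℝ) / (k * r * q)| ≤ C / (T * r * q) := by
    intro q
    by_cases h : q ∈ A
    · obtain ⟨P, hP⟩ := (hA q h).2.2
      exact ⟨P, fun _ => hP⟩
    · exact ⟨0, fun h' => absurd h' h⟩
  choose P hP using hch
  have hpos : ∀ q ∈ A, 0 < q := by
    intro q hq
    have := (hA q hq).1
    exact_mod_cast lt_of_lt_of_le hY this
  have h := card_le_gap A (fun q => (P q : ℝ) / (k * r * q)) (d := 1 / (4 * k * r * Y ^ 2))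
    (L := 2 * (C / (T * r * Y))) (g := γ - C / (T * r * Y)) (by positivity) ?_ ?_ (by positivity)
  · refine h.trans (le_of_eq ?_)
    field_simp
    ring
  · intro q hq q' hq' hne
    refine le_trans ?_ (gap hk hr (hpos q hq) (hpos q' hq') (hP q hq).1 (hP q' hq').1 hne)
    have h1 := (hA q hq).2.1
    have h2 := (hA q' hq').2.1
    have hq0 : (0 : ℝ) < q := by exact_mod_cast hpos q hq
    have hq0' : (0 : ℝ) < q' := by exact_mod_cast hpos q' hq'
    apply one_div_le_one_div_of_le (by positivity)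
    have h3 : (q : ℝ) * q' ≤ (2 * Y) * (2 * Y) := mul_le_mul h1 h2 hq0'.le (by positivity)
    calc (k : ℝ) * r * q * q' = k * r * (q * q') := by ring
      _ ≤ k * r * ((2 * Y) * (2 * Y)) := by gcongr
      _ = 4 * k * r * Y ^ 2 := by ring
  · intro q hq
    have h1 := (hP q hq).2
    have hq0 : (0 : ℝ) < q := by exact_mod_cast hpos q hq
    have h2 : C / (T * r * q) ≤ C / (T * r * Y) := by
      apply div_le_div_of_nonneg_left hC (by positivity)
      have := (hA q hq).1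
      gcongr
    have h3 := abs_le.mp h1
    constructor <;> linarith

/-- dyadic sum, general upper end -/
theorem dyadic_log {γ C T Y0 Z : ℝ} {k r : ℕ} (hk : 0 < k) (hr : 0 < r) (hT : 0 < T)
    (hY : 0 < Y0) (hZ : Y0 ≤ Z) (hC : 0 ≤ C) (A : Finset ℕ)
    (hA : ∀ q ∈ A, Y0 ≤ q ∧ (q : ℝ) ≤ Z ∧ Hit γ C T k r q) :
    ∑ q ∈ A, (1 : ℝ) / q ≤ 2 / Y0 + 8 * C * k / T * (Real.log (Z / Y0) / Real.log 2 + 1) := by
  classical
  have hk' : (0 : ℝ) < k := by exact_mod_cast hk
  have hlog2 : 0 < Real.log 2 := Real.log_pos (by norm_num)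
  have hZ0 : 0 < Z := lt_of_lt_of_le hY hZ
  -- index of the dyadic interval
  set n : ℕ → ℕ := fun q => ⌊Real.log ((q : ℝ) / Y0) / Real.log 2⌋₊ with hn
  set N : ℕ := ⌊Real.log (Z / Y0) / Real.log 2⌋₊ with hN
  have hnN : ∀ q ∈ A, n q ∈ Finset.range (N + 1) := by
    intro q hq
    rw [Finset.mem_range, Nat.lt_succ_iff]
    apply Nat.floor_le_floor
    apply div_le_div_of_nonneg_right _ hlog2.le
    have h1 := (hA q hq).1
    have hq0 : (0 : ℝ) < q := lt_of_lt_of_le hY h1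
    apply Real.log_le_log (by positivity)
    have := (hA q hq).2.1
    gcongr
  have hin : ∀ q ∈ A, Y0 * 2 ^ (n q) ≤ q ∧ (q : ℝ) ≤ 2 * (Y0 * 2 ^ (n q)) := by
    intro q hq
    have h1 := (hA q hq).1
    have hq0 : (0 : ℝ) < q := lt_of_lt_of_le hY h1
    have hr1 : 1 ≤ (q : ℝ) / Y0 := by rw [le_div_iff₀ hY]; linarith
    have hl0 : 0 ≤ Real.log ((q : ℝ) / Y0) / Real.log 2 :=
      div_nonneg (Real.log_nonneg hr1) hlog2.le
    have ha : (n q : ℝ) ≤ Real.log ((q : ℝ) / Y0) / Real.log 2 := Nat.floor_le hl0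
    have hb : Real.log ((q : ℝ) / Y0) / Real.log 2 < n q + 1 := Nat.lt_floor_add_one _
    rw [le_div_iff₀ hlog2] at ha
    rw [div_lt_iff₀ hlog2] at hb
    have e1 : Real.log ((2 : ℝ) ^ (n q)) = n q * Real.log 2 := Real.log_pow _ _
    have e2 : Real.log ((2 : ℝ) ^ (n q + 1)) = (n q + 1) * Real.log 2 := by
      rw [Real.log_pow]; push_cast; ring
    rw [← e1] at ha
    rw [← e2] at hb
    have ha' := (Real.log_le_log_iff (by positivity) (by positivity)).mp ha
    have hb' := (Real.log_lt_log_iff (by positivity) (by positivity)).mp hb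
    constructor
    · rw [le_div_iff₀ hY] at ha'
      linarith
    · rw [div_lt_iff₀ hY, pow_succ] at hb'
      linarith
  have hsum : ∑ q ∈ A, (1 : ℝ) / q =
      ∑ j ∈ Finset.range (N + 1), ∑ q ∈ A.filter (fun q => n q = j), (1 : ℝ) / q :=
    (Finset.sum_fiberwise_of_maps_to hnN _).symm
  rw [hsum]
  have hblock : ∀ j ∈ Finset.range (N + 1),
      ∑ q ∈ A.filter (fun q => n q = j), (1 : ℝ) / q ≤ (1 / Y0) * (1 / 2) ^ j + 8 * C * k / T := by
    intro j _
    have hYj : 0 < Y0 * 2 ^ j := by positivity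
    have hc := count (γ := γ) (T := T) (Y := Y0 * 2 ^ j) (r := r) hk hr hT hYj hC
      (A.filter (fun q => n q = j)) (by
        intro q hq
        rw [Finset.mem_filter] at hq
        obtain ⟨hqA, hj⟩ := hq
        have h1 := hin q hqA
        rw [hj] at h1
        exact ⟨h1.1, h1.2, (hA q hqA).2.2⟩)
    calc ∑ q ∈ A.filter (fun q => n q = j), (1 : ℝ) / q
        ≤ ∑ q ∈ A.filter (fun q => n q = j), (1 : ℝ) / (Y0 * 2 ^ j) := by
          apply Finset.sum_le_sum
          intro q hq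
          rw [Finset.mem_filter] at hq
          obtain ⟨hqA, hj⟩ := hq
          have h1 := hin q hqA
          rw [hj] at h1
          exact one_div_le_one_div_of_le hYj h1.1
      _ = ((A.filter (fun q => n q = j)).card : ℝ) * (1 / (Y0 * 2 ^ j)) := by
          rw [Finset.sum_const, nsmul_eq_mul]
      _ ≤ (1 + 8 * C * k * (Y0 * 2 ^ j) / T) * (1 / (Y0 * 2 ^ j)) := by
          gcongr
      _ = (1 / Y0) * (1 / 2) ^ j + 8 * C * k / T := by
          rw [one_div_pow]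
          field_simp
  refine (Finset.sum_le_sum hblock).trans ?_
  rw [Finset.sum_add_distrib, Finset.sum_const, Finset.card_range, nsmul_eq_mul,
    ← Finset.mul_sum]
  have hgeo : ∑ j ∈ Finset.range (N + 1), ((1 : ℝ) / 2) ^ j ≤ 2 := by
    rw [geom_sum_eq (by norm_num)]
    have hp : (0 : ℝ) ≤ (1 / 2 : ℝ) ^ (N + 1) := by positivity
    have he : ((1 / 2 : ℝ) ^ (N + 1) - 1) / (1 / 2 - 1) = 2 - 2 * (1 / 2 : ℝ) ^ (N + 1) := by
      field_simp
      ring
    rw [he]
    linarith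
  have hNle : ((N : ℝ)) ≤ Real.log (Z / Y0) / Real.log 2 := by
    apply Nat.floor_le
    apply div_nonneg (Real.log_nonneg _) hlog2.le
    rw [le_div_iff₀ hY]; linarith
  have h1 : 1 / Y0 * ∑ j ∈ Finset.range (N + 1), ((1 : ℝ) / 2) ^ j ≤ 2 / Y0 := by
    calc 1 / Y0 * ∑ j ∈ Finset.range (N + 1), ((1 : ℝ) / 2) ^ j ≤ 1 / Y0 * 2 := by gcongr
      _ = 2 / Y0 := by ring
  have h2 : ((N + 1 : ℕ) : ℝ) * (8 * C * k / T) ≤
      8 * C * k / T * (Real.log (Z / Y0) / Real.log 2 + 1) := by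
    rw [mul_comm]
    push_cast
    gcongr
  linarith

/-- **LEMMA P'**, the dyadic sum -/
theorem dyadic {γ C T Y0 : ℝ} {k r : ℕ} (hk : 0 < k) (hr : 0 < r) (hT : 1 ≤ T)
    (hY : 1 ≤ Y0) (hC : 0 ≤ C) (A : Finset ℕ)
    (hA : ∀ q ∈ A, Y0 ≤ q ∧ (q : ℝ) ≤ Real.exp (Real.sqrt T) ∧ Hit γ C T k r q) :
    ∑ q ∈ A, (1 : ℝ) / q ≤ 2 / Y0 + 24 * C * k / Real.sqrt T := by
  classical
  have hT0 : 0 < T := by linarith
  have hY0 : 0 < Y0 := by linarith
  have hs : 1 ≤ Real.sqrt T := Real.one_le_sqrt.mpr hT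
  have hs0 : 0 < Real.sqrt T := by linarith
  rcases A.eq_empty_or_nonempty with rfl | ⟨q0, hq0⟩
  · simp only [Finset.sum_empty]; positivity
  have hZ : Y0 ≤ Real.exp (Real.sqrt T) := (hA q0 hq0).1.trans (hA q0 hq0).2.1
  refine (dyadic_log hk hr hT0 hY0 hZ hC A hA).trans ?_
  have hlog2 : 0.6931471803 < Real.log 2 := Real.log_two_gt_d9
  have hl : Real.log (Real.exp (Real.sqrt T) / Y0) ≤ Real.sqrt T := by
    rw [Real.log_div (Real.exp_pos _).ne' hY0.ne', Real.log_exp]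
    have := Real.log_nonneg hY
    linarith
  have h1 : Real.log (Real.exp (Real.sqrt T) / Y0) / Real.log 2 + 1 ≤ 3 * Real.sqrt T := by
    have h2 : Real.log (Real.exp (Real.sqrt T) / Y0) / Real.log 2 ≤ 2 * Real.sqrt T := by
      rw [div_le_iff₀ (by linarith)]
      nlinarith
    linarith
  have h3 : 8 * C * k / T * (Real.log (Real.exp (Real.sqrt T) / Y0) / Real.log 2 + 1) ≤
      8 * C * k / T * (3 * Real.sqrt T) := by gcongr
  have h4 : 8 * C * k / T * (3 * Real.sqrt T) = 24 * C * k / Real.sqrt T := by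
    have : T = Real.sqrt T * Real.sqrt T := (Real.mul_self_sqrt hT0.le).symm
    field_simp
    nlinarith
  linarith

end Crest.Agent.R4C.LemPx368
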