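import Crest.Agent.R4C.Law_69

/-!
# LEMMA Z (helper971, note 3226 (4), (5)): low energy when the thresholds of the two members differ

`n = n₁ n₂`, `n' = n₁' n₂'` (cut `x`), `gcd n n' ∈ [X, 2X)`, the gcd of the upper parts takes (for
fixed `n`) at most `J` values (`J = 1`: `n₂ ∣ n₂'`; twist: `n₂ / κ ∣ n₂'`), and the partner is
light at the cut `x`: `gcd n₁ n₁' * mass g x n₂' ≤ Γ`.  Then the low energy is at most
`2 Γ J * E f`, i.e. `X⁻¹ * (2 Γ J) * v` with `v = X * E f`.  General `M`, no HVW.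
-/

set_option autoImplicit false

namespace Crest.Agent.R4C.LemZx971

open Finset Crest.Agent.R4C.Basex935 Crest.Agent.R4C.Cutx50 Crest.Agent.R4C.Lawx69

/-- gcd of `n` with `n₁' T'`, cut at `x` -/
lemma gcd_cut_low {M n m T : ℕ} (x : ℕ) (hM : 0 < M) (hn : n ∣ M) (hm : m ∣ low x M)
    (hT : T ∣ upp x M) :
    Nat.gcd n (m * T) = Nat.gcd (low x n) m * Nat.gcd (upp x n) T := by
  have hn0 : n ≠ 0 := (Nat.pos_of_dvd_of_pos hn hM).ne'
  conv_lhs => rw [← low_mul_upp x hn0]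
  exact gcd_cut (fun p => p ≤ x) (low_dvd x hM.ne' hn) (upp_dvd x hM.ne' hn) hm hT

/-- row form: for a fixed `n` -/
theorem lemZ_row {M : ℕ} (hM : 0 < M) (x : ℕ) {X Γ : ℝ} (hX : 0 < X) (hΓ : 0 ≤ Γ) {g : ℕ → ℝ}
    (hg : ∀ b, 0 ≤ g b) {n : ℕ} (hn : n ∣ M) (A : Finset ℕ) (R : ℕ → Prop) [DecidablePred R]
    (h1 : ∀ c, c ∣ M → R c → X ≤ (Nat.gcd n c : ℝ) ∧ (Nat.gcd n c : ℝ) ≤ 2 * X)
    (h2 : ∀ c, c ∣ M → R c → Nat.gcd (upp x n) (upp x c) ∈ A)
    (h3 : ∀ c, c ∣ M → R c → (Nat.gcd (low x n) (low x c) : ℝ) * mass M g x (upp x c) ≤ Γ) :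
    ∑ c ∈ M.divisors, (Nat.gcd n c : ℝ) * nu M c * (if R c then g c else 0) ≤
      2 * Γ * A.card := by
  classical
  have hn0 : n ≠ 0 := (Nat.pos_of_dvd_of_pos hn hM).ne'
  -- one upper part
  have key : ∀ T ∈ (upp x M).divisors,
      ∑ m ∈ (low x M).divisors, (Nat.gcd n (m * T) : ℝ) * nu M (m * T) *
        (if R (m * T) then g (m * T) else 0) ≤
      ∑ a ∈ A, if a ∣ T then 2 * Γ * ((a : ℝ) * nu (upp x M) T) else 0 := by
    intro T hT
    have hT' : T ∣ upp x M := Nat.dvd_of_mem_divisors hT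
    have hnuT : 0 ≤ nu (upp x M) T := nu_nonneg _ _
    have hR0 : 0 ≤ ∑ a ∈ A, if a ∣ T then 2 * Γ * ((a : ℝ) * nu (upp x M) T) else 0 := by
      refine Finset.sum_nonneg fun a _ => ?_
      split_ifs
      · positivity
      · exact le_rfl
    by_cases hex : ∃ m ∈ (low x M).divisors, R (m * T)
    · obtain ⟨m₀, hm₀, hRm₀⟩ := hex
      have hm₀' : m₀ ∣ low x M := Nat.dvd_of_mem_divisors hm₀
      have hdvd : ∀ m, m ∣ low x M → m * T ∣ M := fun m hm => by
        rw [← low_mul_upp x hM.ne']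
        exact Nat.mul_dvd_mul hm hT'
      have hlow : ∀ m, m ∣ low x M → low x (m * T) = m := fun m hm => low_of_mul hm hT'
      have hupp : ∀ m, m ∣ low x M → upp x (m * T) = T := fun m hm => upp_of_mul hm hT'
      set a := Nat.gcd (upp x n) T with ha
      have haA : a ∈ A := by
        have := h2 _ (hdvd m₀ hm₀') hRm₀
        rwa [hupp m₀ hm₀'] at this
      have ha0 : 0 < a := Nat.gcd_pos_of_pos_left _ (upp_pos x n)
      have ha0' : (0 : ℝ) < a := by exact_mod_cast ha0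
      have haT : a ∣ T := Nat.gcd_dvd_right _ _
      have hmass0 : 0 ≤ mass M g x T := mass_nonneg M hg x T
      -- lightness in terms of `X`
      have hlight : X * mass M g x T ≤ a * Γ := by
        have e1 := (h1 _ (hdvd m₀ hm₀') hRm₀).1
        have e2 := h3 _ (hdvd m₀ hm₀') hRm₀
        rw [hlow m₀ hm₀', hupp m₀ hm₀'] at e2
        rw [gcd_cut_low x hM hn hm₀' hT', ← ha] at e1
        push_cast at e1
        calc X * mass M g x T ≤ ((Nat.gcd (low x n) m₀ : ℝ) * a) * mass M g x T :=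
              mul_le_mul_of_nonneg_right e1 hmass0
          _ = a * ((Nat.gcd (low x n) m₀ : ℝ) * mass M g x T) := by ring
          _ ≤ a * Γ := mul_le_mul_of_nonneg_left e2 ha0'.le
      have step : ∑ m ∈ (low x M).divisors, (Nat.gcd n (m * T) : ℝ) * nu M (m * T) *
          (if R (m * T) then g (m * T) else 0) ≤ 2 * X * (nu (upp x M) T * mass M g x T) := by
        unfold mass Ex
        rw [Finset.mul_sum, Finset.mul_sum]
        refine Finset.sum_le_sum fun m hm => ?_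
        have hm' : m ∣ low x M := Nat.dvd_of_mem_divisors hm
        rw [nu_low_upp hM hm' hT']
        have e0 : 0 ≤ nu (low x M) m := nu_nonneg _ _
        have e1 : 0 ≤ g (m * T) := hg _
        split_ifs with hR
        · have e2 := (h1 _ (hdvd m hm') hR).2
          calc (Nat.gcd n (m * T) : ℝ) * (nu (low x M) m * nu (upp x M) T) * g (m * T)
              ≤ (2 * X) * (nu (low x M) m * nu (upp x M) T) * g (m * T) := by gcongr
            _ = _ := by ring
        · rw [mul_zero]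
          positivity
      refine step.trans ?_
      have hle : 2 * X * (nu (upp x M) T * mass M g x T) ≤ 2 * Γ * ((a : ℝ) * nu (upp x M) T) := by
        calc 2 * X * (nu (upp x M) T * mass M g x T)
            = 2 * nu (upp x M) T * (X * mass M g x T) := by ring
          _ ≤ 2 * nu (upp x M) T * (a * Γ) := by gcongr
          _ = _ := by ring
      refine hle.trans ?_
      have := Finset.single_le_sum
        (f := fun a : ℕ => if a ∣ T then 2 * Γ * ((a : ℝ) * nu (upp x M) T) else 0)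
        (fun b _ => by
          split_ifs
          · positivity
          · exact le_rfl) haA
      simp only [haT, if_true] at this
      exact this
    · push Not at hex
      have : ∑ m ∈ (low x M).divisors, (Nat.gcd n (m * T) : ℝ) * nu M (m * T) *
          (if R (m * T) then g (m * T) else 0) = 0 :=
        Finset.sum_eq_zero fun m hm => by rw [if_neg (hex m hm), mul_zero]
      rw [this]
      exact hR0
  rw [sum_low_upp hM x]
  refine (Finset.sum_le_sum key).trans ?_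
  rw [Finset.sum_comm]
  have hA : ∀ a ∈ A, ∑ T ∈ (upp x M).divisors,
      (if a ∣ T then 2 * Γ * ((a : ℝ) * nu (upp x M) T) else 0) ≤ 2 * Γ := by
    intro a _
    rw [← Finset.sum_filter, ← Finset.mul_sum, ← Finset.mul_sum]
    have h4 := prob_dvd_le (upp_pos x M) a
    have h5 : (a : ℝ) * ∑ T ∈ (upp x M).divisors with a ∣ T, nu (upp x M) T ≤ 1 := by
      rcases Nat.eq_zero_or_pos a with h0 | h0
      · rw [h0]; simp
      · have h0' : (0 : ℝ) < a := by exact_mod_cast h0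
        calc (a : ℝ) * ∑ T ∈ (upp x M).divisors with a ∣ T, nu (upp x M) T
            ≤ a * (1 / a) := mul_le_mul_of_nonneg_left h4 h0'.le
          _ = 1 := mul_one_div_cancel h0'.ne'
    calc 2 * Γ * ((a : ℝ) * ∑ T ∈ (upp x M).divisors with a ∣ T, nu (upp x M) T)
        ≤ 2 * Γ * 1 := mul_le_mul_of_nonneg_left h5 (by positivity)
      _ = 2 * Γ := mul_one _
  calc ∑ a ∈ A, ∑ T ∈ (upp x M).divisors,
        (if a ∣ T then 2 * Γ * ((a : ℝ) * nu (upp x M) T) else 0)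
      ≤ ∑ _a ∈ A, 2 * Γ := Finset.sum_le_sum hA
    _ = 2 * Γ * A.card := by rw [Finset.sum_const, nsmul_eq_mul]; ring

/-- **LEMMA Z**, pair form -/
theorem lemZ {M : ℕ} (hM : 0 < M) (x : ℕ) {X Γ : ℝ} (hX : 0 < X) (hΓ : 0 ≤ Γ) {f g : ℕ → ℝ}
    (hf : ∀ b, 0 ≤ f b) (hg : ∀ b, 0 ≤ g b) (A : ℕ → Finset ℕ) {J : ℕ}
    (hJ : ∀ b, b ∣ M → (A b).card ≤ J) (R : ℕ → ℕ → Prop) [∀ b, DecidablePred (R b)]
    (h1 : ∀ b c, b ∣ M → c ∣ M → R b c → X ≤ (Nat.gcd b c : ℝ) ∧ (Nat.gcd b c : ℝ) ≤ 2 * X)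
    (h2 : ∀ b c, b ∣ M → c ∣ M → R b c → Nat.gcd (upp x b) (upp x c) ∈ A b)
    (h3 : ∀ b c, b ∣ M → c ∣ M → R b c →
      (Nat.gcd (low x b) (low x c) : ℝ) * mass M g x (upp x c) ≤ Γ) :
    frm M (fun b c => if R b c then f b * g c else 0) ≤ 2 * Γ * J * Ex M f := by
  classical
  unfold frm Ex
  rw [Finset.mul_sum]
  refine Finset.sum_le_sum fun b hb => ?_
  have hb' : b ∣ M := Nat.dvd_of_mem_divisors hb
  have hrow := lemZ_row hM x hX hΓ hg hb' (A b) (R b) (fun c hc => h1 b c hb' hc)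
    (fun c hc => h2 b c hb' hc) (fun c hc => h3 b c hb' hc)
  have e0 : 0 ≤ nu M b := nu_nonneg _ _
  have e1 : 0 ≤ f b := hf b
  have hJ' : ((A b).card : ℝ) ≤ J := by exact_mod_cast hJ b hb'
  calc ∑ c ∈ M.divisors, (Nat.gcd b c : ℝ) * nu M b * nu M c * (if R b c then f b * g c else 0)
      = (nu M b * f b) * ∑ c ∈ M.divisors, (Nat.gcd b c : ℝ) * nu M c *
          (if R b c then g c else 0) := by
        rw [Finset.mul_sum]
        refine Finset.sum_congr rfl fun c _ => ?_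
        split_ifs <;> ring
    _ ≤ (nu M b * f b) * (2 * Γ * (A b).card) :=
        mul_le_mul_of_nonneg_left hrow (mul_nonneg e0 e1)
    _ ≤ (nu M b * f b) * (2 * Γ * J) := by gcongr
    _ = _ := by ring

/-- mass of a lower node inside an upper node -/
lemma mass_node {M T n x y : ℕ} (hxy : x ≤ y) (hT : T ∣ upp y M) (hn : n ∣ low y M) (f : ℕ → ℝ) :
    mass (low y M) (fun m => f (m * T)) x (upp x n) = mass M f x (upp x (n * T)) := by
  have hn0 : n ≠ 0 := (Nat.pos_of_dvd_of_pos hn (low_pos y M)).ne'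
  have hT0 : T ≠ 0 := (Nat.pos_of_dvd_of_pos hT (upp_pos y M)).ne'
  have e1 : upp x (n * T) = upp x n * T := by
    refine Nat.eq_of_factorization_eq (upp_pos _ _).ne' (mul_ne_zero (upp_pos _ _).ne' hT0)
      fun p => ?_
    rw [fact_upp, Nat.factorization_mul hn0 hT0, Nat.factorization_mul (upp_pos _ _).ne' hT0,
      Finsupp.add_apply, Finsupp.add_apply, fact_upp]
    by_cases h : p ≤ x
    · have h2 := fact_zero_of_dvd_part (fun p => ¬ p ≤ y) hT (p := p) (by
        simp only [not_not]; omega)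
      simp [h, h2]
    · simp [h]
  unfold mass
  rw [low_low hxy, e1]
  simp only [mul_assoc]

/-- **LEMMA Z at two cuts** `x ≤ y`: low energy (primes `≤ y`) of the words above `T`, `T'`;
`c` is light at the cut `x`: `low x c * mass M f x (upp x c) ≤ Γ`. -/
theorem lemZ_cut {M : ℕ} (hM : 0 < M) {x y : ℕ} (hxy : x ≤ y) {X Γ : ℝ} (hX : 0 < X)
    (hΓ : 0 ≤ Γ) {f : ℕ → ℝ} (hf : ∀ b, 0 ≤ f b) {T T' : ℕ} (hT : T ∣ upp y M)
    (hT' : T' ∣ upp y M) (A : ℕ → Finset ℕ) {J : ℕ} (hJ : ∀ b, b ∣ M → (A b).card ≤ J)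
    (R : ℕ → ℕ → Prop) [∀ b, DecidablePred (R b)]
    (h1 : ∀ b c, b ∣ M → c ∣ M → R b c → X ≤ (Nat.gcd (low y b) (low y c) : ℝ) ∧
      (Nat.gcd (low y b) (low y c) : ℝ) ≤ 2 * X)
    (h2 : ∀ b c, b ∣ M → c ∣ M → R b c → Nat.gcd (upp x (low y b)) (upp x (low y c)) ∈ A b)
    (h3 : ∀ b c, b ∣ M → c ∣ M → R b c → (low x c : ℝ) * mass M f x (upp x c) ≤ Γ) :
    frm (low y M) (fun n m => if R (n * T) (m * T') then f (n * T) * f (m * T') else 0) ≤
      2 * Γ * J * mass M f y T := by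
  classical
  have hd : ∀ {T : ℕ}, T ∣ upp y M → ∀ n, n ∣ low y M → n * T ∣ M := fun hT n hn => by
    rw [← low_mul_upp y hM.ne']
    exact Nat.mul_dvd_mul hn hT
  have h := lemZ (M := low y M) (low_pos y M) x (X := X) (Γ := Γ) hX hΓ
    (f := fun n => f (n * T)) (g := fun m => f (m * T')) (fun _ => hf _) (fun _ => hf _)
    (fun n => A (n * T)) (J := J) (fun n hn => hJ _ (hd hT n hn))
    (fun n m => R (n * T) (m * T'))
    (fun n m hn hm hR => by
      have := h1 _ _ (hd hT n hn) (hd hT' m hm) hR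
      rwa [low_of_mul hn hT, low_of_mul hm hT'] at this)
    (fun n m hn hm hR => by
      have := h2 _ _ (hd hT n hn) (hd hT' m hm) hR
      rwa [low_of_mul hn hT, low_of_mul hm hT'] at this)
    (fun n m hn hm hR => by
      have e := h3 _ _ (hd hT n hn) (hd hT' m hm) hR
      rw [mass_node hxy hT' hm]
      have e2 : low x (m * T') = low x m := by
        rw [← low_low hxy, low_of_mul hm hT']
      rw [e2] at e
      have e3 : (Nat.gcd (low x n) (low x m) : ℝ) ≤ (low x m : ℝ) := by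
        exact_mod_cast Nat.le_of_dvd (low_pos x m) (Nat.gcd_dvd_right _ _)
      exact (mul_le_mul_of_nonneg_right e3 (mass_nonneg M hf x _)).trans e)
  exact h

/-- the plain case: `b`'s letters in `(x, y]` divide `c`'s -/
theorem lemZ_dvd {M : ℕ} (hM : 0 < M) {x y : ℕ} (hxy : x ≤ y) {X Γ : ℝ} (hX : 0 < X)
    (hΓ : 0 ≤ Γ) {f : ℕ → ℝ} (hf : ∀ b, 0 ≤ f b) {T T' : ℕ} (hT : T ∣ upp y M)
    (hT' : T' ∣ upp y M) (R : ℕ → ℕ → Prop) [∀ b, DecidablePred (R b)]
    (h1 : ∀ b c, b ∣ M → c ∣ M → R b c → X ≤ (Nat.gcd (low y b) (low y c) : ℝ) ∧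
      (Nat.gcd (low y b) (low y c) : ℝ) ≤ 2 * X)
    (h2 : ∀ b c, b ∣ M → c ∣ M → R b c → upp x (low y b) ∣ upp x (low y c))
    (h3 : ∀ b c, b ∣ M → c ∣ M → R b c → (low x c : ℝ) * mass M f x (upp x c) ≤ Γ) :
    frm (low y M) (fun n m => if R (n * T) (m * T') then f (n * T) * f (m * T') else 0) ≤
      2 * Γ * mass M f y T := by
  have h := lemZ_cut hM hxy hX hΓ hf hT hT' (fun b => {upp x (low y b)}) (J := 1)
    (fun b _ => by simp) R h1
    (fun b c hb hc hR => by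
      rw [Finset.mem_singleton]
      exact Nat.gcd_eq_left (h2 b c hb hc hR)) h3
  simpa using h

/-- twisted case: `b`'s letters in `(x, y]` divide `c`'s up to a divisor of `k b` -/
theorem lemZ_twist {M : ℕ} (hM : 0 < M) {x y : ℕ} (hxy : x ≤ y) {X Γ : ℝ} (hX : 0 < X)
    (hΓ : 0 ≤ Γ) {f : ℕ → ℝ} (hf : ∀ b, 0 ≤ f b) {T T' : ℕ} (hT : T ∣ upp y M)
    (hT' : T' ∣ upp y M) (k : ℕ → ℕ) (hk : ∀ b, b ∣ M → k b ≠ 0) {J : ℕ}
    (hJ : ∀ b, b ∣ M → (k b).divisors.card ≤ J)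
    (R : ℕ → ℕ → Prop) [∀ b, DecidablePred (R b)]
    (h1 : ∀ b c, b ∣ M → c ∣ M → R b c → X ≤ (Nat.gcd (low y b) (low y c) : ℝ) ∧
      (Nat.gcd (low y b) (low y c) : ℝ) ≤ 2 * X)
    (h2 : ∀ b c, b ∣ M → c ∣ M → R b c →
      upp x (low y b) / Nat.gcd (upp x (low y b)) (upp x (low y c)) ∣ k b)
    (h3 : ∀ b c, b ∣ M → c ∣ M → R b c → (low x c : ℝ) * mass M f x (upp x c) ≤ Γ) :
    frm (low y M) (fun n m => if R (n * T) (m * T') then f (n * T) * f (m * T') else 0) ≤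
      2 * Γ * J * mass M f y T := by
  classical
  refine lemZ_cut hM hxy hX hΓ hf hT hT'
    (fun b => (k b).divisors.image (fun d => upp x (low y b) / d)) (J := J)
    (fun b hb => (Finset.card_image_le).trans (hJ b hb)) R h1 (fun b c hb hc hR => ?_) h3
  rw [Finset.mem_image]
  refine ⟨_, Nat.mem_divisors.2 ⟨h2 b c hb hc hR, hk b hb⟩, ?_⟩
  have hpos : 0 < upp x (low y b) := upp_pos _ _
  exact Nat.div_div_self (Nat.gcd_dvd_left _ _) hpos.ne'

end Crest.Agent.R4C.LemZx971
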