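import Crest.Agent.R4C.Base_935

/-!
# Row 4: matched prefix lemma, numerical part (helper129)

One prime `p ≥ 3` with all its exponents.  `MPfx_129` contains the theorem.
-/

set_option autoImplicit false

namespace Crest.Agent.R4C.MPfxx129

open Finset Crest.Agent.R4C.Basex935

/-! ### Kernel bound -/

lemma geo_le {t : ℝ} (h0 : 0 ≤ t) (h1 : t < 1) (n : ℕ) : ∑ k ∈ range n, t ^ k ≤ 1 / (1 - t) := by
  have h := mul_neg_geom_sum t n
  rw [le_div_iff₀ (by linarith), mul_comm, h]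
  have : 0 ≤ t ^ n := by positivity
  linarith

lemma geo_le' {t : ℝ} (h0 : 0 ≤ t) (h1 : t < 1) (n : ℕ) :
    ∑ k ∈ range n, t ^ (n - k) ≤ t / (1 - t) := by
  induction n with
  | zero => simp; exact div_nonneg h0 (by linarith)
  | succ n ih =>
    rw [Finset.sum_range_succ]
    have e : ∑ k ∈ range n, t ^ (n + 1 - k) = t * ∑ k ∈ range n, t ^ (n - k) := by
      rw [Finset.mul_sum]
      refine Finset.sum_congr rfl fun k hk => ?_
      rw [Finset.mem_range] at hk
      rw [show n + 1 - k = (n - k) + 1 by omega, pow_succ]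
      ring
    rw [e, show n + 1 - n = 1 by omega, pow_one]
    calc t * ∑ k ∈ range n, t ^ (n - k) + t ≤ t * (t / (1 - t)) + t := by
          have := mul_le_mul_of_nonneg_left ih h0
          linarith
      _ = t / (1 - t) := by
          have : 1 - t ≠ 0 := by linarith
          field_simp
          ring

/-- asymmetric weight -/
noncomputable def g (u t : ℝ) (i j : ℕ) : ℝ := if i ≤ j then u ^ (j - i) else t ^ (i - j)

lemma sum_g {u t : ℝ} (hu0 : 0 ≤ u) (hu1 : u < 1) (ht0 : 0 ≤ t) (ht1 : t < 1) (a i : ℕ) :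
    ∑ j ∈ range a, g u t i j ≤ 1 / (1 - u) + t / (1 - t) := by
  have h0 : 0 ≤ 1 / (1 - u) := div_nonneg zero_le_one (by linarith)
  have h0' : 0 ≤ t / (1 - t) := div_nonneg ht0 (by linarith)
  rcases le_total a i with h | h
  · calc ∑ j ∈ range a, g u t i j ≤ ∑ j ∈ range i, t ^ (i - j) := by
          calc ∑ j ∈ range a, g u t i j = ∑ j ∈ range a, t ^ (i - j) := by
                refine Finset.sum_congr rfl fun j hj => ?_
                rw [Finset.mem_range] at hj
                unfold g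
                rw [if_neg (by omega)]
            _ ≤ _ := by
                refine Finset.sum_le_sum_of_subset_of_nonneg ?_ fun j _ _ => by positivity
                intro j hj
                rw [Finset.mem_range] at hj ⊢
                omega
      _ ≤ t / (1 - t) := geo_le' ht0 ht1 i
      _ ≤ _ := by linarith
  · obtain ⟨d, rfl⟩ := Nat.exists_eq_add_of_le h
    rw [Finset.sum_range_add]
    have e1 : ∑ j ∈ range i, g u t i j = ∑ j ∈ range i, t ^ (i - j) := by
      refine Finset.sum_congr rfl fun j hj => ?_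
      rw [Finset.mem_range] at hj
      unfold g
      rw [if_neg (by omega)]
    have e2 : ∑ j ∈ range d, g u t i (i + j) = ∑ j ∈ range d, u ^ j := by
      refine Finset.sum_congr rfl fun j _ => ?_
      unfold g
      rw [if_pos (by omega), show i + j - i = j by omega]
    rw [e1, e2]
    have := geo_le' ht0 ht1 i
    have := geo_le hu0 hu1 d
    linarith

/-- **kernel bound** `∑ p^(min i j) y_i y_j ≤ C ∑ p^i y_i²` -/
lemma ker_bound {p θ : ℝ} (h1 : 1 < θ) (h2 : θ < p) (a : ℕ) (y : ℕ → ℝ) :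
    ∑ i ∈ range a, ∑ j ∈ range a, p ^ (min i j) * (y i * y j) ≤
      (1 / (1 - θ / p) + (1 / θ) / (1 - 1 / θ)) * ∑ i ∈ range a, p ^ i * y i ^ 2 := by
  have hθ : 0 < θ := by linarith
  have hp : 0 < p := by linarith
  have hu0 : 0 ≤ θ / p := by positivity
  have hu1 : θ / p < 1 := by rw [div_lt_one hp]; exact h2
  have ht0 : 0 ≤ 1 / θ := by positivity
  have ht1 : 1 / θ < 1 := by rw [div_lt_one hθ]; exact h1
  have key : ∀ i j, i ≤ j → p ^ i * (y i * y j) ≤
      ((θ / p) ^ (j - i) * (p ^ i * y i ^ 2) + (1 / θ) ^ (j - i) * (p ^ j * y j ^ 2)) / 2 := by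
    intro i j hij
    obtain ⟨k, rfl⟩ := Nat.exists_eq_add_of_le hij
    rw [show i + k - i = k by omega, pow_add]
    set μ := (θ / p) ^ k with hμ
    have hμ0 : 0 < μ := by positivity
    have e : (1 / θ) ^ k * (p ^ i * p ^ k * y (i + k) ^ 2) = p ^ i * (μ⁻¹ * y (i + k) ^ 2) := by
      rw [hμ, ← inv_pow, inv_div, div_pow, div_pow, one_pow]
      field_simp
    rw [e]
    have h3 : y i * y (i + k) ≤ (μ * y i ^ 2 + μ⁻¹ * y (i + k) ^ 2) / 2 := by
      have h4 : 0 ≤ μ⁻¹ * (μ * y i - y (i + k)) ^ 2 := by positivity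
      have h5 : μ⁻¹ * (μ * y i - y (i + k)) ^ 2 =
          μ * y i ^ 2 + μ⁻¹ * y (i + k) ^ 2 - 2 * (y i * y (i + k)) := by
        field_simp
        ring
      linarith
    have hpi : 0 < p ^ i := by positivity
    nlinarith [mul_le_mul_of_nonneg_left h3 hpi.le]
  have key2 : ∀ i j, p ^ (min i j) * (y i * y j) ≤
      (g (θ / p) (1 / θ) i j * (p ^ i * y i ^ 2) + g (θ / p) (1 / θ) j i * (p ^ j * y j ^ 2)) / 2 := by
    intro i j
    rcases le_or_gt i j with h | h
    · have h3 := key i j h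
      have e1 : g (θ / p) (1 / θ) i j = (θ / p) ^ (j - i) := if_pos h
      have e2 : g (θ / p) (1 / θ) j i = (1 / θ) ^ (j - i) := by
        unfold g
        split_ifs with h4
        · have : i = j := le_antisymm h h4
          subst this
          simp
        · rfl
      rw [min_eq_left h, e1, e2]
      exact h3
    · have h3 := key j i h.le
      have e1 : g (θ / p) (1 / θ) i j = (1 / θ) ^ (i - j) := if_neg (by omega)
      have e2 : g (θ / p) (1 / θ) j i = (θ / p) ^ (i - j) := if_pos h.le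
      rw [min_eq_right h.le, e1, e2, mul_comm (y i) (y j)]
      linarith
  have hsum : ∑ i ∈ range a, ∑ j ∈ range a, p ^ (min i j) * (y i * y j) ≤
      ∑ i ∈ range a, ∑ j ∈ range a, g (θ / p) (1 / θ) i j * (p ^ i * y i ^ 2) := by
    calc ∑ i ∈ range a, ∑ j ∈ range a, p ^ (min i j) * (y i * y j)
        ≤ ∑ i ∈ range a, ∑ j ∈ range a, (g (θ / p) (1 / θ) i j * (p ^ i * y i ^ 2) +
          g (θ / p) (1 / θ) j i * (p ^ j * y j ^ 2)) / 2 :=
          Finset.sum_le_sum fun i _ => Finset.sum_le_sum fun j _ => key2 i j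
      _ = (∑ i ∈ range a, ∑ j ∈ range a, g (θ / p) (1 / θ) i j * (p ^ i * y i ^ 2) +
          ∑ i ∈ range a, ∑ j ∈ range a, g (θ / p) (1 / θ) j i * (p ^ j * y j ^ 2)) / 2 := by
          rw [← Finset.sum_add_distrib, Finset.sum_div]
          refine Finset.sum_congr rfl fun i _ => ?_
          rw [← Finset.sum_add_distrib, Finset.sum_div]
      _ = _ := by
          rw [Finset.sum_comm (f := fun i j => g (θ / p) (1 / θ) j i * (p ^ j * y j ^ 2))]
          ring
  refine hsum.trans ?_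
  rw [Finset.mul_sum]
  refine Finset.sum_le_sum fun i _ => ?_
  rw [← Finset.sum_mul]
  exact mul_le_mul_of_nonneg_right (sum_g hu0 hu1 ht0 ht1 a i) (by positivity)

/-! ### The one prime inequality -/

lemma sum_w_le {p : ℝ} (hp : 1 < p) (a : ℕ) : ∑ i ∈ range a, (1 / p) ^ (i + 1) ≤ 1 / (p - 1) := by
  have h0 : 0 ≤ 1 / p := by positivity
  have h1 : 1 / p < 1 := by rw [div_lt_one (by linarith)]; exact hp
  have h2 := geo_le h0 h1 a
  have e : ∑ i ∈ range a, (1 / p) ^ (i + 1) = (1 / p) * ∑ i ∈ range a, (1 / p) ^ i := by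
    rw [Finset.mul_sum]
    exact Finset.sum_congr rfl fun i _ => by ring
  rw [e]
  calc (1 / p) * ∑ i ∈ range a, (1 / p) ^ i ≤ (1 / p) * (1 / (1 - 1 / p)) :=
        mul_le_mul_of_nonneg_left h2 h0
    _ = 1 / (p - 1) := by
        have : p ≠ 0 := by linarith
        have : p - 1 ≠ 0 := by linarith
        field_simp

/-- `β² ≤ X/(p-1)` -/
lemma beta_sq {p : ℝ} (hp : 1 < p) (a : ℕ) (y : ℕ → ℝ) :
    (∑ i ∈ range a, y i) ^ 2 ≤ 1 / (p - 1) * ∑ i ∈ range a, p ^ (i + 1) * y i ^ 2 := by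
  have hp0 : 0 < p := by linarith
  have h := Finset.sum_mul_sq_le_sq_mul_sq (range a) (fun i => Real.sqrt ((1 / p) ^ (i + 1)))
    (fun i => Real.sqrt (p ^ (i + 1)) * y i)
  have e1 : ∀ i ∈ range a, Real.sqrt ((1 / p) ^ (i + 1)) * (Real.sqrt (p ^ (i + 1)) * y i) = y i := by
    intro i _
    rw [← mul_assoc, ← Real.sqrt_mul (by positivity), ← mul_pow, one_div_mul_cancel hp0.ne', one_pow,
      Real.sqrt_one, one_mul]
  have e2 : ∀ i ∈ range a, Real.sqrt ((1 / p) ^ (i + 1)) ^ 2 = (1 / p) ^ (i + 1) := fun i _ =>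
    Real.sq_sqrt (by positivity)
  have e3 : ∀ i ∈ range a, (Real.sqrt (p ^ (i + 1)) * y i) ^ 2 = p ^ (i + 1) * y i ^ 2 := by
    intro i _
    rw [mul_pow, Real.sq_sqrt (by positivity)]
  rw [Finset.sum_congr rfl e1, Finset.sum_congr rfl e2, Finset.sum_congr rfl e3] at h
  refine h.trans (mul_le_mul_of_nonneg_right (sum_w_le hp a) ?_)
  exact Finset.sum_nonneg fun i _ => by positivity

/-- **one prime inequality** for `p ≥ 3`: `n 0 = 1 - 1/p`; `α` = means -/
lemma one_prime {p : ℝ} (hp : 3 ≤ p) (a : ℕ) (n α : ℕ → ℝ) (hn0 : n 0 = 1 - 1 / p) :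
    ∑ i ∈ range a, ∑ j ∈ range a,
        p ^ (min (i + 1) (j + 1)) * ((n (i + 1) * α (i + 1)) * (n (j + 1) * α (j + 1))) +
      16 * (∑ i ∈ range (a + 1), n i * α i) ^ 2 ≤
    16 * ∑ i ∈ range (a + 1), p ^ i * (n i * α i) ^ 2 + 64 * (1 / p * n 0 * α 0 ^ 2) := by
  have hp0 : 0 < p := by linarith
  have hk := ker_bound (p := p) (θ := 2) (by norm_num) (by linarith) a
    (fun i => n (i + 1) * α (i + 1))
  set X := ∑ i ∈ range a, p ^ (i + 1) * (n (i + 1) * α (i + 1)) ^ 2 with hX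
  set β := ∑ i ∈ range a, n (i + 1) * α (i + 1) with hβd
  have hX0 : 0 ≤ X := Finset.sum_nonneg fun i _ => by positivity
  -- kernel part ≤ 4 X
  have e1 : ∑ i ∈ range a, ∑ j ∈ range a,
        p ^ (min (i + 1) (j + 1)) * ((n (i + 1) * α (i + 1)) * (n (j + 1) * α (j + 1))) =
      p * ∑ i ∈ range a, ∑ j ∈ range a,
        p ^ (min i j) * ((n (i + 1) * α (i + 1)) * (n (j + 1) * α (j + 1))) := by
    rw [Finset.mul_sum]
    refine Finset.sum_congr rfl fun i _ => ?_
    rw [Finset.mul_sum]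
    refine Finset.sum_congr rfl fun j _ => ?_
    rw [show min (i + 1) (j + 1) = min i j + 1 by omega, pow_succ]
    ring
  have e2 : X = p * ∑ i ∈ range a, p ^ i * (n (i + 1) * α (i + 1)) ^ 2 := by
    rw [hX, Finset.mul_sum]
    exact Finset.sum_congr rfl fun i _ => by ring
  have hC : 1 / (1 - 2 / p) + (1 / 2) / (1 - 1 / (2 : ℝ)) ≤ 4 := by
    have h3 : 2 / p ≤ 2 / 3 := by
      rw [div_le_div_iff₀ hp0 (by norm_num)]; linarith
    have h4 : 1 / (1 - 2 / p) ≤ 3 := by
      rw [div_le_iff₀ (by linarith)]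
      linarith
    have h5 : (1 / 2) / (1 - 1 / (2 : ℝ)) = 1 := by norm_num
    linarith
  have hker : ∑ i ∈ range a, ∑ j ∈ range a,
        p ^ (min (i + 1) (j + 1)) * ((n (i + 1) * α (i + 1)) * (n (j + 1) * α (j + 1))) ≤ 4 * X := by
    rw [e1, e2]
    have hS0 : 0 ≤ ∑ i ∈ range a, p ^ i * (n (i + 1) * α (i + 1)) ^ 2 :=
      Finset.sum_nonneg fun i _ => by positivity
    have h3 := hk.trans (mul_le_mul_of_nonneg_right hC hS0)
    calc p * _ ≤ p * (4 * ∑ i ∈ range a, p ^ i * (n (i + 1) * α (i + 1)) ^ 2) :=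
          mul_le_mul_of_nonneg_left h3 hp0.le
      _ = _ := by ring
  have hb := beta_sq (p := p) (by linarith) a (fun i => n (i + 1) * α (i + 1))
  rw [← hX, ← hβd] at hb
  rw [Finset.sum_range_succ' (fun i => n i * α i), Finset.sum_range_succ'
    (fun i => p ^ i * (n i * α i) ^ 2), ← hX, ← hβd, pow_zero, one_mul]
  -- scalar inequality
  have hw : 0 < 1 / p := by positivity
  set w := 1 / p with hwdef
  have hpw : p * w = 1 := by rw [hwdef]; field_simp
  have hw3 : w ≤ 1 / 3 := by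
    rw [hwdef]
    exact one_div_le_one_div_of_le (by norm_num) hp
  have hn : n 0 = 1 - w := hn0
  have hq : 1 / (p - 1) = w / (1 - w) := by
    have : p - 1 ≠ 0 := by linarith
    have h4 : 1 - w ≠ 0 := by linarith
    rw [div_eq_div_iff this h4]
    linarith
  rw [hq] at hb
  have h1w : 0 < 1 - w := by linarith
  have hb' : (1 - w) * β ^ 2 ≤ w * X := by
    rw [div_mul_eq_mul_div, le_div_iff₀ h1w] at hb
    linarith
  have hn0p : 0 ≤ n 0 := by rw [hn]; linarith
  -- β² ≤ X/2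
  have hb2 : 2 * β ^ 2 ≤ X := by
    nlinarith [sq_nonneg β]
  -- 2 n0 α0 β ≤ 4 w n0 α0² + X/4
  have hc : 2 * (n 0 * α 0) * β ≤ 4 * (w * n 0 * α 0 ^ 2) + X / 4 := by
    have h5 : 0 ≤ (4 * w * α 0 - β) ^ 2 := sq_nonneg _
    have h6 : 8 * w * α 0 * β ≤ 16 * w ^ 2 * α 0 ^ 2 + β ^ 2 := by nlinarith
    have h7 : n 0 * (8 * w * α 0 * β) ≤ n 0 * (16 * w ^ 2 * α 0 ^ 2) + w * X := by
      have := mul_le_mul_of_nonneg_left h6 hn0p
      rw [hn] at this ⊢
      nlinarith
    have h8 : w * (4 * (2 * (n 0 * α 0) * β)) ≤ w * (16 * (w * n 0 * α 0 ^ 2) + X) := by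
      nlinarith
    have := le_of_mul_le_mul_left h8 hw
    linarith
  nlinarith

end Crest.Agent.R4C.MPfxx129
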