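import Crest.Agent.R4C.MPfx_129

/-!
# Row 4: MATCHED PREFIX LEMMA, forms for use (helper129); see `MPfx_129` for the notation.
-/

set_option autoImplicit false

namespace Crest.Agent.R4C.MPfxx129

open Finset Crest.Agent.R4C.Basex935

lemma Cut.coprime {M A Q r X Y : ℕ} (h : Cut M A Q r X Y) : Nat.Coprime A Q := by
  refine Nat.coprime_of_dvd fun s hs h1 h2 => ?_
  exact absurd (h.hA s hs h1) (not_lt.2 (h.hQ s hs h2))

lemma gcd_cut {A Q : ℕ} (h : Nat.Coprime A Q) {v v' X Y : ℕ} (hv : v ∣ A) (hv' : v' ∣ A)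
    (hX : X ∣ Q) (hY : Y ∣ Q) : Nat.gcd (v * X) (v' * Y) = Nat.gcd v v' * Nat.gcd X Y := by
  have h1 : Nat.Coprime X v' := (Nat.Coprime.coprime_dvd_left hv' (Nat.Coprime.coprime_dvd_right hX h)).symm
  have h2 : Nat.Coprime v Y := Nat.Coprime.coprime_dvd_left hv (Nat.Coprime.coprime_dvd_right hY h)
  have h3 : Nat.Coprime v' Y := Nat.Coprime.coprime_dvd_left hv' (Nat.Coprime.coprime_dvd_right hY h)
  rw [Nat.Coprime.gcd_mul _ h3, Nat.Coprime.gcd_mul_right_cancel _ h1,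
    Nat.Coprime.gcd_mul_left_cancel _ h2]

/-- Schur test -/
lemma schur (s : Finset ℕ) (k : ℕ → ℕ → ℝ) (x y : ℕ → ℝ) {κ : ℝ} (hκ : 0 ≤ κ)
    (hk : ∀ v v', 0 ≤ k v v')
    (hrow : ∀ v ∈ s, ∑ v' ∈ s, k v v' ≤ κ) (hcol : ∀ v' ∈ s, ∑ v ∈ s, k v v' ≤ κ) :
    ∑ v ∈ s, ∑ v' ∈ s, k v v' * (x v * y v') ≤
      κ * (Real.sqrt (∑ v ∈ s, x v ^ 2) * Real.sqrt (∑ v ∈ s, y v ^ 2)) := by
  have h1 : ∑ v ∈ s, ∑ v' ∈ s, k v v' * (x v * y v') =
      ∑ z ∈ s ×ˢ s, (Real.sqrt (k z.1 z.2) * x z.1) * (Real.sqrt (k z.1 z.2) * y z.2) := by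
    rw [Finset.sum_product]
    refine Finset.sum_congr rfl fun v _ => Finset.sum_congr rfl fun v' _ => ?_
    have := Real.mul_self_sqrt (hk v v')
    calc k v v' * (x v * y v') = (Real.sqrt (k v v') * Real.sqrt (k v v')) * (x v * y v') := by
          rw [this]
      _ = _ := by ring
  have h2 := Real.sum_mul_le_sqrt_mul_sqrt (s ×ˢ s) (fun z => Real.sqrt (k z.1 z.2) * x z.1)
    (fun z => Real.sqrt (k z.1 z.2) * y z.2)
  have h3 : ∑ z ∈ s ×ˢ s, (Real.sqrt (k z.1 z.2) * x z.1) ^ 2 ≤ κ * ∑ v ∈ s, x v ^ 2 := by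
    rw [Finset.sum_product, Finset.mul_sum]
    refine Finset.sum_le_sum fun v hv => ?_
    calc ∑ v' ∈ s, (Real.sqrt (k v v') * x v) ^ 2 = (∑ v' ∈ s, k v v') * x v ^ 2 := by
          rw [Finset.sum_mul]
          exact Finset.sum_congr rfl fun v' _ => by rw [mul_pow, Real.sq_sqrt (hk v v')]
      _ ≤ κ * x v ^ 2 := mul_le_mul_of_nonneg_right (hrow v hv) (sq_nonneg _)
  have h4 : ∑ z ∈ s ×ˢ s, (Real.sqrt (k z.1 z.2) * y z.2) ^ 2 ≤ κ * ∑ v ∈ s, y v ^ 2 := by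
    rw [Finset.sum_product, Finset.sum_comm, Finset.mul_sum]
    refine Finset.sum_le_sum fun v' hv' => ?_
    calc ∑ v ∈ s, (Real.sqrt (k v v') * y v') ^ 2 = (∑ v ∈ s, k v v') * y v' ^ 2 := by
          rw [Finset.sum_mul]
          exact Finset.sum_congr rfl fun v _ => by rw [mul_pow, Real.sq_sqrt (hk v v')]
      _ ≤ κ * y v' ^ 2 := mul_le_mul_of_nonneg_right (hcol v' hv') (sq_nonneg _)
  rw [h1]
  calc _ ≤ Real.sqrt (∑ z ∈ s ×ˢ s, (Real.sqrt (k z.1 z.2) * x z.1) ^ 2) *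
        Real.sqrt (∑ z ∈ s ×ˢ s, (Real.sqrt (k z.1 z.2) * y z.2) ^ 2) := h2
    _ ≤ Real.sqrt (κ * ∑ v ∈ s, x v ^ 2) * Real.sqrt (κ * ∑ v ∈ s, y v ^ 2) :=
        mul_le_mul (Real.sqrt_le_sqrt h3) (Real.sqrt_le_sqrt h4) (Real.sqrt_nonneg _)
          (Real.sqrt_nonneg _)
    _ = (Real.sqrt κ * Real.sqrt κ) *
        (Real.sqrt (∑ v ∈ s, x v ^ 2) * Real.sqrt (∑ v ∈ s, y v ^ 2)) := by
        rw [Real.sqrt_mul hκ, Real.sqrt_mul hκ]; ring
    _ = _ := by rw [Real.mul_self_sqrt hκ]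

/-- low gain `(v,v')/√(v v') = (s s')^{-1/2} ≤ 1` -/
noncomputable def lg (v v' : ℕ) : ℝ := (Nat.gcd v v' : ℝ) / (Real.sqrt v * Real.sqrt v')

lemma lg_nonneg (v v' : ℕ) : 0 ≤ lg v v' := by unfold lg; positivity

lemma lg_le_one (v v' : ℕ) : lg v v' ≤ 1 := by
  unfold lg
  rcases Nat.eq_zero_or_pos v with h | h
  · subst h; simp
  rcases Nat.eq_zero_or_pos v' with h' | h'
  · subst h'; simp
  have hv : (0 : ℝ) < v := by exact_mod_cast h
  have hv' : (0 : ℝ) < v' := by exact_mod_cast h'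
  rw [div_le_one (mul_pos (Real.sqrt_pos.2 hv) (Real.sqrt_pos.2 hv')), ← Real.sqrt_mul hv.le]
  apply Real.le_sqrt_of_sq_le
  have h1 : (Nat.gcd v v' : ℝ) ≤ v := by exact_mod_cast Nat.gcd_le_left v' h
  have h2 : (Nat.gcd v v' : ℝ) ≤ v' := by exact_mod_cast Nat.gcd_le_right v h'
  have h0 : (0 : ℝ) ≤ (Nat.gcd v v' : ℝ) := by positivity
  calc (Nat.gcd v v' : ℝ) ^ 2 = (Nat.gcd v v' : ℝ) * (Nat.gcd v v' : ℝ) := sq _
    _ ≤ (v : ℝ) * v' := mul_le_mul h1 h2 h0 hv.le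

open Classical in
/-- **kernel form** -/
theorem mpfx_kernel {M : ℕ} (hM : 0 < M) {f : ℕ → ℝ} (hf : ∀ b, 0 ≤ f b) {K : ℕ → ℕ → ℝ}
    (hK : ∀ b c, 0 ≤ K b c) {κ : ℝ} (hκ : 0 ≤ κ)
    (hrow : ∀ A Q r X Y, Cut M A Q r X Y → ∀ v ∈ A.divisors,
      ∑ v' ∈ A.divisors, K (v * X) (v' * Y) * lg v v' ≤ κ)
    (hcol : ∀ A Q r X Y, Cut M A Q r X Y → ∀ v' ∈ A.divisors,
      ∑ v ∈ A.divisors, K (v * X) (v' * Y) * lg v v' ≤ κ) :
    ∑ b ∈ M.divisors, ∑ c ∈ M.divisors, (if Nat.gcd b c ≠ 1 then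
        (Nat.gcd b c : ℝ) * nu M b * nu M c * (K b c * (f b * f c)) else 0) ≤
      86 * κ * ∑ b ∈ M.divisors, nu M b * f b ^ 2 := by
  set Φ : ℕ → ℕ → ℝ := fun b c => (Nat.gcd b c : ℝ) * nu M b * nu M c * (K b c * (f b * f c)) with hΦ
  set f' : ℕ → ℝ := fun b => Real.sqrt κ * f b with hf'
  have hH : Hyp M Φ f' := by
    intro A Q r X Y hc
    have hcop := hc.coprime
    have hA0 : 0 < A := Nat.pos_of_dvd_of_pos (hc.hM ▸ Nat.dvd_mul_right A Q) hM
    set x : ℕ → ℝ := fun v => Real.sqrt v * (nu A v * f (v * X)) with hx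
    set y : ℕ → ℝ := fun v => Real.sqrt v * (nu A v * f (v * Y)) with hy
    have hterm : ∀ v ∈ A.divisors, ∀ v' ∈ A.divisors, Φ (v * X) (v' * Y) =
        ((Nat.gcd X Y : ℝ) * nu Q X * nu Q Y) * ((K (v * X) (v' * Y) * lg v v') * (x v * y v')) := by
      intro v hv v' hv'
      rw [Nat.mem_divisors] at hv hv'
      have hv0 : 0 < v := Nat.pos_of_dvd_of_pos hv.1 hA0
      have hv0' : 0 < v' := Nat.pos_of_dvd_of_pos hv'.1 hA0
      have h1 : Real.sqrt v ≠ 0 := (Real.sqrt_pos.2 (by exact_mod_cast hv0)).ne'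
      have h2 : Real.sqrt v' ≠ 0 := (Real.sqrt_pos.2 (by exact_mod_cast hv0')).ne'
      have e1 : nu M (v * X) = nu A v * nu Q X := by rw [hc.hM]; exact nu_mul hcop hv.1 hc.hX
      have e2 : nu M (v' * Y) = nu A v' * nu Q Y := by rw [hc.hM]; exact nu_mul hcop hv'.1 hc.hY
      have e3 : lg v v' * (Real.sqrt v * Real.sqrt v') = Nat.gcd v v' := by
        unfold lg; field_simp
      simp only [hΦ, hx, hy]
      rw [e1, e2, gcd_cut hcop hv.1 hv'.1 hc.hX hc.hY, Nat.cast_mul, ← e3]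
      ring
    have hg0 : 0 ≤ (Nat.gcd X Y : ℝ) * nu Q X * nu Q Y :=
      mul_nonneg (mul_nonneg (by positivity) (nu_nonneg Q X)) (nu_nonneg Q Y)
    calc ∑ v ∈ A.divisors, ∑ v' ∈ A.divisors, Φ (v * X) (v' * Y)
        = ((Nat.gcd X Y : ℝ) * nu Q X * nu Q Y) * ∑ v ∈ A.divisors, ∑ v' ∈ A.divisors,
          (K (v * X) (v' * Y) * lg v v') * (x v * y v') := by
          rw [Finset.mul_sum]
          refine Finset.sum_congr rfl fun v hv => ?_
          rw [Finset.mul_sum]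
          exact Finset.sum_congr rfl fun v' hv' => hterm v hv v' hv'
      _ ≤ ((Nat.gcd X Y : ℝ) * nu Q X * nu Q Y) *
          (κ * (Real.sqrt (∑ v ∈ A.divisors, x v ^ 2) * Real.sqrt (∑ v ∈ A.divisors, y v ^ 2))) := by
          refine mul_le_mul_of_nonneg_left ?_ hg0
          exact schur A.divisors _ x y hκ (fun v v' => mul_nonneg (hK _ _) (lg_nonneg _ _))
            (hrow A Q r X Y hc) (hcol A Q r X Y hc)
      _ = (Nat.gcd X Y : ℝ) * nu Q X * nu Q Y * (Fn A f' X * Fn A f' Y) := by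
          have e : ∀ Z, Fn A f' Z = Real.sqrt κ *
              Real.sqrt (∑ v ∈ A.divisors, (Real.sqrt v * (nu A v * f (v * Z))) ^ 2) := by
            intro Z
            unfold Fn
            rw [← Real.sqrt_mul hκ, Finset.mul_sum]
            congr 1
            refine Finset.sum_congr rfl fun v _ => ?_
            have h1 := Real.sq_sqrt hκ
            have h2 := Real.sq_sqrt (Nat.cast_nonneg v : (0 : ℝ) ≤ (v : ℝ))
            simp only [hf']
            calc (v : ℝ) * (nu A v * (Real.sqrt κ * f (v * Z))) ^ 2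
                = Real.sqrt κ ^ 2 * (v * (nu A v * f (v * Z)) ^ 2) := by ring
              _ = κ * (Real.sqrt v ^ 2 * (nu A v * f (v * Z)) ^ 2) := by rw [h1, h2]
              _ = _ := by ring
          rw [e, e]
          have h1 := Real.mul_self_sqrt hκ
          simp only [hx, hy]
          calc _ = (Nat.gcd X Y : ℝ) * nu Q X * nu Q Y * ((Real.sqrt κ * Real.sqrt κ) *
                (Real.sqrt (∑ v ∈ A.divisors, (Real.sqrt v * (nu A v * f (v * X))) ^ 2) *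
                 Real.sqrt (∑ v ∈ A.divisors, (Real.sqrt v * (nu A v * f (v * Y))) ^ 2))) := by
                rw [h1]
            _ = _ := by ring
  have h1 := S_le hM (f := f') (fun b => mul_nonneg (Real.sqrt_nonneg _) (hf b)) hH
  have h2 : ∑ b ∈ M.divisors, nu M b * f' b ^ 2 = κ * ∑ b ∈ M.divisors, nu M b * f b ^ 2 := by
    rw [Finset.mul_sum]
    refine Finset.sum_congr rfl fun b _ => ?_
    simp only [hf']
    rw [mul_pow, Real.sq_sqrt hκ]
    ring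
  rw [h2, ← mul_assoc] at h1
  exact h1

open Classical in
/-- **partial matching with gain**: `G (v X) (v' Y) (v,v') ≤ √(v v')` (e.g. `G = 1`, or
`G = √(s s')` for the low ratio `s : s'`) -/
theorem mpfx_gain {M : ℕ} (hM : 0 < M) {f : ℕ → ℝ} (hf : ∀ b, 0 ≤ f b) (R : ℕ → ℕ → Prop)
    (G : ℕ → ℕ → ℝ) (hG0 : ∀ b c, 0 ≤ G b c)
    (hG : ∀ A Q r X Y, Cut M A Q r X Y → ∀ v ∈ A.divisors, ∀ v' ∈ A.divisors,
      G (v * X) (v' * Y) * (Nat.gcd v v' : ℝ) ≤ Real.sqrt v * Real.sqrt v')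
    (h1 : ∀ A Q r X Y, Cut M A Q r X Y → ∀ v v' w' : ℕ, v ∣ A → v' ∣ A → w' ∣ A →
      R (v * X) (v' * Y) → R (v * X) (w' * Y) → v' = w')
    (h2 : ∀ A Q r X Y, Cut M A Q r X Y → ∀ v w v' : ℕ, v ∣ A → w ∣ A → v' ∣ A →
      R (v * X) (v' * Y) → R (w * X) (v' * Y) → v = w) :
    ∑ b ∈ M.divisors, ∑ c ∈ M.divisors, (if Nat.gcd b c ≠ 1 ∧ R b c then
        (Nat.gcd b c : ℝ) * nu M b * nu M c * (G b c * (f b * f c)) else 0) ≤
      86 * ∑ b ∈ M.divisors, nu M b * f b ^ 2 := by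
  set K : ℕ → ℕ → ℝ := fun b c => if R b c then G b c else 0 with hK
  have hK0 : ∀ b c, 0 ≤ K b c := by
    intro b c
    simp only [hK]
    split_ifs
    · exact hG0 b c
    · exact le_rfl
  -- one entry is at most one
  have hone : ∀ A Q r X Y, Cut M A Q r X Y → ∀ v ∈ A.divisors, ∀ v' ∈ A.divisors,
      K (v * X) (v' * Y) * lg v v' ≤ if R (v * X) (v' * Y) then 1 else 0 := by
    intro A Q r X Y hc v hv v' hv'
    simp only [hK]
    have hvp : (0 : ℝ) < v := by exact_mod_cast Nat.pos_of_mem_divisors hv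
    have hvp' : (0 : ℝ) < v' := by exact_mod_cast Nat.pos_of_mem_divisors hv'
    split_ifs with h
    · unfold lg
      rw [← mul_div_assoc, div_le_one (mul_pos (Real.sqrt_pos.2 hvp) (Real.sqrt_pos.2 hvp'))]
      exact hG A Q r X Y hc v hv v' hv'
    · rw [zero_mul]
  have hcard : ∀ (s : Finset ℕ) (P : ℕ → Prop), (∀ x ∈ s, ∀ y ∈ s, P x → P y → x = y) →
      ∑ x ∈ s, (if P x then (1 : ℝ) else 0) ≤ 1 := by
    intro s P h
    rw [← Finset.sum_filter, Finset.sum_const, nsmul_eq_mul, mul_one]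
    have h3 : (s.filter P).card ≤ 1 := by
      rw [Finset.card_le_one]
      intro x hx y hy
      rw [Finset.mem_filter] at hx hy
      exact h x hx.1 y hy.1 hx.2 hy.2
    exact_mod_cast h3
  have hmain := mpfx_kernel hM hf hK0 zero_le_one
    (fun A Q r X Y hc v hv => by
      refine (Finset.sum_le_sum fun v' hv' => hone A Q r X Y hc v hv v' hv').trans ?_
      refine hcard _ (fun v' => R (v * X) (v' * Y)) fun x hx y hy hx2 hy2 => ?_
      exact h1 A Q r X Y hc v x y (Nat.dvd_of_mem_divisors hv) (Nat.dvd_of_mem_divisors hx)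
        (Nat.dvd_of_mem_divisors hy) hx2 hy2)
    (fun A Q r X Y hc v' hv' => by
      refine (Finset.sum_le_sum fun v hv => hone A Q r X Y hc v hv v' hv').trans ?_
      refine hcard _ (fun v => R (v * X) (v' * Y)) fun x hx y hy hx2 hy2 => ?_
      exact h2 A Q r X Y hc x y v' (Nat.dvd_of_mem_divisors hx) (Nat.dvd_of_mem_divisors hy)
        (Nat.dvd_of_mem_divisors hv') hx2 hy2)
  rw [mul_one] at hmain
  refine le_trans (le_of_eq ?_) hmain
  refine Finset.sum_congr rfl fun b _ => Finset.sum_congr rfl fun c _ => ?_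
  simp only [hK]
  by_cases h3 : Nat.gcd b c ≠ 1
  · by_cases h4 : R b c
    · rw [if_pos ⟨h3, h4⟩, if_pos h3, if_pos h4]
    · rw [if_neg (fun h => h4 h.2), if_pos h3, if_neg h4]
      ring
  · rw [if_neg (fun h => h3 h.1), if_neg h3]

open Classical in
/-- **partial matching** -/
theorem mpfx_matching {M : ℕ} (hM : 0 < M) {f : ℕ → ℝ} (hf : ∀ b, 0 ≤ f b) (R : ℕ → ℕ → Prop)
    (h1 : ∀ A Q r X Y, Cut M A Q r X Y → ∀ v v' w' : ℕ, v ∣ A → v' ∣ A → w' ∣ A →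
      R (v * X) (v' * Y) → R (v * X) (w' * Y) → v' = w')
    (h2 : ∀ A Q r X Y, Cut M A Q r X Y → ∀ v w v' : ℕ, v ∣ A → w ∣ A → v' ∣ A →
      R (v * X) (v' * Y) → R (w * X) (v' * Y) → v = w) :
    ∑ b ∈ M.divisors, ∑ c ∈ M.divisors, (if Nat.gcd b c ≠ 1 ∧ R b c then
        (Nat.gcd b c : ℝ) * nu M b * nu M c * (f b * f c) else 0) ≤
      86 * ∑ b ∈ M.divisors, nu M b * f b ^ 2 := by
  have h := mpfx_gain hM hf R (fun _ _ => 1) (fun _ _ => zero_le_one)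
    (fun A Q r X Y _ v hv v' hv' => by
      have hvp : (0 : ℝ) < v := by exact_mod_cast Nat.pos_of_mem_divisors hv
      have hvp' : (0 : ℝ) < v' := by exact_mod_cast Nat.pos_of_mem_divisors hv'
      have h3 := lg_le_one v v'
      unfold lg at h3
      rw [div_le_one (mul_pos (Real.sqrt_pos.2 hvp) (Real.sqrt_pos.2 hvp'))] at h3
      rw [one_mul]
      exact h3) h1 h2
  refine le_trans (le_of_eq ?_) h
  refine Finset.sum_congr rfl fun b _ => Finset.sum_congr rfl fun c _ => ?_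
  rw [one_mul]

open Classical in
/-- **unique low ratio**: `v : v'` is a function of `(r, X, Y)`; with the gain `√(s s')`, `s : s'` =
the reduced low ratio -/
theorem mpfx_ratio {M : ℕ} (hM : 0 < M) {f : ℕ → ℝ} (hf : ∀ b, 0 ≤ f b) (R : ℕ → ℕ → Prop)
    (l l' : ℕ → ℕ → ℕ → ℕ) (hl : ∀ r X Y, 0 < l r X Y) (hl' : ∀ r X Y, 0 < l' r X Y)
    (hR : ∀ A Q r X Y, Cut M A Q r X Y → ∀ v v' : ℕ, v ∣ A → v' ∣ A → R (v * X) (v' * Y) →
      v * l' r X Y = v' * l r X Y) :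
    ∑ b ∈ M.divisors, ∑ c ∈ M.divisors, (if Nat.gcd b c ≠ 1 ∧ R b c then
        (Nat.gcd b c : ℝ) * nu M b * nu M c * (f b * f c) else 0) ≤
      86 * ∑ b ∈ M.divisors, nu M b * f b ^ 2 := by
  refine mpfx_matching hM hf R ?_ ?_
  · intro A Q r X Y hc v v' w' hv hv' hw' e1 e2
    have h1 := hR A Q r X Y hc v v' hv hv' e1
    have h2 := hR A Q r X Y hc v w' hv hw' e2
    exact Nat.eq_of_mul_eq_mul_right (hl r X Y) (h1.symm.trans h2)
  · intro A Q r X Y hc v w v' hv hw hv' e1 e2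
    have h1 := hR A Q r X Y hc v v' hv hv' e1
    have h2 := hR A Q r X Y hc w v' hw hv' e2
    exact Nat.eq_of_mul_eq_mul_right (hl' r X Y) (h1.trans h2.symm)

open Classical in
/-- the set form: `B` = a set of divisors of `M` -/
theorem mpfx_set {M : ℕ} (hM : 0 < M) (B : Finset ℕ) (hB : ∀ b ∈ B, b ∣ M) (R : ℕ → ℕ → Prop)
    (h1 : ∀ A Q r X Y, Cut M A Q r X Y → ∀ v v' w' : ℕ, v ∣ A → v' ∣ A → w' ∣ A →
      v * X ∈ B → v' * Y ∈ B → w' * Y ∈ B →
      R (v * X) (v' * Y) → R (v * X) (w' * Y) → v' = w')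
    (h2 : ∀ A Q r X Y, Cut M A Q r X Y → ∀ v w v' : ℕ, v ∣ A → w ∣ A → v' ∣ A →
      v * X ∈ B → w * X ∈ B → v' * Y ∈ B →
      R (v * X) (v' * Y) → R (w * X) (v' * Y) → v = w) :
    ∑ b ∈ B, ∑ c ∈ B.filter (fun c => Nat.gcd b c ≠ 1 ∧ R b c),
        (Nat.gcd b c : ℝ) * nu M b * nu M c ≤ 86 * ∑ b ∈ B, nu M b := by
  have h := mpfx_matching hM (f := fun b => if b ∈ B then 1 else 0)
    (fun b => by split_ifs <;> norm_num) (fun b c => b ∈ B ∧ c ∈ B ∧ R b c)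
    (fun A Q r X Y hc v v' w' hv hv' hw' e1 e2 =>
      h1 A Q r X Y hc v v' w' hv hv' hw' e1.1 e1.2.1 e2.2.1 e1.2.2 e2.2.2)
    (fun A Q r X Y hc v w v' hv hw hv' e1 e2 =>
      h2 A Q r X Y hc v w v' hv hw hv' e1.1 e2.1 e1.2.1 e1.2.2 e2.2.2)
  have hBM : B ⊆ M.divisors := fun b hb => Nat.mem_divisors.2 ⟨hB b hb, hM.ne'⟩
  have e1 : ∑ b ∈ M.divisors, nu M b * (if b ∈ B then (1 : ℝ) else 0) ^ 2 = ∑ b ∈ B, nu M b := by
    rw [← Finset.sum_subset hBM]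
    · refine Finset.sum_congr rfl fun b hb => ?_
      rw [if_pos hb, one_pow, mul_one]
    · intro b _ hb
      rw [if_neg hb]
      ring
  rw [e1] at h
  refine le_trans (le_of_eq ?_) h
  rw [← Finset.sum_subset hBM]
  · refine Finset.sum_congr rfl fun b hb => ?_
    rw [Finset.sum_filter, ← Finset.sum_subset hBM]
    · refine Finset.sum_congr rfl fun c hc => ?_
      by_cases h3 : Nat.gcd b c ≠ 1 ∧ R b c
      · rw [if_pos h3, if_pos ⟨h3.1, hb, hc, h3.2⟩, if_pos hb, if_pos hc]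
        ring
      · rw [if_neg h3, if_neg (fun h4 => h3 ⟨h4.1, h4.2.2.2⟩)]
    · intro c _ hc
      rw [if_neg (fun h4 => hc h4.2.2.1)]
  · intro b _ hb
    refine Finset.sum_eq_zero fun c _ => ?_
    rw [if_neg (fun h4 => hb h4.2.1)]

/-- the pairs without a common prime -/
theorem coprime_pairs {M : ℕ} (hM : 0 < M) (B : Finset ℕ) (hB : ∀ b ∈ B, b ∣ M) :
    ∑ b ∈ B, ∑ c ∈ B.filter (fun c => Nat.gcd b c = 1), (Nat.gcd b c : ℝ) * nu M b * nu M c ≤
      ∑ b ∈ B, nu M b := by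
  have hBM : B ⊆ M.divisors := fun b hb => Nat.mem_divisors.2 ⟨hB b hb, hM.ne'⟩
  refine Finset.sum_le_sum fun b _ => ?_
  calc ∑ c ∈ B.filter (fun c => Nat.gcd b c = 1), (Nat.gcd b c : ℝ) * nu M b * nu M c
      = ∑ c ∈ B.filter (fun c => Nat.gcd b c = 1), nu M b * nu M c := by
        refine Finset.sum_congr rfl fun c hc => ?_
        rw [(Finset.mem_filter.1 hc).2, Nat.cast_one, one_mul]
    _ ≤ ∑ c ∈ M.divisors, nu M b * nu M c := by
        refine Finset.sum_le_sum_of_subset_of_nonneg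
          ((Finset.filter_subset _ _).trans hBM) fun c _ _ =>
            mul_nonneg (nu_nonneg M b) (nu_nonneg M c)
    _ = nu M b := by rw [← Finset.mul_sum, sum_nu hM, mul_one]

/-- splitting at `r` -/
lemma exists_low (r : ℕ) : ∀ M : ℕ, 0 < M → ∃ A Q, M = A * Q ∧ (∀ s, s.Prime → s ∣ A → s < r) ∧
    (∀ s, s.Prime → s ∣ Q → r ≤ s) := by
  intro M
  induction M using Nat.recOnMul with
  | zero => intro h; exact absurd h (lt_irrefl 0)
  | one =>
    intro _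
    exact ⟨1, 1, rfl, fun s hs h => absurd h hs.not_dvd_one, fun s hs h => absurd h hs.not_dvd_one⟩
  | prime p hp =>
    intro _
    rcases lt_or_ge p r with h | h
    · exact ⟨p, 1, (mul_one p).symm, fun s hs h1 => ((Nat.prime_dvd_prime_iff_eq hs hp).1 h1) ▸ h,
        fun s hs h1 => absurd h1 hs.not_dvd_one⟩
    · exact ⟨1, p, (one_mul p).symm, fun s hs h1 => absurd h1 hs.not_dvd_one,
        fun s hs h1 => ((Nat.prime_dvd_prime_iff_eq hs hp).1 h1) ▸ h⟩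
  | mul m n ihm ihn =>
    intro h
    obtain ⟨A, Q, h1, h2, h3⟩ := ihm (Nat.pos_of_mul_pos_right h)
    obtain ⟨A', Q', h1', h2', h3'⟩ := ihn (Nat.pos_of_mul_pos_left h)
    refine ⟨A * A', Q * Q', by rw [h1, h1']; ring, fun s hs hd => ?_, fun s hs hd => ?_⟩
    · rcases (Nat.Prime.dvd_mul hs).1 hd with h4 | h4
      · exact h2 s hs h4
      · exact h2' s hs h4
    · rcases (Nat.Prime.dvd_mul hs).1 hd with h4 | h4
      · exact h3 s hs h4
      · exact h3' s hs h4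

/-- every pair with a common prime has a cut at its top common prime -/
theorem exists_cut {M b c : ℕ} (hM : 0 < M) (hb : b ∣ M) (hc : c ∣ M) (h : Nat.gcd b c ≠ 1) :
    ∃ A Q r X Y v v', Cut M A Q r X Y ∧ v ∣ A ∧ v' ∣ A ∧ b = v * X ∧ c = v' * Y := by
  have hb0 : 0 < b := Nat.pos_of_dvd_of_pos hb hM
  have hg0 : Nat.gcd b c ≠ 0 := (Nat.gcd_pos_of_pos_left c hb0).ne'
  have hne : (Nat.gcd b c).primeFactors.Nonempty := Nat.nonempty_primeFactors.2 (by omega)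
  set r := (Nat.gcd b c).primeFactors.max' hne with hr
  have hrm : r ∈ (Nat.gcd b c).primeFactors := Finset.max'_mem _ _
  have hrp := Nat.prime_of_mem_primeFactors hrm
  have hrd := Nat.dvd_of_mem_primeFactors hrm
  obtain ⟨A, Q, h1, h2, h3⟩ := exists_low r M hM
  obtain ⟨v, X, hv, hX, e1⟩ := Nat.dvd_mul.1 (h1 ▸ hb : b ∣ A * Q)
  obtain ⟨v', Y, hv', hY, e2⟩ := Nat.dvd_mul.1 (h1 ▸ hc : c ∣ A * Q)
  have hrX : r ∣ X := by
    rcases (Nat.Prime.dvd_mul hrp).1 (e1 ▸ hrd.trans (Nat.gcd_dvd_left b c) : r ∣ v * X) with h4 | h4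
    · exact absurd (h2 r hrp (h4.trans hv)) (lt_irrefl r)
    · exact h4
  have hrY : r ∣ Y := by
    rcases (Nat.Prime.dvd_mul hrp).1 (e2 ▸ hrd.trans (Nat.gcd_dvd_right b c) : r ∣ v' * Y) with
      h4 | h4
    · exact absurd (h2 r hrp (h4.trans hv')) (lt_irrefl r)
    · exact h4
  refine ⟨A, Q, r, X, Y, v, v', ⟨hrp, h1, h2, h3, hX, hY, hrX, hrY, ?_⟩, hv, hv', e1.symm, e2.symm⟩
  intro s hs hsX hsY
  refine le_antisymm ?_ (h3 s hs (hsX.trans hX))
  refine Finset.le_max' _ _ (Nat.mem_primeFactors.2 ⟨hs, ?_, hg0⟩)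
  exact Nat.dvd_gcd (e1 ▸ dvd_mul_of_dvd_right hsX v) (e2 ▸ dvd_mul_of_dvd_right hsY v')

end Crest.Agent.R4C.MPfxx129
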