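import Crest.Agent.R4C.MPfxA_129

/-!
# Row 4: MATCHED PREFIX LEMMA (2645(5) of helper16), general `M`, exact weights (helper129)

`b, c ∣ M` with `gcd b c ≠ 1`; `r` = top common prime, `b = v X`, `c = v' Y`, all primes of `v, v'`
are `< r`, all primes of `X, Y` are `≥ r`, `r ∣ X`, `r ∣ Y`, no common prime of `X, Y` above `r`
(`Cut`).  Prime powers allowed everywhere.

* `S_le` : `Φ` = any pair form whose low sums satisfy the bilinear (Cauchy) bound `Hyp`:
  `∑_{gcd b c ≠ 1} Φ b c ≤ 86 ∑ ν f²`.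
* `mpfx_kernel` : `∑_{gcd b c ≠ 1} gcd b c ν(b) ν(c) K(b,c) f(b) f(c) ≤ 86 κ ∑ ν f²`, if on the low
  parts the row and column sums of `K(vX,v'Y) (v,v')/√(v v')` are `≤ κ`.
* `mpfx_matching` : `K` = a relation which is a partial matching on the low parts.
* `mpfx_gain` : the same with the additional factor `√(s s')`, `s = v/(v,v')`.
* `mpfx_ratio` : the low ratio `v : v'` is a function of `(r, X, Y)`.
-/

set_option autoImplicit false

namespace Crest.Agent.R4C.MPfxx129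

open Finset Crest.Agent.R4C.Basex935

/-- the pair `(v X, v' Y)`, `v, v' ∣ A`, has top common prime `r` -/
structure Cut (M A Q r X Y : ℕ) : Prop where
  hr : r.Prime
  hM : M = A * Q
  hA : ∀ s, s.Prime → s ∣ A → s < r
  hQ : ∀ s, s.Prime → s ∣ Q → r ≤ s
  hX : X ∣ Q
  hY : Y ∣ Q
  rX : r ∣ X
  rY : r ∣ Y
  hXY : ∀ s, s.Prime → s ∣ X → s ∣ Y → s = r

/-- `N_A(X)^{1/2}` -/
noncomputable def Fn (A : ℕ) (f : ℕ → ℝ) (X : ℕ) : ℝ :=
  Real.sqrt (∑ v ∈ A.divisors, (v : ℝ) * (nu A v * f (v * X)) ^ 2)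

/-- the bilinear (Cauchy) hypothesis on the low sums of the form -/
def Hyp (M : ℕ) (Φ : ℕ → ℕ → ℝ) (f : ℕ → ℝ) : Prop :=
  ∀ A Q r X Y, Cut M A Q r X Y →
    ∑ v ∈ A.divisors, ∑ v' ∈ A.divisors, Φ (v * X) (v' * Y) ≤
      (Nat.gcd X Y : ℝ) * nu Q X * nu Q Y * (Fn A f X * Fn A f Y)

open Classical in
/-- energy of the pairs with a common prime -/
noncomputable def S (M : ℕ) (Φ : ℕ → ℕ → ℝ) : ℝ :=
  ∑ b ∈ M.divisors, ∑ c ∈ M.divisors, if Nat.gcd b c ≠ 1 then Φ b c else 0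

/-- one step up -/
noncomputable def Up1 (p a : ℕ) (Φ : ℕ → ℕ → ℝ) (b c : ℕ) : ℝ :=
  ∑ i ∈ range (a + 1), ∑ j ∈ range (a + 1), Φ (p ^ i * b) (p ^ j * c)

noncomputable def up1 (p a : ℕ) (f : ℕ → ℝ) (b : ℕ) : ℝ :=
  Real.sqrt (∑ i ∈ range (a + 1), (p : ℝ) ^ i * (nup p a i * f (p ^ i * b)) ^ 2)

lemma up1_sq (p a : ℕ) (f : ℕ → ℝ) (b : ℕ) : up1 p a f b ^ 2 =
    ∑ i ∈ range (a + 1), (p : ℝ) ^ i * (nup p a i * f (p ^ i * b)) ^ 2 :=
  Real.sq_sqrt (Finset.sum_nonneg fun i _ => by positivity)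

lemma up1_nonneg (p a : ℕ) (f : ℕ → ℝ) (b : ℕ) : 0 ≤ up1 p a f b := Real.sqrt_nonneg _

lemma nu_one : nu 1 1 = 1 := by unfold nu; simp

lemma Fn_one {f : ℕ → ℝ} (hf : ∀ b, 0 ≤ f b) (X : ℕ) : Fn 1 f X = f X := by
  unfold Fn
  rw [Nat.divisors_one, Finset.sum_singleton, nu_one, Nat.cast_one, one_mul, one_mul, one_mul,
    Real.sqrt_sq (hf X)]

section step

variable {p a M1 : ℕ}

lemma nu_split (hp : p.Prime) (hnd : ¬ p ∣ M1) {i b : ℕ} (hi : i ≤ a) (hb : b ∣ M1) :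
    nu (p ^ a * M1) (p ^ i * b) = nup p a i * nu M1 b := by
  have hcop : Nat.Coprime (p ^ a) M1 :=
    Nat.Coprime.pow_left a ((Nat.Prime.coprime_iff_not_dvd hp).2 hnd)
  rw [nu_mul hcop (pow_dvd_pow p hi) hb, nu_prime_pow hp hi]

/-- transfer of the hypothesis to `M1` -/
lemma Hyp.step (hp : p.Prime) (hM1 : 0 < M1) (hnd : ¬ p ∣ M1)
    (hmin : ∀ r, r.Prime → r ∣ M1 → p < r) {Φ : ℕ → ℕ → ℝ} {f : ℕ → ℝ}
    (h : Hyp (p ^ a * M1) Φ f) : Hyp M1 (Up1 p a Φ) (up1 p a f) := by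
  intro A Q r X Y hc
  have hA1 : A ∣ M1 := hc.hM ▸ Nat.dvd_mul_right A Q
  have hQ1 : Q ∣ M1 := hc.hM ▸ Nat.dvd_mul_left Q A
  have hA0 : 0 < A := Nat.pos_of_dvd_of_pos hA1 hM1
  have hndA : ¬ p ∣ A := fun hh => hnd (hh.trans hA1)
  have hpr : p < r := hmin r hc.hr ((hc.rX.trans hc.hX).trans hQ1)
  have hcut : Cut (p ^ a * M1) (p ^ a * A) Q r X Y := by
    refine ⟨hc.hr, by rw [hc.hM, mul_assoc], ?_, hc.hQ, hc.hX, hc.hY, hc.rX, hc.rY, hc.hXY⟩
    intro s hs hsd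
    rcases (Nat.Prime.dvd_mul hs).1 hsd with h1 | h1
    · have := (Nat.prime_dvd_prime_iff_eq hs hp).1 (hs.dvd_of_dvd_pow h1)
      rw [this]; exact hpr
    · exact hc.hA s hs h1
  have h1 := h _ _ _ _ _ hcut
  have hF : ∀ Z, Fn (p ^ a * A) f Z = Fn A (up1 p a f) Z := by
    intro Z
    unfold Fn
    congr 1
    rw [sum_split hp a hA0 hndA, Finset.sum_comm]
    refine Finset.sum_congr rfl fun v hv => ?_
    rw [Nat.mem_divisors] at hv
    rw [mul_pow, up1_sq, Finset.mul_sum, Finset.mul_sum]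
    refine Finset.sum_congr rfl fun i hi => ?_
    rw [Finset.mem_range] at hi
    rw [nu_split hp hndA (by omega) hv.1, mul_assoc (p ^ i) v Z]
    push_cast
    ring
  rw [hF, hF] at h1
  refine le_trans (le_of_eq ?_) h1
  unfold Up1
  calc ∑ v ∈ A.divisors, ∑ v' ∈ A.divisors, ∑ i ∈ range (a + 1), ∑ j ∈ range (a + 1),
        Φ (p ^ i * (v * X)) (p ^ j * (v' * Y))
      = ∑ v ∈ A.divisors, ∑ i ∈ range (a + 1), ∑ j ∈ range (a + 1), ∑ v' ∈ A.divisors,
        Φ (p ^ i * (v * X)) (p ^ j * (v' * Y)) := by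
        refine Finset.sum_congr rfl fun v _ => ?_
        rw [Finset.sum_comm]
        exact Finset.sum_congr rfl fun i _ => Finset.sum_comm
    _ = ∑ i ∈ range (a + 1), ∑ v ∈ A.divisors, ∑ j ∈ range (a + 1), ∑ v' ∈ A.divisors,
        Φ (p ^ i * (v * X)) (p ^ j * (v' * Y)) := Finset.sum_comm
    _ = ∑ v ∈ (p ^ a * A).divisors, ∑ v' ∈ (p ^ a * A).divisors, Φ (v * X) (v' * Y) := by
        rw [sum_split hp a hA0 hndA]
        refine Finset.sum_congr rfl fun i _ => Finset.sum_congr rfl fun v _ => ?_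
        rw [sum_split hp a hA0 hndA]
        refine Finset.sum_congr rfl fun j _ => Finset.sum_congr rfl fun v' _ => ?_
        rw [mul_assoc, mul_assoc]

/-- means over the upper word -/
noncomputable def mean (p M1 : ℕ) (f : ℕ → ℝ) (i : ℕ) : ℝ :=
  ∑ b ∈ M1.divisors, nu M1 b * f (p ^ i * b)

/-- splitting of the energy at the smallest prime -/
lemma S_step (hp : p.Prime) (hM1 : 0 < M1) (hnd : ¬ p ∣ M1)
    (hmin : ∀ r, r.Prime → r ∣ M1 → p < r) {Φ : ℕ → ℕ → ℝ} {f : ℕ → ℝ} (hf : ∀ b, 0 ≤ f b)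
    (h : Hyp (p ^ a * M1) Φ f) :
    S (p ^ a * M1) Φ ≤ S M1 (Up1 p a Φ) + ∑ i ∈ range a, ∑ j ∈ range a,
      (p : ℝ) ^ (min (i + 1) (j + 1)) * ((nup p a (i + 1) * mean p M1 f (i + 1)) *
        (nup p a (j + 1) * mean p M1 f (j + 1))) := by
  classical
  set W : ℕ → ℕ → ℕ → ℕ → ℝ := fun i b j c =>
    if 1 ≤ i ∧ 1 ≤ j then (p : ℝ) ^ (min i j) * ((nup p a i * (nu M1 b * f (p ^ i * b))) *
      (nup p a j * (nu M1 c * f (p ^ j * c)))) else 0 with hW
  have hW0 : ∀ i b j c, 0 ≤ W i b j c := by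
    intro i b j c
    simp only [hW]
    split_ifs
    · have h1 := nup_nonneg hp.pos a i
      have h2 := nup_nonneg hp.pos a j
      have h3 := nu_nonneg M1 b
      have h4 := nu_nonneg M1 c
      have h5 := hf (p ^ i * b)
      have h6 := hf (p ^ j * c)
      positivity
    · exact le_rfl
  have hterm : ∀ i ∈ range (a + 1), ∀ b ∈ M1.divisors, ∀ j ∈ range (a + 1), ∀ c ∈ M1.divisors,
      (if Nat.gcd (p ^ i * b) (p ^ j * c) ≠ 1 then Φ (p ^ i * b) (p ^ j * c) else 0) ≤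
      (if Nat.gcd b c ≠ 1 then Φ (p ^ i * b) (p ^ j * c) else 0) + W i b j c := by
    intro i hi b hb j hj c hc
    rw [Finset.mem_range] at hi hj
    rw [Nat.mem_divisors] at hb hc
    have hpb : ¬ p ∣ b := fun hh => hnd (hh.trans hb.1)
    have hpc : ¬ p ∣ c := fun hh => hnd (hh.trans hc.1)
    have hg := gcd_split hp i j hpb hpc
    by_cases h1 : Nat.gcd b c = 1
    · rw [if_neg (not_not.2 h1 : ¬ Nat.gcd b c ≠ 1), zero_add]
      by_cases h2 : 1 ≤ i ∧ 1 ≤ j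
      · have h3 : Nat.gcd (p ^ i * b) (p ^ j * c) ≠ 1 := by
          rw [hg, h1, mul_one]
          exact (Nat.one_lt_pow (by omega) hp.one_lt).ne'
        rw [if_pos h3]
        have hcut : Cut (p ^ a * M1) 1 (p ^ a * M1) p (p ^ i * b) (p ^ j * c) := by
          refine ⟨hp, (one_mul _).symm, fun s hs hs1 => absurd hs1 hs.not_dvd_one, ?_,
            Nat.mul_dvd_mul (pow_dvd_pow p (by omega)) hb.1,
            Nat.mul_dvd_mul (pow_dvd_pow p (by omega)) hc.1,
            dvd_mul_of_dvd_left (dvd_pow_self p (by omega)) _,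
            dvd_mul_of_dvd_left (dvd_pow_self p (by omega)) _, ?_⟩
          · intro s hs hsd
            rcases (Nat.Prime.dvd_mul hs).1 hsd with h4 | h4
            · exact ((Nat.prime_dvd_prime_iff_eq hs hp).1 (hs.dvd_of_dvd_pow h4)).ge
            · exact (hmin s hs h4).le
          · intro s hs hsb hsc
            by_contra hne
            have h4 : ∀ k x, s ∣ p ^ k * x → s ∣ x := by
              intro k x hx
              rcases (Nat.Prime.dvd_mul hs).1 hx with h5 | h5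
              · exact absurd ((Nat.prime_dvd_prime_iff_eq hs hp).1 (hs.dvd_of_dvd_pow h5)) hne
              · exact h5
            have h5 := Nat.dvd_gcd (h4 _ _ hsb) (h4 _ _ hsc)
            rw [h1] at h5
            exact hs.not_dvd_one h5
        have h4 := h _ _ _ _ _ hcut
        rw [Nat.divisors_one, Finset.sum_singleton, Finset.sum_singleton, one_mul, one_mul,
          Fn_one hf, Fn_one hf, hg, h1, mul_one,
          nu_split hp hnd (by omega) hb.1, nu_split hp hnd (by omega) hc.1] at h4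
        simp only [hW]
        rw [if_pos h2]
        push_cast at h4
        linarith
      · have h3 : ¬ Nat.gcd (p ^ i * b) (p ^ j * c) ≠ 1 := by
          rw [hg, h1, mul_one, show min i j = 0 by omega, pow_zero]
          exact not_not.2 rfl
        rw [if_neg h3]
        exact hW0 _ _ _ _
    · rw [if_pos (show Nat.gcd b c ≠ 1 from h1)]
      have h3 : Nat.gcd (p ^ i * b) (p ^ j * c) ≠ 1 := by
        rw [hg]
        intro h4
        exact h1 (Nat.eq_one_of_mul_eq_one_left h4)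
      rw [if_pos h3]
      have := hW0 i b j c
      linarith
  have hS : S (p ^ a * M1) Φ = ∑ i ∈ range (a + 1), ∑ b ∈ M1.divisors, ∑ j ∈ range (a + 1),
      ∑ c ∈ M1.divisors,
        (if Nat.gcd (p ^ i * b) (p ^ j * c) ≠ 1 then Φ (p ^ i * b) (p ^ j * c) else 0) := by
    unfold S
    rw [sum_split hp a hM1 hnd]
    exact Finset.sum_congr rfl fun i _ => Finset.sum_congr rfl fun b _ => sum_split hp a hM1 hnd _
  have hS1 : ∑ i ∈ range (a + 1), ∑ b ∈ M1.divisors, ∑ j ∈ range (a + 1), ∑ c ∈ M1.divisors,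
      (if Nat.gcd b c ≠ 1 then Φ (p ^ i * b) (p ^ j * c) else 0) = S M1 (Up1 p a Φ) := by
    unfold S Up1
    rw [Finset.sum_comm]
    refine Finset.sum_congr rfl fun b _ => ?_
    calc ∑ i ∈ range (a + 1), ∑ j ∈ range (a + 1), ∑ c ∈ M1.divisors,
          (if Nat.gcd b c ≠ 1 then Φ (p ^ i * b) (p ^ j * c) else 0)
        = ∑ i ∈ range (a + 1), ∑ c ∈ M1.divisors, ∑ j ∈ range (a + 1),
          (if Nat.gcd b c ≠ 1 then Φ (p ^ i * b) (p ^ j * c) else 0) :=
          Finset.sum_congr rfl fun i _ => Finset.sum_comm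
      _ = ∑ c ∈ M1.divisors, ∑ i ∈ range (a + 1), ∑ j ∈ range (a + 1),
          (if Nat.gcd b c ≠ 1 then Φ (p ^ i * b) (p ^ j * c) else 0) := Finset.sum_comm
      _ = _ := by
          refine Finset.sum_congr rfl fun c _ => ?_
          by_cases h1 : Nat.gcd b c ≠ 1
          · simp only [if_pos h1]
          · simp only [if_neg h1, Finset.sum_const_zero]
  have hS2 : ∑ i ∈ range (a + 1), ∑ b ∈ M1.divisors, ∑ j ∈ range (a + 1), ∑ c ∈ M1.divisors,
      W i b j c = ∑ i ∈ range a, ∑ j ∈ range a,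
      (p : ℝ) ^ (min (i + 1) (j + 1)) * ((nup p a (i + 1) * mean p M1 f (i + 1)) *
        (nup p a (j + 1) * mean p M1 f (j + 1))) := by
    rw [Finset.sum_range_succ']
    have e0 : ∑ b ∈ M1.divisors, ∑ j ∈ range (a + 1), ∑ c ∈ M1.divisors, W 0 b j c = 0 := by
      refine Finset.sum_eq_zero fun b _ => Finset.sum_eq_zero fun j _ =>
        Finset.sum_eq_zero fun c _ => ?_
      simp only [hW]
      rw [if_neg (by omega)]
    rw [e0, add_zero]
    refine Finset.sum_congr rfl fun i _ => ?_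
    rw [Finset.sum_comm, Finset.sum_range_succ']
    have e1 : ∑ b ∈ M1.divisors, ∑ c ∈ M1.divisors, W (i + 1) b 0 c = 0 := by
      refine Finset.sum_eq_zero fun b _ => Finset.sum_eq_zero fun c _ => ?_
      simp only [hW]
      rw [if_neg (by omega)]
    rw [e1, add_zero]
    refine Finset.sum_congr rfl fun j _ => ?_
    unfold mean
    rw [Finset.mul_sum, Finset.mul_sum, Finset.sum_mul_sum, Finset.mul_sum]
    refine Finset.sum_congr rfl fun b _ => ?_
    rw [Finset.mul_sum]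
    refine Finset.sum_congr rfl fun c _ => ?_
    simp only [hW]
    rw [if_pos (by omega)]
  rw [hS, ← hS1, ← hS2, ← Finset.sum_add_distrib]
  refine Finset.sum_le_sum fun i hi => ?_
  rw [← Finset.sum_add_distrib]
  refine Finset.sum_le_sum fun b hb => ?_
  rw [← Finset.sum_add_distrib]
  refine Finset.sum_le_sum fun j hj => ?_
  rw [← Finset.sum_add_distrib]
  exact Finset.sum_le_sum fun c hc => hterm i hi b hb j hj c hc

lemma top_split (hp : p.Prime) (hM1 : 0 < M1) (hnd : ¬ p ∣ M1) (f : ℕ → ℝ) :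
    ∑ b ∈ (p ^ a * M1).divisors, (b : ℝ) * (nu (p ^ a * M1) b * f b) ^ 2 =
      ∑ b ∈ M1.divisors, (b : ℝ) * (nu M1 b * up1 p a f b) ^ 2 := by
  rw [sum_split hp a hM1 hnd, Finset.sum_comm]
  refine Finset.sum_congr rfl fun b hb => ?_
  rw [Nat.mem_divisors] at hb
  rw [mul_pow, up1_sq, Finset.mul_sum, Finset.mul_sum]
  refine Finset.sum_congr rfl fun i hi => ?_
  rw [Finset.mem_range] at hi
  rw [nu_split hp hnd (by omega) hb.1]
  push_cast
  ring

lemma lin_split (hp : p.Prime) (hM1 : 0 < M1) (hnd : ¬ p ∣ M1) (F : ℕ → ℝ) :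
    ∑ b ∈ (p ^ a * M1).divisors, nu (p ^ a * M1) b * F b =
      ∑ i ∈ range (a + 1), nup p a i * ∑ b ∈ M1.divisors, nu M1 b * F (p ^ i * b) := by
  rw [sum_split hp a hM1 hnd]
  refine Finset.sum_congr rfl fun i hi => ?_
  rw [Finset.mem_range] at hi
  rw [Finset.mul_sum]
  refine Finset.sum_congr rfl fun b hb => ?_
  rw [Nat.mem_divisors] at hb
  rw [nu_split hp hnd (by omega) hb.1]
  ring

lemma up1_mass (f : ℕ → ℝ) :
    ∑ b ∈ M1.divisors, nu M1 b * up1 p a f b ^ 2 =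
      ∑ i ∈ range (a + 1), ((p : ℝ) ^ i * nup p a i ^ 2) *
        ∑ b ∈ M1.divisors, nu M1 b * f (p ^ i * b) ^ 2 := by
  calc ∑ b ∈ M1.divisors, nu M1 b * up1 p a f b ^ 2
      = ∑ b ∈ M1.divisors, ∑ i ∈ range (a + 1),
        nu M1 b * ((p : ℝ) ^ i * (nup p a i * f (p ^ i * b)) ^ 2) := by
        refine Finset.sum_congr rfl fun b _ => ?_
        rw [up1_sq, Finset.mul_sum]
    _ = _ := by
        rw [Finset.sum_comm]
        refine Finset.sum_congr rfl fun i _ => ?_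
        rw [Finset.mul_sum]
        exact Finset.sum_congr rfl fun b _ => by ring

/-- Minkowski -/
lemma minkowski (D : Finset ℕ) (ν : ℕ → ℝ) (hν : ∀ b, 0 ≤ ν b) (m : ℕ) (c n : ℕ → ℝ)
    (hc : ∀ i, 0 ≤ c i) (F : ℕ → ℕ → ℝ) :
    ∑ i ∈ range m, c i * (n i * ∑ b ∈ D, ν b * F i b) ^ 2 ≤
      (∑ b ∈ D, ν b * Real.sqrt (∑ i ∈ range m, c i * (n i * F i b) ^ 2)) ^ 2 := by
  set α : ℕ → ℝ := fun i => ∑ b ∈ D, ν b * F i b with hα
  set T := ∑ i ∈ range m, c i * (n i * α i) ^ 2 with hT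
  set I := ∑ b ∈ D, ν b * Real.sqrt (∑ i ∈ range m, c i * (n i * F i b) ^ 2) with hI
  have hT0 : 0 ≤ T := Finset.sum_nonneg fun i _ => mul_nonneg (hc i) (sq_nonneg _)
  have h1 : T = ∑ b ∈ D, ν b * ∑ i ∈ range m, (Real.sqrt (c i) * (n i * α i)) *
      (Real.sqrt (c i) * (n i * F i b)) := by
    calc T = ∑ i ∈ range m, ∑ b ∈ D, ν b * ((Real.sqrt (c i) * (n i * α i)) *
          (Real.sqrt (c i) * (n i * F i b))) := by
          rw [hT]
          refine Finset.sum_congr rfl fun i _ => ?_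
          have e : ∀ b ∈ D, ν b * ((Real.sqrt (c i) * (n i * α i)) *
              (Real.sqrt (c i) * (n i * F i b))) = (c i * n i * n i * α i) * (ν b * F i b) := by
            intro b _
            have := Real.mul_self_sqrt (hc i)
            calc ν b * ((Real.sqrt (c i) * (n i * α i)) * (Real.sqrt (c i) * (n i * F i b)))
                = (Real.sqrt (c i) * Real.sqrt (c i)) * n i * n i * α i * (ν b * F i b) := by ring
              _ = _ := by rw [this]
          rw [Finset.sum_congr rfl e, ← Finset.mul_sum]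
          change _ = c i * n i * n i * α i * α i
          ring
      _ = _ := by
          rw [Finset.sum_comm]
          exact Finset.sum_congr rfl fun b _ => by rw [Finset.mul_sum]
  have h2 : T ≤ Real.sqrt T * I := by
    calc T = _ := h1
      _ ≤ ∑ b ∈ D, ν b * (Real.sqrt T * Real.sqrt (∑ i ∈ range m, c i * (n i * F i b) ^ 2)) := by
          refine Finset.sum_le_sum fun b _ => mul_le_mul_of_nonneg_left ?_ (hν b)
          refine (Real.sum_mul_le_sqrt_mul_sqrt _ _ _).trans (le_of_eq ?_)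
          have e : ∀ y : ℕ → ℝ, ∑ i ∈ range m, (Real.sqrt (c i) * y i) ^ 2 =
              ∑ i ∈ range m, c i * y i ^ 2 := fun y =>
            Finset.sum_congr rfl fun i _ => by rw [mul_pow, Real.sq_sqrt (hc i)]
          rw [e (fun i => n i * α i), e (fun i => n i * F i b)]
      _ = Real.sqrt T * I := by
          rw [hI, Finset.mul_sum]
          exact Finset.sum_congr rfl fun b _ => by ring
  have hI0 : 0 ≤ I := Finset.sum_nonneg fun b _ => mul_nonneg (hν b) (Real.sqrt_nonneg _)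
  rcases eq_or_lt_of_le (Real.sqrt_nonneg T) with h3 | h3
  · have : T = 0 := by
      rw [← Real.mul_self_sqrt hT0, ← h3, mul_zero]
    rw [this]
    positivity
  · have h4 : Real.sqrt T ≤ I := by
      have h5 : Real.sqrt T * Real.sqrt T ≤ Real.sqrt T * I := by
        rw [Real.mul_self_sqrt hT0]; exact h2
      exact le_of_mul_le_mul_left h5 h3
    calc T = Real.sqrt T ^ 2 := (Real.sq_sqrt hT0).symm
      _ ≤ I ^ 2 := pow_le_pow_left₀ (Real.sqrt_nonneg _) h4 2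

end step

/-! ### Assembly -/

lemma jensen {M : ℕ} (hM : 0 < M) (F : ℕ → ℝ) :
    (∑ b ∈ M.divisors, nu M b * F b) ^ 2 ≤ ∑ b ∈ M.divisors, nu M b * F b ^ 2 := by
  have h := Finset.sum_mul_sq_le_sq_mul_sq M.divisors (fun b => Real.sqrt (nu M b))
    (fun b => Real.sqrt (nu M b) * F b)
  have e1 : ∀ b ∈ M.divisors, Real.sqrt (nu M b) * (Real.sqrt (nu M b) * F b) = nu M b * F b := by
    intro b _
    rw [← mul_assoc, Real.mul_self_sqrt (nu_nonneg M b)]
  have e2 : ∀ b ∈ M.divisors, Real.sqrt (nu M b) ^ 2 = nu M b := fun b _ =>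
    Real.sq_sqrt (nu_nonneg M b)
  have e3 : ∀ b ∈ M.divisors, (Real.sqrt (nu M b) * F b) ^ 2 = nu M b * F b ^ 2 := by
    intro b _
    rw [mul_pow, Real.sq_sqrt (nu_nonneg M b)]
  rw [Finset.sum_congr rfl e1, Finset.sum_congr rfl e2, Finset.sum_congr rfl e3, sum_nu hM,
    one_mul] at h
  exact h

lemma mul_nu_le {M b : ℕ} (hM : 0 < M) (hb : b ∣ M) : (b : ℝ) * nu M b ≤ 1 := by
  have hM0 : (0 : ℝ) < M := by exact_mod_cast hM
  have h1 : (M / b).totient ≤ M / b := Nat.totient_le _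
  have h2 : b * (M / b) = M := Nat.mul_div_cancel' hb
  unfold nu
  rw [← mul_div_assoc, div_le_one hM0]
  have h3 : b * (M / b).totient ≤ M := by
    calc b * (M / b).totient ≤ b * (M / b) := Nat.mul_le_mul_left _ h1
      _ = M := h2
  exact_mod_cast h3

lemma top_le {M : ℕ} (hM : 0 < M) (f : ℕ → ℝ) :
    ∑ b ∈ M.divisors, (b : ℝ) * (nu M b * f b) ^ 2 ≤ ∑ b ∈ M.divisors, nu M b * f b ^ 2 := by
  refine Finset.sum_le_sum fun b hb => ?_
  rw [Nat.mem_divisors] at hb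
  have h1 := mul_nu_le hM hb.1
  have h2 : 0 ≤ nu M b * f b ^ 2 := mul_nonneg (nu_nonneg M b) (sq_nonneg _)
  calc (b : ℝ) * (nu M b * f b) ^ 2 = ((b : ℝ) * nu M b) * (nu M b * f b ^ 2) := by ring
    _ ≤ 1 * (nu M b * f b ^ 2) := mul_le_mul_of_nonneg_right h1 h2
    _ = _ := one_mul _

lemma pow_nup_sq_le {p : ℕ} (hp : 0 < p) {a i : ℕ} (hi : i ≤ a) :
    (p : ℝ) ^ i * nup p a i ^ 2 ≤ nup p a i := by
  have h1 := nup_le hp a i hi
  have h0 := nup_nonneg hp a i
  have hp0 : (0 : ℝ) < p := by exact_mod_cast hp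
  have h2 : (p : ℝ) ^ i * nup p a i ≤ 1 := by
    calc (p : ℝ) ^ i * nup p a i ≤ (p : ℝ) ^ i * (1 / (p : ℝ)) ^ i :=
          mul_le_mul_of_nonneg_left h1 (by positivity)
      _ = 1 := by rw [← mul_pow, mul_one_div_cancel hp0.ne', one_pow]
  nlinarith

/-- odd `M` -/
theorem main_odd : ∀ M : ℕ, 0 < M → (Odd M → ∀ (Φ : ℕ → ℕ → ℝ) (f : ℕ → ℝ), (∀ b, 0 ≤ f b) →
    Hyp M Φ f →
    S M Φ + 16 * (∑ b ∈ M.divisors, nu M b * f b) ^ 2 ≤
      16 * ∑ b ∈ M.divisors, (b : ℝ) * (nu M b * f b) ^ 2 +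
        64 * ∑ b ∈ M.divisors, nu M b * f b ^ 2) := by
  refine ind_min ?_ ?_
  · intro _ Φ f _ _
    have e : S 1 Φ = 0 := by
      unfold S
      simp
    rw [e, Nat.divisors_one]
    simp only [Finset.sum_singleton, nu_one, Nat.cast_one, one_mul, zero_add]
    nlinarith [sq_nonneg (f 1)]
  · intro p a M1 hp ha hM1 hnd hmin ih hodd Φ f hf h
    rw [Nat.odd_mul] at hodd
    have hp3 : 3 ≤ p := by
      have h2 : p ≠ 2 := by
        rintro rfl
        exact (Nat.not_odd_iff_even.2 ((even_two).pow_of_ne_zero ha.ne')) hodd.1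
      have := hp.two_le
      omega
    have hp3' : (3 : ℝ) ≤ p := by exact_mod_cast hp3
    have h1 := ih hodd.2 (Up1 p a Φ) (up1 p a f) (up1_nonneg p a f) (h.step hp hM1 hnd hmin)
    have h2 := S_step hp hM1 hnd hmin hf h
    have hn0 : nup p a 0 = 1 - 1 / (p : ℝ) := by
      unfold nup
      rw [if_pos ha, pow_zero, mul_one]
    have h3 := one_prime hp3' a (nup p a) (mean p M1 f) hn0
    have h4 := minkowski M1.divisors (nu M1) (nu_nonneg M1) (a + 1) (fun i => (p : ℝ) ^ i)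
      (nup p a) (fun i => by positivity) (fun i b => f (p ^ i * b))
    have h4' : ∑ i ∈ range (a + 1), (p : ℝ) ^ i * (nup p a i * mean p M1 f i) ^ 2 ≤
        (∑ b ∈ M1.divisors, nu M1 b * up1 p a f b) ^ 2 := h4
    have h5 := lin_split (a := a) hp hM1 hnd f
    have h6 := lin_split (a := a) hp hM1 hnd (fun b => f b ^ 2)
    have h7 := top_split (a := a) hp hM1 hnd f
    have h8 := up1_mass (p := p) (a := a) (M1 := M1) f
    set g : ℕ → ℝ := fun i => ∑ b ∈ M1.divisors, nu M1 b * f (p ^ i * b) ^ 2 with hg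
    have hg0 : ∀ i, 0 ≤ g i := fun i =>
      Finset.sum_nonneg fun b _ => mul_nonneg (nu_nonneg M1 b) (sq_nonneg _)
    have h9 : mean p M1 f 0 ^ 2 ≤ g 0 := jensen hM1 (fun b => f (p ^ 0 * b))
    have hn0' : 0 ≤ nup p a 0 := nup_nonneg hp.pos a 0
    have h10 : 1 / (p : ℝ) * nup p a 0 * mean p M1 f 0 ^ 2 +
        ∑ i ∈ range (a + 1), ((p : ℝ) ^ i * nup p a i ^ 2) * g i ≤
        ∑ i ∈ range (a + 1), nup p a i * g i := by
      rw [Finset.sum_range_succ', Finset.sum_range_succ' (fun i => nup p a i * g i)]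
      have h11 : ∑ i ∈ range a, ((p : ℝ) ^ (i + 1) * nup p a (i + 1) ^ 2) * g (i + 1) ≤
          ∑ i ∈ range a, nup p a (i + 1) * g (i + 1) := by
        refine Finset.sum_le_sum fun i hi => ?_
        rw [Finset.mem_range] at hi
        exact mul_le_mul_of_nonneg_right (pow_nup_sq_le hp.pos (by omega)) (hg0 _)
      have hw : (0 : ℝ) ≤ 1 / (p : ℝ) := by positivity
      have h12 : 1 / (p : ℝ) * nup p a 0 * mean p M1 f 0 ^ 2 ≤ 1 / (p : ℝ) * nup p a 0 * g 0 :=
        mul_le_mul_of_nonneg_left h9 (by positivity)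
      have h13 : 1 / (p : ℝ) * nup p a 0 * g 0 + ((p : ℝ) ^ 0 * nup p a 0 ^ 2) * g 0 =
          nup p a 0 * g 0 := by
        rw [pow_zero, one_mul, hn0]
        ring
      linarith
    have h5' : ∑ b ∈ (p ^ a * M1).divisors, nu (p ^ a * M1) b * f b =
        ∑ i ∈ range (a + 1), nup p a i * mean p M1 f i := h5
    have h6' : ∑ b ∈ (p ^ a * M1).divisors, nu (p ^ a * M1) b * f b ^ 2 =
        ∑ i ∈ range (a + 1), nup p a i * g i := h6
    rw [h5', h6', h7]
    rw [h8] at h1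
    linarith

/-- **the general form** -/
theorem S_le {M : ℕ} (hM : 0 < M) {Φ : ℕ → ℕ → ℝ} {f : ℕ → ℝ} (hf : ∀ b, 0 ≤ f b)
    (h : Hyp M Φ f) : S M Φ ≤ 86 * ∑ b ∈ M.divisors, nu M b * f b ^ 2 := by
  have hG0 : 0 ≤ ∑ b ∈ M.divisors, nu M b * f b ^ 2 :=
    Finset.sum_nonneg fun b _ => mul_nonneg (nu_nonneg M b) (sq_nonneg _)
  rcases Nat.even_or_odd M with he | ho
  · obtain ⟨a, M1, hnd, heq⟩ := Nat.exists_eq_pow_mul_and_not_dvd hM.ne' 2 (by norm_num)
    have hM1 : 0 < M1 := by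
      rcases Nat.eq_zero_or_pos M1 with h1 | h1
      · rw [h1] at hnd; exact absurd (dvd_zero _) hnd
      · exact h1
    have hodd1 : Odd M1 := by
      rw [← Nat.not_even_iff_odd, even_iff_two_dvd]
      exact hnd
    have hp : Nat.Prime 2 := Nat.prime_two
    have hmin : ∀ r, r.Prime → r ∣ M1 → 2 < r := by
      intro r hr hrd
      refine lt_of_le_of_ne hr.two_le ?_
      rintro rfl
      exact hnd hrd
    subst heq
    have h1 := main_odd M1 hM1 hodd1 (Up1 2 a Φ) (up1 2 a f) (up1_nonneg 2 a f)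
      (h.step hp hM1 hnd hmin)
    have h2 := S_step hp hM1 hnd hmin hf h
    have h6 := lin_split (a := a) hp hM1 hnd (fun b => f b ^ 2)
    have h7 := top_split (a := a) hp hM1 hnd f
    have h8 := up1_mass (p := 2) (a := a) (M1 := M1) f
    have h9 := top_le hM f
    set g : ℕ → ℝ := fun i => ∑ b ∈ M1.divisors, nu M1 b * f (2 ^ i * b) ^ 2 with hg
    have hg0 : ∀ i, 0 ≤ g i := fun i =>
      Finset.sum_nonneg fun b _ => mul_nonneg (nu_nonneg M1 b) (sq_nonneg _)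
    have h6' : ∑ b ∈ (2 ^ a * M1).divisors, nu (2 ^ a * M1) b * f b ^ 2 =
        ∑ i ∈ range (a + 1), nup 2 a i * g i := h6
    have h8' : ∑ b ∈ M1.divisors, nu M1 b * up1 2 a f b ^ 2 ≤
        ∑ i ∈ range (a + 1), nup 2 a i * g i := by
      rw [h8]
      refine Finset.sum_le_sum fun i hi => ?_
      rw [Finset.mem_range] at hi
      exact mul_le_mul_of_nonneg_right (pow_nup_sq_le hp.pos (by omega)) (hg0 _)
    -- kernel part at 2
    have hk := ker_bound (p := ((2 : ℕ) : ℝ)) (θ := 3 / 2) (by norm_num) (by norm_num) a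
      (fun i => nup 2 a (i + 1) * mean 2 M1 f (i + 1))
    have hC : 1 / (1 - 3 / 2 / ((2 : ℕ) : ℝ)) + (1 / (3 / 2 : ℝ)) / (1 - 1 / (3 / 2 : ℝ)) = 6 := by
      norm_num
    rw [hC] at hk
    have e1 : ∑ i ∈ range a, ∑ j ∈ range a,
        ((2 : ℕ) : ℝ) ^ (min (i + 1) (j + 1)) * ((nup 2 a (i + 1) * mean 2 M1 f (i + 1)) *
          (nup 2 a (j + 1) * mean 2 M1 f (j + 1))) =
        ((2 : ℕ) : ℝ) * ∑ i ∈ range a, ∑ j ∈ range a,
        ((2 : ℕ) : ℝ) ^ (min i j) * ((nup 2 a (i + 1) * mean 2 M1 f (i + 1)) *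
          (nup 2 a (j + 1) * mean 2 M1 f (j + 1))) := by
      rw [Finset.mul_sum]
      refine Finset.sum_congr rfl fun i _ => ?_
      rw [Finset.mul_sum]
      refine Finset.sum_congr rfl fun j _ => ?_
      rw [show min (i + 1) (j + 1) = min i j + 1 by omega, pow_succ]
      ring
    have e2 : ((2 : ℕ) : ℝ) * ∑ i ∈ range a, ((2 : ℕ) : ℝ) ^ i *
        (nup 2 a (i + 1) * mean 2 M1 f (i + 1)) ^ 2 ≤ ∑ i ∈ range (a + 1), nup 2 a i * g i := by
      rw [Finset.mul_sum, Finset.sum_range_succ']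
      have h10 : 0 ≤ nup 2 a 0 * g 0 := mul_nonneg (nup_nonneg hp.pos a 0) (hg0 0)
      have h11 : ∑ i ∈ range a, ((2 : ℕ) : ℝ) * (((2 : ℕ) : ℝ) ^ i *
          (nup 2 a (i + 1) * mean 2 M1 f (i + 1)) ^ 2) ≤
          ∑ i ∈ range a, nup 2 a (i + 1) * g (i + 1) := by
        refine Finset.sum_le_sum fun i hi => ?_
        rw [Finset.mem_range] at hi
        have h12 : mean 2 M1 f (i + 1) ^ 2 ≤ g (i + 1) := jensen hM1 (fun b => f (2 ^ (i + 1) * b))
        have h13 := pow_nup_sq_le hp.pos (a := a) (i := i + 1) (by omega)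
        have h14 : (0 : ℝ) ≤ ((2 : ℕ) : ℝ) ^ (i + 1) * nup 2 a (i + 1) ^ 2 := by positivity
        calc ((2 : ℕ) : ℝ) * (((2 : ℕ) : ℝ) ^ i * (nup 2 a (i + 1) * mean 2 M1 f (i + 1)) ^ 2)
            = (((2 : ℕ) : ℝ) ^ (i + 1) * nup 2 a (i + 1) ^ 2) * mean 2 M1 f (i + 1) ^ 2 := by ring
          _ ≤ (((2 : ℕ) : ℝ) ^ (i + 1) * nup 2 a (i + 1) ^ 2) * g (i + 1) :=
              mul_le_mul_of_nonneg_left h12 h14
          _ ≤ nup 2 a (i + 1) * g (i + 1) := mul_le_mul_of_nonneg_right h13 (hg0 _)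
      linarith
    rw [h6'] at h9 ⊢
    rw [h7] at h9
    have h15 : (0 : ℝ) ≤ (∑ b ∈ M1.divisors, nu M1 b * up1 2 a f b) ^ 2 := sq_nonneg _
    have h16 := mul_le_mul_of_nonneg_left hk (by positivity : (0 : ℝ) ≤ ((2 : ℕ) : ℝ))
    rw [← e1] at h16
    nlinarith
  · have h1 := main_odd M hM ho Φ f hf h
    have h2 := top_le hM f
    have h3 : (0 : ℝ) ≤ (∑ b ∈ M.divisors, nu M b * f b) ^ 2 := sq_nonneg _
    linarith

end Crest.Agent.R4C.MPfxx129
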