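import Crest.Agent.R4C.NHdef_656
import Crest.Agent.R4C.GWhypB_656
import Crest.Agent.R4C.SP_726
import Crest.Agent.R4C.Disp_821
import Crest.Agent.R4C.CutSum_492
import Crest.Agent.R4C.CutSum_119

/-!
# Row 4, GW section: block NH (656's note 3754), complete, second hand (helper438)

`nh` : the natural mass of the words `S` of the cell (a finite set `Λ` of targets for
`(∏ S) γ` mod 1 with error `1/t`, and no fraction of depth `< K0` at the scale `t`) which are `Bad`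
(NHdef_656) is `≤ C (s + |Λ| K0^{-1/4} + 1/t)`.

Own proofs of (NC), (a2), DispRare (from 821's `disp_phi`), (U), (K) (from 821's `gwk`), (E);
uses `sp` (726), `disp_phi`, `gwk` (821), `cut_sum` (492), `sum_pow_le` (119), `gwhyp'` (656).
-/

set_option autoImplicit false

namespace Crest.Agent.R4C.NHx438

open Finset Crest.Agent.R4C.GWhx656 Crest.Agent.R4C.NHx656 Crest.Agent.R4C.GWhBx656

/-! ### generic masses -/

/-- words whose smallest letter has `≤ s` mass of free primes below it -/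
lemma mass_first {P : Finset ℕ} (hP : ∀ p ∈ P, 2 ≤ p) {y s : ℝ} (hy : 1 ≤ y)
    (hPy : ∀ p ∈ P, y ≤ (p : ℝ)) (hs : 0 ≤ s) (E : Finset (Finset ℕ))
    (hE : ∀ S ∈ E, S ⊆ P ∧ S.Nonempty ∧ ∑ q ∈ P with q < mn S, (1 : ℝ) / q ≤ s) :
    ∑ S ∈ E, law P S ≤ s + 1 / y := by
  classical
  rcases E.eq_empty_or_nonempty with rfl | hne
  · rw [sum_empty]; positivity
  obtain ⟨S1, hS1, hmax⟩ := exists_max_image E mn hne
  set r := mn S1 with hr
  have hrP : r ∈ P := (hE S1 hS1).1 (mn_mem (hE S1 hS1).2.1)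
  have hl0 : ∀ S, 0 ≤ law P S := fun S => law_nonneg fun p hp => by have := hP p hp; omega
  set w : ℕ → ℝ := fun ρ => if ρ ≤ r then 1 else 0 with hw
  have hw0 : ∀ ρ, 0 ≤ w ρ := fun ρ => by simp only [hw]; split_ifs <;> norm_num
  have h1 : ∑ S ∈ E, law P S ≤ ∑ S ∈ P.powerset, law P S * ∑ ρ ∈ S, w ρ := by
    have hsub : E ⊆ P.powerset := fun S hS => mem_powerset.2 (hE S hS).1
    refine le_trans (sum_le_sum (g := fun S => law P S * ∑ ρ ∈ S, w ρ) fun S hS => ?_)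
      (sum_le_sum_of_subset_of_nonneg hsub fun S _ _ =>
        mul_nonneg (hl0 S) (sum_nonneg fun ρ _ => hw0 ρ))
    have h2 : (1 : ℝ) ≤ ∑ ρ ∈ S, w ρ := by
      have h3 : w (mn S) = 1 := by simp only [hw, if_pos (hmax S hS)]
      calc (1 : ℝ) = w (mn S) := h3.symm
        _ ≤ ∑ ρ ∈ S, w ρ := single_le_sum (fun ρ _ => hw0 ρ) (mn_mem (hE S hS).2.1)
    nlinarith [hl0 S]
  rw [CutSumx492.mean_letters] at h1
  refine h1.trans ?_
  have h2 : ∑ ρ ∈ P, w ρ / ρ = ∑ ρ ∈ P with ρ ≤ r, (1 : ℝ) / ρ := by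
    rw [sum_filter]
    refine sum_congr rfl fun ρ _ => ?_
    simp only [hw]
    split_ifs <;> simp
  have h3 : P.filter (fun ρ => ρ ≤ r) = insert r (P.filter fun ρ => ρ < r) := by
    ext ρ
    simp only [mem_filter, mem_insert]
    constructor
    · rintro ⟨ha, hb⟩
      rcases hb.lt_or_eq with h | h
      · exact Or.inr ⟨ha, h⟩
      · exact Or.inl h
    · rintro (h | ⟨ha, hb⟩)
      · rw [h]; exact ⟨hrP, le_rfl⟩
      · exact ⟨ha, hb.le⟩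
  rw [h2, h3, sum_insert (by simp)]
  have h4 : (1 : ℝ) / r ≤ 1 / y := one_div_le_one_div_of_le (by linarith) (hPy r hrP)
  have h5 := (hE S1 hS1).2.2
  linarith

/-- `N` successive squares -/
lemma blocks {F : Finset ℕ} {b : ℝ → ℝ} : ∀ (N : ℕ) (X : ℝ), 1 ≤ X →
    (∀ p ∈ F, X < p ∧ (p : ℝ) ≤ X ^ 2 ^ N) →
    (∀ i < N, ∑ p ∈ F.filter (fun p : ℕ => X ^ 2 ^ i < (p : ℝ) ∧ (p : ℝ) ≤ (X ^ 2 ^ i) ^ 2), (1 : ℝ) / p ≤
      b (X ^ 2 ^ i)) →
    ∑ p ∈ F, (1 : ℝ) / p ≤ ∑ i ∈ range N, b (X ^ 2 ^ i) := by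
  classical
  intro N X hX hF hb
  calc ∑ p ∈ F, (1 : ℝ) / p
      ≤ ∑ p ∈ F, ∑ i ∈ range N, if X ^ 2 ^ i < (p : ℝ) ∧ (p : ℝ) ≤ (X ^ 2 ^ i) ^ 2 then
        (1 : ℝ) / p else 0 := by
        refine sum_le_sum fun p hp => ?_
        obtain ⟨h1, h2⟩ := hF p hp
        have hex : ∃ i, (p : ℝ) ≤ X ^ 2 ^ i := ⟨N, h2⟩
        set i := Nat.find hex with hi
        have hi1 : (p : ℝ) ≤ X ^ 2 ^ i := Nat.find_spec hex
        have hi0 : i ≠ 0 := by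
          intro h0
          rw [h0] at hi1
          simp at hi1
          linarith
        obtain ⟨j, hj⟩ := Nat.exists_eq_succ_of_ne_zero hi0
        have hj1 : ¬ (p : ℝ) ≤ X ^ 2 ^ j := Nat.find_min hex (by rw [← hi, hj]; exact Nat.lt_succ_self j)
        have hjN : j < N := by
          have : i ≤ N := Nat.find_le h2
          omega
        have hj2 : (p : ℝ) ≤ (X ^ 2 ^ j) ^ 2 := by
          rw [← pow_mul, ← pow_succ, ← Nat.succ_eq_add_one, ← hj]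
          exact hi1
        have h3 := single_le_sum (f := fun i => if X ^ 2 ^ i < (p : ℝ) ∧ (p : ℝ) ≤ (X ^ 2 ^ i) ^ 2 then
          (1 : ℝ) / p else 0) (fun i _ => by split_ifs <;> positivity) (mem_range.2 hjN)
        rw [if_pos ⟨not_le.1 hj1, hj2⟩] at h3
        exact h3
    _ = ∑ i ∈ range N, ∑ p ∈ F.filter (fun p : ℕ => X ^ 2 ^ i < (p : ℝ) ∧ (p : ℝ) ≤ (X ^ 2 ^ i) ^ 2),
        (1 : ℝ) / p := by
        rw [sum_comm]
        refine sum_congr rfl fun i _ => ?_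
        rw [sum_filter]
    _ ≤ _ := sum_le_sum fun i hi => hb i (mem_range.1 hi)

/-- geometric sum over successive squares -/
lemma geom_blocks {X : ℝ} (hX : 16 ≤ X) (N : ℕ) :
    ∑ i ∈ range N, (X ^ 2 ^ i) ^ (-(1 / 4) : ℝ) ≤ 2 * X ^ (-(1 / 4) : ℝ) := by
  have hX0 : 0 < X := by linarith
  set z : ℝ := X ^ (-(1 / 4) : ℝ) with hz
  have hz0 : 0 < z := Real.rpow_pos_of_pos hX0 _
  have hz1 : z ≤ 1 / 2 := by
    have h1 : X ^ (-(1 / 4) : ℝ) ≤ (16 : ℝ) ^ (-(1 / 4) : ℝ) :=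
      Real.rpow_le_rpow_of_nonpos (by norm_num) hX (by norm_num)
    have h2 : (16 : ℝ) ^ (-(1 / 4) : ℝ) = 1 / 2 := by
      rw [show (16 : ℝ) = 2 ^ (4 : ℝ) by norm_num, ← Real.rpow_mul (by norm_num)]
      rw [show (4 : ℝ) * (-(1 / 4)) = -1 by norm_num, Real.rpow_neg_one]
      norm_num
    linarith
  have h1 : ∀ i : ℕ, (X ^ 2 ^ i) ^ (-(1 / 4) : ℝ) ≤ z * (1 / 2) ^ i := by
    intro i
    have e1 : (X ^ 2 ^ i) ^ (-(1 / 4) : ℝ) = z ^ (2 ^ i) := by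
      rw [hz, ← Real.rpow_natCast, ← Real.rpow_natCast, ← Real.rpow_mul hX0.le,
        ← Real.rpow_mul hX0.le, mul_comm]
    rw [e1]
    have h2 : i + 1 ≤ 2 ^ i := Nat.lt_two_pow_self
    calc z ^ (2 ^ i) ≤ z ^ (i + 1) := pow_le_pow_of_le_one hz0.le (by linarith) h2
      _ = z * z ^ i := pow_succ' z i
      _ ≤ z * (1 / 2) ^ i := mul_le_mul_of_nonneg_left (pow_le_pow_left₀ hz0.le hz1 i) hz0.le
  calc ∑ i ∈ range N, (X ^ 2 ^ i) ^ (-(1 / 4) : ℝ) ≤ ∑ i ∈ range N, z * (1 / 2) ^ i :=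
        sum_le_sum fun i _ => h1 i
    _ = z * ∑ i ∈ range N, (1 / 2 : ℝ) ^ i := by rw [mul_sum]
    _ ≤ z * 2 := by
        refine mul_le_mul_of_nonneg_left ?_ hz0.le
        rw [geom_sum_eq (by norm_num)]
        have : (0 : ℝ) < (1 / 2) ^ N := by positivity
        rw [div_le_iff_of_neg (by norm_num)]
        linarith
    _ = 2 * z := by ring


/-- blocks up to `τ^A` -/
lemma cut_blocks (A : ℕ) {F : Finset ℕ} {C τ ρ : ℝ} (hC : 0 ≤ C) (hρ : 16 ≤ ρ) (hρτ : ρ ≤ τ)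
    (hF : ∀ p ∈ F, ρ < p ∧ (p : ℝ) ≤ τ ^ A)
    (hb : ∀ X : ℝ, ρ ≤ X → X ≤ τ ^ A →
      ∑ p ∈ F.filter (fun p : ℕ => X < (p : ℝ) ∧ (p : ℝ) ≤ X ^ 2), (1 : ℝ) / p ≤
        C * (min τ X) ^ (-(1 / 4) : ℝ)) :
    ∑ p ∈ F, (1 : ℝ) / p ≤ C * (A + 2) * ρ ^ (-(1 / 4) : ℝ) := by
  classical
  have hτ1 : 1 ≤ τ := by linarith
  have hρ0 : 0 < ρ := by linarith
  have hτ0 : 0 < τ := by linarith
  have hbX : ∀ (G : Finset ℕ), G ⊆ F → ∀ X : ℝ, ρ ≤ X →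
      ∑ p ∈ G.filter (fun p : ℕ => X < (p : ℝ) ∧ (p : ℝ) ≤ X ^ 2), (1 : ℝ) / p ≤
        C * (min τ X) ^ (-(1 / 4) : ℝ) := by
    intro G hG X hX
    have hX0 : 0 < X := by linarith
    have hpos : 0 ≤ C * (min τ X) ^ (-(1 / 4) : ℝ) :=
      mul_nonneg hC (Real.rpow_nonneg (le_min hτ0.le hX0.le) _)
    by_cases hXA : X ≤ τ ^ A
    · refine le_trans (sum_le_sum_of_subset_of_nonneg (filter_subset_filter _ hG)
        fun p _ _ => by positivity) (hb X hX hXA)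
    · have : G.filter (fun p : ℕ => X < (p : ℝ) ∧ (p : ℝ) ≤ X ^ 2) = ∅ := by
        rw [filter_eq_empty_iff]
        rintro p hp ⟨h1, h2⟩
        exact hXA (h1.le.trans (hF p (hG hp)).2)
      rw [this, sum_empty]
      exact hpos
  -- letters up to `τ`
  obtain ⟨N, hN⟩ := pow_unbounded_of_one_lt τ (show (1 : ℝ) < ρ by linarith)
  have hF1 : ∑ p ∈ F.filter (fun p : ℕ => (p : ℝ) ≤ τ), (1 : ℝ) / p ≤
      ∑ i ∈ range N, C * (ρ ^ 2 ^ i) ^ (-(1 / 4) : ℝ) := by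
    refine blocks (b := fun X => C * X ^ (-(1 / 4) : ℝ)) N ρ (by linarith) ?_ ?_
    · intro p hp
      rw [mem_filter] at hp
      refine ⟨(hF p hp.1).1, hp.2.trans (hN.le.trans ?_)⟩
      exact pow_le_pow_right₀ (by linarith) Nat.lt_two_pow_self.le
    · intro i _
      have hX : ρ ≤ ρ ^ 2 ^ i := by
        calc ρ = ρ ^ 1 := (pow_one ρ).symm
          _ ≤ ρ ^ 2 ^ i := pow_le_pow_right₀ (by linarith) Nat.one_le_two_pow
      rcases le_or_gt (ρ ^ 2 ^ i) τ with h | h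
      · have := hbX (F.filter (fun p : ℕ => (p : ℝ) ≤ τ)) (filter_subset _ _) _ hX
        rwa [min_eq_right h] at this
      · have h0 : (F.filter (fun p : ℕ => (p : ℝ) ≤ τ)).filter
            (fun p : ℕ => ρ ^ 2 ^ i < (p : ℝ) ∧ (p : ℝ) ≤ (ρ ^ 2 ^ i) ^ 2) = ∅ := by
          rw [filter_eq_empty_iff]
          rintro p hp ⟨h1, h2⟩
          rw [mem_filter] at hp
          linarith [hp.2]
        rw [h0, sum_empty]
        exact mul_nonneg hC (Real.rpow_nonneg (by positivity) _)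
  have hF2 : ∑ p ∈ F.filter (fun p : ℕ => ¬ (p : ℝ) ≤ τ), (1 : ℝ) / p ≤
      ∑ i ∈ range A, C * τ ^ (-(1 / 4) : ℝ) := by
    refine (blocks (b := fun X => C * (min τ X) ^ (-(1 / 4) : ℝ)) A τ hτ1 ?_ ?_).trans
      (sum_le_sum fun i _ => ?_)
    · intro p hp
      rw [mem_filter] at hp
      refine ⟨not_le.1 hp.2, (hF p hp.1).2.trans ?_⟩
      exact pow_le_pow_right₀ hτ1 Nat.lt_two_pow_self.le
    · intro i _
      have hX : τ ≤ τ ^ 2 ^ i := by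
        calc τ = τ ^ 1 := (pow_one τ).symm
          _ ≤ τ ^ 2 ^ i := pow_le_pow_right₀ hτ1 Nat.one_le_two_pow
      exact hbX _ (filter_subset _ _) _ (hρτ.trans hX)
    · have hX : τ ≤ τ ^ 2 ^ i := by
        calc τ = τ ^ 1 := (pow_one τ).symm
          _ ≤ τ ^ 2 ^ i := pow_le_pow_right₀ hτ1 Nat.one_le_two_pow
      rw [min_eq_left hX]
  rw [← mul_sum] at hF1
  have h1 := mul_le_mul_of_nonneg_left (geom_blocks hρ N) hC
  rw [sum_const, card_range, nsmul_eq_mul] at hF2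
  have h2 : τ ^ (-(1 / 4) : ℝ) ≤ ρ ^ (-(1 / 4) : ℝ) :=
    Real.rpow_le_rpow_of_nonpos hρ0 hρτ (by norm_num)
  have h3 : (A : ℝ) * (C * τ ^ (-(1 / 4) : ℝ)) ≤ A * (C * ρ ^ (-(1 / 4) : ℝ)) := by gcongr
  rw [← sum_filter_add_sum_filter_not F (fun p : ℕ => (p : ℝ) ≤ τ)]
  nlinarith

/-! ### structure of `insert p S0` -/

lemma mn_insert {S0 : Finset ℕ} {p ρ : ℕ} (hρ : ρ ∈ S0) (h : ρ < p) : mn (insert p S0) = mn S0 := by
  have h0 : S0.Nonempty := ⟨ρ, hρ⟩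
  have h1 : mn S0 ≤ ρ := mn_le hρ
  refine le_antisymm (mn_le (mem_insert_of_mem (mn_mem h0))) ?_
  rcases mem_insert.1 (mn_mem (insert_nonempty p S0)) with h2 | h2
  · rw [h2]; omega
  · exact mn_le h2

lemma ins_le {S0 : Finset ℕ} {p ρ : ℕ} (h : ρ < p) :
    (insert p S0).filter (· ≤ ρ) = S0.filter (· ≤ ρ) := by
  rw [filter_insert, if_neg (by omega)]

lemma ins_gt {S0 : Finset ℕ} {p ρ : ℕ} (h : ρ < p) :
    (insert p S0).filter (ρ < ·) = insert p (S0.filter (ρ < ·)) := by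
  rw [filter_insert, if_pos h]

lemma ins_gt' {S0 : Finset ℕ} {p ρ : ℕ} (hp : p ∉ S0) (h : ρ < p) (hq : ∀ q ∈ S0, q < p → q ≤ ρ) :
    (insert p S0).filter (p < ·) = S0.filter (ρ < ·) := by
  rw [filter_insert, if_neg (lt_irrefl _)]
  ext q
  simp only [mem_filter]
  constructor
  · rintro ⟨h1, h2⟩
    exact ⟨h1, by omega⟩
  · rintro ⟨h1, h2⟩
    refine ⟨h1, ?_⟩
    rcases lt_trichotomy q p with h3 | h3 | h3
    · have := hq q h1 h3; omega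
    · rw [h3] at h1; exact absurd h1 hp
    · exact h3

lemma ins_lt {S0 : Finset ℕ} {p ρ : ℕ} (h : ρ < p) (hq : ∀ q ∈ S0, q < p → q ≤ ρ) :
    (insert p S0).filter (· < p) = S0.filter (· ≤ ρ) := by
  rw [filter_insert, if_neg (lt_irrefl _)]
  ext q
  simp only [mem_filter]
  constructor
  · rintro ⟨h1, h2⟩
    exact ⟨h1, hq q h1 h2⟩
  · rintro ⟨h1, h2⟩
    exact ⟨h1, by omega⟩

lemma ins_le' {S0 : Finset ℕ} {p ρ : ℕ} (h : ρ < p) (hq : ∀ q ∈ S0, q < p → q ≤ ρ)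
    (hp : p ∉ S0) :
    (insert p S0).filter (· ≤ p) = insert p (S0.filter (· ≤ ρ)) := by
  rw [filter_insert, if_pos le_rfl]
  congr 1
  ext q
  simp only [mem_filter]
  constructor
  · rintro ⟨h1, h2⟩
    refine ⟨h1, hq q h1 (lt_of_le_of_ne h2 ?_)⟩
    rintro rfl
    exact hp h1
  · rintro ⟨h1, h2⟩
    exact ⟨h1, by omega⟩

/-- product of the letters below `r` -/
noncomputable def tJ (t : ℝ) (S : Finset ℕ) (r : ℕ) : ℝ :=
  t * ((∏ p ∈ S.filter (· < r), p : ℕ) : ℝ)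

/-- all the data of a lost word in terms of the rest -/
lemma rest_data {δ γ t : ℝ} {S0 : Finset ℕ} {p ρ : ℕ} (hρ : ρ ∈ S0) (h : ρ < p)
    (hq : ∀ q ∈ S0, q < p → q ≤ ρ) (hp : p ∉ S0) :
    K1 δ (insert p S0) = K1 δ S0 ∧
    tJ t (insert p S0) p = t * ((∏ q ∈ S0.filter (· ≤ ρ), q : ℕ) : ℝ) ∧
    pt γ (insert p S0) p = ((∏ q ∈ S0.filter (ρ < ·), q : ℕ) : ℝ) * γ ∧
    pt γ (insert p S0) ρ = p * (((∏ q ∈ S0.filter (ρ < ·), q : ℕ) : ℝ) * γ) ∧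
    sc t (insert p S0) ρ = t * ((∏ q ∈ S0.filter (· ≤ ρ), q : ℕ) : ℝ) ∧
    sc t (insert p S0) p = t * ((∏ q ∈ S0.filter (· ≤ ρ), q : ℕ) : ℝ) * p := by
  refine ⟨?_, ?_, ?_, ?_, ?_, ?_⟩
  · unfold K1; rw [mn_insert hρ h]
  · unfold tJ; rw [ins_lt h hq]
  · unfold pt; rw [ins_gt' hp h hq]
  · unfold pt
    rw [ins_gt h, prod_insert (by simp [hp])]
    push_cast
    ring
  · unfold sc; rw [ins_le h]
  · unfold sc
    rw [ins_le' h hq hp, prod_insert (by simp [hp])]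
    push_cast
    ring

lemma tau_ge {P S0 : Finset ℕ} {t : ℝ} {ρ : ℕ} (hP : ∀ p ∈ P, 2 ≤ p) (hS0 : S0 ⊆ P) (hρ : ρ ∈ S0)
    (ht : 1 ≤ t) : (ρ : ℝ) ≤ t * ((∏ q ∈ S0.filter (· ≤ ρ), q : ℕ) : ℝ) ∧
      t ≤ t * ((∏ q ∈ S0.filter (· ≤ ρ), q : ℕ) : ℝ) := by
  have h1 : ρ ∣ ∏ q ∈ S0.filter (· ≤ ρ), q :=
    dvd_prod_of_mem (fun q => q) (mem_filter.2 ⟨hρ, le_rfl⟩)
  have h2 : 0 < ∏ q ∈ S0.filter (· ≤ ρ), q :=
    prod_pos fun q hq => by have := hP q (hS0 (mem_filter.1 hq).1); omega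
  have h3 : (ρ : ℝ) ≤ ((∏ q ∈ S0.filter (· ≤ ρ), q : ℕ) : ℝ) := by exact_mod_cast Nat.le_of_dvd h2 h1
  have h4 : (1 : ℝ) ≤ ((∏ q ∈ S0.filter (· ≤ ρ), q : ℕ) : ℝ) := by exact_mod_cast h2
  constructor <;> nlinarith

/-- `K1^64` is small -/
lemma K1_small {δ : ℝ} (hδ0 : 0 ≤ δ) (hδ : 128 * δ ≤ 1) {S : Finset ℕ} {ρ : ℕ} (hρ : ρ ∈ S)
    (h2 : ∀ p ∈ S, 2 ≤ p) (hbig : (3 : ℝ) ^ 128 ≤ ρ) : 3 ≤ K1 δ S ∧ K1 δ S ^ 64 ≤ ρ := by
  have hm := mn_mem ⟨ρ, hρ⟩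
  have hm2 : (1 : ℝ) ≤ mn S := by
    have := h2 _ hm
    exact_mod_cast (by omega : 1 ≤ mn S)
  have hmρ : (mn S : ℝ) ≤ ρ := by exact_mod_cast mn_le hρ
  have hρ0 : (0 : ℝ) < ρ := by linarith
  constructor
  · unfold K1
    have := Real.one_le_rpow hm2 hδ0
    linarith
  · unfold K1
    rw [mul_pow, ← Real.rpow_natCast ((mn S : ℝ) ^ δ), ← Real.rpow_mul (by linarith)]
    have h3 : (mn S : ℝ) ^ (δ * (64 : ℕ)) ≤ (ρ : ℝ) ^ (1 / 2 : ℝ) := by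
      calc (mn S : ℝ) ^ (δ * (64 : ℕ)) ≤ (mn S : ℝ) ^ (1 / 2 : ℝ) :=
            Real.rpow_le_rpow_of_exponent_le hm2 (by push_cast; linarith)
        _ ≤ (ρ : ℝ) ^ (1 / 2 : ℝ) := Real.rpow_le_rpow (by linarith) hmρ (by norm_num)
    rw [← Real.sqrt_eq_rpow] at h3
    have h4 : (3 : ℝ) ^ 64 ≤ Real.sqrt ρ := by
      rw [show (3 : ℝ) ^ 64 = Real.sqrt ((3 ^ 64) ^ 2) from (Real.sqrt_sq (by positivity)).symm]
      refine Real.sqrt_le_sqrt ?_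
      rw [← pow_mul]
      exact hbig
    calc 3 ^ 64 * (mn S : ℝ) ^ (δ * (64 : ℕ)) ≤ Real.sqrt ρ * Real.sqrt ρ :=
          mul_le_mul h4 h3 (Real.rpow_nonneg (by linarith) _) (Real.sqrt_nonneg _)
      _ = ρ := Real.mul_self_sqrt hρ0.le

/-! ### (NC): the centre is lost at a letter `≤ t_J^A` -/

/-- a word whose run centre is lost strictly after the first letter -/
def LostIn (δ γ t : ℝ) (P S : Finset ℕ) : Prop :=
  S ⊆ P ∧ On (K1 δ S) (pt γ S (mn S)) (sc t S (mn S)) ∧ Lost δ γ t S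

lemma LostIn.below {δ γ t : ℝ} {P S : Finset ℕ} (h : LostIn δ γ t P S) :
    mn S ∈ S ∧ mn S < ps δ γ t S := by
  obtain ⟨h1, h2, h3⟩ := h
  have h4 := ps_spec h3
  have h5 := mn_mem ⟨_, h4.1⟩
  refine ⟨h5, lt_of_le_of_ne (mn_le h4.1) fun h6 => ?_⟩
  rw [← h6] at h4
  exact h4.2 h2

/-- the two `On` statements in terms of the rest -/
lemma rest_on {δ γ t : ℝ} {P S0 : Finset ℕ} {p ρ : ℕ} (hρ : ρ ∈ S0) (h : ρ < p)
    (hq : ∀ q ∈ S0, q < p → q ≤ ρ) (hp : p ∉ S0) (hl : LostIn δ γ t P (insert p S0))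
    (hps : ps δ γ t (insert p S0) = p) :
    On (K1 δ S0) (p * (((∏ q ∈ S0.filter (ρ < ·), q : ℕ) : ℝ) * γ))
      (t * ((∏ q ∈ S0.filter (· ≤ ρ), q : ℕ) : ℝ)) ∧
    ¬ On (K1 δ S0) (((∏ q ∈ S0.filter (ρ < ·), q : ℕ) : ℝ) * γ)
      (t * ((∏ q ∈ S0.filter (· ≤ ρ), q : ℕ) : ℝ) * p) := by
  obtain ⟨e1, e2, e3, e4, e5, e6⟩ := rest_data (δ := δ) (γ := γ) (t := t) hρ h hq hp
  have h1 := ps_spec hl.2.2
  have h2 : On (K1 δ (insert p S0)) (pt γ (insert p S0) ρ) (sc t (insert p S0) ρ) :=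
    on_of_lt_ps (mem_insert_of_mem hρ) (by rw [hps]; exact h)
  rw [hps, e1, e3, e6] at h1
  rw [e1, e4, e5] at h2
  exact ⟨h2, h1.2⟩

lemma nc_mass (A : ℕ) (hA : 1 ≤ A) : ∃ C : ℝ, 0 < C ∧ ∀ (δ γ t y : ℝ) (P : Finset ℕ)
    (E : Finset (Finset ℕ)), 0 ≤ δ → 128 * δ ≤ 1 → 1 ≤ t → (3 : ℝ) ^ 128 ≤ y →
    (∀ p ∈ P, p.Prime) → (∀ p ∈ P, y ≤ (p : ℝ)) →
    (∀ S ∈ E, LostIn δ γ t P S ∧ (ps δ γ t S : ℝ) ≤ tJ t S (ps δ γ t S) ^ A) →
    ∑ S ∈ E, law P S ≤ C * y ^ (-(1 / 4) : ℝ) := by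
  classical
  obtain ⟨C, hC, hsp⟩ := SPx726.sp A (by exact_mod_cast hA)
  refine ⟨2 * (C * (A + 2)) * 5, by positivity, ?_⟩
  intro δ γ t y P E hδ0 hδ ht hy hP hPy hE
  have hP2 : ∀ p ∈ P, 2 ≤ p := fun p hp => (hP p hp).two_le
  have hy0 : 0 < y := lt_of_lt_of_le (by positivity) hy
  have h16 : (16 : ℝ) ≤ y := le_trans (by norm_num) hy
  have hcs := CutSumx492.cut_sum hP2 E (fun S hS => (hE S hS).1.1) (ps δ γ t)
    (fun S hS => (ps_spec (hE S hS).1.2.2).1)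
    (fun S hS => ⟨mn S, (hE S hS).1.below.1, (hE S hS).1.below.2⟩)
    (fun ρ => C * (A + 2) * (ρ : ℝ) ^ (-(1 / 4) : ℝ)) ?_
  · refine hcs.trans ?_
    have e : ∑ ρ ∈ P, C * (A + 2) * (ρ : ℝ) ^ (-(1 / 4) : ℝ) / ρ =
        C * (A + 2) * ∑ ρ ∈ P, (ρ : ℝ) ^ (-(1 / 4) : ℝ) / ρ := by
      rw [mul_sum]
      exact sum_congr rfl fun ρ _ => by ring
    rw [e]
    have h1 := CutSumx119.sum_pow_le (c := 1 / 4) (by norm_num) (by linarith : 1 ≤ y) P hPy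
    have h2 : (1 + 1 / (1 / 4 : ℝ)) = 5 := by norm_num
    rw [h2] at h1
    have h3 : 0 ≤ 2 * (C * (A + 2)) := by positivity
    calc 2 * (C * (A + 2) * ∑ ρ ∈ P, (ρ : ℝ) ^ (-(1 / 4) : ℝ) / ρ)
        = 2 * (C * (A + 2)) * ∑ ρ ∈ P, (ρ : ℝ) ^ (-(1 / 4) : ℝ) / ρ := by ring
      _ ≤ 2 * (C * (A + 2)) * (5 * y ^ (-(1 / 4) : ℝ)) := mul_le_mul_of_nonneg_left h1 h3
      _ = _ := by ring
  · intro S0 hS0 ρ hρ
    have hρy : y ≤ (ρ : ℝ) := hPy ρ (hS0 hρ)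
    set τ : ℝ := t * ((∏ q ∈ S0.filter (· ≤ ρ), q : ℕ) : ℝ) with hτ
    obtain ⟨hτρ, hτt⟩ := tau_ge (t := t) hP2 hS0 hρ ht
    obtain ⟨hK3, hK64⟩ := K1_small hδ0 hδ hρ (fun p hp => hP2 p (hS0 hp)) (hy.trans hρy)
    refine cut_blocks A hC.le (h16.trans hρy) hτρ ?_ ?_
    · intro p hp
      obtain ⟨h1, h2, h3, h4, h5, h6⟩ := CutSumx492.mem_cutc.1 hp
      obtain ⟨e1, e2, e3, e4, e5, e6⟩ := rest_data (δ := δ) (γ := γ) (t := t) hρ h5 h6 h2
      have h7 := (hE _ h3).2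
      rw [h4, e2] at h7
      exact ⟨by exact_mod_cast h5, h7⟩
    · intro X hX1 hX2
      have hX16 : 16 ≤ X := (h16.trans hρy).trans hX1
      refine hsp (((∏ q ∈ S0.filter (ρ < ·), q : ℕ) : ℝ) * γ) τ (K1 δ S0) X (by linarith)
        (by linarith) (by rw [Real.rpow_natCast]; exact hX2) (hK64.trans hτρ) (hK64.trans hX1) _ ?_
      intro p hp
      rw [mem_filter] at hp
      obtain ⟨h1, h2, h3, h4, h5, h6⟩ := CutSumx492.mem_cutc.1 hp.1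
      obtain ⟨h7, h8⟩ := rest_on hρ h5 h6 h2 (hE _ h3).1 h4
      exact ⟨hP p h1, hp.2.1, hp.2.2, h7, h8⟩


/-! ### (a2): rare displacement -/

lemma reduce (a : ℤ) {k : ℕ} (hk : 0 < k) : ∃ (a' : ℤ) (k' : ℕ), 0 < k' ∧ k' ≤ k ∧
    (a' : ℝ) / k' = a / k ∧ IsCoprime a' (k' : ℤ) := by
  set q : ℚ := Rat.divInt a (k : ℤ) with hq
  have h1 : ((q.den : ℕ) : ℤ) ∣ (k : ℤ) := Rat.den_dvd a (k : ℤ)
  have h2 : q.den ∣ k := by exact_mod_cast h1
  refine ⟨q.num, q.den, q.den_pos, Nat.le_of_dvd hk h2, ?_, ?_⟩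
  · have h3 : (q.num : ℚ) / (q.den : ℚ) = (a : ℚ) / ((k : ℤ) : ℚ) := by
      rw [Rat.num_div_den, hq, Rat.divInt_eq_div]
    have h4 := congrArg (fun x : ℚ => (x : ℝ)) h3
    simpa using h4
  · rw [Int.isCoprime_iff_gcd_eq_one]
    exact q.reduced

lemma disp_rare : ∃ C : ℝ, 0 < C ∧ ∀ (y τ K δ : ℝ), 3 ≤ K → K ^ 64 ≤ τ → 0 ≤ δ → 128 * δ ≤ 1 →
    ∀ F : Finset ℕ, (∀ p ∈ F, p.Prime ∧ τ ^ 8 < p ∧ On K (p * y) τ ∧ ¬ On K y (τ * p) ∧
      ∃ (a : ℤ) (k : ℕ), 0 < k ∧ (k : ℝ) ≤ Real.sqrt τ ∧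
        (k : ℝ) * max 1 (τ * p * |y - a / k|) < 3 * (p : ℝ) ^ δ) →
    ∑ p ∈ F, (1 : ℝ) / p ≤ C * τ ^ (-(1 / 4) : ℝ) := by
  classical
  obtain ⟨C, hC, hd⟩ := Dispx821.disp_phi
  refine ⟨3 * C, by positivity, ?_⟩
  intro y τ K δ hK3 hK64 hδ0 hδ F hF
  have hK0 : 0 < K := by linarith
  have hK1 : 1 ≤ K := by linarith
  have hτbig : (3 : ℝ) ^ 64 ≤ τ := (pow_le_pow_left₀ (by norm_num) hK3 64).trans hK64
  have hτ0 : 0 < τ := lt_of_lt_of_le (by positivity) hτbig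
  have hτ1 : 1 ≤ τ := le_trans (by norm_num) hτbig
  set r : ℝ := Real.sqrt τ with hr
  have hrr : r * r = τ := Real.mul_self_sqrt hτ0.le
  have hr0 : 0 < r := Real.sqrt_pos.2 hτ0
  have hKr : 2 * K ≤ r := by
    have h1 : (2 * K) ^ 2 ≤ τ := by
      have h2 : K ^ 4 ≤ K ^ 64 := pow_le_pow_right₀ hK1 (by norm_num)
      have h3 : (2 * K) ^ 2 ≤ K ^ 4 := by
        have h4 : 4 ≤ K ^ 2 := by nlinarith
        calc (2 * K) ^ 2 = 4 * K ^ 2 := by ring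
          _ ≤ K ^ 2 * K ^ 2 := mul_le_mul_of_nonneg_right h4 (by positivity)
          _ = K ^ 4 := by ring
      linarith
    rw [hr]
    exact Real.le_sqrt_of_sq_le h1
  have hr1 : 1 ≤ r := by linarith
  -- for each denominator `k1`
  set Fk : ℕ → Finset ℕ := fun k1 => F.filter fun p : ℕ =>
    ∃ a1 : ℤ, (k1 : ℝ) * max 1 (τ * |(p : ℝ) * y - a1 / k1|) < K with hFk
  have hcov : F ⊆ (Icc 1 ⌊K⌋₊).biUnion Fk := by
    intro p hp
    obtain ⟨_, _, ⟨a1, k1, hk1, h1⟩, _, _⟩ := hF p hp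
    rw [mem_biUnion]
    refine ⟨k1, mem_Icc.2 ⟨hk1, ?_⟩, mem_filter.2 ⟨hp, a1, h1⟩⟩
    refine Nat.le_floor ?_
    have hk0 : (0 : ℝ) < k1 := by exact_mod_cast hk1
    nlinarith [le_max_left (1 : ℝ) (τ * |(p : ℝ) * y - a1 / k1|)]
  have hbk : ∀ k1 ∈ Icc 1 ⌊K⌋₊, ∑ p ∈ Fk k1, (1 : ℝ) / p ≤ C * (1 / (τ / K) + 1 / (r / (2 * K))) := by
    intro k1 hk1
    rw [mem_Icc] at hk1
    have hk10 : (0 : ℝ) < k1 := by exact_mod_cast hk1.1
    have hk1K : (k1 : ℝ) ≤ K := (Nat.le_floor_iff hK0.le).1 hk1.2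
    refine hd (k1 * y) 0 (τ / K) (r / (2 * K)) r ?_ ?_ hr1 (Fk k1) ?_
    · rw [le_div_iff₀ hK0]; nlinarith
    · rw [le_div_iff₀ (by positivity)]; linarith
    · intro p hp
      rw [mem_filter] at hp
      obtain ⟨hpF, a1, ha1⟩ := hp
      obtain ⟨hpp, hp8, hon, hnon, a0, k0, hk0, hk0r, hw0⟩ := hF p hpF
      have hp0 : (0 : ℝ) < p := by exact_mod_cast hpp.pos
      obtain ⟨a, k, hk, hkk0, hak, hcop⟩ := reduce a0 hk0
      have hkR : (0 : ℝ) < k := by exact_mod_cast hk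
      have hkkR : (k : ℝ) ≤ k0 := by exact_mod_cast hkk0
      have hkr : (k : ℝ) ≤ r := hkkR.trans hk0r
      rw [← hak] at hw0
      have hw : (k : ℝ) * max 1 (τ * p * |y - a / k|) < 3 * (p : ℝ) ^ δ := by
        refine lt_of_le_of_lt (mul_le_mul_of_nonneg_right hkkR ?_) hw0
        exact zero_le_one.trans (le_max_left _ _)
      have hτ8 : τ ≤ τ ^ 8 := by
        calc τ = τ ^ 1 := (pow_one τ).symm
          _ ≤ τ ^ 8 := pow_le_pow_right₀ hτ1 (by norm_num)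
      have hτp : τ < p := lt_of_le_of_lt hτ8 hp8
      have hkp : k < p := by
        have h1 : r ≤ τ := by nlinarith
        have h2 : (k : ℝ) < p := lt_of_le_of_lt (hkr.trans h1) hτp
        exact_mod_cast h2
      -- the lifted fraction is different
      have hne : (p : ℤ) * a * k1 ≠ a1 * k := by
        intro heq
        have hdvd : (k : ℤ) ∣ (p : ℤ) * a * k1 := ⟨a1, by rw [heq]; ring⟩
        have hc1 : IsCoprime (k : ℤ) (p : ℤ) := by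
          rw [Nat.isCoprime_iff_coprime]
          exact (Nat.coprime_of_lt_prime hk.ne' hkp hpp).symm
        have h1 : (k : ℤ) ∣ (k1 : ℤ) := (hc1.mul_right hcop.symm).dvd_of_dvd_mul_left hdvd
        have h2 : k ≤ k1 := Nat.le_of_dvd (by omega) (by exact_mod_cast h1)
        have h2R : (k : ℝ) ≤ k1 := by exact_mod_cast h2
        have h3 : (a1 : ℝ) / k1 = p * (a / k) := by
          rw [div_eq_iff hk10.ne']
          have h4 : ((p : ℤ) * a * k1 : ℝ) = ((a1 * k : ℤ) : ℝ) := by exact_mod_cast heq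
          push_cast at h4
          field_simp
          linarith
        apply hnon
        refine ⟨a, k, hk, ?_⟩
        rw [h3] at ha1
        have h5 : (p : ℝ) * y - p * (a / k) = p * (y - a / k) := by ring
        rw [h5, abs_mul, Nat.abs_cast, ← mul_assoc] at ha1
        refine lt_of_le_of_lt (mul_le_mul_of_nonneg_right h2R ?_) ha1
        exact zero_le_one.trans (le_max_left _ _)
      have hw1 : (k : ℝ) * (τ * p * |y - a / k|) < 3 * (p : ℝ) ^ δ :=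
        lt_of_le_of_lt (mul_le_mul_of_nonneg_left (le_max_right _ _) hkR.le) hw
      have ha2 : (k1 : ℝ) * (τ * |(p : ℝ) * y - a1 / k1|) < K :=
        lt_of_le_of_lt (mul_le_mul_of_nonneg_left (le_max_right _ _) hk10.le) ha1
      have hp1 : (1 : ℝ) ≤ p := by exact_mod_cast hpp.one_le
      have hk1' : (1 : ℝ) ≤ k := by exact_mod_cast hk
      have hx0 : 0 ≤ |y - a / k| := abs_nonneg _
      refine ⟨hpp, ?_, ?_, ⟨a1, ?_⟩, k, k1 * a, hk, hkr, ?_, ?_⟩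
      · have : (1024 : ℝ) ≤ τ := le_trans (by norm_num) hτbig
        linarith
      · have h1 : r ^ 8 = τ ^ 4 := by rw [← hrr]; ring
        rw [h1]
        have h2 : (4 : ℝ) ≤ τ ^ 4 := by
          have : (4 : ℝ) ≤ τ := le_trans (by norm_num) hτbig
          calc (4 : ℝ) ≤ τ ^ 1 := by rw [pow_one]; exact this
            _ ≤ τ ^ 4 := pow_le_pow_right₀ hτ1 (by norm_num)
        calc 4 * τ ^ 4 ≤ τ ^ 4 * τ ^ 4 := mul_le_mul_of_nonneg_right h2 (by positivity)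
          _ = τ ^ 8 := by ring
          _ ≤ p := hp8.le
      · have h1 : (p : ℝ) * (k1 * y) - 0 - a1 = k1 * (p * y - a1 / k1) := by field_simp; ring
        rw [h1, abs_mul, Nat.abs_cast, one_div_div, le_div_iff₀ hτ0]
        calc (k1 : ℝ) * |(p : ℝ) * y - a1 / k1| * τ = k1 * (τ * |(p : ℝ) * y - a1 / k1|) := by ring
          _ ≤ K := ha2.le
      · -- lower bound of the displacement
        have h1 : (k1 : ℝ) * y - ((k1 * a : ℤ) : ℝ) / k = k1 * (y - a / k) := by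
          push_cast; field_simp
        rw [h1, abs_mul, Nat.abs_cast]
        have h2 : (1 : ℝ) ≤ |(((p : ℤ) * a * k1 - a1 * k : ℤ) : ℝ)| := by
          rw [← Int.cast_abs]
          exact_mod_cast Int.one_le_abs (sub_ne_zero.2 hne)
        have h3 : (((p : ℤ) * a * k1 - a1 * k : ℤ) : ℝ) =
            k * (k1 * (p * y - a1 / k1)) - k * (k1 * (p * (y - a / k))) := by
          push_cast
          field_simp
          ring
        rw [h3] at h2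
        have h4 := abs_sub ((k : ℝ) * (k1 * (p * y - a1 / k1))) (k * (k1 * (p * (y - a / k))))
        rw [abs_mul (k : ℝ), abs_mul (k1 : ℝ) (_ - _), abs_mul (k : ℝ), abs_mul (k1 : ℝ) (_ * _),
          abs_mul (p : ℝ), Nat.abs_cast, Nat.abs_cast, Nat.abs_cast] at h4
        have h5 : (k : ℝ) * (k1 * |(p : ℝ) * y - a1 / k1|) ≤ 1 / 2 := by
          have h6 : (k1 : ℝ) * |(p : ℝ) * y - a1 / k1| ≤ K / τ := by
            rw [le_div_iff₀ hτ0]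
            calc (k1 : ℝ) * |(p : ℝ) * y - a1 / k1| * τ
                = k1 * (τ * |(p : ℝ) * y - a1 / k1|) := by ring
              _ ≤ K := ha2.le
          calc (k : ℝ) * (k1 * |(p : ℝ) * y - a1 / k1|) ≤ r * (K / τ) := by gcongr
            _ = K / r := by rw [← hrr]; field_simp
            _ ≤ 1 / 2 := by rw [div_le_div_iff₀ hr0 (by norm_num)]; linarith
        have h7 : (1 : ℝ) / 2 ≤ k * (k1 * (p * |y - a / k|)) := by linarith
        have h8 : (1 : ℝ) / 2 ≤ r * (k1 * (p * |y - a / k|)) :=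
          h7.trans (mul_le_mul_of_nonneg_right hkr (by positivity))
        have h9 : r / (2 * K) = r / K * (1 / 2) := by field_simp
        rw [h9]
        calc r / K * (1 / 2) ≤ r / K * (r * (k1 * (p * |y - a / k|))) :=
              mul_le_mul_of_nonneg_left h8 (by positivity)
          _ = τ / K * p * (k1 * |y - a / k|) := by rw [← hrr]; ring
      · -- upper bound of the displacement
        have h1 : (k1 : ℝ) * y - ((k1 * a : ℤ) : ℝ) / k = k1 * (y - a / k) := by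
          push_cast; field_simp
        rw [h1, abs_mul, Nat.abs_cast]
        have h2 : τ / K * p * (k1 * |y - a / k|) ≤ 3 * (p : ℝ) ^ δ := by
          have h3 : τ / K * p * (k1 * |y - a / k|) = k1 / K * (τ * p * |y - a / k|) := by ring
          have h4 : (k1 : ℝ) / K ≤ 1 := by rw [div_le_one hK0]; exact hk1K
          have h5 : 0 ≤ τ * p * |y - a / k| := by positivity
          rw [h3]
          calc (k1 : ℝ) / K * (τ * p * |y - a / k|) ≤ 1 * (τ * p * |y - a / k|) :=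
                mul_le_mul_of_nonneg_right h4 h5
            _ ≤ k * (τ * p * |y - a / k|) := mul_le_mul_of_nonneg_right hk1' h5
            _ ≤ _ := hw1.le
        have h3 : 0 ≤ τ / K * p * (k1 * |y - a / k|) := by positivity
        have h6 : ((p : ℝ) ^ δ) ^ 4 ≤ Real.sqrt p := by
          rw [← Real.rpow_natCast, ← Real.rpow_mul hp0.le, Real.sqrt_eq_rpow]
          exact Real.rpow_le_rpow_of_exponent_le hp1 (by push_cast; linarith)
        have h7 : (81 : ℝ) ≤ Real.sqrt p := by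
          refine Real.le_sqrt_of_sq_le ?_
          have : (81 : ℝ) ^ 2 ≤ τ := le_trans (by norm_num) hτbig
          linarith
        calc (τ / K * p * (k1 * |y - a / k|)) ^ 4 ≤ (3 * (p : ℝ) ^ δ) ^ 4 :=
              pow_le_pow_left₀ h3 h2 4
          _ = 81 * ((p : ℝ) ^ δ) ^ 4 := by ring
          _ ≤ Real.sqrt p * Real.sqrt p := mul_le_mul h7 h6 (by positivity) (Real.sqrt_nonneg _)
          _ = p := Real.mul_self_sqrt hp0.le
  -- summation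
  have hpos : ∀ i ∈ Icc 1 ⌊K⌋₊, ∀ a ∈ Fk i, (0 : ℝ) ≤ 1 / (a : ℝ) := fun _ _ _ _ => by positivity
  have h1 : ∑ p ∈ F, (1 : ℝ) / p ≤ K * (C * (1 / (τ / K) + 1 / (r / (2 * K)))) := by
    calc ∑ p ∈ F, (1 : ℝ) / p ≤ ∑ p ∈ (Icc 1 ⌊K⌋₊).biUnion Fk, (1 : ℝ) / p :=
          sum_le_sum_of_subset_of_nonneg hcov fun _ _ _ => by positivity
      _ ≤ ∑ i ∈ Icc 1 ⌊K⌋₊, ∑ p ∈ Fk i, (1 : ℝ) / p :=
          CutSumx492.sum_biUnion_le'' _ _ (fun p => (1 : ℝ) / p) hpos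
      _ ≤ ∑ i ∈ Icc 1 ⌊K⌋₊, C * (1 / (τ / K) + 1 / (r / (2 * K))) := sum_le_sum hbk
      _ = (⌊K⌋₊ : ℝ) * (C * (1 / (τ / K) + 1 / (r / (2 * K)))) := by
          rw [sum_const, Nat.card_Icc, nsmul_eq_mul, Nat.add_sub_cancel]
      _ ≤ K * (C * (1 / (τ / K) + 1 / (r / (2 * K)))) :=
          mul_le_mul_of_nonneg_right (Nat.floor_le hK0.le) (by positivity)
  refine h1.trans ?_
  -- `K² ≤ τ^{1/4}`
  set z : ℝ := τ ^ (1 / 4 : ℝ) with hz
  have hz0 : 0 < z := Real.rpow_pos_of_pos hτ0 _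
  have hz4 : z ^ 4 = τ := by
    rw [hz, ← Real.rpow_natCast, ← Real.rpow_mul hτ0.le]
    norm_num
  have hzr : z ^ 2 = r := by
    rw [hz, hr, ← Real.rpow_natCast, ← Real.rpow_mul hτ0.le, Real.sqrt_eq_rpow]
    norm_num
  have hzi : τ ^ (-(1 / 4) : ℝ) = 1 / z := by
    rw [Real.rpow_neg hτ0.le, hz]
    exact (one_div _).symm
  have hKz : K ^ 2 ≤ z := by
    refine le_of_pow_le_pow_left₀ (n := 4) (by norm_num) hz0.le ?_
    rw [hz4, ← pow_mul]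
    exact (pow_le_pow_right₀ hK1 (by norm_num)).trans hK64
  rw [hzi]
  have h2 : K * (C * (1 / (τ / K) + 1 / (r / (2 * K)))) = C * (K ^ 2 / τ + 2 * K ^ 2 / r) := by
    field_simp
  rw [h2]
  have h3 : K ^ 2 / τ ≤ 1 / z := by
    rw [div_le_div_iff₀ hτ0 hz0, one_mul, ← hz4]
    have h4 : z ≤ z ^ 3 := by
      have hz1 : 1 ≤ z := by nlinarith
      calc z = z ^ 1 := (pow_one z).symm
        _ ≤ z ^ 3 := pow_le_pow_right₀ hz1 (by norm_num)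
    calc K ^ 2 * z ≤ z ^ 3 * z := mul_le_mul_of_nonneg_right (hKz.trans h4) hz0.le
      _ = z ^ 4 := by ring
  have h5 : 2 * K ^ 2 / r ≤ 2 * (1 / z) := by
    rw [mul_div_assoc]
    refine mul_le_mul_of_nonneg_left ?_ (by norm_num)
    rw [div_le_div_iff₀ hr0 hz0, one_mul, ← hzr]
    nlinarith
  calc C * (K ^ 2 / τ + 2 * K ^ 2 / r) ≤ C * (1 / z + 2 * (1 / z)) :=
        mul_le_mul_of_nonneg_left (add_le_add h3 h5) hC.le
    _ = 3 * C * (1 / z) := by ring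


/-- mass of the words of class (a2) -/
lemma a2_mass (A : ℕ) (hA : 16 ≤ A) : ∃ C : ℝ, 0 < C ∧ ∀ (δ γ t y : ℝ) (P : Finset ℕ)
    (E : Finset (Finset ℕ)), 0 ≤ δ → 128 * δ ≤ 1 → 1 ≤ t → (3 : ℝ) ^ 128 ≤ y →
    (∀ p ∈ P, p.Prime) → (∀ p ∈ P, y ≤ (p : ℝ)) →
    (∀ S ∈ E, LostIn δ γ t P S ∧ (tJ t S (ps δ γ t S) / 2) ^ A < (ps δ γ t S : ℝ) ∧
      ∃ (a : ℤ) (k : ℕ), 0 < k ∧ (k : ℝ) ≤ Real.sqrt (tJ t S (ps δ γ t S)) ∧
        (k : ℝ) * max 1 (sc t S (ps δ γ t S) * |pt γ S (ps δ γ t S) - a / k|) <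
          3 * (ps δ γ t S : ℝ) ^ δ) →
    ∑ S ∈ E, law P S ≤ C * y ^ (-(1 / 4) : ℝ) := by
  classical
  obtain ⟨C, hC, hdr⟩ := disp_rare
  refine ⟨2 * C * 5, by positivity, ?_⟩
  intro δ γ t y P E hδ0 hδ ht hy hP hPy hE
  have hP2 : ∀ p ∈ P, 2 ≤ p := fun p hp => (hP p hp).two_le
  have hy0 : 0 < y := lt_of_lt_of_le (by positivity) hy
  have hy1 : 1 ≤ y := le_trans (by norm_num) hy
  have hcs := CutSumx492.cut_sum hP2 E (fun S hS => (hE S hS).1.1) (ps δ γ t)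
    (fun S hS => (ps_spec (hE S hS).1.2.2).1)
    (fun S hS => ⟨mn S, (hE S hS).1.below.1, (hE S hS).1.below.2⟩)
    (fun ρ => C * (ρ : ℝ) ^ (-(1 / 4) : ℝ)) ?_
  · refine hcs.trans ?_
    have e : ∑ ρ ∈ P, C * (ρ : ℝ) ^ (-(1 / 4) : ℝ) / ρ =
        C * ∑ ρ ∈ P, (ρ : ℝ) ^ (-(1 / 4) : ℝ) / ρ := by
      rw [mul_sum]
      exact sum_congr rfl fun ρ _ => by ring
    rw [e]
    have h1 := CutSumx119.sum_pow_le (c := 1 / 4) (by norm_num) hy1 P hPy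
    have h2 : (1 + 1 / (1 / 4 : ℝ)) = 5 := by norm_num
    rw [h2] at h1
    calc 2 * (C * ∑ ρ ∈ P, (ρ : ℝ) ^ (-(1 / 4) : ℝ) / ρ)
        = 2 * C * ∑ ρ ∈ P, (ρ : ℝ) ^ (-(1 / 4) : ℝ) / ρ := by ring
      _ ≤ 2 * C * (5 * y ^ (-(1 / 4) : ℝ)) := mul_le_mul_of_nonneg_left h1 (by positivity)
      _ = _ := by ring
  · intro S0 hS0 ρ hρ
    have hρy : y ≤ (ρ : ℝ) := hPy ρ (hS0 hρ)
    set τ : ℝ := t * ((∏ q ∈ S0.filter (· ≤ ρ), q : ℕ) : ℝ) with hτ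
    obtain ⟨hτρ, hτt⟩ := tau_ge (t := t) hP2 hS0 hρ ht
    obtain ⟨hK3, hK64⟩ := K1_small hδ0 hδ hρ (fun p hp => hP2 p (hS0 hp)) (hy.trans hρy)
    have hρ0 : (0 : ℝ) < ρ := by linarith
    have hτ0 : 0 < τ := by linarith
    refine (hdr (((∏ q ∈ S0.filter (ρ < ·), q : ℕ) : ℝ) * γ) τ (K1 δ S0) δ hK3
      (hK64.trans hτρ) hδ0 hδ _ ?_).trans ?_
    · intro p hp
      obtain ⟨h1, h2, h3, h4, h5, h6⟩ := CutSumx492.mem_cutc.1 hp
      obtain ⟨h7, h8⟩ := rest_on hρ h5 h6 h2 (hE _ h3).1 h4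
      obtain ⟨e1, e2, e3, e4, e5, e6⟩ := rest_data (δ := δ) (γ := γ) (t := t) hρ h5 h6 h2
      obtain ⟨-, h9, a, k, hk, h10, h11⟩ := hE _ h3
      rw [h4, e2] at h9 h10
      rw [h4, e3, e6] at h11
      refine ⟨hP p h1, ?_, h7, h8, a, k, hk, h10, h11⟩
      refine lt_of_le_of_lt ?_ h9
      have hτ4 : 4 ≤ τ := by
        have : (4 : ℝ) ≤ 3 ^ 128 := by norm_num
        linarith
      calc τ ^ 8 ≤ ((τ / 2) ^ 2) ^ 8 := pow_le_pow_left₀ hτ0.le (by nlinarith) 8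
        _ = (τ / 2) ^ 16 := by rw [← pow_mul]
        _ ≤ (τ / 2) ^ A := pow_le_pow_right₀ (by linarith) hA
    · refine mul_le_mul_of_nonneg_left ?_ hC.le
      exact Real.rpow_le_rpow_of_nonpos hρ0 hτρ (by norm_num)

/-! ### (U) -/

lemma mn_rest {S T : Finset ℕ} {p : ℕ} (hT : IsTop T (S.filter (· < p))) (hne : T ≠ S.filter (· < p)) :
    mn (S \ T) = mn S ∧ mn S ∈ S \ T := by
  have h1 : ∃ q ∈ S.filter (· < p), q ∉ T := by
    by_contra h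
    push Not at h
    exact hne (subset_antisymm hT.1 h)
  obtain ⟨q, hq, hqT⟩ := h1
  have hqS : q ∈ S := (mem_filter.1 hq).1
  have hm : mn S ∈ S := mn_mem ⟨q, hqS⟩
  have hmT : mn S ∉ T := by
    intro hmT
    have := hT.2 _ hmT q (mem_sdiff.2 ⟨hq, hqT⟩)
    have := mn_le hqS
    omega
  have hmem : mn S ∈ S \ T := mem_sdiff.2 ⟨hm, hmT⟩
  refine ⟨le_antisymm (mn_le hmem) ?_, hmem⟩
  exact mn_le (mem_sdiff.1 (mn_mem ⟨_, hmem⟩)).1

lemma hypU_aux {δ γ t : ℝ} {P S S' T T' : Finset ℕ} (ht : 0 < t) (hP2 : ∀ p ∈ P, 2 ≤ p)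
    (hS : LostIn δ γ t P S) (hS' : LostIn δ γ t P S')
    (hT : IsTop T (lo (ps δ γ t) S)) (hT' : IsTop T' (lo (ps δ γ t) S'))
    (hcard : T.card = T'.card) (hTne : T.Nonempty)
    (hne : T ≠ lo (ps δ γ t) S) (hne' : T' ≠ lo (ps δ γ t) S')
    (hR : S \ T = S' \ T') (hlt : ps δ γ t S < ps δ γ t S') : False := by
  set p := ps δ γ t S with hp
  set p' := ps δ γ t S' with hp'
  unfold lo at hT hT' hne hne'
  rw [← hp] at hT hne
  rw [← hp'] at hT' hne'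
  set R := S \ T with hRdef
  have hTS : T ⊆ S := hT.1.trans (filter_subset _ _)
  have hTS' : T' ⊆ S' := hT'.1.trans (filter_subset _ _)
  have hpS := ps_spec hS.2.2
  rw [← hp] at hpS
  have hpT : p ∉ T := fun h => lt_irrefl _ (mem_filter.1 (hT.1 h)).2
  have hpR : p ∈ R := mem_sdiff.2 ⟨hpS.1, hpT⟩
  have hpR' : p ∈ S' \ T' := hR ▸ hpR
  obtain ⟨hpS', hpT'⟩ := mem_sdiff.1 hpR'
  have hTlt : ∀ q ∈ T, q < p := fun q hq => (mem_filter.1 (hT.1 hq)).2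
  have hTgt : ∀ q ∈ T', p < q := fun q hq =>
    hT'.2 q hq p (mem_sdiff.2 ⟨mem_filter.2 ⟨hpS', hlt⟩, hpT'⟩)
  have hTlt' : ∀ q ∈ T', q < p' := fun q hq => (mem_filter.1 (hT'.1 hq)).2
  -- same threshold
  have hK : K1 δ S' = K1 δ S := by
    unfold K1
    rw [← (mn_rest hT hne).1, ← (mn_rest hT' hne').1, ← hRdef, hR]
  -- the largest letter of `T'`
  have hTne' : T'.Nonempty := by rw [← card_pos, ← hcard, card_pos]; exact hTne
  set r' := T'.max' hTne' with hr'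
  have hr'T : r' ∈ T' := max'_mem _ _
  have hr'p : r' < p' := hTlt' _ hr'T
  have hall : ∀ q ∈ S', q < p' → q ≤ r' := by
    intro q hq hqp
    by_cases h : q ∈ T'
    · exact le_max' _ _ h
    · exact (hT'.2 r' hr'T q (mem_sdiff.2 ⟨mem_filter.2 ⟨hq, hqp⟩, h⟩)).le
  have hon : On (K1 δ S) (pt γ S' r') (sc t S' r') := by
    rw [← hK]
    exact on_of_lt_ps (hTS' hr'T) hr'p
  -- products
  have hpos : ∀ (W : Finset ℕ), W ⊆ P → 0 < ∏ q ∈ W, q := fun W hW =>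
    prod_pos fun q hq => by have := hP2 q (hW hq); omega
  have hSP := hS.1
  have hSP' := hS'.1
  have hRP : R ⊆ P := sdiff_subset.trans hSP
  have e1 : S'.filter (r' < ·) = R.filter (p' ≤ ·) := by
    ext q
    rw [hR]
    simp only [mem_filter, mem_sdiff]
    constructor
    · rintro ⟨h1, h2⟩
      have h3 : p' ≤ q := by
        by_contra h
        have := hall q h1 (by omega)
        omega
      exact ⟨⟨h1, fun h => by have := hTlt' q h; omega⟩, h3⟩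
    · rintro ⟨⟨h1, _⟩, h2⟩
      exact ⟨h1, by omega⟩
  have e2 : S'.filter (· ≤ r') = T' ∪ R.filter (· < p') := by
    ext q
    rw [hR]
    simp only [mem_filter, mem_sdiff, mem_union]
    constructor
    · rintro ⟨h1, h2⟩
      by_cases h : q ∈ T'
      · exact Or.inl h
      · exact Or.inr ⟨⟨h1, h⟩, by omega⟩
    · rintro (h | ⟨⟨h1, _⟩, h2⟩)
      · exact ⟨hTS' h, le_max' _ _ h⟩
      · exact ⟨h1, hall q h1 h2⟩
  have d2 : Disjoint T' (R.filter (· < p')) := by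
    rw [disjoint_left]
    intro q h1 h2
    rw [hR] at h2
    exact (mem_sdiff.1 (mem_filter.1 h2).1).2 h1
  have e3 : R.filter (· < p') = R.filter (· ≤ p) ∪ R.filter (fun q => p < q ∧ q < p') := by
    ext q
    simp only [mem_filter, mem_union]
    constructor
    · rintro ⟨h1, h2⟩
      by_cases h : q ≤ p
      · exact Or.inl ⟨h1, h⟩
      · exact Or.inr ⟨h1, by omega, h2⟩
    · rintro (⟨h1, h2⟩ | ⟨h1, _, h2⟩)
      · exact ⟨h1, by omega⟩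
      · exact ⟨h1, h2⟩
  have d3 : Disjoint (R.filter (· ≤ p)) (R.filter (fun q => p < q ∧ q < p')) := by
    rw [disjoint_left]
    intro q h1 h2
    have := (mem_filter.1 h1).2
    have := (mem_filter.1 h2).2
    omega
  have e4 : S.filter (p < ·) = R.filter (fun q => p < q ∧ q < p') ∪ R.filter (p' ≤ ·) := by
    ext q
    rw [hRdef]
    simp only [mem_filter, mem_union, mem_sdiff]
    constructor
    · rintro ⟨h1, h2⟩
      have h3 : q ∉ T := fun h => by have := hTlt q h; omega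
      by_cases h : q < p'
      · exact Or.inl ⟨⟨h1, h3⟩, h2, h⟩
      · exact Or.inr ⟨⟨h1, h3⟩, by omega⟩
    · rintro (⟨⟨h1, _⟩, h2, _⟩ | ⟨⟨h1, _⟩, h2⟩)
      · exact ⟨h1, h2⟩
      · exact ⟨h1, by omega⟩
  have d4 : Disjoint (R.filter (fun q => p < q ∧ q < p')) (R.filter (p' ≤ ·)) := by
    rw [disjoint_left]
    intro q h1 h2
    have := (mem_filter.1 h1).2
    have := (mem_filter.1 h2).2
    omega
  have e5 : S.filter (· ≤ p) = T ∪ R.filter (· ≤ p) := by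
    ext q
    rw [hRdef]
    simp only [mem_filter, mem_union, mem_sdiff]
    constructor
    · rintro ⟨h1, h2⟩
      by_cases h : q ∈ T
      · exact Or.inl h
      · exact Or.inr ⟨⟨h1, h⟩, h2⟩
    · rintro (h | ⟨⟨h1, _⟩, h2⟩)
      · exact ⟨hTS h, (hTlt q h).le⟩
      · exact ⟨h1, h2⟩
  have d5 : Disjoint T (R.filter (· ≤ p)) := by
    rw [disjoint_left]
    intro q h1 h2
    exact (mem_sdiff.1 (mem_filter.1 h2).1).2 h1
  have hprod : ∏ q ∈ T, q ≤ ∏ q ∈ T', q := by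
    calc ∏ q ∈ T, q ≤ p ^ T.card := prod_le_pow_card _ _ _ fun q hq => (hTlt q hq).le
      _ = p ^ T'.card := by rw [hcard]
      _ ≤ ∏ q ∈ T', q := pow_card_le_prod _ _ _ fun q hq => (hTgt q hq).le
  apply hpS.2
  -- names
  set a := ∏ q ∈ R.filter (· ≤ p), q with ha
  set b := ∏ q ∈ R.filter (fun q => p < q ∧ q < p'), q with hb
  set c := ∏ q ∈ R.filter (p' ≤ ·), q with hc
  have hpt' : pt γ S' r' = (c : ℝ) * γ := by unfold pt; rw [e1]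
  have hsc' : sc t S' r' = t * (((∏ q ∈ T', q) * (a * b) : ℕ) : ℝ) := by
    unfold sc; rw [e2, prod_union d2, e3, prod_union d3]
  have hpt : pt γ S p = (b : ℝ) * ((c : ℝ) * γ) := by
    unfold pt; rw [e4, prod_union d4, Nat.cast_mul]; ring
  have hsc : sc t S p = t * (((∏ q ∈ T, q) * a : ℕ) : ℝ) := by
    unfold sc; rw [e5, prod_union d5]
  rw [hpt, hsc]
  rw [hpt', hsc'] at hon
  refine On.push ?_
  refine hon.anti ?_
  have h1 : ((∏ q ∈ T, q) * a * b : ℕ) ≤ (∏ q ∈ T', q) * (a * b) := by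
    rw [mul_assoc]; exact Nat.mul_le_mul_right _ hprod
  have h2 : (((∏ q ∈ T, q) * a * b : ℕ) : ℝ) ≤ (((∏ q ∈ T', q) * (a * b) : ℕ) : ℝ) := by
    exact_mod_cast h1
  calc t * (((∏ q ∈ T, q) * a : ℕ) : ℝ) * (b : ℝ) = t * (((∏ q ∈ T, q) * a * b : ℕ) : ℝ) := by
        rw [Nat.cast_mul ((∏ q ∈ T, q) * a) b]; ring
    _ ≤ _ := mul_le_mul_of_nonneg_left h2 ht.le

lemma mn_up {r : Finset ℕ → ℕ} {S : Finset ℕ} (h : r S ∈ S) : mn (up r S) = r S := by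
  have h1 : r S ∈ up r S := mem_filter.2 ⟨h, le_rfl⟩
  refine le_antisymm (mn_le h1) ?_
  exact (mem_filter.1 (mn_mem ⟨_, h1⟩)).2

lemma sdiff_lo {r : Finset ℕ → ℕ} {S : Finset ℕ} : S \ lo r S = up r S := by
  ext q
  simp only [lo, up, mem_sdiff, mem_filter]
  constructor
  · rintro ⟨h1, h2⟩
    exact ⟨h1, by by_contra h; exact h2 ⟨h1, by omega⟩⟩
  · rintro ⟨h1, h2⟩
    exact ⟨h1, fun h => by omega⟩

lemma hypU {δ γ t : ℝ} {P : Finset ℕ} (ht : 0 < t) (hP2 : ∀ p ∈ P, 2 ≤ p)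
    {E : Finset (Finset ℕ)} (hE : ∀ S ∈ E, LostIn δ γ t P S) : HypU' E (ps δ γ t) := by
  intro S hS S' hS' T T' hT hT' hTne hcard hiff hR
  by_cases h : T = lo (ps δ γ t) S
  · have h' := hiff.1 h
    rw [h, h', sdiff_lo, sdiff_lo] at hR
    have h1 := mn_up (ps_spec (hE S hS).2.2).1
    have h2 := mn_up (ps_spec (hE S' hS').2.2).1
    rw [← h1, ← h2, hR]
  · have h' : T' ≠ lo (ps δ γ t) S' := fun h2 => h (hiff.2 h2)
    have hTne' : T'.Nonempty := by rw [← card_pos, ← hcard, card_pos]; exact hTne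
    rcases lt_trichotomy (ps δ γ t S) (ps δ γ t S') with h1 | h1 | h1
    · exact (hypU_aux ht hP2 (hE S hS) (hE S' hS') hT hT' hcard hTne h h' hR h1).elim
    · exact h1
    · exact (hypU_aux ht hP2 (hE S' hS') (hE S hS) hT' hT hcard.symm hTne' h' h hR.symm h1).elim


/-! ### (K) -/

lemma heavy_of {K0 x t : ℝ} (hK : 1 ≤ K0) (ht : 0 < t) (h : ¬ On K0 x t) :
    GWKx821.Heavy t (Real.sqrt K0) x := by
  intro a v hv hvK
  have hv0 : (0 : ℝ) < v := by exact_mod_cast hv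
  have hs1 : 1 ≤ Real.sqrt K0 := Real.one_le_sqrt.2 hK
  have hss : Real.sqrt K0 * Real.sqrt K0 = K0 := Real.mul_self_sqrt (by linarith)
  by_contra hlt
  rw [not_le, lt_div_iff₀ ht] at hlt
  refine h ⟨a, v, hv, ?_⟩
  have h1 : max 1 (t * |x - a / v|) ≤ Real.sqrt K0 := max_le hs1 (by linarith)
  calc (v : ℝ) * max 1 (t * |x - a / v|) ≤ v * Real.sqrt K0 := mul_le_mul_of_nonneg_left h1 hv0.le
    _ < Real.sqrt K0 * Real.sqrt K0 := mul_lt_mul_of_pos_right hvK (by linarith)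
    _ = K0 := hss

lemma hypK : ∃ C : ℝ, 0 < C ∧ ∀ (γ t K0 y : ℝ) (Λ : Finset ℝ) (P : Finset ℕ)
    (E : Finset (Finset ℕ)) (r : Finset ℕ → ℕ), 1 ≤ K0 → K0 ≤ t → t ^ 4 ≤ y → 16 ≤ y →
    (∀ p ∈ P, p.Prime) →
    (∀ S ∈ E, (∃ α ∈ Λ, ∃ m : ℤ, |((∏ p ∈ S, p : ℕ) : ℝ) * γ - α - m| ≤ 1 / t) ∧
      ¬ On K0 (((∏ p ∈ S, p : ℕ) : ℝ) * γ) t) →
    HypK P E r y (C * Λ.card * K0 ^ (-(1 / 4) : ℝ) + 1 / y) := by
  classical
  obtain ⟨C, hC, hg⟩ := GWKx821.gwk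
  refine ⟨C, hC, ?_⟩
  intro γ t K0 y Λ P E r hK1 hKt hty hy hP hE S1 X hX
  have hK0 : 0 < K0 := by linarith
  have hs1 : 1 ≤ Real.sqrt K0 := Real.one_le_sqrt.2 hK1
  have hst : Real.sqrt K0 ≤ t := by
    refine le_trans ?_ hKt
    rw [Real.sqrt_le_left hK0.le]
    nlinarith
  have ht0 : 0 < t := by linarith
  have hy0 : 0 < y := by linarith
  set θ : ℝ := ((∏ p ∈ S1, p : ℕ) : ℝ) * γ with hθ
  set F : ℝ → Finset ℕ := fun α => (cand P E r S1 X (X ^ 2)).filter fun ρ : ℕ =>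
    X < ρ ∧ ∃ m : ℤ, |(ρ : ℝ) * θ - α - m| ≤ 1 / t with hF
  have hprod : ∀ ρ ∈ cand P E r S1 X (X ^ 2),
      ((∏ p ∈ insert ρ S1, p : ℕ) : ℝ) * γ = ρ * θ := by
    intro ρ hρ
    rw [mem_cand] at hρ
    rw [prod_insert hρ.2.2.2.1, hθ]
    push_cast; ring
  have hcov : cand P E r S1 X (X ^ 2) ⊆ (cand P E r S1 X (X ^ 2)).filter (fun ρ : ℕ => (ρ : ℝ) = X) ∪
      Λ.biUnion F := by
    intro ρ hρ
    have hρ' := mem_cand.1 hρ
    rcases hρ'.2.1.lt_or_eq with h | h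
    · refine mem_union_right _ (mem_biUnion.2 ?_)
      obtain ⟨⟨α, hα, m, hm⟩, _⟩ := hE _ hρ'.2.2.2.2.1
      rw [hprod ρ hρ] at hm
      exact ⟨α, hα, mem_filter.2 ⟨hρ, h, m, hm⟩⟩
    · exact mem_union_left _ (mem_filter.2 ⟨hρ, h.symm⟩)
  have h1 : ∑ ρ ∈ (cand P E r S1 X (X ^ 2)).filter (fun ρ : ℕ => (ρ : ℝ) = X), (1 : ℝ) / ρ ≤ 1 / y := by
    have hcard : ((cand P E r S1 X (X ^ 2)).filter (fun ρ : ℕ => (ρ : ℝ) = X)).card ≤ 1 := by
      rw [card_le_one]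
      intro a ha b hb
      rw [mem_filter] at ha hb
      exact_mod_cast ha.2.trans hb.2.symm
    calc ∑ ρ ∈ (cand P E r S1 X (X ^ 2)).filter (fun ρ : ℕ => (ρ : ℝ) = X), (1 : ℝ) / ρ
        ≤ ∑ ρ ∈ (cand P E r S1 X (X ^ 2)).filter (fun ρ : ℕ => (ρ : ℝ) = X), 1 / y := by
          refine sum_le_sum fun ρ hρ => ?_
          rw [mem_filter] at hρ
          rw [hρ.2]
          exact one_div_le_one_div_of_le hy0 hX
      _ = _ * (1 / y) := by rw [sum_const, nsmul_eq_mul]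
      _ ≤ 1 * (1 / y) := mul_le_mul_of_nonneg_right (by exact_mod_cast hcard) (by positivity)
      _ = 1 / y := one_mul _
  have h2 : ∀ α ∈ Λ, ∑ ρ ∈ F α, (1 : ℝ) / ρ ≤ C / Real.sqrt (Real.sqrt K0) := by
    intro α hα
    refine hg θ α t (Real.sqrt K0) X hs1 hst (hty.trans hX) (hy.trans hX) (F α) ?_
    intro ρ hρ
    rw [mem_filter] at hρ
    have hρ' := mem_cand.1 hρ.1
    refine ⟨hP ρ hρ'.1, hρ.2.1, hρ'.2.2.1, hρ.2.2, ?_⟩
    have h3 := (hE _ hρ'.2.2.2.2.1).2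
    rw [hprod ρ hρ.1] at h3
    exact heavy_of hK1 ht0 h3
  have h4 : C / Real.sqrt (Real.sqrt K0) = C * K0 ^ (-(1 / 4) : ℝ) := by
    rw [Real.sqrt_eq_rpow, Real.sqrt_eq_rpow, ← Real.rpow_mul hK0.le, Real.rpow_neg hK0.le,
      div_eq_mul_inv]
    norm_num
  calc ∑ ρ ∈ cand P E r S1 X (X ^ 2), (1 : ℝ) / ρ
      ≤ ∑ ρ ∈ (cand P E r S1 X (X ^ 2)).filter (fun ρ : ℕ => (ρ : ℝ) = X) ∪ Λ.biUnion F,
        (1 : ℝ) / ρ := sum_le_sum_of_subset_of_nonneg hcov fun _ _ _ => by positivity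
    _ ≤ ∑ ρ ∈ (cand P E r S1 X (X ^ 2)).filter (fun ρ : ℕ => (ρ : ℝ) = X), (1 : ℝ) / ρ +
        ∑ ρ ∈ Λ.biUnion F, (1 : ℝ) / ρ := by
        rw [← sum_union_inter]
        exact le_add_of_nonneg_right (sum_nonneg fun ρ _ => by positivity)
    _ ≤ 1 / y + ∑ α ∈ Λ, ∑ ρ ∈ F α, (1 : ℝ) / ρ := by
        refine add_le_add h1 (CutSumx492.sum_biUnion_le'' _ _ (fun ρ => (1 : ℝ) / ρ) ?_)
        intro _ _ _ _
        positivity
    _ ≤ 1 / y + ∑ α ∈ Λ, C * K0 ^ (-(1 / 4) : ℝ) := by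
        refine add_le_add le_rfl (sum_le_sum fun α hα => ?_)
        rw [← h4]
        exact h2 α hα
    _ = C * Λ.card * K0 ^ (-(1 / 4) : ℝ) + 1 / y := by
        rw [sum_const, nsmul_eq_mul]; ring

/-! ### (E): windows -/

/-- least `z` with `Λ(P ∩ (z, Y)) ≤ s` -/
noncomputable def Zf (P : Finset ℕ) (s Y : ℝ) : ℝ :=
  ((sInf {z : ℕ | ∑ q ∈ P.filter (fun q : ℕ => (z : ℝ) < q ∧ (q : ℝ) < Y), (1 : ℝ) / q ≤ s} : ℕ) : ℝ)

lemma Zf_spec {P : Finset ℕ} {s : ℝ} (hs : 0 ≤ s) (Y : ℝ) :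
    ∑ q ∈ P.filter (fun q : ℕ => Zf P s Y < (q : ℝ) ∧ (q : ℝ) < Y), (1 : ℝ) / q ≤ s := by
  have hne : {z : ℕ | ∑ q ∈ P.filter (fun q : ℕ => (z : ℝ) < q ∧ (q : ℝ) < Y),
      (1 : ℝ) / q ≤ s}.Nonempty := by
    refine ⟨P.sup id, ?_⟩
    have h0 : P.filter (fun q : ℕ => ((P.sup id : ℕ) : ℝ) < q ∧ (q : ℝ) < Y) = ∅ := by
      rw [filter_eq_empty_iff]
      rintro q hq ⟨h1, _⟩
      have h2 : q ≤ P.sup id := le_sup (f := id) hq
      have h3 : (q : ℝ) ≤ ((P.sup id : ℕ) : ℝ) := by exact_mod_cast h2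
      linarith
    change ∑ q ∈ P.filter (fun q : ℕ => ((P.sup id : ℕ) : ℝ) < q ∧ (q : ℝ) < Y), (1 : ℝ) / q ≤ s
    rw [h0, sum_empty]
    exact hs
  exact Nat.sInf_mem hne

lemma Zf_le {P : Finset ℕ} {s Y c : ℝ} (hc : 0 ≤ c)
    (h : ∑ q ∈ P.filter (fun q : ℕ => c < (q : ℝ) ∧ (q : ℝ) < Y), (1 : ℝ) / q ≤ s) : Zf P s Y ≤ c := by
  refine le_trans ?_ (Nat.floor_le hc)
  unfold Zf
  have h1 : ⌊c⌋₊ ∈ {z : ℕ | ∑ q ∈ P.filter (fun q : ℕ => (z : ℝ) < q ∧ (q : ℝ) < Y),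
      (1 : ℝ) / q ≤ s} := by
    change ∑ q ∈ P.filter (fun q : ℕ => ((⌊c⌋₊ : ℕ) : ℝ) < q ∧ (q : ℝ) < Y), (1 : ℝ) / q ≤ s
    refine le_trans (le_of_eq ?_) h
    refine sum_congr (filter_congr fun q _ => ?_) fun _ _ => rfl
    rw [Nat.cast_lt, Nat.floor_lt hc]
  exact_mod_cast Nat.sInf_le h1

/-- classes (b), (a1): the gap before the loss contains all free primes of `(cut t_J, Y)`,
`Y` a function of the upper letters, `Y >` all letters of `lo` -/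
lemma class_mass (A : ℕ) (hA : 1 ≤ A) : ∃ C : ℝ, 0 < C ∧ ∀ (δ γ t K0 y s : ℝ) (Λ : Finset ℝ)
    (P : Finset ℕ) (E : Finset (Finset ℕ)) (cut : ℝ → ℝ) (Y : Finset ℕ → ℝ),
    1 ≤ t → 1 ≤ K0 → K0 ≤ t → t ^ 4 ≤ y → 16 ≤ y → 0 ≤ s →
    (∀ p ∈ P, p.Prime) → (∀ p ∈ P, y ≤ (p : ℝ)) →
    (∀ τ, 1 ≤ τ → 0 ≤ cut τ ∧ cut τ ≤ τ ^ A) →
    (∀ S ∈ E, LostIn δ γ t P S ∧
      ((∃ α ∈ Λ, ∃ m : ℤ, |((∏ p ∈ S, p : ℕ) : ℝ) * γ - α - m| ≤ 1 / t) ∧
      ¬ On K0 (((∏ p ∈ S, p : ℕ) : ℝ) * γ) t) ∧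
      (∀ q ∈ S, q < ps δ γ t S → (q : ℝ) < Y (up (ps δ γ t) S)) ∧
      ∑ q ∈ P.filter (fun q : ℕ => cut (tJ t S (ps δ γ t S)) < (q : ℝ) ∧
        (q : ℝ) < Y (up (ps δ γ t) S)), (1 : ℝ) / q ≤ s) →
    ∑ S ∈ E, law P S ≤ 4 * s + C * (Λ.card * K0 ^ (-(1 / 4) : ℝ) + 1 / y) := by
  classical
  have hA0 : (0 : ℝ) < A := by exact_mod_cast hA
  have hA1 : (1 : ℝ) ≤ A := by exact_mod_cast hA
  obtain ⟨C1, hC1, hgw⟩ := gwhyp' (1 / (2 * A)) (by positivity)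
    (by rw [div_le_one (by positivity)]; linarith)
  obtain ⟨C2, hC2, hk⟩ := hypK
  refine ⟨C1 * (C2 + 1), by positivity, ?_⟩
  intro δ γ t K0 y s Λ P E cut Y ht hK1 hKt hty hy hs hP hPy hcut hE
  have hP2 : ∀ p ∈ P, 2 ≤ p := fun p hp => (hP p hp).two_le
  have hK0 : 0 < K0 := by linarith
  have hy0 : 0 < y := by linarith
  have hKp : 0 < K0 ^ (-(1 / 4) : ℝ) := Real.rpow_pos_of_pos hK0 _
  have h1 := hgw P y s (C2 * Λ.card * K0 ^ (-(1 / 4) : ℝ) + 1 / y) E (ps δ γ t)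
    (fun U => Zf P s (Y U)) Y (by linarith) hs (by positivity) hP hPy (fun S hS => (hE S hS).1.1)
    (hypU (by linarith) hP2 fun S hS => (hE S hS).1)
    (hk γ t K0 y Λ P E (ps δ γ t) hK1 hKt hty hy hP fun S hS => (hE S hS).2.1) ?_
  · refine h1.trans ?_
    have h2 : C1 * (C2 * Λ.card * K0 ^ (-(1 / 4) : ℝ) + 1 / y) ≤
        C1 * (C2 + 1) * (Λ.card * K0 ^ (-(1 / 4) : ℝ) + 1 / y) := by
      rw [mul_assoc C1 (C2 + 1)]
      refine mul_le_mul_of_nonneg_left ?_ hC1.le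
      have h3 : 0 ≤ (Λ.card : ℝ) * K0 ^ (-(1 / 4) : ℝ) := by positivity
      have h4 : 0 ≤ 1 / y := by positivity
      nlinarith
    linarith
  · intro S hS
    obtain ⟨hl, -, hY, hsum⟩ := hE S hS
    set p := ps δ γ t S with hp
    have hlo : ∀ q, q ∈ lo (ps δ γ t) S ↔ q ∈ S ∧ q < p := fun q => by
      unfold lo; rw [mem_filter]
    have hne : (lo (ps δ γ t) S).Nonempty := ⟨mn S, (hlo _).2 ⟨hl.below.1, hl.below.2⟩⟩
    have hSP := hl.1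
    -- `t_J`
    have hprod : ((∏ q ∈ S.filter (· < p), q : ℕ) : ℝ) ≥ 1 := by
      have : 0 < ∏ q ∈ S.filter (· < p), q :=
        prod_pos fun q hq => by have := hP2 q (hSP (mem_filter.1 hq).1); omega
      exact_mod_cast this
    have hτ1 : 1 ≤ tJ t S p := by unfold tJ; nlinarith
    have hZcut : Zf P s (Y (up (ps δ γ t) S)) ≤ tJ t S p ^ A :=
      (Zf_le (hcut _ hτ1).1 hsum).trans (hcut _ hτ1).2
    set ρ := (lo (ps δ γ t) S).max' hne with hρ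
    have hρm : ρ ∈ lo (ps δ γ t) S := max'_mem _ _
    have hρle : ∀ q ∈ lo (ps δ γ t) S, q ≤ ρ := fun q hq => le_max' _ _ hq
    have hρS := (hlo ρ).1 hρm
    rcases lt_or_ge (Zf P s (Y (up (ps δ γ t) S))) (ρ : ℝ) with h | h
    · left
      exact ⟨⟨ρ, hρm, hρle, h, hY ρ hρS.1 hρS.2⟩, Zf_spec hs _⟩
    · right
      refine ⟨hne, fun q hq => le_trans (by exact_mod_cast hρle q hq) h, ?_⟩
      have hρ2 : (0 : ℝ) < ρ := by
        have := hP2 ρ (hSP hρS.1)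
        exact_mod_cast (by omega : 0 < ρ)
      have hZ0 : 0 < Zf P s (Y (up (ps δ γ t) S)) := lt_of_lt_of_le hρ2 h
      have hτ0 : 0 < tJ t S p := by linarith
      have h2 : Real.log (Zf P s (Y (up (ps δ γ t) S))) ≤ A * Real.log (tJ t S p) := by
        calc Real.log (Zf P s (Y (up (ps δ γ t) S))) ≤ Real.log (tJ t S p ^ A) :=
              Real.log_le_log hZ0 hZcut
          _ = A * Real.log (tJ t S p) := Real.log_pow _ _
      have ht0 : 0 < t := by linarith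
      have hlog : Real.log (tJ t S p) = Real.log t + ∑ q ∈ lo (ps δ γ t) S, Real.log q := by
        have h3 : ∀ q ∈ S.filter (· < p), (q : ℝ) ≠ 0 := by
          intro q hq
          have := hP2 q (hSP (mem_filter.1 hq).1)
          exact_mod_cast (by omega : q ≠ 0)
        unfold tJ lo
        rw [← hp]
        push_cast
        rw [Real.log_mul ht0.ne' (prod_ne_zero_iff.2 h3), Real.log_prod h3]
      have hsum2 : Real.log t ≤ ∑ q ∈ lo (ps δ γ t) S, Real.log q := by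
        have h4 : Real.log t ≤ Real.log ρ := by
          refine Real.log_le_log ht0 ?_
          have h5 : t ≤ t ^ 4 := by
            calc t = t ^ 1 := (pow_one t).symm
              _ ≤ t ^ 4 := pow_le_pow_right₀ ht (by norm_num)
          exact (h5.trans hty).trans (hPy ρ (hSP hρS.1))
        refine h4.trans (single_le_sum (f := fun q : ℕ => Real.log q) (fun q hq => ?_) hρm)
        have := hP2 q (hSP ((hlo q).1 hq).1)
        exact Real.log_nonneg (by exact_mod_cast (by omega : 1 ≤ q))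
      rw [hlog] at h2
      rw [div_mul_eq_mul_div, one_mul, div_le_iff₀ (by positivity)]
      nlinarith


/-! ### (a): the label at the loss -/

/-- smallest denominator explaining the point of the upper letters -/
noncomputable def kst (δ γ : ℝ) (U : Finset ℕ) : ℕ :=
  sInf {k : ℕ | 0 < k ∧ ∃ a : ℤ, (k : ℝ) * max 1 ((mn U : ℝ) * |pt γ U (mn U) - a / k|) <
    3 * (mn U : ℝ) ^ δ}

lemma pt_up {γ : ℝ} {r : Finset ℕ → ℕ} {S : Finset ℕ} : pt γ (up r S) (r S) = pt γ S (r S) := by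
  unfold pt up
  congr 3
  ext q
  simp only [mem_filter]
  constructor
  · rintro ⟨⟨h1, _⟩, h2⟩
    exact ⟨h1, h2⟩
  · rintro ⟨h1, h2⟩
    exact ⟨⟨h1, h2.le⟩, h2⟩

lemma kst_spec {δ γ : ℝ} {r : Finset ℕ → ℕ} {S : Finset ℕ} (hr : r S ∈ S) {τ : ℝ} (hτ : 1 ≤ τ)
    (hp : (3 : ℝ) ^ 128 ≤ r S) (hδ : 128 * δ ≤ 1)
    (hon : On (3 * (r S : ℝ) ^ δ) (pt γ S (r S)) (τ * r S)) :
    0 < kst δ γ (up r S) ∧
    (∃ a : ℤ, (kst δ γ (up r S) : ℝ) * max 1 (τ * r S * |pt γ S (r S) - a / kst δ γ (up r S)|) <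
      3 * (r S : ℝ) ^ δ) ∧
    ∀ K : ℝ, K ≤ 3 * (r S : ℝ) ^ δ → On K (pt γ S (r S)) (τ * r S) → (kst δ γ (up r S) : ℝ) < K := by
  set p := r S with hpdef
  have hp0 : (0 : ℝ) < p := lt_of_lt_of_le (by positivity) hp
  have hp1 : (1 : ℝ) ≤ p := le_trans (by norm_num) hp
  have hmn : mn (up r S) = p := mn_up hr
  have hpt : pt γ (up r S) p = pt γ S p := pt_up
  have hset : kst δ γ (up r S) = sInf {k : ℕ | 0 < k ∧ ∃ a : ℤ,
      (k : ℝ) * max 1 ((p : ℝ) * |pt γ S p - a / k|) < 3 * (p : ℝ) ^ δ} := by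
    unfold kst; rw [hmn, hpt]
  have hdown : ∀ (K : ℝ) (a : ℤ) (k : ℕ), K ≤ 3 * (p : ℝ) ^ δ →
      (k : ℝ) * max 1 (τ * p * |pt γ S p - a / k|) < K →
      (k : ℝ) * max 1 ((p : ℝ) * |pt γ S p - a / k|) < 3 * (p : ℝ) ^ δ := by
    intro K a k hK h
    refine lt_of_le_of_lt (mul_le_mul_of_nonneg_left (max_le_max le_rfl ?_) (Nat.cast_nonneg k))
      (lt_of_lt_of_le h hK)
    refine mul_le_mul_of_nonneg_right ?_ (abs_nonneg _)
    nlinarith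
  have hne : {k : ℕ | 0 < k ∧ ∃ a : ℤ,
      (k : ℝ) * max 1 ((p : ℝ) * |pt γ S p - a / k|) < 3 * (p : ℝ) ^ δ}.Nonempty := by
    obtain ⟨a, k, hk, h⟩ := hon
    exact ⟨k, hk, a, hdown _ a k le_rfl h⟩
  have hmem := Nat.sInf_mem hne
  rw [← hset] at hmem
  obtain ⟨hk0, a, ha⟩ := hmem
  have hmin : ∀ (K : ℝ) (a' : ℤ) (k' : ℕ), K ≤ 3 * (p : ℝ) ^ δ → 0 < k' →
      (k' : ℝ) * max 1 (τ * p * |pt γ S p - a' / k'|) < K → kst δ γ (up r S) ≤ k' := by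
    intro K a' k' hK hk' h
    rw [hset]
    exact Nat.sInf_le ⟨hk', a', hdown K a' k' hK h⟩
  refine ⟨hk0, ?_, ?_⟩
  · obtain ⟨a', k', hk', h⟩ := hon
    have hle := hmin _ a' k' le_rfl hk' h
    refine ⟨a, ?_⟩
    have hu := frac_unique hk0 hk' hp0 (show 0 < τ * (p : ℝ) by positivity) ha h ?_
    · have hkR : (0 : ℝ) < kst δ γ (up r S) := by exact_mod_cast hk0
      have hkR' : (0 : ℝ) < k' := by exact_mod_cast hk'
      have e : (a : ℝ) / kst δ γ (up r S) = a' / k' := by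
        rw [div_eq_div_iff hkR.ne' hkR'.ne']
        exact_mod_cast hu
      rw [e]
      refine lt_of_le_of_lt (mul_le_mul_of_nonneg_right (by exact_mod_cast hle) ?_) h
      exact zero_le_one.trans (le_max_left _ _)
    · have h1 : (p : ℝ) ^ δ * (p : ℝ) ^ δ ≤ Real.sqrt p := by
        rw [← Real.rpow_add hp0, Real.sqrt_eq_rpow]
        exact Real.rpow_le_rpow_of_exponent_le hp1 (by linarith)
      have h2 : 18 ≤ Real.sqrt p := by
        refine Real.le_sqrt_of_sq_le (le_trans (by norm_num) hp)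
      have h3 : 1 / (p : ℝ) + 1 / (τ * p) ≤ 2 / p := by
        have : 1 / (τ * p) ≤ 1 / (p : ℝ) := one_div_le_one_div_of_le hp0 (by nlinarith)
        calc 1 / (p : ℝ) + 1 / (τ * p) ≤ 1 / p + 1 / p := by linarith
          _ = 2 / p := by ring
      have h4 : 0 ≤ (p : ℝ) ^ δ := Real.rpow_nonneg hp0.le _
      calc 3 * (p : ℝ) ^ δ * (3 * (p : ℝ) ^ δ) * (1 / (p : ℝ) + 1 / (τ * p))
          ≤ 3 * (p : ℝ) ^ δ * (3 * (p : ℝ) ^ δ) * (2 / p) :=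
            mul_le_mul_of_nonneg_left h3 (by positivity)
        _ = 18 * ((p : ℝ) ^ δ * (p : ℝ) ^ δ) / p := by ring
        _ ≤ Real.sqrt p * Real.sqrt p / p := by
            refine div_le_div_of_nonneg_right ?_ hp0.le
            exact mul_le_mul h2 h1 (by positivity) (Real.sqrt_nonneg _)
        _ = 1 := by rw [Real.mul_self_sqrt hp0.le, div_self hp0.ne']
  · rintro K hK ⟨a', k', hk', h⟩
    have hle := hmin K a' k' hK hk' h
    have hkR' : (0 : ℝ) < k' := by exact_mod_cast hk'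
    have h1 : (k' : ℝ) < K := lt_of_le_of_lt (by
      nlinarith [le_max_left (1 : ℝ) (τ * p * |pt γ S p - a' / k'|)]) h
    exact lt_of_le_of_lt (by exact_mod_cast hle) h1

/-- every point has depth `≤ t` at the scale `t` -/
lemma on_dirichlet {K y t : ℝ} (ht : 1 ≤ t) (hK : t < K) : On K y t := by
  have hn : 0 < ⌊t⌋₊ := Nat.floor_pos.2 ht
  obtain ⟨j, k, hk0, hkn, h⟩ := Real.exists_int_int_abs_mul_sub_le y hn
  obtain ⟨k', rfl⟩ := Int.eq_ofNat_of_zero_le hk0.le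
  have hk' : 0 < k' := by exact_mod_cast hk0
  have hkR : (0 : ℝ) < k' := by exact_mod_cast hk'
  have hkt : (k' : ℝ) ≤ t := by
    have h1 : (k' : ℝ) ≤ (⌊t⌋₊ : ℝ) := by exact_mod_cast hkn
    exact h1.trans (Nat.floor_le (by linarith))
  refine ⟨j, k', hk', lt_of_le_of_lt ?_ hK⟩
  have h2 : (k' : ℝ) * (t * |y - j / k'|) ≤ t := by
    have h3 : (k' : ℝ) * (t * |y - j / k'|) = t * |(k' : ℝ) * y - j| := by
      have h4 : (k' : ℝ) * y - j = k' * (y - j / k') := by field_simp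
      rw [h4, abs_mul, Nat.abs_cast]; ring
    rw [h3]
    have h5 : |(k' : ℝ) * y - j| ≤ 1 := by
      have h6 : |(k' : ℝ) * y - j| ≤ 1 / ((⌊t⌋₊ : ℝ) + 1) := by simpa using h
      refine h6.trans ?_
      rw [div_le_one (by positivity)]
      linarith [Nat.cast_nonneg (α := ℝ) ⌊t⌋₊]
    nlinarith
  rcases le_total 1 (t * |y - j / k'|) with h3 | h3
  · rw [max_eq_right h3]; exact h2
  · rw [max_eq_left h3, mul_one]; exact hkt

/-- **natural hypothesis of the GW section** (block NH), finite set `Λ` of targets -/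
theorem nh (A : ℕ) (hA : 32 ≤ A) : ∃ C : ℝ, 1 ≤ C ∧ ∀ (cut : ℝ → ℝ) (δ γ t s K0 : ℝ) (Λ : Finset ℝ)
    (P : Finset ℕ) (E : Finset (Finset ℕ)),
    (∀ τ, 1 ≤ τ → (τ / 2) ^ A ≤ cut τ ∧ cut τ ≤ τ ^ A) → 0 < δ → 4 * A * δ ≤ 1 →
    1 ≤ t → 0 ≤ s → 0 < K0 → (∀ p ∈ P, p.Prime ∧ cut t < p) →
    (∀ S ∈ E, S ⊆ P ∧ Bad cut δ γ t s P S ∧
      (∃ α ∈ Λ, ∃ m : ℤ, |((∏ p ∈ S, p : ℕ) : ℝ) * γ - α - m| ≤ 1 / t) ∧
      ¬ On K0 (((∏ p ∈ S, p : ℕ) : ℝ) * γ) t) →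
    ∑ S ∈ E, law P S ≤ C * (s + Λ.card * K0 ^ (-(1 / 4) : ℝ) + 1 / t) := by
  classical
  obtain ⟨C1, hC1, hnc⟩ := nc_mass A (by omega)
  obtain ⟨C2, hC2, ha2⟩ := a2_mass A (by omega)
  obtain ⟨C3, hC3, hcl⟩ := class_mass A (by omega)
  refine ⟨162 + C1 + C2 + 2 * C3, by linarith, ?_⟩
  intro cut δ γ t s K0 Λ P E hcut hδ0 hAδ ht hs hK0 hP hE
  have hA32 : (32 : ℝ) ≤ A := by exact_mod_cast hA
  have hδ : 128 * δ ≤ 1 := by nlinarith
  have ht0 : 0 < t := by linarith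
  have hPp : ∀ p ∈ P, p.Prime := fun p hp => (hP p hp).1
  have hP2 : ∀ p ∈ P, 2 ≤ p := fun p hp => (hPp p hp).two_le
  have hl0 : ∀ S, 0 ≤ law P S := fun S => law_nonneg fun p hp => by have := hP2 p hp; omega
  have hKp : 0 < K0 ^ (-(1 / 4) : ℝ) := Real.rpow_pos_of_pos hK0 _
  have hR0 : 0 ≤ s + Λ.card * K0 ^ (-(1 / 4) : ℝ) + 1 / t := by positivity
  have hone : ∑ S ∈ E, law P S ≤ 1 := by
    rw [← sum_law P]
    exact sum_le_sum_of_subset_of_nonneg (fun S hS => mem_powerset.2 (hE S hS).1)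
      fun S _ _ => hl0 S
  rcases E.eq_empty_or_nonempty with h0 | ⟨S1, hS1⟩
  · rw [h0, sum_empty]; exact mul_nonneg (by linarith) hR0
  -- small `t`
  rcases lt_or_ge t 162 with ht1 | ht1
  · refine hone.trans ?_
    have h1 : 1 ≤ 162 * (1 / t) := by
      rw [mul_one_div, le_div_iff₀ ht0]; linarith
    have h2 : 0 ≤ (Λ.card : ℝ) * K0 ^ (-(1 / 4) : ℝ) := by positivity
    have h3 : 0 ≤ 1 / t := by positivity
    have h4 : 0 ≤ C1 + C2 + 2 * C3 := by positivity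
    have h5 : 0 ≤ s + Λ.card * K0 ^ (-(1 / 4) : ℝ) := by positivity
    nlinarith [mul_nonneg h4 hR0]
  have hΛ : (1 : ℝ) ≤ Λ.card := by
    obtain ⟨α, hα, _⟩ := (hE S1 hS1).2.2.1
    exact_mod_cast card_pos.2 ⟨α, hα⟩
  -- small `K0`
  rcases lt_or_ge K0 1 with hK1 | hK1
  · refine hone.trans ?_
    have h1 : 1 ≤ K0 ^ (-(1 / 4) : ℝ) := Real.one_le_rpow_of_pos_of_le_one_of_nonpos hK0 hK1.le
      (by norm_num)
    have h2 : 1 ≤ s + Λ.card * K0 ^ (-(1 / 4) : ℝ) + 1 / t := by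
      have : 0 ≤ 1 / t := by positivity
      nlinarith
    nlinarith
  have hKt : K0 ≤ t := by
    by_contra h
    exact (hE S1 hS1).2.2.2 (on_dirichlet ht (not_le.1 h))
  -- `y = (t/2)^A`
  set y : ℝ := (t / 2) ^ A with hy
  have ht2 : 81 ≤ t / 2 := by linarith
  have hy1 : (t / 2) ^ 32 ≤ y := pow_le_pow_right₀ (by linarith) hA
  have hy3 : (3 : ℝ) ^ 128 ≤ y := by
    refine le_trans ?_ hy1
    calc (3 : ℝ) ^ 128 = 81 ^ 32 := by norm_num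
      _ ≤ (t / 2) ^ 32 := pow_le_pow_left₀ (by norm_num) ht2 32
  have hty : t ^ 4 ≤ y := by
    refine le_trans ?_ hy1
    calc t ^ 4 ≤ ((t / 2) ^ 2) ^ 4 := pow_le_pow_left₀ ht0.le (by nlinarith) 4
      _ = (t / 2) ^ 8 := by rw [← pow_mul]
      _ ≤ (t / 2) ^ 32 := pow_le_pow_right₀ (by linarith) (by norm_num)
  have hy16 : 16 ≤ y := le_trans (by norm_num) hy3
  have hy0 : 0 < y := by linarith
  have hPy : ∀ p ∈ P, y ≤ (p : ℝ) := fun p hp => ((hcut t ht).1).trans (hP p hp).2.le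
  have hcut' : ∀ τ, 1 ≤ τ → 0 ≤ cut τ ∧ cut τ ≤ τ ^ A := fun τ hτ =>
    ⟨le_trans (by positivity) (hcut τ hτ).1, (hcut τ hτ).2⟩
  -- facts on a lost word
  have hτ1 : ∀ S ∈ E, ∀ r : ℕ, t ≤ tJ t S r := by
    intro S hS r
    have h1 : 0 < ∏ q ∈ S.filter (· < r), q :=
      prod_pos fun q hq => by have := hP2 q ((hE S hS).1 (mem_filter.1 hq).1); omega
    have h2 : (1 : ℝ) ≤ ((∏ q ∈ S.filter (· < r), q : ℕ) : ℝ) := by exact_mod_cast h1
    unfold tJ; nlinarith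
  have hscp : ∀ S ∈ E, ∀ r ∈ S, sc t S r = tJ t S r * r := by
    intro S _ r hr
    unfold sc tJ
    have e : S.filter (· ≤ r) = insert r (S.filter (· < r)) := by
      ext q
      simp only [mem_filter, mem_insert]
      constructor
      · rintro ⟨h1, h2⟩
        rcases h2.lt_or_eq with h | h
        · exact Or.inr ⟨h1, h⟩
        · exact Or.inl h
      · rintro (h | ⟨h1, h2⟩)
        · rw [h]; exact ⟨hr, le_rfl⟩
        · exact ⟨h1, h2.le⟩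
    rw [e, prod_insert (by simp)]
    push_cast; ring
  -- classes
  set E1 := E.filter fun S => ¬ On (K1 δ S) (pt γ S (mn S)) (sc t S (mn S)) with hE1
  set E2 := E.filter fun S => LostIn δ γ t P S ∧
    (ps δ γ t S : ℝ) ≤ cut (tJ t S (ps δ γ t S)) with hE2
  set G := E.filter fun S => LostIn δ γ t P S ∧
    ∑ q ∈ nc cut δ γ t P S (ps δ γ t S), (1 : ℝ) / q ≤ s with hG
  set E3 := G.filter fun S => cut (tJ t S (ps δ γ t S)) < (ps δ γ t S : ℝ) ∧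
    On (3 * (ps δ γ t S : ℝ) ^ δ) (pt γ S (ps δ γ t S)) (sc t S (ps δ γ t S)) ∧
      (kst δ γ (up (ps δ γ t) S) : ℝ) ≤ Real.sqrt (tJ t S (ps δ γ t S)) with hE3
  set E4 := G.filter fun S =>
    ¬ On (3 * (ps δ γ t S : ℝ) ^ δ) (pt γ S (ps δ γ t S)) (sc t S (ps δ γ t S)) with hE4
  set E5 := G.filter fun S =>
    On (3 * (ps δ γ t S : ℝ) ^ δ) (pt γ S (ps δ γ t S)) (sc t S (ps δ γ t S)) ∧
      ¬ (kst δ γ (up (ps δ γ t) S) : ℝ) ≤ Real.sqrt (tJ t S (ps δ γ t S)) with hE5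
  have hcov : E ⊆ E1 ∪ (E2 ∪ (E3 ∪ (E4 ∪ E5))) := by
    intro S hS
    obtain ⟨hSP, ⟨hne, hbad⟩, -, -⟩ := hE S hS
    rcases hbad with ⟨h1, -⟩ | ⟨h1, h2, h3⟩
    · exact mem_union_left _ (mem_filter.2 ⟨hS, h1⟩)
    · have hl : LostIn δ γ t P S := ⟨hSP, h1, h2⟩
      refine mem_union_right _ ?_
      rcases le_or_gt (ps δ γ t S : ℝ) (cut (tJ t S (ps δ γ t S))) with h4 | h4
      · exact mem_union_left _ (mem_filter.2 ⟨hS, hl, h4⟩)
      · refine mem_union_right _ ?_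
        have h5 : ∑ q ∈ nc cut δ γ t P S (ps δ γ t S), (1 : ℝ) / q ≤ s := by
          rcases h3 with h3 | h3
          · exact absurd h3 (not_le.2 h4)
          · exact h3
        have hSG : S ∈ G := mem_filter.2 ⟨hS, hl, h5⟩
        by_cases h6 : On (3 * (ps δ γ t S : ℝ) ^ δ) (pt γ S (ps δ γ t S)) (sc t S (ps δ γ t S))
        · by_cases h7 : (kst δ γ (up (ps δ γ t) S) : ℝ) ≤ Real.sqrt (tJ t S (ps δ γ t S))
          · exact mem_union_left _ (mem_filter.2 ⟨hSG, h4, h6, h7⟩)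
          · exact mem_union_right _ (mem_union_right _ (mem_filter.2 ⟨hSG, h6, h7⟩))
        · exact mem_union_right _ (mem_union_left _ (mem_filter.2 ⟨hSG, h6⟩))
  have hsub2 : ∀ S ∈ G, S ∈ E := fun S hS => (mem_filter.1 hS).1
  -- (1a)
  have b1 : ∑ S ∈ E1, law P S ≤ s + 1 / y := by
    refine mass_first hP2 (by linarith) hPy hs E1 fun S hS => ?_
    rw [mem_filter] at hS
    obtain ⟨hSE, hnon⟩ := hS
    obtain ⟨hSP, ⟨hne, hbad⟩, -, -⟩ := hE S hSE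
    refine ⟨hSP, hne, ?_⟩
    rcases hbad with ⟨-, h1⟩ | ⟨h1, -⟩
    · refine le_trans (sum_le_sum_of_subset_of_nonneg ?_ fun _ _ _ => by positivity) h1
      intro q hq
      rw [mem_filter] at hq
      unfold nc
      rw [mem_filter]
      refine ⟨hq.1, ?_, hq.2, ?_⟩
      · have e : S.filter (· < mn S) = ∅ := by
          rw [filter_eq_empty_iff]
          intro p hp h
          have := mn_le hp
          omega
        rw [e, prod_empty, Nat.cast_one, mul_one]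
        exact (hP q hq.1).2
      · intro hon
        apply hnon
        refine hon.mono ?_
        unfold K1
        refine mul_le_mul_of_nonneg_left ?_ (by norm_num)
        exact Real.rpow_le_rpow (Nat.cast_nonneg _) (by exact_mod_cast hq.2.le) hδ0.le
    · exact absurd h1 hnon
  have b2 : ∑ S ∈ E2, law P S ≤ C1 * y ^ (-(1 / 4) : ℝ) := by
    refine hnc δ γ t y P E2 hδ0.le hδ ht hy3 hPp hPy fun S hS => ?_
    rw [mem_filter] at hS
    exact ⟨hS.2.1, hS.2.2.trans (hcut _ (ht.trans (hτ1 S hS.1 _))).2⟩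
  have hp3 : ∀ S ∈ G, (3 : ℝ) ^ 128 ≤ (ps δ γ t S : ℝ) := by
    intro S hS
    obtain ⟨hSE, hl, -⟩ := mem_filter.1 hS
    exact hy3.trans (hPy _ (hl.1 (ps_spec hl.2.2).1))
  have hkst : ∀ S ∈ G, On (3 * (ps δ γ t S : ℝ) ^ δ) (pt γ S (ps δ γ t S))
      (sc t S (ps δ γ t S)) → 0 < kst δ γ (up (ps δ γ t) S) ∧
      (∃ a : ℤ, (kst δ γ (up (ps δ γ t) S) : ℝ) * max 1 (sc t S (ps δ γ t S) *
        |pt γ S (ps δ γ t S) - a / kst δ γ (up (ps δ γ t) S)|) < 3 * (ps δ γ t S : ℝ) ^ δ) ∧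
      ∀ K : ℝ, K ≤ 3 * (ps δ γ t S : ℝ) ^ δ → On K (pt γ S (ps δ γ t S))
        (sc t S (ps δ γ t S)) → (kst δ γ (up (ps δ γ t) S) : ℝ) < K := by
    intro S hS hon
    obtain ⟨hSE, hl, -⟩ := mem_filter.1 hS
    have h1 := hscp S hSE _ (ps_spec hl.2.2).1
    rw [h1] at hon ⊢
    exact kst_spec (ps_spec hl.2.2).1 (ht.trans (hτ1 S hSE _)) (hp3 S hS) hδ hon
  have b3 : ∑ S ∈ E3, law P S ≤ C2 * y ^ (-(1 / 4) : ℝ) := by
    refine ha2 δ γ t y P E3 hδ0.le hδ ht hy3 hPp hPy fun S hS => ?_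
    obtain ⟨hSG, h1, h2, h3⟩ := mem_filter.1 hS
    obtain ⟨hSE, hl, -⟩ := mem_filter.1 hSG
    obtain ⟨hk0, ⟨a, ha⟩, -⟩ := hkst S hSG h2
    exact ⟨hl, lt_of_le_of_lt (hcut _ (ht.trans (hτ1 S hSE _))).1 h1, a, _, hk0, h3, ha⟩
  -- letters below `ps` are `≤ t_J`
  have hletter : ∀ S ∈ E, ∀ q ∈ S, ∀ r, q < r → (q : ℝ) ≤ tJ t S r := by
    intro S hS q hq r hqr
    have h1 : q ∣ ∏ p ∈ S.filter (· < r), p :=
      dvd_prod_of_mem (fun q => q) (mem_filter.2 ⟨hq, hqr⟩)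
    have h2 : 0 < ∏ p ∈ S.filter (· < r), p :=
      prod_pos fun p hp => by have := hP2 p ((hE S hS).1 (mem_filter.1 hp).1); omega
    have h3 : (q : ℝ) ≤ ((∏ p ∈ S.filter (· < r), p : ℕ) : ℝ) := by
      exact_mod_cast Nat.le_of_dvd h2 h1
    unfold tJ; nlinarith
  have b4 : ∑ S ∈ E4, law P S ≤ 4 * s + C3 * (Λ.card * K0 ^ (-(1 / 4) : ℝ) + 1 / y) := by
    refine hcl δ γ t K0 y s Λ P E4 cut (fun U => (mn U : ℝ)) ht hK1 hKt hty hy16 hs hPp hPy hcut'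
      fun S hS => ?_
    obtain ⟨hSG, h1⟩ := mem_filter.1 hS
    obtain ⟨hSE, hl, hsum⟩ := mem_filter.1 hSG
    have hmn : mn (up (ps δ γ t) S) = ps δ γ t S := mn_up (ps_spec hl.2.2).1
    refine ⟨hl, (hE S hSE).2.2, fun q hq hqp => ?_, ?_⟩
    · simp only [hmn]; exact_mod_cast hqp
    · refine le_trans (sum_le_sum_of_subset_of_nonneg ?_ fun _ _ _ => by positivity) hsum
      intro q hq
      simp only [hmn] at hq
      rw [mem_filter] at hq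
      have hqp : q < ps δ γ t S := by exact_mod_cast hq.2.2
      unfold nc
      rw [mem_filter]
      refine ⟨hq.1, hq.2.1, hqp, fun hon => h1 (hon.mono ?_)⟩
      refine mul_le_mul_of_nonneg_left ?_ (by norm_num)
      exact Real.rpow_le_rpow (Nat.cast_nonneg _) hq.2.2.le hδ0.le
  have b5 : ∑ S ∈ E5, law P S ≤ 4 * s + C3 * (Λ.card * K0 ^ (-(1 / 4) : ℝ) + 1 / y) := by
    refine hcl δ γ t K0 y s Λ P E5 cut
      (fun U => min (mn U : ℝ) (((kst δ γ U : ℝ) / 3) ^ (1 / δ))) ht hK1 hKt hty hy16 hs hPp hPy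
      hcut' fun S hS => ?_
    obtain ⟨hSG, h1, h2⟩ := mem_filter.1 hS
    obtain ⟨hSE, hl, hsum⟩ := mem_filter.1 hSG
    have hmn : mn (up (ps δ γ t) S) = ps δ γ t S := mn_up (ps_spec hl.2.2).1
    obtain ⟨hk0, -, hkmin⟩ := hkst S hSG h1
    set k := kst δ γ (up (ps δ γ t) S) with hk
    set τ := tJ t S (ps δ γ t S) with hτ
    have hτ162 : 162 ≤ τ := ht1.trans (hτ1 S hSE _)
    have hτ0 : 0 < τ := by linarith
    have hr0 : 0 < Real.sqrt τ := Real.sqrt_pos.2 hτ0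
    have hrr : Real.sqrt τ * Real.sqrt τ = τ := Real.mul_self_sqrt hτ0.le
    have hr9 : 9 ≤ Real.sqrt τ := Real.le_sqrt_of_sq_le (by linarith)
    have hkr : Real.sqrt τ < k := not_le.1 h2
    have hk3 : 1 ≤ (k : ℝ) / 3 := by rw [le_div_iff₀ (by norm_num)]; linarith
    have hbig : τ < ((k : ℝ) / 3) ^ (1 / δ) := by
      have h3 : ((k : ℝ) / 3) ^ (4 : ℝ) ≤ ((k : ℝ) / 3) ^ (1 / δ) := by
        refine Real.rpow_le_rpow_of_exponent_le hk3 ?_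
        rw [le_div_iff₀ hδ0]; linarith
      have h4 : ((k : ℝ) / 3) ^ (4 : ℝ) = ((k : ℝ) / 3) ^ 4 := by
        rw [← Real.rpow_natCast]; norm_num
      have h5 : (Real.sqrt τ / 3) ^ 4 ≤ ((k : ℝ) / 3) ^ 4 := by
        refine pow_le_pow_left₀ (by positivity) ?_ 4
        exact div_le_div_of_nonneg_right hkr.le (by norm_num)
      have h6 : (Real.sqrt τ / 3) ^ 4 = τ * τ / 81 := by
        rw [show (Real.sqrt τ / 3) ^ 4 = (Real.sqrt τ * Real.sqrt τ) * (Real.sqrt τ * Real.sqrt τ) / 81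
          by ring, hrr]
      have h7 : τ < τ * τ / 81 := by
        rw [lt_div_iff₀ (by norm_num)]; nlinarith
      linarith
    refine ⟨hl, (hE S hSE).2.2, fun q hq hqp => ?_, ?_⟩
    · simp only [hmn]
      refine lt_min (by exact_mod_cast hqp) ?_
      exact lt_of_le_of_lt (hletter S hSE q hq _ hqp) hbig
    · refine le_trans (sum_le_sum_of_subset_of_nonneg ?_ fun _ _ _ => by positivity) hsum
      intro q hq
      simp only [hmn] at hq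
      rw [mem_filter, lt_min_iff] at hq
      obtain ⟨hqP, hq1, hq2, hq3⟩ := hq
      have hqp : q < ps δ γ t S := by exact_mod_cast hq2
      unfold nc
      rw [mem_filter]
      refine ⟨hqP, hq1, hqp, fun hon => ?_⟩
      have hqle : 3 * (q : ℝ) ^ δ ≤ 3 * (ps δ γ t S : ℝ) ^ δ := by
        refine mul_le_mul_of_nonneg_left ?_ (by norm_num)
        exact Real.rpow_le_rpow (Nat.cast_nonneg _) hq2.le hδ0.le
      have h3 := hkmin _ hqle hon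
      have h4 : (q : ℝ) ^ δ < (k : ℝ) / 3 := by
        calc (q : ℝ) ^ δ < (((k : ℝ) / 3) ^ (1 / δ)) ^ δ :=
              Real.rpow_lt_rpow (Nat.cast_nonneg _) hq3 hδ0
          _ = (k : ℝ) / 3 := by
              rw [← Real.rpow_mul (by linarith), one_div_mul_cancel hδ0.ne', Real.rpow_one]
      linarith
  -- sum
  have hsum : ∑ S ∈ E, law P S ≤ ∑ S ∈ E1, law P S + (∑ S ∈ E2, law P S + (∑ S ∈ E3, law P S +
      (∑ S ∈ E4, law P S + ∑ S ∈ E5, law P S))) := by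
    have hun : ∀ (U V : Finset (Finset ℕ)), ∑ S ∈ U ∪ V, law P S ≤
        ∑ S ∈ U, law P S + ∑ S ∈ V, law P S := fun U V => by
      rw [← sum_union_inter]
      exact le_add_of_nonneg_right (sum_nonneg fun S _ => hl0 S)
    refine (sum_le_sum_of_subset_of_nonneg hcov fun S _ _ => hl0 S).trans ?_
    refine (hun _ _).trans (add_le_add le_rfl ?_)
    refine (hun _ _).trans (add_le_add le_rfl ?_)
    refine (hun _ _).trans (add_le_add le_rfl ?_)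
    exact hun _ _
  have hyt : y ^ (-(1 / 4) : ℝ) ≤ 1 / t := by
    have h1 : y ^ (-(1 / 4) : ℝ) ≤ (t ^ 4) ^ (-(1 / 4) : ℝ) :=
      Real.rpow_le_rpow_of_nonpos (by positivity) hty (by norm_num)
    have h2 : (t ^ 4) ^ (-(1 / 4) : ℝ) = 1 / t := by
      rw [← Real.rpow_natCast, ← Real.rpow_mul ht0.le]
      norm_num
      rw [Real.rpow_neg_one]
    linarith
  have hyt' : 1 / y ≤ 1 / t := by
    refine one_div_le_one_div_of_le ht0 (le_trans ?_ hty)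
    calc t = t ^ 1 := (pow_one t).symm
      _ ≤ t ^ 4 := pow_le_pow_right₀ ht (by norm_num)
  have hX : 0 ≤ (Λ.card : ℝ) * K0 ^ (-(1 / 4) : ℝ) := by positivity
  have ht' : 0 ≤ 1 / t := by positivity
  have e2 : C1 * y ^ (-(1 / 4) : ℝ) ≤ C1 * (1 / t) := mul_le_mul_of_nonneg_left hyt hC1.le
  have e3 : C2 * y ^ (-(1 / 4) : ℝ) ≤ C2 * (1 / t) := mul_le_mul_of_nonneg_left hyt hC2.le
  have e4 : C3 * (Λ.card * K0 ^ (-(1 / 4) : ℝ) + 1 / y) ≤
      C3 * (Λ.card * K0 ^ (-(1 / 4) : ℝ) + 1 / t) :=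
    mul_le_mul_of_nonneg_left (add_le_add le_rfl hyt') hC3.le
  have e5 : (162 + C1 + C2 + 2 * C3) * (s + Λ.card * K0 ^ (-(1 / 4) : ℝ) + 1 / t) =
      162 * (s + Λ.card * K0 ^ (-(1 / 4) : ℝ) + 1 / t) + C1 * (s + Λ.card * K0 ^ (-(1 / 4) : ℝ)) +
        C1 * (1 / t) + C2 * (s + Λ.card * K0 ^ (-(1 / 4) : ℝ)) + C2 * (1 / t) +
        2 * C3 * s + 2 * (C3 * (Λ.card * K0 ^ (-(1 / 4) : ℝ) + 1 / t)) := by ring
  rw [e5]
  have e6 : 0 ≤ C1 * (s + Λ.card * K0 ^ (-(1 / 4) : ℝ)) := by positivity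
  have e7 : 0 ≤ C2 * (s + Λ.card * K0 ^ (-(1 / 4) : ℝ)) := by positivity
  have e8 : 0 ≤ 2 * C3 * s := by positivity
  linarith

end Crest.Agent.R4C.NHx438
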