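import Crest.Agent.R4C.GWhyp_656

/-!
# Row 4, BLOCK NH (note 3754): cut-sum half (helper115)
-/

set_option autoImplicit false

namespace Crest.Agent.R4C.NHcutx115

open Finset Crest.Agent.R4C.GWhx656

/-! ### the law: words containing a given letter -/

lemma law_erase {P S : Finset ℕ} {π : ℕ} (hS : S ⊆ P) (hπ : π ∈ S) :
    law P S = 1 / (π : ℝ) * law (P.erase π) (S.erase π) := by
  unfold law
  have e1 : ∏ p ∈ S, (1 / (p : ℝ)) = 1 / (π : ℝ) * ∏ p ∈ S.erase π, (1 / (p : ℝ)) :=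
    (mul_prod_erase S (fun p : ℕ => 1 / (p : ℝ)) hπ).symm
  have e2 : P \ S = (P.erase π) \ (S.erase π) := by
    ext q
    simp only [mem_sdiff, mem_erase]
    constructor
    · rintro ⟨h1, h2⟩
      exact ⟨⟨fun h => h2 (h ▸ hπ), h1⟩, fun h => h2 h.2⟩
    · rintro ⟨⟨h1, h2⟩, h3⟩
      exact ⟨h2, fun h => h3 ⟨h1, h⟩⟩
  rw [e1, e2]
  ring

lemma sum_law_mem {P : Finset ℕ} {π : ℕ} (hπ : π ∈ P) :
    ∑ S ∈ P.powerset with π ∈ S, law P S = 1 / (π : ℝ) := by
  classical
  have h1 : ∑ S ∈ P.powerset with π ∈ S, law P S =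
      ∑ S ∈ (P.erase π).powerset, 1 / (π : ℝ) * law (P.erase π) S := by
    refine sum_nbij' (fun S => S.erase π) (fun S => insert π S) ?_ ?_ ?_ ?_ ?_
    · intro S hS
      rw [mem_filter, mem_powerset] at hS
      exact mem_powerset.2 (erase_subset_erase π hS.1)
    · intro S hS
      rw [mem_powerset] at hS
      rw [mem_filter, mem_powerset]
      refine ⟨fun q hq => ?_, mem_insert_self π S⟩
      rcases mem_insert.1 hq with h | h
      · rw [h]; exact hπ
      · exact (mem_erase.1 (hS h)).2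
    · intro S hS
      rw [mem_filter] at hS
      exact insert_erase hS.2
    · intro S hS
      rw [mem_powerset] at hS
      exact erase_insert fun h => (mem_erase.1 (hS h)).1 rfl
    · intro S hS
      rw [mem_filter, mem_powerset] at hS
      exact law_erase hS.1 hS.2
  rw [h1, ← mul_sum, sum_law, mul_one]

/-- **cut sum**: the words from which a letter `p` with a letter `π` just below it can be removed -/
theorem cutsum {P : Finset ℕ} (hP : ∀ p ∈ P, 2 ≤ p) (E : Finset (Finset ℕ))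
    (hE : ∀ S ∈ E, S ⊆ P) (R : Finset ℕ → ℕ → ℕ → Prop) (β : ℕ → ℝ)
    (hR : ∀ S ∈ E, ∃ p ∈ S, ∃ π ∈ S, π < p ∧ (∀ q ∈ S, q < p → q ≤ π) ∧ R (S.erase p) π p)
    (hm : ∀ S1 ⊆ P, ∀ π ∈ S1, ∀ F : Finset ℕ, (∀ p ∈ F, p ∈ P ∧ p ∉ S1 ∧ π < p ∧
      (∀ q ∈ S1, q < p → q ≤ π) ∧ R S1 π p) → ∑ p ∈ F, (1 : ℝ) / p ≤ β π) :
    ∑ S ∈ E, law P S ≤ 2 * ∑ π ∈ P, β π / π := by
  classical
  choose! pp hpp ππ hππ using hR
  set T : Finset (Finset ℕ × ℕ × ℕ) := (P.powerset ×ˢ P ×ˢ P).filter (fun x =>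
    x.2.1 ∈ x.1 ∧ x.2.2 ∉ x.1 ∧ x.2.1 < x.2.2 ∧ (∀ q ∈ x.1, q < x.2.2 → q ≤ x.2.1) ∧
      R x.1 x.2.1 x.2.2) with hT
  set ι : Finset ℕ → Finset ℕ × ℕ × ℕ := fun S => (S.erase (pp S), ππ S, pp S) with hι
  set g : Finset ℕ × ℕ × ℕ → ℝ := fun x => law P x.1 * od x.2.2 with hg
  have hP1 : ∀ p ∈ P, 1 ≤ p := fun p hp => (by norm_num : 1 ≤ 2).trans (hP p hp)
  have hιT : ∀ S ∈ E, ι S ∈ T := by
    intro S hS
    obtain ⟨h1, h2, h3, h4⟩ := hππ S hS
    have h0 := hpp S hS
    rw [hT, mem_filter, mem_product, mem_product, mem_powerset]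
    refine ⟨⟨(erase_subset _ _).trans (hE S hS), hE S hS h1, hE S hS h0⟩, ?_, ?_, h2, ?_, h4⟩
    · exact mem_erase.2 ⟨h2.ne, h1⟩
    · exact notMem_erase _ _
    · intro q hq hqp
      exact h3 q (mem_of_mem_erase hq) hqp
  have hinj : ∀ S ∈ E, ∀ S' ∈ E, ι S = ι S' → S = S' := by
    intro S hS S' hS' h
    rw [hι] at h
    simp only [Prod.mk.injEq] at h
    rw [← insert_erase (hpp S hS), ← insert_erase (hpp S' hS'), h.1, h.2.2]
  have hlaw : ∀ S ∈ E, law P S = g (ι S) := by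
    intro S hS
    have h0 := hpp S hS
    have e := law_union (P := P) (S := S.erase (pp S)) (T := {pp S}) hP
      (singleton_subset_iff.2 (hE S hS h0)) (by simp)
    rw [prod_singleton] at e
    rw [hg, hι]
    simp only
    unfold od
    rw [← e]
    congr 1
    rw [union_comm, ← insert_eq, insert_erase h0]
  have hgT : ∀ x ∈ T, 0 ≤ g x := by
    intro x hx
    rw [hT, mem_filter, mem_product, mem_product] at hx
    exact mul_nonneg (law_nonneg hP1) (od_nonneg (hP1 _ hx.1.2.2))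
  calc ∑ S ∈ E, law P S = ∑ S ∈ E, g (ι S) := sum_congr rfl hlaw
    _ = ∑ x ∈ E.image ι, g x := (sum_image hinj).symm
    _ ≤ ∑ x ∈ T, g x := by
        refine sum_le_sum_of_subset_of_nonneg ?_ fun x hx _ => hgT x hx
        intro x hx
        obtain ⟨S, hS, rfl⟩ := mem_image.1 hx
        exact hιT S hS
    _ = ∑ S1 ∈ P.powerset, ∑ π ∈ P, ∑ p ∈ P,
        if (π ∈ S1 ∧ p ∉ S1 ∧ π < p ∧ (∀ q ∈ S1, q < p → q ≤ π) ∧ R S1 π p) then
          law P S1 * od p else 0 := by
        rw [hT, sum_filter, sum_product]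
        refine sum_congr rfl fun S1 _ => ?_
        rw [sum_product]
    _ ≤ ∑ S1 ∈ P.powerset, ∑ π ∈ P, if π ∈ S1 then law P S1 * (2 * β π) else 0 := by
        refine sum_le_sum fun S1 hS1 => sum_le_sum fun π hπ => ?_
        rw [mem_powerset] at hS1
        by_cases h : π ∈ S1
        · rw [if_pos h]
          set F := P.filter (fun p => p ∉ S1 ∧ π < p ∧ (∀ q ∈ S1, q < p → q ≤ π) ∧ R S1 π p)
            with hF
          have h1 := hm S1 hS1 π h F fun p hp => by
            rw [hF, mem_filter] at hp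
            exact hp
          have e1 : (∑ p ∈ P, if (π ∈ S1 ∧ p ∉ S1 ∧ π < p ∧ (∀ q ∈ S1, q < p → q ≤ π) ∧
              R S1 π p) then law P S1 * od p else 0) = law P S1 * ∑ p ∈ F, od p := by
            rw [mul_sum, hF, sum_filter]
            refine sum_congr rfl fun p _ => ?_
            simp only [h, true_and]
          rw [e1]
          refine mul_le_mul_of_nonneg_left ?_ (law_nonneg hP1)
          calc ∑ p ∈ F, od p ≤ ∑ p ∈ F, 2 * (1 / (p : ℝ)) :=
                sum_le_sum fun p hp => od_le (hP p (mem_filter.1 hp).1)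
            _ = 2 * ∑ p ∈ F, 1 / (p : ℝ) := by rw [mul_sum]
            _ ≤ 2 * β π := by linarith
        · rw [if_neg h]
          refine (sum_eq_zero fun p _ => ?_).le
          rw [if_neg fun hc => h hc.1]
    _ = ∑ π ∈ P, ∑ S1 ∈ P.powerset, if π ∈ S1 then law P S1 * (2 * β π) else 0 := sum_comm
    _ = ∑ π ∈ P, 2 * β π * (1 / (π : ℝ)) := by
        refine sum_congr rfl fun π hπ => ?_
        rw [← sum_filter, ← sum_mul, sum_law_mem hπ]
        ring
    _ = 2 * ∑ π ∈ P, β π / π := by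
        rw [mul_sum]
        refine sum_congr rfl fun π _ => ?_
        ring

/-- (1a) the first letter: no mass of `P` below it -/
theorem first_letter {P : Finset ℕ} (hP : ∀ p ∈ P, 2 ≤ p) {y s : ℝ} (hy : 0 < y) (hs : 0 ≤ s)
    (hPy : ∀ p ∈ P, y ≤ (p : ℝ)) (E : Finset (Finset ℕ)) (hE : ∀ S ∈ E, S ⊆ P)
    (h : ∀ S ∈ E, ∃ r ∈ S, ∑ q ∈ P with q < r, (1 : ℝ) / q ≤ s) :
    ∑ S ∈ E, law P S ≤ s + 1 / y := by
  classical
  have hP1 : ∀ p ∈ P, 1 ≤ p := fun p hp => (by norm_num : 1 ≤ 2).trans (hP p hp)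
  set R := P.filter (fun r => ∑ q ∈ P with q < r, (1 : ℝ) / q ≤ s) with hR
  have h1 : ∑ S ∈ E, law P S ≤ ∑ r ∈ R, 1 / (r : ℝ) := by
    calc ∑ S ∈ E, law P S ≤ ∑ S ∈ R.biUnion (fun r => P.powerset.filter (fun S => r ∈ S)),
          law P S := by
          refine sum_le_sum_of_subset_of_nonneg ?_ fun S _ _ => law_nonneg hP1
          intro S hS
          obtain ⟨r, hr, h2⟩ := h S hS
          rw [mem_biUnion]
          exact ⟨r, mem_filter.2 ⟨hE S hS hr, h2⟩, mem_filter.2 ⟨mem_powerset.2 (hE S hS), hr⟩⟩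
      _ ≤ ∑ r ∈ R, ∑ S ∈ P.powerset.filter (fun S => r ∈ S), law P S := by
          generalize R = R'
          induction R' using Finset.induction_on with
          | empty => simp
          | insert a R' ha ih =>
            rw [biUnion_insert, sum_insert ha]
            refine le_trans ?_ (add_le_add le_rfl ih)
            rw [← sum_union_inter]
            exact le_add_of_nonneg_right (sum_nonneg fun S _ => law_nonneg hP1)
      _ = ∑ r ∈ R, 1 / (r : ℝ) := sum_congr rfl fun r hr => sum_law_mem (mem_filter.1 hr).1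
  refine h1.trans ?_
  rcases R.eq_empty_or_nonempty with h0 | h0
  · rw [h0, sum_empty]
    positivity
  · have hmax := R.max'_mem h0
    set m := R.max' h0 with hm
    have h2 := (mem_filter.1 hmax).2
    have hmP := (mem_filter.1 hmax).1
    rw [← add_sum_erase R (fun r : ℕ => 1 / (r : ℝ)) hmax, add_comm]
    refine add_le_add ?_ ?_
    · refine le_trans (sum_le_sum_of_subset_of_nonneg ?_ fun q _ _ => by positivity) h2
      intro q hq
      rw [mem_erase] at hq
      rw [mem_filter]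
      exact ⟨(mem_filter.1 hq.2).1, lt_of_le_of_ne (R.le_max' q hq.2) hq.1⟩
    · exact one_div_le_one_div_of_le hy (hPy m hmP)

end Crest.Agent.R4C.NHcutx115
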