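import Crest.Agent.R4C.GWhyp_656

/-!
# Row 4, GW section, block NH (656, note 3754): the CUT-SUM lemma (helper472)

Words = finite sets `S ⊆ P` of primes, `law P S` (GWhyp_656).  `E` = a set of words with a marked
letter `pos S ∈ S` which is not the smallest one.  The marked letter is REMOVED: for the rest `S1`
and the cut after `ρ ∈ S1` (`ρ` = largest letter below) the admissible marked letters form
`cutset P E pos S1 ρ`.

* `sum_law_mem` : the natural mass of the words containing `ρ` is `1/ρ`;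
* `cut_sum` : `Σ_{p ∈ cutset S1 ρ} 1/p ≤ w ρ`  ⟹  `Σ_E law ≤ 2 Σ_{ρ ∈ P} w ρ / ρ`;
* `cut_total` : `w ρ = C ρ^(-c)`, `P ⊆ [y, ∞)`  ⟹  `Σ_E law ≤ Z C y^(-c/2)`;
* `block_sum` : loglog blocks `(X, X²]` with mass `≤ C (min τ X)^(-c)` for `X ≤ τ^B` give
  `Σ_{ρ < p ≤ τ^B} 1/p ≤ C' C ρ^(-c)` (`2 ≤ ρ ≤ τ`).
-/

set_option autoImplicit false

namespace Crest.Agent.R4C.NHcutx472

open Finset Crest.Agent.R4C.GWhx656

lemma sum_biUnion_le_of_nonneg {s : Finset ℕ} {t : ℕ → Finset ℕ} {f : ℕ → ℝ}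
    (hf : ∀ i ∈ s, ∀ x ∈ t i, 0 ≤ f x) :
    ∑ x ∈ s.biUnion t, f x ≤ ∑ i ∈ s, ∑ x ∈ t i, f x := by
  classical
  induction s using Finset.induction_on with
  | empty => simp
  | insert a s ha ih =>
    rw [biUnion_insert, sum_insert ha]
    have h1 := ih fun i hi => hf i (mem_insert_of_mem hi)
    have h2 : 0 ≤ ∑ x ∈ t a ∩ s.biUnion t, f x :=
      sum_nonneg fun x hx => hf a (mem_insert_self _ _) x (mem_inter.1 hx).1
    have h3 := sum_union_inter (s₁ := t a) (s₂ := s.biUnion t) (f := f)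
    linarith

/-- the natural mass of the words containing a given letter -/
lemma sum_law_mem {P : Finset ℕ} {ρ : ℕ} (hρ : ρ ∈ P) :
    ∑ S ∈ P.powerset with ρ ∈ S, law P S = 1 / (ρ : ℝ) := by
  classical
  set P' := P.erase ρ with hP'
  have hins : insert ρ P' = P := insert_erase hρ
  have hnot : ρ ∉ P' := notMem_erase ρ P
  have himg : P.powerset.filter (fun S => ρ ∈ S) = P'.powerset.image (insert ρ) := by
    ext S
    rw [mem_filter, mem_powerset, mem_image]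
    constructor
    · rintro ⟨h1, h2⟩
      refine ⟨S.erase ρ, mem_powerset.2 (erase_subset_erase _ h1), insert_erase h2⟩
    · rintro ⟨S', h1, rfl⟩
      rw [mem_powerset] at h1
      refine ⟨?_, mem_insert_self _ _⟩
      rw [← hins]
      exact insert_subset_insert _ h1
  rw [himg, sum_image]
  · have h1 : ∀ S' ∈ P'.powerset, law P (insert ρ S') = 1 / (ρ : ℝ) * law P' S' := by
      intro S' hS'
      rw [mem_powerset] at hS'
      have h2 : ρ ∉ S' := fun h => hnot (hS' h)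
      unfold law
      rw [prod_insert h2]
      have h3 : P \ insert ρ S' = P' \ S' := by
        ext q
        simp only [mem_sdiff, mem_insert, not_or, hP', mem_erase]
        tauto
      rw [h3]
      ring
    rw [sum_congr rfl h1, ← mul_sum, sum_law, mul_one]
  · intro S hS S' hS' h
    rw [mem_coe, mem_powerset] at hS hS'
    have h1 : ρ ∉ S := fun h => hnot (hS h)
    have h2 : ρ ∉ S' := fun h => hnot (hS' h)
    rw [← erase_insert h1, ← erase_insert h2, h]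

/-- admissible marked letters for the rest `S1` in the cut after `ρ` -/
noncomputable def cutset (P : Finset ℕ) (E : Finset (Finset ℕ)) (pos : Finset ℕ → ℕ)
    (S1 : Finset ℕ) (ρ : ℕ) : Finset ℕ := by
  classical
  exact P.filter fun p : ℕ => p ∉ S1 ∧ insert p S1 ∈ E ∧ pos (insert p S1) = p ∧ ρ < p ∧
    ∀ q ∈ S1, q < p → q ≤ ρ

lemma mem_cutset {P : Finset ℕ} {E : Finset (Finset ℕ)} {pos : Finset ℕ → ℕ} {S1 : Finset ℕ}
    {ρ p : ℕ} : p ∈ cutset P E pos S1 ρ ↔ p ∈ P ∧ p ∉ S1 ∧ insert p S1 ∈ E ∧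
      pos (insert p S1) = p ∧ ρ < p ∧ ∀ q ∈ S1, q < p → q ≤ ρ := by
  unfold cutset
  rw [mem_filter]

/-- **cut-sum lemma** (656's literal form, odds `1/(p-1)`) -/
theorem cut_sum_od {P : Finset ℕ} (hP : ∀ p ∈ P, 2 ≤ p) {E : Finset (Finset ℕ)}
    (hE : ∀ S ∈ E, S ⊆ P) {pos : Finset ℕ → ℕ} (hpos : ∀ S ∈ E, pos S ∈ S)
    (hlo : ∀ S ∈ E, ∃ ρ ∈ S, ρ < pos S) {w : ℕ → ℝ}
    (hcut : ∀ (S1 : Finset ℕ) (ρ : ℕ), S1 ⊆ P → ρ ∈ S1 →
      ∑ p ∈ cutset P E pos S1 ρ, (1 : ℝ) / ((p : ℝ) - 1) ≤ w ρ) :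
    ∑ S ∈ E, law P S ≤ ∑ ρ ∈ P, w ρ / ρ := by
  classical
  have hP1 : ∀ p ∈ P, 1 ≤ p := fun p hp => (by norm_num : 1 ≤ 2).trans (hP p hp)
  -- one rest
  have hone : ∀ S1 ∈ P.powerset, ∑ S ∈ E with S.erase (pos S) = S1, law P S ≤
      law P S1 * ∑ ρ ∈ S1, w ρ := by
    intro S1 hS1
    rw [mem_powerset] at hS1
    have h1 : ∀ S ∈ E.filter (fun S => S.erase (pos S) = S1),
        law P S = law P S1 * od (pos S) := by
      intro S hS
      rw [mem_filter] at hS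
      obtain ⟨hS, he⟩ := hS
      have h2 : pos S ∉ S1 := by rw [← he]; exact notMem_erase _ _
      have h3 : S1 ∪ {pos S} = S := by
        rw [← he, union_comm]
        exact insert_erase (hpos S hS)
      have h4 := law_union (P := P) (S := S1) (T := {pos S}) hP
        (singleton_subset_iff.2 (hE S hS (hpos S hS)))
        (disjoint_singleton_right.2 h2)
      rw [h3, prod_singleton] at h4
      exact h4
    rw [sum_congr rfl h1, ← mul_sum]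
    refine mul_le_mul_of_nonneg_left ?_ (law_nonneg hP1)
    -- the marked letters
    have hinj : Set.InjOn pos (E.filter (fun S => S.erase (pos S) = S1) : Finset (Finset ℕ)) := by
      intro S hS S' hS' h
      rw [mem_coe, mem_filter] at hS hS'
      have h2 := insert_erase (hpos S hS.1)
      have h3 := insert_erase (hpos S' hS'.1)
      rw [← h2, ← h3, hS.2, hS'.2, h]
    have h5 : ∑ S ∈ E with S.erase (pos S) = S1, od (pos S) =
        ∑ p ∈ (E.filter (fun S => S.erase (pos S) = S1)).image pos, od p :=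
      (sum_image hinj).symm
    rw [h5]
    have hsub : (E.filter (fun S => S.erase (pos S) = S1)).image pos ⊆
        S1.biUnion (fun ρ => cutset P E pos S1 ρ) := by
      intro p hp
      rw [mem_image] at hp
      obtain ⟨S, hS, rfl⟩ := hp
      rw [mem_filter] at hS
      obtain ⟨hS, he⟩ := hS
      have h2 : pos S ∉ S1 := by rw [← he]; exact notMem_erase _ _
      have h3 : insert (pos S) S1 = S := by rw [← he]; exact insert_erase (hpos S hS)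
      obtain ⟨q, hq, hq'⟩ := hlo S hS
      have hne : (S1.filter (· < pos S)).Nonempty := by
        refine ⟨q, mem_filter.2 ⟨?_, hq'⟩⟩
        rw [← he, mem_erase]
        exact ⟨hq'.ne, hq⟩
      set ρ := (S1.filter (· < pos S)).max' hne with hρ
      have hρm := (S1.filter (· < pos S)).max'_mem hne
      rw [← hρ, mem_filter] at hρm
      refine mem_biUnion.2 ⟨ρ, hρm.1, mem_cutset.2 ⟨hE S hS (hpos S hS), h2, ?_, ?_, hρm.2, ?_⟩⟩
      · rw [h3]; exact hS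
      · rw [h3]
      · intro q' hq1 hq2
        exact (S1.filter (· < pos S)).le_max' q' (mem_filter.2 ⟨hq1, hq2⟩)
    have hnn : ∀ p ∈ S1.biUnion (fun ρ => cutset P E pos S1 ρ), 0 ≤ od p := by
      intro p hp
      rw [mem_biUnion] at hp
      obtain ⟨ρ, _, hp⟩ := hp
      exact od_nonneg (hP1 p (mem_cutset.1 hp).1)
    calc ∑ p ∈ (E.filter (fun S => S.erase (pos S) = S1)).image pos, od p
        ≤ ∑ p ∈ S1.biUnion (fun ρ => cutset P E pos S1 ρ), od p :=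
          sum_le_sum_of_subset_of_nonneg hsub fun p hp _ => hnn p hp
      _ ≤ ∑ ρ ∈ S1, ∑ p ∈ cutset P E pos S1 ρ, od p := by
          refine sum_biUnion_le_of_nonneg ?_
          intro ρ _ p hp
          exact od_nonneg (hP1 p (mem_cutset.1 hp).1)
      _ ≤ ∑ ρ ∈ S1, w ρ := sum_le_sum fun ρ hρ => hcut S1 ρ hS1 hρ
  have h2 : ∀ S ∈ E, S.erase (pos S) ∈ P.powerset := fun S hS =>
    mem_powerset.2 ((erase_subset _ _).trans (hE S hS))
  rw [← sum_fiberwise_of_maps_to h2]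
  refine (sum_le_sum hone).trans (le_of_eq ?_)
  -- exchange
  have h3 : ∀ S1 ∈ P.powerset, law P S1 * ∑ ρ ∈ S1, w ρ =
      ∑ ρ ∈ P, (if ρ ∈ S1 then law P S1 * w ρ else 0) := by
    intro S1 hS1
    rw [mem_powerset] at hS1
    rw [← sum_filter]
    have h4 : P.filter (fun ρ => ρ ∈ S1) = S1 := by
      ext q
      rw [mem_filter]
      exact ⟨fun h => h.2, fun h => ⟨hS1 h, h⟩⟩
    rw [h4, ← mul_sum]
  rw [sum_congr rfl h3, sum_comm]
  refine sum_congr rfl fun ρ hρ => ?_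
  rw [← sum_filter, ← sum_mul, sum_law_mem hρ]
  ring

/-- **cut-sum lemma**, densities `1/p` -/
theorem cut_sum {P : Finset ℕ} (hP : ∀ p ∈ P, 2 ≤ p) {E : Finset (Finset ℕ)}
    (hE : ∀ S ∈ E, S ⊆ P) {pos : Finset ℕ → ℕ} (hpos : ∀ S ∈ E, pos S ∈ S)
    (hlo : ∀ S ∈ E, ∃ ρ ∈ S, ρ < pos S) {w : ℕ → ℝ}
    (hcut : ∀ (S1 : Finset ℕ) (ρ : ℕ), S1 ⊆ P → ρ ∈ S1 →
      ∑ p ∈ cutset P E pos S1 ρ, (1 : ℝ) / p ≤ w ρ) :
    ∑ S ∈ E, law P S ≤ 2 * ∑ ρ ∈ P, w ρ / ρ := by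
  have h := cut_sum_od (w := fun ρ => 2 * w ρ) hP hE hpos hlo fun S1 ρ hS1 hρ => by
    calc ∑ p ∈ cutset P E pos S1 ρ, (1 : ℝ) / ((p : ℝ) - 1)
        ≤ ∑ p ∈ cutset P E pos S1 ρ, 2 * (1 / (p : ℝ)) :=
          sum_le_sum fun p hp => od_le (hP p (mem_cutset.1 hp).1)
      _ = 2 * ∑ p ∈ cutset P E pos S1 ρ, 1 / (p : ℝ) := by rw [mul_sum]
      _ ≤ 2 * w ρ := mul_le_mul_of_nonneg_left (hcut S1 ρ hS1 hρ) zero_le_two
  refine h.trans (le_of_eq ?_)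
  rw [mul_sum]
  exact sum_congr rfl fun ρ _ => by ring

/-- tail of the sum `Σ ρ^(-1-c)` -/
lemma sum_tail {c : ℝ} (hc : 0 < c) : ∃ Z : ℝ, 0 < Z ∧ ∀ (P : Finset ℕ) (y : ℝ), 1 ≤ y →
    (∀ p ∈ P, y ≤ (p : ℝ)) → ∑ ρ ∈ P, (ρ : ℝ) ^ (-c) / ρ ≤ Z * y ^ (-(c / 2)) := by
  have hsum : Summable (fun n : ℕ => 1 / (n : ℝ) ^ (1 + c / 2)) :=
    Real.summable_one_div_nat_rpow.2 (by linarith)
  set Z : ℝ := ∑' n : ℕ, 1 / (n : ℝ) ^ (1 + c / 2) with hZ
  have hZ0 : 0 ≤ Z := tsum_nonneg fun n => by positivity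
  refine ⟨Z + 1, by linarith, fun P y hy hP => ?_⟩
  have hy0 : 0 < y := by linarith
  have h1 : ∀ ρ ∈ P, (ρ : ℝ) ^ (-c) / ρ ≤ y ^ (-(c / 2)) * (1 / (ρ : ℝ) ^ (1 + c / 2)) := by
    intro ρ hρ
    have h2 : y ≤ (ρ : ℝ) := hP ρ hρ
    have h3 : (0 : ℝ) < ρ := by linarith
    have h4 : (ρ : ℝ) ^ (-c) / ρ = (ρ : ℝ) ^ (-(c / 2)) * (1 / (ρ : ℝ) ^ (1 + c / 2)) := by
      rw [div_eq_mul_inv, ← Real.rpow_neg_one (ρ : ℝ), ← Real.rpow_add h3, one_div,
        ← Real.rpow_neg h3.le, ← Real.rpow_add h3]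
      congr 1; ring
    rw [h4]
    refine mul_le_mul_of_nonneg_right ?_ (by positivity)
    exact Real.rpow_le_rpow_of_nonpos hy0 h2 (by linarith)
  calc ∑ ρ ∈ P, (ρ : ℝ) ^ (-c) / ρ ≤ ∑ ρ ∈ P, y ^ (-(c / 2)) * (1 / (ρ : ℝ) ^ (1 + c / 2)) :=
        sum_le_sum h1
    _ = y ^ (-(c / 2)) * ∑ ρ ∈ P, 1 / (ρ : ℝ) ^ (1 + c / 2) := by rw [mul_sum]
    _ ≤ y ^ (-(c / 2)) * Z := by
        refine mul_le_mul_of_nonneg_left ?_ (Real.rpow_nonneg hy0.le _)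
        exact hsum.sum_le_tsum P fun n _ => by positivity
    _ ≤ (Z + 1) * y ^ (-(c / 2)) := by
        have := Real.rpow_nonneg hy0.le (-(c / 2))
        nlinarith

/-- **cut-sum lemma, power form** -/
theorem cut_total {c : ℝ} (hc : 0 < c) : ∃ Z : ℝ, 0 < Z ∧ ∀ (P : Finset ℕ) (y C : ℝ)
    (E : Finset (Finset ℕ)) (pos : Finset ℕ → ℕ), 2 ≤ y → 0 ≤ C → (∀ p ∈ P, y ≤ (p : ℝ)) →
    (∀ S ∈ E, S ⊆ P) → (∀ S ∈ E, pos S ∈ S) → (∀ S ∈ E, ∃ ρ ∈ S, ρ < pos S) →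
    (∀ (S1 : Finset ℕ) (ρ : ℕ), S1 ⊆ P → ρ ∈ S1 →
      ∑ p ∈ cutset P E pos S1 ρ, (1 : ℝ) / p ≤ C * (ρ : ℝ) ^ (-c)) →
    ∑ S ∈ E, law P S ≤ Z * C * y ^ (-(c / 2)) := by
  obtain ⟨Z, hZ, h⟩ := sum_tail hc
  refine ⟨2 * Z, by positivity, fun P y C E pos hy hC hP hE hpos hlo hcut => ?_⟩
  have hP2 : ∀ p ∈ P, 2 ≤ p := fun p hp => by
    have := hP p hp
    exact_mod_cast hy.trans this
  refine (cut_sum hP2 hE hpos hlo hcut).trans ?_
  have h1 : ∑ ρ ∈ P, C * (ρ : ℝ) ^ (-c) / ρ = C * ∑ ρ ∈ P, (ρ : ℝ) ^ (-c) / ρ := by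
    rw [mul_sum]
    exact sum_congr rfl fun ρ _ => by ring
  rw [h1]
  have h2 := h P y (by linarith) hP
  calc 2 * (C * ∑ ρ ∈ P, (ρ : ℝ) ^ (-c) / ρ) ≤ 2 * (C * (Z * y ^ (-(c / 2)))) := by
        refine mul_le_mul_of_nonneg_left (mul_le_mul_of_nonneg_left h2 hC) zero_le_two
    _ = _ := by ring

/-- **sum over the loglog blocks** -/
theorem block_sum {B c : ℝ} (hc : 0 < c) (hB : 1 ≤ B) : ∃ C' : ℝ, 0 < C' ∧
    ∀ (F : Finset ℕ) (ρ τ C : ℝ), 2 ≤ ρ → ρ ≤ τ → 0 ≤ C →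
    (∀ p ∈ F, ρ < (p : ℝ) ∧ (p : ℝ) ≤ τ ^ B) →
    (∀ X : ℝ, ρ ≤ X → X ≤ τ ^ B →
      ∑ p ∈ F.filter (fun p : ℕ => X < (p : ℝ) ∧ (p : ℝ) ≤ X ^ 2), (1 : ℝ) / p ≤
        C * (min τ X) ^ (-c)) →
    ∑ p ∈ F, (1 : ℝ) / p ≤ C' * C * ρ ^ (-c) := by
  -- `B ≤ 2^K`
  obtain ⟨K, hK⟩ : ∃ K : ℕ, B ≤ (2 : ℝ) ^ K := by
    obtain ⟨n, hn⟩ := pow_unbounded_of_one_lt B (by norm_num : (1 : ℝ) < 2)
    exact ⟨n, hn.le⟩
  set q0 : ℝ := (2 : ℝ) ^ (-c) with hq0
  have hq00 : 0 < q0 := Real.rpow_pos_of_pos two_pos _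
  have hq01 : q0 < 1 := by
    rw [hq0]
    exact Real.rpow_lt_one_of_one_lt_of_neg (by norm_num) (by linarith)
  refine ⟨1 / (1 - q0) + K, by
    have : 0 < 1 / (1 - q0) := one_div_pos.2 (by linarith)
    positivity, ?_⟩
  intro F ρ τ C hρ hρτ hC hF hX
  have hρ0 : 0 < ρ := by linarith
  have hτ0 : 0 < τ := by linarith
  have hρ1 : 1 < ρ := by linarith
  set q : ℝ := ρ ^ (-c) with hq
  have hq0' : 0 < q := Real.rpow_pos_of_pos hρ0 _
  have hqle : q ≤ q0 := Real.rpow_le_rpow_of_nonpos two_pos hρ (by linarith)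
  -- the number of blocks below `τ`
  have hex : ∃ n : ℕ, τ < ρ ^ (2 ^ n) := by
    obtain ⟨n, hn⟩ := pow_unbounded_of_one_lt τ hρ1
    refine ⟨n, hn.trans_le ?_⟩
    exact pow_le_pow_right₀ hρ1.le Nat.lt_two_pow_self.le
  set n := Nat.find hex with hn
  have hn1 : τ < ρ ^ (2 ^ n) := Nat.find_spec hex
  have hn2 : ∀ i < n, ρ ^ (2 ^ i) ≤ τ := fun i hi => not_lt.1 (Nat.find_min hex hi)
  have htop : τ ^ B ≤ ρ ^ (2 ^ (n + K)) := by
    have h1 : τ ^ B ≤ τ ^ ((2 : ℝ) ^ K) :=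
      Real.rpow_le_rpow_of_exponent_le (by linarith) hK
    have h2 : τ ^ ((2 : ℝ) ^ K) = τ ^ ((2 : ℕ) ^ K) := by
      rw [← Real.rpow_natCast τ (2 ^ K), Nat.cast_pow, Nat.cast_ofNat]
    rw [h2] at h1
    refine h1.trans ?_
    rw [pow_add, pow_mul]
    exact pow_le_pow_left₀ hτ0.le hn1.le _
  -- the blocks
  have hcover : F ⊆ (range (n + K)).biUnion (fun i =>
      F.filter (fun p : ℕ => ρ ^ (2 ^ i) < (p : ℝ) ∧ (p : ℝ) ≤ (ρ ^ (2 ^ i)) ^ 2)) := by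
    intro p hp
    obtain ⟨h1, h2⟩ := hF p hp
    have h3 : (p : ℝ) ≤ ρ ^ (2 ^ (n + K)) := h2.trans htop
    have hex2 : ∃ j : ℕ, (p : ℝ) ≤ ρ ^ (2 ^ j) := ⟨_, h3⟩
    set j := Nat.find hex2 with hj
    have hj1 : (p : ℝ) ≤ ρ ^ (2 ^ j) := Nat.find_spec hex2
    have hj0 : j ≠ 0 := by
      intro h0
      rw [h0, pow_zero, pow_one] at hj1
      linarith
    obtain ⟨i, hi⟩ := Nat.exists_eq_succ_of_ne_zero hj0
    have hj2 : ¬ (p : ℝ) ≤ ρ ^ (2 ^ i) := Nat.find_min hex2 (by omega)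
    have hjle : j ≤ n + K := Nat.find_min' hex2 h3
    refine mem_biUnion.2 ⟨i, mem_range.2 (by omega), mem_filter.2 ⟨hp, not_le.1 hj2, ?_⟩⟩
    rw [← pow_mul, ← pow_succ]
    rw [hi] at hj1
    exact hj1
  have hblock : ∀ i ∈ range (n + K),
      ∑ p ∈ F.filter (fun p : ℕ => ρ ^ (2 ^ i) < (p : ℝ) ∧ (p : ℝ) ≤ (ρ ^ (2 ^ i)) ^ 2),
        (1 : ℝ) / p ≤ if i < n then C * (q * q0 ^ i) else C * q := by
    intro i _
    have hle : ρ ≤ ρ ^ (2 ^ i) := by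
      calc ρ = ρ ^ 1 := (pow_one ρ).symm
        _ ≤ ρ ^ (2 ^ i) := pow_le_pow_right₀ hρ1.le Nat.one_le_two_pow
    split_ifs with hi
    · have h1 := hn2 i hi
      have h2 : ρ ^ (2 ^ i) ≤ τ ^ B :=
        h1.trans (by
          calc τ = τ ^ (1 : ℝ) := (Real.rpow_one τ).symm
            _ ≤ τ ^ B := Real.rpow_le_rpow_of_exponent_le (by linarith) hB)
      refine (hX _ hle h2).trans (mul_le_mul_of_nonneg_left ?_ hC)
      rw [min_eq_right h1]
      have h3 : (ρ ^ (2 ^ i)) ^ (-c) = q ^ (2 ^ i) := by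
        rw [hq, ← Real.rpow_natCast ρ, ← Real.rpow_mul hρ0.le, ← Real.rpow_natCast (ρ ^ (-c)),
          ← Real.rpow_mul hρ0.le]
        congr 1; ring
      rw [h3]
      have h4 : i + 1 ≤ 2 ^ i := Nat.lt_two_pow_self
      calc q ^ (2 ^ i) ≤ q ^ (i + 1) :=
            pow_le_pow_of_le_one hq0'.le (hqle.trans hq01.le) h4
        _ = q * q ^ i := by rw [pow_succ]; ring
        _ ≤ q * q0 ^ i := mul_le_mul_of_nonneg_left (pow_le_pow_left₀ hq0'.le hqle _) hq0'.le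
    · by_cases h2 : ρ ^ (2 ^ i) ≤ τ ^ B
      · refine (hX _ hle h2).trans (mul_le_mul_of_nonneg_left ?_ hC)
        refine Real.rpow_le_rpow_of_nonpos hρ0 (le_min hρτ hle) (by linarith)
      · have h3 : F.filter (fun p : ℕ => ρ ^ (2 ^ i) < (p : ℝ) ∧
            (p : ℝ) ≤ (ρ ^ (2 ^ i)) ^ 2) = ∅ := by
          rw [filter_eq_empty_iff]
          intro p hp h
          exact h2 (h.1.le.trans (hF p hp).2)
        rw [h3, sum_empty]
        positivity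
  have hsum1 : ∑ i ∈ range (n + K), (if i < n then C * (q * q0 ^ i) else C * q) ≤
      C * q * (1 / (1 - q0)) + C * q * K := by
    rw [sum_range_add]
    have h1 : ∑ x ∈ range n, (if x < n then C * (q * q0 ^ x) else C * q) =
        C * q * ∑ x ∈ range n, q0 ^ x := by
      rw [mul_sum]
      refine sum_congr rfl fun x hx => ?_
      rw [if_pos (mem_range.1 hx)]
      ring
    have h2 : ∑ x ∈ range K, (if n + x < n then C * (q * q0 ^ (n + x)) else C * q) =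
        C * q * K := by
      rw [sum_congr rfl (fun x _ => if_neg (by omega)), sum_const, card_range, nsmul_eq_mul]
      ring
    rw [h1, h2]
    have h3 : ∑ x ∈ range n, q0 ^ x ≤ 1 / (1 - q0) := by
      have h4 : (∑ x ∈ range n, q0 ^ x) * (1 - q0) ≤ 1 := by
        have h5 := geom_sum_mul_neg q0 n
        rw [h5]
        have := pow_nonneg hq00.le n
        linarith
      rw [le_div_iff₀ (by linarith)]
      exact h4
    have h6 : 0 ≤ C * q := mul_nonneg hC hq0'.le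
    have := mul_le_mul_of_nonneg_left h3 h6
    linarith
  calc ∑ p ∈ F, (1 : ℝ) / p
      ≤ ∑ p ∈ (range (n + K)).biUnion (fun i =>
        F.filter (fun p : ℕ => ρ ^ (2 ^ i) < (p : ℝ) ∧ (p : ℝ) ≤ (ρ ^ (2 ^ i)) ^ 2)),
        (1 : ℝ) / p := sum_le_sum_of_subset_of_nonneg hcover fun p _ _ => by positivity
    _ ≤ ∑ i ∈ range (n + K),
        ∑ p ∈ F.filter (fun p : ℕ => ρ ^ (2 ^ i) < (p : ℝ) ∧ (p : ℝ) ≤ (ρ ^ (2 ^ i)) ^ 2),
        (1 : ℝ) / p := sum_biUnion_le_of_nonneg fun _ _ p _ => by positivity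
    _ ≤ ∑ i ∈ range (n + K), (if i < n then C * (q * q0 ^ i) else C * q) := sum_le_sum hblock
    _ ≤ C * q * (1 / (1 - q0)) + C * q * K := hsum1
    _ = (1 / (1 - q0) + K) * C * q := by ring

end Crest.Agent.R4C.NHcutx472
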