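import Crest.Agent.R4C.BoostC_972

/-!
# Row 4, S7: near pairs, average over the offsets (helper972)

* `period_avg`  : CRT, `∑_{i < ∏ p} ∏_p F_p (a+i) = ∏_p ∑_{j < p} F_p j` for `p`-periodic `F_p`;
* `fac_avg_h`   : the average of `fac` over a period of the offset is `base`, for ANY labels;
* `EnA_near`    : `EnA q q' ≤ (φφ'/lcm) (4 ρ lcm + 1 + ∏_{p ∈ S} p) K`, `K` = sup over the offsets
  unkilled outside `S` of the boost outside `S`;
* `near_pairs_avg` : near pairs cost `10 K m²` when only the primes `> z(v)`, `4^{z(v)} ≤ 4 ρ lcm`,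
  are counted in the boost;
* `prod_pf_gt_le`, `prod_pf_le_exp` : boosts of large primes;
* `boostOut_eq`, `prod_setD_out_le` (B1), `prod_setN_out_le` (B3): labels given by centres.
-/

set_option autoImplicit false

namespace Crest.Agent.R4C.NearAvgx972

open Crest.Agent.R4C.CrCountx935 Crest.Agent.R4C.CrCoinx935 Crest.Agent.R4C.BoostCx972

/-! ### periodic functions -/

lemma per_mul {n : ℕ} {F : ℤ → ℝ} (hF : ∀ h, F (h + n) = F h) (k : ℤ) :
    ∀ h, F (h + n * k) = F h := by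
  induction k using Int.induction_on with
  | zero => intro h; simp
  | succ k ih => intro h; rw [mul_add, mul_one, ← add_assoc, hF, ih]
  | pred k ih =>
    intro h
    have h1 := hF (h + n * (-(k : ℤ) - 1))
    rw [← h1]
    have e : h + (n : ℤ) * (-(k : ℤ) - 1) + n = h + n * (-(k : ℤ)) := by ring
    rw [e, ih]

lemma per_cast {n : ℕ} {F : ℤ → ℝ} (hn : 0 < n) (hF : ∀ h, F (h + n) = F h) (h : ℤ) :
    F h = F (((h : ZMod n).val : ℕ) : ℤ) := by
  have : NeZero n := ⟨hn.ne'⟩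
  have e : ((((h : ZMod n).val : ℕ) : ℤ)) = h % n := ZMod.val_intCast h
  rw [e]
  conv_lhs => rw [← Int.emod_add_mul_ediv h n]
  exact per_mul hF _ _

lemma sum_range_zmod {n : ℕ} [NeZero n] (G : ℕ → ℝ) :
    ∑ i ∈ Finset.range n, G i = ∑ z : ZMod n, G z.val := by
  obtain ⟨k, rfl⟩ := Nat.exists_eq_succ_of_ne_zero (NeZero.ne n)
  exact Finset.sum_range G

lemma per_shift {n : ℕ} {F : ℤ → ℝ} (hF : ∀ h, F (h + n) = F h) (a : ℤ) :
    ∑ i ∈ Finset.range n, F (a + i) = ∑ i ∈ Finset.range n, F i := by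
  rcases Nat.eq_zero_or_pos n with rfl | hn
  · simp
  have : NeZero n := ⟨hn.ne'⟩
  rw [sum_range_zmod (fun i : ℕ => F (a + i)), sum_range_zmod (fun i : ℕ => F (i : ℤ))]
  have e1 : ∀ z : ZMod n, F (a + (z.val : ℕ)) = F ((((a : ZMod n) + z).val : ℕ) : ℤ) := by
    intro z
    rw [per_cast hn hF (a + (z.val : ℕ))]
    congr 3
    push_cast
    rw [ZMod.natCast_zmod_val]
  rw [Finset.sum_congr rfl fun z _ => e1 z]
  exact Equiv.sum_comp (Equiv.addLeft (a : ZMod n)) fun z : ZMod n => F ((z.val : ℕ) : ℤ)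

lemma crt_two {m n : ℕ} (hm : 0 < m) (hn : 0 < n) (hc : Nat.Coprime m n) {A B : ℤ → ℝ}
    (hA : ∀ h, A (h + m) = A h) (hB : ∀ h, B (h + n) = B h) :
    ∑ i ∈ Finset.range (m * n), A i * B i =
      (∑ i ∈ Finset.range m, A i) * ∑ i ∈ Finset.range n, B i := by
  have : NeZero m := ⟨hm.ne'⟩
  have : NeZero n := ⟨hn.ne'⟩
  have : NeZero (m * n) := ⟨by positivity⟩
  rw [sum_range_zmod (fun i : ℕ => A (i : ℤ) * B (i : ℤ)), sum_range_zmod (fun i : ℕ => A (i : ℤ)),
    sum_range_zmod (fun i : ℕ => B (i : ℤ)), Finset.sum_mul_sum, ← Fintype.sum_prod_type']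
  set e := ZMod.chineseRemainder hc with he
  rw [← Equiv.sum_comp e.toEquiv]
  refine Finset.sum_congr rfl fun z _ => ?_
  have h1 : e z = (((z.val : ℕ) : ZMod m), ((z.val : ℕ) : ZMod n)) := by
    conv_lhs => rw [← ZMod.natCast_zmod_val z]
    rw [map_natCast]
    rfl
  have h2 : e.toEquiv z = (((z.val : ℕ) : ZMod m), ((z.val : ℕ) : ZMod n)) := h1
  rw [h2]
  have h3 := per_cast hm hA ((z.val : ℕ) : ℤ)
  have h4 := per_cast hn hB ((z.val : ℕ) : ℤ)
  rw [Int.cast_natCast] at h3 h4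
  rw [h3, h4]

/-- **CRT average** -/
theorem period_avg (S : Finset ℕ) (hS : ∀ p ∈ S, p.Prime) (F : ℕ → ℤ → ℝ)
    (hF : ∀ p ∈ S, ∀ h, F p (h + p) = F p h) (a : ℤ) :
    ∑ i ∈ Finset.range (∏ p ∈ S, p), ∏ p ∈ S, F p (a + i) =
      ∏ p ∈ S, ∑ j ∈ Finset.range p, F p j := by
  classical
  have hper : ∀ T : Finset ℕ, T ⊆ S → ∀ h : ℤ,
      ∏ p ∈ T, F p (h + ((∏ p ∈ T, p : ℕ) : ℤ)) = ∏ p ∈ T, F p h := by
    intro T hT h
    refine Finset.prod_congr rfl fun p hp => ?_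
    obtain ⟨c, hc⟩ := Finset.dvd_prod_of_mem (fun p : ℕ => p) hp
    have e : ((∏ p ∈ T, p : ℕ) : ℤ) = (p : ℤ) * c := by exact_mod_cast hc
    rw [e]
    exact per_mul (hF p (hT hp)) c h
  rw [per_shift (F := fun h => ∏ p ∈ S, F p h) (hper S subset_rfl) a]
  have key : ∀ T : Finset ℕ, T ⊆ S → ∑ i ∈ Finset.range (∏ p ∈ T, p), ∏ p ∈ T, F p (i : ℤ) =
      ∏ p ∈ T, ∑ j ∈ Finset.range p, F p j := by
    intro T
    induction T using Finset.induction_on with
    | empty => intro _; simp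
    | insert r T hr ih =>
      intro hT
      have hT' : T ⊆ S := (Finset.subset_insert _ _).trans hT
      have hrS : r ∈ S := hT (Finset.mem_insert_self _ _)
      rw [Finset.prod_insert hr, Finset.prod_insert hr, ← ih hT']
      rw [← crt_two (A := F r) (B := fun h => ∏ p ∈ T, F p h) (hS r hrS).pos
        (Finset.prod_pos fun p hp => (hS p (hT' hp)).pos) ?_ (hF r hrS) (hper T hT')]
      · refine Finset.sum_congr rfl fun i _ => ?_
        rw [Finset.prod_insert hr]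
      · refine Nat.Coprime.prod_right fun p hp => ?_
        exact (Nat.coprime_primes (hS r hrS) (hS p (hT' hp))).2 fun hc => hr (hc ▸ hp)
  exact key S subset_rfl

/-- sum of a nonnegative `W`-periodic function over a set inside an interval of length `ℓ` -/
lemma sum_le_period {W : ℕ} (hW : 0 < W) {G : ℤ → ℝ} (hG0 : ∀ h, 0 ≤ G h)
    (hG : ∀ h, G (h + W) = G h) {I : Finset ℤ} {a : ℤ} {l : ℕ} (hI : I ⊆ Finset.Ico a (a + l)) :
    ∑ h ∈ I, G h ≤ ((l / W + 1 : ℕ) : ℝ) * ∑ i ∈ Finset.range W, G i := by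
  classical
  have hk : ∀ k : ℕ, ∑ i ∈ Finset.range (k * W), G (a + i) =
      (k : ℝ) * ∑ i ∈ Finset.range W, G i := by
    intro k
    induction k with
    | zero => simp
    | succ k ih =>
      rw [Nat.succ_mul, Finset.sum_range_add, ih]
      have e : ∀ i ∈ Finset.range W, G (a + ((k * W + i : ℕ) : ℤ)) =
          G ((a + (k * W : ℕ)) + (i : ℤ)) := by
        intro i _
        congr 1
        push_cast
        ring
      rw [Finset.sum_congr rfl e, per_shift hG]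
      push_cast
      ring
  rw [← hk]
  have hinj : Set.InjOn (fun i : ℕ => a + (i : ℤ)) (Finset.range ((l / W + 1) * W)) := by
    intro i _ j _ hij
    simpa using hij
  rw [← Finset.sum_image (f := G) hinj]
  refine Finset.sum_le_sum_of_subset_of_nonneg ?_ fun _ _ _ => hG0 _
  intro h hh
  have h1 := Finset.mem_Ico.1 (hI hh)
  rw [Finset.mem_image]
  refine ⟨(h - a).toNat, ?_, ?_⟩
  · rw [Finset.mem_range]
    have h2 : (h - a).toNat < l := by omega
    have h3 := Nat.lt_div_mul_add (a := l) hW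
    calc (h - a).toNat < l := h2
      _ ≤ (l / W + 1) * W := by rw [Nat.succ_mul]; exact h3.le
  · have h2 : ((h - a).toNat : ℤ) = h - a := Int.toNat_of_nonneg (by omega)
    rw [h2]
    ring

/-! ### the average of `fac` over the offset -/

lemma avg_h {p : ℕ} (hp : p.Prime) (c : ℤ) (x y : ℝ) :
    ∑ a ∈ Finset.range p, (open Classical in if (p : ℤ) ∣ (a : ℤ) - c then x else y) =
      x + (p - 1) * y := by
  classical
  have h1 : ¬ (p : ℤ) ∣ 1 := by
    intro h
    have := Int.natCast_dvd_natCast.1 (by simpa using h : (p : ℤ) ∣ ((1 : ℕ) : ℤ))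
    exact hp.one_lt.ne' (Nat.dvd_one.1 this)
  rw [← avg_ite hp h1 c x y]
  refine Finset.sum_congr rfl fun a _ => ?_
  have e : (p : ℤ) ∣ (a : ℤ) - c ↔ (p : ℤ) ∣ c - 1 * (a : ℤ) := by
    rw [one_mul, ← dvd_neg, neg_sub]
  by_cases h2 : (p : ℤ) ∣ (a : ℤ) - c
  · rw [if_pos h2, if_pos (e.1 h2)]
  · rw [if_neg h2, if_neg fun h3 => h2 (e.2 h3)]

lemma surv_per (p : ℕ) (u : ℤ) (α : Option ℤ) (h : ℤ) :
    surv p u (h + p) α = surv p u h α := by
  classical
  cases α with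
  | none => rfl
  | some a =>
    unfold surv
    have e : (p : ℤ) ∣ h + p - u * a ↔ (p : ℤ) ∣ h - u * a := by
      have e1 : h + (p : ℤ) - u * a = (h - u * a) + p := by ring
      rw [e1, dvd_add_self_right]
    simp only [e]

lemma comm_per (p : ℕ) (u v : ℤ) (α β : Option ℤ) (h : ℤ) :
    CrCoinx935.comm p u v (h + p) α β = CrCoinx935.comm p u v h α β := by
  classical
  cases α with
  | none => cases β <;> rfl
  | some a =>
    cases β with
    | none => rfl
    | some b =>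
      unfold CrCoinx935.comm
      have e : (p : ℤ) ∣ h + p - u * a + v * b ↔ (p : ℤ) ∣ h - u * a + v * b := by
        have e1 : h + (p : ℤ) - u * a + v * b = (h - u * a + v * b) + p := by ring
        rw [e1, dvd_add_self_right]
      simp only [e]

lemma fac_per (g s s' p : ℕ) (α β : Option ℤ) (h : ℤ) :
    fac g s s' (h + p) p α β = fac g s s' h p α β := by
  unfold fac
  rw [surv_per, surv_per, comm_per]

lemma surv_avg_h {p : ℕ} (hp : p.Prime) (u : ℤ) (α : Option ℤ) :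
    ∑ h ∈ Finset.range p, surv p u (h : ℤ) α = p * (1 - 1 / (p : ℝ)) := by
  have hp0 : (p : ℝ) ≠ 0 := by exact_mod_cast hp.ne_zero
  cases α with
  | none => simp only [surv, Finset.sum_const, Finset.card_range, nsmul_eq_mul]
  | some a =>
    simp only [surv]
    rw [avg_h hp (u * a) 0 1]
    field_simp
    ring

lemma comm_avg_h {p : ℕ} (hp : p.Prime) (u v : ℤ) (α β : Option ℤ) :
    ∑ h ∈ Finset.range p, CrCoinx935.comm p u v (h : ℤ) α β = p * ((1 - 1 / (p : ℝ)) * (1 - 1 / (p : ℝ))) := by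
  classical
  have hp0 : (p : ℝ) ≠ 0 := by exact_mod_cast hp.ne_zero
  cases α with
  | none =>
    cases β <;> simp only [CrCoinx935.comm, Finset.sum_const, Finset.card_range, nsmul_eq_mul, sq]
  | some a =>
    cases β with
    | none => simp only [CrCoinx935.comm, Finset.sum_const, Finset.card_range, nsmul_eq_mul, sq]
    | some b =>
      have e : ∀ h ∈ Finset.range p, CrCoinx935.comm p u v (h : ℤ) (some a) (some b) =
          (if (p : ℤ) ∣ (h : ℤ) - (u * a - v * b) then (1 - 1 / (p : ℝ)) else (1 - 2 / (p : ℝ))) := by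
        intro h _
        have e1 : (h : ℤ) - u * a + v * b = (h : ℤ) - (u * a - v * b) := by ring
        simp only [CrCoinx935.comm, e1]
        split_ifs <;> rfl
      rw [Finset.sum_congr rfl e, avg_h hp]
      field_simp
      ring

/-- **the average of `fac` over a period of the offset is `base`** -/
theorem fac_avg_h {p g s s' : ℕ} (hp : p.Prime) (hcop : Nat.Coprime s s')
    (hpd : p ∣ g ∨ p ∣ s ∨ p ∣ s') (α β : Option ℤ) :
    ∑ h ∈ Finset.range p, fac g s s' (h : ℤ) p α β = p * base (g * s') (g * s) p := by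
  have hnot : p ∣ s → ¬ p ∣ s' := by
    intro h1 h2
    have := Nat.dvd_gcd h1 h2
    rw [hcop.gcd_eq_one] at this
    exact hp.one_lt.ne' (Nat.dvd_one.1 this)
  have hd1 : p ∣ g * s' ↔ p ∣ g ∨ p ∣ s' := hp.dvd_mul
  have hd2 : p ∣ g * s ↔ p ∣ g ∨ p ∣ s := hp.dvd_mul
  unfold fac base
  by_cases h1 : p ∣ s'
  · have h2 : ¬ p ∣ s := fun hc => hnot hc h1
    simp only [h1, h2, hd1, hd2, if_true, or_true, or_false]
    rw [← Finset.sum_mul, surv_avg_h hp]
    ring
  · by_cases h2 : p ∣ s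
    · simp only [h1, h2, hd1, hd2, if_true, if_false, or_true, or_false]
      rw [← Finset.sum_mul, surv_avg_h hp]
      ring
    · have hg : p ∣ g := by tauto
      simp only [h1, h2, hg, hd1, hd2, if_true, if_false, true_or]
      exact comm_avg_h hp _ _ _ _

/-! ### near pairs -/

/-- offset killed by a label at a prime outside `S` -/
def killedOut (lam : ℕ → ℕ → Option ℤ) (q q' s s' : ℕ) (S : Finset ℕ) (h : ℤ) : Prop :=
  (∃ p : ℕ, p.Prime ∧ p ∉ S ∧ p ∣ s' ∧ ∃ a, lam q p = some a ∧ (p : ℤ) ∣ h - s * a) ∨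
  (∃ p : ℕ, p.Prime ∧ p ∉ S ∧ p ∣ s ∧ ∃ b, lam q' p = some b ∧ (p : ℤ) ∣ h + s' * b)

lemma killedOut.killed {lam : ℕ → ℕ → Option ℤ} {q q' s s' : ℕ} {S : Finset ℕ} {h : ℤ}
    (hk : killedOut lam q q' s s' S h) : killedL lam q q' s s' h := by
  rcases hk with ⟨p, hp, _, h1, a, h2, h3⟩ | ⟨p, hp, _, h1, a, h2, h3⟩
  · exact Or.inl ⟨p, hp, h1, a, h2, h3⟩
  · exact Or.inr ⟨p, hp, h1, a, h2, h3⟩

open Classical in
/-- boost of the primes outside `S` -/
noncomputable def boostOut (lam : ℕ → ℕ → Option ℤ) (q q' s s' : ℕ) (S : Finset ℕ) (h : ℤ) : ℝ :=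
  ∏ p ∈ (q * q').primeFactors \ S, (if charged lam q q' s s' h p then (1 - 1 / (p : ℝ))⁻¹ else 1)

lemma boostOut_nonneg (lam : ℕ → ℕ → Option ℤ) (q q' s s' : ℕ) (S : Finset ℕ) (h : ℤ) :
    0 ≤ boostOut lam q q' s s' S h := by
  classical
  refine Finset.prod_nonneg fun p hp => ?_
  have := one_sub_inv_pos (Nat.prime_of_mem_primeFactors (Finset.mem_sdiff.1 hp).1)
  split_ifs <;> positivity

open Classical in
lemma term_le_out {lam : ℕ → ℕ → Option ℤ} {g s s' : ℕ} (hg : 0 < g) (hs : 0 < s) (hs' : 0 < s')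
    (hcop : Nat.Coprime s s') (S : Finset ℕ) (h : ℤ) :
    ∏ p ∈ ((g * s') * (g * s)).primeFactors \ S,
      fac g s s' h p (lam (g * s') p) (lam (g * s) p) ≤
    (if killedOut lam (g * s') (g * s) s s' S h then (0 : ℝ) else
      (∏ p ∈ ((g * s') * (g * s)).primeFactors \ S, base (g * s') (g * s) p) *
        boostOut lam (g * s') (g * s) s s' S h) := by
  have hN : (g * s') * (g * s) ≠ 0 := by positivity
  have hnot : ∀ p, p.Prime → p ∣ s → ¬ p ∣ s' := by
    intro p hp h1 h2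
    have := Nat.dvd_gcd h1 h2
    rw [hcop.gcd_eq_one] at this
    exact hp.one_lt.ne' (Nat.dvd_one.1 this)
  split_ifs with hk
  · refine le_of_eq ?_
    rcases hk with ⟨p, hp, hpS, hd, a, ha, hda⟩ | ⟨p, hp, hpS, hd, b, hb, hdb⟩
    · refine Finset.prod_eq_zero (Finset.mem_sdiff.2 ⟨Nat.mem_primeFactors.2 ⟨hp,
        dvd_mul_of_dvd_left (dvd_mul_of_dvd_right hd _) _, hN⟩, hpS⟩) ?_
      unfold fac
      rw [if_pos hd, ha]
      simp only [surv, if_pos hda, zero_mul]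
    · refine Finset.prod_eq_zero (Finset.mem_sdiff.2 ⟨Nat.mem_primeFactors.2 ⟨hp,
        dvd_mul_of_dvd_right (dvd_mul_of_dvd_right hd _) _, hN⟩, hpS⟩) ?_
      unfold fac
      rw [if_neg (hnot p hp hd), if_pos hd, hb]
      have hd' : (p : ℤ) ∣ h - -(s' : ℤ) * b := by
        have e : h - -(s' : ℤ) * b = h + s' * b := by ring
        rw [e]; exact hdb
      simp only [surv, if_pos hd', zero_mul]
  · have hpr : ∀ p ∈ ((g * s') * (g * s)).primeFactors \ S, p.Prime ∧ (p ∣ g ∨ p ∣ s ∨ p ∣ s') := by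
      intro p hp
      have hp' := (Finset.mem_sdiff.1 hp).1
      have h1 := Nat.prime_of_mem_primeFactors hp'
      refine ⟨h1, ?_⟩
      rcases (h1.dvd_mul).1 (Nat.dvd_of_mem_primeFactors hp') with h3 | h3 <;>
        rcases (h1.dvd_mul).1 h3 with h4 | h4 <;> tauto
    calc ∏ p ∈ ((g * s') * (g * s)).primeFactors \ S,
          fac g s s' h p (lam (g * s') p) (lam (g * s) p)
        ≤ ∏ p ∈ ((g * s') * (g * s)).primeFactors \ S, (base (g * s') (g * s) p *
          (if charged lam (g * s') (g * s) s s' h p then (1 - 1 / (p : ℝ))⁻¹ else 1)) :=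
          Finset.prod_le_prod (fun p hp => fac_nonneg (hpr p hp).1 _ _ _)
            fun p hp => fac_le hcop h (hpr p hp).1 (hpr p hp).2
      _ = _ := by
          rw [Finset.prod_mul_distrib]
          rfl

lemma Hf_subset_Ico {γ Δ : ℝ} (hΔ : 0 ≤ Δ) (s s' : ℕ) : ∃ (a : ℤ) (l : ℕ),
    Hf γ Δ s s' ⊆ Finset.Ico a (a + l) ∧ (l : ℝ) ≤ 2 * Δ + 1 := by
  set x := -(((s : ℝ) - s') * γ) with hx
  have h0 : 0 ≤ ⌊2 * Δ⌋ := Int.floor_nonneg.2 (by linarith)
  refine ⟨⌈x - Δ⌉, (⌊2 * Δ⌋ + 1).toNat, ?_, ?_⟩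
  · have e : (((⌊2 * Δ⌋ + 1).toNat : ℕ) : ℤ) = ⌊2 * Δ⌋ + 1 := Int.toNat_of_nonneg (by omega)
    rw [e]
    intro h hh
    rw [mem_Hf, abs_lt] at hh
    rw [Finset.mem_Ico, Int.ceil_le]
    refine ⟨by linarith [hh.1], ?_⟩
    have h1 : (h : ℝ) < x + Δ := by linarith [hh.2]
    have h2 : (h : ℝ) - ⌈x - Δ⌉ < 2 * Δ := by
      have := Int.le_ceil (x - Δ)
      linarith
    have h3 : h - ⌈x - Δ⌉ ≤ ⌊2 * Δ⌋ := by
      rw [Int.le_floor]
      push_cast
      exact h2.le
    omega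
  · have e : (((⌊2 * Δ⌋ + 1).toNat : ℕ) : ℝ) = ⌊2 * Δ⌋ + 1 := by
      have : (((⌊2 * Δ⌋ + 1).toNat : ℕ) : ℤ) = ⌊2 * Δ⌋ + 1 := Int.toNat_of_nonneg (by omega)
      exact_mod_cast this
    rw [e]
    have := Int.floor_le (2 * Δ)
    linarith

/-- **near pairs, average over the offsets** -/
theorem EnA_near {γ ρ K : ℝ} (hρ : 0 ≤ ρ) (hK0 : 0 ≤ K) {lam : ℕ → ℕ → Option ℤ} {q q' : ℕ}
    (hq : 0 < q) (hq' : 0 < q') {S : Finset ℕ} (hS : S ⊆ (q * q').primeFactors)
    (hK : ∀ h, ¬ killedOut lam q q' (q' / Nat.gcd q q') (q / Nat.gcd q q') S h →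
      boostOut lam q q' (q' / Nat.gcd q q') (q / Nat.gcd q q') S h ≤ K) :
    EnA γ ρ lam q q' ≤ (Nat.totient q * Nat.totient q' / (Nat.lcm q q' : ℕ)) *
      ((4 * ρ * (Nat.lcm q q' : ℕ) + 1 + (∏ p ∈ S, p : ℕ)) * K) := by
  classical
  set g := Nat.gcd q q' with hg
  have hg0 : 0 < g := Nat.gcd_pos_of_pos_left _ hq
  have e1 : g * (q / g) = q := Nat.mul_div_cancel' (Nat.gcd_dvd_left _ _)
  have e2 : g * (q' / g) = q' := Nat.mul_div_cancel' (Nat.gcd_dvd_right _ _)
  set s := q' / g with hsdef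
  set s' := q / g with hs'def
  have hs : 0 < s := Nat.div_pos (Nat.le_of_dvd hq' (Nat.gcd_dvd_right _ _)) hg0
  have hs' : 0 < s' := Nat.div_pos (Nat.le_of_dvd hq (Nat.gcd_dvd_left _ _)) hg0
  have hcop : Nat.Coprime s s' := cop_div hq
  have hl : (g : ℝ) * (Nat.lcm q q' : ℕ) = q * q' := by
    have := Nat.gcd_mul_lcm q q'
    rw [← hg] at this
    exact_mod_cast this
  have hq0 : (0 : ℝ) < q := by exact_mod_cast hq
  have hq0' : (0 : ℝ) < q' := by exact_mod_cast hq'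
  have hlcm : (0 : ℝ) < (Nat.lcm q q' : ℕ) := by exact_mod_cast Nat.lcm_pos hq hq'
  have hSp : ∀ p ∈ S, p.Prime := fun p hp => Nat.prime_of_mem_primeFactors (hS hp)
  have hSd : ∀ p ∈ S, p ∣ g ∨ p ∣ s ∨ p ∣ s' := by
    intro p hp
    have h1 := hSp p hp
    have h2 := Nat.dvd_of_mem_primeFactors (hS hp)
    rw [← e1, ← e2] at h2
    rcases (h1.dvd_mul).1 h2 with h3 | h3 <;> rcases (h1.dvd_mul).1 h3 with h4 | h4 <;> tauto
  set PF := (q * q').primeFactors with hPF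
  set BO := ∏ p ∈ PF \ S, base q q' p with hBO
  have hBO0 : 0 ≤ BO := Finset.prod_nonneg fun p hp =>
    (base_pos (Nat.prime_of_mem_primeFactors (Finset.mem_sdiff.1 hp).1)).le
  set G : ℤ → ℝ := fun h => ∏ p ∈ S, fac g s s' h p (lam q p) (lam q' p) with hG
  have hG0 : ∀ h, 0 ≤ G h := fun h => Finset.prod_nonneg fun p hp => fac_nonneg (hSp p hp) _ _ _
  have hout : ∀ h, ∏ p ∈ PF \ S, fac g s s' h p (lam q p) (lam q' p) ≤ BO * K := by
    intro h
    have h1 := term_le_out (lam := lam) hg0 hs hs' hcop S h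
    rw [e1, e2] at h1
    refine h1.trans ?_
    split_ifs with hk
    · exact mul_nonneg hBO0 hK0
    · exact mul_le_mul_of_nonneg_left (hK h hk) hBO0
  obtain ⟨a, l, hI, hl1⟩ := Hf_subset_Ico (γ := γ) (Δ := 2 * ρ * (Nat.lcm q q' : ℕ))
    (by positivity) s s'
  set W := ∏ p ∈ S, p with hW
  have hW0 : 0 < W := Finset.prod_pos fun p hp => (hSp p hp).pos
  have hGper : ∀ h, G (h + W) = G h := by
    intro h
    refine Finset.prod_congr rfl fun p hp => ?_
    obtain ⟨c, hc⟩ := Finset.dvd_prod_of_mem (fun p : ℕ => p) hp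
    have e : (W : ℤ) = (p : ℤ) * c := by exact_mod_cast hc
    rw [e]
    exact per_mul (F := fun h => fac g s s' h p (lam q p) (lam q' p))
      (fac_per g s s' p (lam q p) (lam q' p)) c h
  have hper := period_avg S hSp (fun p h => fac g s s' h p (lam q p) (lam q' p))
    (fun p _ h => fac_per g s s' p _ _ h) 0
  simp only [zero_add] at hper
  have hsum : ∑ i ∈ Finset.range W, G i = W * ∏ p ∈ S, base q q' p := by
    rw [hG]
    simp only
    rw [hper, hW]
    push_cast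
    rw [← Finset.prod_mul_distrib]
    refine Finset.prod_congr rfl fun p hp => ?_
    have := fac_avg_h (hSp p hp) hcop (hSd p hp) (lam q p) (lam q' p)
    rw [e1, e2] at this
    exact this
  have hIsum := sum_le_period hW0 hG0 hGper hI
  rw [hsum] at hIsum
  have hBS0 : 0 ≤ ∏ p ∈ S, base q q' p := Finset.prod_nonneg fun p hp => (base_pos (hSp p hp)).le
  have hlW : ((l / W + 1 : ℕ) : ℝ) * (W * ∏ p ∈ S, base q q' p) ≤
      (4 * ρ * (Nat.lcm q q' : ℕ) + 1 + W) * ∏ p ∈ S, base q q' p := by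
    rw [← mul_assoc]
    refine mul_le_mul_of_nonneg_right ?_ hBS0
    have h1 : l / W * W ≤ l := Nat.div_mul_le_self l W
    have h2 : (((l / W : ℕ) : ℝ) * W) ≤ l := by exact_mod_cast h1
    push_cast
    linarith
  have hsplit : ∀ h, ∏ p ∈ PF, fac g s s' h p (lam q p) (lam q' p) =
      G h * ∏ p ∈ PF \ S, fac g s s' h p (lam q p) (lam q' p) := by
    intro h
    rw [hG]
    simp only
    rw [mul_comm, Finset.prod_sdiff hS]
  have hbase : BO * ∏ p ∈ S, base q q' p = (Nat.totient q / q) * (Nat.totient q' / q') := by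
    rw [hBO, Finset.prod_sdiff hS, prod_base hq hq']
  unfold EnA
  rw [← hg]
  calc ∑ h ∈ Hf γ (2 * ρ * (Nat.lcm q q' : ℕ)) s s', (g : ℝ) *
        ∏ p ∈ PF, fac g s s' h p (lam q p) (lam q' p)
      ≤ ∑ h ∈ Hf γ (2 * ρ * (Nat.lcm q q' : ℕ)) s s', (g : ℝ) * (G h * (BO * K)) := by
        refine Finset.sum_le_sum fun h _ => mul_le_mul_of_nonneg_left ?_ (Nat.cast_nonneg g)
        rw [hsplit h]
        exact mul_le_mul_of_nonneg_left (hout h) (hG0 h)
    _ = (g : ℝ) * (BO * K) * ∑ h ∈ Hf γ (2 * ρ * (Nat.lcm q q' : ℕ)) s s', G h := by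
        rw [Finset.mul_sum]
        refine Finset.sum_congr rfl fun h _ => ?_
        ring
    _ ≤ (g : ℝ) * (BO * K) * ((4 * ρ * (Nat.lcm q q' : ℕ) + 1 + W) * ∏ p ∈ S, base q q' p) :=
        mul_le_mul_of_nonneg_left (hIsum.trans hlW)
          (mul_nonneg (Nat.cast_nonneg g) (mul_nonneg hBO0 hK0))
    _ = (g : ℝ) * (BO * ∏ p ∈ S, base q q' p) * ((4 * ρ * (Nat.lcm q q' : ℕ) + 1 + W) * K) := by
        ring
    _ = _ := by
        rw [hbase]
        congr 1
        rw [eq_div_iff hlcm.ne']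
        have e3 : (g : ℝ) * (Nat.totient q / q * (Nat.totient q' / q')) * (Nat.lcm q q' : ℕ) =
            (g * (Nat.lcm q q' : ℕ)) * (Nat.totient q * Nat.totient q') / (q * q') := by
          field_simp
        rw [e3, hl]
        field_simp

/-- the small primes of a pair -/
def smallP (q q' z : ℕ) : Finset ℕ := (q * q').primeFactors.filter (· ≤ z)

lemma prod_smallP_le (q q' z : ℕ) : ∏ p ∈ smallP q q' z, p ≤ 4 ^ z := by
  classical
  refine le_trans ?_ (primorial_le_four_pow z)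
  unfold primorial smallP
  refine Finset.prod_le_prod_of_subset_of_one_le' ?_ ?_
  · intro p hp
    rw [Finset.mem_filter] at hp ⊢
    have h1 := Nat.prime_of_mem_primeFactors hp.1
    exact ⟨Finset.mem_range.2 (by omega), h1⟩
  · intro p hp _
    rw [Finset.mem_filter] at hp
    exact hp.2.pos

/-- **near pairs cost `10 K m²`**, `K` = bound of the boosts of the primes `> z` over the offsets
unkilled by primes `> z`, where `4^z ≤ 4 ρ lcm` -/
theorem near_pairs_avg {γ ρ K : ℝ} (hρ : 0 < ρ) (hK0 : 0 ≤ K) {lam : ℕ → ℕ → Option ℤ}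
    {Q : Finset ℕ} (hQ : ∀ q ∈ Q, 0 < q) (N : Finset (ℕ × ℕ)) (hN : N ⊆ Q ×ˢ Q)
    (z : ℕ × ℕ → ℕ) (hz : ∀ v ∈ N, (4 : ℝ) ^ z v ≤ 4 * ρ * (Nat.lcm v.1 v.2 : ℕ))
    (hnear : ∀ v ∈ N, 1 ≤ 2 * ρ * (Nat.lcm v.1 v.2 : ℕ))
    (hK : ∀ v ∈ N, ∀ h, ¬ killedOut lam v.1 v.2 (v.2 / Nat.gcd v.1 v.2) (v.1 / Nat.gcd v.1 v.2)
        (smallP v.1 v.2 (z v)) h →
      boostOut lam v.1 v.2 (v.2 / Nat.gcd v.1 v.2) (v.1 / Nat.gcd v.1 v.2)
        (smallP v.1 v.2 (z v)) h ≤ K) :
    ρ * ∑ v ∈ N, EnA γ ρ lam v.1 v.2 ≤ 10 * K * (ρ * ∑ q ∈ Q, (Nat.totient q : ℝ)) ^ 2 := by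
  classical
  have key : ∀ v ∈ N, EnA γ ρ lam v.1 v.2 ≤ 10 * K * ρ * (Nat.totient v.1 * Nat.totient v.2) := by
    intro v hv
    have hv' := Finset.mem_product.1 (hN hv)
    have hq := hQ _ hv'.1
    have hq' := hQ _ hv'.2
    have hlcm : (0 : ℝ) < (Nat.lcm v.1 v.2 : ℕ) := by exact_mod_cast Nat.lcm_pos hq hq'
    refine (EnA_near hρ.le hK0 hq hq' (S := smallP v.1 v.2 (z v)) (Finset.filter_subset _ _)
      (hK v hv)).trans ?_
    have hW : ((∏ p ∈ smallP v.1 v.2 (z v), p : ℕ) : ℝ) ≤ 4 * ρ * (Nat.lcm v.1 v.2 : ℕ) := by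
      refine le_trans ?_ (hz v hv)
      exact_mod_cast prod_smallP_le v.1 v.2 (z v)
    have h1 : (4 * ρ * (Nat.lcm v.1 v.2 : ℕ) + 1 + (∏ p ∈ smallP v.1 v.2 (z v), p : ℕ)) * K ≤
        (10 * ρ * (Nat.lcm v.1 v.2 : ℕ)) * K := by
      refine mul_le_mul_of_nonneg_right ?_ hK0
      have := hnear v hv
      linarith
    calc _ ≤ (Nat.totient v.1 * Nat.totient v.2 / (Nat.lcm v.1 v.2 : ℕ)) *
          ((10 * ρ * (Nat.lcm v.1 v.2 : ℕ)) * K) := mul_le_mul_of_nonneg_left h1 (by positivity)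
      _ = _ := by field_simp
  calc ρ * ∑ v ∈ N, EnA γ ρ lam v.1 v.2
      ≤ ρ * ∑ v ∈ N, 10 * K * ρ * (Nat.totient v.1 * Nat.totient v.2) :=
        mul_le_mul_of_nonneg_left (Finset.sum_le_sum key) hρ.le
    _ ≤ ρ * ∑ v ∈ Q ×ˢ Q, 10 * K * ρ * (Nat.totient v.1 * Nat.totient v.2) := by
        refine mul_le_mul_of_nonneg_left ?_ hρ.le
        exact Finset.sum_le_sum_of_subset_of_nonneg hN fun _ _ _ => by positivity
    _ = _ := by
        rw [← Finset.mul_sum, Finset.sum_product]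
        simp only [← Finset.mul_sum]
        rw [← Finset.sum_mul]
        ring

/-! ### boosts of large primes -/

lemma pf_le_exp {p : ℕ} (hp : p.Prime) : pf p ≤ Real.exp (2 / p) := by
  have hp2 : (2 : ℝ) ≤ p := by exact_mod_cast hp.two_le
  have h1 : pf p ≤ 1 + 2 / p := by
    unfold pf
    have h2 := one_sub_inv_pos hp
    rw [inv_le_iff_one_le_mul₀ h2]
    have e : (1 + 2 / (p : ℝ)) * (1 - 1 / p) = 1 + (1 / p) * (1 - 2 / p) := by
      field_simp
      ring
    rw [e]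
    have h3 : (0 : ℝ) ≤ 1 - 2 / p := by
      rw [sub_nonneg, div_le_one (by linarith)]
      exact hp2
    have h4 : (0 : ℝ) ≤ 1 / p := by positivity
    nlinarith
  have h2 := Real.add_one_le_exp (2 / (p : ℝ))
  linarith

/-- `∏ (1-1/p)⁻¹ ≤ exp(2 ∑ 1/p)` -/
lemma prod_pf_le_exp {A : Finset ℕ} (hA : ∀ p ∈ A, p.Prime) :
    ∏ p ∈ A, pf p ≤ Real.exp (2 * ∑ p ∈ A, 1 / (p : ℝ)) := by
  rw [Finset.mul_sum, Real.exp_sum]
  refine Finset.prod_le_prod (fun p hp => (pf_pos (hA p hp)).le) fun p hp => ?_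
  refine (pf_le_exp (hA p hp)).trans (le_of_eq ?_)
  congr 1
  ring

/-- prime divisors `> z` of a nonzero integer: `∑ 1/p ≤ log n / (z log z)` -/
lemma sum_inv_gt_le {n : ℕ} (hn : n ≠ 0) {z : ℝ} (hz : 1 < z) {A : Finset ℕ}
    (hA : ∀ p ∈ A, p.Prime ∧ p ∣ n ∧ z < p) :
    ∑ p ∈ A, 1 / (p : ℝ) ≤ Real.log n / (z * Real.log z) := by
  have hlz : 0 < Real.log z := Real.log_pos hz
  have hz0 : 0 < z := by linarith
  have hsub : A ⊆ n.primeFactors := fun p hp =>
    Nat.mem_primeFactors.2 ⟨(hA p hp).1, (hA p hp).2.1, hn⟩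
  have h1 : (A.card : ℝ) * Real.log z ≤ Real.log n := by
    have h2 : ∏ p ∈ A, (p : ℕ) ≤ n := by
      refine Nat.le_of_dvd (Nat.pos_of_ne_zero hn) ?_
      exact (Finset.prod_dvd_prod_of_subset _ _ _ hsub).trans (Nat.prod_primeFactors_dvd n)
    have h3 : Real.log (∏ p ∈ A, (p : ℝ)) ≤ Real.log n := by
      refine Real.log_le_log (Finset.prod_pos fun p hp => by exact_mod_cast (hA p hp).1.pos) ?_
      have h4 : ((∏ p ∈ A, p : ℕ) : ℝ) ≤ n := by exact_mod_cast h2
      push_cast at h4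
      exact h4
    rw [Real.log_prod (fun p hp => by exact_mod_cast (hA p hp).1.ne_zero)] at h3
    refine le_trans ?_ h3
    rw [← nsmul_eq_mul, ← Finset.sum_const]
    exact Finset.sum_le_sum fun p hp => Real.log_le_log hz0 (hA p hp).2.2.le
  calc ∑ p ∈ A, 1 / (p : ℝ) ≤ ∑ _p ∈ A, 1 / z :=
        Finset.sum_le_sum fun p hp => one_div_le_one_div_of_le hz0 (hA p hp).2.2.le
    _ = A.card * (1 / z) := by rw [Finset.sum_const, nsmul_eq_mul]
    _ ≤ _ := by
        rw [le_div_iff₀ (by positivity)]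
        have e : (A.card : ℝ) * (1 / z) * (z * Real.log z) = A.card * Real.log z := by
          field_simp
        rw [e]
        exact h1

/-- **B3**: prime divisors `> z` of a nonzero integer `|D| ≤ X` -/
theorem prod_pf_gt_le {D : ℤ} (hD : D ≠ 0) {z X : ℝ} (hz : 1 < z) (hX : |(D : ℝ)| ≤ X)
    {A : Finset ℕ} (hA : ∀ p ∈ A, p.Prime ∧ (p : ℤ) ∣ D ∧ z < p) :
    ∏ p ∈ A, pf p ≤ Real.exp (2 * (Real.log X / (z * Real.log z))) := by
  have hlz : 0 < Real.log z := Real.log_pos hz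
  have h0 : D.natAbs ≠ 0 := Int.natAbs_ne_zero.2 hD
  refine (prod_pf_le_exp fun p hp => (hA p hp).1).trans (Real.exp_le_exp.2 ?_)
  refine mul_le_mul_of_nonneg_left ?_ (by norm_num)
  refine (sum_inv_gt_le h0 hz fun p hp => ⟨(hA p hp).1, Int.natCast_dvd.1 (hA p hp).2.1,
    (hA p hp).2.2⟩).trans ?_
  refine div_le_div_of_nonneg_right ?_ (by positivity)
  refine Real.log_le_log (by exact_mod_cast Nat.pos_of_ne_zero h0) ?_
  rw [Nat.cast_natAbs]
  push_cast
  exact hX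

/-! ### the boost outside `S` for labels given by centres -/

open Classical in
theorem boostOut_eq {F : ℕ → ℕ → Option ℚ} {lam : ℕ → ℕ → Option ℤ} (hF : IsLab F lam)
    {g q q' s s' : ℕ} (hg : 0 < g) (hs : 0 < s) (hcop : Nat.Coprime s s') (S : Finset ℕ) (h : ℤ) :
    boostOut lam q q' s s' S h = (∏ p ∈ setD F q q' s s' \ S, pf p) *
      (∏ p ∈ setE F q q' s s' h \ S, pf p) * ∏ p ∈ setN F g q q' s s' h \ S, pf p := by
  have e1 : boostOut lam q q' s s' S h =
      ∏ p ∈ ((q * q').primeFactors \ S).filter (charged lam q q' s s' h), pf p := by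
    rw [Finset.prod_filter]
    unfold boostOut pf
    rfl
  have e2 : ((q * q').primeFactors \ S).filter (charged lam q q' s s' h) =
      ((setD F q q' s s' \ S) ∪ (setE F q q' s s' h \ S)) ∪ (setN F g q q' s s' h \ S) := by
    rw [← Finset.union_sdiff_distrib, ← Finset.union_sdiff_distrib,
      ← charged_set_eq hF hg hs hcop h]
    ext p
    simp only [Finset.mem_filter, Finset.mem_sdiff]
    tauto
  have d1 : ∀ p, p ∈ setD F q q' s s' → p ∈ setE F q q' s s' h → False := by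
    intro p hp1 hp2
    unfold setD at hp1
    unfold setE at hp2
    rw [Finset.mem_filter] at hp1 hp2
    obtain ⟨_, h1⟩ := hp1
    obtain ⟨_, h2, h3, _⟩ := hp2
    rcases h1 with ⟨h4, _⟩ | ⟨h4, _⟩
    · exact h3 h4
    · exact h2 h4
  have d2 : ∀ p, p ∈ setD F q q' s s' → p ∈ setN F g q q' s s' h → False := by
    intro p hp1 hp2
    unfold setD at hp1
    unfold setN at hp2
    rw [Finset.mem_filter] at hp1 hp2
    obtain ⟨_, h1⟩ := hp1
    obtain ⟨_, h2, h3, _⟩ := hp2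
    rcases h1 with ⟨h4, _⟩ | ⟨h4, _⟩
    · exact h3 h4
    · exact h2 h4
  have d3 : ∀ p, p ∈ setE F q q' s s' h → p ∈ setN F g q q' s s' h → False := by
    intro p hp1 hp2
    unfold setE at hp1
    unfold setN at hp2
    rw [Finset.mem_filter] at hp1 hp2
    obtain ⟨_, _, _, f₁, f₁', e1, e2, _, _, h0⟩ := hp1
    obtain ⟨_, h2, h3, f, f', hf1, hf1', _, _, hgap, _⟩ := hp2
    rw [hf1, Option.some.injEq] at e1
    rw [hf1', Option.some.injEq] at e2
    subst e1
    subst e2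
    exact hgap h0
  rw [e1, e2, Finset.prod_union, Finset.prod_union]
  · rw [Finset.disjoint_left]
    intro p hp1 hp2
    exact d1 p (Finset.mem_sdiff.1 hp1).1 (Finset.mem_sdiff.1 hp2).1
  · rw [Finset.disjoint_left]
    intro p hp1 hp2
    have h2 := (Finset.mem_sdiff.1 hp2).1
    rcases Finset.mem_union.1 hp1 with h1 | h1
    · exact d2 p (Finset.mem_sdiff.1 h1).1 h2
    · exact d3 p (Finset.mem_sdiff.1 h1).1 h2

/-- **B1**: differing labelled primes `> z` -/
theorem prod_setD_out_le {F : ℕ → ℕ → Option ℚ} {q q' s s' : ℕ} (hs : 0 < s) (hs' : 0 < s')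
    (S : Finset ℕ) :
    (open Classical in ∏ p ∈ setD F q q' s s' \ S, pf p) ≤
      Real.exp (2 * (open Classical in ∑ p ∈ (s * s').primeFactors \ S, 1 / (p : ℝ))) := by
  classical
  refine (prod_pf_mono (B := (s * s').primeFactors \ S) ?_ ?_).trans
    (prod_pf_le_exp (A := (s * s').primeFactors \ S) ?_)
  · exact Finset.sdiff_subset_sdiff (setD_subset hs hs') subset_rfl
  · exact fun p hp => Nat.prime_of_mem_primeFactors (Finset.mem_sdiff.1 hp).1
  · exact fun p hp => Nat.prime_of_mem_primeFactors (Finset.mem_sdiff.1 hp).1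

/-- **B3**: common primes `> z` with two different points; the pairs of centres lie in `T`,
`|D0| ≤ X` -/
theorem prod_setN_out_le {F : ℕ → ℕ → Option ℚ} {g q q' s s' : ℕ} (hg : 0 < g) (hs : 0 < s)
    (hcop : Nat.Coprime s s') (h : ℤ) {z : ℕ} (hz : 2 ≤ z) {X : ℝ} (hX : 1 ≤ X)
    (T : Finset (ℚ × ℚ))
    (hT : ∀ p ∈ (q * q').primeFactors, z < p → ¬ p ∣ s → ¬ p ∣ s' → ∀ f f', F q p = some f →
      F q' p = some f' → gap f f' s s' h ≠ 0 → (f, f') ∈ T)
    (hTX : ∀ v ∈ T, gap v.1 v.2 s s' h ≠ 0 → |(D0 g s s' h v.1 v.2 : ℝ)| ≤ X) :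
    (open Classical in ∏ p ∈ setN F g q q' s s' h \ smallP q q' z, pf p) ≤
      Real.exp (2 * (Real.log X / (z * Real.log z)) * T.card) := by
  classical
  have hz1 : (1 : ℝ) < z := by exact_mod_cast (by omega : 1 < z)
  have hlz : 0 < Real.log z := Real.log_pos hz1
  have hlX : 0 ≤ Real.log X := Real.log_nonneg hX
  set T' := T.filter (fun v => gap v.1 v.2 s s' h ≠ 0) with hT'
  set W : ℚ × ℚ → Finset ℕ := fun v =>
    ((D0 g s s' h v.1 v.2).natAbs.primeFactors).filter (fun p => z < p) with hW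
  have hWp : ∀ v ∈ T', ∀ p ∈ W v, p.Prime := fun v _ p hp =>
    Nat.prime_of_mem_primeFactors (Finset.mem_filter.1 hp).1
  have h1 : ∏ p ∈ setN F g q q' s s' h \ smallP q q' z, pf p ≤ ∏ v ∈ T', ∏ p ∈ W v, pf p := by
    refine le_trans (prod_pf_mono (B := T'.biUnion W) ?_ ?_) (prod_pf_biUnion T' W hWp)
    · intro p hp
      obtain ⟨hp1, hp2⟩ := Finset.mem_sdiff.1 hp
      have hpp := prime_setN hp1
      unfold setN at hp1
      rw [Finset.mem_filter] at hp1
      obtain ⟨h0, h2, h3, f, f', hf1, hf1', _, _, hgap, hD⟩ := hp1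
      have hzp : z < p := by
        by_contra hc
        exact hp2 (Finset.mem_filter.2 ⟨h0, not_lt.1 hc⟩)
      rw [Finset.mem_biUnion]
      refine ⟨(f, f'), Finset.mem_filter.2 ⟨hT p h0 hzp h2 h3 f f' hf1 hf1' hgap, hgap⟩, ?_⟩
      rw [hW]
      simp only
      rw [Finset.mem_filter, Nat.mem_primeFactors]
      refine ⟨⟨hpp, Int.natCast_dvd.1 hD, Int.natAbs_ne_zero.2 fun hc => hgap ?_⟩, hzp⟩
      exact (D0_eq_zero hg hs hcop).1 hc
    · intro p hp
      obtain ⟨v, hv1, hv⟩ := Finset.mem_biUnion.1 hp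
      exact hWp v hv1 p hv
  refine h1.trans ?_
  calc ∏ v ∈ T', ∏ p ∈ W v, pf p
      ≤ ∏ _v ∈ T', Real.exp (2 * (Real.log X / (z * Real.log z))) := by
        refine Finset.prod_le_prod (fun v hv => (prod_pf_pos (hWp v hv)).le) fun v hv => ?_
        rw [hT', Finset.mem_filter] at hv
        refine prod_pf_gt_le (fun hc => hv.2 ((D0_eq_zero hg hs hcop).1 hc)) hz1
          (hTX v hv.1 hv.2) fun p hp => ?_
        rw [hW] at hp
        simp only at hp
        rw [Finset.mem_filter] at hp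
        exact ⟨Nat.prime_of_mem_primeFactors hp.1,
          Int.natCast_dvd.2 (Nat.dvd_of_mem_primeFactors hp.1), by exact_mod_cast hp.2⟩
    _ = Real.exp (2 * (Real.log X / (z * Real.log z)) * T'.card) := by
        rw [Finset.prod_const, ← Real.exp_nat_mul]
        congr 1
        ring
    _ ≤ _ := by
        refine Real.exp_le_exp.2 (mul_le_mul_of_nonneg_left ?_ (by positivity))
        exact_mod_cast Finset.card_filter_le _ _

end Crest.Agent.R4C.NearAvgx972
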