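import Crest.Agent.R4C.Cell_863
import Crest.Agent.R4C.NHdef_656

/-!
# Row 4, GW section: births are functions of the node (helper966; 514's 3875 (2), 863's (P1))

World with base `G`, words `w`, gap nodes `e` of `w` : `Gap cut L G w e` (Cell_863).

* `nxt cut L G w e` : the next gap node of `w` above `e` (`G * w` if there is none).
* `fl e n = minFac (n / e)` : first letter of the word above `e` (`n` = next gap node),
  `Pr e n = upp (fl e n) (n / e)` : the letters of `n / e` above it.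
* `BirthAt θ L e n ρ` : NOT `On θ` at the representative: point `Pr * (ρ / n)`, scale `n / Pr / L`.
* `Birth w e = BirthAt (θ (lev L e)) L e (nxt w e) (rp γ μ σ (G w))`.
* `birth_congr` : (P1) for a node `e'` above `e`, two words of the node (same gap node `e'`, same cell
  modulo `Qe L e₁ e'`) have the same next gap node above `e` and the same birth status at `e`.
* `not_birth_on`, `birth_not_on` : comparison with the word itself (factor 4).
* `on_cut` : `On` of the word is inherited by lower cuts.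
* `pt_eq`, `sc_eq` : dictionary with the letters of NHdef_656 for a squarefree upper part.
-/

set_option autoImplicit false

open Finset
open Crest.Agent.R4C.Basex935 Crest.Agent.R4C.Cutx50 Crest.Agent.R4C.Cellx863
  Crest.Agent.R4C.NHx656

namespace Crest.Agent.R4C.NodeBirthx966

/-! ### depth: translations and perturbations -/

lemma On.add_int {K y τ : ℝ} (z : ℤ) (h : On K y τ) : On K (y + z) τ := by
  obtain ⟨a, k, h1, h2⟩ := h
  refine ⟨a + z * k, k, h1, ?_⟩
  have hk : (k : ℝ) ≠ 0 := by exact_mod_cast h1.ne'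
  have e : y + (z : ℝ) - ((a + z * k : ℤ) : ℝ) / k = y - a / k := by
    push_cast
    field_simp
    ring
  rw [e]
  exact h2

lemma on_add_int {K y τ : ℝ} (z : ℤ) : On K (y + z) τ ↔ On K y τ := by
  refine ⟨fun h => ?_, On.add_int z⟩
  have h1 := On.add_int (-z) h
  have e : y + (z : ℝ) + ((-z : ℤ) : ℝ) = y := by push_cast; ring
  rwa [e] at h1

lemma On.near {K y y' τ : ℝ} (hτ : 0 ≤ τ) (h : On K y τ) (hd : τ * |y - y'| ≤ 3) :
    On (4 * K) y' τ := by
  obtain ⟨a, k, h1, h2⟩ := h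
  refine ⟨a, k, h1, ?_⟩
  have hk : (0 : ℝ) < k := by exact_mod_cast h1
  have e1 : |y' - a / k| ≤ |y - a / k| + |y - y'| := by
    have e : y' - a / k = (y - a / k) - (y - y') := by ring
    rw [e]
    exact abs_sub _ _
  have e2 : τ * |y' - a / k| ≤ τ * |y - a / k| + 3 := by
    calc τ * |y' - a / k| ≤ τ * (|y - a / k| + |y - y'|) := mul_le_mul_of_nonneg_left e1 hτ
      _ ≤ _ := by linarith
  have e3 : max 1 (τ * |y' - a / k|) ≤ 4 * max 1 (τ * |y - a / k|) := by
    have h3 := le_max_left (1 : ℝ) (τ * |y - a / k|)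
    have h4 := le_max_right (1 : ℝ) (τ * |y - a / k|)
    refine max_le (by linarith) (by linarith)
  calc (k : ℝ) * max 1 (τ * |y' - a / k|) ≤ k * (4 * max 1 (τ * |y - a / k|)) :=
        mul_le_mul_of_nonneg_left e3 hk.le
    _ = 4 * (k * max 1 (τ * |y - a / k|)) := by ring
    _ < 4 * K := by linarith

/-! ### next gap node -/

section nxt

variable (cut : ℕ → ℕ) (L : ℝ) (G : ℕ)

open Classical in
/-- next gap node of `w` above `e`; `G * w` if there is none -/
noncomputable def nxt (w e : ℕ) : ℕ :=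
  if h : ∃ e', e < e' ∧ Gap cut L G w e' then Nat.find h else G * w

variable {cut : ℕ → ℕ} {L : ℝ} {G : ℕ} {w w' e e' : ℕ}

lemma nxt_spec (h : ∃ e', e < e' ∧ Gap cut L G w e') :
    e < nxt cut L G w e ∧ Gap cut L G w (nxt cut L G w e) := by
  classical
  unfold nxt
  rw [dif_pos h]
  exact Nat.find_spec h

lemma nxt_le (h1 : e < e') (h2 : Gap cut L G w e') : nxt cut L G w e ≤ e' := by
  classical
  have h : ∃ e', e < e' ∧ Gap cut L G w e' := ⟨e', h1, h2⟩
  unfold nxt
  rw [dif_pos h]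
  exact Nat.find_min' h ⟨h1, h2⟩

lemma nxt_eq (h : ¬ ∃ e', e < e' ∧ Gap cut L G w e') : nxt cut L G w e = G * w := by
  classical
  unfold nxt
  rw [dif_neg h]

/-- words with a common gap node `e' > e` have the same next gap node above `e` -/
lemma nxt_congr (hL : 0 < L) (hcut : Monotone cut) (hG : 0 < G) (hlt : e < e')
    (h1 : Gap cut L G w e') (h2 : Gap cut L G w' e') :
    nxt cut L G w e = nxt cut L G w' e := by
  have a1 := nxt_spec (cut := cut) (L := L) (G := G) (w := w) ⟨e', hlt, h1⟩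
  have a2 := nxt_spec (cut := cut) (L := L) (G := G) (w := w') ⟨e', hlt, h2⟩
  have b1 := nxt_le hlt h1
  have b2 := nxt_le hlt h2
  have c1 : Gap cut L G w' (nxt cut L G w e) := gap_nested hL hcut hG b1 a1.2 h1 h2
  have c2 : Gap cut L G w (nxt cut L G w' e) := gap_nested hL hcut hG b2 a2.2 h2 h1
  exact le_antisymm (nxt_le a2.1 c2) (nxt_le a1.1 c1)

/-- `G * w` is a multiple of every gap node, and `nxt` too -/
lemma nxt_dvd_word : nxt cut L G w e ∣ G * w := by
  by_cases h : ∃ e', e < e' ∧ Gap cut L G w e'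
  · exact gap_dvd_word (nxt_spec h).2
  · rw [nxt_eq h]

/-- the next gap node in the form `G * low y w` with a cut above the one of `e` -/
lemma nxt_low (hL : 0 < L) (hcut : Monotone cut) (hw : w ≠ 0) :
    ∃ y, cut (lev L e) ≤ y ∧ nxt cut L G w e = G * low y w := by
  by_cases h : ∃ e', e < e' ∧ Gap cut L G w e'
  · have h1 := nxt_spec h
    exact ⟨cut (lev L (nxt cut L G w e)), hcut (lev_mono hL h1.1.le), h1.2⟩
  · refine ⟨max (cut (lev L e)) w, le_max_left _ _, ?_⟩
    rw [nxt_eq h, low_of_large hw (le_max_right _ _)]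

end nxt

/-! ### the first letter and the letters above it -/

/-- first letter above `e` -/
def fl (e n : ℕ) : ℕ := (n / e).minFac

/-- the letters of `n / e` above the first one -/
def Pr (e n : ℕ) : ℕ := upp (fl e n) (n / e)

lemma Pr_pos (e n : ℕ) : 0 < Pr e n := upp_pos _ _

section letters

variable {G w x y e n : ℕ}

lemma quot_eq (hG : 0 < G) (hxy : x ≤ y) (he : e = G * low x w) (hn : n = G * low y w) :
    n / e = upp x (low y w) := by
  have h1 : low x (low y w) * upp x (low y w) = low y w := low_mul_upp x (low_pos y w).ne'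
  rw [low_low hxy] at h1
  have h2 : n = e * upp x (low y w) := by rw [he, hn, mul_assoc, h1]
  rw [h2]
  exact Nat.mul_div_cancel_left _ (by rw [he]; exact Nat.mul_pos hG (low_pos _ _))

lemma e_dvd_n (hxy : x ≤ y) (he : e = G * low x w) (hn : n = G * low y w) : e ∣ n := by
  rw [he, hn, ← low_low hxy w]
  exact Nat.mul_dvd_mul_left _ (low_dvd_self _ _)

/-- `upp r w = upp r (low y w) * upp y w` for `r ≤ y` -/
lemma upp_split {r : ℕ} (h : r ≤ y) (w : ℕ) : upp r w = upp r (low y w) * upp y w := by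
  refine Nat.eq_of_factorization_eq (upp_pos _ _).ne'
    (Nat.mul_pos (upp_pos _ _) (upp_pos _ _)).ne' fun p => ?_
  rw [Nat.factorization_mul (upp_pos _ _).ne' (upp_pos _ _).ne', Finsupp.add_apply, fact_upp,
    fact_upp, fact_upp, fact_low]
  by_cases h1 : p ≤ r
  · have : p ≤ y := h1.trans h
    simp [h1, this]
  · by_cases h2 : p ≤ y <;> simp [h1, h2]

/-- `low y w = low r w * upp r (low y w)` for `r ≤ y` -/
lemma low_split {r : ℕ} (h : r ≤ y) (w : ℕ) : low y w = low r w * upp r (low y w) := by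
  have h1 := low_mul_upp r (low_pos y w).ne'
  rw [low_low h] at h1
  exact h1.symm

/-- the first letter -/
lemma fl_spec (hG : 0 < G) (hxy : x ≤ y) (he : e = G * low x w) (hn : n = G * low y w)
    (hlt : e < n) : (fl e n).Prime ∧ x < fl e n ∧ fl e n ≤ y ∧ fl e n ∣ w ∧
      ∀ q, q.Prime → q ∣ w → x < q → fl e n ≤ q := by
  have hq := quot_eq hG hxy he hn
  have h1 : n / e ≠ 1 := by
    intro h
    have hd := e_dvd_n hxy he hn
    have := Nat.div_mul_cancel hd
    rw [h, one_mul] at this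
    omega
  have hp : (fl e n).Prime := Nat.minFac_prime h1
  have hd : fl e n ∣ upp x (low y w) := by
    rw [← hq]; exact Nat.minFac_dvd _
  have h2 : ¬ fl e n ≤ x := prime_dvd_part (S := fun p => ¬ p ≤ x) hp hd
  have hd2 : fl e n ∣ low y w := hd.trans (upp_dvd_self _ _)
  have h3 : fl e n ≤ y := prime_dvd_part (S := fun p => p ≤ y) hp hd2
  refine ⟨hp, not_le.1 h2, h3, hd2.trans (low_dvd_self _ _), fun q hqp hqw hxq => ?_⟩
  by_cases hqy : q ≤ y
  · refine Nat.minFac_le_of_dvd hqp.two_le ?_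
    rw [hq]
    have hw0 : w ≠ 0 := by
      rintro rfl
      have h4 : e = n := by
        rw [he, hn]
        congr 1
        unfold low part
        simp
      omega
    have hf : 0 < (upp x (low y w)).factorization q := by
      rw [fact_upp, fact_low, if_pos (by omega), if_pos hqy]
      exact hqp.factorization_pos_of_dvd hw0 hqw
    exact Nat.dvd_of_factorization_pos hf.ne'
  · omega

/-- the letters above the first one: the whole word -/
lemma Pr_mul (hG : 0 < G) (hxy : x ≤ y) (he : e = G * low x w) (hn : n = G * low y w)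
    (hlt : e < n) : Pr e n * upp y w = upp (fl e n) w := by
  obtain ⟨_, h1, h2, _, _⟩ := fl_spec hG hxy he hn hlt
  unfold Pr
  rw [quot_eq hG hxy he hn] at *
  have e1 : upp (fl e n) (upp x (low y w)) = upp (fl e n) (low y w) := upp_upp h1.le _
  rw [upp_split h2 w]
  congr 1

lemma n_eq (hG : 0 < G) (hxy : x ≤ y) (he : e = G * low x w) (hn : n = G * low y w)
    (hlt : e < n) : n = G * low (fl e n) w * Pr e n := by
  obtain ⟨_, h1, h2, _, _⟩ := fl_spec hG hxy he hn hlt
  have e1 : Pr e n = upp (fl e n) (low y w) := by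
    unfold Pr
    rw [quot_eq hG hxy he hn]
    exact upp_upp h1.le _
  rw [e1, mul_assoc, ← low_split h2 w]
  exact hn

end letters

/-! ### births -/

/-- NOT `On θ` at the representative `ρ` of the cell, read at the first letter above `e` -/
def BirthAt (θ L : ℝ) (e n : ℕ) (ρ : ℝ) : Prop :=
  ¬ On θ ((Pr e n : ℝ) * (ρ / n)) ((n : ℝ) / Pr e n / L)

/-- birth of the word `w` at its gap node `e` -/
def Birth (cut : ℕ → ℕ) (L : ℝ) (G : ℕ) (θ : ℕ → ℝ) (γ μ σ : ℝ) (w e : ℕ) : Prop :=
  BirthAt (θ (lev L e)) L e (nxt cut L G w e) (rp γ μ σ (G * w))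

/-- `BirthAt` only depends on the representative modulo `n` -/
lemma birthAt_congr {θ L : ℝ} {e n : ℕ} (hn : 0 < n) {ρ ρ' : ℝ} {z : ℤ} (h : ρ = ρ' + z * n) :
    BirthAt θ L e n ρ ↔ BirthAt θ L e n ρ' := by
  unfold BirthAt
  have hn0 : (n : ℝ) ≠ 0 := by exact_mod_cast hn.ne'
  have e1 : (Pr e n : ℝ) * (ρ / n) = (Pr e n : ℝ) * (ρ' / n) + ((Pr e n * z : ℤ) : ℝ) := by
    rw [h]
    push_cast
    field_simp
  rw [e1, on_add_int]

variable {cut : ℕ → ℕ} {L : ℝ} {G : ℕ} {w w' e e' e₁ : ℕ} {γ σ : ℝ}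

/-- **(P1)** births strictly below a node are the same for all its words -/
theorem birth_congr (θ : ℕ → ℝ) (hL : 0 < L) (hcut : Monotone cut) (hG : 0 < G)
    (h4 : 4 * L ≤ e₁) (he₁ : 0 < e₁) (h1 : Gap cut L G w e₁) (hle : e₁ ≤ e) (hlt : e < e')
    (hw : Gap cut L G w e') (hw' : Gap cut L G w' e')
    (hc : Nc γ (mesh L e₁) σ (G * w) ≡ Nc γ (mesh L e₁) σ (G * w') [ZMOD Qe L e₁ e']) :
    nxt cut L G w e = nxt cut L G w' e ∧
      (Birth cut L G θ γ (mesh L e₁) σ w e ↔ Birth cut L G θ γ (mesh L e₁) σ w' e) := by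
  have hn := nxt_congr hL hcut hG hlt hw hw'
  refine ⟨hn, ?_⟩
  unfold Birth
  rw [← hn]
  have hs := nxt_spec (cut := cut) (L := L) (G := G) (w := w) ⟨e', hlt, hw⟩
  have hnle := nxt_le hlt hw
  have d1 : e₁ ∣ nxt cut L G w e := gap_dvd hL hcut (hle.trans hs.1.le) h1 hs.2
  have d2 : nxt cut L G w e ∣ e' := gap_dvd hL hcut hnle hs.2 hw
  have hpos : 0 < nxt cut L G w e := by omega
  obtain ⟨z, hz⟩ := rp_congr (Qe_mul hL h4 d1) (cell_mono (Qe_dvd d1 d2) hc)
  exact birthAt_congr hpos hz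

/-- comparison of the representative with the word itself at the first letter -/
lemma near_pt {x y n : ℕ} (hL : 0 < L) (hG : 0 < G) (hw0 : w ≠ 0) (hxy : x ≤ y)
    (he : e = G * low x w) (hn : n = G * low y w) (hlt : e < n) {ρ : ℝ}
    (hρ : |((G * w : ℕ) : ℝ) * γ - ρ| ≤ 3 * L) :
    (n : ℝ) / Pr e n / L = ((G * low (fl e n) w : ℕ) : ℝ) / L ∧
    ((n : ℝ) / Pr e n / L) * |(upp (fl e n) w : ℝ) * γ - (Pr e n : ℝ) * (ρ / n)| ≤ 3 := by
  have hn0 : 0 < n := by omega
  have hnR : (0 : ℝ) < n := by exact_mod_cast hn0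
  have hPR : (0 : ℝ) < Pr e n := by exact_mod_cast Pr_pos e n
  have e1 := n_eq hG hxy he hn hlt
  have e2 := Pr_mul hG hxy he hn hlt
  constructor
  · congr 1
    rw [div_eq_iff hPR.ne']
    exact_mod_cast e1
  · -- `G * w = n * upp y w`
    have e3 : G * w = n * upp y w := by
      rw [hn, mul_assoc, low_mul_upp y hw0]
    have e4 : (upp (fl e n) w : ℝ) * γ - (Pr e n : ℝ) * (ρ / n) =
        (Pr e n : ℝ) / n * (((G * w : ℕ) : ℝ) * γ - ρ) := by
      rw [← e2, e3]
      push_cast
      field_simp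
    rw [e4, abs_mul, abs_of_pos (by positivity : (0 : ℝ) < (Pr e n : ℝ) / n)]
    have e5 : (n : ℝ) / Pr e n / L * ((Pr e n : ℝ) / n * |((G * w : ℕ) : ℝ) * γ - ρ|) =
        |((G * w : ℕ) : ℝ) * γ - ρ| / L := by
      field_simp
    rw [e5, div_le_iff₀ hL]
    exact hρ

/-- no birth: the word itself is `On (4θ)` at its first letter above `e` -/
theorem not_birth_on (θ : ℕ → ℝ) {μ : ℝ} (hL : 0 < L) (hcut : Monotone cut) (hG : 0 < G)
    (hw0 : w ≠ 0) (hμ : 0 < μ) (hμ3 : μ ≤ 3 * L) (he : Gap cut L G w e)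
    (hlt : e < nxt cut L G w e) (h : ¬ Birth cut L G θ γ μ σ w e) :
    On (4 * θ (lev L e)) ((upp (fl e (nxt cut L G w e)) w : ℝ) * γ)
      (((G * low (fl e (nxt cut L G w e)) w : ℕ) : ℝ) / L) := by
  obtain ⟨y, hy, hn⟩ := nxt_low (e := e) (G := G) hL hcut hw0
  have hρ : |((G * w : ℕ) : ℝ) * γ - rp γ μ σ (G * w)| ≤ 3 * L := (abs_rp hμ _).trans hμ3
  obtain ⟨h1, h2⟩ := near_pt (γ := γ) hL hG hw0 hy he hn hlt hρ
  unfold Birth BirthAt at h
  rw [not_not] at h
  rw [h1] at h h2
  refine On.near (by positivity) h ?_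
  rw [abs_sub_comm]
  exact h2

/-- birth: the word itself is not `On K` at its first letter above `e` when `4K ≤ θ` -/
theorem birth_not_on (θ : ℕ → ℝ) {μ : ℝ} (hL : 0 < L) (hcut : Monotone cut) (hG : 0 < G)
    (hw0 : w ≠ 0) (hμ : 0 < μ) (hμ3 : μ ≤ 3 * L) (he : Gap cut L G w e)
    (hlt : e < nxt cut L G w e) (h : Birth cut L G θ γ μ σ w e) {K : ℝ}
    (hK : 4 * K ≤ θ (lev L e)) :
    ¬ On K ((upp (fl e (nxt cut L G w e)) w : ℝ) * γ)
      (((G * low (fl e (nxt cut L G w e)) w : ℕ) : ℝ) / L) := by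
  intro hon
  obtain ⟨y, hy, hn⟩ := nxt_low (e := e) (G := G) hL hcut hw0
  have hρ : |((G * w : ℕ) : ℝ) * γ - rp γ μ σ (G * w)| ≤ 3 * L := (abs_rp hμ _).trans hμ3
  obtain ⟨h1, h2⟩ := near_pt (γ := γ) hL hG hw0 hy he hn hlt hρ
  unfold Birth BirthAt at h
  apply h
  rw [h1] at h2 ⊢
  exact (On.near (by positivity) hon h2).mono hK

/-! ### the word at different cuts -/

/-- `On` of the word is inherited by lower cuts -/
lemma on_cut {K L : ℝ} {G w x y : ℕ} {γ : ℝ} (hxy : x ≤ y)
    (h : On K ((upp y w : ℝ) * γ) (((G * low y w : ℕ) : ℝ) / L)) :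
    On K ((upp x w : ℝ) * γ) (((G * low x w : ℕ) : ℝ) / L) := by
  have e1 : (upp x w : ℝ) * γ = ((upp x (low y w) : ℕ) : ℝ) * ((upp y w : ℝ) * γ) := by
    rw [upp_split hxy w]; push_cast; ring
  have e2 : ((G * low y w : ℕ) : ℝ) / L =
      ((G * low x w : ℕ) : ℝ) / L * ((upp x (low y w) : ℕ) : ℝ) := by
    have e3 : G * low y w = G * low x w * upp x (low y w) := by
      rw [mul_assoc, ← low_split hxy w]
    rw [e3]
    push_cast
    ring
  rw [e1]
  rw [e2] at h
  exact h.push

/-- after a birth the depth of the word at every cut `x ≥` the first letter is `≥ θ / 4` -/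
theorem birth_later (θ : ℕ → ℝ) {μ : ℝ} (hL : 0 < L) (hcut : Monotone cut) (hG : 0 < G)
    (hw0 : w ≠ 0) (hμ : 0 < μ) (hμ3 : μ ≤ 3 * L) (he : Gap cut L G w e)
    (hlt : e < nxt cut L G w e) (h : Birth cut L G θ γ μ σ w e) {K : ℝ}
    (hK : 4 * K ≤ θ (lev L e)) {x : ℕ} (hx : fl e (nxt cut L G w e) ≤ x) :
    ¬ On K ((upp x w : ℝ) * γ) (((G * low x w : ℕ) : ℝ) / L) := fun hon =>
  birth_not_on θ hL hcut hG hw0 hμ hμ3 he hlt h hK (on_cut hx hon)

/-- the later gap nodes have their cut above the first letter -/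
lemma fl_le_cut (hL : 0 < L) (hcut : Monotone cut) (hG : 0 < G) (he : Gap cut L G w e)
    (hlt : e < e') (h' : Gap cut L G w e') :
    fl e (nxt cut L G w e) ≤ cut (lev L e') := by
  have hs := nxt_spec (cut := cut) (L := L) (G := G) (w := w) ⟨e', hlt, h'⟩
  have h1 := fl_spec hG (hcut (lev_mono hL hs.1.le)) he hs.2 hs.1
  exact h1.2.2.1.trans (hcut (lev_mono hL (nxt_le hlt h')))

/-! ### dictionary with the letters of NHdef_656 -/

/-- the letters of a squarefree upper part -/
lemma upp_eq_prod {x w : ℕ} (hsf : Squarefree (upp x w)) {r : ℕ} (hr : x ≤ r) :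
    upp r w = ∏ p ∈ (upp x w).primeFactors.filter (r < ·), p := by
  have e1 : upp r w = upp r (upp x w) := (upp_upp hr w).symm
  rw [e1]
  unfold upp part
  refine prod_congr (by ext p; simp [not_le]) fun p hp => ?_
  rw [mem_filter, Nat.mem_primeFactors] at hp
  have h1 := (Nat.squarefree_iff_factorization_le_one (upp_pos x w).ne').1 hsf p
  have h2 : 0 < (upp x w).factorization p :=
    hp.1.1.factorization_pos_of_dvd (upp_pos x w).ne' hp.1.2.1
  have h3 : (upp x w).factorization p = 1 := by omega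
  unfold upp part at h3
  rw [h3, pow_one]

lemma pt_eq {x w : ℕ} (γ : ℝ) (hsf : Squarefree (upp x w)) {r : ℕ} (hr : x ≤ r) :
    pt γ (upp x w).primeFactors r = (upp r w : ℝ) * γ := by
  unfold pt
  rw [← upp_eq_prod hsf hr]

lemma sc_eq {x w : ℕ} (L : ℝ) (G : ℕ) (hw0 : w ≠ 0) (hsf : Squarefree (upp x w)) {r : ℕ}
    (hr : x ≤ r) :
    sc (((G * low x w : ℕ) : ℝ) / L) (upp x w).primeFactors r =
      ((G * low r w : ℕ) : ℝ) / L := by
  unfold sc
  have e1 : low r w = low x w * ∏ p ∈ (upp x w).primeFactors.filter (· ≤ r), p := by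
    have h1 := low_mul_upp r hw0
    have h2 := low_mul_upp x hw0
    have h3 : (∏ p ∈ (upp x w).primeFactors.filter (· ≤ r), p) * upp r w = upp x w := by
      rw [upp_eq_prod hsf hr]
      have : ∏ p ∈ (upp x w).primeFactors, p = upp x w := Nat.prod_primeFactors_of_squarefree hsf
      conv_rhs => rw [← this]
      rw [← prod_filter_mul_prod_filter_not (upp x w).primeFactors (· ≤ r)]
      congr 1
      refine prod_congr ?_ fun _ _ => rfl
      ext p; simp [not_le]
    refine Nat.eq_of_mul_eq_mul_right (upp_pos r w) ?_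
    rw [h1, mul_assoc, h3, h2]
  rw [e1]
  push_cast
  ring

end Crest.Agent.R4C.NodeBirthx966
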