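import Crest.Agent.R4C.Cell_863
import Crest.Agent.R4C.CellLaw_276
import Crest.Agent.R4C.GWzone_9

/-!
# Row 4, GW section: the nodes of a prefix world (helper5, (C3') of helper863)

World: base `G`, modulus `N`, words `w ∣ N`, numbers `G * w`, law `nu N w`.
`y e = cut (lev L e)`.

* `Fst cut L G m0 w e₁` : `e₁` is the FIRST gap node of level `≥ m0` of the word `w`
  (`fst_unique`, `exists_fst`, `fst_dvd`).  The words of one `e₁` form a world of their own; the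
  energies are summed over `e₁` with `sum_fst`.
* `All` : the nodes `n = (e, j)` of the class `e₁`, grid `σ`: `e` a gap node, `j` a cell number
  modulo `Qe L e₁ e`; `Sn n` : the words of the node; `rkn n = lev L e`; `gm e` : mass of all words
  with the gap node `e` (prefix mass).
* `lam_sub`, `node_eq`, `lam` : laminarity (`GWzonex9.Lam`).
* `gm_eq`, `sum_Sn_le`, `gm_pos`, `sum_event` : masses, `weight` : `gcd ν ν' = Vy * ν ν' / gm`.
* `cell_pos` : all words of a node have the same position modulo `1` up to `3L/e`.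
* `pair_node` : a linked prefix pair lies in a node of one of the two grids.
-/

set_option autoImplicit false

open Finset
open Crest.Agent.R4C.Basex935 Crest.Agent.R4C.Cutx50 Crest.Agent.R4C.Cellx863
  Crest.Agent.R4C.CellLawx276

namespace Crest.Agent.R4C.Nodesx5

/-! ### first gap nodes -/

/-- `e₁` is the first gap node of level `≥ m0` of `w` -/
def Fst (cut : ℕ → ℕ) (L : ℝ) (G m0 w e₁ : ℕ) : Prop :=
  (Gap cut L G w e₁ ∧ m0 ≤ lev L e₁) ∧ ∀ e, e < e₁ → ¬ (Gap cut L G w e ∧ m0 ≤ lev L e)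

variable {cut : ℕ → ℕ} {L : ℝ} {G m0 : ℕ}

lemma le_of_lev {e m : ℕ} (hm : 1 ≤ m) (h : m ≤ lev L e) : L ≤ e := by
  by_contra hc
  push Not at hc
  have h1 : ⌊(e : ℝ) / L⌋₊ = 0 := by
    rw [Nat.floor_eq_zero]
    have h0 : (0 : ℝ) < L := lt_of_le_of_lt (Nat.cast_nonneg e) hc
    rw [div_lt_one h0]
    exact hc
  unfold lev at h
  rw [h1] at h
  simp at h
  omega

lemma scale_of_lev {e m : ℕ} (hL : 0 < L) (hm : 1 ≤ m) (h : m ≤ lev L e) :
    (2 : ℝ) ^ m * L ≤ e := by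
  have h1 := lev_le hL (le_of_lev hm h)
  have h2 : (2 : ℝ) ^ m ≤ 2 ^ lev L e := pow_le_pow_right₀ (by norm_num) h
  nlinarith

lemma four_le {e : ℕ} (hL : 0 < L) (hm : 2 ≤ m0) (h : m0 ≤ lev L e) : 4 * L ≤ e := by
  have h1 := scale_of_lev hL (by omega : 1 ≤ m0) h
  have h2 : (2 : ℝ) ^ 2 ≤ 2 ^ m0 := pow_le_pow_right₀ (by norm_num) hm
  nlinarith

lemma fst_unique {w e e' : ℕ} (h : Fst cut L G m0 w e) (h' : Fst cut L G m0 w e') : e = e' := by
  rcases lt_trichotomy e e' with h1 | h1 | h1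
  · exact absurd h.1 (h'.2 e h1)
  · exact h1
  · exact absurd h'.1 (h.2 e' h1)

lemma exists_fst {w e : ℕ} (h : Gap cut L G w e) (hm : m0 ≤ lev L e) :
    ∃ e₁, e₁ ≤ e ∧ Fst cut L G m0 w e₁ := by
  classical
  have hex : ∃ e, Gap cut L G w e ∧ m0 ≤ lev L e := ⟨e, h, hm⟩
  exact ⟨Nat.find hex, Nat.find_min' hex ⟨h, hm⟩, Nat.find_spec hex, fun e' he' => Nat.find_min hex he'⟩

lemma fst_le {w e e₁ : ℕ} (h1 : Fst cut L G m0 w e₁) (h : Gap cut L G w e) (hm : m0 ≤ lev L e) :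
    e₁ ≤ e := by
  by_contra hc
  push Not at hc
  exact h1.2 e hc ⟨h, hm⟩

lemma fst_dvd {w e e₁ : ℕ} (hL : 0 < L) (hcut : Monotone cut) (h1 : Fst cut L G m0 w e₁)
    (h : Gap cut L G w e) (hm : m0 ≤ lev L e) : e₁ ∣ e :=
  gap_dvd hL hcut (fst_le h1 h hm) h1.1.1 h

/-- all words with the gap node `e` have the same first gap node -/
lemma fst_of_gap {w w' e e₁ : ℕ} (hL : 0 < L) (hcut : Monotone cut) (hG : 0 < G)
    (h1 : Fst cut L G m0 w e₁) (h : Gap cut L G w e) (hm : m0 ≤ lev L e)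
    (h' : Gap cut L G w' e) : Fst cut L G m0 w' e₁ := by
  have hle := fst_le h1 h hm
  refine ⟨⟨gap_nested hL hcut hG hle h1.1.1 h h', h1.1.2⟩, fun e' he' hc => ?_⟩
  exact h1.2 e' he' ⟨gap_nested hL hcut hG (he'.le.trans hle) hc.1 h' h, hc.2⟩

/-- comparison of gap nodes of one word by their levels -/
lemma gap_le {w e e' : ℕ} (hcut : Monotone cut) (hG : 0 < G) (hle : lev L e ≤ lev L e')
    (h : Gap cut L G w e) (h' : Gap cut L G w e') : e ≤ e' := by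
  have h4 : cut (lev L e) ≤ cut (lev L e') := hcut hle
  have h5 : G * low (cut (lev L e)) w ∣ G * low (cut (lev L e')) w :=
    Nat.mul_dvd_mul_left _ (by rw [← low_low h4 w]; exact low_dvd_self _ _)
  have h6 : 0 < G * low (cut (lev L e')) w := Nat.mul_pos hG (low_pos _ _)
  unfold Gap at h h'
  rw [h, h']
  -- the levels inside are those of `e`, `e'`
  exact Nat.le_of_dvd (by rw [← h']; rw [h']; exact h6) (by rw [← h, ← h']; rwa [← h, ← h'] at h5)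

lemma gap_eq {w e e' : ℕ} (hcut : Monotone cut) (hG : 0 < G) (hle : lev L e = lev L e')
    (h : Gap cut L G w e) (h' : Gap cut L G w e') : e = e' :=
  le_antisymm (gap_le hcut hG hle.le h h') (gap_le hcut hG hle.ge h' h)

/-! ### nodes -/

section defs

variable (cut : ℕ → ℕ) (L γ σ : ℝ) (G N m0 e₁ : ℕ)

/-- cell number of the word `w` at the gap node `e` -/
noncomputable def cn (w e : ℕ) : ℤ := Nc γ (mesh L e₁) σ (G * w) % (Qe L e₁ e : ℤ)

open Classical in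
/-- words of the class `e₁` -/
noncomputable def Wd : Finset ℕ := N.divisors.filter (fun w => Fst cut L G m0 w e₁)

open Classical in
/-- words of the node `n = (e, j)` -/
noncomputable def Sn (n : ℕ × ℤ) : Finset ℕ :=
  N.divisors.filter (fun w => Fst cut L G m0 w e₁ ∧ Gap cut L G w n.1 ∧
    cn L γ σ G e₁ w n.1 = n.2)

open Classical in
/-- the nodes of the class `e₁` -/
noncomputable def All : Finset (ℕ × ℤ) :=
  ((Wd cut L G N m0 e₁ ×ˢ (G * N).divisors).filter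
    (fun p => Gap cut L G p.1 p.2 ∧ m0 ≤ lev L p.2)).image
    (fun p => (p.2, cn L γ σ G e₁ p.1 p.2))

/-- rank -/
noncomputable def rkn (n : ℕ × ℤ) : ℕ := lev L n.1

open Classical in
/-- prefix mass: mass of all words with the gap node `e` -/
noncomputable def gm (e : ℕ) : ℝ := ∑ w ∈ N.divisors with Gap cut L G w e, nu N w

/-- position of the node (modulo `1`) -/
noncomputable def pos (n : ℕ × ℤ) : ℝ := ((n.2 : ℝ) - σ) * mesh L e₁ / (n.1 : ℝ)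

end defs

section lemmas

variable {γ σ : ℝ} {N e₁ : ℕ}

lemma mem_Wd {w : ℕ} (hN : 0 < N) : w ∈ Wd cut L G N m0 e₁ ↔ w ∣ N ∧ Fst cut L G m0 w e₁ := by
  classical
  unfold Wd
  rw [mem_filter, Nat.mem_divisors]
  exact ⟨fun h => ⟨h.1.1, h.2⟩, fun h => ⟨⟨h.1, hN.ne'⟩, h.2⟩⟩

lemma mem_Sn {n : ℕ × ℤ} {w : ℕ} (hN : 0 < N) : w ∈ Sn cut L γ σ G N m0 e₁ n ↔
    w ∣ N ∧ Fst cut L G m0 w e₁ ∧ Gap cut L G w n.1 ∧ cn L γ σ G e₁ w n.1 = n.2 := by
  classical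
  unfold Sn
  rw [mem_filter, Nat.mem_divisors]
  exact ⟨fun h => ⟨h.1.1, h.2⟩, fun h => ⟨⟨h.1, hN.ne'⟩, h.2⟩⟩

lemma Sn_sub_Wd (n : ℕ × ℤ) : Sn cut L γ σ G N m0 e₁ n ⊆ Wd cut L G N m0 e₁ := by
  classical
  intro w hw
  unfold Sn at hw
  unfold Wd
  rw [mem_filter] at hw ⊢
  exact ⟨hw.1, hw.2.1⟩

/-- a gap node divides `G * N` -/
lemma gap_dvd_GN {w e : ℕ} (hw : w ∣ N) (h : Gap cut L G w e) : e ∣ G * N :=
  (gap_dvd_word h).trans (Nat.mul_dvd_mul_left _ hw)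

lemma mem_All {n : ℕ × ℤ} (hN : 0 < N) (hG : 0 < G) : n ∈ All cut L γ σ G N m0 e₁ ↔
    ∃ w, w ∣ N ∧ Fst cut L G m0 w e₁ ∧ Gap cut L G w n.1 ∧ m0 ≤ lev L n.1 ∧
      cn L γ σ G e₁ w n.1 = n.2 := by
  classical
  unfold All
  rw [mem_image]
  constructor
  · rintro ⟨⟨w, e⟩, hp, rfl⟩
    rw [mem_filter, mem_product, mem_Wd hN] at hp
    exact ⟨w, hp.1.1.1, hp.1.1.2, hp.2.1, hp.2.2, rfl⟩
  · rintro ⟨w, h1, h2, h3, h4, h5⟩
    refine ⟨(w, n.1), ?_, ?_⟩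
    · rw [mem_filter, mem_product, mem_Wd hN, Nat.mem_divisors]
      exact ⟨⟨⟨h1, h2⟩, gap_dvd_GN h1 h3, (Nat.mul_pos hG hN).ne'⟩, h3, h4⟩
    · exact Prod.ext rfl h5

/-- the node of a word at a gap node -/
lemma node_mem {w e : ℕ} (hN : 0 < N) (hG : 0 < G) (hw : w ∣ N) (h1 : Fst cut L G m0 w e₁)
    (h : Gap cut L G w e) (hm : m0 ≤ lev L e) :
    (e, cn L γ σ G e₁ w e) ∈ All cut L γ σ G N m0 e₁ ∧
      w ∈ Sn cut L γ σ G N m0 e₁ (e, cn L γ σ G e₁ w e) :=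
  ⟨(mem_All hN hG).2 ⟨w, hw, h1, h, hm, rfl⟩, (mem_Sn hN).2 ⟨hw, h1, h, rfl⟩⟩

lemma lev_of_All {n : ℕ × ℤ} (hN : 0 < N) (hG : 0 < G) (hn : n ∈ All cut L γ σ G N m0 e₁) :
    m0 ≤ lev L n.1 := by
  obtain ⟨_, _, _, _, h, _⟩ := (mem_All hN hG).1 hn
  exact h

lemma node_nonempty {n : ℕ × ℤ} (hN : 0 < N) (hG : 0 < G)
    (hn : n ∈ All cut L γ σ G N m0 e₁) : (Sn cut L γ σ G N m0 e₁ n).Nonempty := by
  obtain ⟨w, h1, h2, h3, _, h5⟩ := (mem_All hN hG).1 hn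
  exact ⟨w, (mem_Sn hN).2 ⟨h1, h2, h3, h5⟩⟩

/-- **laminarity**, inclusion -/
theorem lam_sub {n n' : ℕ × ℤ} (hL : 0 < L) (hcut : Monotone cut) (hN : 0 < N) (hG : 0 < G)
    (hn : n ∈ All cut L γ σ G N m0 e₁) (hn' : n' ∈ All cut L γ σ G N m0 e₁)
    (hr : rkn L n ≤ rkn L n') {w : ℕ} (hw : w ∈ Sn cut L γ σ G N m0 e₁ n)
    (hw' : w ∈ Sn cut L γ σ G N m0 e₁ n') :
    Sn cut L γ σ G N m0 e₁ n' ⊆ Sn cut L γ σ G N m0 e₁ n := by
  intro v hv
  rw [mem_Sn hN] at hw hw' hv ⊢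
  have hle : n.1 ≤ n'.1 := gap_le hcut hG hr hw.2.2.1 hw'.2.2.1
  have h1 : e₁ ∣ n.1 := fst_dvd hL hcut hw.2.1 hw.2.2.1 (lev_of_All hN hG hn)
  have h2 : n.1 ∣ n'.1 := gap_dvd hL hcut hle hw.2.2.1 hw'.2.2.1
  refine ⟨hv.1, hv.2.1, gap_nested hL hcut hG hle hw.2.2.1 hw'.2.2.1 hv.2.2.1, ?_⟩
  have h3 : Nc γ (mesh L e₁) σ (G * v) ≡ Nc γ (mesh L e₁) σ (G * w) [ZMOD Qe L e₁ n'.1] :=
    hv.2.2.2.trans hw'.2.2.2.symm
  have h4 := cell_mono (Qe_dvd h1 h2) h3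
  exact (show cn L γ σ G e₁ v n.1 = cn L γ σ G e₁ w n.1 from h4).trans hw.2.2.2

/-- **laminarity**, uniqueness of the node at one level -/
theorem node_eq {n n' : ℕ × ℤ} (hcut : Monotone cut) (hN : 0 < N) (hG : 0 < G)
    (hr : rkn L n = rkn L n') {w : ℕ} (hw : w ∈ Sn cut L γ σ G N m0 e₁ n)
    (hw' : w ∈ Sn cut L γ σ G N m0 e₁ n') : n = n' := by
  rw [mem_Sn hN] at hw hw'
  have he : n.1 = n'.1 := gap_eq hcut hG hr hw.2.2.1 hw'.2.2.1
  refine Prod.ext he ?_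
  rw [← hw.2.2.2, ← hw'.2.2.2, he]

/-- **laminarity** in the form of `GWzone_9` -/
theorem lam (hL : 0 < L) (hcut : Monotone cut) (hN : 0 < N) (hG : 0 < G) :
    GWzonex9.Lam (All cut L γ σ G N m0 e₁) (Sn cut L γ σ G N m0 e₁) (rkn L) where
  lam := by
    intro n hn n' hn' hr hd
    rw [Finset.not_disjoint_iff] at hd
    obtain ⟨w, h1, h2⟩ := hd
    exact lam_sub hL hcut hN hG hn hn' hr h1 h2
  inj := by
    intro n _ n' _ hne hr
    rw [Finset.disjoint_left]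
    intro w h1 h2
    exact hne (node_eq hcut hN hG hr h1 h2)

/-- sub-families of nodes are laminar -/
theorem lam_subset {T : Finset (ℕ × ℤ)} (hT : T ⊆ All cut L γ σ G N m0 e₁) (hL : 0 < L)
    (hcut : Monotone cut) (hN : 0 < N) (hG : 0 < G) :
    GWzonex9.Lam T (Sn cut L γ σ G N m0 e₁) (rkn L) where
  lam := fun n hn n' hn' => (lam hL hcut hN hG).lam n (hT hn) n' (hT hn')
  inj := fun n hn n' hn' => (lam hL hcut hN hG).inj n (hT hn) n' (hT hn')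

/-! ### masses -/

/-- prefix mass -/
theorem gm_eq {n e : ℕ} (hN : 0 < N) (hG : 0 < G) (he : e = G * n)
    (hn : n ∣ low (cut (lev L e)) N) : gm cut L G N e = nu (low (cut (lev L e)) N) n := by
  classical
  unfold gm
  rw [← cell_mass hN (cut (lev L e)) hn]
  refine sum_congr ?_ fun _ _ => rfl
  refine filter_congr fun w _ => ?_
  unfold Gap
  constructor
  · intro h
    exact (Nat.eq_of_mul_eq_mul_left hG (he.symm.trans h)).symm
  · intro h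
    rw [h]
    exact he

/-- prefix mass from one word -/
theorem gm_of_word {w e : ℕ} (hN : 0 < N) (hG : 0 < G) (hw : w ∣ N) (h : Gap cut L G w e) :
    gm cut L G N e = nu (low (cut (lev L e)) N) (low (cut (lev L e)) w) :=
  gm_eq hN hG h (low_dvd _ hN.ne' hw)

lemma gm_nonneg (e : ℕ) : 0 ≤ gm cut L G N e := sum_nonneg fun w _ => nu_nonneg N w

lemma gm_pos {w e : ℕ} (hN : 0 < N) (hG : 0 < G) (hw : w ∣ N) (h : Gap cut L G w e) :
    0 < gm cut L G N e := by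
  rw [gm_of_word hN hG hw h]
  exact nu_pos (low_pos _ _) (low_dvd _ hN.ne' hw)

lemma gm_pos_All {n : ℕ × ℤ} (hN : 0 < N) (hG : 0 < G)
    (hn : n ∈ All cut L γ σ G N m0 e₁) : 0 < gm cut L G N n.1 := by
  obtain ⟨w, h1, _, h3, _⟩ := (mem_All hN hG).1 hn
  exact gm_pos hN hG h1 h3

/-- the mass of a node is at most the prefix mass -/
theorem sum_Sn_le (n : ℕ × ℤ) :
    ∑ w ∈ Sn cut L γ σ G N m0 e₁ n, nu N w ≤ gm cut L G N n.1 := by
  classical
  unfold gm Sn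
  refine sum_le_sum_of_subset_of_nonneg ?_ fun w _ _ => nu_nonneg N w
  intro w hw
  rw [mem_filter] at hw ⊢
  exact ⟨hw.1, hw.2.2.1⟩

/-- `∑ f ν ≤ gm` for `0 ≤ f ≤ 1` and any subset -/
theorem sum_Sn_inter_le {f : ℕ → ℝ} (h0 : ∀ w, 0 ≤ f w) (h1 : ∀ w, f w ≤ 1)
    (n : ℕ × ℤ) (B : Finset ℕ) :
    ∑ w ∈ Sn cut L γ σ G N m0 e₁ n ∩ B, nu N w * f w ≤ gm cut L G N n.1 := by
  refine le_trans ?_ (sum_Sn_le (cut := cut) (L := L) (γ := γ) (σ := σ) (G := G) (m0 := m0)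
    (N := N) (e₁ := e₁) n)
  refine (sum_le_sum fun w _ => mul_le_of_le_one_right (nu_nonneg N w) (h1 w)).trans ?_
  exact sum_le_sum_of_subset_of_nonneg inter_subset_left fun w _ _ => nu_nonneg N w

open Classical in
/-- natural mass of an event of the upper part over a prefix class -/
theorem sum_event {w₀ e : ℕ} (hN : 0 < N) (hG : 0 < G) (hw : w₀ ∣ N) (h : Gap cut L G w₀ e)
    (E : ℕ → Prop) :
    ∑ w ∈ N.divisors with (Gap cut L G w e ∧ E (upp (cut (lev L e)) w)), nu N w =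
      gm cut L G N e * ∑ u ∈ (upp (cut (lev L e)) N).divisors with E u,
        nu (upp (cut (lev L e)) N) u := by
  rw [gm_of_word hN hG hw h, ← cell_low hN (cut (lev L e)) (low_dvd _ hN.ne' hw) E]
  refine sum_congr ?_ fun _ _ => rfl
  refine filter_congr fun v _ => ?_
  have : Gap cut L G v e ↔ low (cut (lev L e)) v = low (cut (lev L e)) w₀ :=
    ⟨fun h' => gap_low hG h' h, fun h' => gap_of_low h h'.symm⟩
  rw [this]

/-- `n ν(n) = φ(R)/R`, `R = M/n` : product of the missing primes -/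
theorem mul_nu {M n : ℕ} (hM : 0 < M) (hn : n ∣ M) :
    (n : ℝ) * nu M n = ((M / n).totient : ℝ) / ((M / n : ℕ) : ℝ) := by
  have hn0 : 0 < n := Nat.pos_of_dvd_of_pos hn hM
  have hq : 0 < M / n := Nat.div_pos (Nat.le_of_dvd hM hn) hn0
  have e1 : (M : ℝ) = (n : ℝ) * ((M / n : ℕ) : ℝ) := by
    exact_mod_cast (Nat.mul_div_cancel' hn).symm
  have h1 : (0 : ℝ) < n := by exact_mod_cast hn0
  have h2 : (0 : ℝ) < ((M / n : ℕ) : ℝ) := by exact_mod_cast hq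
  unfold nu
  rw [e1]
  field_simp

/-- the energy weight of a prefix pair of the node: `gcd ν ν' = V (ν ν' / gm)`, `V ≤ 1` -/
theorem weight {w w' e : ℕ} (hN : 0 < N) (hG : 0 < G) (hw : w ∣ N)
    (h : Gap cut L G w e) (hg : Nat.gcd w w' = low (cut (lev L e)) w) :
    (Nat.gcd w w' : ℝ) * nu N w * nu N w' =
      (((low (cut (lev L e)) N / Nat.gcd w w').totient : ℝ) /
        ((low (cut (lev L e)) N / Nat.gcd w w' : ℕ) : ℝ)) *
        (nu N w * nu N w' / gm cut L G N e) := by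
  have h0 := gm_pos hN hG hw h
  rw [hg, ← mul_nu (low_pos _ _) (low_dvd _ hN.ne' hw), ← gm_of_word hN hG hw h]
  field_simp

/-! ### the position of a node -/

/-- **all words of a node have the same position modulo `1` up to `3L/e`** -/
theorem cell_pos {n : ℕ × ℤ} {w : ℕ} (hL : 0 < L) (hcut : Monotone cut) (hN : 0 < N)
    (hG : 0 < G) (hm : 2 ≤ m0) (hn : n ∈ All cut L γ σ G N m0 e₁)
    (hw : w ∈ Sn cut L γ σ G N m0 e₁ n) :
    ∃ z : ℤ, 0 ≤ (upp (cut (lev L n.1)) w : ℝ) * γ - pos L σ e₁ n - z ∧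
      (upp (cut (lev L n.1)) w : ℝ) * γ - pos L σ e₁ n - z ≤ 3 * L / n.1 := by
  rw [mem_Sn hN] at hw
  obtain ⟨hwN, hf, hg, hc⟩ := hw
  have hlev := lev_of_All hN hG hn
  have h4 : 4 * L ≤ e₁ := four_le hL hm hf.1.2
  have he1 : e₁ ∣ n.1 := fst_dvd hL hcut hf hg hlev
  have hμ := mesh_pos hL h4
  have hμ3 := (mesh_bounds hL h4).2
  have hQ := Qe_mul hL h4 he1
  have hw0 : w ≠ 0 := (Nat.pos_of_dvd_of_pos hwN hN).ne'
  have he0 : (0 : ℝ) < n.1 := by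
    have := four_le hL hm hlev
    linarith
  have hcn : ((Qe L e₁ n.1 : ℤ)) ∣ Nc γ (mesh L e₁) σ (G * w) - n.2 := by
    rw [← hc]
    unfold cn
    exact Int.dvd_self_sub_emod
  obtain ⟨z, hz⟩ := hcn
  have hz' : (Nc γ (mesh L e₁) σ (G * w) : ℝ) = n.2 + (Qe L e₁ n.1 : ℝ) * z := by
    have : Nc γ (mesh L e₁) σ (G * w) = n.2 + (Qe L e₁ n.1 : ℤ) * z := by linarith
    exact_mod_cast this
  have hrp : rp γ (mesh L e₁) σ (G * w) = ((n.2 : ℝ) - σ) * mesh L e₁ + z * n.1 := by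
    unfold rp
    rw [hz', ← hQ]
    ring
  have e1 : ((G * w : ℕ) : ℝ) = (n.1 : ℝ) * (upp (cut (lev L n.1)) w : ℝ) := by
    have : G * w = n.1 * upp (cut (lev L n.1)) w := by
      have h6 := low_mul_upp (cut (lev L n.1)) hw0
      have h7 : n.1 = G * low (cut (lev L n.1)) w := hg
      calc G * w = G * (low (cut (lev L n.1)) w * upp (cut (lev L n.1)) w) := by rw [h6]
        _ = (G * low (cut (lev L n.1)) w) * upp (cut (lev L n.1)) w := by rw [mul_assoc]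
        _ = _ := by rw [← h7]
    exact_mod_cast this
  have a1 := rp_le (γ := γ) (σ := σ) hμ (G * w)
  have a2 := lt_rp (γ := γ) (σ := σ) hμ (G * w)
  rw [hrp, e1] at a1 a2
  set u : ℝ := (upp (cut (lev L n.1)) w : ℝ) with hu
  have e2 : u * γ - pos L σ e₁ n - z =
      ((n.1 : ℝ) * u * γ - (((n.2 : ℝ) - σ) * mesh L e₁ + z * n.1)) / n.1 := by
    unfold pos
    field_simp
    ring
  refine ⟨z, ?_, ?_⟩
  · rw [e2]
    exact div_nonneg (by linarith) he0.le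
  · rw [e2]
    gcongr
    linarith

/-! ### linked pairs -/

/-- **a linked prefix pair lies in a node of one of the two grids** -/
theorem pair_node {w w' m : ℕ} {h : ℤ} (hL : 0 < L) (hcut : Monotone cut) (hN : 0 < N)
    (hG : 0 < G) (hm : 2 ≤ m0) (hmm : m0 ≤ m) (hw : w ∣ N) (hw' : w' ∣ N)
    (h1 : (2 : ℝ) ^ m * L ≤ ((G * Nat.gcd w w' : ℕ) : ℝ))
    (h2 : ((G * Nat.gcd w w' : ℕ) : ℝ) < (2 : ℝ) ^ (m + 1) * L)
    (hd : ∀ q, q.Prime → w.factorization q ≠ w'.factorization q → cut m < q)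
    (hq : ∀ q, q.Prime → q ∣ Nat.gcd w w' → q ≤ cut m)
    (hl : |(((G * w / Nat.gcd (G * w) (G * w') : ℕ) : ℝ) -
      ((G * w' / Nat.gcd (G * w) (G * w') : ℕ) : ℝ)) * γ + h| <
        L / (Nat.gcd (G * w) (G * w') : ℕ)) :
    ∃ e₁, e₁ ∣ G * N ∧ Fst cut L G m0 w e₁ ∧ Fst cut L G m0 w' e₁ ∧
      ((∃ n ∈ All cut L γ 0 G N m0 e₁, n.1 = G * Nat.gcd w w' ∧ rkn L n = m ∧
          w ∈ Sn cut L γ 0 G N m0 e₁ n ∧ w' ∈ Sn cut L γ 0 G N m0 e₁ n) ∨
        (∃ n ∈ All cut L γ (1 / 2) G N m0 e₁, n.1 = G * Nat.gcd w w' ∧ rkn L n = m ∧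
          w ∈ Sn cut L γ (1 / 2) G N m0 e₁ n ∧ w' ∈ Sn cut L γ (1 / 2) G N m0 e₁ n)) := by
  have hw0 : w ≠ 0 := (Nat.pos_of_dvd_of_pos hw hN).ne'
  have hw0' : w' ≠ 0 := (Nat.pos_of_dvd_of_pos hw' hN).ne'
  obtain ⟨g1, g2⟩ := gap_of_pair (cut := cut) hL hw0 hw0' rfl h1 h2 hd hq
  set e := G * Nat.gcd w w' with he
  have hlev : lev L e = m := lev_eq hL h1 h2
  obtain ⟨e₁, hle, hf⟩ := exists_fst (m0 := m0) g1 (by rw [hlev]; exact hmm)
  have hf' : Fst cut L G m0 w' e₁ := fst_of_gap hL hcut hG hf g1 (by rw [hlev]; exact hmm) g2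
  have h4 : 4 * L ≤ e₁ := four_le hL hm hf.1.2
  have he1 : e₁ ∣ e := fst_dvd hL hcut hf g1 (by rw [hlev]; exact hmm)
  have hμ := mesh_pos hL h4
  have hμ2 := (mesh_bounds hL h4).1
  have hQ := Qe_mul hL h4 he1
  have hgg : Nat.gcd (G * w) (G * w') = e := by rw [Nat.gcd_mul_left]
  rw [hgg] at hl
  have hg0 : 0 < e := Nat.mul_pos hG (Nat.gcd_pos_of_pos_left _ (Nat.pos_of_ne_zero hw0))
  have hb : e ∣ G * w := Nat.mul_dvd_mul_left _ (Nat.gcd_dvd_left _ _)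
  have hc : e ∣ G * w' := Nat.mul_dvd_mul_left _ (Nat.gcd_dvd_right _ _)
  refine ⟨e₁, ?_, hf, hf', ?_⟩
  · exact (gap_dvd_word hf.1.1).trans (Nat.mul_dvd_mul_left _ hw)
  · rcases linked_cell' (γ := γ) hμ hμ2 hQ hg0 dvd_rfl hb hc hl with h5 | h5
    · left
      have k1 := node_mem (γ := γ) (σ := 0) hN hG hw hf g1 (by rw [hlev]; exact hmm)
      refine ⟨_, k1.1, rfl, hlev, k1.2, ?_⟩
      rw [mem_Sn hN]
      exact ⟨hw', hf', g2, h5.symm⟩
    · right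
      have k1 := node_mem (γ := γ) (σ := 1 / 2) hN hG hw hf g1 (by rw [hlev]; exact hmm)
      refine ⟨_, k1.1, rfl, hlev, k1.2, ?_⟩
      rw [mem_Sn hN]
      exact ⟨hw', hf', g2, h5.symm⟩

/-! ### summation over the first gap nodes -/

/-- the classes `Wd e₁` are disjoint -/
theorem sum_fst (hN : 0 < N) {f : ℕ → ℝ} (hf : ∀ w, 0 ≤ f w) :
    ∑ e ∈ (G * N).divisors, ∑ w ∈ Wd cut L G N m0 e, f w ≤ ∑ w ∈ N.divisors, f w := by
  classical
  rw [← sum_biUnion]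
  · refine sum_le_sum_of_subset_of_nonneg ?_ fun w _ _ => hf w
    intro w hw
    rw [mem_biUnion] at hw
    obtain ⟨e, _, hw⟩ := hw
    rw [mem_Wd hN] at hw
    exact Nat.mem_divisors.2 ⟨hw.1, hN.ne'⟩
  · intro e _ e' _ hne
    rw [Function.onFun, Finset.disjoint_left]
    intro w h1 h2
    rw [mem_Wd hN] at h1 h2
    exact hne (fst_unique h1.2 h2.2)

end lemmas

end Crest.Agent.R4C.Nodesx5
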