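import Crest.Agent.R4C.Base_935

/-!
# Row 4: base case of the general-`M` Theorem (R) (all primes passive)

`H ∣ M`, pairs `b, c ∣ M` such that for every prime `v_p(b) = v_p(H)` or `v_p(c) = v_p(H)`.
`dn H b = H / gcd H b` (the part of `H` missing in `b`), `up H b = b / gcd H b` (the excess).
* `gcd_mul_dn`    : `gcd b c * dn H b * dn H c = H`;
* `pair_weight_le`: `gcd(b,c) ν_M(b) ν_M(c) ≤ (1/H) ν_{M/H}(up b) ν_{M/H}(up c)`;
* `box_le`, `box_rpow_le` : one dyadic box of `(dn b, dn c)`;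
* `base`          : the summed bound `24 X^{2κ-1} τ^{1-κ} (Σ ν f)^κ (Σ ν f')^κ`.
-/

set_option autoImplicit false

open Finset

namespace Crest.Agent.R4C.RBase217

open Crest.Agent.R4C.Basex935

/-- all primes passive: at every prime one of the two exponents is the one of `H` -/
def Pas (H b c : ℕ) : Prop :=
  ∀ p : ℕ, p.Prime → b.factorization p = H.factorization p ∨ c.factorization p = H.factorization p

/-- the part of `H` missing in `b` -/
def dn (H b : ℕ) : ℕ := H / Nat.gcd H b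

/-- the excess of `b` over `H` -/
def up (H b : ℕ) : ℕ := b / Nat.gcd H b

lemma Pas.symm {H b c : ℕ} (h : Pas H b c) : Pas H c b := fun p hp => (h p hp).symm

lemma dn_dvd (H b : ℕ) : dn H b ∣ H := Nat.div_dvd_of_dvd (Nat.gcd_dvd_left H b)

lemma up_dvd (H b : ℕ) : up H b ∣ b := Nat.div_dvd_of_dvd (Nat.gcd_dvd_right H b)

lemma dn_pos {H : ℕ} (hH : 0 < H) (b : ℕ) : 0 < dn H b :=
  Nat.pos_of_dvd_of_pos (dn_dvd H b) hH

lemma dn_le {H : ℕ} (hH : 0 < H) (b : ℕ) : dn H b ≤ H := Nat.le_of_dvd hH (dn_dvd H b)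

lemma up_pos {H b : ℕ} (hb : 0 < b) : 0 < up H b := Nat.pos_of_dvd_of_pos (up_dvd H b) hb

lemma dn_mul_gcd (H b : ℕ) : dn H b * Nat.gcd H b = H :=
  Nat.div_mul_cancel (Nat.gcd_dvd_left H b)

lemma up_mul_gcd (H b : ℕ) : up H b * Nat.gcd H b = b :=
  Nat.div_mul_cancel (Nat.gcd_dvd_right H b)

/-- `b · dn = H · up` -/
lemma mul_dn (H b : ℕ) : b * dn H b = H * up H b := by
  have h1 := dn_mul_gcd H b
  have h2 := up_mul_gcd H b
  calc b * dn H b = (up H b * Nat.gcd H b) * dn H b := by rw [h2]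
    _ = (dn H b * Nat.gcd H b) * up H b := by ring
    _ = H * up H b := by rw [h1]

lemma coprime_dn_up {H : ℕ} (hH : 0 < H) (b : ℕ) : Nat.Coprime (dn H b) (up H b) :=
  Nat.coprime_div_gcd_div_gcd (Nat.gcd_pos_of_pos_left _ hH)

lemma dn_factorization {H b : ℕ} (hH : 0 < H) (hb : 0 < b) (p : ℕ) :
    (dn H b).factorization p = H.factorization p - b.factorization p := by
  unfold dn
  rw [Nat.factorization_div (Nat.gcd_dvd_left H b), Nat.factorization_gcd hH.ne' hb.ne']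
  simp only [Finsupp.coe_tsub, Pi.sub_apply, Finsupp.inf_apply]
  omega

lemma up_factorization {H b : ℕ} (hH : 0 < H) (hb : 0 < b) (p : ℕ) :
    (up H b).factorization p = b.factorization p - H.factorization p := by
  unfold up
  rw [Nat.factorization_div (Nat.gcd_dvd_right H b), Nat.factorization_gcd hH.ne' hb.ne']
  simp only [Finsupp.coe_tsub, Pi.sub_apply, Finsupp.inf_apply]
  omega

lemma up_dvd_div {M H b : ℕ} (hM : 0 < M) (hH : H ∣ M) (hb : b ∣ M) : up H b ∣ M / H := by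
  have hH0 : 0 < H := Nat.pos_of_dvd_of_pos hH hM
  have hb0 : 0 < b := Nat.pos_of_dvd_of_pos hb hM
  have hq : 0 < M / H := Nat.div_pos (Nat.le_of_dvd hM hH) hH0
  rw [← Nat.factorization_le_iff_dvd (up_pos hb0).ne' hq.ne']
  intro p
  rw [up_factorization hH0 hb0, Nat.factorization_div hH]
  have h1 := (Nat.factorization_le_iff_dvd hb0.ne' hM.ne').2 hb p
  simp only [Finsupp.coe_tsub, Pi.sub_apply]
  omega

/-- **the gcd of a passive pair** -/
lemma gcd_mul_dn {H b c : ℕ} (hH : 0 < H) (hb : 0 < b) (hc : 0 < c) (h : Pas H b c) :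
    Nat.gcd b c * dn H b * dn H c = H := by
  have hg : 0 < Nat.gcd b c := Nat.gcd_pos_of_pos_left _ hb
  have h1 := dn_pos hH b
  have h2 := dn_pos hH c
  refine Nat.eq_of_factorization_eq (by positivity) hH.ne' fun p => ?_
  rw [Nat.factorization_mul (by positivity) h2.ne', Nat.factorization_mul hg.ne' h1.ne',
    Nat.factorization_gcd hb.ne' hc.ne']
  simp only [Finsupp.add_apply, Finsupp.inf_apply]
  rw [dn_factorization hH hb, dn_factorization hH hc]
  by_cases hp : p.Prime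
  · rcases h p hp with h' | h' <;> omega
  · simp [Nat.factorization_eq_zero_of_not_prime _ hp]

/-- the four parts of a passive pair are pairwise coprime (across) -/
lemma coprime_dn_dn {H b c : ℕ} (hH : 0 < H) (hb : 0 < b) (hc : 0 < c) (h : Pas H b c) :
    Nat.Coprime (dn H b) (dn H c) := by
  refine Nat.Coprime.symm (Nat.coprime_of_dvd ?_)
  intro p hp h1 h2
  have e1 := (hp.dvd_iff_one_le_factorization (dn_pos hH c).ne').1 h1
  have e2 := (hp.dvd_iff_one_le_factorization (dn_pos hH b).ne').1 h2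
  rw [dn_factorization hH hc] at e1
  rw [dn_factorization hH hb] at e2
  rcases h p hp with h' | h' <;> omega

lemma coprime_up_up {H b c : ℕ} (hH : 0 < H) (hb : 0 < b) (hc : 0 < c) (h : Pas H b c) :
    Nat.Coprime (up H b) (up H c) := by
  refine Nat.Coprime.symm (Nat.coprime_of_dvd ?_)
  intro p hp h1 h2
  have e1 := (hp.dvd_iff_one_le_factorization (up_pos hc).ne').1 h1
  have e2 := (hp.dvd_iff_one_le_factorization (up_pos hb).ne').1 h2
  rw [up_factorization hH hc] at e1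
  rw [up_factorization hH hb] at e2
  rcases h p hp with h' | h' <;> omega

lemma coprime_dn_up' {H b c : ℕ} (hH : 0 < H) (hb : 0 < b) (hc : 0 < c) (h : Pas H b c) :
    Nat.Coprime (dn H b) (up H c) := by
  refine Nat.Coprime.symm (Nat.coprime_of_dvd ?_)
  intro p hp h1 h2
  have e1 := (hp.dvd_iff_one_le_factorization (up_pos hc).ne').1 h1
  have e2 := (hp.dvd_iff_one_le_factorization (dn_pos hH b).ne').1 h2
  rw [up_factorization hH hc] at e1
  rw [dn_factorization hH hb] at e2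
  rcases h p hp with h' | h' <;> omega

/-- converse: pairwise coprime parts make a passive pair -/
lemma pas_of_coprime {H b c : ℕ} (hH : 0 < H) (hb : 0 < b) (hc : 0 < c)
    (h1 : Nat.Coprime (dn H b) (dn H c)) (h2 : Nat.Coprime (up H b) (up H c))
    (h3 : Nat.Coprime (dn H b) (up H c)) (h4 : Nat.Coprime (up H b) (dn H c)) : Pas H b c := by
  intro p hp
  by_contra hcon
  push Not at hcon
  obtain ⟨n1, n2⟩ := hcon
  have key : ∀ x y : ℕ, 0 < x → 0 < y → Nat.Coprime x y → x.factorization p = 0 ∨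
      y.factorization p = 0 := by
    intro x y hx hy hxy
    by_contra hcc
    push Not at hcc
    have d1 : p ∣ x := (hp.dvd_iff_one_le_factorization hx.ne').2 (by omega)
    have d2 : p ∣ y := (hp.dvd_iff_one_le_factorization hy.ne').2 (by omega)
    have := Nat.dvd_gcd d1 d2
    rw [hxy] at this
    exact hp.one_lt.ne' (Nat.dvd_one.1 this)
  have k1 := key _ _ (dn_pos hH b) (dn_pos hH c) h1
  have k2 := key _ _ (up_pos hb) (up_pos hc) h2
  have k3 := key _ _ (dn_pos hH b) (up_pos hc) h3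
  have k4 := key _ _ (up_pos hb) (dn_pos hH c) h4
  rw [dn_factorization hH hb] at k1 k3
  rw [dn_factorization hH hc] at k1 k4
  rw [up_factorization hH hb] at k2 k4
  rw [up_factorization hH hc] at k2 k3
  omega

/-! ### The weight of a passive pair -/

/-- local law from the level `h` on -/
lemma nup_shift {p : ℕ} {a h v : ℕ} (hha : h ≤ a) (hv : h ≤ v) :
    nup p a v = (1 / (p : ℝ)) ^ h * nup p (a - h) (v - h) := by
  unfold nup
  split_ifs with h1 h2 h2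
  · have : (1 / (p : ℝ)) ^ v = (1 / (p : ℝ)) ^ h * (1 / (p : ℝ)) ^ (v - h) := by
      rw [← pow_add]; congr 1; omega
    rw [this]; ring
  · omega
  · omega
  · rw [← pow_add]; congr 1; omega

/-- local weight inequality, case `v = h` -/
lemma local_le_left {p : ℕ} (hp : p.Prime) {a h v' : ℕ} (hha : h ≤ a) :
    (p : ℝ) ^ (min h v') * nup p a h * nup p a v' ≤
      (1 / (p : ℝ)) ^ h * (nup p (a - h) (h - h) * nup p (a - h) (v' - h)) := by
  have hp0 : (0 : ℝ) < p := by exact_mod_cast hp.pos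
  have hp1 : (1 : ℝ) / p ≤ 1 := by
    rw [div_le_one hp0]; exact_mod_cast hp.one_lt.le
  have hpw : ∀ k : ℕ, (p : ℝ) ^ k * (1 / (p : ℝ)) ^ k = 1 := by
    intro k
    rw [← mul_pow, mul_one_div_cancel hp0.ne', one_pow]
  rw [nup_shift hha le_rfl]
  have n0 := nup_nonneg hp.pos (a - h) (h - h)
  rcases le_or_gt h v' with h1 | h1
  · rw [min_eq_left h1, nup_shift hha h1]
    have e : (p : ℝ) ^ h * ((1 / (p : ℝ)) ^ h * nup p (a - h) (h - h)) *
        ((1 / (p : ℝ)) ^ h * nup p (a - h) (v' - h)) =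
        ((p : ℝ) ^ h * (1 / (p : ℝ)) ^ h) * ((1 / (p : ℝ)) ^ h *
          (nup p (a - h) (h - h) * nup p (a - h) (v' - h))) := by ring
    rw [e, hpw, one_mul]
  · rw [min_eq_right h1.le]
    have e1 : nup p a v' = (1 - 1 / (p : ℝ)) * (1 / (p : ℝ)) ^ v' := by
      unfold nup
      rw [if_pos (by omega)]
    have e2 : v' - h = 0 := by omega
    have e3 : (1 - 1 / (p : ℝ)) ≤ nup p (a - h) (v' - h) := by
      rw [e2]
      have := nup_ge hp.pos (a - h) 0 (by omega)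
      simpa using this
    rw [e1]
    have e : (p : ℝ) ^ v' * ((1 / (p : ℝ)) ^ h * nup p (a - h) (h - h)) *
        ((1 - 1 / (p : ℝ)) * (1 / (p : ℝ)) ^ v') =
        ((p : ℝ) ^ v' * (1 / (p : ℝ)) ^ v') * ((1 / (p : ℝ)) ^ h *
          (nup p (a - h) (h - h) * (1 - 1 / (p : ℝ)))) := by ring
    rw [e, hpw, one_mul]
    have h5 : (0 : ℝ) ≤ (1 / (p : ℝ)) ^ h := by positivity
    exact mul_le_mul_of_nonneg_left (mul_le_mul_of_nonneg_left e3 n0) h5

/-- local weight inequality -/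
lemma local_le {p : ℕ} (hp : p.Prime) {a h v v' : ℕ} (hha : h ≤ a)
    (hvv : v = h ∨ v' = h) :
    (p : ℝ) ^ (min v v') * nup p a v * nup p a v' ≤
      (1 / (p : ℝ)) ^ h * (nup p (a - h) (v - h) * nup p (a - h) (v' - h)) := by
  rcases hvv with rfl | rfl
  · exact local_le_left hp hha
  · have h1 := local_le_left (v' := v) hp hha
    calc (p : ℝ) ^ (min v v') * nup p a v * nup p a v'
        = (p : ℝ) ^ (min v' v) * nup p a v' * nup p a v := by rw [min_comm]; ring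
      _ ≤ _ := h1
      _ = _ := by ring

/-- decomposition of a divisor of `p^a M1` -/
lemma divisor_split {p : ℕ} (hp : p.Prime) {a M1 d : ℕ} (hM1 : 0 < M1) (h : ¬ p ∣ M1)
    (hd : d ∣ p ^ a * M1) : ∃ v d1, v ≤ a ∧ d1 ∣ M1 ∧ ¬ p ∣ d1 ∧ 0 < d1 ∧ d = p ^ v * d1 := by
  have hd0 : d ≠ 0 := by
    rintro rfl
    have h1 := Nat.eq_zero_of_zero_dvd hd
    have := pow_pos hp.pos a
    rcases Nat.mul_eq_zero.1 h1 with h2 | h2 <;> omega
  obtain ⟨v, b1, hnd, he⟩ := Nat.exists_eq_pow_mul_and_not_dvd hd0 p hp.ne_one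
  have h1 : p ^ v ∣ p ^ a * M1 := (Dvd.intro _ he.symm).trans hd
  have h2 : b1 ∣ p ^ a * M1 := (Dvd.intro_left _ he.symm).trans hd
  have hc1 : Nat.Coprime (p ^ v) M1 :=
    Nat.Coprime.pow_left v ((Nat.Prime.coprime_iff_not_dvd hp).2 h)
  have hc2 : Nat.Coprime b1 (p ^ a) :=
    (Nat.Coprime.pow_left a ((Nat.Prime.coprime_iff_not_dvd hp).2 hnd)).symm
  have h3 : p ^ v ∣ p ^ a := hc1.dvd_of_dvd_mul_right h1
  have h4 : b1 ∣ M1 := hc2.dvd_of_dvd_mul_left h2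
  have h5 : v ≤ a := (Nat.pow_dvd_pow_iff_le_right hp.one_lt).1 h3
  exact ⟨v, b1, h5, h4, hnd, Nat.pos_of_dvd_of_pos h4 hM1, he⟩

lemma fac_self {p : ℕ} (hp : p.Prime) {v d1 : ℕ} (hd : ¬ p ∣ d1) (hd0 : 0 < d1) :
    (p ^ v * d1).factorization p = v := by
  rw [Nat.factorization_mul (pow_ne_zero _ hp.ne_zero) hd0.ne', Finsupp.add_apply,
    hp.factorization_pow, Finsupp.single_eq_same, Nat.factorization_eq_zero_of_not_dvd hd,
    add_zero]

lemma fac_other {p r : ℕ} (hp : p.Prime) (hr : r ≠ p) {v d1 : ℕ} (hd0 : 0 < d1) :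
    (p ^ v * d1).factorization r = d1.factorization r := by
  rw [Nat.factorization_mul (pow_ne_zero _ hp.ne_zero) hd0.ne', Finsupp.add_apply,
    hp.factorization_pow, Finsupp.single_eq_of_ne hr, zero_add]

lemma up_split {p : ℕ} (hp : p.Prime) {h v H1 b1 : ℕ} (hH : ¬ p ∣ H1) (hb : ¬ p ∣ b1) :
    up (p ^ h * H1) (p ^ v * b1) = p ^ (v - h) * up H1 b1 := by
  unfold up
  rw [gcd_split hp h v hH hb]
  have e : p ^ v = p ^ (v - h) * p ^ (min h v) := by
    rw [← pow_add]; congr 1; omega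
  have hpos : 0 < p ^ (min h v) := pow_pos hp.pos _
  rw [Nat.mul_div_mul_comm, e, Nat.mul_div_cancel _ hpos]
  · exact pow_dvd_pow p (min_le_right _ _)
  · exact Nat.gcd_dvd_right _ _

/-- **weight of a passive pair** -/
theorem pair_weight_le : ∀ M : ℕ, 0 < M → ∀ H b c : ℕ, H ∣ M → b ∣ M → c ∣ M → Pas H b c →
    (Nat.gcd b c : ℝ) * nu M b * nu M c ≤
      (1 / (H : ℝ)) * (nu (M / H) (up H b) * nu (M / H) (up H c)) := by
  refine ind_min ?_ ?_
  · intro H b c hH hb hc _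
    have h1 : H = 1 := Nat.dvd_one.1 hH
    have h2 : b = 1 := Nat.dvd_one.1 hb
    have h3 : c = 1 := Nat.dvd_one.1 hc
    subst h1 h2 h3
    simp [nu, up]
  · intro p a M1 hp _ hM1 hnd _ ih H b c hH hb hc hpas
    obtain ⟨h, H1, hha, hH1, hpH, hH0, rfl⟩ := divisor_split hp hM1 hnd hH
    obtain ⟨v, b1, hva, hb1, hpb, hb0, rfl⟩ := divisor_split hp hM1 hnd hb
    obtain ⟨v', c1, hva', hc1, hpc, hc0, rfl⟩ := divisor_split hp hM1 hnd hc
    have hvv : v = h ∨ v' = h := by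
      have := hpas p hp
      rwa [fac_self hp hpb hb0, fac_self hp hpc hc0, fac_self hp hpH hH0] at this
    have hpas1 : Pas H1 b1 c1 := by
      intro r hr
      by_cases hrp : r = p
      · subst hrp
        left
        rw [Nat.factorization_eq_zero_of_not_dvd hpb, Nat.factorization_eq_zero_of_not_dvd hpH]
      · have := hpas r hr
        rwa [fac_other hp hrp hb0, fac_other hp hrp hc0, fac_other hp hrp hH0] at this
    have hih := ih H1 b1 c1 hH1 hb1 hc1 hpas1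
    have hloc := local_le hp (v := v) (v' := v') hha hvv
    have hcop : Nat.Coprime (p ^ a) M1 :=
      Nat.Coprime.pow_left a ((Nat.Prime.coprime_iff_not_dvd hp).2 hnd)
    have hdiv : p ^ a * M1 / (p ^ h * H1) = p ^ (a - h) * (M1 / H1) := by
      rw [Nat.mul_div_mul_comm (pow_dvd_pow p hha) hH1, Nat.pow_div hha hp.pos]
    have hndq : ¬ p ∣ M1 / H1 := fun hc' => hnd (hc'.trans (Nat.div_dvd_of_dvd hH1))
    have hcop' : Nat.Coprime (p ^ (a - h)) (M1 / H1) :=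
      Nat.Coprime.pow_left _ ((Nat.Prime.coprime_iff_not_dvd hp).2 hndq)
    rw [gcd_split hp v v' hpb hpc, nu_mul hcop (pow_dvd_pow p hva) hb1,
      nu_mul hcop (pow_dvd_pow p hva') hc1, nu_prime_pow hp hva, nu_prime_pow hp hva', hdiv,
      up_split hp hpH hpb, up_split hp hpH hpc,
      nu_mul hcop' (pow_dvd_pow p (by omega)) (up_dvd_div hM1 hH1 hb1),
      nu_mul hcop' (pow_dvd_pow p (by omega)) (up_dvd_div hM1 hH1 hc1),
      nu_prime_pow hp (by omega), nu_prime_pow hp (by omega)]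
    have e0 : (0 : ℝ) ≤ (Nat.gcd b1 c1 : ℝ) * nu M1 b1 * nu M1 c1 :=
      mul_nonneg (mul_nonneg (by positivity) (nu_nonneg _ _)) (nu_nonneg _ _)
    have e1 : (0 : ℝ) ≤ (1 / (p : ℝ)) ^ h * (nup p (a - h) (v - h) * nup p (a - h) (v' - h)) :=
      mul_nonneg (by positivity) (mul_nonneg (nup_nonneg hp.pos _ _) (nup_nonneg hp.pos _ _))
    push_cast
    calc (p : ℝ) ^ (min v v') * (Nat.gcd b1 c1 : ℝ) * (nup p a v * nu M1 b1) *
          (nup p a v' * nu M1 c1)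
        = ((p : ℝ) ^ (min v v') * nup p a v * nup p a v') *
            ((Nat.gcd b1 c1 : ℝ) * nu M1 b1 * nu M1 c1) := by ring
      _ ≤ ((1 / (p : ℝ)) ^ h * (nup p (a - h) (v - h) * nup p (a - h) (v' - h))) *
            ((1 / (H1 : ℝ)) * (nu (M1 / H1) (up H1 b1) * nu (M1 / H1) (up H1 c1))) :=
          mul_le_mul hloc hih e0 e1
      _ = _ := by
          have : (1 : ℝ) / ((p : ℝ) ^ h * (H1 : ℝ)) = (1 / (p : ℝ)) ^ h * (1 / (H1 : ℝ)) := by
            rw [one_div_pow, one_div_mul_one_div]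
          rw [this]
          ring

/-! ### One dyadic box -/

open Classical in
/-- the passive pairs with `dn b ~ 2^j`, `dn c ~ 2^i` -/
noncomputable def box (M H i j : ℕ) : Finset (ℕ × ℕ) :=
  (M.divisors ×ˢ M.divisors).filter (fun x => Pas H x.1 x.2 ∧
    (2 ^ j ≤ dn H x.1 ∧ dn H x.1 < 2 ^ (j + 1)) ∧ (2 ^ i ≤ dn H x.2 ∧ dn H x.2 < 2 ^ (i + 1)))

lemma mem_box {M H i j : ℕ} {x : ℕ × ℕ} : x ∈ box M H i j ↔
    (x.1 ∈ M.divisors ∧ x.2 ∈ M.divisors) ∧ Pas H x.1 x.2 ∧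
    (2 ^ j ≤ dn H x.1 ∧ dn H x.1 < 2 ^ (j + 1)) ∧ (2 ^ i ≤ dn H x.2 ∧ dn H x.2 < 2 ^ (i + 1)) := by
  unfold box
  simp only [mem_filter, mem_product]

/-- mass of `f` in one dyadic shell -/
noncomputable def mass (M H : ℕ) (f : ℕ → ℝ) (j : ℕ) : ℝ :=
  ∑ b ∈ M.divisors.filter (fun b => 2 ^ j ≤ dn H b ∧ dn H b < 2 ^ (j + 1)), nu M b * f b

lemma mass_nonneg (M H : ℕ) {f : ℕ → ℝ} (hf : ∀ b, 0 ≤ f b) (j : ℕ) : 0 ≤ mass M H f j :=
  sum_nonneg fun b _ => mul_nonneg (nu_nonneg _ _) (hf b)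

/-- gcd in a box, upper bound -/
lemma box_gcd_le {M H i j : ℕ} (hM : 0 < M) (hH : H ∣ M) {x : ℕ × ℕ} (hx : x ∈ box M H i j) :
    (Nat.gcd x.1 x.2 : ℝ) ≤ H / 2 ^ (i + j) := by
  rw [mem_box] at hx
  obtain ⟨⟨hb, hc⟩, hpas, ⟨hj, _⟩, hi, _⟩ := hx
  rw [Nat.mem_divisors] at hb hc
  have hH0 : 0 < H := Nat.pos_of_dvd_of_pos hH hM
  have hb0 := Nat.pos_of_dvd_of_pos hb.1 hM
  have hc0 := Nat.pos_of_dvd_of_pos hc.1 hM
  have e := gcd_mul_dn hH0 hb0 hc0 hpas
  rw [le_div_iff₀ (by positivity)]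
  have h1 : Nat.gcd x.1 x.2 * 2 ^ (i + j) ≤ H := by
    calc Nat.gcd x.1 x.2 * 2 ^ (i + j) = Nat.gcd x.1 x.2 * 2 ^ j * 2 ^ i := by ring
      _ ≤ Nat.gcd x.1 x.2 * dn H x.1 * dn H x.2 :=
          Nat.mul_le_mul (Nat.mul_le_mul_left _ hj) hi
      _ = H := e
  exact_mod_cast h1

/-- gcd in a box, lower bound -/
lemma box_gcd_gt {M H i j : ℕ} (hM : 0 < M) (hH : H ∣ M) {x : ℕ × ℕ} (hx : x ∈ box M H i j) :
    (H : ℝ) / 2 ^ (i + j) < 4 * (Nat.gcd x.1 x.2 : ℝ) := by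
  rw [mem_box] at hx
  obtain ⟨⟨hb, hc⟩, hpas, ⟨_, hj⟩, _, hi⟩ := hx
  rw [Nat.mem_divisors] at hb hc
  have hH0 : 0 < H := Nat.pos_of_dvd_of_pos hH hM
  have hb0 := Nat.pos_of_dvd_of_pos hb.1 hM
  have hc0 := Nat.pos_of_dvd_of_pos hc.1 hM
  have hg : 0 < Nat.gcd x.1 x.2 := Nat.gcd_pos_of_pos_left _ hb0
  have e := gcd_mul_dn hH0 hb0 hc0 hpas
  have h2 := dn_pos hH0 x.2
  rw [div_lt_iff₀ (by positivity)]
  have h1 : H < 4 * Nat.gcd x.1 x.2 * 2 ^ (i + j) := by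
    calc H = Nat.gcd x.1 x.2 * (dn H x.1 * dn H x.2) := by rw [← mul_assoc]; exact e.symm
      _ < Nat.gcd x.1 x.2 * (2 ^ (j + 1) * 2 ^ (i + 1)) :=
          Nat.mul_lt_mul_of_pos_left (Nat.mul_lt_mul'' hj hi) hg
      _ = 4 * Nat.gcd x.1 x.2 * 2 ^ (i + j) := by ring
  exact_mod_cast h1

/-- interpolation `min → geometric mean` -/
lemma interp {κ T A B : ℝ} (h0 : 0 ≤ κ) (h1 : κ ≤ 1) (hT : 0 ≤ T) (hA : T ≤ A) (hB : T ≤ B) :
    T ≤ A ^ κ * B ^ (1 - κ) := by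
  rcases eq_or_lt_of_le hT with h | h
  · rw [← h]
    exact mul_nonneg (Real.rpow_nonneg (hT.trans hA) _) (Real.rpow_nonneg (hT.trans hB) _)
  · calc T = T ^ κ * T ^ (1 - κ) := by
          rw [← Real.rpow_add h]; simp
      _ ≤ A ^ κ * B ^ (1 - κ) :=
          mul_le_mul (Real.rpow_le_rpow hT hA h0) (Real.rpow_le_rpow hT hB (by linarith))
            (Real.rpow_nonneg hT _) (Real.rpow_nonneg (hT.trans hA) _)

/-- energy of one box, first bound: product of the masses -/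
theorem box_le_mass {M H : ℕ} (hM : 0 < M) (hH : H ∣ M) (K : ℕ → ℕ → ℝ)
    (hK1 : ∀ b c, K b c ≤ 1) (f f' : ℕ → ℝ) (hf : ∀ b, 0 ≤ f b) (hf' : ∀ b, 0 ≤ f' b) (i j : ℕ) :
    ∑ x ∈ box M H i j, (Nat.gcd x.1 x.2 : ℝ) * nu M x.1 * nu M x.2 * K x.1 x.2 *
      (f x.1 * f' x.2) ≤ (H / 2 ^ (i + j)) * (mass M H f j * mass M H f' i) := by
  have hsub : box M H i j ⊆
      (M.divisors.filter (fun b => 2 ^ j ≤ dn H b ∧ dn H b < 2 ^ (j + 1))) ×ˢ
      (M.divisors.filter (fun b => 2 ^ i ≤ dn H b ∧ dn H b < 2 ^ (i + 1))) := by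
    intro x hx
    rw [mem_box] at hx
    rw [mem_product, mem_filter, mem_filter]
    exact ⟨⟨hx.1.1, hx.2.2.1⟩, hx.1.2, hx.2.2.2⟩
  calc ∑ x ∈ box M H i j, (Nat.gcd x.1 x.2 : ℝ) * nu M x.1 * nu M x.2 * K x.1 x.2 *
        (f x.1 * f' x.2)
      ≤ ∑ x ∈ box M H i j, (H / 2 ^ (i + j)) * ((nu M x.1 * f x.1) * (nu M x.2 * f' x.2)) := by
        refine sum_le_sum fun x hx => ?_
        have h1 := box_gcd_le hM hH hx
        have n1 := nu_nonneg M x.1
        have n2 := nu_nonneg M x.2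
        have w0 : 0 ≤ (nu M x.1 * f x.1) * (nu M x.2 * f' x.2) :=
          mul_nonneg (mul_nonneg n1 (hf _)) (mul_nonneg n2 (hf' _))
        have g0 : (0 : ℝ) ≤ (Nat.gcd x.1 x.2 : ℝ) := by positivity
        calc (Nat.gcd x.1 x.2 : ℝ) * nu M x.1 * nu M x.2 * K x.1 x.2 * (f x.1 * f' x.2)
            = K x.1 x.2 * ((Nat.gcd x.1 x.2 : ℝ) *
                ((nu M x.1 * f x.1) * (nu M x.2 * f' x.2))) := by ring
          _ ≤ 1 * ((Nat.gcd x.1 x.2 : ℝ) *
                ((nu M x.1 * f x.1) * (nu M x.2 * f' x.2))) :=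
              mul_le_mul_of_nonneg_right (hK1 _ _) (mul_nonneg g0 w0)
          _ ≤ _ := by
              rw [one_mul]
              exact mul_le_mul_of_nonneg_right h1 w0
    _ ≤ ∑ x ∈ (M.divisors.filter (fun b => 2 ^ j ≤ dn H b ∧ dn H b < 2 ^ (j + 1))) ×ˢ
          (M.divisors.filter (fun b => 2 ^ i ≤ dn H b ∧ dn H b < 2 ^ (i + 1))),
          (H / 2 ^ (i + j)) * ((nu M x.1 * f x.1) * (nu M x.2 * f' x.2)) := by
        refine sum_le_sum_of_subset_of_nonneg hsub fun x _ _ => ?_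
        have n1 := nu_nonneg M x.1
        have n2 := nu_nonneg M x.2
        have w0 : 0 ≤ (nu M x.1 * f x.1) * (nu M x.2 * f' x.2) :=
          mul_nonneg (mul_nonneg n1 (hf _)) (mul_nonneg n2 (hf' _))
        exact mul_nonneg (by positivity) w0
    _ = _ := by
        rw [← mul_sum]
        congr 1
        unfold mass
        rw [sum_mul_sum, ← sum_product']

/-- energy of one box, second bound: rarity of the kernel (mass form) -/
theorem box_le_rare {M H : ℕ} (hM : 0 < M) (hH : H ∣ M) (K : ℕ → ℕ → ℝ)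
    (hK0 : ∀ b c, 0 ≤ K b c) (f f' : ℕ → ℝ)
    (hf' : ∀ b, 0 ≤ f' b) (hf1 : ∀ b, f b ≤ 1) (hf1' : ∀ b, f' b ≤ 1) (i j : ℕ) {d : ℝ}
    (hbox : ∑ x ∈ box M H i j, nu M x.1 * nu M x.2 * K x.1 x.2 ≤ (2 ^ (i + j) / H) ^ 2 * d) :
    ∑ x ∈ box M H i j, (Nat.gcd x.1 x.2 : ℝ) * nu M x.1 * nu M x.2 * K x.1 x.2 *
      (f x.1 * f' x.2) ≤ (2 ^ (i + j) / H) * d := by
  have hH0 : 0 < H := Nat.pos_of_dvd_of_pos hH hM
  have hHr : (0 : ℝ) < H := by exact_mod_cast hH0
  calc ∑ x ∈ box M H i j, (Nat.gcd x.1 x.2 : ℝ) * nu M x.1 * nu M x.2 * K x.1 x.2 *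
        (f x.1 * f' x.2)
      ≤ ∑ x ∈ box M H i j, (H / 2 ^ (i + j)) * (nu M x.1 * nu M x.2 * K x.1 x.2) := by
        refine sum_le_sum fun x hx => ?_
        have h1 := box_gcd_le hM hH hx
        have w0 : 0 ≤ nu M x.1 * nu M x.2 * K x.1 x.2 :=
          mul_nonneg (mul_nonneg (nu_nonneg _ _) (nu_nonneg _ _)) (hK0 _ _)
        have g0 : (0 : ℝ) ≤ (Nat.gcd x.1 x.2 : ℝ) := by positivity
        have hff : f x.1 * f' x.2 ≤ 1 := by
          calc f x.1 * f' x.2 ≤ 1 * 1 := mul_le_mul (hf1 _) (hf1' _) (hf' _) zero_le_one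
            _ = 1 := one_mul 1
        calc (Nat.gcd x.1 x.2 : ℝ) * nu M x.1 * nu M x.2 * K x.1 x.2 * (f x.1 * f' x.2)
            = ((Nat.gcd x.1 x.2 : ℝ) * (nu M x.1 * nu M x.2 * K x.1 x.2)) *
                (f x.1 * f' x.2) := by ring
          _ ≤ ((Nat.gcd x.1 x.2 : ℝ) * (nu M x.1 * nu M x.2 * K x.1 x.2)) * 1 :=
              mul_le_mul_of_nonneg_left hff (mul_nonneg g0 w0)
          _ ≤ _ := by
              rw [mul_one]
              exact mul_le_mul_of_nonneg_right h1 w0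
    _ = (H / 2 ^ (i + j)) * ∑ x ∈ box M H i j, (nu M x.1 * nu M x.2 * K x.1 x.2) := by
        rw [← mul_sum]
    _ ≤ (H / 2 ^ (i + j)) * ((2 ^ (i + j) / H) ^ 2 * d) :=
        mul_le_mul_of_nonneg_left hbox (by positivity)
    _ = _ := by
        field_simp

/-- rarity in the `up` form gives rarity in the mass form (`d = 4 τ`) -/
theorem rare_of_up {M H : ℕ} (hM : 0 < M) (hH : H ∣ M) (K : ℕ → ℕ → ℝ)
    (hK0 : ∀ b c, 0 ≤ K b c) (i j : ℕ) {τ : ℝ}
    (hbox : ∑ x ∈ box M H i j, nu (M / H) (up H x.1) * nu (M / H) (up H x.2) * K x.1 x.2 ≤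
      τ * 2 ^ (i + j)) :
    ∑ x ∈ box M H i j, nu M x.1 * nu M x.2 * K x.1 x.2 ≤ (2 ^ (i + j) / H) ^ 2 * (4 * τ) := by
  have hH0 : 0 < H := Nat.pos_of_dvd_of_pos hH hM
  have hHr : (0 : ℝ) < H := by exact_mod_cast hH0
  calc ∑ x ∈ box M H i j, nu M x.1 * nu M x.2 * K x.1 x.2
      ≤ ∑ x ∈ box M H i j, (4 * (2 ^ (i + j) / H) / H) *
          (nu (M / H) (up H x.1) * nu (M / H) (up H x.2) * K x.1 x.2) := by
        refine sum_le_sum fun x hx => ?_
        have hx' := hx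
        rw [mem_box] at hx'
        obtain ⟨⟨hb, hc⟩, hpas, _⟩ := hx'
        rw [Nat.mem_divisors] at hb hc
        have hw := pair_weight_le M hM H x.1 x.2 hH hb.1 hc.1 hpas
        have hg := box_gcd_gt hM hH hx
        set g : ℝ := (Nat.gcd x.1 x.2 : ℝ) with hgdef
        have hg0 : 0 < g := by
          have : (0 : ℝ) < H / 2 ^ (i + j) := by positivity
          linarith
        have hu : 0 ≤ nu (M / H) (up H x.1) * nu (M / H) (up H x.2) :=
          mul_nonneg (nu_nonneg _ _) (nu_nonneg _ _)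
        have h1 : nu M x.1 * nu M x.2 ≤ (1 / g) * ((1 / (H : ℝ)) *
            (nu (M / H) (up H x.1) * nu (M / H) (up H x.2))) := by
          have : nu M x.1 * nu M x.2 = (1 / g) * (g * nu M x.1 * nu M x.2) := by
            field_simp
          rw [this]
          exact mul_le_mul_of_nonneg_left hw (by positivity)
        have h2 : 1 / g ≤ 4 * (2 ^ (i + j) / H) := by
          rw [div_le_iff₀ hg0]
          have h3 : (H : ℝ) / 2 ^ (i + j) * (2 ^ (i + j) / H) = 1 := by field_simp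
          have h4 : (0 : ℝ) < 2 ^ (i + j) / H := by positivity
          nlinarith
        calc nu M x.1 * nu M x.2 * K x.1 x.2
            ≤ ((1 / g) * ((1 / (H : ℝ)) *
              (nu (M / H) (up H x.1) * nu (M / H) (up H x.2)))) * K x.1 x.2 :=
              mul_le_mul_of_nonneg_right h1 (hK0 _ _)
          _ ≤ ((4 * (2 ^ (i + j) / H)) * ((1 / (H : ℝ)) *
              (nu (M / H) (up H x.1) * nu (M / H) (up H x.2)))) * K x.1 x.2 := by
              refine mul_le_mul_of_nonneg_right ?_ (hK0 _ _)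
              refine mul_le_mul_of_nonneg_right h2 ?_
              exact mul_nonneg (by positivity) hu
          _ = _ := by ring
    _ = (4 * (2 ^ (i + j) / H) / H) * ∑ x ∈ box M H i j,
          (nu (M / H) (up H x.1) * nu (M / H) (up H x.2) * K x.1 x.2) := by
        rw [← mul_sum]
    _ ≤ (4 * (2 ^ (i + j) / H) / H) * (τ * 2 ^ (i + j)) :=
        mul_le_mul_of_nonneg_left hbox (by positivity)
    _ = _ := by
        field_simp

/-- energy of one box, geometric mean of the two bounds -/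
theorem box_le_rpow {M H : ℕ} (hM : 0 < M) (hH : H ∣ M) {κ : ℝ} (h0 : 0 ≤ κ) (h1 : κ ≤ 1)
    (K : ℕ → ℕ → ℝ) (hK0 : ∀ b c, 0 ≤ K b c) (hK1 : ∀ b c, K b c ≤ 1) (f f' : ℕ → ℝ)
    (hf : ∀ b, 0 ≤ f b) (hf' : ∀ b, 0 ≤ f' b) (hf1 : ∀ b, f b ≤ 1) (hf1' : ∀ b, f' b ≤ 1)
    (i j : ℕ) {d : ℝ} (hd : 0 ≤ d)
    (hbox : ∑ x ∈ box M H i j, nu M x.1 * nu M x.2 * K x.1 x.2 ≤ (2 ^ (i + j) / H) ^ 2 * d) :
    ∑ x ∈ box M H i j, (Nat.gcd x.1 x.2 : ℝ) * nu M x.1 * nu M x.2 * K x.1 x.2 *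
      (f x.1 * f' x.2) ≤ (H / 2 ^ (i + j) : ℝ) ^ (2 * κ - 1) * d ^ (1 - κ) *
        (mass M H f j * mass M H f' i) ^ κ := by
  have hH0 : 0 < H := Nat.pos_of_dvd_of_pos hH hM
  have hHr : (0 : ℝ) < H := by exact_mod_cast hH0
  have hT : 0 ≤ ∑ x ∈ box M H i j, (Nat.gcd x.1 x.2 : ℝ) * nu M x.1 * nu M x.2 * K x.1 x.2 *
      (f x.1 * f' x.2) := by
    refine sum_nonneg fun x _ => ?_
    exact mul_nonneg (mul_nonneg (mul_nonneg (mul_nonneg (by positivity) (nu_nonneg _ _))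
      (nu_nonneg _ _)) (hK0 _ _)) (mul_nonneg (hf _) (hf' _))
  have hA := box_le_mass hM hH K hK1 f f' hf hf' i j
  have hB := box_le_rare hM hH K hK0 f f' hf' hf1 hf1' i j hbox
  refine (interp h0 h1 hT hA hB).trans (le_of_eq ?_)
  have hq : (0 : ℝ) < H / 2 ^ (i + j) := by positivity
  have hm : 0 ≤ mass M H f j * mass M H f' i :=
    mul_nonneg (mass_nonneg M H hf j) (mass_nonneg M H hf' i)
  have e1 : (2 : ℝ) ^ (i + j) / H = ((H : ℝ) / 2 ^ (i + j))⁻¹ := by rw [inv_div]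
  rw [e1, Real.mul_rpow hq.le hm, Real.mul_rpow (inv_nonneg.2 hq.le) hd, Real.inv_rpow hq.le,
    ← Real.rpow_neg hq.le]
  have e2 : (H / 2 ^ (i + j) : ℝ) ^ (2 * κ - 1) =
      (H / 2 ^ (i + j) : ℝ) ^ κ * (H / 2 ^ (i + j) : ℝ) ^ (-(1 - κ)) := by
    rw [← Real.rpow_add hq]; congr 1; ring
  rw [e2]
  ring

/-! ### The sum over the boxes -/

/-- at most three dyadic levels in a window of ratio `8` -/
lemma card_window {Y : ℝ} (s : Finset ℕ) (hs : ∀ i ∈ s, Y < 2 ^ i ∧ (2 : ℝ) ^ i ≤ 8 * Y) :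
    s.card ≤ 3 := by
  rcases s.eq_empty_or_nonempty with h | h
  · rw [h]; simp
  · have hm := s.min'_mem h
    set i0 := s.min' h with hi0
    have hsub : s ⊆ Finset.Ico i0 (i0 + 3) := by
      intro i hi
      rw [Finset.mem_Ico]
      refine ⟨s.min'_le i hi, ?_⟩
      by_contra hcon
      push Not at hcon
      have h1 := (hs i0 hm).1
      have h2 := (hs i hi).2
      have h3 : (2 : ℝ) ^ (i0 + 3) ≤ 2 ^ i := pow_le_pow_right₀ (by norm_num) hcon
      have h4 : (2 : ℝ) ^ (i0 + 3) = 8 * 2 ^ i0 := by rw [pow_add]; norm_num; ring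
      linarith
    calc s.card ≤ (Finset.Ico i0 (i0 + 3)).card := card_le_card hsub
      _ = 3 := by simp

/-- `ℓ^p ≤ ℓ^1` -/
lemma sum_rpow_le {ι : Type*} (s : Finset ι) (a : ι → ℝ) (ha : ∀ i ∈ s, 0 ≤ a i) {p : ℝ}
    (hp : 1 ≤ p) : ∑ i ∈ s, a i ^ p ≤ (∑ i ∈ s, a i) ^ p := by
  have hA : 0 ≤ ∑ i ∈ s, a i := sum_nonneg ha
  have hsplit : ∀ x : ℝ, 0 ≤ x → x ^ p = x * x ^ (p - 1) := by
    intro x hx
    rcases eq_or_lt_of_le hx with h | h
    · rw [← h, Real.zero_rpow (by linarith), zero_mul]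
    · conv_rhs => rw [← Real.rpow_one x]
      rw [← Real.rpow_mul h.le, ← Real.rpow_add h]
      congr 1
      ring
  rw [hsplit _ hA, sum_mul]
  refine sum_le_sum fun i hi => ?_
  rw [hsplit _ (ha i hi)]
  refine mul_le_mul_of_nonneg_left ?_ (ha i hi)
  exact Real.rpow_le_rpow (ha i hi) (single_le_sum ha hi) (by linarith)

lemma sum_mass_le {M H : ℕ} {f : ℕ → ℝ} (hf : ∀ b, 0 ≤ f b) (N : ℕ) :
    ∑ j ∈ range N, mass M H f j ≤ ∑ b ∈ M.divisors, nu M b * f b := by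
  unfold mass
  simp_rw [sum_filter]
  rw [sum_comm]
  refine sum_le_sum fun b _ => ?_
  have h0 : 0 ≤ nu M b * f b := mul_nonneg (nu_nonneg _ _) (hf b)
  rw [← sum_filter]
  rw [sum_const, nsmul_eq_mul]
  have hc : ((range N).filter (fun j => 2 ^ j ≤ dn H b ∧ dn H b < 2 ^ (j + 1))).card ≤ 1 := by
    rw [card_le_one]
    intro j hj j' hj'
    rw [mem_filter] at hj hj'
    rcases lt_trichotomy j j' with h | h | h
    · have : 2 ^ (j + 1) ≤ 2 ^ j' := Nat.pow_le_pow_right (by norm_num) h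
      omega
    · exact h
    · have : 2 ^ (j' + 1) ≤ 2 ^ j := Nat.pow_le_pow_right (by norm_num) h
      omega
  have hc' : (((range N).filter (fun j => 2 ^ j ≤ dn H b ∧ dn H b < 2 ^ (j + 1))).card : ℝ) ≤ 1 := by
    exact_mod_cast hc
  nlinarith

/-- bilinear Cauchy over a set of index pairs with at most three partners on both sides -/
lemma cauchy_three {a a' : ℕ → ℝ} (N : ℕ)
    (P : Finset (ℕ × ℕ)) (hP : P ⊆ range N ×ˢ range N)
    (h1 : ∀ j, (P.filter (fun y => y.1 = j)).card ≤ 3)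
    (h2 : ∀ i, (P.filter (fun y => y.2 = i)).card ≤ 3) :
    ∑ y ∈ P, a y.1 * a' y.2 ≤
      3 * (Real.sqrt (∑ j ∈ range N, a j ^ 2) * Real.sqrt (∑ i ∈ range N, a' i ^ 2)) := by
  have key1 : ∑ y ∈ P, a y.1 ^ 2 ≤ 3 * ∑ j ∈ range N, a j ^ 2 := by
    rw [← sum_fiberwise_of_maps_to (s := P) (t := range N) (g := fun y => y.1)
      (fun y hy => (mem_product.1 (hP hy)).1), mul_sum]
    refine sum_le_sum fun j _ => ?_
    calc ∑ y ∈ P with y.1 = j, a y.1 ^ 2 = ∑ y ∈ P with y.1 = j, a j ^ 2 := by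
          refine sum_congr rfl fun y hy => ?_
          rw [mem_filter] at hy
          rw [hy.2]
      _ = ((P.filter (fun y => y.1 = j)).card : ℝ) * a j ^ 2 := by
          rw [sum_const, nsmul_eq_mul]
      _ ≤ 3 * a j ^ 2 := by
          refine mul_le_mul_of_nonneg_right ?_ (sq_nonneg _)
          exact_mod_cast h1 j
  have key2 : ∑ y ∈ P, a' y.2 ^ 2 ≤ 3 * ∑ j ∈ range N, a' j ^ 2 := by
    rw [← sum_fiberwise_of_maps_to (s := P) (t := range N) (g := fun y => y.2)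
      (fun y hy => (mem_product.1 (hP hy)).2), mul_sum]
    refine sum_le_sum fun j _ => ?_
    calc ∑ y ∈ P with y.2 = j, a' y.2 ^ 2 = ∑ y ∈ P with y.2 = j, a' j ^ 2 := by
          refine sum_congr rfl fun y hy => ?_
          rw [mem_filter] at hy
          rw [hy.2]
      _ = ((P.filter (fun y => y.2 = j)).card : ℝ) * a' j ^ 2 := by
          rw [sum_const, nsmul_eq_mul]
      _ ≤ 3 * a' j ^ 2 := by
          refine mul_le_mul_of_nonneg_right ?_ (sq_nonneg _)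
          exact_mod_cast h2 j
  have hcs := Real.sum_mul_le_sqrt_mul_sqrt P (fun y => a y.1) (fun y => a' y.2)
  have s1 : Real.sqrt (∑ y ∈ P, a y.1 ^ 2) ≤ Real.sqrt 3 * Real.sqrt (∑ j ∈ range N, a j ^ 2) := by
    rw [← Real.sqrt_mul (by norm_num)]
    exact Real.sqrt_le_sqrt key1
  have s2 : Real.sqrt (∑ y ∈ P, a' y.2 ^ 2) ≤
      Real.sqrt 3 * Real.sqrt (∑ j ∈ range N, a' j ^ 2) := by
    rw [← Real.sqrt_mul (by norm_num)]
    exact Real.sqrt_le_sqrt key2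
  have h3 : Real.sqrt 3 * Real.sqrt 3 = 3 := Real.mul_self_sqrt (by norm_num)
  calc ∑ y ∈ P, a y.1 * a' y.2
      ≤ Real.sqrt (∑ y ∈ P, a y.1 ^ 2) * Real.sqrt (∑ y ∈ P, a' y.2 ^ 2) := hcs
    _ ≤ (Real.sqrt 3 * Real.sqrt (∑ j ∈ range N, a j ^ 2)) *
          (Real.sqrt 3 * Real.sqrt (∑ j ∈ range N, a' j ^ 2)) :=
        mul_le_mul s1 s2 (Real.sqrt_nonneg _) (by positivity)
    _ = (Real.sqrt 3 * Real.sqrt 3) * (Real.sqrt (∑ j ∈ range N, a j ^ 2) *
          Real.sqrt (∑ i ∈ range N, a' i ^ 2)) := by ring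
    _ = _ := by rw [h3]

open Classical in
/-- **BASE CASE**: all primes passive.  The kernel is `d`-rare in every box
(`Σ_{box} ν ν K ≤ 4^{i+j}/H² · d`). -/
theorem base {M H : ℕ} (hM : 0 < M) (hH : H ∣ M) {κ : ℝ} (h0 : 1 / 2 ≤ κ) (h1 : κ ≤ 1)
    (K : ℕ → ℕ → ℝ) (hK0 : ∀ b c, 0 ≤ K b c) (hK1 : ∀ b c, K b c ≤ 1) (f f' : ℕ → ℝ)
    (hf : ∀ b, 0 ≤ f b) (hf' : ∀ b, 0 ≤ f' b) (hf1 : ∀ b, f b ≤ 1) (hf1' : ∀ b, f' b ≤ 1)
    {d : ℝ} (hd : 0 ≤ d)
    (hbox : ∀ i j : ℕ,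
      ∑ x ∈ box M H i j, nu M x.1 * nu M x.2 * K x.1 x.2 ≤ (2 ^ (i + j) / H) ^ 2 * d)
    {X : ℝ} (hX : 0 < X) :
    ∑ x ∈ (M.divisors ×ˢ M.divisors).filter (fun x => Pas H x.1 x.2 ∧
        X ≤ (Nat.gcd x.1 x.2 : ℝ) ∧ (Nat.gcd x.1 x.2 : ℝ) < 2 * X),
      (Nat.gcd x.1 x.2 : ℝ) * nu M x.1 * nu M x.2 * K x.1 x.2 * (f x.1 * f' x.2) ≤
    24 * X ^ (2 * κ - 1) * d ^ (1 - κ) *
      ((∑ b ∈ M.divisors, nu M b * f b) ^ κ * (∑ b ∈ M.divisors, nu M b * f' b) ^ κ) := by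
  have hH0 : 0 < H := Nat.pos_of_dvd_of_pos hH hM
  have hHr : (0 : ℝ) < H := by exact_mod_cast hH0
  have hκ0 : 0 ≤ κ := by linarith
  set S := (M.divisors ×ˢ M.divisors).filter (fun x => Pas H x.1 x.2 ∧
        X ≤ (Nat.gcd x.1 x.2 : ℝ) ∧ (Nat.gcd x.1 x.2 : ℝ) < 2 * X) with hS
  set W : ℕ × ℕ → ℝ := fun x => (Nat.gcd x.1 x.2 : ℝ) * nu M x.1 * nu M x.2 * K x.1 x.2 *
    (f x.1 * f' x.2) with hW
  have hW0 : ∀ x, 0 ≤ W x := fun x =>
    mul_nonneg (mul_nonneg (mul_nonneg (mul_nonneg (by positivity) (nu_nonneg _ _))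
      (nu_nonneg _ _)) (hK0 _ _)) (mul_nonneg (hf _) (hf' _))
  set N := Nat.log 2 H + 1 with hN
  set ty : ℕ × ℕ → ℕ × ℕ := fun x => (Nat.log 2 (dn H x.1), Nat.log 2 (dn H x.2)) with hty
  have hmaps : ∀ x ∈ S, ty x ∈ range N ×ˢ range N := by
    intro x _
    rw [mem_product, mem_range, mem_range]
    have k1 : Nat.log 2 (dn H x.1) ≤ Nat.log 2 H := Nat.log_mono_right (dn_le hH0 x.1)
    have k2 : Nat.log 2 (dn H x.2) ≤ Nat.log 2 H := Nat.log_mono_right (dn_le hH0 x.2)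
    simp only [hty, hN]
    omega
  -- a fibre lies in its box
  have hfib : ∀ x ∈ S, x ∈ box M H (ty x).2 (ty x).1 := by
    intro x hx
    rw [hS, mem_filter, mem_product] at hx
    rw [mem_box]
    refine ⟨hx.1, hx.2.1, ⟨?_, ?_⟩, ?_, ?_⟩
    · exact Nat.pow_log_le_self 2 (dn_pos hH0 _).ne'
    · exact Nat.lt_pow_succ_log_self (by norm_num) _
    · exact Nat.pow_log_le_self 2 (dn_pos hH0 _).ne'
    · exact Nat.lt_pow_succ_log_self (by norm_num) _
  -- admissible index pairs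
  set P := (range N ×ˢ range N).filter (fun y : ℕ × ℕ =>
    (H : ℝ) / 2 ^ (y.2 + y.1) < 8 * X ∧ X ≤ (H : ℝ) / 2 ^ (y.2 + y.1)) with hP
  have hadm : ∀ x ∈ S, (H : ℝ) / 2 ^ ((ty x).2 + (ty x).1) < 8 * X ∧
      X ≤ (H : ℝ) / 2 ^ ((ty x).2 + (ty x).1) := by
    intro x hx
    have hb := hfib x hx
    have g1 := box_gcd_le hM hH hb
    have g2 := box_gcd_gt hM hH hb
    rw [hS, mem_filter] at hx
    exact ⟨by linarith [hx.2.2.2], hx.2.2.1.trans g1⟩
  have hPcard1 : ∀ j, (P.filter (fun y => y.1 = j)).card ≤ 3 := by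
    intro j
    have hinj : (P.filter (fun y => y.1 = j)).card ≤
        ((P.filter (fun y => y.1 = j)).image (fun y => y.2)).card := by
      rw [card_image_of_injOn]
      intro y hy y' hy' he
      rw [mem_coe, mem_filter] at hy hy'
      exact Prod.ext (hy.2.trans hy'.2.symm) he
    refine hinj.trans (card_window (Y := H / (8 * X * 2 ^ j)) _ ?_)
    intro i hi
    rw [mem_image] at hi
    obtain ⟨y, hy, rfl⟩ := hi
    rw [mem_filter, hP, mem_filter] at hy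
    obtain ⟨⟨_, g1, g2⟩, rfl⟩ := hy
    constructor
    · rw [div_lt_iff₀ (by positivity)] at g1 ⊢
      calc (H : ℝ) < 8 * X * 2 ^ (y.2 + y.1) := g1
        _ = _ := by rw [pow_add]; ring
    · rw [le_div_iff₀ (by positivity)] at g2
      have : 8 * ((H : ℝ) / (8 * X * 2 ^ y.1)) = H / (X * 2 ^ y.1) := by
        field_simp
      rw [this, le_div_iff₀ (by positivity)]
      calc (2 : ℝ) ^ y.2 * (X * 2 ^ y.1) = X * 2 ^ (y.2 + y.1) := by rw [pow_add]; ring
        _ ≤ H := g2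
  have hPcard2 : ∀ i, (P.filter (fun y => y.2 = i)).card ≤ 3 := by
    intro j
    have hinj : (P.filter (fun y => y.2 = j)).card ≤
        ((P.filter (fun y => y.2 = j)).image (fun y => y.1)).card := by
      rw [card_image_of_injOn]
      intro y hy y' hy' he
      rw [mem_coe, mem_filter] at hy hy'
      exact Prod.ext he (hy.2.trans hy'.2.symm)
    refine hinj.trans (card_window (Y := H / (8 * X * 2 ^ j)) _ ?_)
    intro i hi
    rw [mem_image] at hi
    obtain ⟨y, hy, rfl⟩ := hi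
    rw [mem_filter, hP, mem_filter] at hy
    obtain ⟨⟨_, g1, g2⟩, rfl⟩ := hy
    constructor
    · rw [div_lt_iff₀ (by positivity)] at g1 ⊢
      calc (H : ℝ) < 8 * X * 2 ^ (y.2 + y.1) := g1
        _ = _ := by rw [pow_add]; ring
    · rw [le_div_iff₀ (by positivity)] at g2
      have : 8 * ((H : ℝ) / (8 * X * 2 ^ y.2)) = H / (X * 2 ^ y.2) := by
        field_simp
      rw [this, le_div_iff₀ (by positivity)]
      calc (2 : ℝ) ^ y.1 * (X * 2 ^ y.2) = X * 2 ^ (y.2 + y.1) := by rw [pow_add]; ring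
        _ ≤ H := g2
  -- the constant of one box
  set D : ℝ := (8 * X) ^ (2 * κ - 1) * d ^ (1 - κ) with hD
  have hD0 : 0 ≤ D := mul_nonneg (Real.rpow_nonneg (by positivity) _) (Real.rpow_nonneg hd _)
  have hstep : ∀ y ∈ range N ×ˢ range N, ∑ x ∈ S with ty x = y, W x ≤
      if y ∈ P then D * (mass M H f y.1 ^ κ * mass M H f' y.2 ^ κ) else 0 := by
    intro y hy
    rcases (S.filter (fun x => ty x = y)).eq_empty_or_nonempty with he | ⟨x0, hx0⟩
    · rw [he, sum_empty]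
      split_ifs
      · exact mul_nonneg hD0 (mul_nonneg (Real.rpow_nonneg (mass_nonneg M H hf _) _)
          (Real.rpow_nonneg (mass_nonneg M H hf' _) _))
      · exact le_rfl
    · have hx0' := hx0
      rw [mem_filter] at hx0
      have ha := hadm x0 hx0.1
      rw [hx0.2] at ha
      have hyP : y ∈ P := by
        rw [hP, mem_filter]
        exact ⟨hy, ha⟩
      rw [if_pos hyP]
      have hsub : S.filter (fun x => ty x = y) ⊆ box M H y.2 y.1 := by
        intro x hx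
        rw [mem_filter] at hx
        have := hfib x hx.1
        rwa [hx.2] at this
      have h2 := box_le_rpow hM hH hκ0 h1 K hK0 hK1 f f' hf hf' hf1 hf1' y.2 y.1 hd
        (hbox y.2 y.1)
      calc ∑ x ∈ S with ty x = y, W x ≤ ∑ x ∈ box M H y.2 y.1, W x :=
            sum_le_sum_of_subset_of_nonneg hsub fun x _ _ => hW0 x
        _ ≤ (H / 2 ^ (y.2 + y.1) : ℝ) ^ (2 * κ - 1) * d ^ (1 - κ) *
            (mass M H f y.1 * mass M H f' y.2) ^ κ := h2
        _ ≤ D * (mass M H f y.1 * mass M H f' y.2) ^ κ := by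
            refine mul_le_mul_of_nonneg_right ?_ (Real.rpow_nonneg
              (mul_nonneg (mass_nonneg M H hf _) (mass_nonneg M H hf' _)) _)
            rw [hD]
            refine mul_le_mul_of_nonneg_right ?_ (Real.rpow_nonneg hd _)
            exact Real.rpow_le_rpow (by positivity) ha.1.le (by linarith)
        _ = _ := by rw [Real.mul_rpow (mass_nonneg M H hf _) (mass_nonneg M H hf' _)]
  have hsq : ∀ (g : ℕ → ℝ), (∀ b, 0 ≤ g b) →
      Real.sqrt (∑ j ∈ range N, (mass M H g j ^ κ) ^ 2) ≤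
        (∑ b ∈ M.divisors, nu M b * g b) ^ κ := by
    intro g hg
    have e1 : ∀ j, (mass M H g j ^ κ) ^ 2 = mass M H g j ^ (2 * κ) := by
      intro j
      rw [mul_comm 2 κ, Real.rpow_mul (mass_nonneg M H hg j)]
      norm_num
    have hA : 0 ≤ ∑ b ∈ M.divisors, nu M b * g b :=
      sum_nonneg fun b _ => mul_nonneg (nu_nonneg _ _) (hg b)
    simp_rw [e1]
    rw [Real.sqrt_le_left (Real.rpow_nonneg hA _)]
    calc ∑ j ∈ range N, mass M H g j ^ (2 * κ)
        ≤ (∑ j ∈ range N, mass M H g j) ^ (2 * κ) :=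
          sum_rpow_le _ _ (fun j _ => mass_nonneg M H hg j) (by linarith)
      _ ≤ (∑ b ∈ M.divisors, nu M b * g b) ^ (2 * κ) :=
          Real.rpow_le_rpow (sum_nonneg fun j _ => mass_nonneg M H hg j) (sum_mass_le hg N)
            (by linarith)
      _ = ((∑ b ∈ M.divisors, nu M b * g b) ^ κ) ^ 2 := by
          rw [mul_comm 2 κ, Real.rpow_mul hA]
          norm_num
  have hA0 : ∀ g : ℕ → ℝ, (∀ b, 0 ≤ g b) → 0 ≤ (∑ b ∈ M.divisors, nu M b * g b) ^ κ :=
    fun g hg => Real.rpow_nonneg (sum_nonneg fun b _ => mul_nonneg (nu_nonneg _ _) (hg b)) _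
  have hc := cauchy_three (a := fun j => mass M H f j ^ κ) (a' := fun j => mass M H f' j ^ κ) N P
    (hP ▸ filter_subset _ _) hPcard1 hPcard2
  have h8 : D ≤ 8 * X ^ (2 * κ - 1) * d ^ (1 - κ) := by
    rw [hD, Real.mul_rpow (by norm_num) hX.le]
    refine mul_le_mul_of_nonneg_right ?_ (Real.rpow_nonneg hd _)
    refine mul_le_mul_of_nonneg_right ?_ (Real.rpow_nonneg hX.le _)
    calc (8 : ℝ) ^ (2 * κ - 1) ≤ 8 ^ (1 : ℝ) :=
          Real.rpow_le_rpow_of_exponent_le (by norm_num) (by linarith)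
      _ = 8 := Real.rpow_one 8
  calc ∑ x ∈ S, W x = ∑ y ∈ range N ×ˢ range N, ∑ x ∈ S with ty x = y, W x :=
        (sum_fiberwise_of_maps_to hmaps _).symm
    _ ≤ ∑ y ∈ range N ×ˢ range N,
        if y ∈ P then D * (mass M H f y.1 ^ κ * mass M H f' y.2 ^ κ) else 0 := sum_le_sum hstep
    _ = D * ∑ y ∈ P, mass M H f y.1 ^ κ * mass M H f' y.2 ^ κ := by
        rw [← sum_filter, mul_sum]
        refine sum_congr ?_ fun _ _ => rfl
        ext y
        rw [mem_filter]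
        constructor
        · exact fun h => h.2
        · intro h
          refine ⟨?_, h⟩
          rw [hP] at h
          exact (mem_filter.1 h).1
    _ ≤ D * (3 * (Real.sqrt (∑ j ∈ range N, (mass M H f j ^ κ) ^ 2) *
          Real.sqrt (∑ j ∈ range N, (mass M H f' j ^ κ) ^ 2))) :=
        mul_le_mul_of_nonneg_left hc hD0
    _ ≤ D * (3 * ((∑ b ∈ M.divisors, nu M b * f b) ^ κ *
          (∑ b ∈ M.divisors, nu M b * f' b) ^ κ)) := by
        refine mul_le_mul_of_nonneg_left ?_ hD0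
        refine mul_le_mul_of_nonneg_left ?_ (by norm_num)
        exact mul_le_mul (hsq f hf) (hsq f' hf') (Real.sqrt_nonneg _) (hA0 f hf)
    _ ≤ (8 * X ^ (2 * κ - 1) * d ^ (1 - κ)) * (3 * ((∑ b ∈ M.divisors, nu M b * f b) ^ κ *
          (∑ b ∈ M.divisors, nu M b * f' b) ^ κ)) := by
        refine mul_le_mul_of_nonneg_right h8 ?_
        exact mul_nonneg (by norm_num) (mul_nonneg (hA0 f hf) (hA0 f' hf'))
    _ = _ := by ring

end Crest.Agent.R4C.RBase217
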