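import Mathlib
import Crest.Agent.R4C.OneP_19
import Crest.Agent.R4C.ThmR_19
import Crest.Agent.R4C.Base_935
import Crest.Agent.R4C.RBase_217
import Crest.Agent.R4C.Rough_882

/-!
# Row 4, BLOCK S3 (III): the non-pure part of Theorem C in `L²` form (helper19)

Cells `(Mb, D, H)`: `Mb` = full prime powers of the branched primes (all primes `< X` included),
`D ∣ Mb` the letters read there, `H ∣ M/Mb` the centre of the passive primes (all `> X`).
Good pairs of one cell which are not pure (`dn H b' ≠ 1` or `dn H c' ≠ 1`) cost at most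
`C (log X)^(-1/2)` in every dyadic window, for every `F ≥ 0`, even without the thinning `V`.
-/

set_option autoImplicit false
set_option linter.unusedVariables false

namespace Crest.Agent.R4C.NonPurex19

open Finset Real Crest.Agent.R4C.Basex935 Crest.Agent.R4C.RBase217
open scoped Classical

/-- natural mass of the multiples of `h` -/
lemma sum_nu_dvd {M h : ℕ} (hM : 0 < M) (hh : h ∣ M) :
    ∑ b ∈ M.divisors.filter (fun b => h ∣ b), nu M b = 1 / (h : ℝ) := by
  obtain ⟨N, rfl⟩ := hh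
  have hh0 : 0 < h := Nat.pos_of_mul_pos_right hM
  have hN : 0 < N := Nat.pos_of_mul_pos_left hM
  have himg : (h * N).divisors.filter (fun b => h ∣ b) = N.divisors.image (fun x => h * x) := by
    ext b
    simp only [Finset.mem_filter, Nat.mem_divisors, Finset.mem_image]
    constructor
    · rintro ⟨⟨h1, h2⟩, ⟨x, rfl⟩⟩
      exact ⟨x, ⟨(Nat.mul_dvd_mul_iff_left hh0).1 h1, hN.ne'⟩, rfl⟩
    · rintro ⟨x, ⟨h1, h2⟩, rfl⟩
      exact ⟨⟨Nat.mul_dvd_mul_left h h1, hM.ne'⟩, Dvd.intro _ rfl⟩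
  rw [himg, Finset.sum_image (fun x _ y _ e => Nat.eq_of_mul_eq_mul_left hh0 e)]
  have e : ∀ x ∈ N.divisors, nu (h * N) (h * x) = (1 / (h:ℝ)) * nu N x := by
    intro x hx
    have hxN := Nat.dvd_of_mem_divisors hx
    unfold nu
    rw [Nat.mul_div_mul_left N x hh0]
    push_cast
    have : (h:ℝ) ≠ 0 := by exact_mod_cast hh0.ne'
    have : (N:ℝ) ≠ 0 := by exact_mod_cast hN.ne'
    field_simp
  rw [Finset.sum_congr rfl e, ← Finset.mul_sum, sum_nu hN, mul_one]

/-- natural mass of the words with missing part exactly `l` -/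
lemma sum_nu_dn {M H l : ℕ} (hM : 0 < M) (hH : H ∣ M) (hl : 0 < l) :
    ∑ b ∈ M.divisors.filter (fun b => dn H b = l), nu M b ≤ (l : ℝ) / H := by
  have hH0 : 0 < H := Nat.pos_of_dvd_of_pos hH hM
  by_cases hlH : l ∣ H
  · have hd : H / l ∣ M := (Nat.div_dvd_of_dvd hlH).trans hH
    calc ∑ b ∈ M.divisors.filter (fun b => dn H b = l), nu M b
        ≤ ∑ b ∈ M.divisors.filter (fun b => H / l ∣ b), nu M b := by
          refine Finset.sum_le_sum_of_subset_of_nonneg ?_ fun b _ _ => nu_nonneg _ _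
          intro b hb
          rw [Finset.mem_filter] at hb ⊢
          refine ⟨hb.1, ?_⟩
          rw [← hb.2]
          unfold dn
          rw [Nat.div_div_self (Nat.gcd_dvd_left H b) hH0.ne']
          exact Nat.gcd_dvd_right H b
      _ = 1 / ((H / l : ℕ) : ℝ) := sum_nu_dvd hM hd
      _ = (l : ℝ) / H := by
          rw [Nat.cast_div hlH (by exact_mod_cast hl.ne')]
          rw [one_div_div]
  · have : M.divisors.filter (fun b => dn H b = l) = ∅ := by
      rw [Finset.filter_eq_empty_iff]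
      intro b _ h
      exact hlH (h ▸ dn_dvd H b)
    rw [this, Finset.sum_empty]
    positivity

/-- all primes of `l` are `> Z` -/
def rgh (Z : ℝ) (l : ℕ) : Prop := ∀ p : ℕ, p.Prime → p ∣ l → Z < p

/-- number of admissible missing parts of dyadic size `i` -/
noncomputable def Nl (Z : ℝ) (H i : ℕ) : ℝ :=
  ((H.divisors.filter (fun l => Nat.log 2 l = i ∧ rgh Z l)).card : ℝ)

/-- the words with missing part of dyadic size `i`, `Z`-rough -/
noncomputable def Dc (Z : ℝ) (M H i : ℕ) : Finset ℕ :=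
  M.divisors.filter (fun b => Nat.log 2 (dn H b) = i ∧ rgh Z (dn H b))

lemma Nl_le_pow (Z : ℝ) (H i : ℕ) : Nl Z H i ≤ 2 ^ i := by
  unfold Nl
  have : H.divisors.filter (fun l => Nat.log 2 l = i ∧ rgh Z l) ⊆
      Finset.Ico (2 ^ i) (2 ^ (i + 1)) := by
    intro l hl
    obtain ⟨h1, h2, _⟩ := Finset.mem_filter.1 hl
    have hl0 : l ≠ 0 := (Nat.pos_of_mem_divisors h1).ne'
    rw [Finset.mem_Ico, ← h2]
    exact ⟨Nat.pow_log_le_self 2 hl0, Nat.lt_pow_succ_log_self (by norm_num) _⟩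
  have h := Finset.card_le_card this
  rw [Nat.card_Ico] at h
  have e : 2 ^ (i + 1) - 2 ^ i = 2 ^ i := by rw [pow_succ]; omega
  rw [e] at h
  exact_mod_cast h

/-- mass of a dyadic class -/
lemma sum_nu_class (Z : ℝ) {M H : ℕ} (hM : 0 < M) (hH : H ∣ M) (i : ℕ) :
    ∑ b ∈ Dc Z M H i, nu M b ≤ Nl Z H i * 2 ^ (i + 1) / H := by
  have hH0 : 0 < H := Nat.pos_of_dvd_of_pos hH hM
  have hmap : ∀ b ∈ Dc Z M H i,
      dn H b ∈ H.divisors.filter (fun l => Nat.log 2 l = i ∧ rgh Z l) := by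
    intro b hb
    unfold Dc at hb
    rw [Finset.mem_filter] at hb ⊢
    exact ⟨Nat.mem_divisors.2 ⟨dn_dvd H b, hH0.ne'⟩, hb.2⟩
  rw [← Finset.sum_fiberwise_of_maps_to hmap]
  calc _ ≤ ∑ l ∈ H.divisors.filter (fun l => Nat.log 2 l = i ∧ rgh Z l),
        (2:ℝ) ^ (i + 1) / H := by
        refine Finset.sum_le_sum fun l hl => ?_
        obtain ⟨h1, h2, _⟩ := Finset.mem_filter.1 hl
        have hl0 : 0 < l := Nat.pos_of_mem_divisors h1
        have hl2 : (l : ℝ) ≤ 2 ^ (i + 1) := by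
          have := Nat.lt_pow_succ_log_self (b := 2) (by norm_num) l
          rw [h2] at this
          exact_mod_cast this.le
        calc _ ≤ ∑ b ∈ M.divisors.filter (fun b => dn H b = l), nu M b := by
              refine Finset.sum_le_sum_of_subset_of_nonneg ?_ fun b _ _ => nu_nonneg _ _
              intro b hb
              unfold Dc at hb
              rw [Finset.mem_filter, Finset.mem_filter] at hb
              exact Finset.mem_filter.2 ⟨hb.1.1, hb.2⟩
          _ ≤ (l : ℝ) / H := sum_nu_dn hM hH hl0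
          _ ≤ _ := by gcongr
    _ = _ := by
        rw [Finset.sum_const, nsmul_eq_mul, mul_div_assoc]
        rfl

/-- Cauchy on one dyadic class -/
lemma class_cauchy (Z : ℝ) {M H : ℕ} (hM : 0 < M) (hH : H ∣ M) (i : ℕ) (F : ℕ → ℝ)
    (hF : ∀ b, 0 ≤ F b) :
    ∑ b ∈ Dc Z M H i, nu M b * F b ≤
      √(Nl Z H i * 2 ^ (i + 1) / H) * √(∑ b ∈ Dc Z M H i, nu M b * F b ^ 2) := by
  set s := Dc Z M H i with hs
  have h1 : ∑ b ∈ s, nu M b * F b = ∑ b ∈ s, √(nu M b) * √(nu M b * F b ^ 2) := by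
    refine Finset.sum_congr rfl fun b _ => ?_
    have h0 := nu_nonneg M b
    rw [Real.sqrt_mul h0, Real.sqrt_sq (hF b), ← mul_assoc, Real.mul_self_sqrt h0]
  rw [h1]
  refine (Real.sum_sqrt_mul_sqrt_le s (fun b => nu_nonneg M b)
    (fun b => mul_nonneg (nu_nonneg M b) (sq_nonneg _))).trans ?_
  gcongr
  exact sum_nu_class Z hM hH i

/-- **one cell, one dyadic box** -/
lemma box (Z : ℝ) {M H : ℕ} (hM : 0 < M) (hH : H ∣ M) (i j : ℕ) (F F' : ℕ → ℝ)
    (hF : ∀ b, 0 ≤ F b) (hF' : ∀ b, 0 ≤ F' b) :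
    ∑ b ∈ Dc Z M H i, ∑ c ∈ Dc Z M H j,
        (if Pas H b c then (Nat.gcd b c : ℝ) * nu M b * nu M c * (F b * F' c) else 0) ≤
      2 * √(Nl Z H i / 2 ^ i * (Nl Z H j / 2 ^ j)) *
        (√(∑ b ∈ Dc Z M H i, nu M b * F b ^ 2) * √(∑ b ∈ Dc Z M H j, nu M b * F' b ^ 2)) := by
  have hH0 : 0 < H := Nat.pos_of_dvd_of_pos hH hM
  have hHr : (0:ℝ) < H := by exact_mod_cast hH0
  have hi2 : ∀ b ∈ Dc Z M H i, Nat.log 2 (dn H b) = i := fun b hb =>
    (Finset.mem_filter.1 hb).2.1
  have hj2 : ∀ b ∈ Dc Z M H j, Nat.log 2 (dn H b) = j := fun b hb =>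
    (Finset.mem_filter.1 hb).2.1
  set s := Dc Z M H i with hs
  set s' := Dc Z M H j with hs'
  have hpt : ∀ b ∈ s, ∀ c ∈ s',
      (if Pas H b c then (Nat.gcd b c : ℝ) * nu M b * nu M c * (F b * F' c) else 0) ≤
        ((H : ℝ) / (2 ^ i * 2 ^ j)) * ((nu M b * F b) * (nu M c * F' c)) := by
    intro b hb c hc
    have hn : 0 ≤ (nu M b * F b) * (nu M c * F' c) :=
      mul_nonneg (mul_nonneg (nu_nonneg _ _) (hF b)) (mul_nonneg (nu_nonneg _ _) (hF' c))
    split_ifs with h
    · have hbd := Nat.dvd_of_mem_divisors (Finset.mem_filter.1 hb).1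
      have hcd := Nat.dvd_of_mem_divisors (Finset.mem_filter.1 hc).1
      have hb0 : 0 < b := Nat.pos_of_dvd_of_pos hbd hM
      have hc0 : 0 < c := Nat.pos_of_dvd_of_pos hcd hM
      have e := gcd_mul_dn hH0 hb0 hc0 h
      have e' : (Nat.gcd b c : ℝ) * (dn H b) * (dn H c) = H := by exact_mod_cast e
      have l1 : (2:ℝ) ^ i ≤ dn H b := by
        have := Nat.pow_log_le_self 2 (dn_pos hH0 b).ne'
        rw [hi2 b hb] at this
        exact_mod_cast this
      have l2 : (2:ℝ) ^ j ≤ dn H c := by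
        have := Nat.pow_log_le_self 2 (dn_pos hH0 c).ne'
        rw [hj2 c hc] at this
        exact_mod_cast this
      have hg : (Nat.gcd b c : ℝ) ≤ (H : ℝ) / (2 ^ i * 2 ^ j) := by
        rw [le_div_iff₀ (by positivity)]
        calc (Nat.gcd b c : ℝ) * (2 ^ i * 2 ^ j) ≤ (Nat.gcd b c : ℝ) * (dn H b * dn H c) := by
              gcongr
          _ = H := by rw [← e']; ring
      calc (Nat.gcd b c : ℝ) * nu M b * nu M c * (F b * F' c)
          = (Nat.gcd b c : ℝ) * ((nu M b * F b) * (nu M c * F' c)) := by ring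
        _ ≤ _ := mul_le_mul_of_nonneg_right hg hn
    · positivity
  have h1 := class_cauchy Z hM hH i F hF
  have h2 := class_cauchy Z hM hH j F' hF'
  rw [← hs] at h1
  rw [← hs'] at h2
  calc _ ≤ ∑ b ∈ s, ∑ c ∈ s', ((H : ℝ) / (2 ^ i * 2 ^ j)) * ((nu M b * F b) * (nu M c * F' c)) :=
        Finset.sum_le_sum fun b hb => Finset.sum_le_sum fun c hc => hpt b hb c hc
    _ = ((H : ℝ) / (2 ^ i * 2 ^ j)) * ((∑ b ∈ s, nu M b * F b) * ∑ c ∈ s', nu M c * F' c) := by
        rw [Finset.sum_mul_sum, Finset.mul_sum]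
        refine Finset.sum_congr rfl fun b _ => ?_
        rw [Finset.mul_sum]
    _ ≤ ((H : ℝ) / (2 ^ i * 2 ^ j)) * ((√(Nl Z H i * 2 ^ (i + 1) / H) *
        √(∑ b ∈ s, nu M b * F b ^ 2)) * (√(Nl Z H j * 2 ^ (j + 1) / H) *
        √(∑ b ∈ s', nu M b * F' b ^ 2))) := by
        have h3 : 0 ≤ ∑ c ∈ s', nu M c * F' c :=
          Finset.sum_nonneg fun c _ => mul_nonneg (nu_nonneg _ _) (hF' c)
        gcongr
    _ = _ := by
        have hNi : 0 ≤ Nl Z H i := by unfold Nl; positivity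
        have hNj : 0 ≤ Nl Z H j := by unfold Nl; positivity
        have e1 : √(Nl Z H i * 2 ^ (i + 1) / H) * √(Nl Z H j * 2 ^ (j + 1) / H) =
            2 * (2 ^ i * 2 ^ j / H) * √(Nl Z H i / 2 ^ i * (Nl Z H j / 2 ^ j)) := by
          rw [← Real.sqrt_mul (by positivity)]
          have : Nl Z H i * 2 ^ (i + 1) / H * (Nl Z H j * 2 ^ (j + 1) / H) =
              (2 * (2 ^ i * 2 ^ j / H)) ^ 2 * (Nl Z H i / 2 ^ i * (Nl Z H j / 2 ^ j)) := by
            rw [pow_succ, pow_succ]; field_simp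
          rw [this, Real.sqrt_mul (by positivity), Real.sqrt_sq (by positivity)]
        calc _ = ((H : ℝ) / (2 ^ i * 2 ^ j)) *
              (√(Nl Z H i * 2 ^ (i + 1) / H) * √(Nl Z H j * 2 ^ (j + 1) / H)) *
              (√(∑ b ∈ s, nu M b * F b ^ 2) * √(∑ b ∈ s', nu M b * F' b ^ 2)) := by ring
          _ = _ := by
              rw [e1]
              field_simp

/-- rough counting -/
lemma exists_Nl : ∃ C : ℝ, 0 < C ∧ ∀ (H : ℕ) (X : ℝ), 2 ≤ X →
    ∀ i : ℕ, 1 ≤ i → Nl X H i / 2 ^ i ≤ C / Real.log X := by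
  obtain ⟨C, hC, h⟩ := Crest.Agent.R4C.Roughx882.rough_count'
  refine ⟨C, hC, fun H X hX i hi => ?_⟩
  have hlog : 0 < Real.log X := Real.log_pos (by linarith)
  have h1 := h X hX (2 ^ i) (Nat.one_le_two_pow)
    (H.divisors.filter (fun l => Nat.log 2 l = i ∧ rgh X l)) (by
    intro l hl
    obtain ⟨h1, h2, h3⟩ := Finset.mem_filter.1 hl
    have hl0 : l ≠ 0 := (Nat.pos_of_mem_divisors h1).ne'
    have ha : 2 ^ i ≤ l := by rw [← h2]; exact Nat.pow_log_le_self 2 hl0
    have hb : l < 2 ^ (i + 1) := by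
      rw [← h2]; exact Nat.lt_pow_succ_log_self (by norm_num) _
    refine ⟨ha, by rw [pow_succ] at hb; omega, ?_, ?_⟩
    · calc 1 < 2 ^ i := Nat.one_lt_two_pow (by omega)
        _ ≤ l := ha
    · exact h3)
  unfold Nl
  rw [div_le_iff₀ (by positivity)]
  refine h1.trans (le_of_eq ?_)
  push_cast
  ring

lemma Nl_div_le_one (Z : ℝ) (H i : ℕ) : Nl Z H i / 2 ^ i ≤ 1 := by
  rw [div_le_one (by positivity)]; exact Nl_le_pow Z H i

lemma Nl_div_nonneg (Z : ℝ) (H i : ℕ) : 0 ≤ Nl Z H i / 2 ^ i := by unfold Nl; positivity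

set_option maxHeartbeats 2000000 in
/-- **one cell, one dyadic window, non-pure pairs** -/
theorem cell : ∃ C : ℝ, 0 < C ∧ ∀ (M H : ℕ) (X G : ℝ) (F F' : ℕ → ℝ), 0 < M → H ∣ M → 2 ≤ X →
    0 < G → (∀ b, 0 ≤ F b) → (∀ b, 0 ≤ F' b) →
    ∑ b ∈ M.divisors, ∑ c ∈ M.divisors,
      (if Pas H b c ∧ ((dn H b ≠ 1 ∨ dn H c ≠ 1) ∧ rgh X (dn H b) ∧ rgh X (dn H c)) ∧
          G < (Nat.gcd b c : ℝ) ∧ (Nat.gcd b c : ℝ) ≤ 2 * G then
        (Nat.gcd b c : ℝ) * nu M b * nu M c * (F b * F' c) else 0) ≤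
      C / √(Real.log X) *
        (√(∑ b ∈ M.divisors, nu M b * F b ^ 2) * √(∑ b ∈ M.divisors, nu M b * F' b ^ 2)) := by
  obtain ⟨C, hC, hN⟩ := exists_Nl
  refine ⟨6 * √C, by positivity, ?_⟩
  intro M H X G F F' hM hH hX hG hF hF'
  have hH0 : 0 < H := Nat.pos_of_dvd_of_pos hH hM
  have hHr : (0:ℝ) < H := by exact_mod_cast hH0
  have hlog : 0 < Real.log X := Real.log_pos (by linarith)
  set n := H + 1 with hn
  set D : ℕ → Finset ℕ := fun i => M.divisors.filter (fun b => Nat.log 2 (dn H b) = i) with hD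
  set E : ℕ → Finset ℕ := fun i => Dc X M H i with hE
  have hED : ∀ i, E i ⊆ D i := by
    intro i b hb
    obtain ⟨h1, h2, _⟩ := Finset.mem_filter.1 hb
    exact Finset.mem_filter.2 ⟨h1, h2⟩
  have hmap : ∀ b ∈ M.divisors, Nat.log 2 (dn H b) ∈ range n := by
    intro b _
    rw [Finset.mem_range, hn]
    have h1 : Nat.log 2 (dn H b) ≤ dn H b := Nat.log_le_self _ _
    have h2 : dn H b ≤ H := Nat.div_le_self _ _
    omega
  set tm : ℕ → ℕ → ℝ := fun b c =>
    (if Pas H b c ∧ ((dn H b ≠ 1 ∨ dn H c ≠ 1) ∧ rgh X (dn H b) ∧ rgh X (dn H c)) ∧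
          G < (Nat.gcd b c : ℝ) ∧ (Nat.gcd b c : ℝ) ≤ 2 * G then
        (Nat.gcd b c : ℝ) * nu M b * nu M c * (F b * F' c) else 0) with htm
  have hsplit0 : ∑ b ∈ M.divisors, ∑ c ∈ M.divisors, tm b c =
      ∑ i ∈ range n, ∑ j ∈ range n, ∑ b ∈ D i, ∑ c ∈ D j, tm b c := by
    refine (Finset.sum_fiberwise_of_maps_to hmap (fun b => ∑ c ∈ M.divisors, tm b c)).symm.trans ?_
    refine Finset.sum_congr rfl fun i _ => ?_
    refine Eq.trans ?_ Finset.sum_comm
    refine Finset.sum_congr rfl fun b _ => ?_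
    exact (Finset.sum_fiberwise_of_maps_to hmap (fun c => tm b c)).symm
  have hsplit : ∑ b ∈ M.divisors, ∑ c ∈ M.divisors, tm b c =
      ∑ i ∈ range n, ∑ j ∈ range n, ∑ b ∈ E i, ∑ c ∈ E j, tm b c := by
    rw [hsplit0]
    refine Finset.sum_congr rfl fun i _ => Finset.sum_congr rfl fun j _ => ?_
    symm
    refine (Finset.sum_congr rfl fun b _ => Finset.sum_subset (hED j) ?_).trans
      (Finset.sum_subset (hED i) ?_)
    · intro c hc hcn
      simp only [htm]
      rw [if_neg]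
      rintro ⟨_, ⟨_, _, h3⟩, _⟩
      obtain ⟨h4, h5⟩ := Finset.mem_filter.1 hc
      exact hcn (Finset.mem_filter.2 ⟨h4, h5, h3⟩)
    · intro b hb hbn
      refine Finset.sum_eq_zero fun c _ => ?_
      simp only [htm]
      rw [if_neg]
      rintro ⟨_, ⟨_, h3, _⟩, _⟩
      obtain ⟨h4, h5⟩ := Finset.mem_filter.1 hb
      exact hbn (Finset.mem_filter.2 ⟨h4, h5, h3⟩)
  set q : ℕ → ℝ := fun i => ∑ b ∈ E i, nu M b * F b ^ 2 with hq
  set q' : ℕ → ℝ := fun i => ∑ b ∈ E i, nu M b * F' b ^ 2 with hq'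
  have hq0 : ∀ i, 0 ≤ q i := fun i => Finset.sum_nonneg fun b _ =>
    mul_nonneg (nu_nonneg _ _) (sq_nonneg _)
  have hq0' : ∀ i, 0 ≤ q' i := fun i => Finset.sum_nonneg fun b _ =>
    mul_nonneg (nu_nonneg _ _) (sq_nonneg _)
  have hqs : ∑ i ∈ range n, q i ≤ ∑ b ∈ M.divisors, nu M b * F b ^ 2 := by
    rw [← Finset.sum_fiberwise_of_maps_to hmap (fun b => nu M b * F b ^ 2)]
    exact Finset.sum_le_sum fun i _ => Finset.sum_le_sum_of_subset_of_nonneg (hED i)
      fun b _ _ => mul_nonneg (nu_nonneg _ _) (sq_nonneg _)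
  have hqs' : ∑ i ∈ range n, q' i ≤ ∑ b ∈ M.divisors, nu M b * F' b ^ 2 := by
    rw [← Finset.sum_fiberwise_of_maps_to hmap (fun b => nu M b * F' b ^ 2)]
    exact Finset.sum_le_sum fun i _ => Finset.sum_le_sum_of_subset_of_nonneg (hED i)
      fun b _ _ => mul_nonneg (nu_nonneg _ _) (sq_nonneg _)
  set N : ℝ := (H : ℝ) / (2 * G) with hNd
  have hN0 : 0 < N := by positivity
  set k : ℕ → ℕ → ℝ := fun i j =>
    if ((2:ℝ) ^ i) * 2 ^ j < 2 * N ∧ N < 4 * (((2:ℝ) ^ i) * 2 ^ j) then 1 else 0 with hk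
  have hi2 : ∀ i, ∀ b ∈ E i, Nat.log 2 (dn H b) = i := fun i b hb =>
    (Finset.mem_filter.1 hb).2.1
  have hbox : ∀ i j, ∑ b ∈ E i, ∑ c ∈ E j, tm b c ≤
      k i j * (√(q i) * √(q' j)) * (2 * √(C / Real.log X)) := by
    intro i j
    have hqq : 0 ≤ √(q i) * √(q' j) := by positivity
    by_cases hw : ((2:ℝ) ^ i) * 2 ^ j < 2 * N ∧ N < 4 * (((2:ℝ) ^ i) * 2 ^ j)
    · simp only [hk]
      rw [if_pos hw, one_mul]
      by_cases h00 : i = 0 ∧ j = 0
      · -- all terms vanish
        have : ∑ b ∈ E i, ∑ c ∈ E j, tm b c = 0 := by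
          refine Finset.sum_eq_zero fun b hb => Finset.sum_eq_zero fun c hc => ?_
          simp only [htm]
          rw [if_neg]
          rintro ⟨_, ⟨h1, _, _⟩, _⟩
          have e1 : dn H b = 1 := by
            have h2 := hi2 i b hb
            rw [h00.1, Nat.log_eq_zero_iff] at h2
            have := dn_pos hH0 b
            omega
          have e2 : dn H c = 1 := by
            have h2 := hi2 j c hc
            rw [h00.2, Nat.log_eq_zero_iff] at h2
            have := dn_pos hH0 c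
            omega
          rcases h1 with h1 | h1
          · exact h1 e1
          · exact h1 e2
        rw [this]
        positivity
      · have hb := box X hM hH i j F F' hF hF'
        have hle : ∑ b ∈ E i, ∑ c ∈ E j, tm b c ≤ ∑ b ∈ E i, ∑ c ∈ E j,
            (if Pas H b c then (Nat.gcd b c : ℝ) * nu M b * nu M c * (F b * F' c) else 0) := by
          refine Finset.sum_le_sum fun b _ => Finset.sum_le_sum fun c _ => ?_
          simp only [htm]
          have h0 : 0 ≤ (Nat.gcd b c : ℝ) * nu M b * nu M c * (F b * F' c) := by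
            have := nu_nonneg M b; have := nu_nonneg M c; have := hF b; have := hF' c
            positivity
          by_cases h1 : Pas H b c
          · rw [if_pos h1]
            split_ifs
            · exact le_rfl
            · exact h0
          · rw [if_neg h1, if_neg (fun h => h1 h.1)]
        refine hle.trans (hb.trans ?_)
        have hr1 : Nl X H i / 2 ^ i * (Nl X H j / 2 ^ j) ≤ C / Real.log X := by
          have a1 := Nl_div_le_one X H i
          have a2 := Nl_div_le_one X H j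
          have b1 := Nl_div_nonneg X H i
          have b2 := Nl_div_nonneg X H j
          by_cases hi : 1 ≤ i
          · have := hN H X hX i hi
            nlinarith
          · have hj : 1 ≤ j := by
              by_contra hj
              exact h00 ⟨by omega, by omega⟩
            have := hN H X hX j hj
            nlinarith
        have hr2 : √(Nl X H i / 2 ^ i * (Nl X H j / 2 ^ j)) ≤ √(C / Real.log X) :=
          Real.sqrt_le_sqrt hr1
        calc 2 * √(Nl X H i / 2 ^ i * (Nl X H j / 2 ^ j)) * (√(q i) * √(q' j))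
            ≤ 2 * √(C / Real.log X) * (√(q i) * √(q' j)) := by gcongr
          _ = _ := by ring
    · simp only [hk]
      rw [if_neg hw]
      simp only [zero_mul]
      apply le_of_eq
      refine Finset.sum_eq_zero fun b hb => Finset.sum_eq_zero fun c hc => ?_
      simp only [htm]
      rw [if_neg]
      rintro ⟨h1, _, h2, h3⟩
      apply hw
      have hbd := Nat.dvd_of_mem_divisors (Finset.mem_filter.1 hb).1
      have hcd := Nat.dvd_of_mem_divisors (Finset.mem_filter.1 hc).1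
      have hb0 : 0 < b := Nat.pos_of_dvd_of_pos hbd hM
      have hc0 : 0 < c := Nat.pos_of_dvd_of_pos hcd hM
      have e := gcd_mul_dn hH0 hb0 hc0 h1
      have e' : (Nat.gcd b c : ℝ) * (dn H b) * (dn H c) = H := by exact_mod_cast e
      have hg0 : (0:ℝ) < Nat.gcd b c := by exact_mod_cast Nat.gcd_pos_of_pos_left _ hb0
      have d0 : (0:ℝ) < dn H b := by exact_mod_cast dn_pos hH0 b
      have d0' : (0:ℝ) < dn H c := by exact_mod_cast dn_pos hH0 c
      have l1 : (2:ℝ) ^ i ≤ dn H b := by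
        have := Nat.pow_log_le_self 2 (dn_pos hH0 b).ne'
        rw [hi2 i b hb] at this
        exact_mod_cast this
      have l2 : (2:ℝ) ^ j ≤ dn H c := by
        have := Nat.pow_log_le_self 2 (dn_pos hH0 c).ne'
        rw [hi2 j c hc] at this
        exact_mod_cast this
      have u1 : (dn H b : ℝ) < 2 * 2 ^ i := by
        have := Nat.lt_pow_succ_log_self (b := 2) (by norm_num) (dn H b)
        rw [hi2 i b hb] at this
        have h : ((dn H b : ℕ) : ℝ) < ((2 ^ i.succ : ℕ) : ℝ) := by exact_mod_cast this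
        rw [pow_succ] at h; push_cast at h; linarith
      have u2 : (dn H c : ℝ) < 2 * 2 ^ j := by
        have := Nat.lt_pow_succ_log_self (b := 2) (by norm_num) (dn H c)
        rw [hi2 j c hc] at this
        have h : ((dn H c : ℕ) : ℝ) < ((2 ^ j.succ : ℕ) : ℝ) := by exact_mod_cast this
        rw [pow_succ] at h; push_cast at h; linarith
      have p1 : ((2:ℝ) ^ i) * 2 ^ j ≤ dn H b * dn H c := by gcongr
      have p2 : (dn H b : ℝ) * dn H c < 4 * (((2:ℝ) ^ i) * 2 ^ j) := by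
        have := mul_lt_mul'' u1 u2 d0.le d0'.le
        linarith
      have e2 : (Nat.gcd b c : ℝ) * (dn H b * dn H c) = H := by rw [← e']; ring
      have hdd : (0:ℝ) < dn H b * dn H c := by positivity
      constructor
      · -- product < 2 N = H / G
        refine lt_of_le_of_lt p1 ?_
        have : 2 * N = H / G := by rw [hNd]; field_simp
        rw [this, lt_div_iff₀ hG, ← e2]
        nlinarith
      · refine lt_of_le_of_lt ?_ p2
        rw [hNd, div_le_iff₀ (by positivity), ← e2]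
        nlinarith
  have hsch := Crest.Agent.R4C.OnePx19.schur (range n) (range n) k (fun i => √(q i))
    (fun j => √(q' j)) 3 (by norm_num)
    (fun i _ j _ => by simp only [hk]; split_ifs <;> norm_num)
    (fun i _ => Real.sqrt_nonneg _) (fun j _ => Real.sqrt_nonneg _)
    (fun i _ => by
      simp only [hk]
      rw [← Finset.sum_filter, Finset.sum_const, nsmul_eq_mul, mul_one]
      have := Crest.Agent.R4C.ThmRx19.card_dyadic n ((2:ℝ) ^ i) N (by positivity)
      exact_mod_cast this)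
    (fun j _ => by
      simp only [hk]
      have e : ∀ i : ℕ, ((2:ℝ) ^ i) * 2 ^ j = ((2:ℝ) ^ j) * 2 ^ i := fun i => by ring
      simp only [e]
      rw [← Finset.sum_filter, Finset.sum_const, nsmul_eq_mul, mul_one]
      have := Crest.Agent.R4C.ThmRx19.card_dyadic n ((2:ℝ) ^ j) N (by positivity)
      exact_mod_cast this)
  have hsq : ∑ i ∈ range n, √(q i) ^ 2 ≤ ∑ b ∈ M.divisors, nu M b * F b ^ 2 := by
    refine le_trans (le_of_eq ?_) hqs
    exact Finset.sum_congr rfl fun i _ => Real.sq_sqrt (hq0 i)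
  have hsq' : ∑ i ∈ range n, √(q' i) ^ 2 ≤ ∑ b ∈ M.divisors, nu M b * F' b ^ 2 := by
    refine le_trans (le_of_eq ?_) hqs'
    exact Finset.sum_congr rfl fun i _ => Real.sq_sqrt (hq0' i)
  have hsch2 : ∑ i ∈ range n, ∑ j ∈ range n, k i j * (√(q i) * √(q' j)) ≤
      3 * (√(∑ b ∈ M.divisors, nu M b * F b ^ 2) * √(∑ b ∈ M.divisors, nu M b * F' b ^ 2)) := by
    refine hsch.trans ?_
    gcongr
  rw [hsplit]
  calc ∑ i ∈ range n, ∑ j ∈ range n, ∑ b ∈ E i, ∑ c ∈ E j, tm b c
      ≤ ∑ i ∈ range n, ∑ j ∈ range n, k i j * (√(q i) * √(q' j)) * (2 * √(C / Real.log X)) :=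
        Finset.sum_le_sum fun i _ => Finset.sum_le_sum fun j _ => hbox i j
    _ = (∑ i ∈ range n, ∑ j ∈ range n, k i j * (√(q i) * √(q' j))) * (2 * √(C / Real.log X)) := by
        rw [Finset.sum_mul]
        refine Finset.sum_congr rfl fun i _ => ?_
        rw [Finset.sum_mul]
    _ ≤ (3 * (√(∑ b ∈ M.divisors, nu M b * F b ^ 2) * √(∑ b ∈ M.divisors, nu M b * F' b ^ 2))) *
        (2 * √(C / Real.log X)) := mul_le_mul_of_nonneg_right hsch2 (by positivity)
    _ = _ := by
        rw [Real.sqrt_div hC.le]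
        ring

/-! ## all cells together -/

set_option maxHeartbeats 2000000 in
/-- **(III) of BLOCK S3**: all cells together.  `cell b = (Mb, D, H)`; weights `1/V_D`,
`V_D = D ν(D)`, the full boost at the branched and low primes. -/
theorem nonpure : ∃ C : ℝ, 0 < C ∧ ∀ (M : ℕ) (X G : ℝ) (κ : ℕ → ℕ × ℕ × ℕ)
    (R : ℕ → ℕ → Prop) (F F' : ℕ → ℝ), 0 < M → 2 ≤ X → 0 < G → (∀ b, 0 ≤ F b) → (∀ b, 0 ≤ F' b) →
    (∀ b, b ∣ M → (κ b).1 ∣ M ∧ Nat.Coprime (κ b).1 (M / (κ b).1) ∧ (κ b).2.1 ∣ (κ b).1 ∧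
      (κ b).2.2 ∣ M / (κ b).1 ∧
      ∃ b', b' ∣ M / (κ b).1 ∧ b = (κ b).2.1 * b') →
    (∀ b c, b ∣ M → c ∣ M → R b c → κ b = κ c ∧
      Pas (κ b).2.2 (b / (κ b).2.1) (c / (κ b).2.1) ∧
      (dn (κ b).2.2 (b / (κ b).2.1) ≠ 1 ∨ dn (κ b).2.2 (c / (κ b).2.1) ≠ 1) ∧
      rgh X (dn (κ b).2.2 (b / (κ b).2.1)) ∧ rgh X (dn (κ b).2.2 (c / (κ b).2.1))) →
    ∑ b ∈ M.divisors, ∑ c ∈ M.divisors,
      (if R b c ∧ G < (Nat.gcd b c : ℝ) ∧ (Nat.gcd b c : ℝ) ≤ 2 * G then
        (Nat.gcd b c : ℝ) * nu M b * nu M c * (F b * F' c) /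
          ((κ b).2.1 * nu (κ b).1 (κ b).2.1) else 0) ≤
      C / √(Real.log X) *
        (√(∑ b ∈ M.divisors, nu M b * F b ^ 2) * √(∑ b ∈ M.divisors, nu M b * F' b ^ 2)) := by
  obtain ⟨C, hC, hcell⟩ := cell
  refine ⟨C, hC, ?_⟩
  intro M X G κ R F F' hM hX hG hF hF' hκ hR
  set T : ℕ → ℕ → ℝ := fun b c =>
    (if R b c ∧ G < (Nat.gcd b c : ℝ) ∧ (Nat.gcd b c : ℝ) ≤ 2 * G then
        (Nat.gcd b c : ℝ) * nu M b * nu M c * (F b * F' c) /
          ((κ b).2.1 * nu (κ b).1 (κ b).2.1) else 0) with hT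
  set S : Finset (ℕ × ℕ × ℕ) := M.divisors.image κ with hS
  set P : (ℕ × ℕ × ℕ) → Finset ℕ := fun k => M.divisors.filter (fun b => κ b = k) with hP
  set A : (ℕ × ℕ × ℕ) → ℝ := fun k => ∑ b ∈ P k, nu M b * F b ^ 2 with hA
  set A' : (ℕ × ℕ × ℕ) → ℝ := fun k => ∑ b ∈ P k, nu M b * F' b ^ 2 with hA'
  have hmapS : ∀ b ∈ M.divisors, κ b ∈ S := fun b hb => Finset.mem_image_of_mem κ hb
  have hAs : ∑ k ∈ S, A k = ∑ b ∈ M.divisors, nu M b * F b ^ 2 :=
    Finset.sum_fiberwise_of_maps_to hmapS _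
  have hAs' : ∑ k ∈ S, A' k = ∑ b ∈ M.divisors, nu M b * F' b ^ 2 :=
    Finset.sum_fiberwise_of_maps_to hmapS _
  have hA0 : ∀ k, 0 ≤ A k := fun k => Finset.sum_nonneg fun b _ =>
    mul_nonneg (nu_nonneg _ _) (sq_nonneg _)
  have hA0' : ∀ k, 0 ≤ A' k := fun k => Finset.sum_nonneg fun b _ =>
    mul_nonneg (nu_nonneg _ _) (sq_nonneg _)
  have hlog : 0 < Real.log X := Real.log_pos (by linarith)
  -- split over cells
  have hsplit : ∑ b ∈ M.divisors, ∑ c ∈ M.divisors, T b c =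
      ∑ k ∈ S, ∑ b ∈ P k, ∑ c ∈ P k, T b c := by
    refine (Finset.sum_fiberwise_of_maps_to hmapS (fun b => ∑ c ∈ M.divisors, T b c)).symm.trans ?_
    refine Finset.sum_congr rfl fun k _ => Finset.sum_congr rfl fun b hb => ?_
    symm
    refine Finset.sum_subset (Finset.filter_subset _ _) fun c hc hcn => ?_
    simp only [hT]
    rw [if_neg]
    rintro ⟨h1, _⟩
    apply hcn
    rw [Finset.mem_filter]
    obtain ⟨hb1, hb2⟩ := Finset.mem_filter.1 hb
    refine ⟨hc, ?_⟩
    rw [← hb2]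
    exact (hR b c (Nat.dvd_of_mem_divisors hb1) (Nat.dvd_of_mem_divisors hc) h1).1.symm
  -- one cell
  have hone : ∀ k ∈ S, ∑ b ∈ P k, ∑ c ∈ P k, T b c ≤
      C / √(Real.log X) * (√(A k) * √(A' k)) := by
    intro k hkS
    obtain ⟨b0, hb0, hb0k⟩ := Finset.mem_image.1 hkS
    obtain ⟨h1, h2, h3, h4, _⟩ := hκ b0 (Nat.dvd_of_mem_divisors hb0)
    rw [hb0k] at h1 h2 h3 h4
    set Mb := k.1 with hMb
    set D := k.2.1 with hDd
    set H := k.2.2 with hHd
    set Mz := M / Mb with hMz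
    have hMM : Mb * Mz = M := Nat.mul_div_cancel' h1
    have hMz0 : 0 < Mz := Nat.div_pos (Nat.le_of_dvd hM h1) (Nat.pos_of_dvd_of_pos h1 hM)
    have hMb0 : 0 < Mb := Nat.pos_of_dvd_of_pos h1 hM
    have hD0 : 0 < D := Nat.pos_of_dvd_of_pos h3 hMb0
    have hDr : (0:ℝ) < D := by exact_mod_cast hD0
    have hnuD : 0 < nu Mb D := nu_pos hMb0 h3
    -- the members of the cell
    have hPk : P k = (Mz.divisors.filter (fun b' => κ (D * b') = k)).image (fun b' => D * b') := by
      ext b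
      simp only [hP, Finset.mem_filter, Finset.mem_image, Nat.mem_divisors]
      constructor
      · rintro ⟨⟨hb, _⟩, hbk⟩
        obtain ⟨_, _, _, _, b', hb', hbe⟩ := hκ b hb
        rw [hbk] at hb' hbe
        exact ⟨b', ⟨⟨hb', hMz0.ne'⟩, by rw [← hbe]; exact hbk⟩, hbe.symm⟩
      · rintro ⟨b', ⟨⟨hb', _⟩, hk'⟩, rfl⟩
        exact ⟨⟨by rw [← hMM]; exact Nat.mul_dvd_mul h3 hb', hM.ne'⟩, hk'⟩
    have hinj : ∀ x ∈ Mz.divisors.filter (fun b' => κ (D * b') = k),
        ∀ y ∈ Mz.divisors.filter (fun b' => κ (D * b') = k), D * x = D * y → x = y :=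
      fun x _ y _ e => Nat.eq_of_mul_eq_mul_left hD0 e
    set Q := Mz.divisors.filter (fun b' => κ (D * b') = k) with hQ
    have hnu : ∀ b' ∈ Q, nu M (D * b') = nu Mb D * nu Mz b' := by
      intro b' hb'
      have := Nat.dvd_of_mem_divisors (Finset.mem_filter.1 hb').1
      rw [← hMM]
      exact nu_mul (by rw [hMM] at *; exact h2) h3 this
    -- restricted functions
    set f : ℕ → ℝ := fun b' => if κ (D * b') = k then F (D * b') else 0 with hf
    set f' : ℕ → ℝ := fun b' => if κ (D * b') = k then F' (D * b') else 0 with hf'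
    have hf0 : ∀ b, 0 ≤ f b := fun b => by simp only [hf]; split_ifs; exacts [hF _, le_rfl]
    have hf0' : ∀ b, 0 ≤ f' b := fun b => by simp only [hf']; split_ifs; exacts [hF' _, le_rfl]
    have hmass : nu Mb D * ∑ b' ∈ Mz.divisors, nu Mz b' * f b' ^ 2 = A k := by
      simp only [hA]
      rw [hPk, Finset.sum_image hinj, Finset.mul_sum, Finset.sum_filter]
      refine Finset.sum_congr rfl fun b' hb' => ?_
      by_cases hk' : κ (D * b') = k
      · rw [if_pos hk', hnu b' (Finset.mem_filter.2 ⟨hb', hk'⟩)]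
        simp only [hf]
        rw [if_pos hk']; ring
      · rw [if_neg hk']
        simp only [hf]
        rw [if_neg hk']; ring
    have hmass' : nu Mb D * ∑ b' ∈ Mz.divisors, nu Mz b' * f' b' ^ 2 = A' k := by
      simp only [hA']
      rw [hPk, Finset.sum_image hinj, Finset.mul_sum, Finset.sum_filter]
      refine Finset.sum_congr rfl fun b' hb' => ?_
      by_cases hk' : κ (D * b') = k
      · rw [if_pos hk', hnu b' (Finset.mem_filter.2 ⟨hb', hk'⟩)]
        simp only [hf']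
        rw [if_pos hk']; ring
      · rw [if_neg hk']
        simp only [hf']
        rw [if_neg hk']; ring
    have hc := hcell Mz H X (G / D) f f' hMz0 h4 hX (by positivity) hf0 hf0'
    have hle : ∑ b ∈ P k, ∑ c ∈ P k, T b c ≤ nu Mb D * ∑ b' ∈ Mz.divisors, ∑ c' ∈ Mz.divisors,
        (if Pas H b' c' ∧ ((dn H b' ≠ 1 ∨ dn H c' ≠ 1) ∧ rgh X (dn H b') ∧ rgh X (dn H c')) ∧
          G / D < (Nat.gcd b' c' : ℝ) ∧ (Nat.gcd b' c' : ℝ) ≤ 2 * (G / D) then
        (Nat.gcd b' c' : ℝ) * nu Mz b' * nu Mz c' * (f b' * f' c') else 0) := by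
      rw [hPk, Finset.sum_image hinj, Finset.mul_sum, Finset.sum_filter]
      refine Finset.sum_le_sum fun b' hb' => ?_
      have hn0 : 0 ≤ nu Mb D * ∑ c' ∈ Mz.divisors,
        (if Pas H b' c' ∧ ((dn H b' ≠ 1 ∨ dn H c' ≠ 1) ∧ rgh X (dn H b') ∧ rgh X (dn H c')) ∧
          G / D < (Nat.gcd b' c' : ℝ) ∧ (Nat.gcd b' c' : ℝ) ≤ 2 * (G / D) then
        (Nat.gcd b' c' : ℝ) * nu Mz b' * nu Mz c' * (f b' * f' c') else 0) := by
        refine mul_nonneg hnuD.le (Finset.sum_nonneg fun c' _ => ?_)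
        have := nu_nonneg Mz b'; have := nu_nonneg Mz c'; have := hf0 b'; have := hf0' c'
        split_ifs
        · positivity
        · exact le_rfl
      by_cases hkb : κ (D * b') = k
      · rw [if_pos hkb, Finset.sum_image hinj, Finset.mul_sum, Finset.sum_filter]
        refine Finset.sum_le_sum fun c' hc' => ?_
        by_cases hkc : κ (D * c') = k
        · rw [if_pos hkc]
          simp only [hT]
          have hb1 : D * b' ∣ M := by
            rw [← hMM]; exact Nat.mul_dvd_mul h3 (Nat.dvd_of_mem_divisors hb')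
          have hc1 : D * c' ∣ M := by
            rw [← hMM]; exact Nat.mul_dvd_mul h3 (Nat.dvd_of_mem_divisors hc')
          have hgg : Nat.gcd (D * b') (D * c') = D * Nat.gcd b' c' := Nat.gcd_mul_left D b' c'
          by_cases hcond : R (D * b') (D * c') ∧ G < (Nat.gcd (D * b') (D * c') : ℝ) ∧
              (Nat.gcd (D * b') (D * c') : ℝ) ≤ 2 * G
          · obtain ⟨hr1, hr2, hr3⟩ := hcond
            obtain ⟨e1, e2, e3⟩ := hR _ _ hb1 hc1 hr1
            rw [hkb] at e2 e3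
            rw [Nat.mul_div_cancel_left _ hD0, Nat.mul_div_cancel_left _ hD0] at e2 e3
            rw [hgg] at hr2 hr3
            push_cast at hr2 hr3
            have w1 : G / D < (Nat.gcd b' c' : ℝ) := by
              rw [div_lt_iff₀ hDr]; linarith
            have w2 : (Nat.gcd b' c' : ℝ) ≤ 2 * (G / D) := by
              rw [← mul_div_assoc, le_div_iff₀ hDr]; linarith
            rw [if_pos ⟨hr1, by rw [hgg]; push_cast; exact hr2, by rw [hgg]; push_cast; exact hr3⟩,
              if_pos ⟨e2, e3, w1, w2⟩, hgg, hkb,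
              hnu b' (Finset.mem_filter.2 ⟨hb', hkb⟩), hnu c' (Finset.mem_filter.2 ⟨hc', hkc⟩)]
            simp only [hf, hf']
            rw [if_pos hkb, if_pos hkc]
            push_cast
            apply le_of_eq
            rw [div_eq_iff (by positivity)]
            ring
          · rw [if_neg hcond]
            have := nu_nonneg Mz b'; have := nu_nonneg Mz c'; have := hf0 b'; have := hf0' c'
            refine mul_nonneg hnuD.le ?_
            split_ifs
            · positivity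
            · exact le_rfl
        · rw [if_neg hkc]
          have := nu_nonneg Mz b'; have := nu_nonneg Mz c'; have := hf0 b'; have := hf0' c'
          refine mul_nonneg hnuD.le ?_
          split_ifs
          · positivity
          · exact le_rfl
      · rw [if_neg hkb]
        exact hn0
    refine hle.trans ((mul_le_mul_of_nonneg_left hc hnuD.le).trans (le_of_eq ?_))
    rw [← hmass, ← hmass', Real.sqrt_mul hnuD.le, Real.sqrt_mul hnuD.le]
    have hs : √(nu Mb D) * √(nu Mb D) = nu Mb D := Real.mul_self_sqrt hnuD.le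
    calc _ = C / √(Real.log X) * ((√(nu Mb D) * √(nu Mb D)) *
          (√(∑ b ∈ Mz.divisors, nu Mz b * f b ^ 2) * √(∑ b ∈ Mz.divisors, nu Mz b * f' b ^ 2))) := by
          rw [hs]; ring
      _ = _ := by ring
  rw [hsplit]
  calc ∑ k ∈ S, ∑ b ∈ P k, ∑ c ∈ P k, T b c
      ≤ ∑ k ∈ S, C / √(Real.log X) * (√(A k) * √(A' k)) := Finset.sum_le_sum hone
    _ = C / √(Real.log X) * ∑ k ∈ S, √(A k) * √(A' k) := by rw [Finset.mul_sum]
    _ ≤ C / √(Real.log X) * (√(∑ k ∈ S, A k) * √(∑ k ∈ S, A' k)) := by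
        apply mul_le_mul_of_nonneg_left _ (by positivity)
        exact Real.sum_sqrt_mul_sqrt_le S hA0 hA0'
    _ = _ := by rw [hAs, hAs']

end Crest.Agent.R4C.NonPurex19
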