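import Crest.Agent.R4C.GWnode_863
import Crest.Agent.R4C.GWcell_284

/-!
# Row 4, GW section, vector case: one zone has one point and `≤ 5` cells at every prefix (helper264)

World `Z` of `GWdef_982`, `Th Z` : growth of the thresholds (`θ` monotone, `176 θ(j)² ≤ 2^j`).

* `step_mul` : `m = upp (cut p) (low (cut i) w)`: `yy p = m yy i`, `tt i = m tt p`, all primes of
  `m` are `> cut p`.
* `step` : a fraction at the node `p` and `On (4 θ p)` at the node `i > p`: the SAME denominator and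
  the SAME signed displacement at `i`.
* **`chain`** : no birth of `w` in `(j0, i]` (`j0 < i` nodes) ⟹ `On (4 θ j0)` at `i`.
* **`one_cell`** : two words of one zone with the same prefix at `i` have `|yy - yy' - z| < 3 / tt`.
* **`card_cells`** : a zone has at most `5` nodes with the same index and the same prefix.
-/

set_option autoImplicit false

open Finset
open Crest.Agent.R4C.Basex935 Crest.Agent.R4C.Cutx50
open Crest.Agent.R4C.Cellx863 Crest.Agent.R4C.GWdefx982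
open Crest.Agent.R4C.NHx656 (On frac_unique)
open Crest.Agent.R4C.GWnodex863 (mem_Nd mem_Nd_zone birth_bi bi_le not_birth_of_bi_lt lab_nested
  mem_S_lab)
open Crest.Agent.R4C.GWcellx284 (on_of_light tt_pos e_pos dist_of_cell dist_of_S e_congr
  Q_mul Q_congr e1_congr mesh_pos' four_le_e1 e_dvd pos_eq)

namespace Crest.Agent.R4C.OneCellx264

variable {Z : World}

/-- growth of the thresholds -/
structure Th (Z : World) : Prop where
  mono : ∀ i j, Z.i0 ≤ i → i ≤ j → Z.θ i ≤ Z.θ j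
  sq : ∀ j, Z.i0 ≤ j → 176 * Z.θ j ^ 2 ≤ (2 : ℝ) ^ j

/-- reduced fractions -/
lemma on_reduced {K y τ : ℝ} (h : On K y τ) : ∃ (a : ℤ) (k : ℕ), 0 < k ∧ IsCoprime a (k : ℤ) ∧
    (k : ℝ) * max 1 (τ * |y - a / k|) < K := by
  obtain ⟨a, k, hk, h1⟩ := h
  set f : ℚ := (a : ℚ) / k with hf
  have hkQ : (k : ℚ) ≠ 0 := by exact_mod_cast hk.ne'
  have e1 : (f : ℝ) = (a : ℝ) / k := by rw [hf]; push_cast; rfl
  have e2 : (f : ℝ) = (f.num : ℝ) / (f.den : ℕ) := by
    exact_mod_cast (congrArg (fun q : ℚ => (q : ℝ)) (Rat.num_div_den f)).symm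
  have hd : f.den ≤ k := by
    have h2 := Rat.den_dvd a (k : ℤ)
    have h3 : Rat.divInt a (k : ℤ) = f := by rw [hf, Rat.divInt_eq_div]; push_cast; rfl
    rw [h3] at h2
    exact Nat.le_of_dvd hk (by exact_mod_cast h2)
  refine ⟨f.num, f.den, f.den_pos, ?_, lt_of_le_of_lt ?_ h1⟩
  · rw [Int.isCoprime_iff_gcd_eq_one]
    exact f.reduced
  · rw [← e2, e1]
    exact mul_le_mul_of_nonneg_right (by exact_mod_cast hd) (zero_le_one.trans (le_max_left _ _))

lemma tt_ge (hZ : Z.Ok) {i w : ℕ} (hn : Z.nd i w) : (2 : ℝ) ^ i ≤ Z.tt i w := by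
  unfold World.tt
  rw [le_div_iff₀ hZ.hL]
  exact hn.2.1

/-- from the index `i` down to the index `p` -/
lemma step_mul (hZ : Z.Ok) {p i w : ℕ} (hw : 0 < w) (hpi : p ≤ i) :
    ∃ m : ℕ, 0 < m ∧ Z.yy p w = m * Z.yy i w ∧ Z.tt i w = m * Z.tt p w ∧
      (∀ q : ℕ, q.Prime → q ∣ m → Z.cut p < q) ∧ m = upp (Z.cut p) (low (Z.cut i) w) := by
  set m := upp (Z.cut p) (low (Z.cut i) w) with hm
  have hcut := hZ.hcut hpi
  have e1 : low (Z.cut i) w = low (Z.cut p) w * m := by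
    conv_lhs => rw [← low_mul_upp (Z.cut p) (low_pos (Z.cut i) w).ne']
    rw [low_low hcut]
  have e2 : upp (Z.cut p) w = m * upp (Z.cut i) w := by
    have h1 := low_mul_upp (Z.cut p) hw.ne'
    have h2 := low_mul_upp (Z.cut i) hw.ne'
    rw [e1] at h2
    have h3 : low (Z.cut p) w * upp (Z.cut p) w = low (Z.cut p) w * (m * upp (Z.cut i) w) := by
      rw [h1, ← mul_assoc, h2]
    exact Nat.eq_of_mul_eq_mul_left (low_pos _ _) h3
  refine ⟨m, upp_pos _ _, ?_, ?_, ?_, rfl⟩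
  · unfold World.yy
    rw [e2]
    push_cast
    ring
  · unfold World.tt World.e
    rw [e1]
    push_cast
    ring
  · intro q hq hqm
    by_contra hc
    have h1 : q ∣ upp (Z.cut p) (low (Z.cut i) w) := hqm
    unfold upp at h1
    exact (prime_dvd_part (fun r => ¬ r ≤ Z.cut p) hq h1) (by omega)

lemma coprime_of_lt {m k : ℕ} (hk : 0 < k) (h : ∀ q : ℕ, q.Prime → q ∣ m → k < q) :
    IsCoprime (m : ℤ) (k : ℤ) := by
  rw [Nat.isCoprime_iff_coprime]
  by_contra hc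
  obtain ⟨q, hq, h1, h2⟩ := Nat.Prime.not_coprime_iff_dvd.1 hc
  exact absurd (Nat.le_of_dvd hk h2) (not_le.2 (h q hq h1))

/-- two reduced fractions, `a / k = m a' / k'`, `m` prime to `k'` -/
lemma reduced_eq {a a' : ℤ} {m k k' : ℕ} (hk : 0 < k) (hc : IsCoprime a (k : ℤ))
    (hc' : IsCoprime a' (k' : ℤ)) (hm : IsCoprime (m : ℤ) (k' : ℤ))
    (h : a * k' = (m * a') * k) : k = k' ∧ a = m * a' := by
  have h1 : (k' : ℤ) ∣ k := by
    have h2 : IsCoprime (k' : ℤ) (m * a') := (IsCoprime.mul_left hm hc').symm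
    refine h2.dvd_of_dvd_mul_left ?_
    rw [← h]
    exact dvd_mul_left _ _
  have h2 : (k : ℤ) ∣ k' := by
    refine hc.symm.dvd_of_dvd_mul_left ?_
    rw [h]
    exact dvd_mul_left _ _
  have h3 : k = k' := Nat.dvd_antisymm (Int.natCast_dvd_natCast.1 h2) (Int.natCast_dvd_natCast.1 h1)
  refine ⟨h3, ?_⟩
  subst h3
  exact mul_right_cancel₀ (by exact_mod_cast hk.ne') h

/-- **one step** : same denominator, same signed displacement -/
lemma step (hZ : Z.Ok) (hT : Th Z) {p i w : ℕ} (hw : 0 < w) (hnp : Z.nd p w) (hpi : p ≤ i)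
    {a : ℤ} {k : ℕ} {K : ℝ} (hk : 0 < k) (hc : IsCoprime a (k : ℤ)) (hK : K ≤ 4 * Z.θ p)
    (h : (k : ℝ) * max 1 (Z.tt p w * |Z.yy p w - a / k|) < K)
    (hon : On (4 * Z.θ p) (Z.yy i w) (Z.tt i w)) :
    ∃ a' : ℤ, IsCoprime a' (k : ℤ) ∧ Z.tt i w * (Z.yy i w - a' / k) =
      Z.tt p w * (Z.yy p w - a / k) ∧ (k : ℝ) * max 1 (Z.tt i w * |Z.yy i w - a' / k|) < K := by
  obtain ⟨a', k', hk', hc', h'⟩ := on_reduced hon
  obtain ⟨m, hm, e1, e2, hpr, _⟩ := step_mul hZ hw hpi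
  have htp := tt_pos hZ p w
  have hti := tt_pos hZ i w
  have hmR : (0 : ℝ) < m := by exact_mod_cast hm
  have hkR : (0 : ℝ) < k := by exact_mod_cast hk
  have hkR' : (0 : ℝ) < k' := by exact_mod_cast hk'
  -- push down
  have e3 : Z.tt i w * (Z.yy i w - a' / k') = Z.tt p w * (Z.yy p w - ((m * a' : ℤ) : ℝ) / k') := by
    rw [e1, e2]
    push_cast
    ring
  have e4 : Z.tt i w * |Z.yy i w - a' / k'| =
      Z.tt p w * |Z.yy p w - ((m * a' : ℤ) : ℝ) / k'| := by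
    have := congrArg abs e3
    rwa [abs_mul, abs_mul, abs_of_pos hti, abs_of_pos htp] at this
  have h2 : (k' : ℝ) * max 1 (Z.tt p w * |Z.yy p w - ((m * a' : ℤ) : ℝ) / k'|) < 4 * Z.θ p := by
    rw [← e4]; exact h'
  have hθ := hZ.hθ p hnp.1
  have hKpos : 0 < K := by
    refine lt_of_lt_of_le ?_ h.le
    have : (1 : ℝ) ≤ max 1 (Z.tt p w * |Z.yy p w - a / k|) := le_max_left _ _
    positivity
  have hKK : K * (4 * Z.θ p) * (1 / Z.tt p w + 1 / Z.tt p w) ≤ 1 := by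
    have h3 := hT.sq p hnp.1
    have h4 := tt_ge hZ hnp
    have h5 : K * (4 * Z.θ p) ≤ (4 * Z.θ p) * (4 * Z.θ p) :=
      mul_le_mul_of_nonneg_right hK (by linarith)
    have h6 : K * (4 * Z.θ p) * (1 / Z.tt p w + 1 / Z.tt p w) =
        2 * (K * (4 * Z.θ p)) / Z.tt p w := by
      field_simp
      ring
    rw [h6, div_le_one htp]
    nlinarith
  have h7 := frac_unique hk hk' htp htp h h2 hKK
  have hmk : IsCoprime (m : ℤ) (k' : ℤ) := by
    refine coprime_of_lt hk' fun q hq hqm => ?_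
    have h8 := hpr q hq hqm
    have h9 : (k' : ℝ) < 4 * Z.θ p := by
      refine lt_of_le_of_lt ?_ h2
      have := le_max_left (1 : ℝ) (Z.tt p w * |Z.yy p w - ((m * a' : ℤ) : ℝ) / k'|)
      nlinarith
    have h10 : (2 : ℝ) ^ p ≤ Z.cut p := by exact_mod_cast hZ.hcut2 p
    have h11 := hT.sq p hnp.1
    have h12 : (k' : ℝ) < Z.cut p := by nlinarith
    have h13 : k' < Z.cut p := by exact_mod_cast h12
    omega
  obtain ⟨r1, r2⟩ := reduced_eq hk hc hc' hmk (by exact_mod_cast h7)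
  subst r1
  refine ⟨a', hc', ?_, ?_⟩
  · rw [e3, ← r2]
  · rw [e4, ← r2]; exact h

lemma prev_spec {i j w : ℕ} (hj : Z.nd j w) (hji : j < i) :
    Z.nd (Z.prev i w) w ∧ Z.prev i w < i ∧ j ≤ Z.prev i w := by
  classical
  have h1 : (fun i' => i' < i ∧ Z.nd i' w) (Z.prev i w) := by
    unfold World.prev
    exact Nat.findGreatest_spec (P := fun i' => i' < i ∧ Z.nd i' w) hji.le ⟨hji, hj⟩
  refine ⟨h1.2, h1.1, ?_⟩
  unfold World.prev
  exact Nat.le_findGreatest (P := fun i' => i' < i ∧ Z.nd i' w) hji.le ⟨hji, hj⟩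

/-- **the chain** -/
theorem chain (hZ : Z.Ok) (hT : Th Z) {j0 w : ℕ} (hwN : w ∣ Z.N) (hj0 : Z.nd j0 w) :
    ∀ i, j0 < i → Z.nd i w → (∀ j, j0 < j → j ≤ i → ¬ Z.birth j w) →
      On (4 * Z.θ j0) (Z.yy i w) (Z.tt i w) := by
  have hw : 0 < w := Nat.pos_of_dvd_of_pos hwN hZ.hN
  intro i
  induction i using Nat.strong_induction_on with
  | _ i ih =>
    intro hji hni hnb
    obtain ⟨p1, p2, p3⟩ := prev_spec hj0 hji
    have hl : Z.light i w := by
      by_contra hc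
      exact hnb i hji le_rfl ⟨hni, fun h => hc h.2⟩
    have hon := on_of_light hZ hwN hni hl
    rcases p3.eq_or_lt with h | h
    · rw [← h] at hon
      exact hon
    · have h2 := ih (Z.prev i w) p2 h p1 fun j h3 h4 => hnb j h3 (by omega)
      obtain ⟨a, k, hk, hc, h3⟩ := on_reduced h2
      obtain ⟨a', _, _, h4⟩ := step hZ hT hw p1 p2.le hk hc
        (by have := hT.mono j0 (Z.prev i w) hj0.1 p3; linarith) h3 hon
      exact ⟨a', k, hk, h4⟩

/-- **one zone, one prefix: one point** -/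
theorem one_cell (hZ : Z.Ok) (hT : Th Z) {i w w' : ℕ} (hwN : w ∣ Z.N) (hwN' : w' ∣ Z.N)
    (hn : Z.nd i w) (hlow : low (Z.cut i) w = low (Z.cut i) w')
    (hz : Z.zone i w = Z.zone i w') :
    ∃ z : ℤ, |Z.yy i w - Z.yy i w' - z| < 3 / Z.tt i w := by
  have hw : 0 < w := Nat.pos_of_dvd_of_pos hwN hZ.hN
  have hw' : 0 < w' := Nat.pos_of_dvd_of_pos hwN' hZ.hN
  have hn' : Z.nd i w' := (GWcellx284.nd_congr hlow).1 hn
  have ett : ∀ j ≤ i, Z.tt j w = Z.tt j w' := by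
    intro j hj
    unfold World.tt
    rw [e_congr (GWcellx284.low_congr hZ hj hlow)]
  set j0 := Z.bi i w with hj0
  have hb := birth_bi hn
  have hb' := birth_bi hn'
  have ebi : Z.bi i w = Z.bi i w' := congrArg (fun ν : Node => ν.1) hz
  have hj0i : j0 ≤ i := bi_le i w
  rw [← hj0] at hb
  rw [← ebi, ← hj0] at hb'
  -- the labels at the birth index
  have hlabe : Z.lab j0 w = Z.lab j0 w' := by
    have h1 := hz
    unfold World.zone at h1
    rw [← ebi, ← hj0] at h1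
    exact h1
  obtain ⟨z0, hz0⟩ := dist_of_S hZ (mem_S_lab hZ hwN hb.1)
    (ν := Z.lab j0 w) (w' := w') (by rw [hlabe]; exact mem_S_lab hZ hwN' hb'.1)
  change |Z.yy j0 w - Z.yy j0 w' - z0| < 3 / Z.tt j0 w at hz0
  rcases hj0i.eq_or_lt with h | hlt
  · rw [← h]
    exact ⟨z0, hz0⟩
  -- the fractions at `i`
  have c1 := chain hZ hT hwN hb.1 i hlt hn fun j h1 h2 => not_birth_of_bi_lt (by rw [← hj0]; exact h1) h2
  have c2 := chain hZ hT hwN' hb'.1 i hlt hn' fun j h1 h2 =>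
    not_birth_of_bi_lt (by rw [← ebi, ← hj0]; exact h1) h2
  obtain ⟨a, k, hk, hc, h1⟩ := on_reduced c1
  obtain ⟨a', k', hk', hc', h1'⟩ := on_reduced c2
  obtain ⟨m, hm, e1, e2, hpr, em⟩ := step_mul hZ hw hlt.le
  obtain ⟨m', hm', e1', e2', hpr', em'⟩ := step_mul hZ hw' hlt.le
  have emm : m' = m := by rw [em, em', hlow]
  subst emm
  rw [← ett i le_rfl] at h1'
  have ht0 := tt_pos hZ j0 w
  have hti := tt_pos hZ i w
  have hmR : (0 : ℝ) < m' := by exact_mod_cast hm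
  have hkR : (0 : ℝ) < k := by exact_mod_cast hk
  have hkR' : (0 : ℝ) < k' := by exact_mod_cast hk'
  have hθ := hZ.hθ j0 hb.1.1
  have hsq := hT.sq j0 hb.1.1
  have htg := tt_ge hZ hb.1
  have hkθ : (k : ℝ) < 4 * Z.θ j0 := by
    refine lt_of_le_of_lt ?_ h1
    have := le_max_left (1 : ℝ) (Z.tt i w * |Z.yy i w - a / k|)
    nlinarith
  have hkθ' : (k' : ℝ) < 4 * Z.θ j0 := by
    refine lt_of_le_of_lt ?_ h1'
    have := le_max_left (1 : ℝ) (Z.tt i w * |Z.yy i w' - a' / k'|)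
    nlinarith
  have hcutk : ∀ {x : ℕ}, (x : ℝ) < 4 * Z.θ j0 → ∀ q : ℕ, Z.cut j0 < q → x < q := by
    intro x hx q hq
    have h10 : (2 : ℝ) ^ j0 ≤ Z.cut j0 := by exact_mod_cast hZ.hcut2 j0
    have h12 : (x : ℝ) < Z.cut j0 := by nlinarith
    have h13 : x < Z.cut j0 := by exact_mod_cast h12
    omega
  -- displacements
  set d : ℝ := Z.yy i w - a / k with hd
  set d' : ℝ := Z.yy i w' - a' / k' with hd'
  have b1 : (k : ℝ) * (Z.tt i w * |d|) < 4 * Z.θ j0 :=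
    lt_of_le_of_lt (mul_le_mul_of_nonneg_left (le_max_right _ _) hkR.le) h1
  have b2 : (k' : ℝ) * (Z.tt i w * |d'|) < 4 * Z.θ j0 :=
    lt_of_le_of_lt (mul_le_mul_of_nonneg_left (le_max_right _ _) hkR'.le) h1'
  have etm : Z.tt i w = m' * Z.tt j0 w := e2
  -- the integer
  set X : ℤ := (m' * a) * k' - (m' * a') * k - z0 * (k * k') with hX
  have eX : (X : ℝ) = (k : ℝ) * k' * ((Z.yy j0 w - Z.yy j0 w' - z0) - m' * (d - d')) := by
    rw [hX, e1, e1', hd, hd']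
    push_cast
    field_simp
    ring
  have hX0 : X = 0 := by
    have hlt1 : |(X : ℝ)| < 1 := by
      rw [eX, abs_mul, abs_of_pos (mul_pos hkR hkR')]
      have s1 : |(Z.yy j0 w - Z.yy j0 w' - z0) - m' * (d - d')| ≤
          |Z.yy j0 w - Z.yy j0 w' - z0| + m' * |d| + m' * |d'| := by
        have t1 := abs_sub (Z.yy j0 w - Z.yy j0 w' - z0) (m' * (d - d'))
        have t2 : |(m' : ℝ) * (d - d')| ≤ m' * |d| + m' * |d'| := by
          rw [abs_mul, Nat.abs_cast, ← mul_add]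
          exact mul_le_mul_of_nonneg_left (abs_sub d d') hmR.le
        linarith
      have s2 : (k : ℝ) * (m' * |d|) * Z.tt j0 w < 4 * Z.θ j0 := by
        have : (k : ℝ) * (m' * |d|) * Z.tt j0 w = (k : ℝ) * (Z.tt i w * |d|) := by
          rw [etm]; ring
        rw [this]; exact b1
      have s3 : (k' : ℝ) * (m' * |d'|) * Z.tt j0 w < 4 * Z.θ j0 := by
        have : (k' : ℝ) * (m' * |d'|) * Z.tt j0 w = (k' : ℝ) * (Z.tt i w * |d'|) := by
          rw [etm]; ring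
        rw [this]; exact b2
      have s4 : |Z.yy j0 w - Z.yy j0 w' - z0| * Z.tt j0 w < 3 := by
        rwa [lt_div_iff₀ ht0] at hz0
      have s5 : (k : ℝ) * k' * |(Z.yy j0 w - Z.yy j0 w' - z0) - m' * (d - d')| * Z.tt j0 w <
          Z.tt j0 w := by
        calc (k : ℝ) * k' * |(Z.yy j0 w - Z.yy j0 w' - z0) - m' * (d - d')| * Z.tt j0 w
            ≤ (k : ℝ) * k' * (|Z.yy j0 w - Z.yy j0 w' - z0| + m' * |d| + m' * |d'|) *
                Z.tt j0 w := by
              refine mul_le_mul_of_nonneg_right ?_ ht0.le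
              exact mul_le_mul_of_nonneg_left s1 (by positivity)
          _ = (k : ℝ) * k' * (|Z.yy j0 w - Z.yy j0 w' - z0| * Z.tt j0 w) +
                k' * ((k : ℝ) * (m' * |d|) * Z.tt j0 w) +
                k * ((k' : ℝ) * (m' * |d'|) * Z.tt j0 w) := by ring
          _ ≤ (4 * Z.θ j0) * (4 * Z.θ j0) * 3 + (4 * Z.θ j0) * (4 * Z.θ j0) +
                (4 * Z.θ j0) * (4 * Z.θ j0) := by
              have u1 : (k : ℝ) * k' * (|Z.yy j0 w - Z.yy j0 w' - z0| * Z.tt j0 w) ≤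
                  (4 * Z.θ j0) * (4 * Z.θ j0) * 3 := by
                refine mul_le_mul ?_ s4.le (by positivity) (by positivity)
                exact mul_le_mul hkθ.le hkθ'.le hkR'.le (by linarith)
              have u2 : (k' : ℝ) * ((k : ℝ) * (m' * |d|) * Z.tt j0 w) ≤
                  (4 * Z.θ j0) * (4 * Z.θ j0) :=
                mul_le_mul hkθ'.le s2.le (by positivity) (by linarith)
              have u3 : (k : ℝ) * ((k' : ℝ) * (m' * |d'|) * Z.tt j0 w) ≤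
                  (4 * Z.θ j0) * (4 * Z.θ j0) :=
                mul_le_mul hkθ.le s3.le (by positivity) (by linarith)
              linarith
          _ < Z.tt j0 w := by nlinarith
      have s6 : ((k : ℝ) * k' * |(Z.yy j0 w - Z.yy j0 w' - z0) - m' * (d - d')|) * Z.tt j0 w <
          1 * Z.tt j0 w := by rw [one_mul]; exact s5
      exact lt_of_mul_lt_mul_right s6 ht0.le
    have : |X| < 1 := by exact_mod_cast hlt1
    exact Int.abs_lt_one_iff.1 this
  -- same denominator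
  have eq1 : (m' * a) * (k' : ℤ) = (m' * a' + z0 * k') * k := by
    have := hX0
    rw [hX] at this
    linear_combination this
  have cm : IsCoprime (m' : ℤ) (k : ℤ) := coprime_of_lt hk fun q hq hqm => hcutk hkθ q (hpr q hq hqm)
  have cm' : IsCoprime (m' : ℤ) (k' : ℤ) :=
    coprime_of_lt hk' fun q hq hqm => hcutk hkθ' q (hpr q hq hqm)
  have g1 : IsCoprime (m' * a) (k : ℤ) := IsCoprime.mul_left cm hc
  have g2 : IsCoprime (m' * a' + z0 * k') (k' : ℤ) :=
    (IsCoprime.mul_left cm' hc').add_mul_right_left z0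
  have d1 : (k : ℤ) ∣ k' := g1.symm.dvd_of_dvd_mul_left (by rw [eq1]; exact dvd_mul_left _ _)
  have d2 : (k' : ℤ) ∣ k := g2.symm.dvd_of_dvd_mul_left (by rw [← eq1]; exact dvd_mul_left _ _)
  have ekk : k = k' := Nat.dvd_antisymm (Int.natCast_dvd_natCast.1 d1)
    (Int.natCast_dvd_natCast.1 d2)
  subst ekk
  have hkz : (k : ℤ) ≠ 0 := by exact_mod_cast hk.ne'
  have eq2 : m' * a = m' * a' + z0 * k := mul_right_cancel₀ hkz eq1
  obtain ⟨z1, hz1⟩ : (k : ℤ) ∣ a - a' := by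
    have : (k : ℤ) ∣ m' * (a - a') := ⟨z0, by linear_combination eq2⟩
    exact cm.symm.dvd_of_dvd_mul_left this
  refine ⟨z1, ?_⟩
  have e5 : Z.yy i w - Z.yy i w' - z1 = d - d' := by
    have : (a : ℝ) / k - (a' : ℝ) / k = z1 := by
      rw [← sub_div, div_eq_iff hkR.ne']
      have : ((a - a' : ℤ) : ℝ) = ((k * z1 : ℤ) : ℝ) := by rw [hz1]
      push_cast at this
      linarith
    rw [hd, hd']
    linarith
  have e6 : (m' : ℝ) * (d - d') = Z.yy j0 w - Z.yy j0 w' - z0 := by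
    have h7 : (X : ℝ) = 0 := by exact_mod_cast hX0
    rw [eX] at h7
    rcases mul_eq_zero.1 h7 with h8 | h8
    · exact absurd h8 (mul_pos hkR hkR').ne'
    · linarith
  rw [e5]
  rw [lt_div_iff₀ hti, etm]
  have h9 : |(m' : ℝ) * (d - d')| * Z.tt j0 w < 3 := by
    rw [e6]
    rwa [lt_div_iff₀ ht0] at hz0
  rw [abs_mul, Nat.abs_cast] at h9
  linarith

lemma floor_near {x y : ℝ} (h : |x - y| < 3 / 2) : -2 ≤ ⌊x⌋ - ⌊y⌋ ∧ ⌊x⌋ - ⌊y⌋ ≤ 2 := by
  rw [abs_lt] at h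
  have a1 := Int.floor_le x
  have a2 := Int.lt_floor_add_one x
  have b1 := Int.floor_le y
  have b2 := Int.lt_floor_add_one y
  constructor
  · have : ((-3 : ℤ) : ℝ) < ((⌊x⌋ - ⌊y⌋ : ℤ) : ℝ) := by push_cast; linarith
    have := Int.cast_lt.1 this
    omega
  · have : ((⌊x⌋ - ⌊y⌋ : ℤ) : ℝ) < ((3 : ℤ) : ℝ) := by push_cast; linarith
    have := Int.cast_lt.1 this
    omega

/-- the cell numbers of two close words differ by at most `2` -/
lemma cel_near (hZ : Z.Ok) {i w w' : ℕ} (hw : 0 < w) (hw' : 0 < w') (hn : Z.nd i w)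
    (hlow : low (Z.cut i) w = low (Z.cut i) w') {z : ℤ}
    (h : |Z.yy i w - Z.yy i w' - z| < 3 / Z.tt i w) :
    ∃ δ : ℤ, -2 ≤ δ ∧ δ ≤ 2 ∧ Z.cel w' = Z.cel w - δ - z * Z.Q i w := by
  have hμ := mesh_pos' hZ hn
  have hμ2 := (mesh_bounds hZ.hL (four_le_e1 hZ hn)).1
  have hL := hZ.hL
  have he : (0 : ℝ) < Z.e i w := by exact_mod_cast e_pos hZ i w
  set μ := mesh Z.L (Z.e1 w) with hμd
  have hQ := Q_mul hZ hn
  rw [← hμd] at hQ
  have p1 := pos_eq (Z := Z) (i := i) hw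
  have p2 := pos_eq (Z := Z) (i := i) hw'
  rw [← e_congr hlow] at p2
  set x : ℝ := ((Z.G0 * w : ℕ) : ℝ) * Z.γ / μ + Z.σ with hx
  set y : ℝ := ((Z.G0 * w' : ℕ) : ℝ) * Z.γ / μ + Z.σ with hy
  have c1 : Z.cel w = ⌊x⌋ := rfl
  have c2 : Z.cel w' = ⌊y⌋ := by
    rw [hy, hμd, e1_congr hZ hlow hn]
    rfl
  have key : |x - (y + ((z * Z.Q i w : ℤ) : ℝ))| < 3 / 2 := by
    have e1 : x - (y + ((z * Z.Q i w : ℤ) : ℝ)) =
        (Z.e i w : ℝ) * (Z.yy i w - Z.yy i w' - z) / μ := by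
      rw [hx, hy, p1, p2]
      push_cast
      have : (Z.Q i w : ℝ) = (Z.e i w : ℝ) / μ := by rw [eq_div_iff hμ.ne']; exact hQ
      rw [this]
      field_simp
      ring
    rw [e1, abs_div, abs_of_pos hμ, abs_mul, abs_of_pos he, div_lt_iff₀ hμ]
    have h1 : (Z.e i w : ℝ) * |Z.yy i w - Z.yy i w' - z| < 3 * Z.L := by
      have h2 := mul_lt_mul_of_pos_left h he
      have h3 : (Z.e i w : ℝ) * (3 / Z.tt i w) = 3 * Z.L := by
        unfold World.tt
        field_simp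
      rwa [h3] at h2
    linarith
  obtain ⟨k1, k2⟩ := floor_near key
  rw [Int.floor_add_intCast] at k1 k2
  refine ⟨⌊x⌋ - (⌊y⌋ + z * Z.Q i w), k1, k2, ?_⟩
  rw [c1, c2]
  ring

open Classical in
/-- **a zone has at most `5` nodes with a given index and prefix** -/
theorem card_cells (hZ : Z.Ok) (hT : Th Z) (z : Node) (i n : ℕ) :
    ((Z.Nd z).filter fun ν => ν.1 = i ∧ ν.2.1 = n).card ≤ 5 := by
  rcases ((Z.Nd z).filter fun ν => ν.1 = i ∧ ν.2.1 = n).eq_empty_or_nonempty with he | ⟨ν0, h0⟩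
  · rw [he]; simp
  rw [mem_filter] at h0
  obtain ⟨h0, h01, h02⟩ := h0
  obtain ⟨w0, a1, a2, a3, a4⟩ := (mem_Nd hZ).1 h0
  rw [h01] at a2 a3 a4
  have hw0 : 0 < w0 := Nat.pos_of_dvd_of_pos a1 hZ.hN
  have hl0 : low (Z.cut i) w0 = n := by
    have := congrArg (fun ν : Node => ν.2.1) a3
    exact this.trans h02
  have hsub : ((Z.Nd z).filter fun ν => ν.1 = i ∧ ν.2.1 = n) ⊆
      (Finset.Icc (-2 : ℤ) 2).image fun δ => ((i, n, (Z.cel w0 - δ) % (Z.Q i w0 : ℤ)) : Node) := by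
    intro ν hν
    rw [mem_filter] at hν
    obtain ⟨h1, h2, h3⟩ := hν
    obtain ⟨w, b1, b2, b3, b4⟩ := (mem_Nd hZ).1 h1
    rw [h2] at b2 b3 b4
    have hw : 0 < w := Nat.pos_of_dvd_of_pos b1 hZ.hN
    have hl : low (Z.cut i) w = n := by
      have := congrArg (fun ν : Node => ν.2.1) b3
      exact this.trans h3
    have hlow : low (Z.cut i) w0 = low (Z.cut i) w := by rw [hl0, hl]
    obtain ⟨z1, hz1⟩ := one_cell hZ hT a1 b1 a2 hlow (a4.trans b4.symm)
    obtain ⟨δ, d1, d2, d3⟩ := cel_near hZ hw0 hw a2 hlow hz1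
    rw [mem_image]
    refine ⟨δ, Finset.mem_Icc.2 ⟨d1, d2⟩, ?_⟩
    rw [← b3]
    unfold World.lab
    refine Prod.ext rfl (Prod.ext hl.symm ?_)
    show (Z.cel w0 - δ) % (Z.Q i w0 : ℤ) = Z.cel w % (Z.Q i w : ℤ)
    rw [← Q_congr hZ hlow a2, d3]
    exact (Int.sub_mul_emod_self_right _ _ _).symm
  calc _ ≤ _ := card_le_card hsub
    _ ≤ (Finset.Icc (-2 : ℤ) 2).card := card_image_le
    _ = 5 := by decide

end Crest.Agent.R4C.OneCellx264
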