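import Crest.Agent.R4C.VDef_24
import Crest.Agent.R4C.DictV_20

/-!
# Row 4, GW section, vector case: plugs of `TPair` (helper252)

* `kap2_ge` : two related nodes `lab i w`, `lab i w'`, one member leaves its zone there:
  `1 / g ≤ kap2` of the two zones.
* `VA_ge` : the weight of the zone of the node `i` is at least the product of the actual coins
  `≤ cut i`.
* `good_of` : if all nominal coins above `cut (l + s)` are actual, then all nominal coins above the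
  birth of the zone of the node `l` are actual (no nominal coin in a light gap, helper20).
* `wv_vw` : `DictVx20.WV` for the world `vw` at `ParOf`.
-/

set_option autoImplicit false

open Finset

namespace Crest.Agent.R4C.PairAx252

open Crest.Agent.R4C.Basex935 Crest.Agent.R4C.Cutx50 Crest.Agent.R4C.GWdefx982
open Crest.Agent.R4C.GWnodex863 Crest.Agent.R4C.FamBudx252 Crest.Agent.R4C.VDefx24
open Crest.Agent.R4C.Rulex945 Crest.Agent.R4C.Spinex946 Crest.Agent.R4C.FLDefx935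
open Crest.Agent.R4C.PrefixMx882 (free)

variable {Z : World}

/-- **(a)** -/
theorem kap2_ge (h : Z.Ok) {R : Node → Node → Prop} {i w w' : ℕ} (hw : w ∣ Z.N) (hw' : w' ∣ Z.N)
    (hn : Z.nd i w) (hn' : Z.nd i w') (hR : R (Z.lab i w) (Z.lab i w'))
    (hA : w ∈ Z.A (Z.zone i w) (Z.lab i w) ∨ w' ∈ Z.A (Z.zone i w') (Z.lab i w')) :
    Z.zone i w ∈ Z.Zs ∧ Z.zone i w' ∈ Z.Zs ∧
      1 / Z.g (Z.lab i w) ≤ kap2 Z R (Z.zone i w) (Z.zone i w') w w' := by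
  classical
  refine ⟨zone_mem_Zs h hw hn, zone_mem_Zs h hw' hn', ?_⟩
  have hS := mem_S_lab h hw hn
  have hS' := mem_S_lab h hw' hn'
  have hg0 : ∀ ν, 0 ≤ Z.g ν := fun ν => nu_nonneg _ _
  have hterm : ∀ ν ν' : Node, (0 : ℝ) ≤ if R ν ν' ∧
      ((w ∈ Z.A (Z.zone i w) ν ∧ w' ∈ Z.S ν') ∨ (w ∈ Z.S ν ∧ w' ∈ Z.A (Z.zone i w') ν')) then
      1 / Z.g ν else 0 := by
    intro ν ν'
    split_ifs
    · exact div_nonneg zero_le_one (hg0 ν)
    · exact le_rfl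
  unfold kap2
  have h1 := Finset.single_le_sum (s := Z.Nd (Z.zone i w)) (a := Z.lab i w)
    (f := fun ν => ∑ ν' ∈ Z.Nd (Z.zone i w'), if R ν ν' ∧
      ((w ∈ Z.A (Z.zone i w) ν ∧ w' ∈ Z.S ν') ∨ (w ∈ Z.S ν ∧ w' ∈ Z.A (Z.zone i w') ν')) then
      1 / Z.g ν else 0)
    (fun ν _ => Finset.sum_nonneg fun ν' _ => hterm ν ν') (mem_Nd_zone h hw hn)
  refine le_trans ?_ h1
  have h2 := Finset.single_le_sum (s := Z.Nd (Z.zone i w')) (a := Z.lab i w')
    (f := fun ν' => if R (Z.lab i w) ν' ∧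
      ((w ∈ Z.A (Z.zone i w) (Z.lab i w) ∧ w' ∈ Z.S ν') ∨
        (w ∈ Z.S (Z.lab i w) ∧ w' ∈ Z.A (Z.zone i w') ν')) then
      1 / Z.g (Z.lab i w) else 0)
    (fun ν' _ => hterm (Z.lab i w) ν') (mem_Nd_zone h hw' hn')
  refine le_trans (le_of_eq ?_) h2
  rw [if_pos]
  refine ⟨hR, ?_⟩
  rcases hA with h3 | h3
  · exact Or.inl ⟨h3, hS'⟩
  · exact Or.inr ⟨hS, h3⟩

/-- **(b)** -/
theorem VA_ge (h : Z.Ok) {Act : Finset ℕ} (hA : ∀ p ∈ Act, 1 ≤ p) {i w : ℕ}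
    (hg : Good Z Act w (Z.bi i w)) :
    (∏ p ∈ Act with p ≤ Z.cut i, (1 - 1 / (p : ℝ))) ≤ VA Z Act w (Z.zone i w).1 := by
  classical
  rw [zone_fst]
  unfold VA
  rw [if_pos hg]
  have hsub : (Act.filter fun p => p ≤ Z.cut (Z.bi i w)) ⊆ Act.filter fun p => p ≤ Z.cut i := by
    intro p hp
    rw [mem_filter] at hp ⊢
    exact ⟨hp.1, hp.2.trans (h.hcut (bi_le i w))⟩
  rw [← prod_sdiff hsub]
  refine mul_le_of_le_one_left
    (prod_nonneg fun p hp => (fac_mem (hA p (mem_filter.1 hp).1)).1) ?_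
  exact prod_le_one
    (fun p hp => (fac_mem (hA p (mem_filter.1 (mem_sdiff.1 hp).1).1)).1)
    fun p hp => (fac_mem (hA p (mem_filter.1 (mem_sdiff.1 hp).1).1)).2

/-- **(c)** -/
theorem good_of {P : Par} {δ : ℝ} {s : ℕ} (h : Z.Ok) (hZ : DictVx20.WV Z P δ s)
    (hcut : Monotone P.cut) {Act : Finset ℕ} {l w : ℕ} (hw : w ∣ Z.N) (hl : Z.nd l w)
    (hact : ∀ q ∈ free Z.N w, Z.coin w q → Z.cut (l + s) < q → q ∈ Act) :
    Good Z Act w (Z.bi l w) := by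
  intro q hq hc hlt
  refine hact q hq hc ?_
  exact DictVx20.above_of_nomC h hZ hcut hw (birth_bi hl).1 hlt ((hZ.coin w q).1 hc) hl
    fun k hk hkl => not_birth_of_bi_lt hk hkl

/-- the coin relation of `vw` is helper20's -/
lemma nomC_iff {P : Par} {δ : ℝ} {s : ℕ} {L' : ℝ} {G w p : ℕ} :
    VDefx24.nomC P δ s L' G w p ↔ DictVx20.nomC P δ s L' G w p := Iff.rfl

/-- **(d)** -/
theorem wv_vw {M : ℕ} (hM : 0 < M) (F : FL M) {cp : ℝ} (hcp : cp ≤ 1 / 4) {A : ℕ} (hA : 1 ≤ A)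
    (m0 : ℕ) (γ L : ℝ) (B : Finset ℕ) (a a' s G : ℕ) :
    DictVx20.WV (vw hM F (ParOf cp A m0 γ L M B) (1 / (4 * A)) a a' s G)
      (ParOf cp A m0 γ L M B) (1 / (4 * A)) (a + a' + 3) where
  cut := rfl
  γ := rfl
  coin := fun w p => nomC_iff
  hθ := by
    intro i _ q hq
    have hA0 : (0 : ℝ) < A := by exact_mod_cast hA
    have e1 : (vw hM F (ParOf cp A m0 γ L M B) (1 / (4 * A)) a a' s G).cut i = 2 ^ (A * i) := rfl
    have e2 : (vw hM F (ParOf cp A m0 γ L M B) (1 / (4 * A)) a a' s G).θ i =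
      (2 : ℝ) ^ (cp * i) / 16 := rfl
    rw [e1] at hq
    rw [e2]
    have h1 : ((2 : ℝ) ^ (A * i : ℕ)) ≤ q := by exact_mod_cast hq.le
    have h2 : (2 : ℝ) ^ ((i : ℝ) / 4) ≤ (q : ℝ) ^ (1 / (4 * A : ℝ)) := by
      calc (2 : ℝ) ^ ((i : ℝ) / 4) = ((2 : ℝ) ^ (A * i : ℕ)) ^ (1 / (4 * A : ℝ)) := by
            rw [← Real.rpow_natCast, ← Real.rpow_mul (by norm_num)]
            congr 1
            push_cast
            field_simp
        _ ≤ _ := Real.rpow_le_rpow (by positivity) h1 (by positivity)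
    have h3 : (2 : ℝ) ^ (cp * i) ≤ (2 : ℝ) ^ ((i : ℝ) / 4) := by
      refine Real.rpow_le_rpow_of_exponent_le (by norm_num) ?_
      have : (0 : ℝ) ≤ i := Nat.cast_nonneg i
      nlinarith
    have h4 : (0 : ℝ) < (2 : ℝ) ^ (cp * i) := by positivity
    linarith

end Crest.Agent.R4C.PairAx252
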