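import Crest.Agent.R4C.PairR_14
import Crest.Agent.R4C.S2c_284

/-!
# Row 4: the cover of `PairR_14` with the size bound of the dominant word (helper945)

Copies of `Pairx14.pair_glue2`, `PairRx14.cover_good`, `PairRx14.cover_goodB` (helper14) over
`S2cx284.pair_classB` (helper284): the dominant word has entries `≤ 4 D^8`.
-/

set_option autoImplicit false

namespace Crest.Agent.R4C.PairBx945

open Crest.Agent.R4C.FLDefx935 Crest.Agent.R4C.BoostCx972 Crest.Agent.R4C.CrCoinx935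
  Crest.Agent.R4C.CrCountx935 Crest.Agent.R4C.Bridgex882
  Crest.Agent.R4C.S7cx14 Crest.Agent.R4C.S7dx14 Crest.Agent.R4C.Chainx81
  Crest.Agent.R4C.Cutx50 Crest.Agent.R4C.S2bx284 Crest.Agent.R4C.S2cx284
  Crest.Agent.R4C.S2x232 Crest.Agent.R4C.Centx949
  Crest.Agent.R4C.Pairx14 Crest.Agent.R4C.PairRx14

section glue

variable {M : ℕ} {F : FL M}

/-- **GLUE, with the explicit labels of `S2b_284`** -/
theorem pair_glueB {γ T D L : ℝ} {x g s s' : ℕ} (hM : 0 < M) (hb : g * s ∣ M) (hc : g * s' ∣ M)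
    (hcop : Nat.Coprime s s') (hx : F.good x (g * s) (g * s')) (hD : 4 ≤ D)
    (hT : 8 * (4 * D ^ 8) ^ 5 ≤ T) (hgT : (g : ℝ) ≤ 2 * (T * L)) {h : ℤ}
    (hl : |((s : ℝ) - s') * γ + h| < 1 / T) :
    Rare (upp x s * γ) (upp x s' * γ) T D (low x s) (low x s') ∨
    DomB (upp x s * γ) (upp x s' * γ) T D (low x s) (low x s') ∨
    UD F γ T (4 * D ^ 8) x (g * s) (g * s') ∨ UD F γ T (4 * D ^ 8) x (g * s') (g * s) ∨
    ∃ (a : ℤ) (k : ℕ) (a' : ℤ) (k' : ℕ),
      TC F γ L (2 * (4 * D ^ 8)) x (g * s) a k ∧ TC F γ L (2 * (4 * D ^ 8)) x (g * s') a' k' ∧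
      gap (fr F x (g * s) a k) (fr F x (g * s') a' k') s s' h = 0 ∧
      Labd (upp x s * γ) (upp x s' * γ) T (4 * D ^ 8) ((F.ell x (g * s') : ℕ) * a) k
        ((F.ell x (g * s) : ℕ) * a') k' (low x s) (low x s') ∧
      ¬ IsShort k k' T (upp x s * γ - ((F.ell x (g * s') : ℕ) * a : ℤ) / k)
        (upp x s' * γ - ((F.ell x (g * s) : ℕ) * a' : ℤ) / k') (low x s) (low x s') ∧
      ∃ p : ℕ, p.Prime ∧ p ≤ x ∧
        ((p ∣ s ∧ p ∣ alC (g * s) (g * s') (fr F x (g * s) a k) (fr F x (g * s') a' k')) ∨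
        (p ∣ s' ∧ p ∣ alC (g * s') (g * s) (fr F x (g * s') a' k') (fr F x (g * s) a k))) := by
  have hg0 : g * s ≠ 0 := (Nat.pos_of_dvd_of_pos hb hM).ne'
  have hg0' : g * s' ≠ 0 := (Nat.pos_of_dvd_of_pos hc hM).ne'
  have hg : 0 < g := Nat.pos_of_ne_zero fun h => hg0 (by rw [h, zero_mul])
  have hs : 0 < s := Nat.pos_of_ne_zero fun h => hg0 (by rw [h, mul_zero])
  have hs' : 0 < s' := Nat.pos_of_ne_zero fun h => hg0' (by rw [h, mul_zero])
  have hsx : s = low x s * upp x s := (low_mul_upp x hs.ne').symm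
  have hsx' : s' = low x s' * upp x s' := (low_mul_upp x hs'.ne').symm
  have hD8 : (1 : ℝ) ≤ 4 * D ^ 8 := by
    have h7 : (1 : ℝ) ≤ D ^ 8 := one_le_pow₀ (by linarith)
    linarith
  have hE0 : 0 < 4 * D ^ 8 := by linarith
  have hT0 : 0 < T := lt_of_lt_of_le (by positivity) hT
  rcases pair_classB hD hT hsx hsx' hs hs' hcop hl with h1 | h1 | ⟨a, k, a', k', hL, hsh, hkill⟩
  · exact Or.inl h1
  · exact Or.inr (Or.inl h1)
  right; right
  obtain ⟨hL1, hL2⟩ := hL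
  rcases side hM hb hc hcop hx hT0 hE0.le hgT hL1 with h1 | ⟨a₁, ea, htc, hsf⟩
  · exact Or.inl h1
  right
  rcases side hM hc hb hcop.symm (FL.good_symm hb hc hx) hT0 hE0.le hgT hL2 with
    h1 | ⟨a₁', ea', htc', hsf'⟩
  · exact Or.inl h1
  right
  set f := fr F x (g * s) a₁ k with hf
  set f' := fr F x (g * s') a₁' k' with hf'
  have hkQ : (k : ℚ) ≠ 0 := by exact_mod_cast htc.pos.ne'
  have hkQ' : (k' : ℚ) ≠ 0 := by exact_mod_cast htc'.pos.ne'
  -- the same point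
  have htE : (4 * D ^ 8) ^ 2 * (1 + 2 * (4 * D ^ 8)) ≤ T := by
    have h2 : (4 * D ^ 8) ^ 2 * (1 + 2 * (4 * D ^ 8)) ≤ 3 * (4 * D ^ 8) ^ 3 := by
      have : 0 < (4 * D ^ 8) ^ 2 := by positivity
      nlinarith
    have h3 : (4 * D ^ 8) ^ 3 ≤ (4 * D ^ 8) ^ 5 := pow_le_pow_right₀ hD8 (by norm_num)
    have h4 : 0 < (4 * D ^ 8) ^ 5 := by positivity
    linarith
  have hL1c := hL1
  have hL2c := hL2
  obtain ⟨_, _, hkE, hd⟩ := hL1
  obtain ⟨_, _, hkE', hd'⟩ := hL2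
  have hl' : |((low x s : ℝ) * upp x s - low x s' * upp x s') * γ + h| < 1 / T := by
    have e : ((low x s : ℝ) * upp x s - low x s' * upp x s') = (s : ℝ) - s' := by
      have e1 : (low x s : ℝ) * upp x s = s := by exact_mod_cast hsx.symm
      have e2 : (low x s' : ℝ) * upp x s' = s' := by exact_mod_cast hsx'.symm
      rw [e1, e2]
    rw [e]; exact hl
  have hz := KillS2x949.same_pt (low_pos x s) (low_pos x s') htc.pos htc'.pos hE0 htE hkE hkE' hl'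
    hd hd'
  have hgap : gap f f' s s' h = 0 := by
    unfold BoostCx972.gap
    rw [hsf, hsf']
    have hzQ : (low x s : ℚ) * a * k' - low x s' * a' * k + h * (k * k') = 0 := by exact_mod_cast hz
    field_simp
    linear_combination hzQ
  refine ⟨a₁, k, a₁', k', htc, htc', hgap, ?_, ?_, ?_⟩
  · rw [← ea, ← ea']
    exact ⟨hL1c, hL2c⟩
  · rw [← ea, ← ea']
    exact hsh
  · -- killing prime
    have hup := upp_cof hM hb hc hcop hx
    have hup' := upp_cof hM hc hb hcop.symm (FL.good_symm hb hc hx)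
    -- relation between the reduced fraction and `a / (k X)`
    have frac : ∀ {b c : ℕ} {X : ℕ} {a : ℤ} {k : ℕ} {a₁ : ℤ}, 0 < k → X = F.lam x b * F.ell x c →
        a = (F.ell x c : ℕ) * a₁ → ∀ p : ℕ, p.Prime → ¬ p ∣ k * X →
        ¬ p ∣ (fr F x b a₁ k).den ∧ ∀ c : ℤ, (p : ℤ) ∣ (fr F x b a₁ k).num +
          (fr F x b a₁ k).den * c → (p : ℤ) ∣ a + k * X * c := by
      intro b c X a k a₁ hk hX ha p hp hpk
      have hdd := fr_den_dvd (F := F) (x := x) (b := b) a₁ k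
      have hnd : ¬ p ∣ (fr F x b a₁ k).den := fun hc => hpk (by
        rw [hX, ← mul_assoc]; exact (hc.trans hdd).mul_right _)
      refine ⟨hnd, fun c' hc' => ?_⟩
      have hXpos : 0 < X := by
        rw [hX]; exact Nat.mul_pos (FL.lam_pos _ _) (FL.ell_pos _ _)
      -- `num * (k X) = a * den`
      have e1 : (fr F x b a₁ k).num * ((k : ℤ) * X) = a * (fr F x b a₁ k).den := by
        have h1 : ((fr F x b a₁ k).num : ℚ) = fr F x b a₁ k * (fr F x b a₁ k).den :=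
          (Rat.mul_den_eq_num _).symm
        have h2 : ((fr F x b a₁ k).num : ℚ) * ((k : ℚ) * X) = a * (fr F x b a₁ k).den := by
          rw [h1]
          have hlQ : (F.lam x b : ℚ) ≠ 0 := by exact_mod_cast (FL.lam_pos (F := F) x b).ne'
          have hkQ : (k : ℚ) ≠ 0 := by exact_mod_cast hk.ne'
          have e3 : fr F x b a₁ k * ((k : ℚ) * X) = a := by
            rw [hX, ha]
            unfold fr
            push_cast
            field_simp
          linear_combination ((fr F x b a₁ k).den : ℚ) * e3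
        exact_mod_cast h2
      have e2 : ((fr F x b a₁ k).den : ℤ) * (a + k * X * c') =
          (k * X) * ((fr F x b a₁ k).num + (fr F x b a₁ k).den * c') := by
        linear_combination -e1
      have h3 : (p : ℤ) ∣ ((fr F x b a₁ k).den : ℤ) * (a + k * X * c') := by
        rw [e2]; exact hc'.mul_left _
      exact ((Nat.prime_iff_prime_int.1 hp).dvd_or_dvd h3).resolve_left fun hc =>
        hnd (Int.natCast_dvd_natCast.1 hc)
    rcases hkill with ⟨p, hp, hp1, hp2, hp3, hp4⟩ | ⟨p, hp, hp1, hp2, hp3, hp4⟩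
    · obtain ⟨k1, k2⟩ := frac htc.pos hup ea p hp hp3
      have hps' : p ∣ s' := hp1.trans (low_dvd_self x s')
      refine ⟨p, hp, prime_dvd_part (fun p => p ≤ x) hp hp1, Or.inr ⟨hps', ?_⟩⟩
      exact dvd_al_of_kill hg hs hs' hcop hgap hp hps' hp2 k1 fun c hc => hp4 c (k2 c hc)
    · obtain ⟨k1, k2⟩ := frac htc'.pos hup' ea' p hp hp3
      have hps : p ∣ s := hp1.trans (low_dvd_self x s)
      refine ⟨p, hp, prime_dvd_part (fun p => p ≤ x) hp hp1, Or.inl ⟨hps, ?_⟩⟩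
      exact dvd_al_of_kill' hg hs hs' hcop hgap hp hps hp2 k1 fun c hc => hp4 c (k2 c hc)


end glue

variable {M : ℕ} {F : FL M} {P : Rulex945.Par}

/-- **COVER, good pairs of one scale** -/
theorem cover_goodX {D : ℝ} {m g s s' : ℕ} {h : ℤ} (hL : 0 < P.L) (hM : 0 < M)
    (hN : (M : ℝ) / P.L ≤ P.N) (hE : ∀ m, P.m0 ≤ m → 2 * P.E m ^ 3 < 2 ^ m) (hm : P.m0 ≤ m)
    (hact : ∀ p, p ≤ P.cut m → P.Y (P.blk p) ≤ P.cut m)
    (hb : g * s ∣ M) (hc : g * s' ∣ M) (hcop : Nat.Coprime s s')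
    (hx : F.good (P.cut m) (g * s) (g * s')) (hD : 4 ≤ D) (hT : 8 * (4 * D ^ 8) ^ 5 ≤ (2 : ℝ) ^ m)
    (hDE : 2 * (4 * D ^ 8) ≤ P.E m)
    (hg1 : (2 : ℝ) ^ m * P.L ≤ g) (hg2 : (g : ℝ) ≤ 2 * ((2 : ℝ) ^ m * P.L))
    (hl : |((s : ℝ) - s') * P.γ + h| < P.L / g)
    (hk : ¬ killedL (Rulex945.lamR F P) (g * s) (g * s') s s' h) :
    Rare (upp (P.cut m) s * P.γ) (upp (P.cut m) s' * P.γ) (2 ^ m) D (low (P.cut m) s)
      (low (P.cut m) s') ∨
    DomB (upp (P.cut m) s * P.γ) (upp (P.cut m) s' * P.γ) (2 ^ m) D (low (P.cut m) s)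
      (low (P.cut m) s') ∨
    UD F P.γ (2 ^ m) (4 * D ^ 8) (P.cut m) (g * s) (g * s') ∨
    UD F P.γ (2 ^ m) (4 * D ^ 8) (P.cut m) (g * s') (g * s) ∨
    ∃ (f f' : ℚ) (p : ℕ), LabPair F P m g s s' h f f' p := by
  classical
  have hg0 : g * s ≠ 0 := (Nat.pos_of_dvd_of_pos hb hM).ne'
  have hg0' : g * s' ≠ 0 := (Nat.pos_of_dvd_of_pos hc hM).ne'
  have hg : 0 < g := Nat.pos_of_ne_zero fun h => hg0 (by rw [h, zero_mul])
  have hs : 0 < s := Nat.pos_of_ne_zero fun h => hg0 (by rw [h, mul_zero])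
  have hs' : 0 < s' := Nat.pos_of_ne_zero fun h => hg0' (by rw [h, mul_zero])
  have hgR : (0 : ℝ) < g := by exact_mod_cast hg
  have h2m : (0 : ℝ) < 2 ^ m := by positivity
  have hl' : |((s : ℝ) - s') * P.γ + h| < 1 / (2 : ℝ) ^ m := by
    refine hl.trans_le ?_
    rw [div_le_div_iff₀ hgR h2m]
    linarith
  rcases pair_glueB hM hb hc hcop hx hD hT hg2 hl' with h1 | h1 | h1 | h1 |
    ⟨a, k, a', k', htc, htc', hgap, hlabd, hshort, p₀, hp₀, hp₀x, hp₀e⟩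
  · exact Or.inl h1
  · exact Or.inr (Or.inl h1)
  · exact Or.inr (Or.inr (Or.inl h1))
  · exact Or.inr (Or.inr (Or.inr (Or.inl h1)))
  right; right; right; right
  have hu : (2 : ℝ) ^ m * P.L ≤ F.uu (P.cut m) (g * s) :=
    hg1.trans (by exact_mod_cast uu_ge hM hb hc hcop hx)
  have hu' : (2 : ℝ) ^ m * P.L ≤ F.uu (P.cut m) (g * s') :=
    hg1.trans (by exact_mod_cast uu_ge hM hc hb hcop.symm (FL.good_symm hb hc hx))
  set f := fr F (P.cut m) (g * s) a k with hf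
  set f' := fr F (P.cut m) (g * s') a' k' with hf'
  have tb : Rulex945.TC F P m (g * s) f := TC_of_TC hM hb hL.le hDE htc hu
  have tc : Rulex945.TC F P m (g * s') f' := TC_of_TC hM hc hL.le hDE htc' hu'
  -- the set of explained differing primes
  set S := (Finset.range (P.cut m + 1)).filter (fun p => p.Prime ∧
    (p ∣ alC (g * s) (g * s') f f' ∨ p ∣ alC (g * s') (g * s) f' f)) with hS
  have hmem : ∀ p, p ∈ S ↔ p ≤ P.cut m ∧ p.Prime ∧
      (p ∣ alC (g * s) (g * s') f f' ∨ p ∣ alC (g * s') (g * s) f' f) := by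
    intro p
    rw [hS, Finset.mem_filter, Finset.mem_range, Nat.lt_succ_iff]
  have hne : S.Nonempty := by
    refine ⟨p₀, (hmem p₀).2 ⟨hp₀x, hp₀, ?_⟩⟩
    rcases hp₀e with ⟨_, h2⟩ | ⟨_, h2⟩
    · exact Or.inl h2
    · exact Or.inr h2
  set p := S.max' hne with hp
  obtain ⟨hpx, hpp, hpe⟩ := (hmem p).1 (S.max'_mem hne)
  refine ⟨f, f', p, tb, tc, hgap, hpp, hpx, ?_, ?_, ?_, ⟨4 * D ^ 8, a, k, a', k', by positivity,
    hDE, hT, htc, htc', rfl, rfl, k0_fr htc.pos htc.cop, k0_fr htc'.pos htc'.cop, hlabd, hshort⟩⟩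
  · rcases hpe with h1 | h1
    · right
      exact ⟨h1.trans (al_dvd_s hg hs hs' hcop hgap), h1,
        alt_right hL hM hN hE hc hm tc (hact p hpx) hpp hg hs hs' hcop hgap hk h1⟩
    · left
      exact ⟨h1.trans (al'_dvd hg hs hs' hcop hgap), h1,
        alt_left hL hM hN hE hb hm tb (hact p hpx) hpp hg hs hs' hcop hgap hk h1⟩
  · intro r hr hpr hrx
    have hrS : r ∉ S := fun hc => by
      have := S.le_max' r hc
      omega
    have hrn : ¬ r ∣ alC (g * s) (g * s') f f' ∧ ¬ r ∣ alC (g * s') (g * s) f' f := by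
      constructor
      · intro hc; exact hrS ((hmem r).2 ⟨hrx, hr, Or.inl hc⟩)
      · intro hc; exact hrS ((hmem r).2 ⟨hrx, hr, Or.inr hc⟩)
    constructor
    · intro hrs
      by_contra hcon
      exact hrn.1 (expl_of_not_dvd hM hb hg hs' hcop.symm (Rulex945.isC_k0 (F := F) _ _ f)
        hr hrx hrs hcon)
    · intro hrs
      by_contra hcon
      exact hrn.2 (expl_of_not_dvd hM hc hg hs hcop (Rulex945.isC_k0 (F := F) _ _ f')
        hr hrx hrs hcon)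
  · intro r hr hpr hrx
    have hrS : r ∉ S := fun hc => by
      have := S.le_max' r hc
      omega
    constructor
    · intro hc; exact hrS ((hmem r).2 ⟨hrx, hr, Or.inl hc⟩)
    · intro hc; exact hrS ((hmem r).2 ⟨hrx, hr, Or.inr hc⟩)

/-- **COVER in the language of `KCb`** -/
theorem cover_goodBX {D : ℝ} {m b c : ℕ} {h : ℤ} (hL : 0 < P.L) (hM : 0 < M)
    (hN : (M : ℝ) / P.L ≤ P.N) (hE : ∀ m, P.m0 ≤ m → 2 * P.E m ^ 3 < 2 ^ m) (hm : P.m0 ≤ m)
    (hact : ∀ p, p ≤ P.cut m → P.Y (P.blk p) ≤ P.cut m)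
    (hb : b ∣ M) (hc : c ∣ M)
    (hx : F.good (P.cut m) b c) (hD : 4 ≤ D) (hT : 8 * (4 * D ^ 8) ^ 5 ≤ (2 : ℝ) ^ m)
    (hDE : 2 * (4 * D ^ 8) ≤ P.E m)
    (hg1 : (2 : ℝ) ^ m * P.L ≤ Nat.gcd b c) (hg2 : (Nat.gcd b c : ℝ) ≤ 2 * ((2 : ℝ) ^ m * P.L))
    (hl : h ∈ Lnk P.γ P.L b c) (hk : ¬ killedB (Rulex945.lamR F P) b c h) :
    Rare (upp (P.cut m) (b / Nat.gcd b c) * P.γ) (upp (P.cut m) (c / Nat.gcd b c) * P.γ) (2 ^ m) D
      (low (P.cut m) (b / Nat.gcd b c)) (low (P.cut m) (c / Nat.gcd b c)) ∨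
    DomB (upp (P.cut m) (b / Nat.gcd b c) * P.γ) (upp (P.cut m) (c / Nat.gcd b c) * P.γ) (2 ^ m) D
      (low (P.cut m) (b / Nat.gcd b c)) (low (P.cut m) (c / Nat.gcd b c)) ∨
    UD F P.γ (2 ^ m) (4 * D ^ 8) (P.cut m) b c ∨
    UD F P.γ (2 ^ m) (4 * D ^ 8) (P.cut m) c b ∨
    ∃ (f f' : ℚ) (p : ℕ), LabPair F P m (Nat.gcd b c) (b / Nat.gcd b c) (c / Nat.gcd b c) h
      f f' p := by
  have hb0 : 0 < b := Nat.pos_of_dvd_of_pos hb hM
  have hg : 0 < Nat.gcd b c := Nat.gcd_pos_of_pos_left _ hb0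
  have e1 : Nat.gcd b c * (b / Nat.gcd b c) = b := Nat.mul_div_cancel' (Nat.gcd_dvd_left _ _)
  have e2 : Nat.gcd b c * (c / Nat.gcd b c) = c := Nat.mul_div_cancel' (Nat.gcd_dvd_right _ _)
  have hcop : Nat.Coprime (b / Nat.gcd b c) (c / Nat.gcd b c) :=
    Nat.coprime_div_gcd_div_gcd hg
  have hk' : ¬ killedL (Rulex945.lamR F P) (Nat.gcd b c * (b / Nat.gcd b c))
      (Nat.gcd b c * (c / Nat.gcd b c)) (b / Nat.gcd b c) (c / Nat.gcd b c) h := by
    rw [e1, e2]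
    exact fun hh => hk (Rulex945.killedB_iff.2 hh)
  have hl' : |(((b / Nat.gcd b c : ℕ) : ℝ) - ((c / Nat.gcd b c : ℕ) : ℝ)) * P.γ + h| <
      P.L / (Nat.gcd b c : ℕ) := mem_Hf.1 hl
  have := cover_goodX (F := F) (P := P) (D := D) (m := m) (g := Nat.gcd b c)
    (s := b / Nat.gcd b c) (s' := c / Nat.gcd b c) (h := h) hL hM hN hE hm hact
    (by rw [e1]; exact hb) (by rw [e2]; exact hc) hcop (by rw [e1, e2]; exact hx) hD hT hDE
    hg1 hg2 hl' hk'
  rw [e1, e2] at this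
  exact this

end Crest.Agent.R4C.PairBx945
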