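import Crest.Agent.R4C.Cover_946
import Crest.Agent.R4C.ClsNear_350
import Crest.Agent.R4C.ClsBad_250
import Crest.Agent.R4C.ClsRareA_179
import Crest.Agent.R4C.ClsTw_100

/-!
# Row 4: ledger of the spine (helper79): the landed class bounds, plugged into `Cover_946`

`okX : ClsOK γ (cX γ)` for every class that has landed, and `remaining` : S0004 from the bounds which
are still missing.
-/

set_option autoImplicit false

open MeasureTheory Filter

namespace Crest.Agent.R4C.Plugx79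

open Crest.Agent.R4C.Spinex946 Crest.Agent.R4C.Coverx946 Crest.Agent.R4C.HyOfx281

theorem okNear (γ : ℝ) : ClsOK γ (cNear γ) := ClsNearx350.clsOK_near γ

theorem okBad (γ : ℝ) : ClsOK γ (cBad γ) := ClsBadx250.cBad_ok γ

theorem okRareA (γ : ℝ) : ClsOK γ (nH γ (cRareA γ)) := ClsRareAx179.cRareA_nH γ

theorem okTw (γ : ℝ) : ClsOK γ (nH γ (cTw γ)) := nH_ok (ClsTwx100.clsTw_ok γ)

/-- **what is missing** -/
theorem remaining {γ : ℝ} (h3 : ClsOK γ (cHvy γ))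
    (h5 : ClsOK γ (nH γ (cNP γ))) (h6 : ClsOK γ (nH γ (cLow γ))) (h8 : ClsOK γ (nH γ (cUD γ)))
    (h9 : ClsOK γ (nH γ (cDomP γ))) (h10 : ClsOK γ (nH γ (cDomN γ)))
    (ψ : ℕ → ℝ) (hψ : ∀ q, 0 ≤ ψ q)
    (hdiv : ¬ Summable fun q : ℕ => (Nat.totient q : ℝ) / q * ψ q) :
    ∀ᵐ x : ℝ, ∃ᶠ q : ℕ in atTop, |(q : ℝ) * x - γ - round ((q : ℝ) * x - γ)| < ψ q :=
  top10 (okNear γ) (okBad γ) h3 (okTw γ) h5 h6 (okRareA γ) h8 h9 h10 ψ hψ hdiv

end Crest.Agent.R4C.Plugx79
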