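import Crest.Agent.R4C.Base_935
import Crest.Agent.R4C.ThmRb_19

/-!
# Row 4: power form of THEOREM (R) in the language of divisors `b = M / q` (helper473)

`∑_{b,c ∣ M} gcd(b,c)^{1-η} ν(b) ν(c) f(b) f'(c) K(b,c) ≤ C V₀ (ν(f) ν(f'))^{(1+η)/2}`
if `K` satisfies the leaf condition of `thmR` (19) for the two exponents `κ = (1+η∓α)/2`.
This is the input (H2)/(HK) of EFF (notes 2694, 2784).
-/

set_option autoImplicit false

namespace Crest.Agent.R4C.PowRx473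

open Finset Real Crest.Agent.R4C.Basex935 Crest.Agent.R4C.ThmRx19 Crest.Agent.R4C.OnePx19

/-! ### dyadic sums -/

lemma min_le_tele {α r : ℝ} (hα : 0 < α) (hr : 0 < r) :
    min (r ^ α) (r ^ (-α)) ≤ 2 * (1 + 2 ^ α) / (2 ^ α - 1) *
      ((2 * r) ^ α / (1 + (2 * r) ^ α) - r ^ α / (1 + r ^ α)) := by
  have h2 : (1 : ℝ) < 2 ^ α := Real.one_lt_rpow (by norm_num) hα
  set u : ℝ := r ^ α with hu
  set T : ℝ := (2 : ℝ) ^ α with hT
  have hu0 : 0 < u := Real.rpow_pos_of_pos hr _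
  have e1 : (2 * r) ^ α = T * u := by rw [Real.mul_rpow (by norm_num) hr.le]
  have e2 : r ^ (-α) = u⁻¹ := by rw [Real.rpow_neg hr.le]
  rw [e1, e2]
  have e3 : T * u / (1 + T * u) - u / (1 + u) = (T - 1) * u / ((1 + T * u) * (1 + u)) := by
    have h1 : 1 + T * u ≠ 0 := by positivity
    have h3 : 1 + u ≠ 0 := by positivity
    field_simp
    ring
  rw [e3]
  have e4 : 2 * (1 + T) / (T - 1) * ((T - 1) * u / ((1 + T * u) * (1 + u))) =
      2 * (1 + T) * u / ((1 + T * u) * (1 + u)) := by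
    have h1 : T - 1 ≠ 0 := by linarith
    field_simp
  rw [e4]
  have hpos : 0 < (1 + T * u) * (1 + u) := by positivity
  rcases le_total u 1 with h | h
  · refine (min_le_left _ _).trans ?_
    rw [le_div_iff₀ hpos]
    have h5 : (1 + T * u) * (1 + u) ≤ (1 + T) * 2 :=
      mul_le_mul (by nlinarith) (by linarith) (by positivity) (by positivity)
    calc u * ((1 + T * u) * (1 + u)) ≤ u * ((1 + T) * 2) :=
          mul_le_mul_of_nonneg_left h5 hu0.le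
      _ = 2 * (1 + T) * u := by ring
  · refine (min_le_right _ _).trans ?_
    rw [le_div_iff₀ hpos, inv_mul_le_iff₀ hu0]
    have h5 : (1 + T * u) * (1 + u) ≤ ((1 + T) * u) * (2 * u) :=
      mul_le_mul (by nlinarith) (by linarith) (by positivity) (by positivity)
    calc (1 + T * u) * (1 + u) ≤ ((1 + T) * u) * (2 * u) := h5
      _ = u * (2 * (1 + T) * u) := by ring

/-- `∑_i min((2^i/A)^α, (2^i/A)^{-α}) ≤ C_α` -/
lemma sum_min_le {α A : ℝ} (hα : 0 < α) (hA : 0 < A) (n : ℕ) :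
    ∑ i ∈ range n, min (((2 : ℝ) ^ i / A) ^ α) (((2 : ℝ) ^ i / A) ^ (-α)) ≤
      2 * (1 + 2 ^ α) / (2 ^ α - 1) := by
  have h2 : (1 : ℝ) < 2 ^ α := Real.one_lt_rpow (by norm_num) hα
  set C : ℝ := 2 * (1 + 2 ^ α) / (2 ^ α - 1) with hC
  have hC0 : 0 < C := by
    rw [hC]; exact div_pos (by positivity) (by linarith)
  set F : ℕ → ℝ := fun i => ((2 : ℝ) ^ i / A) ^ α / (1 + ((2 : ℝ) ^ i / A) ^ α) with hF
  have hstep : ∀ i ∈ range n, min (((2 : ℝ) ^ i / A) ^ α) (((2 : ℝ) ^ i / A) ^ (-α)) ≤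
      C * (F (i + 1) - F i) := by
    intro i _
    have hr : 0 < (2 : ℝ) ^ i / A := by positivity
    have := min_le_tele hα hr
    have e : 2 * ((2 : ℝ) ^ i / A) = (2 : ℝ) ^ (i + 1) / A := by rw [pow_succ]; ring
    rw [e] at this
    exact this
  refine (Finset.sum_le_sum hstep).trans ?_
  rw [← Finset.mul_sum, Finset.sum_range_sub]
  have h3 : F n ≤ 1 := by
    simp only [hF]
    have : 0 ≤ ((2 : ℝ) ^ n / A) ^ α := by positivity
    rw [div_le_one (by positivity)]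
    linarith
  have h4 : 0 ≤ F 0 := by
    simp only [hF]
    positivity
  calc C * (F n - F 0) ≤ C * 1 := mul_le_mul_of_nonneg_left (by linarith) hC0.le
    _ = C := mul_one C

/-! ### from `b`-language to `q`-language -/

lemma sum_div_swap {M : ℕ} (F : ℕ → ℝ) :
    ∑ b ∈ M.divisors, F b = ∑ q ∈ M.divisors, F (M / q) :=
  (Nat.sum_div_divisors M F).symm

lemma mass_eq {M : ℕ} (hM : 0 < M) (f : ℕ → ℝ) :
    mu M (fun q => f (M / q)) = M * ∑ b ∈ M.divisors, nu M b * f b := by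
  rw [sum_div_swap, Finset.mul_sum]
  unfold mu
  refine Finset.sum_congr rfl fun q hq => ?_
  rw [mass_div hM (Nat.dvd_of_mem_divisors hq)]
  ring

lemma term_eq {M q q' : ℕ} (hM : 0 < M) (hq : q ∣ M) (hq' : q' ∣ M) (η : ℝ) :
    (Nat.gcd (M / q) (M / q') : ℝ) ^ (1 - η) * nu M (M / q) * nu M (M / q') =
      (M : ℝ) ^ (-(1 + η)) * ((Nat.lcm q q' : ℝ) ^ η *
        ((Nat.totient q : ℝ) * Nat.totient q' / (Nat.lcm q q' : ℝ))) := by
  have hq0 : 0 < q := Nat.pos_of_dvd_of_pos hq hM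
  have hq0' : 0 < q' := Nat.pos_of_dvd_of_pos hq' hM
  have hl0 : 0 < Nat.lcm q q' := Nat.lcm_pos hq0 hq0'
  have hM0 : (0 : ℝ) < M := by exact_mod_cast hM
  have hl0' : (0 : ℝ) < (Nat.lcm q q' : ℝ) := by exact_mod_cast hl0
  have hdl : Nat.lcm q q' ∣ M := Nat.lcm_dvd hq hq'
  rw [gcd_div_div hM hq hq', Nat.cast_div hdl hl0'.ne']
  unfold nu
  rw [Nat.div_div_self hq hM.ne', Nat.div_div_self hq' hM.ne']
  rw [Real.div_rpow hM0.le hl0'.le]
  have e1 : (M : ℝ) ^ (1 - η) = (M : ℝ) ^ (2 : ℝ) * (M : ℝ) ^ (-(1 + η)) := by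
    rw [← Real.rpow_add hM0]; congr 1; ring
  have e2 : (Nat.lcm q q' : ℝ) ^ (1 - η) = (Nat.lcm q q' : ℝ) * ((Nat.lcm q q' : ℝ) ^ η)⁻¹ := by
    rw [Real.rpow_sub hl0', Real.rpow_one]; rfl
  have e3 : (M : ℝ) ^ (2 : ℝ) = (M : ℝ) * M := by
    rw [show (2 : ℝ) = ((2 : ℕ) : ℝ) by norm_num, Real.rpow_natCast]; ring
  rw [e1, e2, e3]
  have h1 : (Nat.lcm q q' : ℝ) ^ η ≠ 0 := (Real.rpow_pos_of_pos hl0' _).ne'
  field_simp

/-! ### the leaf condition -/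

/-- leaf condition in `q`-language (the hypothesis of `thmR`) -/
def LeafQ (κ δ : ℝ) (g : ℕ → ℝ) (T : ℕ) (K : ℕ → ℕ → ℝ) (V0 : ℝ) : Prop :=
  ∀ Ma Mz G h h' : ℕ, Ma * Mz = T → Nat.Coprime Ma Mz → h ∣ Ma → h' ∣ Ma → G ∣ Mz →
    ∃ ρ : ℝ, 0 ≤ ρ ∧ Rho Mz G (fun u v => K (h * u) (h' * v)) ρ ∧
      FF δ g Ma h h' * ρ ^ (1 - κ) ≤ V0

lemma FF_mono {δ : ℝ} {g g' : ℕ → ℝ} (hg : ∀ p, 0 ≤ g p) (hgg : ∀ p, g p ≤ g' p)
    (Ma h h' : ℕ) : FF δ g Ma h h' ≤ FF δ g' Ma h h' := by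
  unfold FF
  refine Finset.prod_le_prod (fun p _ => ?_) (fun p _ => ?_)
  · split_ifs
    · exact hg p
    · exact Real.rpow_nonneg (Nat.cast_nonneg _) _
  · split_ifs
    · exact hgg p
    · exact le_rfl

lemma LeafQ.mono {κ δ : ℝ} {g g' : ℕ → ℝ} {T : ℕ} {K : ℕ → ℕ → ℝ} {V0 : ℝ}
    (hg : ∀ p, 0 ≤ g p) (hgg : ∀ p, g p ≤ g' p) (h : LeafQ κ δ g' T K V0) :
    LeafQ κ δ g T K V0 := by
  intro Ma Mz G a b h1 h2 h3 h4 h5
  obtain ⟨ρ, h6, h7, h8⟩ := h Ma Mz G a b h1 h2 h3 h4 h5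
  exact ⟨ρ, h6, h7, (mul_le_mul_of_nonneg_right (FF_mono hg hgg Ma a b)
    (Real.rpow_nonneg h6 _)).trans h8⟩

/-- **power form, q-language** -/
theorem power_q {η α δ : ℝ} (hη1 : η < 1) (hα : 0 < α) (hα1 : 0 < η - α) (hα2 : η + α < 1)
    (hδ0 : 0 < δ) (hδ1 : δ * (1 + η - α) < (1 - (1 + η - α) / 2) * (η - α))
    (hδ2 : δ * (1 + η + α) < (1 - (1 + η + α) / 2) * (η + α)) :
    ∃ (c C : ℝ) (p0 : ℕ), 0 < c ∧ 0 < C ∧
      (∀ p, 0 ≤ gg ((1 + η - α) / 2) δ c p0 p ∧ gg ((1 + η - α) / 2) δ c p0 p ≤ 1) ∧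
      (∀ p, 0 ≤ gg ((1 + η + α) / 2) δ c p0 p ∧ gg ((1 + η + α) / 2) δ c p0 p ≤ 1) ∧
      ∀ (T : ℕ) (V0 : ℝ) (f f' : ℕ → ℝ) (K : ℕ → ℕ → ℝ), 0 < T → 0 ≤ V0 →
      (∀ x, 0 ≤ f x) → (∀ x, f x ≤ 1) → (∀ x, 0 ≤ f' x) → (∀ x, f' x ≤ 1) →
      (∀ x y, 0 ≤ K x y) → (∀ x y, K x y ≤ 1) →
      LeafQ ((1 + η - α) / 2) δ (gg ((1 + η - α) / 2) δ c p0) T K V0 →
      LeafQ ((1 + η + α) / 2) δ (gg ((1 + η + α) / 2) δ c p0) T K V0 →
      ∑ q ∈ T.divisors, ∑ q' ∈ T.divisors, (Nat.lcm q q' : ℝ) ^ η *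
          ((Nat.totient q : ℝ) * Nat.totient q' / (Nat.lcm q q' : ℝ)) * (f q * f' q' * K q q') ≤
        C * V0 * (mu T f * mu T f') ^ ((1 + η) / 2) := by
  set κ1 : ℝ := (1 + η - α) / 2 with hκ1
  set κ2 : ℝ := (1 + η + α) / 2 with hκ2
  have hη0 : 0 < η := by linarith
  obtain ⟨c1, C1, p1, hc1, hC1, hX1, hR1⟩ := thmR (κ := κ1) (δ := δ) (by rw [hκ1]; linarith)
    (by rw [hκ1]; linarith) hδ0 (by rw [hκ1]; nlinarith)
  obtain ⟨c2, C2, p2, hc2, hC2, hX2, hR2⟩ := thmR (κ := κ2) (δ := δ) (by rw [hκ2]; linarith)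
    (by rw [hκ2]; linarith) hδ0 (by rw [hκ2]; nlinarith)
  set c : ℝ := min c1 c2 with hc
  set p0 : ℕ := max p1 p2 with hp0
  have hc0 : 0 < c := lt_min hc1 hc2
  have hX0 : ∀ (κ : ℝ) (p : ℕ), 0 ≤ X1 κ δ p := fun κ p => by unfold X1; positivity
  -- comparison of the gains
  have key : ∀ (κ c' : ℝ) (p' : ℕ), 0 < c' → c ≤ c' → p' ≤ p0 →
      (∀ p, p' ≤ p → c' * X1 κ δ p ≤ 1 / 2) →
      (∀ p, 0 ≤ gg κ δ c' p' p) ∧ (∀ p, gg κ δ c' p' p ≤ gg κ δ c p0 p) ∧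
      (∀ p, 0 ≤ gg κ δ c p0 p ∧ gg κ δ c p0 p ≤ 1) := by
    intro κ c' p' hc' hcc hpp hX
    have a1 : ∀ p, 0 ≤ gg κ δ c' p' p := by
      intro p; unfold gg
      split_ifs with h
      · have := hX p h; linarith
      · norm_num
    have a2 : ∀ p, gg κ δ c' p' p ≤ gg κ δ c p0 p := by
      intro p; unfold gg
      split_ifs with h h' h'
      · have := mul_le_mul_of_nonneg_right hcc (hX0 κ p)
        linarith
      · have : 0 ≤ c' * X1 κ δ p := mul_nonneg hc'.le (hX0 κ p)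
        linarith
      · exact absurd (hpp.trans h') h
      · exact le_rfl
    refine ⟨a1, a2, fun p => ⟨(a1 p).trans (a2 p), ?_⟩⟩
    unfold gg
    split_ifs
    · have : 0 ≤ c * X1 κ δ p := mul_nonneg hc0.le (hX0 κ p)
      linarith
    · exact le_rfl
  obtain ⟨k11, k12, k13⟩ := key κ1 c1 p1 hc1 (min_le_left _ _) (le_max_left _ _) hX1
  obtain ⟨k21, k22, k23⟩ := key κ2 c2 p2 hc2 (min_le_right _ _) (le_max_right _ _) hX2
  set Cm : ℝ := max C1 C2 with hCm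
  have hCm0 : 0 < Cm := lt_max_of_lt_left hC1
  have h2α : (1 : ℝ) < 2 ^ α := Real.one_lt_rpow (by norm_num) hα
  set Cα : ℝ := 2 * (1 + 2 ^ α) / (2 ^ α - 1) with hCα
  have hCα0 : 0 < Cα := by
    rw [hCα]; exact div_pos (by positivity) (by linarith)
  refine ⟨c, 2 * Cm * Cα, p0, hc0, by positivity, k13, k23, ?_⟩
  intro T V0 f f' K hT hV0 hf hf1 hf' hf1' hK hK1 hL1 hL2
  have hT0 : T ≠ 0 := hT.ne'
  set μ : ℝ := mu T f with hμ
  set μ' : ℝ := mu T f' with hμ'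
  have hμ0 : 0 ≤ μ := mu_nonneg hf
  have hμ0' : 0 ≤ μ' := mu_nonneg hf'
  -- the term
  set G : ℕ → ℕ → ℝ := fun q q' =>
    ((Nat.totient q : ℝ) * Nat.totient q' / (Nat.lcm q q' : ℝ)) * (f q * f' q' * K q q') with hG
  have hG0 : ∀ q q', 0 ≤ G q q' := fun q q' => by
    simp only [hG]
    have := hf q; have := hf' q'; have := hK q q'
    positivity
  set S : ℕ → ℝ := fun i => ∑ q ∈ T.divisors, ∑ q' ∈ T.divisors,
    (if (2 : ℝ) ^ i ≤ (Nat.lcm q q' : ℝ) ∧ (Nat.lcm q q' : ℝ) < 2 * 2 ^ i then G q q' else 0) with hS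
  -- bounds for one dyadic block
  have hS1 : ∀ i, S i ≤ C1 * ((2 : ℝ) ^ i) ^ (-(2 * κ1 - 1)) * V0 * (μ ^ κ1 * μ' ^ κ1) :=
    fun i => hR1 T ((2 : ℝ) ^ i) V0 f f' K hT0 (by positivity) hV0 hf hf1 hf' hf1' hK hK1
      (LeafQ.mono k11 k12 hL1)
  have hS2 : ∀ i, S i ≤ C2 * ((2 : ℝ) ^ i) ^ (-(2 * κ2 - 1)) * V0 * (μ ^ κ2 * μ' ^ κ2) :=
    fun i => hR2 T ((2 : ℝ) ^ i) V0 f f' K hT0 (by positivity) hV0 hf hf1 hf' hf1' hK hK1
      (LeafQ.mono k21 k22 hL2)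
  -- dyadic decomposition
  set n : ℕ := Nat.log 2 T + 1 with hn
  have hdec : ∑ q ∈ T.divisors, ∑ q' ∈ T.divisors, (Nat.lcm q q' : ℝ) ^ η *
      ((Nat.totient q : ℝ) * Nat.totient q' / (Nat.lcm q q' : ℝ)) * (f q * f' q' * K q q') ≤
      ∑ i ∈ range n, (2 * (2 : ℝ) ^ i) ^ η * S i := by
    have h1 : ∀ q ∈ T.divisors, ∀ q' ∈ T.divisors, (Nat.lcm q q' : ℝ) ^ η *
        ((Nat.totient q : ℝ) * Nat.totient q' / (Nat.lcm q q' : ℝ)) * (f q * f' q' * K q q') ≤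
        ∑ i ∈ range n, (2 * (2 : ℝ) ^ i) ^ η *
          (if (2 : ℝ) ^ i ≤ (Nat.lcm q q' : ℝ) ∧ (Nat.lcm q q' : ℝ) < 2 * 2 ^ i then G q q'
            else 0) := by
      intro q hq q' hq'
      have hq1 := Nat.dvd_of_mem_divisors hq
      have hq1' := Nat.dvd_of_mem_divisors hq'
      have hl : Nat.lcm q q' ∣ T := Nat.lcm_dvd hq1 hq1'
      have hl0 : 0 < Nat.lcm q q' := Nat.pos_of_dvd_of_pos hl hT
      have hle : Nat.lcm q q' ≤ T := Nat.le_of_dvd hT hl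
      set j : ℕ := Nat.log 2 (Nat.lcm q q') with hj
      have hjn : j ∈ range n := by
        have hj2 : j ≤ Nat.log 2 T := Nat.log_mono_right hle
        rw [Finset.mem_range, hn]
        omega
      have hj1 : (2 : ℝ) ^ j ≤ (Nat.lcm q q' : ℝ) := by
        exact_mod_cast Nat.pow_log_le_self 2 hl0.ne'
      have hj2 : (Nat.lcm q q' : ℝ) < 2 * 2 ^ j := by
        have := Nat.lt_pow_succ_log_self (b := 2) (by norm_num) (Nat.lcm q q')
        rw [← hj, pow_succ] at this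
        have h3 : ((Nat.lcm q q' : ℕ) : ℝ) < ((2 ^ j * 2 : ℕ) : ℝ) := by exact_mod_cast this
        push_cast at h3
        linarith
      have hle2 := Finset.single_le_sum (f := fun i => (2 * (2 : ℝ) ^ i) ^ η *
          (if (2 : ℝ) ^ i ≤ (Nat.lcm q q' : ℝ) ∧ (Nat.lcm q q' : ℝ) < 2 * 2 ^ i then G q q'
            else 0)) (fun i _ => by
              have := hG0 q q'
              split_ifs <;> positivity) hjn
      refine le_trans ?_ hle2
      rw [if_pos ⟨hj1, hj2⟩]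
      have h4 : (Nat.lcm q q' : ℝ) ^ η ≤ (2 * (2 : ℝ) ^ j) ^ η :=
        Real.rpow_le_rpow (Nat.cast_nonneg _) hj2.le hη0.le
      calc _ = (Nat.lcm q q' : ℝ) ^ η * G q q' := by simp only [hG]; ring
        _ ≤ _ := mul_le_mul_of_nonneg_right h4 (hG0 q q')
    calc _ ≤ ∑ q ∈ T.divisors, ∑ q' ∈ T.divisors, ∑ i ∈ range n, (2 * (2 : ℝ) ^ i) ^ η *
          (if (2 : ℝ) ^ i ≤ (Nat.lcm q q' : ℝ) ∧ (Nat.lcm q q' : ℝ) < 2 * 2 ^ i then G q q'
            else 0) := Finset.sum_le_sum fun q hq => Finset.sum_le_sum fun q' hq' => h1 q hq q' hq'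
      _ = ∑ i ∈ range n, (2 * (2 : ℝ) ^ i) ^ η * S i := by
          simp only [hS, Finset.mul_sum]
          rw [Finset.sum_congr rfl fun q _ => Finset.sum_comm, Finset.sum_comm]
  refine hdec.trans ?_
  have hSnn : ∀ i, 0 ≤ S i := fun i => Finset.sum_nonneg fun q _ => Finset.sum_nonneg fun q' _ => by
    have := hG0 q q'
    split_ifs <;> linarith
  -- the case of zero mass
  rcases (mul_nonneg hμ0 hμ0').eq_or_lt with h0 | hpos
  · have hz : ∀ i ∈ range n, (2 * (2 : ℝ) ^ i) ^ η * S i ≤ 0 := by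
      intro i _
      have h5 : μ ^ κ1 * μ' ^ κ1 = 0 := by
        rw [← Real.mul_rpow hμ0 hμ0', ← h0, Real.zero_rpow]
        rw [hκ1]; linarith
      have h6 := hS1 i
      rw [h5, mul_zero] at h6
      have h7 : S i = 0 := le_antisymm h6 (hSnn i)
      rw [h7, mul_zero]
    refine (Finset.sum_nonpos hz).trans ?_
    have : 0 ≤ (μ * μ') ^ ((1 + η) / 2) := Real.rpow_nonneg (mul_nonneg hμ0 hμ0') _
    positivity
  · set A : ℝ := (μ * μ') ^ ((1 : ℝ) / 2) with hA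
    have hA0 : 0 < A := Real.rpow_pos_of_pos hpos _
    have hAk : ∀ κ : ℝ, μ ^ κ * μ' ^ κ = A ^ (2 * κ) := by
      intro κ
      rw [← Real.mul_rpow hμ0 hμ0', hA, ← Real.rpow_mul hpos.le]
      congr 1; ring
    have hblock : ∀ i ∈ range n, (2 * (2 : ℝ) ^ i) ^ η * S i ≤
        (2 * Cm * V0 * A ^ (1 + η)) *
          min (((2 : ℝ) ^ i / A) ^ α) (((2 : ℝ) ^ i / A) ^ (-α)) := by
      intro i _
      set N : ℝ := (2 : ℝ) ^ i with hN
      have hN0 : 0 < N := by rw [hN]; positivity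
      have h2N : (2 * N) ^ η ≤ 2 * N ^ η := by
        rw [Real.mul_rpow (by norm_num) hN0.le]
        refine mul_le_mul_of_nonneg_right ?_ (Real.rpow_nonneg hN0.le _)
        calc (2 : ℝ) ^ η ≤ 2 ^ (1 : ℝ) :=
              Real.rpow_le_rpow_of_exponent_le (by norm_num) hη1.le
          _ = 2 := Real.rpow_one 2
      have hb1 : N ^ η * (N ^ (-(2 * κ1 - 1)) * A ^ (2 * κ1)) = A ^ (1 + η) * (N / A) ^ α := by
        rw [Real.div_rpow hN0.le hA0.le, ← mul_assoc, ← Real.rpow_add hN0,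
          show η + -(2 * κ1 - 1) = α by rw [hκ1]; ring,
          show 2 * κ1 = (1 + η) + (-α) by rw [hκ1]; ring, Real.rpow_add hA0,
          Real.rpow_neg hA0.le α]
        field_simp
      have hb2 : N ^ η * (N ^ (-(2 * κ2 - 1)) * A ^ (2 * κ2)) = A ^ (1 + η) * (N / A) ^ (-α) := by
        rw [Real.div_rpow hN0.le hA0.le, ← mul_assoc, ← Real.rpow_add hN0,
          show η + -(2 * κ2 - 1) = -α by rw [hκ2]; ring,
          show 2 * κ2 = (1 + η) + α by rw [hκ2]; ring, Real.rpow_add hA0,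
          Real.rpow_neg hA0.le α]
        field_simp
      have hlow : ∀ (κ C' X : ℝ), 0 < C' → C' ≤ Cm →
          S i ≤ C' * N ^ (-(2 * κ - 1)) * V0 * (μ ^ κ * μ' ^ κ) →
          N ^ η * (N ^ (-(2 * κ - 1)) * A ^ (2 * κ)) = A ^ (1 + η) * X →
          (2 * N) ^ η * S i ≤ (2 * Cm * V0 * A ^ (1 + η)) * X := by
        intro κ C' X hC' hCC hSi hX
        rw [hAk κ] at hSi
        have h8 : (2 * N) ^ η * S i ≤ 2 * N ^ η * (C' * N ^ (-(2 * κ - 1)) * V0 * A ^ (2 * κ)) :=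
          mul_le_mul h2N hSi (hSnn i) (by positivity)
        have h9 : 2 * N ^ η * (C' * N ^ (-(2 * κ - 1)) * V0 * A ^ (2 * κ)) =
            2 * C' * V0 * (N ^ η * (N ^ (-(2 * κ - 1)) * A ^ (2 * κ))) := by ring
        rw [h9] at h8
        have h10 : 0 ≤ N ^ η * (N ^ (-(2 * κ - 1)) * A ^ (2 * κ)) := by positivity
        refine h8.trans ?_
        calc 2 * C' * V0 * (N ^ η * (N ^ (-(2 * κ - 1)) * A ^ (2 * κ)))
            ≤ 2 * Cm * V0 * (N ^ η * (N ^ (-(2 * κ - 1)) * A ^ (2 * κ))) := by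
              refine mul_le_mul_of_nonneg_right ?_ h10
              exact mul_le_mul_of_nonneg_right (by linarith) hV0
          _ = _ := by rw [hX]; ring
      have hB0 : 0 ≤ 2 * Cm * V0 * A ^ (1 + η) := by positivity
      rw [mul_min_of_nonneg _ _ hB0]
      exact le_min (hlow κ1 C1 _ hC1 (le_max_left _ _) (hS1 i) hb1)
        (hlow κ2 C2 _ hC2 (le_max_right _ _) (hS2 i) hb2)
    refine (Finset.sum_le_sum hblock).trans ?_
    rw [← Finset.mul_sum]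
    have hsm := sum_min_le hα hA0 n
    have hB0 : 0 ≤ 2 * Cm * V0 * A ^ (1 + η) := by positivity
    refine (mul_le_mul_of_nonneg_left hsm hB0).trans (le_of_eq ?_)
    have hfin : A ^ (1 + η) = (μ * μ') ^ ((1 + η) / 2) := by
      rw [hA, ← Real.rpow_mul hpos.le]; congr 1; ring
    rw [hfin]
    ring

/-! ### the trivial model bound: `ρ = 1` for every `K ≤ 1` -/

lemma up_dvd_aux {G q : ℕ} : q ∣ G * up G q := by
  unfold up
  obtain ⟨k, hk⟩ := Nat.gcd_dvd_right q G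
  obtain ⟨m, hm⟩ := Nat.gcd_dvd_left q G
  rcases Nat.eq_zero_or_pos (Nat.gcd q G) with h0 | h0
  · have hG : G = 0 := (Nat.gcd_eq_zero_iff.1 h0).2
    rw [hG, zero_mul]
    exact dvd_zero q
  · refine ⟨k, ?_⟩
    have h1 : q / Nat.gcd q G = m := Nat.div_eq_of_eq_mul_right h0 hm
    rw [h1]
    calc G * m = (Nat.gcd q G * k) * m := by rw [← hk]
      _ = (Nat.gcd q G * m) * k := by ring
      _ = q * k := by rw [← hm]

lemma nw_nonneg (G q : ℕ) : 0 ≤ nw G q := by unfold nw; positivity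

/-- fixed `l`: the words `q` with `q / gcd(q,G) = l` have total weight `≤ 1` -/
lemma nw_fib {Mz G : ℕ} (hG : G ≠ 0) {l : ℕ} (hl : l ≠ 0) :
    ∑ q ∈ Mz.divisors.filter (fun q => up G q = l), nw G q ≤ 1 := by
  have hGl : 0 < G * l := Nat.mul_pos (Nat.pos_of_ne_zero hG) (Nat.pos_of_ne_zero hl)
  have hGl' : (0 : ℝ) < ((G * l : ℕ) : ℝ) := by exact_mod_cast hGl
  have h1 : ∀ q ∈ Mz.divisors.filter (fun q => up G q = l),
      nw G q = (Nat.totient q : ℝ) / ((G * l : ℕ) : ℝ) := by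
    intro q hq
    rw [Finset.mem_filter] at hq
    have hq0 : q ≠ 0 := (Nat.pos_of_mem_divisors hq.1).ne'
    unfold nw
    rw [lcm_eq_up hq0, hq.2]
  rw [Finset.sum_congr rfl h1, ← Finset.sum_div, div_le_one hGl']
  have hsub : Mz.divisors.filter (fun q => up G q = l) ⊆ (G * l).divisors := by
    intro q hq
    rw [Finset.mem_filter] at hq
    rw [Nat.mem_divisors]
    refine ⟨?_, hGl.ne'⟩
    have := up_dvd_aux (G := G) (q := q)
    rwa [hq.2] at this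
  have h2 : ∑ q ∈ Mz.divisors.filter (fun q => up G q = l), Nat.totient q ≤ G * l := by
    calc _ ≤ ∑ q ∈ (G * l).divisors, Nat.totient q :=
          Finset.sum_le_sum_of_subset hsub
      _ = G * l := Nat.sum_totient _
  exact_mod_cast h2

/-- one dyadic block of a model has weight `≤ 2^a` -/
lemma nw_sum {Mz G : ℕ} (hG : G ≠ 0) (a : ℕ) :
    ∑ q ∈ Mz.divisors.filter (fun q => la G q = a), nw G q ≤ 2 ^ a := by
  have hmaps : ∀ q ∈ Mz.divisors.filter (fun q => la G q = a),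
      up G q ∈ Finset.Ico (2 ^ a) (2 ^ (a + 1)) := by
    intro q hq
    rw [Finset.mem_filter] at hq
    have hq0 : q ≠ 0 := (Nat.pos_of_mem_divisors hq.1).ne'
    have hup := up_pos (G := G) hq0
    have hla : Nat.log 2 (up G q) = a := hq.2
    rw [Finset.mem_Ico]
    constructor
    · rw [← hla]; exact Nat.pow_log_le_self 2 hup.ne'
    · rw [← hla]; exact Nat.lt_pow_succ_log_self (by norm_num) _
  rw [← Finset.sum_fiberwise_of_maps_to hmaps]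
  calc _ ≤ ∑ _l ∈ Finset.Ico (2 ^ a) (2 ^ (a + 1)), (1 : ℝ) := by
        refine Finset.sum_le_sum fun l hl => ?_
        have hl0 : l ≠ 0 := by
          have : 0 < 2 ^ a := Nat.two_pow_pos a
          have := (Finset.mem_Ico.1 hl).1
          omega
        refine le_trans ?_ (nw_fib (Mz := Mz) hG hl0)
        refine Finset.sum_le_sum_of_subset_of_nonneg ?_ fun q _ _ => nw_nonneg G q
        intro q hq
        rw [Finset.mem_filter, Finset.mem_filter] at hq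
        exact Finset.mem_filter.2 ⟨hq.1.1, hq.2⟩
    _ = 2 ^ a := by
        rw [Finset.sum_const, Nat.card_Ico, nsmul_eq_mul, mul_one, pow_succ]
        have : 2 ^ a * 2 - 2 ^ a = 2 ^ a := by omega
        rw [this]; norm_num

lemma rho_one {Mz G : ℕ} (hG : G ≠ 0) {K : ℕ → ℕ → ℝ} (hK1 : ∀ x y, K x y ≤ 1) :
    Rho Mz G K 1 := by
  intro a b
  calc _ ≤ ∑ q ∈ Mz.divisors.filter (fun q => la G q = a),
        ∑ q' ∈ Mz.divisors.filter (fun q => la G q = b), nw G q * nw G q' := by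
        refine Finset.sum_le_sum fun q _ => Finset.sum_le_sum fun q' _ => ?_
        have h1 := nw_nonneg G q
        have h2 := nw_nonneg G q'
        split_ifs
        · calc nw G q * nw G q' * K q q' ≤ nw G q * nw G q' * 1 :=
                mul_le_mul_of_nonneg_left (hK1 _ _) (mul_nonneg h1 h2)
            _ = _ := mul_one _
        · positivity
    _ = (∑ q ∈ Mz.divisors.filter (fun q => la G q = a), nw G q) *
        ∑ q' ∈ Mz.divisors.filter (fun q => la G q = b), nw G q' := by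
        rw [Finset.sum_mul_sum]
    _ ≤ 2 ^ a * 2 ^ b :=
        mul_le_mul (nw_sum hG a) (nw_sum hG b) (Finset.sum_nonneg fun _ _ => nw_nonneg _ _)
          (by positivity)
    _ = 1 * 2 ^ a * 2 ^ b := by ring

lemma FF_nonneg {δ : ℝ} {g : ℕ → ℝ} (hg : ∀ p, 0 ≤ g p) (Ma h h' : ℕ) :
    0 ≤ FF δ g Ma h h' := by
  unfold FF
  refine Finset.prod_nonneg fun p _ => ?_
  split_ifs
  · exact hg p
  · exact Real.rpow_nonneg (Nat.cast_nonneg _) _

lemma FF_le_one {δ : ℝ} (hδ : 0 ≤ δ) {g : ℕ → ℝ} (hg : ∀ p, 0 ≤ g p) (hg1 : ∀ p, g p ≤ 1)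
    (Ma h h' : ℕ) : FF δ g Ma h h' ≤ 1 := by
  unfold FF
  refine Finset.prod_le_one (fun p _ => ?_) fun p hp => ?_
  · split_ifs
    · exact hg p
    · exact Real.rpow_nonneg (Nat.cast_nonneg _) _
  · split_ifs
    · exact hg1 p
    · have hp1 : (1 : ℝ) ≤ p := by
        exact_mod_cast (Nat.prime_of_mem_primeFactors hp).one_lt.le
      refine Real.rpow_le_one_of_one_le_of_nonpos hp1 ?_
      have : 0 ≤ δ * (dst (h.factorization p) (h'.factorization p) : ℝ) := by positivity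
      linarith

/-- the leaf condition holds with `V₀ = 1` for every `K ≤ 1` -/
lemma leafQ_one {κ δ : ℝ} (hδ : 0 ≤ δ) {g : ℕ → ℝ} (hg : ∀ p, 0 ≤ g p) (hg1 : ∀ p, g p ≤ 1)
    {T : ℕ} (hT : 0 < T) {K : ℕ → ℕ → ℝ} (hK1 : ∀ x y, K x y ≤ 1) : LeafQ κ δ g T K 1 := by
  intro Ma Mz G h h' hM _ _ _ hG
  have hMz : Mz ≠ 0 := by
    rintro rfl
    rw [mul_zero] at hM
    omega
  have hG0 : G ≠ 0 := fun h0 => hMz (Nat.eq_zero_of_zero_dvd (h0 ▸ hG))
  refine ⟨1, zero_le_one, rho_one hG0 fun x y => hK1 _ _, ?_⟩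
  rw [Real.one_rpow, mul_one]
  exact FF_le_one hδ hg hg1 _ _ _

/-! ### `b`-language -/

/-- cofactor of the centre in `b`-language: `H / gcd(b,H)` -/
def ub (H b : ℕ) : ℕ := H / Nat.gcd b H

/-- weight in `b`-language -/
noncomputable def wb (Mz H b : ℕ) : ℝ := (Nat.gcd b H : ℝ) * nu Mz b

/-- model density in `b`-language; `lvl` is the same relation -/
def RhoB (Mz H : ℕ) (K : ℕ → ℕ → ℝ) (ρ : ℝ) : Prop :=
  ∀ a a' : ℕ, ∑ b ∈ Mz.divisors.filter (fun b => Nat.log 2 (ub H b) = a),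
    ∑ c ∈ Mz.divisors.filter (fun b => Nat.log 2 (ub H b) = a'),
      (open Classical in if lvl Mz H b c then wb Mz H b * wb Mz H c * K b c else 0) ≤
        ρ * 2 ^ a * 2 ^ a'

/-- leaf condition in `b`-language -/
def LeafB (κ δ : ℝ) (g : ℕ → ℝ) (M : ℕ) (K : ℕ → ℕ → ℝ) (V0 : ℝ) : Prop :=
  ∀ Ma Mz H h h' : ℕ, Ma * Mz = M → Nat.Coprime Ma Mz → h ∣ Ma → h' ∣ Ma → H ∣ Mz →
    ∃ ρ : ℝ, 0 ≤ ρ ∧ RhoB Mz H (fun u v => K (h * u) (h' * v)) ρ ∧
      FF δ g Ma h h' * ρ ^ (1 - κ) ≤ V0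

lemma fact_div {M q : ℕ} (hq : q ∣ M) (p : ℕ) :
    (M / q).factorization p = M.factorization p - q.factorization p := by
  rw [Nat.factorization_div hq]; rfl

lemma FF_div {δ : ℝ} {g : ℕ → ℝ} {Ma h h' : ℕ} (hMa : 0 < Ma) (hh : h ∣ Ma) (hh' : h' ∣ Ma) :
    FF δ g Ma (Ma / h) (Ma / h') = FF δ g Ma h h' := by
  unfold FF
  refine Finset.prod_congr rfl fun p _ => ?_
  rw [fact_div hh, fact_div hh']
  have h1 : h.factorization p ≤ Ma.factorization p :=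
    (Nat.factorization_le_iff_dvd (Nat.pos_of_dvd_of_pos hh hMa).ne' hMa.ne').2 hh p
  have h2 : h'.factorization p ≤ Ma.factorization p :=
    (Nat.factorization_le_iff_dvd (Nat.pos_of_dvd_of_pos hh' hMa).ne' hMa.ne').2 hh' p
  have e1 : (Ma.factorization p - h.factorization p = Ma.factorization p - h'.factorization p) ↔
      h.factorization p = h'.factorization p := by omega
  have e2 : dst (Ma.factorization p - h.factorization p)
      (Ma.factorization p - h'.factorization p) =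
      dst (h.factorization p) (h'.factorization p) := by
    unfold dst; omega
  rw [e2]
  by_cases hc : h.factorization p = h'.factorization p
  · rw [if_pos hc, if_pos (e1.2 hc)]
  · rw [if_neg hc, if_neg (fun h3 => hc (e1.1 h3))]

lemma up_div {Mz G q : ℕ} (hMz : 0 < Mz) (hG : G ∣ Mz) (hq : q ∣ Mz) :
    up G q = ub (Mz / G) (Mz / q) := by
  have hq0 : 0 < q := Nat.pos_of_dvd_of_pos hq hMz
  have hG0 : 0 < G := Nat.pos_of_dvd_of_pos hG hMz
  have hl : Nat.lcm q G ∣ Mz := Nat.lcm_dvd hq hG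
  have hl0 : 0 < Nat.lcm q G := Nat.lcm_pos hq0 hG0
  unfold ub
  rw [gcd_div_div hMz hq hG]
  obtain ⟨k, hk⟩ := hl
  have hk0 : 0 < k := by
    rcases Nat.eq_zero_or_pos k with h | h
    · rw [h, mul_zero] at hk; omega
    · exact h
  have h1 : Mz / Nat.lcm q G = k := by
    conv_lhs => rw [hk]
    exact Nat.mul_div_cancel_left k hl0
  have h2 : Mz / G = up G q * k := by
    rw [hk, lcm_eq_up hq0.ne', mul_assoc]
    exact Nat.mul_div_cancel_left _ hG0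
  rw [h1, h2, Nat.mul_div_cancel _ hk0]

lemma nw_div {Mz G q : ℕ} (hMz : 0 < Mz) (hG : G ∣ Mz) (hq : q ∣ Mz) :
    nw G q = wb Mz (Mz / G) (Mz / q) := by
  have hq0 : 0 < q := Nat.pos_of_dvd_of_pos hq hMz
  have hG0 : 0 < G := Nat.pos_of_dvd_of_pos hG hMz
  have hl : Nat.lcm q G ∣ Mz := Nat.lcm_dvd hq hG
  have hl0 : 0 < Nat.lcm q G := Nat.lcm_pos hq0 hG0
  have hl0' : ((Nat.lcm q G : ℕ) : ℝ) ≠ 0 := by exact_mod_cast hl0.ne'
  have hM0 : (Mz : ℝ) ≠ 0 := by exact_mod_cast hMz.ne'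
  unfold nw wb nu
  rw [gcd_div_div hMz hq hG, Nat.div_div_self hq hMz.ne', Nat.cast_div hl hl0']
  field_simp

lemma lvl_div {Mz G q q' : ℕ} (hMz : 0 < Mz) (hG : G ∣ Mz) (hq : q ∣ Mz) (hq' : q' ∣ Mz) :
    lvl Mz G q q' ↔ lvl Mz (Mz / G) (Mz / q) (Mz / q') := by
  unfold lvl
  refine forall₂_congr fun p _ => ?_
  rw [fact_div hq, fact_div hq', fact_div hG]
  have h1 : q.factorization p ≤ Mz.factorization p :=
    (Nat.factorization_le_iff_dvd (Nat.pos_of_dvd_of_pos hq hMz).ne' hMz.ne').2 hq p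
  have h2 : q'.factorization p ≤ Mz.factorization p :=
    (Nat.factorization_le_iff_dvd (Nat.pos_of_dvd_of_pos hq' hMz).ne' hMz.ne').2 hq' p
  have h3 : G.factorization p ≤ Mz.factorization p :=
    (Nat.factorization_le_iff_dvd (Nat.pos_of_dvd_of_pos hG hMz).ne' hMz.ne').2 hG p
  omega

lemma sum_filter_div {Mz : ℕ} (P : ℕ → Prop) [DecidablePred P] (F : ℕ → ℝ) :
    ∑ b ∈ Mz.divisors.filter P, F b = ∑ q ∈ Mz.divisors.filter (fun q => P (Mz / q)), F (Mz / q) := by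
  rw [Finset.sum_filter, Finset.sum_filter, sum_div_swap]

/-- the `b`-model condition implies the `q`-model condition -/
lemma rho_of_rhoB {Mz G : ℕ} (hMz : 0 < Mz) (hG : G ∣ Mz) {K : ℕ → ℕ → ℝ} {ρ : ℝ}
    (h : RhoB Mz (Mz / G) K ρ) : Rho Mz G (fun q q' => K (Mz / q) (Mz / q')) ρ := by
  classical
  intro a b
  have hab := h a b
  rw [sum_filter_div] at hab
  refine le_trans (le_of_eq ?_) hab
  have hset : ∀ a : ℕ, Mz.divisors.filter (fun q => la G q = a) =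
      Mz.divisors.filter (fun q => Nat.log 2 (ub (Mz / G) (Mz / q)) = a) := by
    intro a
    refine Finset.filter_congr fun q hq => ?_
    unfold la
    rw [up_div hMz hG (Nat.dvd_of_mem_divisors hq)]
  rw [hset a]
  refine Finset.sum_congr rfl fun q hq => ?_
  rw [hset b]
  conv_rhs => rw [sum_filter_div]
  refine Finset.sum_congr rfl fun q' hq' => ?_
  have hq1 := Nat.dvd_of_mem_divisors (Finset.mem_filter.1 hq).1
  have hq1' := Nat.dvd_of_mem_divisors (Finset.mem_filter.1 hq').1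
  have hl := lvl_div hMz hG hq1 hq1'
  by_cases hc : lvl Mz G q q'
  · rw [if_pos hc, if_pos (hl.1 hc), nw_div hMz hG hq1, nw_div hMz hG hq1']
  · rw [if_neg hc, if_neg (fun h3 => hc (hl.2 h3))]

lemma rho_congr {Mz G : ℕ} {K K' : ℕ → ℕ → ℝ} {ρ : ℝ}
    (h : ∀ q ∈ Mz.divisors, ∀ q' ∈ Mz.divisors, K q q' = K' q q') (hr : Rho Mz G K ρ) :
    Rho Mz G K' ρ := by
  classical
  intro a b
  refine le_trans (le_of_eq ?_) (hr a b)
  refine Finset.sum_congr rfl fun q hq => Finset.sum_congr rfl fun q' hq' => ?_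
  rw [h q (Finset.mem_filter.1 hq).1 q' (Finset.mem_filter.1 hq').1]

lemma leafQ_of_leafB {κ δ : ℝ} {g : ℕ → ℝ} {M : ℕ} (hM : 0 < M) {K : ℕ → ℕ → ℝ} {V0 : ℝ}
    (h : LeafB κ δ g M K V0) : LeafQ κ δ g M (fun q q' => K (M / q) (M / q')) V0 := by
  intro Ma Mz G a b hMM hc ha hb hG
  have hMa : 0 < Ma := Nat.pos_of_ne_zero (by rintro rfl; omega)
  have hMz : 0 < Mz := Nat.pos_of_ne_zero (by rintro rfl; omega)
  obtain ⟨ρ, h1, h2, h3⟩ := h Ma Mz (Mz / G) (Ma / a) (Ma / b) hMM hc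
    (Nat.div_dvd_of_dvd ha) (Nat.div_dvd_of_dvd hb) (Nat.div_dvd_of_dvd hG)
  refine ⟨ρ, h1, ?_, ?_⟩
  · refine rho_congr ?_ (rho_of_rhoB hMz hG h2)
    intro q hq q' hq'
    simp only
    rw [← hMM, Nat.mul_div_mul_comm ha (Nat.dvd_of_mem_divisors hq),
      Nat.mul_div_mul_comm hb (Nat.dvd_of_mem_divisors hq')]
  · rwa [FF_div hMa ha hb] at h3

/-- **power form of THEOREM (R), `b`-language** = (H2)/(HK) of EFF -/
theorem power_b {η α δ : ℝ} (hη1 : η < 1) (hα : 0 < α) (hα1 : 0 < η - α) (hα2 : η + α < 1)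
    (hδ0 : 0 < δ) (hδ1 : δ * (1 + η - α) < (1 - (1 + η - α) / 2) * (η - α))
    (hδ2 : δ * (1 + η + α) < (1 - (1 + η + α) / 2) * (η + α)) :
    ∃ (c C : ℝ) (p0 : ℕ), 0 < c ∧ 0 < C ∧
      (∀ p, 0 ≤ gg ((1 + η - α) / 2) δ c p0 p ∧ gg ((1 + η - α) / 2) δ c p0 p ≤ 1) ∧
      (∀ p, 0 ≤ gg ((1 + η + α) / 2) δ c p0 p ∧ gg ((1 + η + α) / 2) δ c p0 p ≤ 1) ∧
      ∀ (M : ℕ) (V0 : ℝ) (f f' : ℕ → ℝ) (K : ℕ → ℕ → ℝ), 0 < M → 0 ≤ V0 →
      (∀ x, 0 ≤ f x) → (∀ x, f x ≤ 1) → (∀ x, 0 ≤ f' x) → (∀ x, f' x ≤ 1) →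
      (∀ x y, 0 ≤ K x y) → (∀ x y, K x y ≤ 1) →
      LeafB ((1 + η - α) / 2) δ (gg ((1 + η - α) / 2) δ c p0) M K V0 →
      LeafB ((1 + η + α) / 2) δ (gg ((1 + η + α) / 2) δ c p0) M K V0 →
      ∑ b ∈ M.divisors, ∑ b' ∈ M.divisors, (Nat.gcd b b' : ℝ) ^ (1 - η) * nu M b * nu M b' *
          (f b * f' b' * K b b') ≤
        C * V0 * ((∑ b ∈ M.divisors, nu M b * f b) * ∑ b ∈ M.divisors, nu M b * f' b)
          ^ ((1 + η) / 2) := by
  obtain ⟨c, C, p0, hc, hC, hg1, hg2, H⟩ := power_q hη1 hα hα1 hα2 hδ0 hδ1 hδ2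
  refine ⟨c, C, p0, hc, hC, hg1, hg2, ?_⟩
  intro M V0 f f' K hM hV0 hf hf1 hf' hf1' hK hK1 hL1 hL2
  have hM0 : (0 : ℝ) < M := by exact_mod_cast hM
  have h := H M V0 (fun q => f (M / q)) (fun q => f' (M / q)) (fun q q' => K (M / q) (M / q'))
    hM hV0 (fun _ => hf _) (fun _ => hf1 _) (fun _ => hf' _) (fun _ => hf1' _)
    (fun _ _ => hK _ _) (fun _ _ => hK1 _ _) (leafQ_of_leafB hM hL1) (leafQ_of_leafB hM hL2)
  rw [mass_eq hM, mass_eq hM] at h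
  set m1 : ℝ := ∑ b ∈ M.divisors, nu M b * f b with hm1
  set m2 : ℝ := ∑ b ∈ M.divisors, nu M b * f' b with hm2
  have hm10 : 0 ≤ m1 := Finset.sum_nonneg fun b _ => mul_nonneg (nu_nonneg _ _) (hf _)
  have hm20 : 0 ≤ m2 := Finset.sum_nonneg fun b _ => mul_nonneg (nu_nonneg _ _) (hf' _)
  have e : ∑ b ∈ M.divisors, ∑ b' ∈ M.divisors, (Nat.gcd b b' : ℝ) ^ (1 - η) * nu M b * nu M b' *
      (f b * f' b' * K b b') = (M : ℝ) ^ (-(1 + η)) *
      ∑ q ∈ M.divisors, ∑ q' ∈ M.divisors, (Nat.lcm q q' : ℝ) ^ η *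
          ((Nat.totient q : ℝ) * Nat.totient q' / (Nat.lcm q q' : ℝ)) *
          (f (M / q) * f' (M / q') * K (M / q) (M / q')) := by
    rw [sum_div_swap, Finset.mul_sum]
    refine Finset.sum_congr rfl fun q hq => ?_
    rw [sum_div_swap, Finset.mul_sum]
    refine Finset.sum_congr rfl fun q' hq' => ?_
    rw [term_eq hM (Nat.dvd_of_mem_divisors hq) (Nat.dvd_of_mem_divisors hq') η]
    ring
  rw [e]
  refine (mul_le_mul_of_nonneg_left h (Real.rpow_nonneg hM0.le _)).trans (le_of_eq ?_)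
  have e2 : ((M : ℝ) * m1 * (M * m2)) ^ ((1 + η) / 2) = (M : ℝ) ^ (1 + η) *
      (m1 * m2) ^ ((1 + η) / 2) := by
    rw [show (M : ℝ) * m1 * (M * m2) = (M : ℝ) ^ (2 : ℝ) * (m1 * m2) by
      rw [show (2 : ℝ) = ((2 : ℕ) : ℝ) by norm_num, Real.rpow_natCast]; ring]
    rw [Real.mul_rpow (by positivity) (mul_nonneg hm10 hm20), ← Real.rpow_mul hM0.le]
    congr 2
    ring
  rw [e2, Real.rpow_neg hM0.le]
  have h3 : (M : ℝ) ^ (1 + η) ≠ 0 := (Real.rpow_pos_of_pos hM0 _).ne'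
  field_simp

/-- **HVW, power form** (no relation): the input (H2) of EFF -/
theorem hvw_b {η : ℝ} (hη0 : 0 < η) (hη1 : η < 1) :
    ∃ C : ℝ, 0 < C ∧ ∀ (M : ℕ) (f f' : ℕ → ℝ), 0 < M →
      (∀ x, 0 ≤ f x) → (∀ x, f x ≤ 1) → (∀ x, 0 ≤ f' x) → (∀ x, f' x ≤ 1) →
      ∑ b ∈ M.divisors, ∑ b' ∈ M.divisors, (Nat.gcd b b' : ℝ) ^ (1 - η) * nu M b * nu M b' *
          (f b * f' b') ≤
        C * ((∑ b ∈ M.divisors, nu M b * f b) * ∑ b ∈ M.divisors, nu M b * f' b)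
          ^ ((1 + η) / 2) := by
  set α : ℝ := min η (1 - η) / 2 with hα
  have hm : 0 < min η (1 - η) := lt_min hη0 (by linarith)
  have hα0 : 0 < α := by rw [hα]; linarith
  have h1 : 0 < η - α := by rw [hα]; linarith [min_le_left η (1 - η)]
  have h2 : η + α < 1 := by rw [hα]; linarith [min_le_right η (1 - η)]
  have g1 : 0 < (1 - (1 + η - α) / 2) * (η - α) := mul_pos (by linarith) h1
  have g2 : 0 < (1 - (1 + η + α) / 2) * (η + α) := mul_pos (by linarith) (by linarith)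
  set δ : ℝ := min ((1 - (1 + η - α) / 2) * (η - α)) ((1 - (1 + η + α) / 2) * (η + α)) / 4 with hδ
  have hδm : 0 < min ((1 - (1 + η - α) / 2) * (η - α)) ((1 - (1 + η + α) / 2) * (η + α)) :=
    lt_min g1 g2
  have hδ0 : 0 < δ := by rw [hδ]; linarith
  have hδa : δ * (1 + η - α) < (1 - (1 + η - α) / 2) * (η - α) := by
    have : δ * 4 ≤ (1 - (1 + η - α) / 2) * (η - α) := by
      rw [hδ]; linarith [min_le_left ((1 - (1 + η - α) / 2) * (η - α))
        ((1 - (1 + η + α) / 2) * (η + α))]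
    nlinarith
  have hδb : δ * (1 + η + α) < (1 - (1 + η + α) / 2) * (η + α) := by
    have : δ * 4 ≤ (1 - (1 + η + α) / 2) * (η + α) := by
      rw [hδ]; linarith [min_le_right ((1 - (1 + η - α) / 2) * (η - α))
        ((1 - (1 + η + α) / 2) * (η + α))]
    nlinarith
  obtain ⟨c, C, p0, hc, hC, hg1, hg2, H⟩ := power_q hη1 hα0 h1 h2 hδ0 hδa hδb
  obtain ⟨C', hC', H'⟩ : ∃ C : ℝ, 0 < C ∧ ∀ (M : ℕ) (f f' : ℕ → ℝ), 0 < M →
      (∀ x, 0 ≤ f x) → (∀ x, f x ≤ 1) → (∀ x, 0 ≤ f' x) → (∀ x, f' x ≤ 1) →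
      ∑ q ∈ M.divisors, ∑ q' ∈ M.divisors, (Nat.lcm q q' : ℝ) ^ η *
          ((Nat.totient q : ℝ) * Nat.totient q' / (Nat.lcm q q' : ℝ)) * (f q * f' q') ≤
        C * (mu M f * mu M f') ^ ((1 + η) / 2) := by
    refine ⟨C, hC, fun M f f' hM a1 a2 a3 a4 => ?_⟩
    have h := H M 1 f f' (fun _ _ => 1) hM zero_le_one a1 a2 a3 a4 (fun _ _ => zero_le_one)
      (fun _ _ => le_rfl)
      (leafQ_one hδ0.le (fun p => (hg1 p).1) (fun p => (hg1 p).2) hM fun _ _ => le_rfl)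
      (leafQ_one hδ0.le (fun p => (hg2 p).1) (fun p => (hg2 p).2) hM fun _ _ => le_rfl)
    simpa only [mul_one] using h
  refine ⟨C', hC', fun M f f' hM a1 a2 a3 a4 => ?_⟩
  have hM0 : (0 : ℝ) < M := by exact_mod_cast hM
  have h := H' M (fun q => f (M / q)) (fun q => f' (M / q)) hM
    (fun _ => a1 _) (fun _ => a2 _) (fun _ => a3 _) (fun _ => a4 _)
  rw [mass_eq hM, mass_eq hM] at h
  set m1 : ℝ := ∑ b ∈ M.divisors, nu M b * f b with hm1
  set m2 : ℝ := ∑ b ∈ M.divisors, nu M b * f' b with hm2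
  have hm10 : 0 ≤ m1 := Finset.sum_nonneg fun b _ => mul_nonneg (nu_nonneg _ _) (a1 _)
  have hm20 : 0 ≤ m2 := Finset.sum_nonneg fun b _ => mul_nonneg (nu_nonneg _ _) (a3 _)
  have e : ∑ b ∈ M.divisors, ∑ b' ∈ M.divisors, (Nat.gcd b b' : ℝ) ^ (1 - η) * nu M b * nu M b' *
      (f b * f' b') = (M : ℝ) ^ (-(1 + η)) *
      ∑ q ∈ M.divisors, ∑ q' ∈ M.divisors, (Nat.lcm q q' : ℝ) ^ η *
          ((Nat.totient q : ℝ) * Nat.totient q' / (Nat.lcm q q' : ℝ)) *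
          (f (M / q) * f' (M / q')) := by
    rw [sum_div_swap, Finset.mul_sum]
    refine Finset.sum_congr rfl fun q hq => ?_
    rw [sum_div_swap, Finset.mul_sum]
    refine Finset.sum_congr rfl fun q' hq' => ?_
    rw [term_eq hM (Nat.dvd_of_mem_divisors hq) (Nat.dvd_of_mem_divisors hq') η]
    ring
  rw [e]
  refine (mul_le_mul_of_nonneg_left h (Real.rpow_nonneg hM0.le _)).trans (le_of_eq ?_)
  have e2 : ((M : ℝ) * m1 * (M * m2)) ^ ((1 + η) / 2) = (M : ℝ) ^ (1 + η) *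
      (m1 * m2) ^ ((1 + η) / 2) := by
    rw [show (M : ℝ) * m1 * (M * m2) = (M : ℝ) ^ (2 : ℝ) * (m1 * m2) by
      rw [show (2 : ℝ) = ((2 : ℕ) : ℝ) by norm_num, Real.rpow_natCast]; ring]
    rw [Real.mul_rpow (by positivity) (mul_nonneg hm10 hm20), ← Real.rpow_mul hM0.le]
    congr 2
    ring
  rw [e2, Real.rpow_neg hM0.le]
  have h3 : (M : ℝ) ^ (1 + η) ≠ 0 := (Real.rpow_pos_of_pos hM0 _).ne'
  field_simp

end Crest.Agent.R4C.PowRx473
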