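import Mathlib

/-!
# Row 4: prefix energy (helper935; 2236(1) of helper413, 2367(2) of helper949, 2406(4) of helper101)

All statements are row bounds: for a fixed item the total energy of the partners is at most `1`.

* `tel` : `∑_{x ∈ S} w x ∏_{p ∈ S, p < x} (1 - w p) + ∏_{p ∈ S} (1 - w p) = 1`.
* `row_prefix` (squarefree words `b ⊆ P`): partners `c` of `b` such that `b` misses the smallest
  differing prime and `b ∩ c` is an initial part of both.
* `pair_prefix` : total energy of all prefix pairs `≤ 2 ∑ ν(b) f(b)`.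
* `rowq` (all integers `q`, `b = M / q`): `∑ φ(q') / lcm (q, q') ≤ 1`.
-/

set_option autoImplicit false

open Finset

namespace Crest.Agent.R4C.Prefixx935

/-- telescoping identity -/
lemma tel (w : ℕ → ℝ) (S : Finset ℕ) :
    ∑ x ∈ S, w x * ∏ p ∈ S.filter (· < x), (1 - w p) + ∏ p ∈ S, (1 - w p) = 1 := by
  induction S using Finset.induction_on_max with
  | empty => simp
  | insert a S ha ih =>
    have haS : a ∉ S := fun h => lt_irrefl _ (ha a h)
    rw [sum_insert haS, prod_insert haS]
    have e1 : (insert a S).filter (· < a) = S := by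
      ext x
      simp only [mem_filter, mem_insert]
      constructor
      · rintro ⟨rfl | h, h2⟩
        · exact absurd h2 (lt_irrefl _)
        · exact h
      · exact fun h => ⟨Or.inr h, ha x h⟩
    have e2 : ∀ x ∈ S, (insert a S).filter (· < x) = S.filter (· < x) := by
      intro x hx
      ext y
      simp only [mem_filter, mem_insert]
      constructor
      · rintro ⟨rfl | h, h2⟩
        · exact absurd (h2.trans (ha x hx)) (lt_irrefl _)
        · exact ⟨h, h2⟩
      · exact fun h => ⟨Or.inr h.1, h.2⟩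
    rw [e1, sum_congr rfl fun x hx => by rw [e2 x hx]]
    linear_combination ih

/-- weight of the word `b` over the alphabet `P` -/
noncomputable def nu (w : ℕ → ℝ) (P b : Finset ℕ) : ℝ := (∏ p ∈ b, w p) * ∏ p ∈ P \ b, (1 - w p)

lemma sum_nu (w : ℕ → ℝ) (P : Finset ℕ) : ∑ b ∈ P.powerset, nu w P b = 1 := by
  unfold nu
  rw [← prod_add]
  exact prod_eq_one fun p _ => by ring

variable {w : ℕ → ℝ}

lemma nu_nonneg {P b : Finset ℕ} (h : ∀ p, 0 ≤ w p ∧ w p ≤ 1) : 0 ≤ nu w P b :=
  mul_nonneg (prod_nonneg fun p _ => (h p).1) (prod_nonneg fun p _ => by linarith [(h p).2])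

/-- the partners of `b` whose smallest difference with `b` is `x ∉ b`, and which share with `b`
exactly the initial part below `x` -/
def Pt (P b : Finset ℕ) (x : ℕ) : Finset (Finset ℕ) :=
  P.powerset.filter fun c => x ∈ c ∧ c.filter (· < x) = b.filter (· < x) ∧ b ∩ c = b.filter (· < x)

/-- exact gcd weight of a partner -/
noncomputable def gw (w : ℕ → ℝ) (b c : Finset ℕ) : ℝ := ∏ p ∈ b ∩ c, (w p)⁻¹

lemma row_x (h : ∀ p, 0 < w p ∧ w p ≤ 1) {P b : Finset ℕ} {x : ℕ} (hx : x ∈ P \ b) :
    ∑ c ∈ Pt P b x, gw w b c * nu w P c ≤ w x * ∏ p ∈ (P \ b).filter (· < x), (1 - w p) := by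
  classical
  have h' : ∀ p, 0 ≤ w p ∧ w p ≤ 1 := fun p => ⟨(h p).1.le, (h p).2⟩
  rw [mem_sdiff] at hx
  set P' := P.filter (x < ·) with hP'
  -- value of one term
  have key : ∀ c ∈ Pt P b x, gw w b c * nu w P c =
      w x * (∏ p ∈ (P \ b).filter (· < x), (1 - w p)) * nu w P' (c.filter (x < ·)) := by
    intro c hc
    simp only [Pt, mem_filter, mem_powerset] at hc
    obtain ⟨hcP, hxc, h1, h2⟩ := hc
    have e1 : ∏ p ∈ c, w p = (∏ p ∈ c.filter (· < x), w p) * (w x * ∏ p ∈ c.filter (x < ·), w p) := by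
      have : c = c.filter (· < x) ∪ insert x (c.filter (x < ·)) := by
        ext y
        simp only [mem_union, mem_filter, mem_insert]
        constructor
        · intro hy
          rcases lt_trichotomy y x with h3 | h3 | h3
          · exact Or.inl ⟨hy, h3⟩
          · exact Or.inr (Or.inl h3)
          · exact Or.inr (Or.inr ⟨hy, h3⟩)
        · rintro (h3 | rfl | h3)
          · exact h3.1
          · exact hxc
          · exact h3.1
      conv_lhs => rw [this]
      rw [prod_union, prod_insert]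
      · simp
      · rw [disjoint_left]
        intro y hy
        simp only [mem_filter, mem_insert] at hy ⊢
        omega
    have e2 : ∏ p ∈ P \ c, (1 - w p) = (∏ p ∈ (P \ b).filter (· < x), (1 - w p)) *
        ∏ p ∈ P' \ c.filter (x < ·), (1 - w p) := by
      have : P \ c = (P \ b).filter (· < x) ∪ (P' \ c.filter (x < ·)) := by
        ext y
        simp only [mem_union, mem_filter, mem_sdiff, hP']
        have h4 : y < x → (y ∈ c ↔ y ∈ b) := by
          intro hy
          have := Finset.ext_iff.1 h1 y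
          simp only [mem_filter, hy, and_true] at this
          exact this
        constructor
        · rintro ⟨hyP, hyc⟩
          rcases lt_trichotomy y x with h3 | h3 | h3
          · exact Or.inl ⟨⟨hyP, fun hb => hyc ((h4 h3).2 hb)⟩, h3⟩
          · exact absurd (h3 ▸ hxc) hyc
          · exact Or.inr ⟨⟨hyP, h3⟩, fun hh => hyc hh.1⟩
        · rintro (⟨⟨hyP, hyb⟩, h3⟩ | ⟨⟨hyP, h3⟩, h5⟩)
          · exact ⟨hyP, fun hc => hyb ((h4 h3).1 hc)⟩
          · exact ⟨hyP, fun hc => h5 ⟨hc, h3⟩⟩
      rw [this, prod_union]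
      rw [disjoint_left]
      intro y hy
      simp only [mem_filter, mem_sdiff, hP'] at hy ⊢
      omega
    have e3 : gw w b c * ∏ p ∈ c.filter (· < x), w p = 1 := by
      unfold gw
      rw [h2, h1, ← prod_mul_distrib]
      exact prod_eq_one fun p _ => inv_mul_cancel₀ (h p).1.ne'
    unfold nu
    rw [e1, e2]
    calc gw w b c * ((∏ p ∈ c.filter (· < x), w p) * (w x * ∏ p ∈ c.filter (x < ·), w p) *
          ((∏ p ∈ (P \ b).filter (· < x), (1 - w p)) * ∏ p ∈ P' \ c.filter (x < ·), (1 - w p)))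
        = (gw w b c * ∏ p ∈ c.filter (· < x), w p) * (w x * (∏ p ∈ (P \ b).filter (· < x), (1 - w p)) *
          ((∏ p ∈ c.filter (x < ·), w p) * ∏ p ∈ P' \ c.filter (x < ·), (1 - w p))) := by ring
      _ = _ := by rw [e3, one_mul]
  rw [sum_congr rfl key, ← mul_sum]
  have hle : ∑ c ∈ Pt P b x, nu w P' (c.filter (x < ·)) ≤ 1 := by
    rw [← sum_nu w P']
    have hinj : Set.InjOn (fun c : Finset ℕ => c.filter (x < ·)) (Pt P b x : Set (Finset ℕ)) := by
      intro c hc c' hc' hcc
      simp only [Pt, coe_filter, mem_powerset, Set.mem_ofPred_eq] at hc hc'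
      ext y
      rcases lt_trichotomy y x with h3 | h3 | h3
      · have a1 := Finset.ext_iff.1 hc.2.2.1 y
        have a2 := Finset.ext_iff.1 hc'.2.2.1 y
        simp only [mem_filter, h3, and_true] at a1 a2
        rw [a1, a2]
      · subst h3
        exact iff_of_true hc.2.1 hc'.2.1
      · have a1 := Finset.ext_iff.1 hcc y
        simp only [mem_filter, h3, and_true] at a1
        exact a1
    rw [← sum_image (g := fun c : Finset ℕ => c.filter (x < ·)) (f := fun d => nu w P' d) hinj]
    refine sum_le_sum_of_subset_of_nonneg ?_ fun d _ _ => nu_nonneg h'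
    intro d hd
    rw [mem_image] at hd
    obtain ⟨c, hc, rfl⟩ := hd
    simp only [Pt, mem_filter, mem_powerset] at hc
    rw [mem_powerset]
    exact filter_subset_filter _ hc.1
  calc w x * (∏ p ∈ (P \ b).filter (· < x), (1 - w p)) * ∑ c ∈ Pt P b x, nu w P' (c.filter (x < ·))
      ≤ w x * (∏ p ∈ (P \ b).filter (· < x), (1 - w p)) * 1 := by
        refine mul_le_mul_of_nonneg_left hle (mul_nonneg (h' x).1 (prod_nonneg fun p _ => ?_))
        linarith [(h' p).2]
    _ = _ := mul_one _

/-- **row bound**: the diagonal and all the prefix partners of `b` at whose smallest difference `b` is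
missing -/
theorem row_prefix (h : ∀ p, 0 < w p ∧ w p ≤ 1) (P b : Finset ℕ) :
    gw w b b * nu w P b + ∑ x ∈ P \ b, ∑ c ∈ Pt P b x, gw w b c * nu w P c ≤ 1 := by
  have e1 : gw w b b * nu w P b = ∏ p ∈ P \ b, (1 - w p) := by
    unfold gw nu
    rw [inter_self, ← mul_assoc, ← prod_mul_distrib,
      prod_eq_one fun p _ => inv_mul_cancel₀ (h p).1.ne', one_mul]
  rw [e1]
  have := sum_le_sum fun x (hx : x ∈ P \ b) => row_x h hx
  have := tel w (P \ b)
  linarith

/-- prefix pairs: every difference lies above every common letter -/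
def Pre (b c : Finset ℕ) : Prop := ∀ r ∈ b ∩ c, ∀ p ∈ symmDiff b c, r < p

open Classical in
/-- **prefix energy lemma** -/
theorem pair_prefix (h : ∀ p, 0 < w p ∧ w p ≤ 1) (P : Finset ℕ) (f : Finset ℕ → ℝ)
    (hf : ∀ b, 0 ≤ f b ∧ f b ≤ 1) :
    ∑ b ∈ P.powerset, ∑ c ∈ P.powerset.filter (Pre b),
      gw w b c * nu w P b * nu w P c * (f b * f c) ≤ 2 * ∑ b ∈ P.powerset, nu w P b * f b := by
  have h' : ∀ p, 0 ≤ w p ∧ w p ≤ 1 := fun p => ⟨(h p).1.le, (h p).2⟩
  have hgw : ∀ b c, 0 ≤ gw w b c := fun b c => prod_nonneg fun p _ => inv_nonneg.2 (h p).1.le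
  have hcomm : ∀ b c, gw w b c = gw w c b := fun b c => by unfold gw; rw [inter_comm]
  set T : Finset ℕ → Finset ℕ → ℝ := fun b c => gw w b c * nu w P b * nu w P c * (f b * f c) with hT
  have hT0 : ∀ b c, 0 ≤ T b c := fun b c =>
    mul_nonneg (mul_nonneg (mul_nonneg (hgw b c) (nu_nonneg h')) (nu_nonneg h'))
      (mul_nonneg (hf b).1 (hf c).1)
  have hTs : ∀ b c, T b c = T c b := fun b c => by simp only [hT]; rw [hcomm b c]; ring
  -- one ordered half
  set A : Finset ℕ → Finset (Finset ℕ) := fun b => (P \ b).biUnion (fun x => Pt P b x) with hA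
  have hdisj : ∀ b, Set.PairwiseDisjoint (↑(P \ b) : Set ℕ) (fun x => Pt P b x) := by
    intro b x hx y hy hxy
    have key : ∀ x y : ℕ, x ∈ P \ b → x < y → Disjoint (Pt P b x) (Pt P b y) := by
      intro x y hx hxy
      rw [disjoint_left]
      intro c hc hc'
      simp only [Pt, mem_filter, mem_powerset] at hc hc'
      have a1 := Finset.ext_iff.1 hc'.2.2.1 x
      simp only [mem_filter, hxy, and_true] at a1
      exact (mem_sdiff.1 hx).2 (a1.1 hc.2.1)
    rcases lt_or_gt_of_ne hxy with h1 | h1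
    · exact key x y hx h1
    · exact (key y x hy h1).symm
  have hAle : ∀ b ∈ P.powerset, gw w b b * nu w P b + ∑ c ∈ A b, gw w b c * nu w P c ≤ 1 := by
    intro b hb
    have := row_prefix h P b
    simp only [hA]
    rw [sum_biUnion (hdisj b)]
    exact this
  have hAP : ∀ b c, c ∈ A b → c ∈ P.powerset := by
    intro b c hc
    simp only [hA, mem_biUnion, Pt, mem_filter] at hc
    obtain ⟨x, _, h1, _⟩ := hc
    exact h1
  have hcov : ∀ b ∈ P.powerset, ∀ c ∈ P.powerset, Pre b c → c = b ∨ c ∈ A b ∨ b ∈ A c := by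
    intro b hb c hc hpre
    by_cases hbc : c = b
    · exact Or.inl hbc
    right
    rw [mem_powerset] at hb hc
    have hne : (symmDiff b c).Nonempty := by
      rw [nonempty_iff_ne_empty]
      intro h
      exact hbc (symmDiff_eq_bot.1 h).symm
    set x := (symmDiff b c).min' hne with hx
    have hxm : x ∈ symmDiff b c := min'_mem _ _
    have hlow : ∀ y, y < x → (y ∈ b ↔ y ∈ c) := by
      intro y hy
      by_contra hc'
      have : y ∈ symmDiff b c := by rw [mem_symmDiff]; tauto
      exact absurd (min'_le _ _ this) (not_le.2 hy)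
    have hinter : ∀ y, y ∈ b ∩ c → y < x := fun y hy => hpre y hy x hxm
    rw [mem_symmDiff] at hxm
    have main : ∀ b c : Finset ℕ, c ⊆ P → x ∈ c → x ∉ b → (∀ y, y < x → (y ∈ b ↔ y ∈ c)) →
        (∀ y, y ∈ b ∩ c → y < x) → c ∈ A b := by
      intro b c hc hxc hxb h1 h2
      simp only [hA, mem_biUnion, Pt, mem_filter, mem_powerset, mem_sdiff]
      refine ⟨x, ⟨hc hxc, hxb⟩, hc, hxc, ?_, ?_⟩
      · ext y
        simp only [mem_filter]
        constructor
        · rintro ⟨h3, h4⟩; exact ⟨(h1 y h4).2 h3, h4⟩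
        · rintro ⟨h3, h4⟩; exact ⟨(h1 y h4).1 h3, h4⟩
      · ext y
        simp only [mem_filter, mem_inter]
        constructor
        · rintro ⟨h3, h4⟩; exact ⟨h3, h2 y (mem_inter.2 ⟨h3, h4⟩)⟩
        · rintro ⟨h3, h4⟩; exact ⟨h3, (h1 y h4).1 h3⟩
    rcases hxm with ⟨h1, h2⟩ | ⟨h1, h2⟩
    · exact Or.inr (main c b hb h1 h2 (fun y hy => (hlow y hy).symm)
        (fun y hy => hinter y (by rwa [inter_comm] at hy)))
    · exact Or.inl (main b c hc h1 h2 hlow hinter)
  have hsplit : ∀ b ∈ P.powerset, ∑ c ∈ P.powerset.filter (Pre b), T b c ≤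
      (T b b + ∑ c ∈ A b, T b c) + ∑ c ∈ P.powerset.filter (fun c => b ∈ A c), T b c := by
    intro b hb
    have hsub : P.powerset.filter (Pre b) ⊆ ({b} ∪ A b) ∪ P.powerset.filter (fun c => b ∈ A c) := by
      intro c hc
      rw [mem_filter] at hc
      rw [mem_union, mem_union, mem_singleton, mem_filter]
      rcases hcov b hb c hc.1 hc.2 with h1 | h1 | h1
      · exact Or.inl (Or.inl h1)
      · exact Or.inl (Or.inr h1)
      · exact Or.inr ⟨hc.1, h1⟩
    have hun : ∀ (s t : Finset (Finset ℕ)), ∑ c ∈ s ∪ t, T b c ≤ ∑ c ∈ s, T b c + ∑ c ∈ t, T b c := by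
      intro s t
      have := sum_union_inter (s₁ := s) (s₂ := t) (f := fun c => T b c)
      have h3 : 0 ≤ ∑ c ∈ s ∩ t, T b c := sum_nonneg fun c _ => hT0 b c
      linarith
    calc ∑ c ∈ P.powerset.filter (Pre b), T b c
        ≤ ∑ c ∈ ({b} ∪ A b) ∪ P.powerset.filter (fun c => b ∈ A c), T b c :=
          sum_le_sum_of_subset_of_nonneg hsub fun c _ _ => hT0 b c
      _ ≤ ∑ c ∈ {b} ∪ A b, T b c + ∑ c ∈ P.powerset.filter (fun c => b ∈ A c), T b c := hun _ _
      _ ≤ (∑ c ∈ {b}, T b c + ∑ c ∈ A b, T b c) +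
          ∑ c ∈ P.powerset.filter (fun c => b ∈ A c), T b c := by
          have := hun {b} (A b); linarith
      _ = _ := by rw [sum_singleton]
  have hswap : ∑ b ∈ P.powerset, ∑ c ∈ P.powerset.filter (fun c => b ∈ A c), T b c =
      ∑ c ∈ P.powerset, ∑ b ∈ A c, T c b := by
    have : ∑ b ∈ P.powerset, ∑ c ∈ P.powerset.filter (fun c => b ∈ A c), T b c =
        ∑ c ∈ P.powerset, ∑ b ∈ A c, T b c := by
      refine sum_comm' fun b c => ?_
      rw [mem_filter]
      constructor
      · rintro ⟨_, h2, h3⟩; exact ⟨h3, h2⟩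
      · rintro ⟨h3, h2⟩; exact ⟨hAP c b h3, h2, h3⟩
    rw [this]
    exact sum_congr rfl fun c _ => sum_congr rfl fun b _ => hTs b c
  have hrow : ∀ b ∈ P.powerset, T b b + ∑ c ∈ A b, T b c ≤ nu w P b * f b := by
    intro b hb
    have hnb := nu_nonneg (w := w) (P := P) (b := b) h'
    calc T b b + ∑ c ∈ A b, T b c ≤ (nu w P b * f b) * (gw w b b * nu w P b) +
          ∑ c ∈ A b, (nu w P b * f b) * (gw w b c * nu w P c) := by
          refine add_le_add ?_ (sum_le_sum fun c _ => ?_)
          · simp only [hT]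
            calc gw w b b * nu w P b * nu w P b * (f b * f b)
                = (nu w P b * f b) * (gw w b b * nu w P b) * f b := by ring
              _ ≤ (nu w P b * f b) * (gw w b b * nu w P b) * 1 :=
                  mul_le_mul_of_nonneg_left (hf b).2
                    (mul_nonneg (mul_nonneg hnb (hf b).1) (mul_nonneg (hgw b b) hnb))
              _ = _ := mul_one _
          · simp only [hT]
            calc gw w b c * nu w P b * nu w P c * (f b * f c)
                = (nu w P b * f b) * (gw w b c * nu w P c) * f c := by ring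
              _ ≤ (nu w P b * f b) * (gw w b c * nu w P c) * 1 :=
                  mul_le_mul_of_nonneg_left (hf c).2
                    (mul_nonneg (mul_nonneg hnb (hf b).1) (mul_nonneg (hgw b c) (nu_nonneg h')))
              _ = _ := mul_one _
      _ = (nu w P b * f b) * (gw w b b * nu w P b + ∑ c ∈ A b, gw w b c * nu w P c) := by
          rw [← mul_sum]; ring
      _ ≤ (nu w P b * f b) * 1 := mul_le_mul_of_nonneg_left (hAle b hb) (mul_nonneg hnb (hf b).1)
      _ = _ := mul_one _
  have hrow2 : ∀ b ∈ P.powerset, ∑ c ∈ A b, T b c ≤ nu w P b * f b := fun b hb => by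
    have := hrow b hb
    have := hT0 b b
    linarith
  calc ∑ b ∈ P.powerset, ∑ c ∈ P.powerset.filter (Pre b), T b c
      ≤ ∑ b ∈ P.powerset, ((T b b + ∑ c ∈ A b, T b c) +
          ∑ c ∈ P.powerset.filter (fun c => b ∈ A c), T b c) := sum_le_sum hsplit
    _ = ∑ b ∈ P.powerset, (T b b + ∑ c ∈ A b, T b c) + ∑ c ∈ P.powerset, ∑ b ∈ A c, T c b := by
        rw [sum_add_distrib, hswap]
    _ ≤ ∑ b ∈ P.powerset, nu w P b * f b + ∑ b ∈ P.powerset, nu w P b * f b :=
        add_le_add (sum_le_sum hrow) (sum_le_sum hrow2)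
    _ = 2 * ∑ b ∈ P.powerset, nu w P b * f b := by ring

end Crest.Agent.R4C.Prefixx935
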