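import Crest.Agent.R4C.PureL2_232
import Crest.Agent.R4C.PrefixM_882

/-! Row 4 (helper284): the VECTOR version of `PureL2_232` (note 3161), low words allowed below the
split prime, all scales at once, passive centres.  Constant `12 S`. -/

set_option autoImplicit false

open Finset
open Crest.Agent.R4C.Basex935
open Crest.Agent.R4C.PureL2x232

namespace Crest.Agent.R4C.PureVecx284

/-- squared norm with weight `ν V` -/
noncomputable def n2 (M : ℕ) (f : ℕ → ℝ) : ℝ :=
  ∑ b ∈ M.divisors, nu M b * ((b:ℝ) * nu M b) * f b ^ 2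

/-- norm with weight `ν V` -/
noncomputable def nrm (M : ℕ) (f : ℕ → ℝ) : ℝ := Real.sqrt (n2 M f)

/-- linear potential -/
noncomputable def lin (M : ℕ) (f : ℕ → ℝ) : ℝ :=
  ∑ b ∈ M.divisors, nu M b * (f b ^ 2 * (1 - (b:ℝ) * nu M b))

lemma n2_nonneg (M : ℕ) (f : ℕ → ℝ) : 0 ≤ n2 M f :=
  Finset.sum_nonneg fun _ _ =>
    mul_nonneg (mul_nonneg (nu_nonneg _ _) (V_nonneg _ _)) (sq_nonneg _)

lemma nrm_nonneg (M : ℕ) (f : ℕ → ℝ) : 0 ≤ nrm M f := Real.sqrt_nonneg _

lemma nrm_sq (M : ℕ) (f : ℕ → ℝ) : nrm M f ^ 2 = n2 M f := Real.sq_sqrt (n2_nonneg M f)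

lemma lin_nonneg (M : ℕ) (f : ℕ → ℝ) : 0 ≤ lin M f :=
  Finset.sum_nonneg fun _ hb => by
    rw [Nat.mem_divisors] at hb
    have := V_le hb.1
    exact mul_nonneg (nu_nonneg _ _) (mul_nonneg (sq_nonneg _) (by linarith))

lemma n2_add_lin (M : ℕ) (f : ℕ → ℝ) : n2 M f + lin M f = ∑ b ∈ M.divisors, nu M b * f b ^ 2 := by
  unfold n2 lin
  rw [← Finset.sum_add_distrib]
  refine Finset.sum_congr rfl fun b _ => by ring

lemma n2_split {p : ℕ} (hp : p.Prime) (a : ℕ) {M1 : ℕ} (hM : 0 < M1) (h : ¬ p ∣ M1)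
    (f : ℕ → ℝ) :
    n2 (p ^ a * M1) f = ∑ v ∈ range (a + 1), ((p:ℝ)^v * nup p a v) * nup p a v *
      n2 M1 (fun b => f (p ^ v * b)) := by
  unfold n2
  rw [sum_split hp a hM h]
  refine Finset.sum_congr rfl fun v hv => ?_
  rw [Finset.mem_range] at hv
  have hcop : Nat.Coprime (p ^ a) M1 :=
    Nat.Coprime.pow_left a ((Nat.Prime.coprime_iff_not_dvd hp).2 h)
  rw [Finset.mul_sum]
  refine Finset.sum_congr rfl fun b hb => ?_
  rw [Nat.mem_divisors] at hb
  rw [nu_mul hcop (pow_dvd_pow p (by omega)) hb.1, nu_prime_pow hp (by omega)]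
  push_cast; ring

lemma lin_split {p : ℕ} (hp : p.Prime) (a : ℕ) {M1 : ℕ} (hM : 0 < M1) (h : ¬ p ∣ M1)
    (f : ℕ → ℝ) :
    lin (p ^ a * M1) f = ∑ v ∈ range (a + 1), nup p a v * (lin M1 (fun b => f (p ^ v * b)) +
      (1 - (p:ℝ)^v * nup p a v) * n2 M1 (fun b => f (p ^ v * b))) := by
  unfold lin n2
  rw [sum_split hp a hM h]
  refine Finset.sum_congr rfl fun v hv => ?_
  rw [Finset.mem_range] at hv
  have hcop : Nat.Coprime (p ^ a) M1 :=
    Nat.Coprime.pow_left a ((Nat.Prime.coprime_iff_not_dvd hp).2 h)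
  rw [Finset.mul_sum, ← Finset.sum_add_distrib, Finset.mul_sum]
  refine Finset.sum_congr rfl fun b hb => ?_
  rw [Nat.mem_divisors] at hb
  rw [nu_mul hcop (pow_dvd_pow p (by omega)) hb.1, nu_prime_pow hp (by omega)]
  push_cast; ring

/-- a low kernel of strength `S` -/
def LowK (S : ℝ) (M : ℕ) (Θ : ℕ → ℕ → ℝ) : Prop :=
  ∀ f g : ℕ → ℝ, (∀ b, 0 ≤ f b) → (∀ b, 0 ≤ g b) →
    frm M (fun b c => Θ b c * (f b * g c)) ≤ S * (nrm M f * nrm M g)

/-- vector pure kernels; `K X X' b c`: `X, X'` are the parts already read (upper words), `b, c ∣ M`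
the lower parts. -/
inductive VRel (S : ℝ) : ℕ → (ℕ → ℕ → ℕ → ℕ → ℝ) → Prop
  /-- nothing more -/
  | base {M : ℕ} {K : ℕ → ℕ → ℕ → ℕ → ℝ}
      (h : ∀ X X' b c, b ∣ M → c ∣ M → K X X' b c ≤ 0) : VRel S M K
  /-- a passive prime with centre `v0` (`0` = free, `a` = forced) -/
  | pass {p a v0 M1 : ℕ} {K K1 : ℕ → ℕ → ℕ → ℕ → ℝ} {Θ : ℕ → ℕ → ℕ → ℕ → ℕ → ℕ → ℝ}
      (hp : p.Prime) (h3 : 3 ≤ p) (hv0 : v0 ≤ a) (hM : 0 < M1) (hnd : ¬ p ∣ M1)
      (h1 : VRel S M1 K1) (hK1 : ∀ X X' b c, 0 ≤ K1 X X' b c)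
      (hΘ : ∀ X X' v v', LowK S M1 (Θ X X' v v'))
      (h : ∀ X X' v v' b c, v ≤ a → v' ≤ a → b ∣ M1 → c ∣ M1 →
        K X X' (p ^ v * b) (p ^ v' * c) ≤
          if min v v' = v0 then K1 (X * p ^ v) (X' * p ^ v') b c +
            (if v ≠ v' then Θ X X' v v' b c else 0) else 0) : VRel S (p ^ a * M1) K
  /-- a branched prime -/
  | branch {p a M1 : ℕ} {K : ℕ → ℕ → ℕ → ℕ → ℝ} {K1 : ℕ → ℕ → ℕ → ℕ → ℕ → ℝ} (hp : p.Prime)
      (hM : 0 < M1) (hnd : ¬ p ∣ M1) (h1 : ∀ v, v ≤ a → VRel S M1 (K1 v))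
      (h : ∀ X X' v v' b c, v ≤ a → v' ≤ a → b ∣ M1 → c ∣ M1 →
        K X X' (p ^ v * b) (p ^ v' * c) ≤
          if v = v' then K1 v (X * p ^ v) (X' * p ^ v') b c else 0) : VRel S (p ^ a * M1) K

/-- the energy -/
noncomputable def EV (M : ℕ) (K : ℕ → ℕ → ℕ → ℕ → ℝ) {ι : Type} (s : Finset ι) (w : ι → ℝ)
    (X : ι → ℕ) (f : ι → ℕ → ℝ) : ℝ :=
  ∑ i ∈ s, ∑ j ∈ s, w i * w j * frm M (fun b c => K (X i) (X j) b c * (f i b * f j c))

/-- Minkowski: `Σ_v c_v (Σ_i w_i n_{iv})² ≤ (Σ_i w_i N_i)²` if `Σ_v c_v n_{iv}² ≤ N_i²` -/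
lemma minkowski {ι κ : Type} (s : Finset ι) (t : Finset κ) (w N : ι → ℝ) (c : κ → ℝ)
    (n : ι → κ → ℝ) (hw : ∀ i ∈ s, 0 ≤ w i) (hc : ∀ v ∈ t, 0 ≤ c v) (hN : ∀ i ∈ s, 0 ≤ N i)
    (hn : ∀ i ∈ s, ∑ v ∈ t, c v * n i v ^ 2 ≤ N i ^ 2) :
    ∑ v ∈ t, c v * (∑ i ∈ s, w i * n i v) ^ 2 ≤ (∑ i ∈ s, w i * N i) ^ 2 := by
  have key : ∀ i ∈ s, ∀ j ∈ s, ∑ v ∈ t, c v * (n i v * n j v) ≤ N i * N j := by
    intro i hi j hj
    have h1 : (∑ v ∈ t, c v * (n i v * n j v))^2 ≤ (N i * N j)^2 := by
      have h2 := Finset.sum_sq_le_sum_mul_sum_of_sq_le_mul t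
        (f := fun v => c v * n i v ^ 2) (g := fun v => c v * n j v ^ 2)
        (r := fun v => c v * (n i v * n j v))
        (fun v hv => mul_nonneg (hc v hv) (sq_nonneg _))
        (fun v hv => mul_nonneg (hc v hv) (sq_nonneg _)) (fun v _ => le_of_eq (by ring))
      refine h2.trans ?_
      rw [mul_pow]
      exact mul_le_mul (hn i hi) (hn j hj)
        (Finset.sum_nonneg fun v hv => mul_nonneg (hc v hv) (sq_nonneg _)) (sq_nonneg _)
    exact le_of_sq_le_sq h1 (mul_nonneg (hN i hi) (hN j hj))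
  calc ∑ v ∈ t, c v * (∑ i ∈ s, w i * n i v) ^ 2
      = ∑ i ∈ s, ∑ j ∈ s, w i * w j * ∑ v ∈ t, c v * (n i v * n j v) := by
        have e : ∀ v, c v * (∑ i ∈ s, w i * n i v) ^ 2 =
            ∑ i ∈ s, ∑ j ∈ s, w i * w j * (c v * (n i v * n j v)) := by
          intro v
          rw [sq, Finset.sum_mul_sum, Finset.mul_sum]
          refine Finset.sum_congr rfl fun i _ => ?_
          rw [Finset.mul_sum]
          refine Finset.sum_congr rfl fun j _ => by ring
        simp only [e]
        rw [Finset.sum_comm]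
        refine Finset.sum_congr rfl fun i _ => ?_
        rw [Finset.sum_comm]
        refine Finset.sum_congr rfl fun j _ => ?_
        rw [Finset.mul_sum]
    _ ≤ ∑ i ∈ s, ∑ j ∈ s, w i * w j * (N i * N j) :=
        Finset.sum_le_sum fun i hi => Finset.sum_le_sum fun j hj =>
          mul_le_mul_of_nonneg_left (key i hi j hj) (mul_nonneg (hw i hi) (hw j hj))
    _ = (∑ i ∈ s, w i * N i) ^ 2 := by
        rw [sq, Finset.sum_mul_sum]
        refine Finset.sum_congr rfl fun i _ => Finset.sum_congr rfl fun j _ => by ring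

/-- the final quadratic form -/
lemma quad {w x y β S : ℝ} (hw0 : 0 ≤ w) (hw : w ≤ 1/3) (hx : 0 ≤ x) (hy : 0 ≤ y)
    (hβy : β^2 ≤ w * y^2) (hS : 0 ≤ S) :
    S * (x + β)^2 + 2 * S * (x * β) ≤ S * (x^2 + (1 - w) * y^2) + 12 * S * (w * x^2) := by
  set z := Real.sqrt w with hz
  have hz0 : 0 ≤ z := Real.sqrt_nonneg _
  have hzz : z^2 = w := Real.sq_sqrt hw0
  have hβ2 : β ≤ z * y := by
    apply le_of_sq_le_sq _ (mul_nonneg hz0 hy)
    rw [mul_pow, hzz]; exact hβy
  have h1 : x * β ≤ x * (z * y) := mul_le_mul_of_nonneg_left hβ2 hx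
  have key : 0 ≤ (x^2 + (1 - w) * y^2) + 12 * (w * x^2) - ((x + β)^2 + 2 * (x * β)) := by
    have e : (x^2 + (1 - w) * y^2) + 12 * (w * x^2) - ((x + β)^2 + 2 * (x * β))
        = (1 - 2*w) * y^2 - 4 * (x * (z*y)) + 12 * (w * x^2)
          + (w * y^2 - β^2) + 4 * (x * (z*y) - x * β) := by ring
    rw [e]
    have h2 : (1 - 2*w) * y^2 ≥ 1/3 * y^2 := by nlinarith [sq_nonneg y]
    have h3 : 0 ≤ 1/3 * y^2 - 4 * (x * (z*y)) + 12 * (w * x^2) := by
      rw [← hzz]
      nlinarith [sq_nonneg (y - 6 * (z * x))]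
    linarith
  nlinarith

lemma frm_congr' {M : ℕ} {F G : ℕ → ℕ → ℝ} (h : ∀ b c, b ∣ M → c ∣ M → F b c = G b c) :
    frm M F = frm M G := by
  unfold frm
  refine Finset.sum_congr rfl fun b hb => Finset.sum_congr rfl fun c hc => ?_
  rw [Nat.mem_divisors] at hb hc
  rw [h b c hb.1 hc.1]

/-- the branched step of the potential -/
lemma branch_pot {p : ℕ} (hp : p.Prime) (a : ℕ) {M1 : ℕ} (hM : 0 < M1) (hnd : ¬ p ∣ M1)
    {ι : Type} (s : Finset ι) (w : ι → ℝ) (f : ι → ℕ → ℝ) (hw : ∀ i, 0 ≤ w i) {S : ℝ}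
    (hS : 0 ≤ S) :
    ∑ v ∈ range (a + 1), ((p:ℝ)^v * nup p a v) * nup p a v *
      (S * (∑ i ∈ s, w i * nrm M1 (fun b => f i (p ^ v * b)))^2 +
        12 * S * ∑ i ∈ s, w i * lin M1 (fun b => f i (p ^ v * b))) ≤
    S * (∑ i ∈ s, w i * nrm (p ^ a * M1) (f i))^2 +
      12 * S * ∑ i ∈ s, w i * lin (p ^ a * M1) (f i) := by
  have hnn : ∀ v, 0 ≤ nup p a v := fun v => nup_nonneg hp.pos a v
  have h1 := minkowski s (range (a+1)) w (fun i => nrm (p ^ a * M1) (f i))
    (fun v => ((p:ℝ)^v * nup p a v) * nup p a v) (fun i v => nrm M1 (fun b => f i (p ^ v * b)))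
    (fun i _ => hw i) (fun v _ => mul_nonneg (mul_nonneg (by positivity) (hnn v)) (hnn v))
    (fun i _ => nrm_nonneg _ _) (fun i _ => by
      simp only [nrm_sq]
      rw [n2_split hp a hM hnd])
  have h2 : ∑ v ∈ range (a + 1), ((p:ℝ)^v * nup p a v) * nup p a v *
      ∑ i ∈ s, w i * lin M1 (fun b => f i (p ^ v * b)) ≤
      ∑ i ∈ s, w i * lin (p ^ a * M1) (f i) := by
    simp only [lin_split hp a hM hnd, Finset.mul_sum]
    rw [Finset.sum_comm]
    refine Finset.sum_le_sum fun i _ => Finset.sum_le_sum fun v hv => ?_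
    rw [Finset.mem_range] at hv
    have hθ := theta_le hp a v (by omega)
    have hl := lin_nonneg M1 (fun b => f i (p ^ v * b))
    have hn := n2_nonneg M1 (fun b => f i (p ^ v * b))
    have hθ0 : 0 ≤ (p:ℝ)^v * nup p a v := mul_nonneg (by positivity) (hnn v)
    have e1 : ((p:ℝ)^v * nup p a v) * nup p a v * (w i * lin M1 (fun b => f i (p ^ v * b))) =
        (w i * nup p a v) * (((p:ℝ)^v * nup p a v) * lin M1 (fun b => f i (p ^ v * b))) := by ring
    have e2 : w i * (nup p a v * (lin M1 (fun b => f i (p ^ v * b)) +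
        (1 - (p:ℝ)^v * nup p a v) * n2 M1 (fun b => f i (p ^ v * b)))) =
        (w i * nup p a v) * (lin M1 (fun b => f i (p ^ v * b)) +
        (1 - (p:ℝ)^v * nup p a v) * n2 M1 (fun b => f i (p ^ v * b))) := by ring
    rw [e1, e2]
    refine mul_le_mul_of_nonneg_left ?_ (mul_nonneg (hw i) (hnn v))
    nlinarith [mul_nonneg (sub_nonneg.2 hθ) hn, mul_nonneg (sub_nonneg.2 hθ) hl]
  calc ∑ v ∈ range (a + 1), ((p:ℝ)^v * nup p a v) * nup p a v *
      (S * (∑ i ∈ s, w i * nrm M1 (fun b => f i (p ^ v * b)))^2 +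
        12 * S * ∑ i ∈ s, w i * lin M1 (fun b => f i (p ^ v * b)))
      = S * ∑ v ∈ range (a + 1), ((p:ℝ)^v * nup p a v) * nup p a v *
          (∑ i ∈ s, w i * nrm M1 (fun b => f i (p ^ v * b)))^2 +
        12 * S * ∑ v ∈ range (a + 1), ((p:ℝ)^v * nup p a v) * nup p a v *
          ∑ i ∈ s, w i * lin M1 (fun b => f i (p ^ v * b)) := by
        rw [Finset.mul_sum, Finset.mul_sum, ← Finset.sum_add_distrib]
        refine Finset.sum_congr rfl fun v _ => by ring
    _ ≤ _ := add_le_add (mul_le_mul_of_nonneg_left h1 hS)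
        (mul_le_mul_of_nonneg_left h2 (by linarith))

/-- the passive step of the potential -/
lemma pass_pot {p : ℕ} (hp : p.Prime) (h3 : 3 ≤ p) {a v0 : ℕ} (hv0 : v0 ≤ a) {M1 : ℕ}
    (hM : 0 < M1) (hnd : ¬ p ∣ M1)
    {ι : Type} (s : Finset ι) (w : ι → ℝ) (f : ι → ℕ → ℝ) (hw : ∀ i, 0 ≤ w i)
    (hw1 : ∑ i ∈ s, w i ≤ 1) {S : ℝ} (hS : 0 ≤ S) :
    (1/(p:ℝ))^v0 * (S * (∑ i ∈ s, ∑ v ∈ Ico v0 (a+1),
          w i * ((p:ℝ)^v0 * nup p a v) * nrm M1 (fun b => f i (p ^ v * b)))^2 +
        12 * S * (∑ i ∈ s, ∑ v ∈ Ico v0 (a+1),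
          w i * ((p:ℝ)^v0 * nup p a v) * lin M1 (fun b => f i (p ^ v * b))) +
        2 * S * ((∑ i ∈ s, w i * (((p:ℝ)^v0 * nup p a v0) * nrm M1 (fun b => f i (p ^ v0 * b)))) *
          (∑ i ∈ s, w i * ∑ v ∈ Ico (v0+1) (a+1),
            ((p:ℝ)^v0 * nup p a v) * nrm M1 (fun b => f i (p ^ v * b))))) ≤
    S * (∑ i ∈ s, w i * nrm (p ^ a * M1) (f i))^2 +
      12 * S * ∑ i ∈ s, w i * lin (p ^ a * M1) (f i) := by
  classical
  have hnn : ∀ v, 0 ≤ nup p a v := fun v => nup_nonneg hp.pos a v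
  have hpR : (0:ℝ) < p := by exact_mod_cast hp.pos
  set c0 : ℝ := (1/(p:ℝ))^v0 with hc0
  have hc0p : 0 < c0 := by positivity
  have hc0m : c0 * (p:ℝ)^v0 = 1 := by
    rw [hc0, ← mul_pow, one_div_mul_cancel hpR.ne', one_pow]
  set q : ℕ → ℝ := fun v => (p:ℝ)^v0 * nup p a v with hq
  have hq0 : ∀ v, 0 ≤ q v := fun v => mul_nonneg (by positivity) (hnn v)
  have hcq : ∀ v, nup p a v = c0 * q v := by
    intro v; simp only [hq]; rw [← mul_assoc, hc0m, one_mul]
  set w' : ℝ := 1/(p:ℝ) with hw'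
  have hw'0 : 0 ≤ w' := by positivity
  have hw'3 : w' ≤ 1/3 := by
    rw [hw']
    apply one_div_le_one_div_of_le (by norm_num)
    exact_mod_cast h3
  set n : ι → ℕ → ℝ := fun i v => nrm M1 (fun b => f i (p ^ v * b)) with hn
  have hn0 : ∀ i v, 0 ≤ n i v := fun i v => nrm_nonneg _ _
  set l : ι → ℕ → ℝ := fun i v => lin M1 (fun b => f i (p ^ v * b)) with hl
  have hl0 : ∀ i v, 0 ≤ l i v := fun i v => lin_nonneg _ _
  have hn2 : ∀ i v, n2 M1 (fun b => f i (p ^ v * b)) = n i v ^ 2 := fun i v => (nrm_sq _ _).symm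
  set θ : ℕ → ℝ := fun v => (p:ℝ)^v * nup p a v with hθ
  have hθ1 : ∀ v, v ≤ a → θ v ≤ 1 := fun v hv => theta_le hp a v hv
  have hθ0 : ∀ v, 0 ≤ θ v := fun v => mul_nonneg (by positivity) (hnn v)
  have hθw : ∀ v, v ≤ a → 1 - w' ≤ θ v := by
    intro v hv
    simp only [hθ]
    rw [PrefixMx882.loc_agree hp.pos hv]
    split_ifs
    · exact le_rfl
    · linarith
  have hI : Ico v0 (a+1) = insert v0 (Ico (v0+1) (a+1)) := by
    ext x; simp only [Finset.mem_insert, Finset.mem_Ico]; omega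
  have hnot : v0 ∉ Ico (v0+1) (a+1) := by simp
  have hsub : Ico v0 (a+1) ⊆ range (a+1) := by
    intro x hx; rw [Finset.mem_Ico] at hx; rw [Finset.mem_range]; omega
  -- masses
  have hqtot : ∑ v ∈ Ico v0 (a+1), q v = 1 := by
    simp only [hq]
    rw [← Finset.mul_sum, PrefixMx882.nup_tail p hv0, mul_comm]
    exact hc0m
  -- the true norm
  set N : ι → ℝ := fun i => nrm (p ^ a * M1) (f i) with hN
  have hN0 : ∀ i, 0 ≤ N i := fun i => nrm_nonneg _ _
  have hNsq : ∀ i, c0 * ∑ v ∈ Ico v0 (a+1), θ v * q v * n i v ^ 2 ≤ N i ^ 2 := by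
    intro i
    simp only [hN]
    rw [nrm_sq, n2_split hp a hM hnd, Finset.mul_sum]
    calc ∑ v ∈ Ico v0 (a+1), c0 * (θ v * q v * n i v ^ 2)
        = ∑ v ∈ Ico v0 (a+1), ((p:ℝ)^v * nup p a v) * nup p a v *
            n2 M1 (fun b => f i (p ^ v * b)) := by
          refine Finset.sum_congr rfl fun v _ => ?_
          rw [hn2]
          conv_rhs => rw [mul_assoc, hcq v]
          simp only [hθ]
          rw [hcq v]
          ring
      _ ≤ _ := Finset.sum_le_sum_of_subset_of_nonneg hsub fun v _ _ =>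
          mul_nonneg (mul_nonneg (hθ0 v) (hnn v)) (n2_nonneg _ _)
  -- the true linear potential
  have hlin : c0 * ∑ i ∈ s, w i * ∑ v ∈ Ico v0 (a+1), q v * (l i v + (1 - θ v) * n i v ^ 2) ≤
      ∑ i ∈ s, w i * lin (p ^ a * M1) (f i) := by
    rw [Finset.mul_sum]
    refine Finset.sum_le_sum fun i _ => ?_
    rw [← mul_assoc, mul_comm c0, mul_assoc]
    refine mul_le_mul_of_nonneg_left ?_ (hw i)
    rw [lin_split hp a hM hnd, Finset.mul_sum]
    calc ∑ v ∈ Ico v0 (a+1), c0 * (q v * (l i v + (1 - θ v) * n i v ^ 2))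
        = ∑ v ∈ Ico v0 (a+1), nup p a v * (lin M1 (fun b => f i (p ^ v * b)) +
            (1 - (p:ℝ)^v * nup p a v) * n2 M1 (fun b => f i (p ^ v * b))) := by
          refine Finset.sum_congr rfl fun v _ => ?_
          rw [hn2]
          simp only [hθ, hl]
          rw [← mul_assoc, ← hcq v]
      _ ≤ _ := Finset.sum_le_sum_of_subset_of_nonneg hsub fun v hv _ => by
          rw [Finset.mem_range] at hv
          refine mul_nonneg (hnn v) (add_nonneg (lin_nonneg _ _)
            (mul_nonneg (sub_nonneg.2 (hθ1 v (by omega))) (n2_nonneg _ _)))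
  -- averages
  set x : ℝ := ∑ i ∈ s, w i * (q v0 * n i v0) with hx
  set β : ℝ := ∑ i ∈ s, w i * ∑ v ∈ Ico (v0+1) (a+1), q v * n i v with hβ
  have hx0 : 0 ≤ x := Finset.sum_nonneg fun i _ => mul_nonneg (hw i) (mul_nonneg (hq0 _) (hn0 _ _))
  have hβ0 : 0 ≤ β := Finset.sum_nonneg fun i _ => mul_nonneg (hw i)
    (Finset.sum_nonneg fun v _ => mul_nonneg (hq0 _) (hn0 _ _))
  have hsum1 : ∑ i ∈ s, ∑ v ∈ Ico v0 (a+1), w i * q v * n i v = x + β := by
    rw [hx, hβ, ← Finset.sum_add_distrib]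
    refine Finset.sum_congr rfl fun i _ => ?_
    rw [hI, Finset.sum_insert hnot, Finset.mul_sum, mul_assoc]
    congr 1
    refine Finset.sum_congr rfl fun v _ => by ring
  -- the gain of the linear potential
  have hlin2 : ∑ i ∈ s, ∑ v ∈ Ico v0 (a+1), w i * q v * l i v +
      ∑ i ∈ s, w i * (q v0 * (1 - θ v0) * n i v0 ^ 2) ≤
      ∑ i ∈ s, w i * ∑ v ∈ Ico v0 (a+1), q v * (l i v + (1 - θ v) * n i v ^ 2) := by
    rw [← Finset.sum_add_distrib]
    refine Finset.sum_le_sum fun i _ => ?_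
    have e : ∑ v ∈ Ico v0 (a+1), w i * q v * l i v = w i * ∑ v ∈ Ico v0 (a+1), q v * l i v := by
      rw [Finset.mul_sum]; refine Finset.sum_congr rfl fun v _ => by ring
    rw [e, ← mul_add]
    refine mul_le_mul_of_nonneg_left ?_ (hw i)
    have e2 : ∑ v ∈ Ico v0 (a+1), q v * (l i v + (1 - θ v) * n i v ^ 2) =
        ∑ v ∈ Ico v0 (a+1), q v * l i v + ∑ v ∈ Ico v0 (a+1), q v * (1 - θ v) * n i v ^ 2 := by
      rw [← Finset.sum_add_distrib]; refine Finset.sum_congr rfl fun v _ => by ring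
    rw [e2]
    refine add_le_add le_rfl ?_
    rw [hI, Finset.sum_insert hnot]
    have : 0 ≤ ∑ v ∈ Ico (v0+1) (a+1), q v * (1 - θ v) * n i v ^ 2 :=
      Finset.sum_nonneg fun v hv => by
        rw [Finset.mem_Ico] at hv
        exact mul_nonneg (mul_nonneg (hq0 v) (sub_nonneg.2 (hθ1 v (by omega)))) (sq_nonneg _)
    linarith
  -- main inequality divided by c0
  suffices hmain : S * (x + β)^2 + 12 * S * (∑ i ∈ s, ∑ v ∈ Ico v0 (a+1), w i * q v * l i v) +
      2 * S * (x * β) ≤ S * (c0⁻¹ * (∑ i ∈ s, w i * N i)^2) +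
        12 * S * (∑ i ∈ s, w i * ∑ v ∈ Ico v0 (a+1), q v * (l i v + (1 - θ v) * n i v ^ 2)) by
    have h4 := mul_le_mul_of_nonneg_left hmain hc0p.le
    have e1 : c0 * (S * (c0⁻¹ * (∑ i ∈ s, w i * N i)^2) +
        12 * S * (∑ i ∈ s, w i * ∑ v ∈ Ico v0 (a+1), q v * (l i v + (1 - θ v) * n i v ^ 2))) =
        S * (∑ i ∈ s, w i * N i)^2 +
        12 * S * (c0 * ∑ i ∈ s, w i * ∑ v ∈ Ico v0 (a+1), q v * (l i v + (1 - θ v) * n i v ^ 2)) := by
      rw [mul_add]
      congr 1
      · field_simp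
      · ring
    rw [e1] at h4
    have h5 : 12 * S * (c0 * ∑ i ∈ s, w i * ∑ v ∈ Ico v0 (a+1),
        q v * (l i v + (1 - θ v) * n i v ^ 2)) ≤
        12 * S * ∑ i ∈ s, w i * lin (p ^ a * M1) (f i) :=
      mul_le_mul_of_nonneg_left hlin (by linarith)
    rw [← hsum1] at h4
    refine le_trans h4 (add_le_add le_rfl h5)
  rcases hv0.eq_or_lt with hva | hva
  · -- v0 = a : nothing above
    have hJ : Ico (v0+1) (a+1) = ∅ := by rw [hva]; simp
    have hβ00 : β = 0 := by rw [hβ, hJ]; simp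
    have hθa : θ v0 = 1 := by
      simp only [hθ]; rw [PrefixMx882.loc_agree hp.pos hv0, if_neg (by omega)]
    have hqa : q v0 = 1 := by
      rw [hI, hJ] at hqtot; simpa using hqtot
    have hmink := minkowski s {v0} w N (fun v => c0 * (θ v * q v)) n (fun i _ => hw i)
      (fun v _ => mul_nonneg hc0p.le (mul_nonneg (hθ0 v) (hq0 v))) (fun i _ => hN0 i)
      (fun i _ => by
        refine le_trans (le_of_eq ?_) (hNsq i)
        rw [hI, hJ, Finset.mul_sum]
        refine Finset.sum_congr (by simp) fun v _ => by ring)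
    rw [Finset.sum_singleton, hθa, hqa, mul_one, mul_one] at hmink
    have hx2 : x = ∑ i ∈ s, w i * n i v0 := by
      rw [hx]; refine Finset.sum_congr rfl fun i _ => by rw [hqa, one_mul]
    have h6 : x^2 ≤ c0⁻¹ * (∑ i ∈ s, w i * N i)^2 := by
      rw [hx2, le_inv_mul_iff₀ hc0p]; exact hmink
    have h7 : ∑ i ∈ s, ∑ v ∈ Ico v0 (a+1), w i * q v * l i v ≤
        ∑ i ∈ s, w i * ∑ v ∈ Ico v0 (a+1), q v * (l i v + (1 - θ v) * n i v ^ 2) := by
      refine le_trans ?_ hlin2
      have : 0 ≤ ∑ i ∈ s, w i * (q v0 * (1 - θ v0) * n i v0 ^ 2) :=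
        Finset.sum_nonneg fun i _ => mul_nonneg (hw i)
          (mul_nonneg (mul_nonneg (hq0 _) (by rw [hθa]; norm_num)) (sq_nonneg _))
      linarith
    rw [hβ00, add_zero, mul_zero, mul_zero, add_zero]
    exact add_le_add (mul_le_mul_of_nonneg_left h6 hS) (mul_le_mul_of_nonneg_left h7 (by linarith))
  · -- v0 < a
    have hθv0 : θ v0 = 1 - w' := by
      simp only [hθ]; rw [PrefixMx882.loc_agree hp.pos hv0, if_pos hva]
    have hqv0 : q v0 = 1 - w' := by rw [← hθv0]
    have hrest : ∑ v ∈ Ico (v0+1) (a+1), q v = w' := by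
      rw [hI, Finset.sum_insert hnot, hqv0] at hqtot; linarith
    -- y
    set yi : ι → ℝ := fun i => Real.sqrt (∑ v ∈ Ico (v0+1) (a+1), q v * n i v ^ 2) with hyi
    have hyi0 : ∀ i, 0 ≤ yi i := fun i => Real.sqrt_nonneg _
    have hyi2 : ∀ i, yi i ^ 2 = ∑ v ∈ Ico (v0+1) (a+1), q v * n i v ^ 2 := fun i =>
      Real.sq_sqrt (Finset.sum_nonneg fun v _ => mul_nonneg (hq0 v) (sq_nonneg _))
    set y : ℝ := ∑ i ∈ s, w i * yi i with hy
    have hy0 : 0 ≤ y := Finset.sum_nonneg fun i _ => mul_nonneg (hw i) (hyi0 i)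
    -- β² ≤ w y²
    have hβi : ∀ i, ∑ v ∈ Ico (v0+1) (a+1), q v * n i v ≤ Real.sqrt w' * yi i := by
      intro i
      apply le_of_sq_le_sq _ (mul_nonneg (Real.sqrt_nonneg _) (hyi0 i))
      rw [mul_pow, Real.sq_sqrt hw'0, hyi2, ← hrest]
      exact Finset.sum_sq_le_sum_mul_sum_of_sq_le_mul _ (fun v _ => hq0 v)
        (fun v _ => mul_nonneg (hq0 v) (sq_nonneg _)) (fun v _ => le_of_eq (by ring))
    have hββ : β^2 ≤ w' * y^2 := by
      have h8 : β ≤ Real.sqrt w' * y := by
        rw [hβ, hy, Finset.mul_sum]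
        refine Finset.sum_le_sum fun i _ => ?_
        calc w i * ∑ v ∈ Ico (v0+1) (a+1), q v * n i v ≤ w i * (Real.sqrt w' * yi i) :=
              mul_le_mul_of_nonneg_left (hβi i) (hw i)
          _ = Real.sqrt w' * (w i * yi i) := by ring
      calc β^2 ≤ (Real.sqrt w' * y)^2 := pow_le_pow_left₀ hβ0 h8 2
        _ = w' * y^2 := by rw [mul_pow, Real.sq_sqrt hw'0]
    -- Minkowski with two coordinates
    have hmink := minkowski s (univ : Finset Bool) w N
      (fun t => if t then c0 else c0 * (1 - w'))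
      (fun i t => if t then q v0 * n i v0 else yi i) (fun i _ => hw i)
      (fun t _ => by cases t <;> simp <;> nlinarith) (fun i _ => hN0 i)
      (fun i _ => by
        rw [Fintype.sum_bool]
        refine le_trans ?_ (hNsq i)
        simp only [if_true, Bool.false_eq_true, if_false]
        rw [hI, Finset.sum_insert hnot, hyi2]
        have e1 : (q v0 * n i v0)^2 = θ v0 * q v0 * n i v0 ^ 2 := by rw [hθv0, hqv0]; ring
        have e2 : (1 - w') * ∑ v ∈ Ico (v0 + 1) (a + 1), q v * n i v ^ 2 ≤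
            ∑ v ∈ Ico (v0 + 1) (a + 1), θ v * q v * n i v ^ 2 := by
          rw [Finset.mul_sum]
          refine Finset.sum_le_sum fun v hv => ?_
          rw [Finset.mem_Ico] at hv
          have e3 : θ v * q v * n i v ^ 2 = θ v * (q v * n i v ^ 2) := by ring
          rw [e3]
          exact mul_le_mul_of_nonneg_right (hθw v (by omega)) (mul_nonneg (hq0 v) (sq_nonneg _))
        have e4 := mul_le_mul_of_nonneg_left e2 hc0p.le
        rw [e1]
        linarith)
    rw [Fintype.sum_bool] at hmink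
    simp only [if_true, Bool.false_eq_true, if_false] at hmink
    have h9 : x^2 + (1 - w') * y^2 ≤ c0⁻¹ * (∑ i ∈ s, w i * N i)^2 := by
      rw [le_inv_mul_iff₀ hc0p]
      refine le_trans (le_of_eq ?_) hmink
      rw [← hx, ← hy]; ring
    -- the gain
    have h10 : w' * x^2 ≤ ∑ i ∈ s, w i * (q v0 * (1 - θ v0) * n i v0 ^ 2) := by
      have h11 : x^2 ≤ ∑ i ∈ s, w i * (q v0 * n i v0)^2 := by
        have h12 := Finset.sum_sq_le_sum_mul_sum_of_sq_le_mul s
          (f := w) (g := fun i => w i * (q v0 * n i v0)^2) (r := fun i => w i * (q v0 * n i v0))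
          (fun i _ => hw i) (fun i _ => mul_nonneg (hw i) (sq_nonneg _))
          (fun i _ => le_of_eq (by ring))
        refine h12.trans ?_
        have h13 : 0 ≤ ∑ i ∈ s, w i * (q v0 * n i v0)^2 :=
          Finset.sum_nonneg fun i _ => mul_nonneg (hw i) (sq_nonneg _)
        nlinarith
      refine (mul_le_mul_of_nonneg_left h11 hw'0).trans ?_
      rw [Finset.mul_sum]
      refine Finset.sum_le_sum fun i _ => ?_
      rw [hθv0, hqv0]
      have h14 : 0 ≤ w i * n i v0 ^ 2 := mul_nonneg (hw i) (sq_nonneg _)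
      have h15 : 0 ≤ w' * (1 - w') * (1 - (1 - w')) * (w i * n i v0 ^ 2) :=
        mul_nonneg (mul_nonneg (mul_nonneg hw'0 (by linarith)) (by linarith)) h14
      nlinarith
    have h16 := quad hw'0 hw'3 hx0 hy0 hββ hS
    have h17 : 12 * S * (w' * x^2) ≤ 12 * S * ∑ i ∈ s, w i * (q v0 * (1 - θ v0) * n i v0 ^ 2) :=
      mul_le_mul_of_nonneg_left h10 (by linarith)
    have h18 : S * (x^2 + (1 - w') * y^2) ≤ S * (c0⁻¹ * (∑ i ∈ s, w i * N i)^2) :=
      mul_le_mul_of_nonneg_left h9 hS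
    have h19 := mul_le_mul_of_nonneg_left hlin2 (by linarith : (0:ℝ) ≤ 12 * S)
    rw [mul_add] at h19
    linarith

lemma sum_minset (a v0 : ℕ) (hv0 : v0 ≤ a) (F : ℕ → ℕ → ℝ) :
    ∑ v ∈ range (a + 1), ∑ v' ∈ range (a + 1), (if min v v' = v0 ∧ v ≠ v' then F v v' else 0) =
      ∑ v ∈ Ico (v0+1) (a+1), F v0 v + ∑ v ∈ Ico (v0+1) (a+1), F v v0 := by
  have hsub : Ico v0 (a+1) ⊆ range (a+1) := by
    intro x hx; rw [Finset.mem_Ico] at hx; rw [Finset.mem_range]; omega
  have hI : Ico v0 (a+1) = insert v0 (Ico (v0+1) (a+1)) := by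
    ext x; simp only [Finset.mem_insert, Finset.mem_Ico]; omega
  have hnot : v0 ∉ Ico (v0+1) (a+1) := by simp
  have hinner : ∀ v, ∑ v' ∈ range (a + 1), (if min v v' = v0 ∧ v ≠ v' then F v v' else 0) =
      ∑ v' ∈ Ico v0 (a+1), (if min v v' = v0 ∧ v ≠ v' then F v v' else 0) := by
    intro v
    symm
    refine Finset.sum_subset hsub fun x hx hx' => ?_
    rw [Finset.mem_range] at hx
    rw [Finset.mem_Ico] at hx'
    rw [if_neg]; omega
  have houter : ∑ v ∈ range (a + 1), ∑ v' ∈ Ico v0 (a+1),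
      (if min v v' = v0 ∧ v ≠ v' then F v v' else 0) =
      ∑ v ∈ Ico v0 (a+1), ∑ v' ∈ Ico v0 (a+1),
        (if min v v' = v0 ∧ v ≠ v' then F v v' else 0) := by
    symm
    refine Finset.sum_subset hsub fun x hx hx' => ?_
    rw [Finset.mem_range] at hx
    rw [Finset.mem_Ico] at hx'
    refine Finset.sum_eq_zero fun v' _ => ?_
    rw [if_neg]; omega
  simp only [hinner]
  rw [houter, hI, Finset.sum_insert hnot, Finset.sum_insert hnot]
  congr 1
  · rw [if_neg (by simp), zero_add]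
    refine Finset.sum_congr rfl fun v hv => ?_
    rw [Finset.mem_Ico] at hv
    rw [if_pos]
    exact ⟨by omega, by omega⟩
  · refine Finset.sum_congr rfl fun v hv => ?_
    rw [Finset.mem_Ico] at hv
    rw [Finset.sum_insert hnot, if_pos ⟨by omega, by omega⟩]
    have : ∑ x ∈ Ico (v0+1) (a+1), (if min v x = v0 ∧ v ≠ x then F v x else 0) = 0 := by
      refine Finset.sum_eq_zero fun x hx => ?_
      rw [Finset.mem_Ico] at hx
      rw [if_neg]
      omega
    rw [this, add_zero]

/-- **THEOREM V** (vector version of the pure part, all scales at once) -/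
theorem vec_energy {S : ℝ} (hS : 0 ≤ S) {M : ℕ} {K : ℕ → ℕ → ℕ → ℕ → ℝ} (hR : VRel S M K) :
    ∀ (ι : Type) (s : Finset ι) (w : ι → ℝ) (X : ι → ℕ) (f : ι → ℕ → ℝ), (∀ i, 0 ≤ w i) →
      (∑ i ∈ s, w i ≤ 1) → (∀ i b, 0 ≤ f i b) →
      EV M K s w X f ≤ S * (∑ i ∈ s, w i * nrm M (f i))^2 + 12 * S * ∑ i ∈ s, w i * lin M (f i) := by
  classical
  induction hR with
  | @base M K h =>
    intro ι s w X f hw hw1 hf
    have h0 : EV M K s w X f ≤ 0 := by
      unfold EV
      refine Finset.sum_nonpos fun i _ => Finset.sum_nonpos fun j _ => ?_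
      refine mul_nonpos_of_nonneg_of_nonpos (mul_nonneg (hw i) (hw j)) ?_
      have h1 : frm M (fun b c => K (X i) (X j) b c * (f i b * f j c)) ≤ frm M (fun _ _ => 0) :=
        frm_mono (fun b c hb hc => mul_nonpos_of_nonpos_of_nonneg (h _ _ b c hb hc)
          (mul_nonneg (hf _ _) (hf _ _)))
      have e : frm M (fun _ _ => (0:ℝ)) = 0 := by unfold frm; simp
      rw [e] at h1
      exact h1
    refine h0.trans (add_nonneg (mul_nonneg hS (sq_nonneg _)) (mul_nonneg (by linarith) ?_))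
    exact Finset.sum_nonneg fun i _ => mul_nonneg (hw i) (lin_nonneg _ _)
  | @branch p a M1 K K1 hp hM hnd h1 h ih =>
    intro ι s w X f hw hw1 hf
    have hnn : ∀ v, 0 ≤ nup p a v := fun v => nup_nonneg hp.pos a v
    refine le_trans ?_ (branch_pot hp a hM hnd s w f hw hS)
    have hij : ∀ i j, frm (p ^ a * M1) (fun b c => K (X i) (X j) b c * (f i b * f j c)) ≤
        ∑ v ∈ range (a+1), ((p:ℝ)^v * nup p a v) * nup p a v *
          frm M1 (fun b c => K1 v (X i * p ^ v) (X j * p ^ v) b c *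
            (f i (p ^ v * b) * f j (p ^ v * c))) := by
      intro i j
      rw [frm_split hp a hM hnd]
      refine Finset.sum_le_sum fun v hv => ?_
      rw [Finset.mem_range] at hv
      have hva : v ≤ a := by omega
      have hother : ∀ v' ∈ range (a+1), v' ≠ v → (p : ℝ) ^ (min v v') * nup p a v * nup p a v' *
          frm M1 (fun b c => K (X i) (X j) (p ^ v * b) (p ^ v' * c) *
            (f i (p ^ v * b) * f j (p ^ v' * c))) ≤ 0 := by
        intro v' hv' hne
        rw [Finset.mem_range] at hv'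
        refine mul_nonpos_of_nonneg_of_nonpos (mul_nonneg (mul_nonneg (by positivity) (hnn _))
          (hnn _)) ?_
        have h2 : frm M1 (fun b c => K (X i) (X j) (p ^ v * b) (p ^ v' * c) *
            (f i (p ^ v * b) * f j (p ^ v' * c))) ≤ frm M1 (fun _ _ => 0) :=
          frm_mono (fun b c hb hc => by
            have h3 := h (X i) (X j) v v' b c hva (by omega) hb hc
            rw [if_neg (Ne.symm hne)] at h3
            exact mul_nonpos_of_nonpos_of_nonneg h3 (mul_nonneg (hf _ _) (hf _ _)))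
        have e : frm M1 (fun _ _ => (0:ℝ)) = 0 := by unfold frm; simp
        rw [e] at h2
        exact h2
      have hmem : v ∈ range (a+1) := Finset.mem_range.2 hv
      rw [← Finset.add_sum_erase _ _ hmem, min_self]
      have h4 : ∑ v' ∈ (range (a+1)).erase v, (p : ℝ) ^ (min v v') * nup p a v * nup p a v' *
          frm M1 (fun b c => K (X i) (X j) (p ^ v * b) (p ^ v' * c) *
            (f i (p ^ v * b) * f j (p ^ v' * c))) ≤ 0 :=
        Finset.sum_nonpos fun v' hv' => hother v' (Finset.mem_of_mem_erase hv')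
          (Finset.ne_of_mem_erase hv')
      have h5 : (p : ℝ) ^ v * nup p a v * nup p a v *
          frm M1 (fun b c => K (X i) (X j) (p ^ v * b) (p ^ v * c) *
            (f i (p ^ v * b) * f j (p ^ v * c))) ≤
          (p : ℝ) ^ v * nup p a v * nup p a v *
          frm M1 (fun b c => K1 v (X i * p ^ v) (X j * p ^ v) b c *
            (f i (p ^ v * b) * f j (p ^ v * c))) := by
        refine mul_le_mul_of_nonneg_left (frm_mono fun b c hb hc => ?_)
          (mul_nonneg (mul_nonneg (by positivity) (hnn _)) (hnn _))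
        have h3 := h (X i) (X j) v v b c hva hva hb hc
        rw [if_pos rfl] at h3
        exact mul_le_mul_of_nonneg_right h3 (mul_nonneg (hf _ _) (hf _ _))
      linarith
    have hEV : EV (p ^ a * M1) K s w X f ≤ ∑ v ∈ range (a+1), ((p:ℝ)^v * nup p a v) * nup p a v *
        EV M1 (K1 v) s w (fun i => X i * p ^ v) (fun i b => f i (p ^ v * b)) := by
      unfold EV
      calc ∑ i ∈ s, ∑ j ∈ s, w i * w j *
            frm (p ^ a * M1) (fun b c => K (X i) (X j) b c * (f i b * f j c))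
          ≤ ∑ i ∈ s, ∑ j ∈ s, w i * w j * ∑ v ∈ range (a+1), ((p:ℝ)^v * nup p a v) * nup p a v *
          frm M1 (fun b c => K1 v (X i * p ^ v) (X j * p ^ v) b c *
            (f i (p ^ v * b) * f j (p ^ v * c))) :=
            Finset.sum_le_sum fun i _ => Finset.sum_le_sum fun j _ =>
              mul_le_mul_of_nonneg_left (hij i j) (mul_nonneg (hw i) (hw j))
        _ = _ := by
            simp only [Finset.mul_sum]
            calc ∑ i ∈ s, ∑ j ∈ s, ∑ v ∈ range (a+1), w i * w j *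
                  (((p:ℝ)^v * nup p a v) * nup p a v *
                  frm M1 (fun b c => K1 v (X i * p ^ v) (X j * p ^ v) b c *
                  (f i (p ^ v * b) * f j (p ^ v * c))))
                = ∑ i ∈ s, ∑ v ∈ range (a+1), ∑ j ∈ s, w i * w j *
                  (((p:ℝ)^v * nup p a v) * nup p a v *
                  frm M1 (fun b c => K1 v (X i * p ^ v) (X j * p ^ v) b c *
                  (f i (p ^ v * b) * f j (p ^ v * c)))) :=
                  Finset.sum_congr rfl fun i _ => Finset.sum_comm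
              _ = ∑ v ∈ range (a+1), ∑ i ∈ s, ∑ j ∈ s, w i * w j *
                  (((p:ℝ)^v * nup p a v) * nup p a v *
                  frm M1 (fun b c => K1 v (X i * p ^ v) (X j * p ^ v) b c *
                  (f i (p ^ v * b) * f j (p ^ v * c)))) := Finset.sum_comm
              _ = _ := by
                  refine Finset.sum_congr rfl fun v _ => Finset.sum_congr rfl fun i _ =>
                    Finset.sum_congr rfl fun j _ => by ring
    refine hEV.trans (Finset.sum_le_sum fun v hv => ?_)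
    rw [Finset.mem_range] at hv
    exact mul_le_mul_of_nonneg_left (ih v (by omega) ι s w (fun i => X i * p ^ v)
      (fun i b => f i (p ^ v * b)) hw hw1 (fun i b => hf _ _))
      (mul_nonneg (mul_nonneg (by positivity) (hnn _)) (hnn _))
  | @pass p a v0 M1 K K1 Θ hp h3 hv0 hM hnd h1 hK1 hΘ h ih =>
    intro ι s w X f hw hw1 hf
    have hnn : ∀ v, 0 ≤ nup p a v := fun v => nup_nonneg hp.pos a v
    have hpR : (0:ℝ) < p := by exact_mod_cast hp.pos
    refine le_trans ?_ (pass_pot hp h3 hv0 hM hnd s w f hw hw1 hS)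
    set c0 : ℝ := (1/(p:ℝ))^v0 with hc0
    have hc0p : 0 < c0 := by positivity
    have hc0m : c0 * (p:ℝ)^v0 = 1 := by
      rw [hc0, ← mul_pow, one_div_mul_cancel hpR.ne', one_pow]
    set q : ℕ → ℝ := fun v => (p:ℝ)^v0 * nup p a v with hq
    have hq0 : ∀ v, 0 ≤ q v := fun v => mul_nonneg (by positivity) (hnn v)
    have hcqq : ∀ v v', (p:ℝ)^v0 * nup p a v * nup p a v' = c0 * (q v * q v') := by
      intro v v'
      simp only [hq]
      have : c0 * ((p:ℝ)^v0 * nup p a v * ((p:ℝ)^v0 * nup p a v')) =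
        (c0 * (p:ℝ)^v0) * ((p:ℝ)^v0 * nup p a v * nup p a v') := by ring
      rw [this, hc0m, one_mul]
    have hqtot : ∑ v ∈ Ico v0 (a+1), q v = 1 := by
      simp only [hq]
      rw [← Finset.mul_sum, PrefixMx882.nup_tail p hv0, mul_comm]
      exact hc0m
    have hsub : Ico v0 (a+1) ⊆ range (a+1) := by
      intro x hx; rw [Finset.mem_Ico] at hx; rw [Finset.mem_range]; omega
    set n : ι → ℕ → ℝ := fun i v => nrm M1 (fun b => f i (p ^ v * b)) with hn
    have hn0 : ∀ i v, 0 ≤ n i v := fun i v => nrm_nonneg _ _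
    set G : ι → ι → ℕ → ℕ → ℝ := fun i j v v' =>
      frm M1 (fun b c => K1 (X i * p ^ v) (X j * p ^ v') b c *
        (f i (p ^ v * b) * f j (p ^ v' * c))) with hG
    have hG0 : ∀ i j v v', 0 ≤ G i j v v' := fun i j v v' =>
      frm_nonneg fun b c _ _ => mul_nonneg (hK1 _ _ _ _) (mul_nonneg (hf _ _) (hf _ _))
    have hij : ∀ i j, frm (p ^ a * M1) (fun b c => K (X i) (X j) b c * (f i b * f j c)) ≤
        c0 * ((∑ v ∈ Ico v0 (a+1), ∑ v' ∈ Ico v0 (a+1), q v * q v' * G i j v v') +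
          (∑ v ∈ Ico (v0+1) (a+1), q v0 * q v * (S * (n i v0 * n j v)) +
           ∑ v ∈ Ico (v0+1) (a+1), q v * q v0 * (S * (n i v * n j v0)))) := by
      intro i j
      rw [frm_split hp a hM hnd]
      have hterm : ∀ v ∈ range (a+1), ∀ v' ∈ range (a+1),
          (p : ℝ) ^ (min v v') * nup p a v * nup p a v' *
          frm M1 (fun b c => K (X i) (X j) (p ^ v * b) (p ^ v' * c) *
            (f i (p ^ v * b) * f j (p ^ v' * c))) ≤
          (if min v v' = v0 then c0 * (q v * q v' * G i j v v') else 0) +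
          (if min v v' = v0 ∧ v ≠ v' then c0 * (q v * q v' * (S * (n i v * n j v'))) else 0) := by
        intro v hv v' hv'
        rw [Finset.mem_range] at hv hv'
        have hpp : 0 ≤ (p : ℝ) ^ (min v v') * nup p a v * nup p a v' :=
          mul_nonneg (mul_nonneg (by positivity) (hnn _)) (hnn _)
        by_cases hmin : min v v' = v0
        · have hpow : (p : ℝ) ^ (min v v') = (p:ℝ) ^ v0 := by rw [hmin]
          rw [if_pos hmin, hpow, hcqq]
          have hfr : frm M1 (fun b c => K (X i) (X j) (p ^ v * b) (p ^ v' * c) *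
              (f i (p ^ v * b) * f j (p ^ v' * c))) ≤ G i j v v' +
              (if v ≠ v' then S * (n i v * n j v') else 0) := by
            by_cases hvv : v ≠ v'
            · rw [if_pos hvv]
              calc frm M1 (fun b c => K (X i) (X j) (p ^ v * b) (p ^ v' * c) *
                    (f i (p ^ v * b) * f j (p ^ v' * c)))
                  ≤ frm M1 (fun b c => K1 (X i * p ^ v) (X j * p ^ v') b c *
                    (f i (p ^ v * b) * f j (p ^ v' * c)) + Θ (X i) (X j) v v' b c *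
                    (f i (p ^ v * b) * f j (p ^ v' * c))) := by
                    refine frm_mono fun b c hb hc => ?_
                    have h3 := h (X i) (X j) v v' b c (by omega) (by omega) hb hc
                    rw [if_pos hmin, if_pos hvv] at h3
                    rw [← add_mul]
                    exact mul_le_mul_of_nonneg_right h3 (mul_nonneg (hf _ _) (hf _ _))
                _ = G i j v v' + frm M1 (fun b c => Θ (X i) (X j) v v' b c *
                    (f i (p ^ v * b) * f j (p ^ v' * c))) := by rw [frm_add]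
                _ ≤ _ := add_le_add le_rfl (hΘ (X i) (X j) v v' (fun b => f i (p ^ v * b))
                    (fun c => f j (p ^ v' * c)) (fun b => hf _ _) (fun c => hf _ _))
            · rw [if_neg hvv, add_zero]
              refine frm_mono fun b c hb hc => ?_
              have h3 := h (X i) (X j) v v' b c (by omega) (by omega) hb hc
              rw [if_pos hmin, if_neg hvv, add_zero] at h3
              exact mul_le_mul_of_nonneg_right h3 (mul_nonneg (hf _ _) (hf _ _))
          have h6 := mul_le_mul_of_nonneg_left hfr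
            (mul_nonneg hc0p.le (mul_nonneg (hq0 v) (hq0 v')))
          by_cases hvv : v ≠ v'
          · rw [if_pos hvv] at h6
            rw [if_pos ⟨hmin, hvv⟩]
            refine le_trans (le_of_eq (by ring)) (h6.trans (le_of_eq (by ring)))
          · rw [if_neg hvv] at h6
            rw [if_neg (fun hc => hvv hc.2)]
            refine le_trans (le_of_eq (by ring)) (h6.trans (le_of_eq (by ring)))
        · rw [if_neg hmin, if_neg (fun hc => hmin hc.1), add_zero]
          refine mul_nonpos_of_nonneg_of_nonpos hpp ?_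
          have h2 : frm M1 (fun b c => K (X i) (X j) (p ^ v * b) (p ^ v' * c) *
              (f i (p ^ v * b) * f j (p ^ v' * c))) ≤ frm M1 (fun _ _ => 0) :=
            frm_mono (fun b c hb hc => by
              have h3 := h (X i) (X j) v v' b c (by omega) (by omega) hb hc
              rw [if_neg hmin] at h3
              exact mul_nonpos_of_nonpos_of_nonneg h3 (mul_nonneg (hf _ _) (hf _ _)))
          have e : frm M1 (fun _ _ => (0:ℝ)) = 0 := by unfold frm; simp
          rw [e] at h2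
          exact h2
      refine (Finset.sum_le_sum fun v hv => Finset.sum_le_sum fun v' hv' =>
        hterm v hv v' hv').trans ?_
      simp only [Finset.sum_add_distrib]
      rw [sum_minset a v0 hv0 (fun v v' => c0 * (q v * q v' * (S * (n i v * n j v'))))]
      rw [mul_add, mul_add, Finset.mul_sum, Finset.mul_sum, Finset.mul_sum]
      refine add_le_add ?_ (le_of_eq rfl)
      -- enlarge the set of letters
      have hin : ∀ v, ∑ v' ∈ range (a+1), (if min v v' = v0 then c0 * (q v * q v' * G i j v v')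
          else 0) ≤ if v0 ≤ v then c0 * ∑ v' ∈ Ico v0 (a+1), q v * q v' * G i j v v' else 0 := by
        intro v
        split_ifs with hv
        · rw [Finset.mul_sum]
          calc ∑ v' ∈ range (a+1), (if min v v' = v0 then c0 * (q v * q v' * G i j v v') else 0)
              = ∑ v' ∈ Ico v0 (a+1),
                (if min v v' = v0 then c0 * (q v * q v' * G i j v v') else 0) := by
                symm
                refine Finset.sum_subset hsub fun x hx hx' => ?_
                rw [Finset.mem_range] at hx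
                rw [Finset.mem_Ico] at hx'
                rw [if_neg]; omega
            _ ≤ _ := Finset.sum_le_sum fun v' _ => by
                split_ifs
                · exact le_rfl
                · exact mul_nonneg hc0p.le (mul_nonneg (mul_nonneg (hq0 _) (hq0 _)) (hG0 _ _ _ _))
        · refine le_of_eq (Finset.sum_eq_zero fun v' _ => ?_)
          rw [if_neg]; omega
      refine (Finset.sum_le_sum fun v _ => hin v).trans (le_of_eq ?_)
      rw [← Finset.sum_filter]
      refine Finset.sum_congr ?_ fun v _ => rfl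
      ext x
      simp only [Finset.mem_filter, Finset.mem_range, Finset.mem_Ico]
      omega
    -- assemble
    have hIH := ih (ι × ℕ) (s ×ˢ Ico v0 (a+1)) (fun x => w x.1 * q x.2)
      (fun x => X x.1 * p ^ x.2) (fun x b => f x.1 (p ^ x.2 * b))
      (fun x => mul_nonneg (hw _) (hq0 _))
      (by
        rw [Finset.sum_product]
        simp only
        calc ∑ i ∈ s, ∑ v ∈ Ico v0 (a+1), w i * q v = ∑ i ∈ s, w i * 1 := by
              refine Finset.sum_congr rfl fun i _ => ?_
              rw [← Finset.mul_sum, hqtot]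
          _ ≤ 1 := by simpa using hw1)
      (fun x b => hf _ _)
    have hEV1 : EV M1 K1 (s ×ˢ Ico v0 (a+1)) (fun x => w x.1 * q x.2)
        (fun x => X x.1 * p ^ x.2) (fun x b => f x.1 (p ^ x.2 * b)) =
        ∑ i ∈ s, ∑ j ∈ s, w i * w j *
          ∑ v ∈ Ico v0 (a+1), ∑ v' ∈ Ico v0 (a+1), q v * q v' * G i j v v' := by
      unfold EV
      simp only [Finset.sum_product]
      refine Finset.sum_congr rfl fun i _ => ?_
      rw [Finset.sum_comm]
      refine Finset.sum_congr rfl fun j _ => ?_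
      rw [Finset.mul_sum]
      refine Finset.sum_congr rfl fun v _ => ?_
      rw [Finset.mul_sum]
      refine Finset.sum_congr rfl fun v' _ => ?_
      simp only [hG]
      ring
    rw [hEV1] at hIH
    simp only [Finset.sum_product] at hIH
    calc EV (p ^ a * M1) K s w X f
        ≤ ∑ i ∈ s, ∑ j ∈ s, w i * w j *
          (c0 * ((∑ v ∈ Ico v0 (a+1), ∑ v' ∈ Ico v0 (a+1), q v * q v' * G i j v v') +
          (∑ v ∈ Ico (v0+1) (a+1), q v0 * q v * (S * (n i v0 * n j v)) +
           ∑ v ∈ Ico (v0+1) (a+1), q v * q v0 * (S * (n i v * n j v0))))) := by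
          unfold EV
          exact Finset.sum_le_sum fun i _ => Finset.sum_le_sum fun j _ =>
            mul_le_mul_of_nonneg_left (hij i j) (mul_nonneg (hw i) (hw j))
      _ = c0 * ((∑ i ∈ s, ∑ j ∈ s, w i * w j *
          ∑ v ∈ Ico v0 (a+1), ∑ v' ∈ Ico v0 (a+1), q v * q v' * G i j v v') +
          2 * S * ((∑ i ∈ s, w i * (q v0 * n i v0)) *
          (∑ i ∈ s, w i * ∑ v ∈ Ico (v0+1) (a+1), q v * n i v))) := by
          have e1 : ∀ i j, ∑ v ∈ Ico (v0+1) (a+1), q v0 * q v * (S * (n i v0 * n j v)) =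
              S * ((q v0 * n i v0) * ∑ v ∈ Ico (v0+1) (a+1), q v * n j v) := by
            intro i j
            rw [Finset.mul_sum, Finset.mul_sum]
            refine Finset.sum_congr rfl fun v _ => by ring
          have e2 : ∀ i j, ∑ v ∈ Ico (v0+1) (a+1), q v * q v0 * (S * (n i v * n j v0)) =
              S * ((∑ v ∈ Ico (v0+1) (a+1), q v * n i v) * (q v0 * n j v0)) := by
            intro i j
            rw [Finset.sum_mul, Finset.mul_sum]
            refine Finset.sum_congr rfl fun v _ => by ring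
          simp only [e1, e2]
          set A : ι → ℝ := fun i => q v0 * n i v0 with hA
          set Bt : ι → ℝ := fun i => ∑ v ∈ Ico (v0+1) (a+1), q v * n i v with hBt
          have e3 : 2 * S * ((∑ i ∈ s, w i * A i) * (∑ i ∈ s, w i * Bt i)) =
              ∑ i ∈ s, ∑ j ∈ s, w i * w j * (S * (A i * Bt j) + S * (Bt i * A j)) := by
            have e4 : (∑ i ∈ s, w i * A i) * (∑ i ∈ s, w i * Bt i) =
                ∑ i ∈ s, ∑ j ∈ s, w i * w j * (A i * Bt j) := by
              rw [Finset.sum_mul_sum]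
              refine Finset.sum_congr rfl fun i _ => Finset.sum_congr rfl fun j _ => by ring
            have e5 : (∑ i ∈ s, w i * A i) * (∑ i ∈ s, w i * Bt i) =
                ∑ i ∈ s, ∑ j ∈ s, w i * w j * (Bt i * A j) := by
              rw [mul_comm, Finset.sum_mul_sum]
              refine Finset.sum_congr rfl fun i _ => Finset.sum_congr rfl fun j _ => by ring
            calc 2 * S * ((∑ i ∈ s, w i * A i) * (∑ i ∈ s, w i * Bt i))
                = S * ((∑ i ∈ s, w i * A i) * (∑ i ∈ s, w i * Bt i)) +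
                  S * ((∑ i ∈ s, w i * A i) * (∑ i ∈ s, w i * Bt i)) := by ring
              _ = S * (∑ i ∈ s, ∑ j ∈ s, w i * w j * (A i * Bt j)) +
                  S * (∑ i ∈ s, ∑ j ∈ s, w i * w j * (Bt i * A j)) := by rw [← e4, ← e5]
              _ = _ := by
                simp only [Finset.mul_sum]
                rw [← Finset.sum_add_distrib]
                refine Finset.sum_congr rfl fun i _ => ?_
                rw [← Finset.sum_add_distrib]
                refine Finset.sum_congr rfl fun j _ => by ring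
          rw [e3, ← Finset.sum_add_distrib, Finset.mul_sum]
          refine Finset.sum_congr rfl fun i _ => ?_
          rw [← Finset.sum_add_distrib, Finset.mul_sum]
          refine Finset.sum_congr rfl fun j _ => by ring
      _ ≤ _ := by
          refine mul_le_mul_of_nonneg_left ?_ hc0p.le
          exact add_le_add hIH le_rfl

/-- the convenient form -/
theorem vec_energy' {S : ℝ} (hS : 0 ≤ S) {M : ℕ} {K : ℕ → ℕ → ℕ → ℕ → ℝ} (hR : VRel S M K)
    (f : ℕ → ℝ) (hf : ∀ b, 0 ≤ f b) :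
    frm M (fun b c => K 1 1 b c * (f b * f c)) ≤ 12 * S * ∑ b ∈ M.divisors, nu M b * f b ^ 2 := by
  have h := vec_energy hS hR Unit univ (fun _ => 1) (fun _ => 1) (fun _ => f) (fun _ => zero_le_one)
    (by simp) (fun _ b => hf b)
  unfold EV at h
  simp only [Finset.univ_unique, Finset.sum_singleton, one_mul] at h
  refine h.trans ?_
  rw [nrm_sq, ← n2_add_lin]
  have h1 := n2_nonneg M f
  nlinarith [mul_nonneg hS h1]

/-! ### low kernels from words -/

/-- the kernel of one coprime word `(u,v)`: `b = n u`, `c = n v` -/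
def wordRel (u v b c : ℕ) : Prop := ∃ n, b = n * u ∧ c = n * v

open Classical in
lemma lowK_word {M u v : ℕ} (hu : 0 < u) (hv : 0 < v) (huv : Nat.Coprime u v) :
    LowK (1 / Real.sqrt (u * v)) M (fun b c => if wordRel u v b c then 1 else 0) := by
  intro f g hf hg
  have huR : (0:ℝ) < u := by exact_mod_cast hu
  have hvR : (0:ℝ) < v := by exact_mod_cast hv
  rcases Nat.eq_zero_or_pos M with hM0 | hM0
  · subst hM0
    unfold frm
    simp only [Nat.divisors_zero, Finset.sum_empty]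
    exact mul_nonneg (by positivity) (mul_nonneg (nrm_nonneg _ _) (nrm_nonneg _ _))
  -- pointwise: the row of `b` has at most one `c`
  set A : ℕ → ℝ := fun b => Real.sqrt (nu M b * ((b:ℝ) * nu M b)) * f b with hA
  set B : ℕ → ℝ := fun c => Real.sqrt (nu M c * ((c:ℝ) * nu M c)) * g c with hB
  have hA0 : ∀ b, 0 ≤ A b := fun b => mul_nonneg (Real.sqrt_nonneg _) (hf b)
  have hB0 : ∀ b, 0 ≤ B b := fun b => mul_nonneg (Real.sqrt_nonneg _) (hg b)
  have hAsq : ∀ b, A b ^ 2 = nu M b * ((b:ℝ) * nu M b) * f b ^ 2 := fun b => by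
    simp only [hA]; rw [mul_pow, Real.sq_sqrt (mul_nonneg (nu_nonneg _ _) (V_nonneg _ _))]
  have hBsq : ∀ b, B b ^ 2 = nu M b * ((b:ℝ) * nu M b) * g b ^ 2 := fun b => by
    simp only [hB]; rw [mul_pow, Real.sq_sqrt (mul_nonneg (nu_nonneg _ _) (V_nonneg _ _))]
  have key : ∀ b ∈ M.divisors, ∀ c ∈ M.divisors,
      (Nat.gcd b c : ℝ) * nu M b * nu M c * ((if wordRel u v b c then (1:ℝ) else 0) *
        (f b * g c)) = (1 / Real.sqrt (u * v)) * (if wordRel u v b c then A b * B c else 0) := by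
    intro b hb c hc
    split_ifs with h
    · obtain ⟨n, rfl, rfl⟩ := h
      have hn : 0 < n := by
        rw [Nat.mem_divisors] at hb
        rcases Nat.eq_zero_or_pos n with h0 | h0
        · exfalso; rw [h0, zero_mul] at hb
          exact hb.2 (Nat.eq_zero_of_zero_dvd hb.1)
        · exact h0
      have hnR : (0:ℝ) < n := by exact_mod_cast hn
      rw [Nat.gcd_mul_left, huv.gcd_eq_one, mul_one, one_mul]
      simp only [hA, hB]
      have e1 : Real.sqrt (nu M (n*u) * (((n*u : ℕ):ℝ) * nu M (n*u))) =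
          nu M (n*u) * Real.sqrt (n * u) := by
        have : nu M (n*u) * (((n*u : ℕ):ℝ) * nu M (n*u)) = (nu M (n*u))^2 * ((n:ℝ) * u) := by
          push_cast; ring
        rw [this, Real.sqrt_mul (sq_nonneg _), Real.sqrt_sq (nu_nonneg _ _)]
      have e2 : Real.sqrt (nu M (n*v) * (((n*v : ℕ):ℝ) * nu M (n*v))) =
          nu M (n*v) * Real.sqrt (n * v) := by
        have : nu M (n*v) * (((n*v : ℕ):ℝ) * nu M (n*v)) = (nu M (n*v))^2 * ((n:ℝ) * v) := by
          push_cast; ring
        rw [this, Real.sqrt_mul (sq_nonneg _), Real.sqrt_sq (nu_nonneg _ _)]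
      rw [e1, e2]
      have e3 : Real.sqrt ((n:ℝ) * u) * Real.sqrt ((n:ℝ) * v) = n * Real.sqrt (u * v) := by
        rw [← Real.sqrt_mul (by positivity)]
        have : (n:ℝ) * u * (n * v) = n^2 * (u * v) := by ring
        rw [this, Real.sqrt_mul (by positivity), Real.sqrt_sq hnR.le]
      have hs : Real.sqrt ((u:ℝ) * v) ≠ 0 := (Real.sqrt_pos.2 (by positivity)).ne'
      calc (n:ℝ) * nu M (n*u) * nu M (n*v) * (f (n*u) * g (n*v))
          = (1 / Real.sqrt (u*v)) * (nu M (n*u) * nu M (n*v) * (f (n*u) * g (n*v)) *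
            (n * Real.sqrt (u*v))) := by field_simp
        _ = _ := by rw [← e3]; ring
    · ring
  have hrow : ∀ b c c', wordRel u v b c → wordRel u v b c' → c = c' := by
    rintro b c c' ⟨n, rfl, rfl⟩ ⟨m, hm, rfl⟩
    have := Nat.eq_of_mul_eq_mul_right hu hm
    rw [this]
  have hcol : ∀ b b' c, wordRel u v b c → wordRel u v b' c → b = b' := by
    rintro b b' c ⟨n, rfl, rfl⟩ ⟨m, rfl, hm⟩
    have := Nat.eq_of_mul_eq_mul_right hv hm
    rw [this]
  have hrowsum : ∑ b ∈ M.divisors, ∑ c ∈ M.divisors, (if wordRel u v b c then A b ^ 2 else 0) ≤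
      n2 M f := by
    unfold n2
    refine Finset.sum_le_sum fun b _ => ?_
    rw [← hAsq b, ← Finset.sum_filter, Finset.sum_const, nsmul_eq_mul]
    have hc1 : (M.divisors.filter (fun c => wordRel u v b c)).card ≤ 1 :=
      Finset.card_le_one.2 fun x hx y hy => by
        rw [Finset.mem_filter] at hx hy
        exact hrow b x y hx.2 hy.2
    have : ((M.divisors.filter (fun c => wordRel u v b c)).card : ℝ) ≤ 1 := by exact_mod_cast hc1
    nlinarith [sq_nonneg (A b)]
  have hcolsum : ∑ b ∈ M.divisors, ∑ c ∈ M.divisors, (if wordRel u v b c then B c ^ 2 else 0) ≤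
      n2 M g := by
    unfold n2
    rw [Finset.sum_comm]
    refine Finset.sum_le_sum fun c _ => ?_
    rw [← hBsq c, ← Finset.sum_filter, Finset.sum_const, nsmul_eq_mul]
    have hc1 : (M.divisors.filter (fun b => wordRel u v b c)).card ≤ 1 :=
      Finset.card_le_one.2 fun x hx y hy => by
        rw [Finset.mem_filter] at hx hy
        exact hcol x y c hx.2 hy.2
    have : ((M.divisors.filter (fun b => wordRel u v b c)).card : ℝ) ≤ 1 := by exact_mod_cast hc1
    nlinarith [sq_nonneg (B c)]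
  have hCS : ∑ b ∈ M.divisors, ∑ c ∈ M.divisors, (if wordRel u v b c then A b * B c else 0) ≤
      nrm M f * nrm M g := by
    have h1 : (∑ x ∈ M.divisors ×ˢ M.divisors, (if wordRel u v x.1 x.2 then A x.1 * B x.2 else 0))^2
        ≤ (∑ x ∈ M.divisors ×ˢ M.divisors, (if wordRel u v x.1 x.2 then A x.1 ^ 2 else 0)) *
          (∑ x ∈ M.divisors ×ˢ M.divisors, (if wordRel u v x.1 x.2 then B x.2 ^ 2 else 0)) := by
      refine Finset.sum_sq_le_sum_mul_sum_of_sq_le_mul _ (fun x _ => ?_) (fun x _ => ?_)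
        (fun x _ => ?_)
      · split_ifs <;> positivity
      · split_ifs <;> positivity
      · split_ifs
        · exact le_of_eq (by ring)
        · norm_num
    rw [Finset.sum_product, Finset.sum_product, Finset.sum_product] at h1
    simp only at h1
    have h2 : (∑ b ∈ M.divisors, ∑ c ∈ M.divisors,
        (if wordRel u v b c then A b * B c else 0))^2 ≤ (nrm M f * nrm M g)^2 := by
      rw [mul_pow, nrm_sq, nrm_sq]
      exact h1.trans (mul_le_mul hrowsum hcolsum
        (Finset.sum_nonneg fun b _ => Finset.sum_nonneg fun c _ => by split_ifs <;> positivity)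
        (n2_nonneg _ _))
    exact le_of_sq_le_sq h2 (mul_nonneg (nrm_nonneg _ _) (nrm_nonneg _ _))
  calc frm M (fun b c => (if wordRel u v b c then (1:ℝ) else 0) * (f b * g c))
      = (1 / Real.sqrt (u * v)) * ∑ b ∈ M.divisors, ∑ c ∈ M.divisors,
          (if wordRel u v b c then A b * B c else 0) := by
        unfold frm
        rw [Finset.mul_sum]
        refine Finset.sum_congr rfl fun b hb => ?_
        rw [Finset.mul_sum]
        refine Finset.sum_congr rfl fun c hc => ?_
        exact key b hb c hc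
    _ ≤ _ := mul_le_mul_of_nonneg_left hCS (by positivity)

lemma lowK_mono {S S' : ℝ} {M : ℕ} {Θ Θ' : ℕ → ℕ → ℝ} (h : LowK S M Θ) (hS : S ≤ S')
    (hle : ∀ b c, b ∣ M → c ∣ M → Θ' b c ≤ Θ b c) : LowK S' M Θ' := by
  intro f g hf hg
  calc frm M (fun b c => Θ' b c * (f b * g c)) ≤ frm M (fun b c => Θ b c * (f b * g c)) :=
        frm_mono fun b c hb hc => mul_le_mul_of_nonneg_right (hle b c hb hc)
          (mul_nonneg (hf _) (hg _))
    _ ≤ S * (nrm M f * nrm M g) := h f g hf hg
    _ ≤ S' * (nrm M f * nrm M g) :=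
        mul_le_mul_of_nonneg_right hS (mul_nonneg (nrm_nonneg _ _) (nrm_nonneg _ _))

lemma lowK_sum {κ : Type} (t : Finset κ) {S : κ → ℝ} {M : ℕ} {Θ : κ → ℕ → ℕ → ℝ}
    (h : ∀ i ∈ t, LowK (S i) M (Θ i)) : LowK (∑ i ∈ t, S i) M (fun b c => ∑ i ∈ t, Θ i b c) := by
  classical
  induction t using Finset.induction_on with
  | empty =>
    intro f g _ _
    simp only [Finset.sum_empty, zero_mul]
    have e : frm M (fun _ _ => (0:ℝ)) = 0 := by unfold frm; simp
    rw [e]
  | @insert i t hi ih =>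
    intro f g hf hg
    have h1 := h i (Finset.mem_insert_self _ _) f g hf hg
    have h2 := ih (fun j hj => h j (Finset.mem_insert_of_mem hj)) f g hf hg
    have e : (fun b c => (∑ j ∈ insert i t, Θ j b c) * (f b * g c)) =
        fun b c => Θ i b c * (f b * g c) + (∑ j ∈ t, Θ j b c) * (f b * g c) := by
      funext b c
      rw [Finset.sum_insert hi, add_mul]
    rw [e, frm_add, Finset.sum_insert hi, add_mul]
    exact add_le_add h1 h2

open Classical in
/-- a finite set of coprime words -/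
lemma lowK_words {M : ℕ} (W : Finset (ℕ × ℕ)) (hW : ∀ w ∈ W, 0 < w.1 ∧ 0 < w.2 ∧ Nat.Coprime w.1 w.2)
    {S : ℝ} (hS : ∑ w ∈ W, 1 / Real.sqrt (w.1 * w.2) ≤ S) :
    LowK S M (fun b c => if ∃ w ∈ W, wordRel w.1 w.2 b c then 1 else 0) := by
  have h1 : LowK (∑ w ∈ W, 1 / Real.sqrt (w.1 * w.2)) M
      (fun b c => ∑ w ∈ W, (if wordRel w.1 w.2 b c then (1:ℝ) else 0)) :=
    lowK_sum W fun w hw => lowK_word (hW w hw).1 (hW w hw).2.1 (hW w hw).2.2
  refine lowK_mono h1 hS fun b c _ _ => ?_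
  split_ifs with h
  · obtain ⟨w, hw, hr⟩ := h
    calc (1:ℝ) = if wordRel w.1 w.2 b c then (1:ℝ) else 0 := by rw [if_pos hr]
      _ ≤ _ := Finset.single_le_sum (f := fun w => if wordRel w.1 w.2 b c then (1:ℝ) else 0)
          (fun _ _ => by positivity) hw
  · exact Finset.sum_nonneg fun _ _ => by positivity

end Crest.Agent.R4C.PureVecx284
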