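import Crest.Agent.R4C.PureL2c_232
import Crest.Agent.R4C.Ky_952

/-!
# Row 4: the pure part of Theorem C with a multiplicative pair weight (helper952)

`wt e b c = ∏_{p ∣ s s'} e p`  (`s = b/gcd`, `s' = c/gcd`), `e p ≥ 1`.
For every pure relation (any adaptive tree, any centres) and every `f ≥ 0`

`Σ_{R b c} gcd ν ν (∏_{p ∣ s s'} e p) f f ≤ ∏_{p ∣ M} (1 + 2 (e p - 1)/√p + (e p ² - 1)/p) · Σ ν f² (4 - 3V)`.

* `pure_B1` : `e p = (1 - 1/p)⁻¹` (Pollington-Vaughan factor): absolute constant.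
* `pure_Ky` : the pairs of `K_y` cost at most `4 e^{-Ay} Σ ν f²`.
-/

set_option autoImplicit false
set_option linter.unusedVariables false

open Finset
open Crest.Agent.R4C.Basex935 Crest.Agent.R4C.PureL2x232 Crest.Agent.R4C.Kyx952

namespace Crest.Agent.R4C.PureWx952

/-- the pair weight `∏_{p ∣ s s'} e p` -/
noncomputable def wt (e : ℕ → ℝ) (b c : ℕ) : ℝ := ∏ p ∈ (cof b c).primeFactors, e p

lemma wt_self (e : ℕ → ℝ) {b : ℕ} (hb : b ≠ 0) : wt e b b = 1 := by
  unfold wt cof
  rw [Nat.gcd_self, Nat.div_self (Nat.pos_of_ne_zero hb)]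
  simp

lemma one_le_wt {e : ℕ → ℝ} (he : ∀ p, 1 ≤ e p) (b c : ℕ) : 1 ≤ wt e b c := by
  unfold wt
  calc (1 : ℝ) = ∏ p ∈ (cof b c).primeFactors, (1 : ℝ) := by simp
    _ ≤ _ := prod_le_prod (fun _ _ => zero_le_one) fun p _ => he p

lemma wt_split (e : ℕ → ℝ) {p : ℕ} (hp : p.Prime) {b c : ℕ} (hb : ¬ p ∣ b) (hc : ¬ p ∣ c)
    (v v' : ℕ) : wt e (p ^ v * b) (p ^ v' * c) = (if v = v' then 1 else e p) * wt e b c := by
  have hb0 : b ≠ 0 := fun h => hb (h ▸ dvd_zero p)
  have hc0 : c ≠ 0 := fun h => hc (h ▸ dvd_zero p)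
  have hpb : p ^ v * b ≠ 0 := mul_ne_zero (pow_ne_zero _ hp.ne_zero) hb0
  have hpc : p ^ v' * c ≠ 0 := mul_ne_zero (pow_ne_zero _ hp.ne_zero) hc0
  have hpn : p ∉ (cof b c).primeFactors := by
    rw [mem_cof hb0 hc0, Nat.factorization_eq_zero_of_not_dvd hb,
      Nat.factorization_eq_zero_of_not_dvd hc]
    simp
  unfold wt
  by_cases hv : v = v'
  · rw [if_pos hv, one_mul]
    refine prod_congr ?_ fun _ _ => rfl
    ext r
    rw [mem_cof hpb hpc, mem_cof hb0 hc0]
    by_cases hr : r = p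
    · subst hr
      rw [PrefixMx882.fact_split_self hp v hb, PrefixMx882.fact_split_self hp v' hc,
        Nat.factorization_eq_zero_of_not_dvd hb, Nat.factorization_eq_zero_of_not_dvd hc, hv]
      simp
    · rw [PrefixMx882.fact_split_ne hp hr v hb0, PrefixMx882.fact_split_ne hp hr v' hc0]
  · rw [if_neg hv, ← prod_insert hpn]
    refine prod_congr ?_ fun _ _ => rfl
    ext r
    rw [mem_insert, mem_cof hpb hpc, mem_cof hb0 hc0]
    by_cases hr : r = p
    · subst hr
      rw [PrefixMx882.fact_split_self hp v hb, PrefixMx882.fact_split_self hp v' hc]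
      simp [hv]
    · rw [PrefixMx882.fact_split_ne hp hr v hb0, PrefixMx882.fact_split_ne hp hr v' hc0]
      simp [hr]

/-- the loss at one prime -/
noncomputable def kap (e : ℕ → ℝ) (p : ℕ) : ℝ :=
  1 + 2 * (e p - 1) / Real.sqrt p + (e p ^ 2 - 1) / p

lemma one_le_kap {e : ℕ → ℝ} {p : ℕ} (he : 1 ≤ e p) : 1 ≤ kap e p := by
  unfold kap
  have h1 : 0 ≤ e p - 1 := by linarith
  have h2 : 0 ≤ e p ^ 2 - 1 := by nlinarith
  have : 0 ≤ 2 * (e p - 1) / Real.sqrt p := by positivity
  have : 0 ≤ (e p ^ 2 - 1) / p := by positivity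
  linarith

/-- total loss -/
noncomputable def KP (e : ℕ → ℝ) (M : ℕ) : ℝ := ∏ p ∈ M.primeFactors, kap e p

lemma one_le_KP {e : ℕ → ℝ} (he : ∀ p, 1 ≤ e p) (M : ℕ) : 1 ≤ KP e M := by
  unfold KP
  calc (1 : ℝ) = ∏ p ∈ M.primeFactors, (1 : ℝ) := by simp
    _ ≤ _ := prod_le_prod (fun _ _ => zero_le_one) fun p _ => one_le_kap (he p)

/-- loss of one constructor, `a` = number of letters above the centre -/
noncomputable def kf (e : ℕ → ℝ) (p a : ℕ) : ℝ := if a = 0 then 1 else kap e p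

lemma KP_split {e : ℕ → ℝ} (he : ∀ p, 1 ≤ e p) {p : ℕ} (hp : p.Prime) {a : ℕ} {M1 : ℕ}
    (hM : 0 < M1) (hnd : ¬ p ∣ M1) {k : ℕ} (hk : k ≤ a) :
    KP e M1 * kf e p k ≤ KP e (p ^ a * M1) := by
  have hpn : p ∉ M1.primeFactors := fun h => hnd (Nat.dvd_of_mem_primeFactors h)
  have h1 := one_le_KP he M1
  rcases Nat.eq_zero_or_pos a with ha | ha
  · subst ha
    have : k = 0 := by omega
    subst this
    unfold kf
    rw [if_pos rfl, mul_one, pow_zero, one_mul]
  · unfold KP at h1 ⊢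
    rw [PrefixMx882.primeFactors_split hp ha hM, prod_insert hpn, mul_comm]
    refine mul_le_mul_of_nonneg_right ?_ (by linarith)
    unfold kf
    split_ifs
    · exact one_le_kap (he p)
    · exact le_rfl

/-- the weighted one-prime inequality -/
lemma one_primeW {w V f0 h S e : ℝ} (hw0 : 0 < w) (hw1 : w ≤ 1) (hV0 : 0 ≤ V) (hV1 : V ≤ 1)
    (hf0 : 0 ≤ f0) (hh : 0 ≤ h) (he : 1 ≤ e) (hS : h ^ 2 ≤ w * S) :
    2 * ((1 - w) * f0) * (e * h) * V + ((1 - w) * f0 + e * h) ^ 2 * (4 - 3 * V) ≤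
      (1 + 2 * (e - 1) * Real.sqrt w + (e ^ 2 - 1) * w) *
        ((1 - w) * f0 ^ 2 * (4 - 3 * ((1 - w) * V)) + S * (4 - 3 * V)) := by
  have h1 := one_prime (f0 := f0) hw0 hw1 hV0 hV1 hS
  have hS0 : 0 ≤ S := by
    by_contra hc
    push Not at hc
    have : w * S < 0 := mul_neg_of_pos_of_neg hw0 hc
    nlinarith [sq_nonneg h]
  set D := 4 - 3 * V with hD
  have hD1 : 1 ≤ D := by rw [hD]; linarith
  have hDV : V ≤ D := by linarith
  set A := (1 - w) * f0 ^ 2 with hA
  have hw1' : 0 ≤ 1 - w := by linarith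
  have hA0 : 0 ≤ A := by positivity
  set r := Real.sqrt w with hr
  have hr0 : 0 ≤ r := Real.sqrt_nonneg _
  have hrr : r * r = w := Real.mul_self_sqrt hw0.le
  -- 2 (1-w) f0 h ≤ r (A + S)
  have h2 : 2 * ((1 - w) * f0 * h) ≤ r * (A + S) := by
    have h3 : (2 * ((1 - w) * f0 * h)) ^ 2 ≤ (r * (A + S)) ^ 2 := by
      have e1 : (2 * ((1 - w) * f0 * h)) ^ 2 = 4 * (1 - w) * A * h ^ 2 := by rw [hA]; ring
      have e2 : (r * (A + S)) ^ 2 = w * (A + S) ^ 2 := by rw [mul_pow, sq r, hrr]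
      rw [e1, e2]
      have h4 : 4 * (1 - w) * A * h ^ 2 ≤ 4 * (1 - w) * A * (w * S) :=
        mul_le_mul_of_nonneg_left hS (by positivity)
      have h5 : 4 * (1 - w) * A * (w * S) ≤ 4 * 1 * A * (w * S) := by
        have : 0 ≤ A * (w * S) := by positivity
        nlinarith
      have h6 : 4 * 1 * A * (w * S) ≤ w * (A + S) ^ 2 := by
        have : 0 ≤ w * (A - S) ^ 2 := by positivity
        nlinarith
      linarith
    exact le_trans (le_abs_self _) (abs_le_of_sq_le_sq h3 (by positivity))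
  set RHS := A * (4 - 3 * ((1 - w) * V)) + S * D with hRHS
  have h7 : D * (A + S) ≤ RHS := by
    have : D ≤ 4 - 3 * ((1 - w) * V) := by
      rw [hD]
      nlinarith [mul_nonneg hw0.le hV0]
    rw [hRHS]
    nlinarith [mul_le_mul_of_nonneg_left this hA0]
  have he1 : 0 ≤ e - 1 := by linarith
  have he2 : 0 ≤ e ^ 2 - 1 := by nlinarith
  have e1 : 2 * ((1 - w) * f0) * (e * h) * V + ((1 - w) * f0 + e * h) ^ 2 * D =
      (2 * ((1 - w) * f0) * h * V + ((1 - w) * f0 + h) ^ 2 * D) +
        (e - 1) * (2 * ((1 - w) * f0 * h)) * (V + D) + (e ^ 2 - 1) * (h ^ 2 * D) := by ring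
  rw [e1]
  have h8 : (e - 1) * (2 * ((1 - w) * f0 * h)) * (V + D) ≤ (e - 1) * (r * (A + S)) * (2 * D) := by
    refine mul_le_mul (mul_le_mul_of_nonneg_left h2 he1) (by linarith) (by linarith) ?_
    exact mul_nonneg he1 (mul_nonneg hr0 (by linarith))
  have h9 : (e - 1) * (r * (A + S)) * (2 * D) ≤ 2 * (e - 1) * r * RHS := by
    have : (e - 1) * (r * (A + S)) * (2 * D) = 2 * (e - 1) * r * (D * (A + S)) := by ring
    rw [this]
    exact mul_le_mul_of_nonneg_left h7 (by positivity)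
  have h10 : (e ^ 2 - 1) * (h ^ 2 * D) ≤ (e ^ 2 - 1) * w * RHS := by
    have h11 : h ^ 2 * D ≤ w * RHS := by
      calc h ^ 2 * D ≤ w * S * D := mul_le_mul_of_nonneg_right hS (by linarith)
        _ = w * (D * S) := by ring
        _ ≤ w * RHS := by
            refine mul_le_mul_of_nonneg_left ?_ hw0.le
            have : 0 ≤ D * A := mul_nonneg (by linarith) hA0
            nlinarith
    calc (e ^ 2 - 1) * (h ^ 2 * D) ≤ (e ^ 2 - 1) * (w * RHS) := mul_le_mul_of_nonneg_left h11 he2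
      _ = _ := by ring
  have e2 : (1 + 2 * (e - 1) * r + (e ^ 2 - 1) * w) * RHS =
      RHS + 2 * (e - 1) * r * RHS + (e ^ 2 - 1) * w * RHS := by ring
  rw [e2]
  have h12 : 2 * ((1 - w) * f0) * h * V + ((1 - w) * f0 + h) ^ 2 * D ≤ RHS := h1
  linarith

lemma frm_avgK {M1 : ℕ} (s : Finset ℕ) (w : ℕ → ℝ) (g : ℕ → ℕ → ℝ) (K : ℕ → ℕ → ℝ) :
    ∑ v ∈ s, ∑ v' ∈ s, w v * w v' * frm M1 (fun b c => K b c * (g v b * g v' c)) =
    frm M1 (fun b c => K b c * ((∑ v ∈ s, w v * g v b) * (∑ v' ∈ s, w v' * g v' c))) := by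
  have e : (fun b c => K b c * ((∑ v ∈ s, w v * g v b) * (∑ v' ∈ s, w v' * g v' c)))
      = fun b c => ∑ v ∈ s, (fun b c => ∑ v' ∈ s, (fun b c => (w v * w v') *
        (K b c * (g v b * g v' c))) b c) b c := by
    funext b c
    dsimp only
    rw [Finset.sum_mul_sum, mul_sum]
    refine Finset.sum_congr rfl fun v _ => ?_
    rw [mul_sum]
    refine Finset.sum_congr rfl fun v' _ => by ring
  rw [e]
  rw [frm_sum s (fun v b c => ∑ v' ∈ s, (w v * w v') * (K b c * (g v b * g v' c)))]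
  refine Finset.sum_congr rfl fun v _ => ?_
  rw [frm_sum s (fun v' b c => (w v * w v') * (K b c * (g v b * g v' c)))]
  refine Finset.sum_congr rfl fun v' _ => ?_
  rw [frm_smul]

open Classical in
/-- the one-prime step at a passive prime, weighted -/
lemma free_coreW {p : ℕ} (hp : p.Prime) (a : ℕ) {M1 : ℕ} {e : ℕ → ℝ} (he : 1 ≤ e p)
    {K : ℕ → ℕ → ℝ} {K1 : ℝ} (hK1 : 1 ≤ K1)
    (ih : ∀ f : ℕ → ℝ, (∀ b, 0 ≤ f b) →
      frm M1 (fun b c => K b c * (f b * f c)) ≤
        K1 * ∑ b ∈ M1.divisors, nu M1 b * (f b ^ 2 * (4 - 3 * ((b:ℝ) * nu M1 b))))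
    (F : ℕ → ℕ → ℝ) (hF : ∀ v b, 0 ≤ F v b) (G : ℕ → ℕ → ℝ)
    (hG : ∀ v b, G v b = (if v = 0 then 1 else e p) * F v b) :
    (∑ v ∈ range (a + 1), ∑ v' ∈ range (a + 1), (nup p a v * nup p a v' *
            frm M1 (fun b c => K b c * (G v b * G v' c))
            + (if v ≠ v' ∧ min v v' = 0 then nup p a v * nup p a v' * frm M1 (fun b c =>
              if b = c then G v b * G v' c else 0) else 0))) ≤
    K1 * kf e p a * ∑ v ∈ range (a + 1), ∑ b ∈ M1.divisors, nup p a v * nu M1 b * (F v b ^ 2 *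
          (4 - 3 * ((p:ℝ)^v * nup p a v * ((b:ℝ) * nu M1 b)))) := by
  have hnn : ∀ v, 0 ≤ nup p a v := fun v => nup_nonneg hp.pos a v
  have hG0 : ∀ v b, 0 ≤ G v b := fun v b => by
    rw [hG]
    refine mul_nonneg ?_ (hF v b)
    split_ifs <;> linarith
  set fb : ℕ → ℝ := fun b => ∑ v ∈ range (a + 1), nup p a v * G v b with hfb
  have hfb0 : ∀ b, 0 ≤ fb b := fun b => Finset.sum_nonneg fun v _ => mul_nonneg (hnn v) (hG0 _ _)
  have hsplit : (∑ v ∈ range (a + 1), ∑ v' ∈ range (a + 1), (nup p a v * nup p a v' *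
            frm M1 (fun b c => K b c * (G v b * G v' c))
            + (if v ≠ v' ∧ min v v' = 0 then nup p a v * nup p a v' * frm M1 (fun b c =>
              if b = c then G v b * G v' c else 0) else 0))) =
      frm M1 (fun b c => K b c * (fb b * fb c)) +
      ∑ b ∈ M1.divisors, nu M1 b * ((b:ℝ) * nu M1 b) *
        (2 * (nup p a 0 * G 0 b) * ∑ v ∈ Finset.Ico 1 (a+1), nup p a v * G v b) := by
    simp only [Finset.sum_add_distrib]
    congr 1
    · exact frm_avgK (range (a+1)) (nup p a) G K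
    · rw [sum_offdiag a (fun v v' => nup p a v * nup p a v' * frm M1 (fun b c =>
            if b = c then G v b * G v' c else 0))]
      simp only [frm_diag (fun b c => G _ b * G _ c), Finset.mul_sum]
      rw [Finset.sum_comm, Finset.sum_comm (s := Finset.Ico 1 (a+1)), ← Finset.sum_add_distrib]
      refine Finset.sum_congr rfl fun b _ => ?_
      rw [← Finset.sum_add_distrib]
      refine Finset.sum_congr rfl fun v _ => by ring
  have ih1 := ih fb hfb0
  rw [hsplit]
  refine (add_le_add_left ih1 _).trans ?_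
  -- the diagonal term is multiplied by `K1 ≥ 1` as well
  have hdiag0 : 0 ≤ ∑ b ∈ M1.divisors, nu M1 b * ((b:ℝ) * nu M1 b) *
        (2 * (nup p a 0 * G 0 b) * ∑ v ∈ Finset.Ico 1 (a+1), nup p a v * G v b) := by
    refine Finset.sum_nonneg fun b _ => ?_
    refine mul_nonneg (mul_nonneg (nu_nonneg _ _) (V_nonneg _ _)) (mul_nonneg ?_ ?_)
    · exact mul_nonneg (by norm_num) (mul_nonneg (hnn 0) (hG0 _ _))
    · exact Finset.sum_nonneg fun v _ => mul_nonneg (hnn v) (hG0 _ _)
  refine (add_le_add_right (le_mul_of_one_le_left hdiag0 hK1) _).trans ?_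
  rw [← mul_add, mul_assoc K1 (kf e p a)]
  refine mul_le_mul_of_nonneg_left ?_ (by linarith)
  rw [Finset.sum_comm (s := range (a + 1)) (t := M1.divisors), ← Finset.sum_add_distrib, mul_sum]
  refine Finset.sum_le_sum fun b hb => ?_
  rw [Nat.mem_divisors] at hb
  have hνb := nu_nonneg M1 b
  have hV1 := V_le hb.1
  have hV0 := V_nonneg M1 b
  set V := (b:ℝ) * nu M1 b with hV
  have hr : range (a+1) = insert 0 (Finset.Ico 1 (a+1)) := by
    ext x; simp only [Finset.mem_range, Finset.mem_insert, Finset.mem_Ico]; omega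
  have h0 : (0:ℕ) ∉ Finset.Ico 1 (a+1) := by simp
  set H := ∑ v ∈ Finset.Ico 1 (a+1), nup p a v * F v b with hH
  set S := ∑ v ∈ Finset.Ico 1 (a+1), nup p a v * F v b^2 with hS
  set w := ∑ v ∈ Finset.Ico 1 (a+1), nup p a v with hw
  have hH0 : 0 ≤ H := Finset.sum_nonneg fun v _ => mul_nonneg (hnn v) (hF _ _)
  have hS0 : 0 ≤ S := Finset.sum_nonneg fun v _ => mul_nonneg (hnn v) (sq_nonneg _)
  have hHG : ∑ v ∈ Finset.Ico 1 (a+1), nup p a v * G v b = e p * H := by
    rw [hH, mul_sum]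
    refine Finset.sum_congr rfl fun v hv => ?_
    rw [Finset.mem_Ico] at hv
    rw [hG, if_neg (by omega)]
    ring
  have hG00 : G 0 b = F 0 b := by rw [hG, if_pos rfl, one_mul]
  have hfbb : fb b = nup p a 0 * F 0 b + e p * H := by
    simp only [hfb]; rw [hr, Finset.sum_insert h0, hHG, hG00]
  have hw1 : nup p a 0 + w = 1 := by
    have := sum_nup hp a
    rw [hr, Finset.sum_insert h0] at this
    exact this
  have hw0 : 0 ≤ w := Finset.sum_nonneg fun v _ => hnn v
  have hCS : H^2 ≤ w * S := by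
    refine Finset.sum_sq_le_sum_mul_sum_of_sq_le_mul (Finset.Ico 1 (a+1))
      (f := fun v => nup p a v) (g := fun v => nup p a v * F v b^2)
      (r := fun v => nup p a v * F v b) (fun v _ => hnn v)
      (fun v _ => mul_nonneg (hnn v) (sq_nonneg _)) (fun v _ => le_of_eq (by ring))
  -- the right side
  have hrhs : nu M1 b * ((1 - w) * F 0 b^2 * (4 - 3 * ((1 - w) * V)) + S * (4 - 3*V)) ≤
      ∑ v ∈ range (a + 1), nup p a v * nu M1 b * (F v b ^ 2 *
        (4 - 3 * ((p:ℝ)^v * nup p a v * V))) := by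
    rw [hr, Finset.sum_insert h0, mul_add]
    refine add_le_add (le_of_eq ?_) ?_
    · have e0 : nup p a 0 = 1 - w := by linarith
      rw [e0]; ring
    · rw [hS, Finset.sum_mul, Finset.mul_sum]
      refine Finset.sum_le_sum fun v hv => ?_
      rw [Finset.mem_Ico] at hv
      have hva : v ≤ a := by omega
      have hθ := theta_le hp a v hva
      have e2 : nup p a v * nu M1 b * (F v b ^ 2 *
          (4 - 3 * ((p:ℝ) ^ v * nup p a v * V)))
          = (nup p a v * nu M1 b * F v b ^ 2) *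
            (4 - 3 * (((p:ℝ)^v * nup p a v) * V)) := by ring
      have e1 : nu M1 b * (nup p a v * F v b ^ 2 * (4 - 3 * V))
          = (nup p a v * nu M1 b * F v b ^ 2) * (4 - 3 * V) := by ring
      rw [e1, e2]
      refine mul_le_mul_of_nonneg_left ?_ (mul_nonneg (mul_nonneg (hnn v) hνb) (sq_nonneg _))
      nlinarith
  have hkf : 1 ≤ kf e p a := by
    unfold kf
    split_ifs
    · exact le_rfl
    · exact one_le_kap he
  refine le_trans ?_ (mul_le_mul_of_nonneg_left hrhs (by linarith))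
  have hlhs : nu M1 b * (fb b ^ 2 * (4 - 3 * V)) + nu M1 b * V *
      (2 * (nup p a 0 * G 0 b) * ∑ v ∈ Finset.Ico 1 (a+1), nup p a v * G v b) =
      nu M1 b * (2 * ((1 - w) * F 0 b) * (e p * H) * V +
        ((1 - w) * F 0 b + e p * H)^2 * (4 - 3*V)) := by
    rw [hfbb, hHG, hG00, show nup p a 0 = 1 - w by linarith]; ring
  rw [hlhs]
  have hre : kf e p a * (nu M1 b * ((1 - w) * F 0 b^2 * (4 - 3 * ((1 - w) * V)) + S * (4 - 3*V))) =
    nu M1 b * (kf e p a * ((1 - w) * F 0 b^2 * (4 - 3 * ((1 - w) * V)) + S * (4 - 3*V))) := by ring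
  rw [hre]
  refine mul_le_mul_of_nonneg_left ?_ hνb
  rcases Nat.eq_zero_or_pos a with ha | ha
  · -- only the letter 0
    subst ha
    have hw00 : w = 0 := by simp [hw]
    have hH00 : H = 0 := by simp [hH]
    rw [hw00, hH00]
    unfold kf
    rw [if_pos rfl]
    have : 0 ≤ S * (4 - 3 * V) := mul_nonneg hS0 (by linarith)
    nlinarith
  · have hwp : w = 1 / (p : ℝ) := by
      have := PrefixMx882.nup_tail p (show 1 ≤ a from ha)
      rw [pow_one] at this
      rw [hw]
      exact this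
    have hppos : (0:ℝ) < p := by exact_mod_cast hp.pos
    have hwpos : 0 < w := by rw [hwp]; positivity
    have h1 := one_primeW (f0 := F 0 b) (e := e p) hwpos (by linarith [hnn 0]) hV0 hV1 (hF _ _)
      hH0 he hCS
    have hkk : 1 + 2 * (e p - 1) * Real.sqrt w + (e p ^ 2 - 1) * w = kf e p a := by
      unfold kf kap
      rw [if_neg ha.ne', hwp, Real.sqrt_div zero_le_one, Real.sqrt_one]
      ring
    rw [hkk] at h1
    exact h1

open Classical in
/-- **weighted pure energy**: any adaptive tree with centres, any weight `∏_{p ∣ s s'} e p`,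
any `f ≥ 0` -/
theorem pure_energyW {e : ℕ → ℝ} (he : ∀ p, 1 ≤ e p) {M : ℕ} {R : ℕ → ℕ → Prop}
    (hR : PureRelC M R) :
    ∀ f : ℕ → ℝ, (∀ b, 0 ≤ f b) →
      frm M (fun b c => (if R b c then wt e b c else 0) * (f b * f c)) ≤
        KP e M * ∑ b ∈ M.divisors, nu M b * (f b ^ 2 * (4 - 3 * ((b:ℝ) * nu M b))) := by
  have hwt : ∀ b c, 0 ≤ wt e b c := fun b c => le_trans zero_le_one (one_le_wt he b c)
  induction hR with
  | @base M R h =>
    intro f hf
    have h0 : frm M (fun b c => (if R b c then wt e b c else 0) * (f b * f c)) ≤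
        frm M (fun _ _ => 0) :=
      frm_mono (fun b c hb hc => by rw [if_neg (h b c hb hc), zero_mul])
    refine h0.trans ?_
    have e : frm M (fun _ _ => (0:ℝ)) = 0 := by unfold frm; simp
    rw [e]
    refine mul_nonneg (le_trans zero_le_one (one_le_KP he M)) (Finset.sum_nonneg fun b hb => ?_)
    rw [Nat.mem_divisors] at hb
    have h1 := V_le hb.1
    exact mul_nonneg (nu_nonneg _ _) (mul_nonneg (sq_nonneg _) (by linarith))
  | @branch p a M1 R R1 hp hM hnd h1 h ih =>
    intro f hf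
    have hKP := KP_split he hp (a := a) hM hnd (Nat.zero_le a)
    have hkf0 : kf e p 0 = 1 := by unfold kf; rw [if_pos rfl]
    rw [hkf0, mul_one] at hKP
    have hK1 := one_le_KP he M1
    have hRHS0 : 0 ≤ ∑ b ∈ (p ^ a * M1).divisors, nu (p ^ a * M1) b *
        (f b ^ 2 * (4 - 3 * ((b:ℝ) * nu (p ^ a * M1) b))) := by
      refine Finset.sum_nonneg fun b hb => ?_
      rw [Nat.mem_divisors] at hb
      have h1 := V_le hb.1
      exact mul_nonneg (nu_nonneg _ _) (mul_nonneg (sq_nonneg _) (by linarith))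
    refine le_trans ?_ (mul_le_mul_of_nonneg_right hKP hRHS0)
    rw [frm_split hp a hM hnd, sum_split hp a hM hnd, mul_sum]
    refine Finset.sum_le_sum fun v hv => ?_
    rw [Finset.mem_range] at hv
    have hva : v ≤ a := by omega
    have hcop : Nat.Coprime (p ^ a) M1 :=
      Nat.Coprime.pow_left a ((Nat.Prime.coprime_iff_not_dvd hp).2 hnd)
    -- only v' = v
    have hle : ∑ v' ∈ range (a + 1), (p : ℝ) ^ (min v v') * nup p a v * nup p a v' *
        frm M1 (fun b c => (if R (p ^ v * b) (p ^ v' * c) then wt e (p ^ v * b) (p ^ v' * c) else 0) *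
          (f (p ^ v * b) * f (p ^ v' * c)))
        ≤ (p:ℝ)^v * nup p a v * nup p a v *
          frm M1 (fun b c => (if R1 v b c then wt e b c else 0) *
            (f (p ^ v * b) * f (p ^ v * c))) := by
      rw [← Finset.sum_subset (s₁ := {v})]
      · rw [Finset.sum_singleton, min_self]
        refine mul_le_mul_of_nonneg_left ?_ (mul_nonneg (mul_nonneg (by positivity)
          (nup_nonneg hp.pos _ _)) (nup_nonneg hp.pos _ _))
        refine frm_mono fun b c hb hc => ?_
        refine mul_le_mul_of_nonneg_right ?_ (mul_nonneg (hf _) (hf _))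
        have hnb : ¬ p ∣ b := fun hcon => hnd (hcon.trans hb)
        have hnc : ¬ p ∣ c := fun hcon => hnd (hcon.trans hc)
        split_ifs with h2 h3 h3
        · rw [wt_split e hp hnb hnc, if_pos rfl, one_mul]
        · exact absurd (h v v b c hva hva hb hc h2).2 h3
        · exact hwt _ _
        · exact le_rfl
      · intro x hx; rw [Finset.mem_singleton] at hx; rw [hx]; exact Finset.mem_range.2 hv
      · intro v' hv' hne
        rw [Finset.mem_range] at hv'
        rw [Finset.mem_singleton] at hne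
        have e : frm M1 (fun b c => (if R (p ^ v * b) (p ^ v' * c) then
            wt e (p ^ v * b) (p ^ v' * c) else 0) * (f (p ^ v * b) * f (p ^ v' * c))) = 0 := by
          unfold frm
          refine Finset.sum_eq_zero fun b hb => Finset.sum_eq_zero fun c hc => ?_
          rw [Nat.mem_divisors] at hb hc
          dsimp only
          rw [if_neg, zero_mul, mul_zero]
          intro h2
          exact hne (h v v' b c hva (by omega) hb.1 hc.1 h2).1.symm
        rw [e, mul_zero]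
    refine hle.trans ?_
    have ih1 := ih v hva (fun b => f (p ^ v * b)) (fun b => hf _)
    have hθ := theta_le hp a v hva
    have hn := nup_nonneg hp.pos a v
    have hθ0 : 0 ≤ (p:ℝ)^v * nup p a v := mul_nonneg (by positivity) hn
    calc (p:ℝ)^v * nup p a v * nup p a v *
          frm M1 (fun b c => (if R1 v b c then wt e b c else 0) * (f (p ^ v * b) * f (p ^ v * c)))
        ≤ (p:ℝ)^v * nup p a v * nup p a v *
          (KP e M1 * ∑ b ∈ M1.divisors, nu M1 b *
            (f (p ^ v * b) ^ 2 * (4 - 3 * ((b:ℝ) * nu M1 b)))) :=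
          mul_le_mul_of_nonneg_left ih1 (mul_nonneg hθ0 hn)
      _ = KP e M1 * ((p:ℝ)^v * nup p a v * nup p a v *
          ∑ b ∈ M1.divisors, nu M1 b * (f (p ^ v * b) ^ 2 * (4 - 3 * ((b:ℝ) * nu M1 b)))) := by
          ring
      _ ≤ _ := by
        refine mul_le_mul_of_nonneg_left ?_ (by linarith)
        rw [Finset.mul_sum]
        refine Finset.sum_le_sum fun b hb => ?_
        rw [Nat.mem_divisors] at hb
        rw [nu_mul hcop (pow_dvd_pow p hva) hb.1, nu_prime_pow hp hva]
        have hV1 := V_le hb.1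
        have hV0 := V_nonneg M1 b
        have hνb := nu_nonneg M1 b
        push_cast
        have e1 : (p:ℝ)^v * nup p a v * nup p a v *
            (nu M1 b * (f (p ^ v * b) ^ 2 * (4 - 3 * ((b:ℝ) * nu M1 b))))
            = (nup p a v * nu M1 b * f (p ^ v * b) ^ 2) *
              (((p:ℝ)^v * nup p a v) * (4 - 3 * ((b:ℝ) * nu M1 b))) := by ring
        have e2 : nup p a v * nu M1 b * (f (p ^ v * b) ^ 2 *
            (4 - 3 * ((p:ℝ) ^ v * (b:ℝ) * (nup p a v * nu M1 b))))
            = (nup p a v * nu M1 b * f (p ^ v * b) ^ 2) *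
              (4 - 3 * (((p:ℝ)^v * nup p a v) * ((b:ℝ) * nu M1 b))) := by ring
        rw [e1, e2]
        refine mul_le_mul_of_nonneg_left ?_ (mul_nonneg (mul_nonneg hn hνb) (sq_nonneg _))
        nlinarith
  | @cent p a M1 R R1 v0 hp hM hnd hv0 h1 h ih =>
    intro f hf
    have hcop : Nat.Coprime (p ^ a) M1 :=
      Nat.Coprime.pow_left a ((Nat.Prime.coprime_iff_not_dvd hp).2 hnd)
    have hpR : (0:ℝ) < p := by exact_mod_cast hp.pos
    have hep := he p
    set π : ℝ := (1/(p:ℝ))^v0 with hπ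
    have hπ0 : 0 < π := by positivity
    have hpp : (p:ℝ)^v0 * π = 1 := by
      rw [hπ, ← mul_pow, mul_one_div_cancel hpR.ne', one_pow]
    set F : ℕ → ℕ → ℝ := fun j b => f (p ^ (v0 + j) * b) with hF
    have hF0 : ∀ j b, 0 ≤ F j b := fun j b => hf _
    set G : ℕ → ℕ → ℝ := fun j b => (if j = 0 then 1 else e p) * F j b with hG
    have hG0 : ∀ j b, 0 ≤ G j b := fun j b => by
      simp only [hG]
      refine mul_nonneg ?_ (hF0 j b)
      split_ifs <;> linarith
    set K : ℕ → ℕ → ℝ := fun b c => if R1 b c then wt e b c else 0 with hK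
    have hK0 : ∀ b c, 0 ≤ K b c := fun b c => by
      simp only [hK]
      split_ifs
      · exact hwt _ _
      · exact le_rfl
    have hnn : ∀ v, 0 ≤ nup p (a - v0) v := fun v => nup_nonneg hp.pos _ v
    -- vanishing
    have hvan : ∀ v v', v ≤ a → v' ≤ a → min v v' ≠ v0 →
        frm M1 (fun b c => (if R (p ^ v * b) (p ^ v' * c) then
            wt e (p ^ v * b) (p ^ v' * c) else 0) * (f (p ^ v * b) * f (p ^ v' * c))) = 0 := by
      intro v v' hv hv' hne
      unfold frm
      refine Finset.sum_eq_zero fun b hb => Finset.sum_eq_zero fun c hc => ?_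
      rw [Nat.mem_divisors] at hb hc
      dsimp only
      rw [if_neg, zero_mul, mul_zero]
      intro h2
      exact hne (h v v' b c hv hv' hb.1 hc.1 h2).1
    have hLHS : frm (p ^ a * M1) (fun b c => (if R b c then wt e b c else 0) * (f b * f c)) ≤
        π * ∑ j ∈ range (a - v0 + 1), ∑ j' ∈ range (a - v0 + 1),
          (nup p (a - v0) j * nup p (a - v0) j' *
            frm M1 (fun b c => K b c * (G j b * G j' c))
            + (if j ≠ j' ∧ min j j' = 0 then nup p (a - v0) j * nup p (a - v0) j' *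
              frm M1 (fun b c => if b = c then G j b * G j' c else 0) else 0)) := by
      rw [frm_split hp a hM hnd]
      rw [Finset.sum_congr rfl (fun v hv => sum_shift hv0 _ (fun v' hv' => by
        rw [Finset.mem_range] at hv
        rw [hvan v v' (by omega) (by omega) (by omega), mul_zero]))]
      rw [sum_shift hv0 _ (fun v hv => Finset.sum_eq_zero fun j hj => by
        rw [Finset.mem_range] at hj
        rw [hvan v (v0+j) (by omega) (by omega) (by omega), mul_zero])]
      rw [Finset.mul_sum]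
      refine Finset.sum_le_sum fun j hj => ?_
      rw [Finset.mul_sum]
      refine Finset.sum_le_sum fun j' hj' => ?_
      rw [Finset.mem_range] at hj hj'
      have hnn2 : 0 ≤ nup p (a - v0) j * nup p (a - v0) j' := mul_nonneg (hnn j) (hnn j')
      rw [nup_shift a v0 j hv0, nup_shift a v0 j' hv0]
      by_cases hmin : min j j' = 0
      · have hm : min (v0 + j) (v0 + j') = v0 := by omega
        rw [hm]
        have e1 : (p:ℝ)^v0 * ((1/(p:ℝ))^v0 * nup p (a - v0) j) *
            ((1/(p:ℝ))^v0 * nup p (a - v0) j') = π * (nup p (a - v0) j * nup p (a - v0) j') := by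
          rw [← hπ]
          calc (p:ℝ)^v0 * (π * nup p (a - v0) j) * (π * nup p (a - v0) j')
              = ((p:ℝ)^v0 * π) * (π * (nup p (a - v0) j * nup p (a - v0) j')) := by ring
            _ = _ := by rw [hpp, one_mul]
        rw [e1, mul_assoc]
        refine mul_le_mul_of_nonneg_left ?_ hπ0.le
        by_cases hjj : j = j'
        · rw [if_neg (fun hc => hc.1 hjj), add_zero]
          have hj0 : j = 0 := by omega
          have hj0' : j' = 0 := by omega
          refine mul_le_mul_of_nonneg_left (frm_mono fun b c hb hc => ?_) hnn2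
          have hnb : ¬ p ∣ b := fun hcon => hnd (hcon.trans hb)
          have hnc : ¬ p ∣ c := fun hcon => hnd (hcon.trans hc)
          have eG : G j b * G j' c = f (p ^ (v0 + j) * b) * f (p ^ (v0 + j') * c) := by
            simp only [hG, hF]
            rw [if_pos hj0, if_pos hj0', one_mul, one_mul]
          rw [eG]
          refine mul_le_mul_of_nonneg_right ?_ (mul_nonneg (hf _) (hf _))
          simp only [hK]
          split_ifs with h2 h3 h3
          · rw [wt_split e hp hnb hnc, if_pos (by rw [hjj]), one_mul]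
          · rcases (h _ _ b c (by omega) (by omega) hb hc h2).2 with h4 | h4
            · exact absurd h4 h3
            · exact absurd (by rw [hjj]) h4.2
          · exact hwt _ _
          · exact le_rfl
        · rw [if_pos ⟨hjj, hmin⟩, ← mul_add, ← frm_add]
          refine mul_le_mul_of_nonneg_left (frm_mono fun b c hb hc => ?_) hnn2
          have hnb : ¬ p ∣ b := fun hcon => hnd (hcon.trans hb)
          have hnc : ¬ p ∣ c := fun hcon => hnd (hcon.trans hc)
          have hb0 : b ≠ 0 := fun h => hnb (h ▸ dvd_zero p)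
          have eG : G j b * G j' c = e p * (f (p ^ (v0 + j) * b) * f (p ^ (v0 + j') * c)) := by
            simp only [hG, hF]
            rcases Nat.eq_zero_or_pos j with h5 | h5
            · rw [if_pos h5, if_neg (by omega)]; ring
            · rw [if_neg (by omega), if_pos (by omega)]; ring
          have h5 : 0 ≤ G j b * G j' c := mul_nonneg (hG0 _ _) (hG0 _ _)
          by_cases h2 : R (p ^ (v0 + j) * b) (p ^ (v0 + j') * c)
          · rw [if_pos h2, wt_split e hp hnb hnc, if_neg (by omega)]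
            have e6 : e p * wt e b c * (f (p ^ (v0 + j) * b) * f (p ^ (v0 + j') * c)) =
                wt e b c * (G j b * G j' c) := by rw [eG]; ring
            rw [e6]
            rcases (h _ _ b c (by omega) (by omega) hb hc h2).2 with h4 | h4
            · have h7 : K b c = wt e b c := by simp only [hK]; rw [if_pos h4]
              rw [h7]
              have : (0:ℝ) ≤ if b = c then G j b * G j' c else 0 := by
                split_ifs <;> [exact h5; exact le_rfl]
              linarith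
            · rw [if_pos h4.1, ← h4.1, wt_self e hb0, one_mul]
              rw [← h4.1] at h5
              have : 0 ≤ K b b * (G j b * G j' b) := mul_nonneg (hK0 _ _) h5
              linarith
          · rw [if_neg h2, zero_mul]
            refine add_nonneg (mul_nonneg (hK0 _ _) h5) ?_
            split_ifs <;> first | exact h5 | exact le_rfl
      · rw [hvan (v0+j) (v0+j') (by omega) (by omega) (by omega), mul_zero]
        rw [if_neg (fun hc => hmin hc.2), add_zero]
        refine mul_nonneg hπ0.le (mul_nonneg hnn2 (frm_nonneg fun b c _ _ => ?_))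
        exact mul_nonneg (hK0 _ _) (mul_nonneg (hG0 _ _) (hG0 _ _))
    have hcore := free_coreW hp (a - v0) (M1 := M1) (e := e) hep (one_le_KP he M1) ih F hF0 G
      (fun v b => rfl)
    refine hLHS.trans ((mul_le_mul_of_nonneg_left hcore hπ0.le).trans ?_)
    have hKP := KP_split he hp (a := a) hM hnd (Nat.sub_le a v0)
    have hVp : ∀ v b, v ≤ a → b ∣ M1 → 0 ≤ nu (p ^ a * M1) (p ^ v * b) * (f (p ^ v * b) ^ 2 *
        (4 - 3 * (((p ^ v * b : ℕ) : ℝ) * nu (p ^ a * M1) (p ^ v * b)))) := by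
      intro v b hv hb
      have hd : p ^ v * b ∣ p ^ a * M1 := Nat.mul_dvd_mul (pow_dvd_pow p hv) hb
      have h1 := V_le hd
      exact mul_nonneg (nu_nonneg _ _) (mul_nonneg (sq_nonneg _) (by linarith))
    have hsum0 : 0 ≤ ∑ v ∈ range (a + 1), ∑ b ∈ M1.divisors, nu (p ^ a * M1) (p ^ v * b) *
          (f (p ^ v * b) ^ 2 *
        (4 - 3 * (((p ^ v * b : ℕ) : ℝ) * nu (p ^ a * M1) (p ^ v * b)))) := by
      refine Finset.sum_nonneg fun v hv => Finset.sum_nonneg fun b hb => ?_
      rw [Finset.mem_range] at hv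
      rw [Nat.mem_divisors] at hb
      exact hVp v b (by omega) hb.1
    rw [sum_split hp a hM hnd]
    refine le_trans ?_ (mul_le_mul_of_nonneg_right hKP hsum0)
    have hre : π * (KP e M1 * kf e p (a - v0) *
        ∑ v ∈ range (a - v0 + 1), ∑ b ∈ M1.divisors, nup p (a - v0) v * nu M1 b * (F v b ^ 2 *
          (4 - 3 * ((p:ℝ)^v * nup p (a - v0) v * ((b:ℝ) * nu M1 b))))) =
        KP e M1 * kf e p (a - v0) * (π * ∑ v ∈ range (a - v0 + 1), ∑ b ∈ M1.divisors,
          nup p (a - v0) v * nu M1 b * (F v b ^ 2 *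
          (4 - 3 * ((p:ℝ)^v * nup p (a - v0) v * ((b:ℝ) * nu M1 b))))) := by ring
    rw [hre]
    have hkf : 0 ≤ KP e M1 * kf e p (a - v0) := by
      refine mul_nonneg (le_trans zero_le_one (one_le_KP he M1)) ?_
      unfold kf
      split_ifs
      · exact zero_le_one
      · exact le_trans zero_le_one (one_le_kap hep)
    refine mul_le_mul_of_nonneg_left ?_ hkf
    have hsh := sum_shift_le hv0 (fun v => if v ≤ a then
      ∑ b ∈ M1.divisors, nu (p ^ a * M1) (p ^ v * b) * (f (p ^ v * b) ^ 2 *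
        (4 - 3 * (((p ^ v * b : ℕ) : ℝ) * nu (p ^ a * M1) (p ^ v * b)))) else 0) (fun v => by
          split_ifs with hv
          · refine Finset.sum_nonneg fun b hb => ?_
            rw [Nat.mem_divisors] at hb
            exact hVp v b hv hb.1
          · exact le_rfl)
    have e2 : ∑ v ∈ range (a + 1), (if v ≤ a then
      ∑ b ∈ M1.divisors, nu (p ^ a * M1) (p ^ v * b) * (f (p ^ v * b) ^ 2 *
        (4 - 3 * (((p ^ v * b : ℕ) : ℝ) * nu (p ^ a * M1) (p ^ v * b)))) else 0) =
        ∑ v ∈ range (a + 1), ∑ b ∈ M1.divisors, nu (p ^ a * M1) (p ^ v * b) *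
          (f (p ^ v * b) ^ 2 *
        (4 - 3 * (((p ^ v * b : ℕ) : ℝ) * nu (p ^ a * M1) (p ^ v * b)))) := by
      refine Finset.sum_congr rfl fun v hv => ?_
      rw [Finset.mem_range] at hv
      rw [if_pos (by omega)]
    rw [e2] at hsh
    refine le_trans (le_of_eq ?_) hsh
    rw [Finset.mul_sum]
    refine Finset.sum_congr rfl fun j hj => ?_
    rw [Finset.mem_range] at hj
    rw [if_pos (by omega), Finset.mul_sum]
    refine Finset.sum_congr rfl fun b hb => ?_
    rw [Nat.mem_divisors] at hb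
    rw [nu_mul hcop (pow_dvd_pow p (by omega)) hb.1, nu_prime_pow hp (by omega),
      nup_shift a v0 j hv0]
    push_cast
    rw [← hπ]
    have e3 : (p:ℝ)^(v0+j) * (b:ℝ) * (π * nup p (a - v0) j * nu M1 b) =
        (p:ℝ)^j * nup p (a - v0) j * ((b:ℝ) * nu M1 b) := by
      rw [pow_add]
      calc (p:ℝ)^v0 * (p:ℝ)^j * (b:ℝ) * (π * nup p (a - v0) j * nu M1 b)
          = ((p:ℝ)^v0 * π) * ((p:ℝ)^j * nup p (a - v0) j * ((b:ℝ) * nu M1 b)) := by ring
        _ = _ := by rw [hpp, one_mul]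
    rw [e3]
    simp only [hF]
    ring

open Classical in
/-- constant form -/
theorem pure_energyW' {e : ℕ → ℝ} (he : ∀ p, 1 ≤ e p) {M : ℕ} {R : ℕ → ℕ → Prop}
    (hR : PureRelC M R) (f : ℕ → ℝ) (hf : ∀ b, 0 ≤ f b) :
    frm M (fun b c => (if R b c then wt e b c else 0) * (f b * f c)) ≤
        4 * KP e M * ∑ b ∈ M.divisors, nu M b * f b ^ 2 := by
  refine (pure_energyW he hR f hf).trans ?_
  rw [mul_comm 4, mul_assoc]
  refine mul_le_mul_of_nonneg_left ?_ (le_trans zero_le_one (one_le_KP he M))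
  rw [Finset.mul_sum]
  refine Finset.sum_le_sum fun b _ => ?_
  have h1 := V_nonneg M b
  have h2 := nu_nonneg M b
  have h3 : 0 ≤ nu M b * f b^2 := mul_nonneg h2 (sq_nonneg _)
  nlinarith

/-! ### weights `1 + c/p` -/

lemma kap_le_of {e : ℕ → ℝ} {c : ℝ} (hc : 0 ≤ c) {p : ℕ} (hp : 1 ≤ p) (he1 : 1 ≤ e p)
    (he : e p ≤ 1 + c / p) :
    kap e p ≤ Real.exp (2 * c * (1 / ((p : ℝ) * Real.sqrt p)) + c * (c + 2) * (1 / (p : ℝ) ^ 2)) := by
  have hp1 : (1 : ℝ) ≤ p := by exact_mod_cast hp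
  have hp0 : (0 : ℝ) < p := by linarith
  have hsp : 0 < Real.sqrt (p : ℝ) := Real.sqrt_pos.2 hp0
  have h1 : e p - 1 ≤ c / p := by linarith
  have hcp : c / p ≤ c := div_le_self hc hp1
  have h2 : e p ^ 2 - 1 ≤ c / p * (c + 2) := by
    have : e p ^ 2 - 1 = (e p - 1) * (e p + 1) := by ring
    rw [this]
    exact mul_le_mul h1 (by linarith) (by linarith) (by positivity)
  unfold kap
  have h3 : 2 * (e p - 1) / Real.sqrt p ≤ 2 * c * (1 / ((p : ℝ) * Real.sqrt p)) := by
    calc 2 * (e p - 1) / Real.sqrt p ≤ 2 * (c / p) / Real.sqrt p := by gcongr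
      _ = _ := by field_simp
  have h4 : (e p ^ 2 - 1) / p ≤ c * (c + 2) * (1 / (p : ℝ) ^ 2) := by
    calc (e p ^ 2 - 1) / p ≤ (c / p * (c + 2)) / p := div_le_div_of_nonneg_right h2 hp0.le
      _ = _ := by field_simp
  have h5 := Real.add_one_le_exp
    (2 * c * (1 / ((p : ℝ) * Real.sqrt p)) + c * (c + 2) * (1 / (p : ℝ) ^ 2))
  linarith

/-- weights `≤ 1 + c/p` lose an absolute constant -/
theorem KP_le_of {e : ℕ → ℝ} {c : ℝ} (hc : 0 ≤ c) (he1 : ∀ p, 1 ≤ e p)
    (he : ∀ p : ℕ, 2 ≤ p → e p ≤ 1 + c / p) (M : ℕ) :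
    KP e M ≤ Real.exp (6 * c + 2 * (c * (c + 2))) := by
  unfold KP
  calc ∏ p ∈ M.primeFactors, kap e p
      ≤ ∏ p ∈ M.primeFactors, Real.exp (2 * c * (1 / ((p : ℝ) * Real.sqrt p)) +
          c * (c + 2) * (1 / (p : ℝ) ^ 2)) := by
        refine prod_le_prod (fun p _ => le_trans zero_le_one (one_le_kap (he1 p))) fun p hp => ?_
        have h2 := (Nat.prime_of_mem_primeFactors hp).two_le
        exact kap_le_of hc (by omega) (he1 p) (he p h2)
    _ = Real.exp (2 * c * (∑ p ∈ M.primeFactors, 1 / ((p : ℝ) * Real.sqrt p)) +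
          c * (c + 2) * ∑ p ∈ M.primeFactors, 1 / (p : ℝ) ^ 2) := by
        rw [← Real.exp_sum, sum_add_distrib, ← mul_sum, ← mul_sum]
    _ ≤ _ := by
        rw [Real.exp_le_exp]
        have hfil : M.primeFactors.filter (fun p : ℕ => (1 : ℝ) < p) = M.primeFactors := by
          rw [filter_eq_self]
          intro p hp
          exact_mod_cast (Nat.prime_of_mem_primeFactors hp).one_lt
        have h1 := sum_inv_32_gt (y := 1) le_rfl M.primeFactors
        have h2 := sum_inv_sq_gt (y := 1) le_rfl M.primeFactors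
        rw [hfil] at h1 h2
        rw [Real.sqrt_one, div_one] at h1
        rw [div_one] at h2
        have h3 := mul_le_mul_of_nonneg_left h1 (show 0 ≤ 2 * c by positivity)
        have h4 := mul_le_mul_of_nonneg_left h2 (show 0 ≤ c * (c + 2) by positivity)
        linarith

/-- the Pollington-Vaughan factor -/
noncomputable def eB1 (p : ℕ) : ℝ := if 2 ≤ p then (1 - 1 / (p : ℝ))⁻¹ else 1

lemma eB1_spec (p : ℕ) : 1 ≤ eB1 p ∧ (2 ≤ p → eB1 p ≤ 1 + 2 / p) := by
  unfold eB1
  split_ifs with h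
  · have hp : (2 : ℝ) ≤ p := by exact_mod_cast h
    have hp0 : (0 : ℝ) < p := by linarith
    have h1 : (1 : ℝ) / p ≤ 1 / 2 := one_div_le_one_div_of_le (by norm_num) hp
    have h0 : (0 : ℝ) < 1 / p := by positivity
    have hd : 0 < 1 - 1 / (p : ℝ) := by linarith
    refine ⟨(one_le_inv₀ hd).2 (by linarith), fun _ => ?_⟩
    rw [inv_le_iff_one_le_mul₀ hd]
    have : (2 : ℝ) / p = 2 * (1 / p) := by ring
    rw [this]
    nlinarith
  · exact ⟨le_rfl, fun h' => absurd h' h⟩

lemma wt_eB1 (b c : ℕ) : wt eB1 b c = ∏ p ∈ (cof b c).primeFactors, (1 - 1 / (p : ℝ))⁻¹ := by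
  unfold wt
  refine prod_congr rfl fun p hp => ?_
  unfold eB1
  rw [if_pos (Nat.prime_of_mem_primeFactors hp).two_le]

open Classical in
/-- **B1 is harmless on pure pairs** (S7 v0 (1)): the factor `∏_{p ∣ s s'} (1-1/p)⁻¹` costs an
absolute constant -/
theorem pure_B1 {M : ℕ} {R : ℕ → ℕ → Prop} (hR : PureRelC M R) (f : ℕ → ℝ) (hf : ∀ b, 0 ≤ f b) :
    frm M (fun b c => (if R b c then ∏ p ∈ (cof b c).primeFactors, (1 - 1 / (p : ℝ))⁻¹ else 0) *
      (f b * f c)) ≤ 4 * Real.exp 28 * ∑ b ∈ M.divisors, nu M b * f b ^ 2 := by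
  have h := pure_energyW' (fun p => (eB1_spec p).1) hR f hf
  have h2 := KP_le_of (c := 2) (by norm_num) (fun p => (eB1_spec p).1)
    (fun p hp => (eB1_spec p).2 hp) M
  simp only [wt_eB1] at h
  refine h.trans ?_
  have h3 : 0 ≤ ∑ b ∈ M.divisors, nu M b * f b ^ 2 :=
    sum_nonneg fun b _ => mul_nonneg (nu_nonneg _ _) (sq_nonneg _)
  refine mul_le_mul_of_nonneg_right ?_ h3
  have : (6 * 2 + 2 * (2 * (2 + 2)) : ℝ) = 28 := by norm_num
  rw [this] at h2
  linarith

open Classical in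
/-- any weight `∏_{p ∣ s s'} (1 + c/p)` costs a constant depending on `c` only -/
theorem pure_weight {c : ℝ} (hc : 0 ≤ c) {M : ℕ} {R : ℕ → ℕ → Prop} (hR : PureRelC M R)
    (f : ℕ → ℝ) (hf : ∀ b, 0 ≤ f b) :
    frm M (fun a b => (if R a b then ∏ p ∈ (cof a b).primeFactors, (1 + c / (p : ℝ)) else 0) *
      (f a * f b)) ≤
      4 * Real.exp (6 * c + 2 * (c * (c + 2))) * ∑ b ∈ M.divisors, nu M b * f b ^ 2 := by
  have he : ∀ p : ℕ, 1 ≤ 1 + c / (p : ℝ) := fun p => by
    have : 0 ≤ c / (p : ℝ) := by positivity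
    linarith
  have h := pure_energyW' (e := fun p => 1 + c / (p : ℝ)) he hR f hf
  have h2 := KP_le_of (e := fun p => 1 + c / (p : ℝ)) hc he (fun p _ => le_rfl) M
  refine h.trans ?_
  have h3 : 0 ≤ ∑ b ∈ M.divisors, nu M b * f b ^ 2 :=
    sum_nonneg fun b _ => mul_nonneg (nu_nonneg _ _) (sq_nonneg _)
  refine mul_le_mul_of_nonneg_right ?_ h3
  linarith

/-! ### `K_y` -/

/-- threshold for `K_y` on pure pairs -/
noncomputable def Y1 (A δ : ℝ) : ℝ := (9 * ((A + 1) / δ) * Real.exp ((A + 1) / δ)) ^ 2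

lemma Y1_spec {A δ y : ℝ} (hA : 0 ≤ A) (hδ0 : 0 < δ) (hδ1 : δ ≤ 1) (hy : Y1 A δ ≤ y) :
    1 ≤ (A + 1) / δ ∧ 1 ≤ y ∧ (Real.exp ((A + 1) / δ) + 1) ^ 2 ≤ y ∧
      9 * ((A + 1) / δ) * Real.exp ((A + 1) / δ) * Real.sqrt y ≤ y := by
  have h1 : 1 ≤ (A + 1) / δ := by rw [one_le_div hδ0]; linarith
  unfold Y1 at hy
  set t := (A + 1) / δ with ht
  have h2 : 1 ≤ Real.exp t := Real.one_le_exp (by linarith)
  set E := 9 * t * Real.exp t with hE
  have h3 : Real.exp t + 1 ≤ E := by rw [hE]; nlinarith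
  have h3' : 1 ≤ E := by linarith
  have hy1 : 1 ≤ y := by nlinarith
  have h5 : E ≤ Real.sqrt y := Real.le_sqrt_of_sq_le hy
  have hs : Real.sqrt y * Real.sqrt y = y := Real.mul_self_sqrt (by linarith)
  refine ⟨h1, hy1, ?_, ?_⟩
  · have : (Real.exp t + 1) ^ 2 ≤ E ^ 2 := pow_le_pow_left₀ (by linarith) h3 2
    linarith
  · calc E * Real.sqrt y ≤ Real.sqrt y * Real.sqrt y :=
          mul_le_mul_of_nonneg_right h5 (Real.sqrt_nonneg _)
      _ = y := hs

lemma kap_ew_le {y θ : ℝ} (hy0 : 0 < y) (hθ : 0 ≤ θ) (hy : (Real.exp θ + 1) ^ 2 ≤ y) {p : ℕ}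
    (hp : 0 < p) :
    kap (ew y (θ * y)) p ≤ (1 + (ew y (θ * y) p - 1) / Real.sqrt p) ^ 3 := by
  have hl : 0 ≤ θ * y := by positivity
  have h1 := one_le_ew (y := y) hl p
  have hpR : (0 : ℝ) < p := by exact_mod_cast hp
  have hsp : 0 < Real.sqrt (p : ℝ) := Real.sqrt_pos.2 hpR
  have hss : Real.sqrt (p : ℝ) * Real.sqrt p = p := Real.mul_self_sqrt hpR.le
  set a := (ew y (θ * y) p - 1) / Real.sqrt p with ha
  have ha0 : 0 ≤ a := div_nonneg (by linarith) hsp.le
  have h2 : (ew y (θ * y) p ^ 2 - 1) / p ≤ a := by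
    by_cases h : y < (p : ℝ)
    · have he : ew y (θ * y) p ≤ Real.exp θ := by
        unfold ew
        rw [if_pos h, Real.exp_le_exp, div_le_iff₀ hpR]
        exact mul_le_mul_of_nonneg_left h.le hθ
      have h3 : Real.exp θ + 1 ≤ Real.sqrt p := by
        refine Real.le_sqrt_of_sq_le ?_
        linarith
      have e1 : (ew y (θ * y) p ^ 2 - 1) / p = a * ((ew y (θ * y) p + 1) / Real.sqrt p) := by
        rw [ha, div_mul_div_comm, hss]
        congr 1
        ring
      rw [e1]
      have h4 : (ew y (θ * y) p + 1) / Real.sqrt p ≤ 1 := by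
        rw [div_le_one hsp]
        linarith
      calc a * ((ew y (θ * y) p + 1) / Real.sqrt p) ≤ a * 1 := mul_le_mul_of_nonneg_left h4 ha0
        _ = a := mul_one _
    · have he : ew y (θ * y) p = 1 := by unfold ew; rw [if_neg h]
      rw [he]
      simpa using ha0
  have h3 : 2 * (ew y (θ * y) p - 1) / Real.sqrt p = 2 * a := by rw [ha]; ring
  unfold kap
  rw [h3]
  nlinarith [mul_nonneg ha0 ha0, mul_nonneg (mul_nonneg ha0 ha0) ha0]

lemma KP_ew_le {y θ : ℝ} (hy1 : 1 ≤ y) (hθ : 0 ≤ θ) (hy : (Real.exp θ + 1) ^ 2 ≤ y) (M : ℕ) :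
    KP (ew y (θ * y)) M ≤ Real.exp (9 * θ * Real.exp θ * Real.sqrt y) := by
  have hy0 : 0 < y := by linarith
  have hl : 0 ≤ θ * y := by positivity
  unfold KP
  calc ∏ p ∈ M.primeFactors, kap (ew y (θ * y)) p
      ≤ ∏ p ∈ M.primeFactors, (1 + (ew y (θ * y) p - 1) / Real.sqrt p) ^ 3 :=
        prod_le_prod (fun p _ => le_trans zero_le_one (one_le_kap (one_le_ew hl p))) fun p hp =>
          kap_ew_le hy0 hθ hy (Nat.prime_of_mem_primeFactors hp).pos
    _ = (∏ p ∈ M.primeFactors, (1 + (ew y (θ * y) p - 1) / Real.sqrt p)) ^ 3 := by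
        rw [prod_pow]
    _ ≤ (Real.exp (3 * θ * Real.exp θ * Real.sqrt y)) ^ 3 := by
        refine pow_le_pow_left₀ (prod_nonneg fun p _ => ?_) (prod_ew_sqrt_le hy1 hθ _) 3
        have := ew_sub_nonneg (y := y) hl p
        positivity
    _ = _ := by
        rw [← Real.exp_nat_mul]
        congr 1
        push_cast
        ring

open Classical in
/-- **`K_y` on pure pairs**, any `f ≥ 0` -/
theorem pure_Ky {A δ y : ℝ} (hA : 0 ≤ A) (hδ0 : 0 < δ) (hδ1 : δ ≤ 1) (hy : Y1 A δ ≤ y) {M : ℕ}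
    {R : ℕ → ℕ → Prop} (hR : PureRelC M R) (f : ℕ → ℝ) (hf : ∀ b, 0 ≤ f b) :
    frm M (fun b c => (if R b c then KY y δ b c else 0) * (f b * f c)) ≤
      4 * Real.exp (-(A * y)) * ∑ b ∈ M.divisors, nu M b * f b ^ 2 := by
  obtain ⟨h1, h2, h3, h4⟩ := Y1_spec hA hδ0 hδ1 hy
  set t := (A + 1) / δ with ht
  have ht0 : 0 ≤ t := by linarith
  have hl : 0 ≤ t * y := by positivity
  have h5 := pure_energyW' (e := ew y (t * y)) (fun p => one_le_ew hl p) hR f hf
  have h6 := KP_ew_le h2 ht0 h3 M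
  have h7 : 0 ≤ ∑ b ∈ M.divisors, nu M b * f b ^ 2 :=
    sum_nonneg fun b _ => mul_nonneg (nu_nonneg _ _) (sq_nonneg _)
  have h8 : frm M (fun b c => (if R b c then KY y δ b c else 0) * (f b * f c)) ≤
      Real.exp (-(t * y * δ)) *
        frm M (fun b c => (if R b c then wt (ew y (t * y)) b c else 0) * (f b * f c)) := by
    rw [← frm_smul]
    refine frm_mono fun b c _ _ => ?_
    have hff : 0 ≤ f b * f c := mul_nonneg (hf b) (hf c)
    by_cases hRbc : R b c
    · rw [if_pos hRbc, if_pos hRbc]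
      calc KY y δ b c * (f b * f c) ≤ (Real.exp (-(t * y * δ)) * W y (t * y) (cof b c)) *
            (f b * f c) := mul_le_mul_of_nonneg_right (KY_le hl δ b c) hff
        _ = _ := by rw [mul_assoc]; rfl
    · rw [if_neg hRbc, if_neg hRbc]
      simp
  have h9 : Real.exp (-(t * y * δ)) * (4 * KP (ew y (t * y)) M) ≤ 4 * Real.exp (-(A * y)) := by
    calc Real.exp (-(t * y * δ)) * (4 * KP (ew y (t * y)) M)
        ≤ Real.exp (-(t * y * δ)) * (4 * Real.exp (9 * t * Real.exp t * Real.sqrt y)) :=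
          mul_le_mul_of_nonneg_left (by linarith) (Real.exp_pos _).le
      _ = 4 * Real.exp (-(t * y * δ) + 9 * t * Real.exp t * Real.sqrt y) := by
          rw [Real.exp_add]; ring
      _ ≤ _ := by
          refine mul_le_mul_of_nonneg_left (Real.exp_le_exp.2 ?_) (by norm_num)
          have : t * y * δ = (A + 1) * y := by
            rw [mul_right_comm, ht, div_mul_cancel₀ _ hδ0.ne']
          rw [this]
          linarith
  calc _ ≤ Real.exp (-(t * y * δ)) *
        frm M (fun b c => (if R b c then wt (ew y (t * y)) b c else 0) * (f b * f c)) := h8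
    _ ≤ Real.exp (-(t * y * δ)) *
        (4 * KP (ew y (t * y)) M * ∑ b ∈ M.divisors, nu M b * f b ^ 2) :=
        mul_le_mul_of_nonneg_left h5 (Real.exp_pos _).le
    _ = Real.exp (-(t * y * δ)) * (4 * KP (ew y (t * y)) M) *
        ∑ b ∈ M.divisors, nu M b * f b ^ 2 := by ring
    _ ≤ _ := mul_le_mul_of_nonneg_right h9 h7

/-- Cauchy-Schwarz for pair forms -/
lemma frm_cs {M : ℕ} {K : ℕ → ℕ → ℝ} (hK : ∀ b c, 0 ≤ K b c) (x z : ℕ → ℕ → ℝ) :
    frm M (fun b c => K b c * (x b c * z b c)) ^ 2 ≤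
      frm M (fun b c => K b c * x b c ^ 2) * frm M (fun b c => K b c * z b c ^ 2) := by
  unfold frm
  have hw : ∀ b c, 0 ≤ (Nat.gcd b c : ℝ) * nu M b * nu M c * K b c := fun b c =>
    mul_nonneg (mul_nonneg (mul_nonneg (by positivity) (nu_nonneg _ _)) (nu_nonneg _ _)) (hK b c)
  have key := Finset.sum_mul_sq_le_sq_mul_sq (M.divisors ×ˢ M.divisors)
    (fun q : ℕ × ℕ => Real.sqrt ((Nat.gcd q.1 q.2 : ℝ) * nu M q.1 * nu M q.2 * K q.1 q.2) * x q.1 q.2)
    (fun q : ℕ × ℕ => Real.sqrt ((Nat.gcd q.1 q.2 : ℝ) * nu M q.1 * nu M q.2 * K q.1 q.2) * z q.1 q.2)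
  rw [sum_product, sum_product, sum_product] at key
  refine le_trans (le_of_eq ?_) (key.trans (le_of_eq ?_))
  · congr 1
    refine sum_congr rfl fun b _ => sum_congr rfl fun c _ => ?_
    have h := Real.mul_self_sqrt (hw b c)
    simp only
    set q := (Nat.gcd b c : ℝ) * nu M b * nu M c * K b c with hq
    have e1 : (Real.sqrt q * x b c) * (Real.sqrt q * z b c) =
        (Real.sqrt q * Real.sqrt q) * (x b c * z b c) := by ring
    rw [e1, h, hq]
    ring
  · congr 1
    · refine sum_congr rfl fun b _ => sum_congr rfl fun c _ => ?_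
      simp only
      rw [mul_pow, Real.sq_sqrt (hw b c)]
      ring
    · refine sum_congr rfl fun b _ => sum_congr rfl fun c _ => ?_
      simp only
      rw [mul_pow, Real.sq_sqrt (hw b c)]
      ring

open Classical in
/-- weight `∏_{p ∣ s s'} (1 + c/p)` **and** `K_y` together, on pure pairs -/
theorem pure_weight_Ky {c : ℝ} (hc : 0 ≤ c) {A δ y : ℝ} (hA : 0 ≤ A) (hδ0 : 0 < δ) (hδ1 : δ ≤ 1)
    (hy : Y1 (2 * A) δ ≤ y) {M : ℕ} {R : ℕ → ℕ → Prop} (hR : PureRelC M R) (f : ℕ → ℝ)
    (hf : ∀ b, 0 ≤ f b) :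
    frm M (fun a b => (if R a b then (∏ p ∈ (cof a b).primeFactors, (1 + c / (p : ℝ))) * KY y δ a b
      else 0) * (f a * f b)) ≤
      4 * Real.exp (3 * (2 * c + c ^ 2) + (2 * c + c ^ 2) * (2 * c + c ^ 2 + 2)) *
        Real.exp (-(A * y)) * ∑ b ∈ M.divisors, nu M b * f b ^ 2 := by
  set S := ∑ b ∈ M.divisors, nu M b * f b ^ 2 with hS
  have hS0 : 0 ≤ S := sum_nonneg fun b _ => mul_nonneg (nu_nonneg _ _) (sq_nonneg _)
  set c' := 2 * c + c ^ 2 with hc'
  have hc0' : 0 ≤ c' := by positivity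
  set P : ℕ → ℕ → ℝ := fun a b => ∏ p ∈ (cof a b).primeFactors, (1 + c / (p : ℝ)) with hP
  set K : ℕ → ℕ → ℝ := fun a b => (if R a b then 1 else 0) * (f a * f b) with hK
  have hK0 : ∀ a b, 0 ≤ K a b := fun a b => by
    simp only [hK]
    refine mul_nonneg ?_ (mul_nonneg (hf a) (hf b))
    split_ifs <;> norm_num
  have hP0 : ∀ a b, 0 ≤ P a b := fun a b => by
    simp only [hP]
    exact prod_nonneg fun p _ => by positivity
  have e0 : frm M (fun a b => (if R a b then P a b * KY y δ a b else 0) * (f a * f b)) =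
      frm M (fun a b => K a b * (P a b * KY y δ a b)) := by
    congr 1
    funext a b
    simp only [hK]
    split_ifs <;> ring
  have h1 := frm_cs (M := M) hK0 P (KY y δ)
  have h2 : frm M (fun a b => K a b * P a b ^ 2) ≤
      4 * Real.exp (6 * c' + 2 * (c' * (c' + 2))) * S := by
    refine le_trans (frm_mono fun a b _ _ => ?_) (pure_weight hc0' hR f hf)
    have hff : 0 ≤ f a * f b := mul_nonneg (hf a) (hf b)
    simp only [hK]
    by_cases hab : R a b
    · rw [if_pos hab, if_pos hab, one_mul, mul_comm]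
      refine mul_le_mul_of_nonneg_right ?_ hff
      simp only [hP]
      rw [← prod_pow]
      refine prod_le_prod (fun p _ => by positivity) fun p hp => ?_
      have hp1 : (1 : ℝ) ≤ p := by
        exact_mod_cast (Nat.prime_of_mem_primeFactors hp).one_lt.le
      have hp0 : (0 : ℝ) < p := by linarith
      have h3 : c ^ 2 / (p : ℝ) ^ 2 ≤ c ^ 2 / p := by
        apply div_le_div_of_nonneg_left (by positivity) hp0
        nlinarith
      have e1 : (1 + c / (p : ℝ)) ^ 2 = 1 + 2 * c / p + c ^ 2 / (p : ℝ) ^ 2 := by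
        field_simp
        ring
      have e2 : 1 + c' / (p : ℝ) = 1 + 2 * c / p + c ^ 2 / p := by
        rw [hc']
        field_simp
        ring
      rw [e1, e2]
      linarith
    · rw [if_neg hab, if_neg hab]
      simp
  have h3 : frm M (fun a b => K a b * KY y δ a b ^ 2) ≤ 4 * Real.exp (-(2 * A * y)) * S := by
    refine le_trans (frm_mono fun a b _ _ => ?_)
      (pure_Ky (A := 2 * A) (by positivity) hδ0 hδ1 hy hR f hf)
    have e1 : KY y δ a b ^ 2 = KY y δ a b := by
      unfold KY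
      split_ifs <;> norm_num
    rw [e1]
    simp only [hK]
    split_ifs <;> simp [mul_comm]
  rw [e0]
  set X := frm M (fun a b => K a b * (P a b * KY y δ a b)) with hX
  have hX0 : 0 ≤ X := frm_nonneg fun a b _ _ =>
    mul_nonneg (hK0 a b) (mul_nonneg (hP0 a b) (KY_nonneg _ _ _ _))
  set T := 4 * Real.exp (3 * c' + c' * (c' + 2)) * Real.exp (-(A * y)) * S with hT
  have hT0 : 0 ≤ T := by positivity
  have h4 : X ^ 2 ≤ T ^ 2 := by
    refine h1.trans ?_
    have h5 : 0 ≤ frm M (fun a b => K a b * KY y δ a b ^ 2) := frm_nonneg fun a b _ _ =>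
      mul_nonneg (hK0 a b) (sq_nonneg _)
    refine (mul_le_mul h2 h3 h5 (by positivity)).trans (le_of_eq ?_)
    have e1 : Real.exp (6 * c' + 2 * (c' * (c' + 2))) = Real.exp (3 * c' + c' * (c' + 2)) ^ 2 := by
      rw [← Real.exp_nat_mul]; congr 1; push_cast; ring
    have e2 : Real.exp (-(2 * A * y)) = Real.exp (-(A * y)) ^ 2 := by
      rw [← Real.exp_nat_mul]; congr 1; push_cast; ring
    rw [hT, e1, e2]
    ring
  exact le_trans (le_abs_self _) (abs_le_of_sq_le_sq h4 hT0)

end Crest.Agent.R4C.PureWx952
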