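import Crest.Agent.R4C.RLeaf_817

set_option autoImplicit false

open Finset

namespace Crest.Agent.R4C.RPlusx817

/-! ### base lemmas -/

section base
variable {κ τ : ℝ}

lemma card_dyadic {D : Finset ℕ} (hD : ∀ l ∈ D, l ≠ 0) (i : ℕ) :
    ((D.filter (fun l => Nat.log 2 l = i)).card : ℝ) ≤ 2 ^ i := by
  have : D.filter (fun l => Nat.log 2 l = i) ⊆ Ico (2 ^ i) (2 ^ (i + 1)) := by
    intro l hl
    rw [mem_filter] at hl
    rw [mem_Ico]
    have h1 := Nat.pow_log_le_self 2 (hD l hl.1)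
    have h2 := Nat.lt_pow_succ_log_self (b := 2) (by norm_num) l
    rw [hl.2] at h1 h2
    exact ⟨h1, h2⟩
  have h := card_le_card this
  rw [Nat.card_Ico] at h
  have h2 : 2 ^ (i + 1) - 2 ^ i = 2 ^ i := by rw [pow_succ]; omega
  rw [h2] at h
  exact_mod_cast h

lemma pow_cast_div {H : ℕ} {X : ℝ} (hX : 0 < X) (hH : H ≠ 0) (W : ℝ) :
    X / (H : ℝ) * W = W / ((H : ℝ) / X) := by
  have : (H : ℝ) ≠ 0 := by exact_mod_cast hH
  field_simp

/-- crude bound for totally passive systems -/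
lemma crude_base (hκ : 1 / 2 ≤ κ) (hκ1 : κ ≤ 1) (hτ : 1 ≤ τ) {k : ℕ} (hk : 4 * τ ≤ 2 ^ k)
    {M : ℕ} (hM : M ≠ 0) {Z : Finset ℕ} (hMZ : M.primeFactors = Z) {z0 : ℕ → ℕ}
    (hz : ∀ p ∈ Z, z0 p ≤ M.factorization p) :
    CR κ τ M Z z0 (k * (4 * τ) ^ (2 * κ - 1)) := by
  intro X f g hX hf hg
  have hZ : ∀ p ∈ Z, p.Prime := fun p hp => Nat.prime_of_mem_primeFactors (hMZ ▸ hp)
  have hl := leaf_sum hM hMZ (z0 := z0) (τ := τ) hX (fun b => (hf b).1) (fun b => (hg b).1)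
  set H := ctr Z z0 with hH
  have hH0 : H ≠ 0 := ctr_ne_zero hZ
  have hHp : (0 : ℝ) < H := by exact_mod_cast Nat.pos_of_ne_zero hH0
  have hHM : H ∣ M := ctr_dvd hM hMZ hz
  have hR : 0 < (H : ℝ) / X := div_pos hHp hX
  have hD : ∀ l ∈ H.divisors, l ≠ 0 := fun l hl h =>
    hH0 (zero_dvd_iff.1 (h ▸ Nat.dvd_of_mem_divisors hl))
  have hd := dyad hD (F := Ff M H f) (F' := Ff M H g) (fun l => Ff_nonneg (fun b => (hf b).1) l)
    (fun l hl => Ff_le hM hHM hf (Nat.dvd_of_mem_divisors hl))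
    (fun l => Ff_nonneg (fun b => (hg b).1) l)
    (fun l hl => Ff_le hM hHM hg (Nat.dvd_of_mem_divisors hl))
    hκ hκ1 hτ hR (Θ := 1) zero_le_one hk (fun _ _ => True) (fun i j _ => by
      rw [one_mul, pow_add]
      exact mul_le_mul (card_dyadic hD i) (card_dyadic hD j) (Nat.cast_nonneg _) (by positivity))
  have e1 : ma M X f = (∑ l ∈ H.divisors, (l : ℝ) * Ff M H f l) / (H / X) := by
    rw [ma_eq hM hHM, pow_cast_div hX hH0]
  have e2 : ma M X g = (∑ l ∈ H.divisors, (l : ℝ) * Ff M H g l) / (H / X) := by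
    rw [ma_eq hM hHM, pow_cast_div hX hH0]
  simp only [and_true] at hd
  rw [← e1, ← e2] at hd
  refine hl.trans ?_
  rw [pow_cast_div hX hH0, div_le_iff₀ hR]
  refine hd.trans (le_of_eq ?_)
  rw [Real.one_rpow]
  ring

/-- the pure pair is kept -/
lemma rp_base (hκ : 1 / 2 ≤ κ) (hκ1 : κ ≤ 1) (hτ : 1 ≤ τ) {k : ℕ} (hk : 4 * τ ≤ 2 ^ k)
    {θ : ℝ} (hθ0 : 0 ≤ θ)
    {M : ℕ} (hM : M ≠ 0) {Z : Finset ℕ} (hMZ : M.primeFactors = Z) {z0 : ℕ → ℕ}
    (hz : ∀ p ∈ Z, z0 p ≤ M.factorization p)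
    (hcount : ∀ i, 1 ≤ i →
      (((ctr Z z0).divisors.filter (fun l => Nat.log 2 l = i)).card : ℝ) ≤ θ * 2 ^ i) :
    RP κ τ M Z z0 (k * ((4 * τ) ^ (2 * κ - 1) * θ ^ (1 - κ))) := by
  intro X f g hX hf hg
  have hZ : ∀ p ∈ Z, p.Prime := fun p hp => Nat.prime_of_mem_primeFactors (hMZ ▸ hp)
  have hl := leaf_sum hM hMZ (z0 := z0) (τ := τ) hX (fun b => (hf b).1) (fun b => (hg b).1)
  set H := ctr Z z0 with hH
  have hH0 : H ≠ 0 := ctr_ne_zero hZ
  have hHp : (0 : ℝ) < H := by exact_mod_cast Nat.pos_of_ne_zero hH0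
  have hHM : H ∣ M := ctr_dvd hM hMZ hz
  have hR : 0 < (H : ℝ) / X := div_pos hHp hX
  have hD : ∀ l ∈ H.divisors, l ≠ 0 := fun l hl h =>
    hH0 (zero_dvd_iff.1 (h ▸ Nat.dvd_of_mem_divisors hl))
  have hF0 : ∀ l, 0 ≤ Ff M H f l := fun l => Ff_nonneg (fun b => (hf b).1) l
  have hG0 : ∀ l, 0 ≤ Ff M H g l := fun l => Ff_nonneg (fun b => (hg b).1) l
  have h1D : 1 ∈ H.divisors := Nat.mem_divisors.2 ⟨one_dvd _, hH0⟩
  have hF1 : ∀ l ∈ H.divisors, Ff M H f l ≤ 1 :=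
    fun l hl => Ff_le hM hHM hf (Nat.dvd_of_mem_divisors hl)
  have hG1 : ∀ l ∈ H.divisors, Ff M H g l ≤ 1 :=
    fun l hl => Ff_le hM hHM hg (Nat.dvd_of_mem_divisors hl)
  have hc0 : ((H.divisors.filter (fun l => Nat.log 2 l = 0)).card : ℝ) ≤ 1 := by
    simpa using card_dyadic hD 0
  have hd := dyad hD (F := Ff M H f) (F' := Ff M H g) hF0 hF1 hG0 hG1
    hκ hκ1 hτ hR (Θ := θ) hθ0 hk (fun i j => ¬ (i = 0 ∧ j = 0)) (fun i j hij => by
      have h2i : (0 : ℝ) ≤ 2 ^ i := by positivity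
      have h2j : (0 : ℝ) ≤ 2 ^ j := by positivity
      rcases Nat.eq_zero_or_pos i with hi | hi
      · subst hi
        have hj : 1 ≤ j := Nat.one_le_iff_ne_zero.2 fun h => hij ⟨rfl, h⟩
        rw [zero_add]
        calc _ ≤ 1 * (θ * 2 ^ j) := mul_le_mul hc0 (hcount j hj) (Nat.cast_nonneg _) zero_le_one
          _ = _ := one_mul _
      · rcases Nat.eq_zero_or_pos j with hj | hj
        · subst hj
          rw [add_zero]
          calc _ ≤ (θ * 2 ^ i) * 1 := mul_le_mul (hcount i hi) hc0 (Nat.cast_nonneg _) (by positivity)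
            _ = _ := mul_one _
        · calc _ ≤ (θ * 2 ^ i) * (2 ^ j) :=
                mul_le_mul (hcount i hi) (card_dyadic hD j) (Nat.cast_nonneg _) (by positivity)
            _ = _ := by rw [pow_add]; ring)
  have e1 : ma M X f = (∑ l ∈ H.divisors, (l : ℝ) * Ff M H f l) / (H / X) := by
    rw [ma_eq hM hHM, pow_cast_div hX hH0]
  have e2 : ma M X g = (∑ l ∈ H.divisors, (l : ℝ) * Ff M H g l) / (H / X) := by
    rw [ma_eq hM hHM, pow_cast_div hX hH0]
  rw [← e1, ← e2] at hd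
  -- the pure pair
  have hpure : Ff M H f 1 * Ff M H g 1 ≤ (H / X) * min (ma M X f) (ma M X g) := by
    have hS : ∀ h : ℕ → ℝ, (∀ b, 0 ≤ h b) → Ff M H h 1 ≤ ∑ l ∈ H.divisors, (l : ℝ) * Ff M H h l := by
      intro h hh
      have := single_le_sum (f := fun l : ℕ => (l : ℝ) * Ff M H h l) (s := H.divisors)
        (fun l _ => mul_nonneg (Nat.cast_nonneg l) (Ff_nonneg hh l)) h1D
      simpa using this
    rw [mul_min_of_nonneg _ _ hR.le, le_min_iff]
    constructor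
    · rw [e1, mul_div_cancel₀ _ hR.ne']
      calc Ff M H f 1 * Ff M H g 1 ≤ Ff M H f 1 * 1 := mul_le_mul_of_nonneg_left (hG1 1 h1D) (hF0 1)
        _ = Ff M H f 1 := mul_one _
        _ ≤ _ := hS f fun b => (hf b).1
    · rw [e2, mul_div_cancel₀ _ hR.ne']
      calc Ff M H f 1 * Ff M H g 1 ≤ 1 * Ff M H g 1 := mul_le_mul_of_nonneg_right (hF1 1 h1D) (hG0 1)
        _ = Ff M H g 1 := one_mul _
        _ ≤ _ := hS g fun b => (hg b).1
  -- split
  have hsplit : ∑ l ∈ H.divisors, ∑ l' ∈ H.divisors,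
      (if (l : ℝ) * l' ≤ H / X ∧ H / X ≤ τ * (l * l') then Ff M H f l * Ff M H g l' else 0) ≤
      Ff M H f 1 * Ff M H g 1 +
      ∑ l ∈ H.divisors, ∑ l' ∈ H.divisors,
      (if ((l : ℝ) * l' ≤ H / X ∧ H / X ≤ τ * (l * l')) ∧
        ¬ (Nat.log 2 l = 0 ∧ Nat.log 2 l' = 0) then Ff M H f l * Ff M H g l' else 0) := by
    have hpt : ∀ l ∈ H.divisors, ∀ l' ∈ H.divisors,
        (if (l : ℝ) * l' ≤ H / X ∧ H / X ≤ τ * (l * l') then Ff M H f l * Ff M H g l' else 0) ≤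
        (if l = 1 then (if l' = 1 then Ff M H f l * Ff M H g l' else 0) else 0) +
        (if ((l : ℝ) * l' ≤ H / X ∧ H / X ≤ τ * (l * l')) ∧
        ¬ (Nat.log 2 l = 0 ∧ Nat.log 2 l' = 0) then Ff M H f l * Ff M H g l' else 0) := by
      intro l hl l' hl'
      have h0 : 0 ≤ Ff M H f l * Ff M H g l' := mul_nonneg (hF0 l) (hG0 l')
      by_cases h1 : (l : ℝ) * l' ≤ H / X ∧ H / X ≤ τ * (l * l')
      · by_cases h2 : Nat.log 2 l = 0 ∧ Nat.log 2 l' = 0
        · have a1 : l = 1 := by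
            have := h2.1
            rw [Nat.log_eq_zero_iff] at this
            have := hD l hl
            omega
          have a2 : l' = 1 := by
            have := h2.2
            rw [Nat.log_eq_zero_iff] at this
            have := hD l' hl'
            omega
          rw [if_pos h1, if_pos a1, if_pos a2, if_neg (fun h => h.2 h2), add_zero]
        · rw [if_pos h1, if_pos (⟨h1, h2⟩ : _ ∧ _)]
          have : 0 ≤ (if l = 1 then (if l' = 1 then Ff M H f l * Ff M H g l' else 0) else 0) := by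
            split_ifs <;> first | exact h0 | exact le_rfl
          linarith
      · have e3 : (if ((l : ℝ) * l' ≤ H / X ∧ H / X ≤ τ * (l * l')) ∧
            ¬ (Nat.log 2 l = 0 ∧ Nat.log 2 l' = 0) then Ff M H f l * Ff M H g l' else 0) = 0 :=
          if_neg fun h => h1 h.1
        rw [if_neg h1, e3, add_zero]
        split_ifs <;> first | exact h0 | exact le_rfl
    calc _ ≤ ∑ l ∈ H.divisors, ∑ l' ∈ H.divisors,
        ((if l = 1 then (if l' = 1 then Ff M H f l * Ff M H g l' else 0) else 0) +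
        (if ((l : ℝ) * l' ≤ H / X ∧ H / X ≤ τ * (l * l')) ∧
        ¬ (Nat.log 2 l = 0 ∧ Nat.log 2 l' = 0) then Ff M H f l * Ff M H g l' else 0)) :=
          sum_le_sum fun l hl => sum_le_sum fun l' hl' => hpt l hl l' hl'
      _ = _ := by
        simp only [sum_add_distrib]
        congr 1
        rw [sum_eq_single_of_mem 1 h1D (fun l _ hl => by simp [hl]),
          sum_eq_single_of_mem 1 h1D (fun l _ hl => by simp [hl])]
        simp
  refine hl.trans ?_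
  rw [pow_cast_div hX hH0, div_le_iff₀ hR]
  calc _ ≤ _ := hsplit
    _ ≤ (H / X) * min (ma M X f) (ma M X g) + (H / X) * (k * ((4 * τ) ^ (2 * κ - 1) * θ ^ (1 - κ)) *
        (ma M X f * ma M X g) ^ κ) := by
        refine add_le_add hpure (le_trans (le_of_eq ?_) hd)
        refine sum_congr rfl fun l _ => sum_congr rfl fun l' _ => ?_
        congr!
    _ = _ := by ring

end base

end Crest.Agent.R4C.RPlusx817
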