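import Crest.Agent.R4C.RBase_817
import Crest.Agent.R4C.Rough_882

set_option autoImplicit false

open Finset

namespace Crest.Agent.R4C.RPlusx817

/-! ### parameters -/

open Classical in
/-- rough numbers in a dyadic interval -/
def RoughCount (Cr : ℝ) : Prop := ∀ x : ℝ, 2 ≤ x → ∀ Y : ℕ, 1 ≤ Y →
  (((Finset.Ico Y (2 * Y)).filter (fun l => 1 < l ∧ ∀ p : ℕ, p.Prime → p ∣ l → x < p)).card : ℝ) ≤
    Cr * Y / Real.log x

lemma log_pow_le {a b : ℝ} (ha : 0 < a) (hb : 0 < b) {x : ℝ} (hx : 1 ≤ x) :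
    Real.log x ^ a ≤ (a / b) ^ a * x ^ b := by
  have hx0 : 0 < x := by linarith
  have h1 : Real.log x ≤ x ^ (b / a) / (b / a) := Real.log_le_rpow_div hx0.le (by positivity)
  have h2 : x ^ (b / a) / (b / a) = (a / b) * x ^ (b / a) := by field_simp
  calc Real.log x ^ a ≤ ((a / b) * x ^ (b / a)) ^ a := by
        rw [← h2]; exact Real.rpow_le_rpow (Real.log_nonneg hx) h1 ha.le
    _ = (a / b) ^ a * x ^ b := by
        rw [Real.mul_rpow (by positivity) (by positivity), ← Real.rpow_mul hx0.le,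
          div_mul_cancel₀ _ ha.ne']

lemma exists_k {η : ℝ} (hη : 0 < η) {t : ℝ} (ht : 4 ≤ t) :
    ∃ k : ℕ, t ≤ 2 ^ k ∧ (k : ℝ) ≤ (2 / η + 1) * t ^ η := by
  have ht0 : 0 < t := by linarith
  have hl2 : (1 : ℝ) / 2 ≤ Real.log 2 := by have := Real.log_two_gt_d9; linarith
  have hl20 : 0 < Real.log 2 := by linarith
  have hlt : 0 ≤ Real.log t := Real.log_nonneg (by linarith)
  refine ⟨⌈Real.log t / Real.log 2⌉₊, ?_, ?_⟩
  · have h1 := Nat.le_ceil (Real.log t / Real.log 2)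
    rw [div_le_iff₀ hl20] at h1
    rw [← Real.log_le_log_iff ht0 (by positivity), Real.log_pow]
    exact h1
  · have h1 := (Nat.ceil_lt_add_one (a := Real.log t / Real.log 2) (by positivity)).le
    refine h1.trans ?_
    have h2 : Real.log t / Real.log 2 ≤ 2 / η * t ^ η := by
      calc Real.log t / Real.log 2 ≤ Real.log t * 2 := by
            rw [div_le_iff₀ hl20]
            nlinarith
        _ ≤ (t ^ η / η) * 2 := mul_le_mul_of_nonneg_right (Real.log_le_rpow_div ht0.le hη) (by norm_num)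
        _ = _ := by ring
    have h3 : 1 ≤ t ^ η := Real.one_le_rpow (by linarith) hη.le
    nlinarith

lemma good_ex {κ δ : ℝ} (h1 : 1 / 2 < κ) (h2 : κ < 1) (hδ0 : 0 ≤ δ) (hδ : δ < 1 - κ) :
    ∃ P0 : ℝ, 2 ≤ P0 ∧ ∀ p : ℕ, P0 ≤ p →
      Good κ (fun p => Multix251.om κ δ ((p : ℝ)⁻¹)) (fun p => Multix251.x1 κ δ ((p : ℝ)⁻¹)) p := by
  obtain ⟨w0, hw0, H⟩ := Multix251.multi_range h1 h2 hδ
  refine ⟨max 2 (max w0⁻¹ (2 ^ (1 / (1 - κ)))), le_max_left _ _, fun p hp => ?_⟩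
  have hp2 : (2 : ℝ) ≤ p := (le_max_left _ _).trans hp
  have hpw : w0⁻¹ ≤ p := ((le_max_left _ _).trans (le_max_right _ _)).trans hp
  have hpκ : (2 : ℝ) ^ (1 / (1 - κ)) ≤ p := ((le_max_right _ _).trans (le_max_right _ _)).trans hp
  have hp0 : (0 : ℝ) < p := by linarith
  have hw : 0 < (p : ℝ)⁻¹ := inv_pos.2 hp0
  have hww : (p : ℝ)⁻¹ ≤ w0 := by rw [inv_le_comm₀ hp0 hw0]; exact hpw
  have hw1 : (p : ℝ)⁻¹ ≤ 1 := inv_le_one_of_one_le₀ (by linarith)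
  refine ⟨?_, ?_, ?_, (Multix251.x1_pos (by linarith) hw).le⟩
  · intro n x y hx hy hx1 hy1
    rcases H _ hw hww n x y (fun v _ => hx v) (fun v _ => hy v) hx1 hy1 with ⟨v0, a, b, c, _⟩ | h
    · exact Or.inl ⟨v0, a, b, c⟩
    · right
      have hpos := Multix251.x1_pos (κ := κ) (δ := δ) (by linarith) hw
      refine le_trans h ?_
      have : 0 ≤ κ / 2 * Multix251.x1 κ δ (p : ℝ)⁻¹ := by positivity
      linarith
  · exact Real.rpow_le_rpow_of_exponent_ge hw hw1 (by linarith)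
  · have h1κ : 0 < 1 - κ := by linarith
    rw [Real.inv_rpow hp0.le]
    rw [inv_le_comm₀ (by positivity) (by norm_num)]
    calc (1 / 2 : ℝ)⁻¹ = ((2 : ℝ) ^ (1 / (1 - κ))) ^ (1 - κ) := by
          rw [← Real.rpow_mul (by norm_num), one_div_mul_cancel h1κ.ne', Real.rpow_one]; norm_num
      _ ≤ (p : ℝ) ^ (1 - κ) := Real.rpow_le_rpow (by positivity) hpκ h1κ.le

lemma sum_tail {c : ℝ} (hc : 0 < c) : ∃ K, 0 < K ∧ ∀ x : ℝ, 1 ≤ x → ∀ U : Finset ℕ,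
    (∀ p ∈ U, x ≤ (p : ℝ)) → ∑ p ∈ U, ((p : ℝ)⁻¹) ^ (1 + c) ≤ K * x ^ (-(c / 2)) := by
  have hs : Summable (fun n : ℕ => 1 / (n : ℝ) ^ (1 + c / 2)) :=
    Real.summable_one_div_nat_rpow.2 (by linarith)
  refine ⟨∑' n : ℕ, 1 / (n : ℝ) ^ (1 + c / 2) + 1, ?_, ?_⟩
  · have : 0 ≤ ∑' n : ℕ, 1 / (n : ℝ) ^ (1 + c / 2) := tsum_nonneg fun n => by positivity
    linarith
  · intro x hx U hU
    have hx0 : 0 < x := by linarith
    have h1 : ∀ p ∈ U, ((p : ℝ)⁻¹) ^ (1 + c) ≤ 1 / (p : ℝ) ^ (1 + c / 2) * x ^ (-(c / 2)) := by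
      intro p hp
      have hp0 : (0 : ℝ) < p := lt_of_lt_of_le hx0 (hU p hp)
      have e : ((p : ℝ)⁻¹) ^ (1 + c) = 1 / (p : ℝ) ^ (1 + c / 2) * (p : ℝ) ^ (-(c / 2)) := by
        rw [Real.inv_rpow hp0.le, Real.rpow_neg hp0.le, one_div, ← mul_inv, ← Real.rpow_add hp0]
        congr 2; ring
      rw [e]
      refine mul_le_mul_of_nonneg_left ?_ (by positivity)
      exact Real.rpow_le_rpow_of_nonpos hx0 (hU p hp) (by linarith)
    calc _ ≤ ∑ p ∈ U, 1 / (p : ℝ) ^ (1 + c / 2) * x ^ (-(c / 2)) := sum_le_sum h1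
      _ = (∑ p ∈ U, 1 / (p : ℝ) ^ (1 + c / 2)) * x ^ (-(c / 2)) := by rw [sum_mul]
      _ ≤ _ := by
        refine mul_le_mul_of_nonneg_right ?_ (by positivity)
        have := hs.sum_le_tsum U (fun n _ => by positivity)
        linarith

lemma RP.mono {κ τ : ℝ} {M : ℕ} {Z : Finset ℕ} {z0 : ℕ → ℕ} {ε ε' : ℝ} (h : RP κ τ M Z z0 ε)
    (hε : ε ≤ ε') : RP κ τ M Z z0 ε' := by
  intro X f g hX hf hg
  refine (h X f g hX hf hg).trans (add_le_add le_rfl (mul_le_mul_of_nonneg_right hε ?_))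
  exact Real.rpow_nonneg (mul_nonneg (ma_nonneg hX.le fun b => (hf b).1)
    (ma_nonneg hX.le fun b => (hg b).1)) _

lemma CR.mono {κ τ : ℝ} {M : ℕ} {Z : Finset ℕ} {z0 : ℕ → ℕ} {ε ε' : ℝ} (h : CR κ τ M Z z0 ε)
    (hε : ε ≤ ε') : CR κ τ M Z z0 ε' := by
  intro X f g hX hf hg
  refine (h X f g hX hf hg).trans (mul_le_mul_of_nonneg_right hε ?_)
  exact Real.rpow_nonneg (mul_nonneg (ma_nonneg hX.le fun b => (hf b).1)
    (ma_nonneg hX.le fun b => (hg b).1)) _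

open Classical in
/-- the count of divisors of the centre in a dyadic class -/
lemma ctr_count {Cr : ℝ} (hCr : RoughCount Cr) {x : ℝ} (hx : 2 ≤ x) {Z : Finset ℕ} {z0 : ℕ → ℕ}
    (hZ : ∀ p ∈ Z, p.Prime) (hZx : ∀ p ∈ Z, x < (p : ℝ)) {i : ℕ} (hi : 1 ≤ i) :
    (((ctr Z z0).divisors.filter (fun l => Nat.log 2 l = i)).card : ℝ) ≤
      Cr / Real.log x * 2 ^ i := by
  have hH0 : ctr Z z0 ≠ 0 := ctr_ne_zero hZ
  have hsub : (ctr Z z0).divisors.filter (fun l => Nat.log 2 l = i) ⊆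
      (Finset.Ico (2 ^ i) (2 * 2 ^ i)).filter
        (fun l => 1 < l ∧ ∀ p : ℕ, p.Prime → p ∣ l → x < (p : ℝ)) := by
    intro l hl
    rw [mem_filter] at hl
    have hld := Nat.dvd_of_mem_divisors hl.1
    have hl0 : l ≠ 0 := fun h => hH0 (zero_dvd_iff.1 (h ▸ hld))
    have h1 := Nat.pow_log_le_self 2 hl0
    have h2 := Nat.lt_pow_succ_log_self (b := 2) (by norm_num) l
    rw [hl.2] at h1 h2
    rw [mem_filter, mem_Ico]
    have h3 : 2 ^ 1 ≤ 2 ^ i := Nat.pow_le_pow_right (by norm_num) hi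
    refine ⟨⟨h1, by rw [pow_succ] at h2; omega⟩, by omega, fun p hp hpl => ?_⟩
    have hpd : p ∣ ctr Z z0 := hpl.trans hld
    unfold ctr at hpd
    rw [Prime.dvd_finsetProd_iff hp.prime] at hpd
    obtain ⟨q, hq, hpq⟩ := hpd
    have := (Nat.prime_dvd_prime_iff_eq hp (hZ q hq)).1 (hp.dvd_of_dvd_pow hpq)
    rw [this]
    exact hZx q hq
  have h := hCr x hx (2 ^ i) (Nat.one_le_two_pow)
  calc _ ≤ (((Finset.Ico (2 ^ i) (2 * 2 ^ i)).filter
        (fun l => 1 < l ∧ ∀ p : ℕ, p.Prime → p ∣ l → x < (p : ℝ))).card : ℝ) := by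
        exact_mod_cast card_le_card hsub
    _ ≤ Cr * ((2 ^ i : ℕ) : ℝ) / Real.log x := h
    _ = _ := by push_cast; ring

set_option maxHeartbeats 1600000 in
/-- **(R+)** for general exponents. -/
theorem rplus {Cr : ℝ} (hCr0 : 0 ≤ Cr) (hCr : RoughCount Cr) {C1 : ℝ} (hC1 : 0 ≤ C1) :
    ∃ η K Z0 : ℝ, 0 < η ∧ η ≤ 1 / 8 ∧ 0 < K ∧ 3 ≤ Z0 ∧
    ∀ x : ℝ, Z0 ≤ x → ∀ M : ℕ, M ≠ 0 → (∀ p ∈ M.primeFactors, x < (p : ℝ)) →
    ∀ τ : ℝ, 1 ≤ τ → τ ≤ Real.log x ^ C1 →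
    ∀ (X : ℝ) (f g : ℕ → ℝ), 0 < X → (∀ b, 0 ≤ f b ∧ f b ≤ 1) → (∀ b, 0 ≤ g b ∧ g b ≤ 1) →
    En M ∅ (fun _ => 0) X τ f g ≤ min (ma M X f) (ma M X g) +
      K * Real.log x ^ (-(1 / 4) : ℝ) * (ma M X f * ma M X g) ^ ((1 + η) / 2) := by
  set η : ℝ := 1 / (8 * (C1 + 1)) with hηd
  have hη0 : 0 < η := by positivity
  have hη1 : η ≤ 1 / 8 := by
    rw [hηd]; apply one_div_le_one_div_of_le (by norm_num); linarith
  have hηC : 2 * C1 * η = 1 / 4 - 2 * η := by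
    rw [hηd]; field_simp; ring
  set κ : ℝ := (1 + η) / 2 with hκd
  have hκ : 1 / 2 < κ := by rw [hκd]; linarith
  have hκ1 : κ < 1 := by rw [hκd]; linarith
  have h2κ : 2 * κ - 1 = η := by rw [hκd]; ring
  have h1κ : 1 - κ = (1 - η) / 2 := by rw [hκd]; ring
  set δ : ℝ := (1 - κ) * (η / 4) with hδd
  have h1κ0 : 0 < 1 - κ := by linarith
  have hδ0 : 0 < δ := by positivity
  have hδ1 : δ < 1 - κ := by
    rw [hδd]; nlinarith
  have hδκ : δ / (1 - κ) = η / 4 := by rw [hδd]; field_simp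
  obtain ⟨P0, hP0, hgood⟩ := good_ex hκ hκ1 hδ0.le hδ1
  -- the tail
  set c : ℝ := (1 - η / 4) * (2 * κ) - 1 with hcd
  have hc : η / 2 ≤ c := by
    rw [hcd]
    have : 2 * κ = 1 + η := by linarith
    rw [this]; nlinarith
  have hc0 : 0 < c := by linarith
  obtain ⟨K4, hK4, htail⟩ := sum_tail hc0
  set A := Multix251.A0 κ with hA
  have hA0 : 0 < A := Multix251.A0_pos (by linarith)
  have hx1 : ∀ p : ℕ, 0 < p → (Multix251.x1 κ δ ((p : ℝ)⁻¹)) ^ (2 * κ) =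
      A ^ (2 * κ) * ((p : ℝ)⁻¹) ^ (1 + c) := by
    intro p hp
    have hw : 0 < (p : ℝ)⁻¹ := inv_pos.2 (by exact_mod_cast hp)
    unfold Multix251.x1
    rw [Real.mul_rpow hA0.le (by positivity), ← Real.rpow_mul hw.le, hδκ]
    congr 2
    rw [hcd]; ring
  set K1 : ℝ := 2 / η + 1 with hK1
  have hK10 : 0 < K1 := by positivity
  set K5 : ℝ := Real.exp (4 * A ^ (2 * κ) * K4) with hK5
  have hK50 : 0 < K5 := Real.exp_pos _
  -- log versus powers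
  set K7 : ℝ := ((1 / 2) / δ) ^ (1 / 2 : ℝ) with hK7
  set K8 : ℝ := ((1 / 2) / (c / 2)) ^ (1 / 2 : ℝ) with hK8
  have hK70 : 0 < K7 := by positivity
  have hK80 : 0 < K8 := by positivity
  set K : ℝ := (4 * K1) * K5 * K7 + (4 * K1) * (Cr ^ (1 - κ)) +
    (4 * K1) * K5 * (4 * A ^ (2 * κ) * K4) * K8 + 1 with hK
  have hKpos : 0 < K := by positivity
  refine ⟨η, K, max 3 P0, hη0, hη1, hKpos, le_max_left _ _, ?_⟩
  intro x hx M hM hMx τ hτ hτ1 X f g hX hf hg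
  have hx3 : 3 ≤ x := (le_max_left _ _).trans hx
  have hxP : P0 ≤ x := (le_max_right _ _).trans hx
  have hx0 : 0 < x := by linarith
  set L := Real.log x with hL
  have hL1 : 1 ≤ L := by
    rw [hL, Real.le_log_iff_exp_le hx0]
    have := Real.exp_one_lt_d9
    linarith
  have hL0 : 0 < L := by linarith
  set t : ℝ := 4 * τ with ht
  have ht4 : 4 ≤ t := by rw [ht]; linarith
  have ht0 : 0 < t := by linarith
  obtain ⟨k, hk, hkle⟩ := exists_k hη0 ht4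
  -- `k t^η ≤ 4 K1 L^(1/4 - 2η)`
  have hkt : (k : ℝ) * t ^ η ≤ 4 * K1 * L ^ (1 / 4 - 2 * η) := by
    calc (k : ℝ) * t ^ η ≤ (K1 * t ^ η) * t ^ η := mul_le_mul_of_nonneg_right hkle (by positivity)
      _ = K1 * t ^ (2 * η) := by
          rw [mul_assoc, ← Real.rpow_add ht0]; congr 2; ring
      _ ≤ K1 * (4 * L ^ C1) ^ (2 * η) := by
          refine mul_le_mul_of_nonneg_left (Real.rpow_le_rpow ht0.le ?_ (by positivity)) hK10.le
          rw [ht]; linarith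
      _ = K1 * (4 ^ (2 * η) * L ^ (1 / 4 - 2 * η)) := by
          rw [Real.mul_rpow (by norm_num) (by positivity), ← Real.rpow_mul hL0.le]
          congr 3
          linarith
      _ ≤ K1 * (4 * L ^ (1 / 4 - 2 * η)) := by
          refine mul_le_mul_of_nonneg_left (mul_le_mul_of_nonneg_right ?_ (by positivity)) hK10.le
          calc (4 : ℝ) ^ (2 * η) ≤ 4 ^ (1 : ℝ) :=
                Real.rpow_le_rpow_of_exponent_le (by norm_num) (by linarith)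
            _ = 4 := Real.rpow_one 4
      _ = _ := by ring
  set C0 : ℝ := k * t ^ η with hC0
  have hC00 : 0 ≤ C0 := by positivity
  set C : ℝ := C0 * K5 with hC
  have hC0' : 0 ≤ C := by positivity
  have hCle : C ≤ (4 * K1) * K5 * L ^ (1 / 4 : ℝ) := by
    calc C ≤ (4 * K1 * L ^ (1 / 4 - 2 * η)) * K5 := mul_le_mul_of_nonneg_right hkt hK50.le
      _ ≤ (4 * K1 * L ^ (1 / 4 : ℝ)) * K5 := by
          refine mul_le_mul_of_nonneg_right (mul_le_mul_of_nonneg_left ?_ (by positivity)) hK50.le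
          exact Real.rpow_le_rpow_of_exponent_le hL1 (by linarith)
      _ = _ := by ring
  -- sums
  have hsum : ∀ U : Finset ℕ, (∀ p ∈ U, x < (p : ℝ)) →
      ∑ p ∈ U, 4 * (Multix251.x1 κ δ ((p : ℝ)⁻¹)) ^ (2 * κ) ≤
        4 * A ^ (2 * κ) * K4 * x ^ (-(c / 2)) := by
    intro U hU
    have h1 := htail x (by linarith) U (fun p hp => (hU p hp).le)
    calc ∑ p ∈ U, 4 * (Multix251.x1 κ δ ((p : ℝ)⁻¹)) ^ (2 * κ)
        = 4 * A ^ (2 * κ) * ∑ p ∈ U, ((p : ℝ)⁻¹) ^ (1 + c) := by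
          rw [mul_sum]
          refine sum_congr rfl fun p hp => ?_
          have hp0 : 0 < p := by
            have := hU p hp
            have h2 : (0 : ℝ) < p := by linarith
            exact_mod_cast h2
          rw [hx1 p hp0]; ring
      _ ≤ 4 * A ^ (2 * κ) * (K4 * x ^ (-(c / 2))) := mul_le_mul_of_nonneg_left h1 (by positivity)
      _ = _ := by ring
  have hxc1 : x ^ (-(c / 2)) ≤ 1 := Real.rpow_le_one_of_one_le_of_nonpos (by linarith) (by linarith)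
  have hS0 : ∀ p : ℕ, x < (p : ℝ) →
      Good κ (fun p => Multix251.om κ δ ((p : ℝ)⁻¹)) (fun p => Multix251.x1 κ δ ((p : ℝ)⁻¹)) p :=
    fun p hp => hgood p (hxP.trans hp.le)
  -- crude
  have hcr : AllCR κ τ C (fun p => x < (p : ℝ)) := by
    intro M' Z z0 hM' hZ hS hz
    have h1 := crude_rec (κ := κ) (τ := τ) (ω := fun p => Multix251.om κ δ ((p : ℝ)⁻¹))
      (x1 := fun p => Multix251.x1 κ δ ((p : ℝ)⁻¹)) hκ.le hκ1.le hC00
      (fun M Z z0 hM hMZ hz => by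
        have := crude_base hκ.le hκ1.le hτ hk hM hMZ hz
        rw [h2κ] at this
        exact this) (M'.primeFactors \ Z) M' Z z0 hM'
      (by rw [union_sdiff_of_subset hZ]) disjoint_sdiff
      (fun p hp => hS0 p (hS p (mem_sdiff.1 hp).1)) hz
    refine h1.mono (mul_le_mul_of_nonneg_left ?_ hC00)
    have h2 := hsum (M'.primeFactors \ Z) (fun p hp => hS p (mem_sdiff.1 hp).1)
    calc ∏ p ∈ M'.primeFactors \ Z, (1 + 4 * (Multix251.x1 κ δ ((p : ℝ)⁻¹)) ^ (2 * κ))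
        ≤ ∏ p ∈ M'.primeFactors \ Z, Real.exp (4 * (Multix251.x1 κ δ ((p : ℝ)⁻¹)) ^ (2 * κ)) := by
          refine prod_le_prod (fun p hp => ?_) fun p _ => ?_
          · have hpp : 0 < p := (Nat.prime_of_mem_primeFactors (mem_sdiff.1 hp).1).pos
            have := Multix251.x1_pos (κ := κ) (δ := δ) (w := (p : ℝ)⁻¹) (by linarith)
              (inv_pos.2 (by exact_mod_cast hpp))
            positivity
          · have := Real.add_one_le_exp (4 * (Multix251.x1 κ δ ((p : ℝ)⁻¹)) ^ (2 * κ))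
            linarith
      _ = Real.exp (∑ p ∈ M'.primeFactors \ Z, 4 * (Multix251.x1 κ δ ((p : ℝ)⁻¹)) ^ (2 * κ)) := by
          rw [Real.exp_sum]
      _ ≤ K5 := by
          rw [hK5]
          apply Real.exp_le_exp.2
          refine h2.trans ?_
          exact mul_le_of_le_one_right (by positivity) hxc1
  set θ : ℝ := Cr / L with hθ
  have hθ0 : 0 ≤ θ := by positivity
  set ε0 : ℝ := C * x ^ (-δ) + k * (t ^ η * θ ^ (1 - κ)) with hε0
  have hε00 : 0 ≤ ε0 := by positivity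
  have hmain := rplus_rec (κ := κ) (τ := τ) (ω := fun p => Multix251.om κ δ ((p : ℝ)⁻¹))
    (x1 := fun p => Multix251.x1 κ δ ((p : ℝ)⁻¹)) hκ.le hκ1.le hC0' hε00 (fun p => x < (p : ℝ)) hcr
    (fun p hp => by
      refine ⟨hS0 p hp, ?_⟩
      have hp0 : (0 : ℝ) < p := by linarith
      have hw : 0 < (p : ℝ)⁻¹ := inv_pos.2 hp0
      have e : ((p : ℝ)⁻¹) ^ (1 - κ) / Multix251.om κ δ ((p : ℝ)⁻¹) = ((p : ℝ)⁻¹) ^ δ := by
        unfold Multix251.om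
        rw [← Real.rpow_sub hw]; congr 1; ring
      rw [e]
      have h1 : ((p : ℝ)⁻¹) ^ δ ≤ x ^ (-δ) := by
        rw [Real.inv_rpow hp0.le, ← Real.rpow_neg hp0.le]
        exact Real.rpow_le_rpow_of_nonpos hx0 hp.le (by linarith)
      have h2 : 0 ≤ k * (t ^ η * θ ^ (1 - κ)) := by positivity
      have := mul_le_mul_of_nonneg_left h1 hC0'
      rw [hε0]; linarith)
    (fun M Z z0 hM hMZ hS hz => by
      have hZp : ∀ p ∈ Z, p.Prime := fun p hp => Nat.prime_of_mem_primeFactors (hMZ ▸ hp)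
      have := rp_base hκ.le hκ1.le hτ hk hθ0 hM hMZ hz
        (fun i hi => ctr_count hCr (by linarith) hZp hS hi)
      rw [h2κ] at this
      refine this.mono ?_
      have : 0 ≤ C * x ^ (-δ) := by positivity
      rw [hε0]; linarith)
    M.primeFactors M ∅ (fun _ => 0) hM (by simp) (by simp) (by simpa using hMx) (by simp)
  refine (hmain X f g hX hf hg).trans (add_le_add le_rfl (mul_le_mul_of_nonneg_right ?_
    (Real.rpow_nonneg (mul_nonneg (ma_nonneg hX.le fun b => (hf b).1)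
    (ma_nonneg hX.le fun b => (hg b).1)) _)))
  -- the final numeric bound
  have hsumM := hsum M.primeFactors hMx
  have hLq : L ^ (1 / 4 : ℝ) = L ^ (-(1 / 4) : ℝ) * L ^ (1 / 2 : ℝ) := by
    rw [← Real.rpow_add hL0]; norm_num
  have hLn : 0 < L ^ (-(1 / 4) : ℝ) := by positivity
  have b1 : C * x ^ (-δ) ≤ (4 * K1) * K5 * K7 * L ^ (-(1 / 4) : ℝ) := by
    have h1 : L ^ (1 / 2 : ℝ) * x ^ (-δ) ≤ K7 := by
      have := log_pow_le (a := 1 / 2) (b := δ) (by norm_num) hδ0 (x := x) (by linarith)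
      rw [Real.rpow_neg hx0.le]
      rw [← div_eq_mul_inv, div_le_iff₀ (by positivity)]
      exact this
    calc C * x ^ (-δ) ≤ ((4 * K1) * K5 * L ^ (1 / 4 : ℝ)) * x ^ (-δ) :=
          mul_le_mul_of_nonneg_right hCle (by positivity)
      _ = (4 * K1) * K5 * L ^ (-(1 / 4) : ℝ) * (L ^ (1 / 2 : ℝ) * x ^ (-δ)) := by rw [hLq]; ring
      _ ≤ (4 * K1) * K5 * L ^ (-(1 / 4) : ℝ) * K7 := mul_le_mul_of_nonneg_left h1 (by positivity)
      _ = _ := by ring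
  have b3 : C * (4 * A ^ (2 * κ) * K4 * x ^ (-(c / 2))) ≤
      (4 * K1) * K5 * (4 * A ^ (2 * κ) * K4) * K8 * L ^ (-(1 / 4) : ℝ) := by
    have h1 : L ^ (1 / 2 : ℝ) * x ^ (-(c / 2)) ≤ K8 := by
      have := log_pow_le (a := 1 / 2) (b := c / 2) (by norm_num) (by positivity) (x := x) (by linarith)
      rw [Real.rpow_neg hx0.le]
      rw [← div_eq_mul_inv, div_le_iff₀ (by positivity)]
      exact this
    calc C * (4 * A ^ (2 * κ) * K4 * x ^ (-(c / 2)))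
        ≤ ((4 * K1) * K5 * L ^ (1 / 4 : ℝ)) * (4 * A ^ (2 * κ) * K4 * x ^ (-(c / 2))) :=
          mul_le_mul_of_nonneg_right hCle (by positivity)
      _ = (4 * K1) * K5 * (4 * A ^ (2 * κ) * K4) * L ^ (-(1 / 4) : ℝ) *
          (L ^ (1 / 2 : ℝ) * x ^ (-(c / 2))) := by rw [hLq]; ring
      _ ≤ (4 * K1) * K5 * (4 * A ^ (2 * κ) * K4) * L ^ (-(1 / 4) : ℝ) * K8 :=
          mul_le_mul_of_nonneg_left h1 (by positivity)
      _ = _ := by ring
  have b2 : (k : ℝ) * (t ^ η * θ ^ (1 - κ)) ≤ (4 * K1) * (Cr ^ (1 - κ)) * L ^ (-(1 / 4) : ℝ) := by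
    calc (k : ℝ) * (t ^ η * θ ^ (1 - κ)) = (k * t ^ η) * θ ^ (1 - κ) := by ring
      _ ≤ (4 * K1 * L ^ (1 / 4 - 2 * η)) * θ ^ (1 - κ) := mul_le_mul_of_nonneg_right hkt (by positivity)
      _ = (4 * K1) * (Cr ^ (1 - κ)) * L ^ ((1 / 4 - 2 * η) - (1 - κ)) := by
          rw [hθ, Real.div_rpow hCr0 hL0.le, Real.rpow_sub hL0 (1 / 4 - 2 * η) (1 - κ)]; ring
      _ ≤ (4 * K1) * (Cr ^ (1 - κ)) * L ^ (-(1 / 4) : ℝ) := by
          refine mul_le_mul_of_nonneg_left ?_ (by positivity)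
          refine Real.rpow_le_rpow_of_exponent_le hL1 ?_
          rw [h1κ]; linarith
  have e : ∑ p ∈ M.primeFactors, C * (4 * (Multix251.x1 κ δ ((p : ℝ)⁻¹)) ^ (2 * κ)) =
      C * ∑ p ∈ M.primeFactors, 4 * (Multix251.x1 κ δ ((p : ℝ)⁻¹)) ^ (2 * κ) := by rw [mul_sum]
  rw [e]
  have b4 := (mul_le_mul_of_nonneg_left hsumM hC0').trans b3
  calc _ ≤ ((4 * K1) * K5 * K7 * L ^ (-(1 / 4) : ℝ) + (4 * K1) * (Cr ^ (1 - κ)) * L ^ (-(1 / 4) : ℝ)) +
        (4 * K1) * K5 * (4 * A ^ (2 * κ) * K4) * K8 * L ^ (-(1 / 4) : ℝ) :=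
        add_le_add (add_le_add b1 b2) b4
    _ ≤ K * L ^ (-(1 / 4) : ℝ) := by
        rw [hK]; nlinarith

/-- **(R+)** for general exponents, unconditional. -/
theorem rplus' {C1 : ℝ} (hC1 : 0 ≤ C1) :
    ∃ η K Z0 : ℝ, 0 < η ∧ η ≤ 1 / 8 ∧ 0 < K ∧ 3 ≤ Z0 ∧
    ∀ x : ℝ, Z0 ≤ x → ∀ M : ℕ, M ≠ 0 → (∀ p ∈ M.primeFactors, x < (p : ℝ)) →
    ∀ τ : ℝ, 1 ≤ τ → τ ≤ Real.log x ^ C1 →
    ∀ (X : ℝ) (f g : ℕ → ℝ), 0 < X → (∀ b, 0 ≤ f b ∧ f b ≤ 1) → (∀ b, 0 ≤ g b ∧ g b ≤ 1) →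
    En M ∅ (fun _ => 0) X τ f g ≤ min (ma M X f) (ma M X g) +
      K * Real.log x ^ (-(1 / 4) : ℝ) * (ma M X f * ma M X g) ^ ((1 + η) / 2) := by
  obtain ⟨Cr, hCr0, hCr⟩ := Roughx882.rough_count
  exact rplus hCr0.le hCr hC1

end Crest.Agent.R4C.RPlusx817
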