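import Crest.Agent.R4C.RPlus_817

set_option autoImplicit false

open Finset

namespace Crest.Agent.R4C.RPlusx817

/-! ### leaves -/

lemma sum_totient_filter {M d : ℕ} (hM : M ≠ 0) (hd : d ∣ M) :
    ∑ b ∈ M.divisors.filter (d ∣ ·), Nat.totient (M / b) = M / d := by
  have hd0 : d ≠ 0 := fun h => hM (zero_dvd_iff.1 (h ▸ hd))
  have hMd : M / d ≠ 0 := (Nat.div_pos (Nat.le_of_dvd (Nat.pos_of_ne_zero hM) hd)
    (Nat.pos_of_ne_zero hd0)).ne'
  rw [← Nat.sum_totient (M / d)]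
  refine sum_nbij' (fun b => M / b) (fun e => M / e) ?_ ?_ ?_ ?_ ?_
  · intro b hb
    rw [mem_filter, Nat.mem_divisors] at hb
    rw [Nat.mem_divisors]
    exact ⟨Nat.div_dvd_div_left hb.1.1 hb.2, hMd⟩
  · intro e he
    rw [Nat.mem_divisors] at he
    rw [mem_filter, Nat.mem_divisors]
    have h1 : e * d ∣ M := by
      have := Nat.mul_dvd_mul_right he.1 d
      rwa [Nat.div_mul_cancel hd] at this
    exact ⟨⟨Nat.div_dvd_of_dvd (dvd_of_mul_right_dvd h1), hM⟩, Nat.dvd_div_of_mul_dvd h1⟩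
  · intro b hb
    rw [mem_filter, Nat.mem_divisors] at hb
    exact Nat.div_div_self hb.1.1 hM
  · intro e he
    rw [Nat.mem_divisors] at he
    have h1 : e ∣ M := he.1.trans (Nat.div_dvd_of_dvd hd)
    exact Nat.div_div_self h1 hM
  · intro b _
    rfl

lemma sum_nu_filter {M d : ℕ} (hM : M ≠ 0) (hd : d ∣ M) :
    ∑ b ∈ M.divisors.filter (d ∣ ·), nu M b = 1 / d := by
  have hd0 : d ≠ 0 := fun h => hM (zero_dvd_iff.1 (h ▸ hd))
  have hM0 : (M : ℝ) ≠ 0 := by exact_mod_cast hM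
  have hd0' : (d : ℝ) ≠ 0 := by exact_mod_cast hd0
  unfold nu
  rw [← sum_div, ← Nat.cast_sum, sum_totient_filter hM hd, Nat.cast_div hd hd0']
  field_simp

/-- downward part of `b` with respect to the centre `H` -/
def lo (H b : ℕ) : ℕ := H / Nat.gcd b H

lemma lo_dvd (H b : ℕ) : lo H b ∣ H := Nat.div_dvd_of_dvd (Nat.gcd_dvd_right b H)

/-- fibre mass -/
noncomputable def Gf (M H : ℕ) (f : ℕ → ℝ) (l : ℕ) : ℝ :=
  ∑ b ∈ M.divisors.filter (fun b => lo H b = l), nu M b * f b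

noncomputable def Ff (M H : ℕ) (f : ℕ → ℝ) (l : ℕ) : ℝ := (H : ℝ) / l * Gf M H f l

lemma Gf_nonneg {M H : ℕ} {f : ℕ → ℝ} (hf : ∀ b, 0 ≤ f b) (l : ℕ) : 0 ≤ Gf M H f l :=
  sum_nonneg fun b _ => mul_nonneg (nu_nonneg M b) (hf b)

lemma Ff_nonneg {M H : ℕ} {f : ℕ → ℝ} (hf : ∀ b, 0 ≤ f b) (l : ℕ) : 0 ≤ Ff M H f l :=
  mul_nonneg (by positivity) (Gf_nonneg hf l)

lemma Ff_le {M H : ℕ} (hM : M ≠ 0) (hH : H ∣ M) {f : ℕ → ℝ} (hf : ∀ b, 0 ≤ f b ∧ f b ≤ 1) {l : ℕ}
    (hl : l ∣ H) : Ff M H f l ≤ 1 := by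
  have hH0 : H ≠ 0 := fun h => hM (zero_dvd_iff.1 (h ▸ hH))
  have hl0 : l ≠ 0 := fun h => hH0 (zero_dvd_iff.1 (h ▸ hl))
  have hHp : (0 : ℝ) < H := by exact_mod_cast Nat.pos_of_ne_zero hH0
  have hlp : (0 : ℝ) < l := by exact_mod_cast Nat.pos_of_ne_zero hl0
  have hdH : H / l ∣ M := (Nat.div_dvd_of_dvd hl).trans hH
  have h1 : Gf M H f l ≤ (l : ℝ) / H := by
    have h2 : Gf M H f l ≤ ∑ b ∈ M.divisors.filter (H / l ∣ ·), nu M b := by
      unfold Gf
      calc ∑ b ∈ M.divisors.filter (fun b => lo H b = l), nu M b * f b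
          ≤ ∑ b ∈ M.divisors.filter (fun b => lo H b = l), nu M b :=
            sum_le_sum fun b _ => mul_le_of_le_one_right (nu_nonneg M b) (hf b).2
        _ ≤ _ := by
            refine sum_le_sum_of_subset_of_nonneg ?_ fun b _ _ => nu_nonneg M b
            intro b hb
            rw [mem_filter] at hb ⊢
            refine ⟨hb.1, ?_⟩
            have : H / l = Nat.gcd b H := by
              rw [← hb.2]
              unfold lo
              exact Nat.div_div_self (Nat.gcd_dvd_right b H) hH0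
            rw [this]
            exact Nat.gcd_dvd_left b H
    refine h2.trans (le_of_eq ?_)
    rw [sum_nu_filter hM hdH, Nat.cast_div hl hlp.ne']
    field_simp
  unfold Ff
  calc (H : ℝ) / l * Gf M H f l ≤ (H : ℝ) / l * ((l : ℝ) / H) :=
        mul_le_mul_of_nonneg_left h1 (by positivity)
    _ = 1 := by field_simp

lemma ma_eq {M H : ℕ} (hM : M ≠ 0) (hH : H ∣ M) (X : ℝ) (f : ℕ → ℝ) :
    ma M X f = X / H * ∑ l ∈ H.divisors, (l : ℝ) * Ff M H f l := by
  have hH0 : H ≠ 0 := fun h => hM (zero_dvd_iff.1 (h ▸ hH))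
  have hHp : (0 : ℝ) < H := by exact_mod_cast Nat.pos_of_ne_zero hH0
  unfold ma
  rw [← sum_fiberwise_of_maps_to (s := M.divisors) (t := H.divisors) (g := lo H)
    (fun b _ => Nat.mem_divisors.2 ⟨lo_dvd H b, hH0⟩), mul_sum, mul_sum]
  refine sum_congr rfl fun l hl => ?_
  have hl0 : l ≠ 0 := fun h => hH0 (zero_dvd_iff.1 (h ▸ Nat.dvd_of_mem_divisors hl))
  have hlp : (0 : ℝ) < l := by exact_mod_cast Nat.pos_of_ne_zero hl0
  unfold Ff Gf
  field_simp

/-- the centre as an integer -/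
noncomputable def ctr (Z : Finset ℕ) (z0 : ℕ → ℕ) : ℕ := ∏ p ∈ Z, p ^ z0 p

lemma ctr_fac {Z : Finset ℕ} {z0 : ℕ → ℕ} (hZ : ∀ p ∈ Z, p.Prime) (q : ℕ) :
    (ctr Z z0).factorization q = if q ∈ Z then z0 q else 0 := by
  unfold ctr
  induction Z using Finset.induction_on with
  | empty => simp
  | insert p Z hp ih =>
    have hpp := hZ p (mem_insert_self p Z)
    rw [prod_insert hp]
    have hne : ∏ q ∈ Z, q ^ z0 q ≠ 0 := prod_ne_zero_iff.2 fun q hq =>
      pow_ne_zero _ (hZ q (mem_insert_of_mem hq)).ne_zero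
    rw [Nat.factorization_mul (pow_ne_zero _ hpp.ne_zero) hne, Finsupp.add_apply,
      ih (fun q hq => hZ q (mem_insert_of_mem hq)), hpp.factorization_pow]
    by_cases hqp : q = p
    · subst hqp
      simp [hp]
    · simp only [mem_insert, hqp, false_or]
      rw [Finsupp.single_eq_of_ne hqp, zero_add]

lemma ctr_ne_zero {Z : Finset ℕ} {z0 : ℕ → ℕ} (hZ : ∀ p ∈ Z, p.Prime) : ctr Z z0 ≠ 0 :=
  prod_ne_zero_iff.2 fun q hq => pow_ne_zero _ (hZ q hq).ne_zero

lemma leaf_gcd {M : ℕ} (hM : M ≠ 0) {Z : Finset ℕ} (hMZ : M.primeFactors = Z) {z0 : ℕ → ℕ}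
    {b c : ℕ} (hb : b ∣ M) (hc : c ∣ M) (h : Pas Z z0 b c) :
    Nat.gcd b c * (lo (ctr Z z0) b * lo (ctr Z z0) c) = ctr Z z0 := by
  have hZ : ∀ p ∈ Z, p.Prime := fun p hp => Nat.prime_of_mem_primeFactors (hMZ ▸ hp)
  have hb0 : b ≠ 0 := fun h => hM (zero_dvd_iff.1 (h ▸ hb))
  have hc0 : c ≠ 0 := fun h => hM (zero_dvd_iff.1 (h ▸ hc))
  set H := ctr Z z0 with hH
  have hH0 : H ≠ 0 := ctr_ne_zero hZ
  have hlb : lo H b ≠ 0 := fun h => hH0 (zero_dvd_iff.1 (h ▸ lo_dvd H b))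
  have hlc : lo H c ≠ 0 := fun h => hH0 (zero_dvd_iff.1 (h ▸ lo_dvd H c))
  have hg0 : Nat.gcd b c ≠ 0 := Nat.gcd_ne_zero_left hb0
  refine Nat.eq_of_factorization_eq (mul_ne_zero hg0 (mul_ne_zero hlb hlc)) hH0 fun q => ?_
  have elo : ∀ d, d ≠ 0 → (lo H d).factorization q = H.factorization q -
      min (d.factorization q) (H.factorization q) := by
    intro d hd
    unfold lo
    rw [Nat.factorization_div (Nat.gcd_dvd_right d H), Finsupp.tsub_apply,
      Nat.factorization_gcd hd hH0, Finsupp.inf_apply]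
  rw [Nat.factorization_mul hg0 (mul_ne_zero hlb hlc), Nat.factorization_mul hlb hlc,
    Finsupp.add_apply, Finsupp.add_apply, elo b hb0, elo c hc0,
    Nat.factorization_gcd hb0 hc0, Finsupp.inf_apply, hH, ctr_fac hZ]
  change min (b.factorization q) (c.factorization q) + _ = _
  by_cases hq : q ∈ Z
  · rw [if_pos hq]
    rcases h q hq with h1 | h1 <;> omega
  · rw [if_neg hq]
    have hMq : M.factorization q = 0 := by
      rw [← Finsupp.notMem_support_iff, Nat.support_factorization, hMZ]; exact hq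
    have h1 : b.factorization q ≤ 0 := by
      rw [← hMq]; exact (Nat.factorization_le_iff_dvd hb0 hM).2 hb q
    omega

lemma ctr_dvd {M : ℕ} (hM : M ≠ 0) {Z : Finset ℕ} (hMZ : M.primeFactors = Z) {z0 : ℕ → ℕ}
    (hz : ∀ p ∈ Z, z0 p ≤ M.factorization p) : ctr Z z0 ∣ M := by
  have hZ : ∀ p ∈ Z, p.Prime := fun p hp => Nat.prime_of_mem_primeFactors (hMZ ▸ hp)
  rw [← Nat.factorization_le_iff_dvd (ctr_ne_zero hZ) hM]
  intro q
  rw [ctr_fac hZ]
  split_ifs with h
  · exact hz q h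
  · exact Nat.zero_le _

open Classical in
/-- the leaf as a sum over pairs of divisors of the centre -/
lemma leaf_sum {M : ℕ} (hM : M ≠ 0) {Z : Finset ℕ} (hMZ : M.primeFactors = Z) {z0 : ℕ → ℕ}
    {X τ : ℝ} (hX : 0 < X) {f g : ℕ → ℝ}
    (hf : ∀ b, 0 ≤ f b) (hg : ∀ b, 0 ≤ g b) :
    En M Z z0 X τ f g ≤ X / (ctr Z z0) * ∑ l ∈ (ctr Z z0).divisors, ∑ l' ∈ (ctr Z z0).divisors,
      if (l : ℝ) * l' ≤ ctr Z z0 / X ∧ ctr Z z0 / X ≤ τ * (l * l') then
        Ff M (ctr Z z0) f l * Ff M (ctr Z z0) g l' else 0 := by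
  have hZ : ∀ p ∈ Z, p.Prime := fun p hp => Nat.prime_of_mem_primeFactors (hMZ ▸ hp)
  set H := ctr Z z0 with hH
  have hH0 : H ≠ 0 := ctr_ne_zero hZ
  have hHp : (0 : ℝ) < H := by exact_mod_cast Nat.pos_of_ne_zero hH0
  unfold En
  have hmap : ∀ b ∈ M.divisors, lo H b ∈ H.divisors := fun b _ => Nat.mem_divisors.2 ⟨lo_dvd H b, hH0⟩
  have key : ∀ b ∈ M.divisors, ∀ c ∈ M.divisors,
      (if Pas Z z0 b c ∧ X ≤ (Nat.gcd b c : ℝ) ∧ (Nat.gcd b c : ℝ) ≤ τ * X then
        X * (Nat.gcd b c : ℝ) * nu M b * nu M c * (f b * g c) else 0) ≤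
      if (lo H b : ℝ) * lo H c ≤ H / X ∧ H / X ≤ τ * (lo H b * lo H c) then
        X * (H / (lo H b * lo H c)) * ((nu M b * f b) * (nu M c * g c)) else 0 := by
    intro b hb c hc
    have hb' := Nat.dvd_of_mem_divisors hb
    have hc' := Nat.dvd_of_mem_divisors hc
    have hlb : (0 : ℝ) < lo H b := by
      exact_mod_cast Nat.pos_of_ne_zero fun h => hH0 (zero_dvd_iff.1 (h ▸ lo_dvd H b))
    have hlc : (0 : ℝ) < lo H c := by
      exact_mod_cast Nat.pos_of_ne_zero fun h => hH0 (zero_dvd_iff.1 (h ▸ lo_dvd H c))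
    have hnn : 0 ≤ (nu M b * f b) * (nu M c * g c) :=
      mul_nonneg (mul_nonneg (nu_nonneg _ _) (hf b)) (mul_nonneg (nu_nonneg _ _) (hg c))
    split_ifs with h1 h2 h3
    · have e := leaf_gcd hM hMZ hb' hc' h1.1
      have e' : (Nat.gcd b c : ℝ) * (lo H b * lo H c) = H := by exact_mod_cast e
      have e2 : (H : ℝ) / (lo H b * lo H c) = Nat.gcd b c := by
        rw [← e']; field_simp
      rw [e2]
      apply le_of_eq
      ring
    · exfalso
      apply h2
      have e := leaf_gcd hM hMZ hb' hc' h1.1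
      have e' : (Nat.gcd b c : ℝ) * (lo H b * lo H c) = H := by exact_mod_cast e
      have hll : (0 : ℝ) < lo H b * lo H c := mul_pos hlb hlc
      constructor
      · rw [le_div_iff₀ hX, ← e']
        nlinarith [h1.2.1]
      · rw [div_le_iff₀ hX, ← e']
        nlinarith [h1.2.2]
    · exact mul_nonneg (mul_nonneg hX.le (by positivity)) hnn
    · exact le_rfl
  calc _ ≤ ∑ b ∈ M.divisors, ∑ c ∈ M.divisors,
        if (lo H b : ℝ) * lo H c ≤ H / X ∧ H / X ≤ τ * (lo H b * lo H c) then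
        X * (H / (lo H b * lo H c)) * ((nu M b * f b) * (nu M c * g c)) else 0 :=
        sum_le_sum fun b hb => sum_le_sum fun c hc => key b hb c hc
    _ = ∑ l ∈ H.divisors, ∑ l' ∈ H.divisors,
        if (l : ℝ) * l' ≤ H / X ∧ H / X ≤ τ * (l * l') then
        X * (H / (l * l')) * (Gf M H f l * Gf M H g l') else 0 := by
        rw [← sum_fiberwise_of_maps_to hmap]
        refine sum_congr rfl fun l _ => ?_
        have e1 : ∀ b ∈ M.divisors.filter (fun b => lo H b = l),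
            (∑ c ∈ M.divisors, if (lo H b : ℝ) * lo H c ≤ H / X ∧ H / X ≤ τ * (lo H b * lo H c) then
            X * (H / (lo H b * lo H c)) * ((nu M b * f b) * (nu M c * g c)) else 0) =
            ∑ l' ∈ H.divisors, if (l : ℝ) * l' ≤ H / X ∧ H / X ≤ τ * (l * l') then
              X * (H / (l * l')) * ((nu M b * f b) * Gf M H g l') else 0 := by
          intro b hb
          rw [mem_filter] at hb
          rw [← sum_fiberwise_of_maps_to hmap]
          refine sum_congr rfl fun l' _ => ?_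
          rw [hb.2]
          have e2 : ∀ c ∈ M.divisors.filter (fun c => lo H c = l'),
              (if (l : ℝ) * lo H c ≤ H / X ∧ H / X ≤ τ * (l * lo H c) then
              X * (H / (l * lo H c)) * ((nu M b * f b) * (nu M c * g c)) else 0) =
              if (l : ℝ) * l' ≤ H / X ∧ H / X ≤ τ * (l * l') then
              X * (H / (l * l')) * ((nu M b * f b) * (nu M c * g c)) else 0 := by
            intro c hc
            rw [mem_filter] at hc
            rw [hc.2]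
          rw [sum_congr rfl e2]
          split_ifs
          · unfold Gf
            rw [← mul_sum, ← mul_sum]
          · exact sum_const_zero
        rw [sum_congr rfl e1, sum_comm]
        refine sum_congr rfl fun l' _ => ?_
        split_ifs
        · rw [← mul_sum, ← sum_mul]
          rfl
        · exact sum_const_zero
    _ = _ := by
        rw [mul_sum]
        refine sum_congr rfl fun l hl => ?_
        rw [mul_sum]
        refine sum_congr rfl fun l' hl' => ?_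
        have hl0 : l ≠ 0 := fun h => hH0 (zero_dvd_iff.1 (h ▸ Nat.dvd_of_mem_divisors hl))
        have hl0' : l' ≠ 0 := fun h => hH0 (zero_dvd_iff.1 (h ▸ Nat.dvd_of_mem_divisors hl'))
        have hlp : (0 : ℝ) < l := by exact_mod_cast Nat.pos_of_ne_zero hl0
        have hlp' : (0 : ℝ) < l' := by exact_mod_cast Nat.pos_of_ne_zero hl0'
        split_ifs
        · unfold Ff
          field_simp
        · simp

/-! ### the dyadic lemma -/

lemma card_le_of_gap {T : Finset ℕ} {k : ℕ} (h : ∀ i ∈ T, ∀ j ∈ T, j < i + k) : T.card ≤ k := by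
  rcases T.eq_empty_or_nonempty with rfl | hT
  · simp
  · have : T ⊆ Ico (T.min' hT) (T.min' hT + k) := by
      intro j hj
      rw [mem_Ico]
      exact ⟨min'_le _ _ hj, h _ (min'_mem _ _) j hj⟩
    calc T.card ≤ (Ico (T.min' hT) (T.min' hT + k)).card := card_le_card this
      _ = k := by simp

open Classical in
/-- dyadic decomposition of the hyperbola sum; `Q` is a set of dyadic boxes, `N i N' j ≤ Θ 2^(i+j)` -/
lemma dyad {D : Finset ℕ} (hD : ∀ l ∈ D, l ≠ 0) {F F' : ℕ → ℝ} (hF : ∀ l, 0 ≤ F l)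
    (hF1 : ∀ l ∈ D, F l ≤ 1) (hF' : ∀ l, 0 ≤ F' l) (hF1' : ∀ l ∈ D, F' l ≤ 1)
    {κ τ R Θ : ℝ} {k : ℕ} (hκ : 1 / 2 ≤ κ) (hκ1 : κ ≤ 1) (hτ : 1 ≤ τ) (hR : 0 < R) (hΘ : 0 ≤ Θ)
    (hk : 4 * τ ≤ 2 ^ k) (Q : ℕ → ℕ → Prop)
    (hN : ∀ i j, Q i j → ((D.filter (fun l => Nat.log 2 l = i)).card : ℝ) *
      (D.filter (fun l => Nat.log 2 l = j)).card ≤ Θ * 2 ^ (i + j)) :
    ∑ l ∈ D, ∑ l' ∈ D, (if ((l : ℝ) * l' ≤ R ∧ R ≤ τ * (l * l')) ∧ Q (Nat.log 2 l) (Nat.log 2 l') then
      F l * F' l' else 0) ≤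
      R * (k * ((4 * τ) ^ (2 * κ - 1) * Θ ^ (1 - κ)) *
        ((∑ l ∈ D, (l : ℝ) * F l) / R * ((∑ l ∈ D, (l : ℝ) * F' l) / R)) ^ κ) := by
  have hκ0 : 0 < κ := by linarith
  set n := D.sup (Nat.log 2) + 1 with hn
  have hmap : ∀ l ∈ D, Nat.log 2 l ∈ range n := fun l hl =>
    mem_range.2 (Nat.lt_succ_of_le (le_sup (f := Nat.log 2) hl))
  set Di : ℕ → Finset ℕ := fun i => D.filter (fun l => Nat.log 2 l = i) with hDi
  set S : ℕ → ℝ := fun i => ∑ l ∈ Di i, F l with hS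
  set S' : ℕ → ℝ := fun i => ∑ l ∈ Di i, F' l with hS'
  set m : ℕ → ℝ := fun i => (∑ l ∈ Di i, (l : ℝ) * F l) / R with hm
  set m' : ℕ → ℝ := fun i => (∑ l ∈ Di i, (l : ℝ) * F' l) / R with hm'
  have hS0 : ∀ i, 0 ≤ S i := fun i => sum_nonneg fun l _ => hF l
  have hS0' : ∀ i, 0 ≤ S' i := fun i => sum_nonneg fun l _ => hF' l
  have hm0 : ∀ i, 0 ≤ m i := fun i => div_nonneg
    (sum_nonneg fun l _ => mul_nonneg (Nat.cast_nonneg l) (hF l)) hR.le
  have hm0' : ∀ i, 0 ≤ m' i := fun i => div_nonneg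
    (sum_nonneg fun l _ => mul_nonneg (Nat.cast_nonneg l) (hF' l)) hR.le
  have hSN : ∀ i, S i ≤ (Di i).card := fun i => by
    calc S i ≤ ∑ l ∈ Di i, (1 : ℝ) := sum_le_sum fun l hl => hF1 l (mem_filter.1 hl).1
      _ = (Di i).card := by simp
  have hSN' : ∀ i, S' i ≤ (Di i).card := fun i => by
    calc S' i ≤ ∑ l ∈ Di i, (1 : ℝ) := sum_le_sum fun l hl => hF1' l (mem_filter.1 hl).1
      _ = (Di i).card := by simp
  have hlo : ∀ i, ∀ l ∈ Di i, (2 : ℝ) ^ i ≤ l ∧ (l : ℝ) < 2 ^ (i + 1) := by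
    intro i l hl
    rw [hDi, mem_filter] at hl
    have h1 := Nat.pow_log_le_self 2 (hD l hl.1)
    have h2 := Nat.lt_pow_succ_log_self (b := 2) (by norm_num) l
    rw [hl.2] at h1 h2
    exact ⟨by exact_mod_cast h1, by exact_mod_cast h2⟩
  have hSm : ∀ i, S i ≤ R / 2 ^ i * m i := fun i => by
    have : (2 : ℝ) ^ i * S i ≤ ∑ l ∈ Di i, (l : ℝ) * F l := by
      rw [hS, mul_sum]
      exact sum_le_sum fun l hl => mul_le_mul_of_nonneg_right (hlo i l hl).1 (hF l)
    have h2 : R / 2 ^ i * m i = (∑ l ∈ Di i, (l : ℝ) * F l) / 2 ^ i := by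
      rw [hm]; field_simp
    rw [h2, le_div_iff₀ (by positivity), mul_comm]
    exact this
  have hSm' : ∀ i, S' i ≤ R / 2 ^ i * m' i := fun i => by
    have : (2 : ℝ) ^ i * S' i ≤ ∑ l ∈ Di i, (l : ℝ) * F' l := by
      rw [hS', mul_sum]
      exact sum_le_sum fun l hl => mul_le_mul_of_nonneg_right (hlo i l hl).1 (hF' l)
    have h2 : R / 2 ^ i * m' i = (∑ l ∈ Di i, (l : ℝ) * F' l) / 2 ^ i := by
      rw [hm']; field_simp
    rw [h2, le_div_iff₀ (by positivity), mul_comm]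
    exact this
  -- the admissible antidiagonals
  set ad : ℕ → ℕ → Prop := fun i j => (2 : ℝ) ^ (i + j) ≤ R ∧ R < 4 * τ * 2 ^ (i + j) with had
  -- step 1: group
  have step1 : ∑ l ∈ D, ∑ l' ∈ D,
      (if ((l : ℝ) * l' ≤ R ∧ R ≤ τ * (l * l')) ∧ Q (Nat.log 2 l) (Nat.log 2 l') then
      F l * F' l' else 0) ≤
      ∑ i ∈ range n, ∑ j ∈ range n, (if ad i j ∧ Q i j then S i * S' j else 0) := by
    rw [← sum_fiberwise_of_maps_to hmap]
    refine sum_le_sum fun i _ => ?_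
    have : ∀ l ∈ Di i, (∑ l' ∈ D, (if ((l : ℝ) * l' ≤ R ∧ R ≤ τ * (l * l')) ∧
        Q (Nat.log 2 l) (Nat.log 2 l') then F l * F' l' else 0)) ≤
        ∑ j ∈ range n, (if ad i j ∧ Q i j then F l * S' j else 0) := by
      intro l hl
      rw [← sum_fiberwise_of_maps_to hmap]
      refine sum_le_sum fun j _ => ?_
      have h3 : ∀ l' ∈ Di j, (if ((l : ℝ) * l' ≤ R ∧ R ≤ τ * (l * l')) ∧
        Q (Nat.log 2 l) (Nat.log 2 l') then F l * F' l' else 0) ≤
          if ad i j ∧ Q i j then F l * F' l' else 0 := by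
        intro l' hl'
        have a1 := hlo i l hl
        have a2 := hlo j l' hl'
        have hli : Nat.log 2 l = i := (mem_filter.1 hl).2
        have hlj : Nat.log 2 l' = j := (mem_filter.1 hl').2
        rw [hli, hlj]
        have h0 : 0 ≤ F l * F' l' := mul_nonneg (hF l) (hF' l')
        split_ifs with h5 h6 h7
        · exact le_rfl
        · exfalso
          apply h6
          refine ⟨⟨?_, ?_⟩, h5.2⟩
          · rw [pow_add]
            calc (2 : ℝ) ^ i * 2 ^ j ≤ l * l' := mul_le_mul a1.1 a2.1 (by positivity) (by positivity)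
              _ ≤ R := h5.1.1
          · refine h5.1.2.trans_lt ?_
            have hlp : (0 : ℝ) < l := lt_of_lt_of_le (by positivity) a1.1
            have : (l : ℝ) * l' < 2 ^ (i + 1) * 2 ^ (j + 1) :=
              mul_lt_mul a1.2 a2.2.le (lt_of_lt_of_le (by positivity) a2.1) (by positivity)
            have e : (2 : ℝ) ^ (i + 1) * 2 ^ (j + 1) = 4 * 2 ^ (i + j) := by ring
            rw [e] at this
            nlinarith
        · exact h0
        · exact le_rfl
      calc _ ≤ ∑ l' ∈ Di j, (if ad i j ∧ Q i j then F l * F' l' else 0) := sum_le_sum h3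
        _ = _ := by
          split_ifs
          · rw [← mul_sum]
          · exact sum_const_zero
    calc _ ≤ ∑ l ∈ Di i, ∑ j ∈ range n, (if ad i j ∧ Q i j then F l * S' j else 0) := sum_le_sum this
      _ = _ := by
        rw [sum_comm]
        refine sum_congr rfl fun j _ => ?_
        split_ifs
        · rw [← sum_mul]
        · exact sum_const_zero
  -- step 2: one box
  have hτ4 : 0 < 4 * τ := by linarith
  have step2 : ∀ i j, (if ad i j ∧ Q i j then S i * S' j else 0) ≤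
      R * ((4 * τ) ^ (2 * κ - 1) * Θ ^ (1 - κ)) * ((if ad i j then 1 else 0) * (m i * m' j) ^ κ) := by
    intro i j
    have hRHS : 0 ≤ R * ((4 * τ) ^ (2 * κ - 1) * Θ ^ (1 - κ)) := by positivity
    split_ifs with h1 h2 h3
    · have hSS : 0 ≤ S i * S' j := mul_nonneg (hS0 i) (hS0' j)
      have e1 : S i * S' j = (S i * S' j) ^ κ * (S i * S' j) ^ (1 - κ) := by
        rcases hSS.eq_or_lt with h | h
        · rw [← h, Real.zero_rpow hκ0.ne', zero_mul]
        · rw [← Real.rpow_add h]; simp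
      have h4 : S i * S' j ≤ R ^ 2 / 2 ^ (i + j) * (m i * m' j) := by
        calc S i * S' j ≤ (R / 2 ^ i * m i) * (R / 2 ^ j * m' j) :=
              mul_le_mul (hSm i) (hSm' j) (hS0' j) (mul_nonneg (by positivity) (hm0 i))
          _ = _ := by rw [pow_add]; field_simp
      have h5 : S i * S' j ≤ Θ * 2 ^ (i + j) :=
        (mul_le_mul (hSN i) (hSN' j) (hS0' j) (Nat.cast_nonneg _)).trans (hN i j h1.2)
      have h6 : (S i * S' j) ^ κ ≤ (R ^ 2 / 2 ^ (i + j)) ^ κ * (m i * m' j) ^ κ := by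
        rw [← Real.mul_rpow (by positivity) (mul_nonneg (hm0 i) (hm0' j))]
        exact Real.rpow_le_rpow hSS h4 hκ0.le
      have h7 : (S i * S' j) ^ (1 - κ) ≤ Θ ^ (1 - κ) * ((2 : ℝ) ^ (i + j)) ^ (1 - κ) := by
        rw [← Real.mul_rpow hΘ (by positivity)]
        exact Real.rpow_le_rpow hSS h5 (by linarith)
      set s : ℝ := (2 : ℝ) ^ (i + j) with hs
      have hs0 : 0 < s := by positivity
      have e3 : (R ^ 2 / s) ^ κ * s ^ (1 - κ) = R * (R / s) ^ (2 * κ - 1) := by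
        rw [Real.div_rpow (by positivity) hs0.le, Real.div_rpow hR.le hs0.le, ← Real.rpow_natCast R 2,
          ← Real.rpow_mul hR.le]
        have a1 : R ^ (((2 : ℕ) : ℝ) * κ) = R * R ^ (2 * κ - 1) := by
          conv_rhs => rw [← Real.rpow_one R, ← Real.rpow_mul hR.le, one_mul]
          rw [← Real.rpow_add hR]; congr 1; push_cast; ring
        have a2 : s ^ (1 - κ) / s ^ κ = (s ^ (2 * κ - 1))⁻¹ := by
          rw [← Real.rpow_neg hs0.le, ← Real.rpow_sub hs0]; congr 1; ring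
        rw [a1]
        calc R * R ^ (2 * κ - 1) / s ^ κ * s ^ (1 - κ)
            = R * R ^ (2 * κ - 1) * (s ^ (1 - κ) / s ^ κ) := by ring
          _ = _ := by rw [a2]; field_simp
      have h8 : (R / s) ^ (2 * κ - 1) ≤ (4 * τ) ^ (2 * κ - 1) := by
        refine Real.rpow_le_rpow (by positivity) ?_ (by linarith)
        rw [div_le_iff₀ hs0]
        exact h1.1.2.le
      have hmm : 0 ≤ (m i * m' j) ^ κ := Real.rpow_nonneg (mul_nonneg (hm0 i) (hm0' j)) _
      calc S i * S' j = (S i * S' j) ^ κ * (S i * S' j) ^ (1 - κ) := e1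
        _ ≤ ((R ^ 2 / s) ^ κ * (m i * m' j) ^ κ) * (Θ ^ (1 - κ) * s ^ (1 - κ)) :=
            mul_le_mul h6 h7 (Real.rpow_nonneg hSS _) (mul_nonneg (by positivity) hmm)
        _ = ((R ^ 2 / s) ^ κ * s ^ (1 - κ)) * Θ ^ (1 - κ) * (m i * m' j) ^ κ := by ring
        _ = R * (R / s) ^ (2 * κ - 1) * Θ ^ (1 - κ) * (m i * m' j) ^ κ := by rw [e3]
        _ ≤ R * (4 * τ) ^ (2 * κ - 1) * Θ ^ (1 - κ) * (m i * m' j) ^ κ :=
            mul_le_mul_of_nonneg_right (mul_le_mul_of_nonneg_right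
              (mul_le_mul_of_nonneg_left h8 hR.le) (by positivity)) hmm
        _ = _ := by ring
    · exact absurd h1.1 h2
    · exact mul_nonneg hRHS (mul_nonneg zero_le_one
        (Real.rpow_nonneg (mul_nonneg (hm0 i) (hm0' j)) _))
    · simp
  have hrow : ∀ i, ∑ j ∈ range n, (if ad i j then (1 : ℝ) else 0) ≤ k := by
    intro i
    rw [sum_ite, sum_const_zero, add_zero, sum_const, nsmul_eq_mul, mul_one]
    have := card_le_of_gap (T := (range n).filter (fun j => ad i j)) (k := k) (by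
      intro a ha b hb
      rw [mem_filter] at ha hb
      by_contra hcon
      push Not at hcon
      have h1 : (2 : ℝ) ^ (i + b) ≤ R := hb.2.1
      have h2 : R < 4 * τ * 2 ^ (i + a) := ha.2.2
      have h3 : 4 * τ * 2 ^ (i + a) ≤ (2 : ℝ) ^ (i + b) := by
        calc 4 * τ * 2 ^ (i + a) ≤ 2 ^ k * 2 ^ (i + a) := mul_le_mul_of_nonneg_right hk (by positivity)
          _ = 2 ^ (i + (a + k)) := by rw [← pow_add]; congr 1; omega
          _ ≤ 2 ^ (i + b) := pow_le_pow_right₀ (by norm_num) (by omega)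
      linarith)
    exact_mod_cast this
  have hrow' : ∀ j, ∑ i ∈ range n, (if ad i j then (1 : ℝ) else 0) ≤ k := by
    intro j
    have : ∀ i, ad i j ↔ ad j i := fun i => by simp only [had, add_comm i j]
    simp only [this]
    exact hrow j
  have hw := wsum_le (S := range n) (x := m) (y := m') (κ := κ) (K := k) hκ hm0 hm0'
    (fun i j => if ad i j then 1 else 0) (fun i j => by split_ifs <;> norm_num)
    (fun i _ => hrow i) (fun j _ => hrow' j) (Nat.cast_nonneg k)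
  have hsm : ∑ i ∈ range n, m i = (∑ l ∈ D, (l : ℝ) * F l) / R := by
    rw [← sum_div, ← sum_fiberwise_of_maps_to hmap]
  have hsm' : ∑ i ∈ range n, m' i = (∑ l ∈ D, (l : ℝ) * F' l) / R := by
    rw [← sum_div, ← sum_fiberwise_of_maps_to hmap]
  rw [hsm, hsm'] at hw
  refine step1.trans ?_
  calc ∑ i ∈ range n, ∑ j ∈ range n, (if ad i j ∧ Q i j then S i * S' j else 0)
      ≤ ∑ i ∈ range n, ∑ j ∈ range n, R * ((4 * τ) ^ (2 * κ - 1) * Θ ^ (1 - κ)) *
        ((if ad i j then 1 else 0) * (m i * m' j) ^ κ) :=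
        sum_le_sum fun i _ => sum_le_sum fun j _ => step2 i j
    _ = R * ((4 * τ) ^ (2 * κ - 1) * Θ ^ (1 - κ)) * ∑ i ∈ range n, ∑ j ∈ range n,
        ((if ad i j then 1 else 0) * (m i * m' j) ^ κ) := by simp only [mul_sum]
    _ ≤ R * ((4 * τ) ^ (2 * κ - 1) * Θ ^ (1 - κ)) *
        (k * ((∑ l ∈ D, (l : ℝ) * F l) / R * ((∑ l ∈ D, (l : ℝ) * F' l) / R)) ^ κ) :=
        mul_le_mul_of_nonneg_left hw (by positivity)
    _ = _ := by ring

end Crest.Agent.R4C.RPlusx817
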