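import Crest.Agent.R4C.RLight_817

set_option autoImplicit false

open Finset

namespace Crest.Agent.R4C.RPlusx817

open Classical in
/-- the leaf as a sum over pairs of divisors of the centre, with a relation -/
lemma leaf_sumQ {M : ℕ} (hM : M ≠ 0) {Z : Finset ℕ} (hMZ : M.primeFactors = Z) {z0 : ℕ → ℕ}
    {X τ : ℝ} (hX : 0 < X) {f g : ℕ → ℝ}
    (hf : ∀ b, 0 ≤ f b) (hg : ∀ b, 0 ≤ g b) (Q R : ℕ → ℕ → Prop)
    (hQ : ∀ b c, b ∣ M → c ∣ M → Q b c → Pas Z z0 b c ∧ X ≤ (Nat.gcd b c : ℝ) ∧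
      (Nat.gcd b c : ℝ) ≤ τ * X ∧ R (lo (ctr Z z0) b) (lo (ctr Z z0) c)) :
    EnQ M Q X f g ≤ X / (ctr Z z0) * ∑ l ∈ (ctr Z z0).divisors, ∑ l' ∈ (ctr Z z0).divisors,
      if ((l : ℝ) * l' ≤ ctr Z z0 / X ∧ ctr Z z0 / X ≤ τ * (l * l')) ∧ R l l' then
        Ff M (ctr Z z0) f l * Ff M (ctr Z z0) g l' else 0 := by
  have hZ : ∀ p ∈ Z, p.Prime := fun p hp => Nat.prime_of_mem_primeFactors (hMZ ▸ hp)
  set H := ctr Z z0 with hH
  have hH0 : H ≠ 0 := ctr_ne_zero hZ
  have hHp : (0 : ℝ) < H := by exact_mod_cast Nat.pos_of_ne_zero hH0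
  unfold EnQ
  have hmap : ∀ b ∈ M.divisors, lo H b ∈ H.divisors := fun b _ => Nat.mem_divisors.2 ⟨lo_dvd H b, hH0⟩
  have key : ∀ b ∈ M.divisors, ∀ c ∈ M.divisors,
      (if Q b c then X * (Nat.gcd b c : ℝ) * nu M b * nu M c * (f b * g c) else 0) ≤
      if ((lo H b : ℝ) * lo H c ≤ H / X ∧ H / X ≤ τ * (lo H b * lo H c)) ∧ R (lo H b) (lo H c) then
        X * (H / (lo H b * lo H c)) * ((nu M b * f b) * (nu M c * g c)) else 0 := by
    intro b hb c hc
    have hb' := Nat.dvd_of_mem_divisors hb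
    have hc' := Nat.dvd_of_mem_divisors hc
    have hlb : (0 : ℝ) < lo H b := by
      exact_mod_cast Nat.pos_of_ne_zero fun h => hH0 (zero_dvd_iff.1 (h ▸ lo_dvd H b))
    have hlc : (0 : ℝ) < lo H c := by
      exact_mod_cast Nat.pos_of_ne_zero fun h => hH0 (zero_dvd_iff.1 (h ▸ lo_dvd H c))
    have hnn : 0 ≤ (nu M b * f b) * (nu M c * g c) :=
      mul_nonneg (mul_nonneg (nu_nonneg _ _) (hf b)) (mul_nonneg (nu_nonneg _ _) (hg c))
    by_cases h1 : Q b c
    · have hq := hQ b c hb' hc' h1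
      have e := leaf_gcd hM hMZ hb' hc' hq.1
      have e' : (Nat.gcd b c : ℝ) * (lo H b * lo H c) = H := by exact_mod_cast e
      have hll : (0 : ℝ) < lo H b * lo H c := mul_pos hlb hlc
      have hw : ((lo H b : ℝ) * lo H c ≤ H / X ∧ H / X ≤ τ * (lo H b * lo H c)) ∧
          R (lo H b) (lo H c) := by
        refine ⟨⟨?_, ?_⟩, hq.2.2.2⟩
        · rw [le_div_iff₀ hX, ← e']
          nlinarith [hq.2.1]
        · rw [div_le_iff₀ hX, ← e']
          nlinarith [hq.2.2.1]
      rw [if_pos h1, if_pos hw]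
      have e2 : (H : ℝ) / (lo H b * lo H c) = Nat.gcd b c := by
        rw [← e']; field_simp
      rw [e2]
      apply le_of_eq
      ring
    · rw [if_neg h1]
      split_ifs
      · exact mul_nonneg (mul_nonneg hX.le (by positivity)) hnn
      · exact le_rfl
  calc _ ≤ ∑ b ∈ M.divisors, ∑ c ∈ M.divisors,
        if ((lo H b : ℝ) * lo H c ≤ H / X ∧ H / X ≤ τ * (lo H b * lo H c)) ∧ R (lo H b) (lo H c) then
        X * (H / (lo H b * lo H c)) * ((nu M b * f b) * (nu M c * g c)) else 0 :=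
        sum_le_sum fun b hb => sum_le_sum fun c hc => key b hb c hc
    _ = ∑ l ∈ H.divisors, ∑ l' ∈ H.divisors,
        if ((l : ℝ) * l' ≤ H / X ∧ H / X ≤ τ * (l * l')) ∧ R l l' then
        X * (H / (l * l')) * (Gf M H f l * Gf M H g l') else 0 := by
        rw [← sum_fiberwise_of_maps_to hmap]
        refine sum_congr rfl fun l _ => ?_
        have e1 : ∀ b ∈ M.divisors.filter (fun b => lo H b = l),
            (∑ c ∈ M.divisors, if ((lo H b : ℝ) * lo H c ≤ H / X ∧
              H / X ≤ τ * (lo H b * lo H c)) ∧ R (lo H b) (lo H c) then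
            X * (H / (lo H b * lo H c)) * ((nu M b * f b) * (nu M c * g c)) else 0) =
            ∑ l' ∈ H.divisors, if ((l : ℝ) * l' ≤ H / X ∧ H / X ≤ τ * (l * l')) ∧ R l l' then
              X * (H / (l * l')) * ((nu M b * f b) * Gf M H g l') else 0 := by
          intro b hb
          rw [mem_filter] at hb
          rw [← sum_fiberwise_of_maps_to hmap]
          refine sum_congr rfl fun l' _ => ?_
          rw [hb.2]
          have e2 : ∀ c ∈ M.divisors.filter (fun c => lo H c = l'),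
              (if ((l : ℝ) * lo H c ≤ H / X ∧ H / X ≤ τ * (l * lo H c)) ∧ R l (lo H c) then
              X * (H / (l * lo H c)) * ((nu M b * f b) * (nu M c * g c)) else 0) =
              if ((l : ℝ) * l' ≤ H / X ∧ H / X ≤ τ * (l * l')) ∧ R l l' then
              X * (H / (l * l')) * ((nu M b * f b) * (nu M c * g c)) else 0 := by
            intro c hc
            rw [mem_filter] at hc
            rw [hc.2]
          rw [sum_congr rfl e2]
          split_ifs
          · unfold Gf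
            rw [← mul_sum, ← mul_sum]
          · exact sum_const_zero
        rw [sum_congr rfl e1, sum_comm]
        refine sum_congr rfl fun l' _ => ?_
        split_ifs
        · rw [← mul_sum, ← sum_mul]
          rfl
        · exact sum_const_zero
    _ = _ := by
        rw [mul_sum]
        refine sum_congr rfl fun l hl => ?_
        rw [mul_sum]
        refine sum_congr rfl fun l' hl' => ?_
        have hl0 : l ≠ 0 := fun h => hH0 (zero_dvd_iff.1 (h ▸ Nat.dvd_of_mem_divisors hl))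
        have hl0' : l' ≠ 0 := fun h => hH0 (zero_dvd_iff.1 (h ▸ Nat.dvd_of_mem_divisors hl'))
        have hlp : (0 : ℝ) < l := by exact_mod_cast Nat.pos_of_ne_zero hl0
        have hlp' : (0 : ℝ) < l' := by exact_mod_cast Nat.pos_of_ne_zero hl0'
        split_ifs
        · unfold Ff
          field_simp
        · simp

/-- the pure class of a leaf is the density at the centre -/
lemma Ff_one {M H : ℕ} (hH : H ≠ 0) (f : ℕ → ℝ) : Ff M H f 1 = dl M H f := by
  unfold Ff Gf dl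
  rw [Nat.cast_one, div_one]
  congr 1
  refine sum_congr ?_ fun _ _ => rfl
  ext b
  simp only [mem_filter]
  refine and_congr_right fun _ => ?_
  unfold lo
  constructor
  · intro h
    have hg : Nat.gcd b H ∣ H := Nat.gcd_dvd_right b H
    have h2 : H = Nat.gcd b H := by
      have := Nat.div_mul_cancel hg
      rw [h, one_mul] at this
      exact this.symm
    rw [h2]; exact Nat.gcd_dvd_left b H
  · intro h
    rw [Nat.gcd_eq_right h]
    exact Nat.div_self (Nat.pos_of_ne_zero hH)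

section base
variable {κ τ : ℝ}

/-- the light base -/
lemma rl_base (hκ : 1 / 2 ≤ κ) (hκ1 : κ ≤ 1) (hτ : 1 ≤ τ) {k : ℕ} (hk : 4 * τ ≤ 2 ^ k)
    {θ0 : ℝ} (hθ0 : 0 ≤ θ0)
    {M : ℕ} (hM : M ≠ 0) {Z : Finset ℕ} (hMZ : M.primeFactors = Z) {z0 : ℕ → ℕ}
    (hz : ∀ p ∈ Z, z0 p ≤ M.factorization p)
    (hcount : ∀ i, 1 ≤ i →
      (((ctr Z z0).divisors.filter (fun l => Nat.log 2 l = i)).card : ℝ) ≤ θ0 * 2 ^ i) :
    RL κ τ M Z z0 (τ ^ (2 * κ - 1)) (k * ((4 * τ) ^ (2 * κ - 1) * θ0 ^ (1 - κ))) := by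
  classical
  intro X f g K θ hX hf hg hθ hK
  have hκ0 : 0 < κ := by linarith
  have hZ : ∀ p ∈ Z, p.Prime := fun p hp => Nat.prime_of_mem_primeFactors (hMZ ▸ hp)
  set H := ctr Z z0 with hH
  have hl := leaf_sumQ hM hMZ (z0 := z0) (τ := τ) hX (fun b => (hf b).1) (fun b => (hg b).1)
    (LQ K Z z0 X τ) (fun l l' => l = 1 ∧ l' = 1 → K H) (by
      intro b c hb hc h
      refine ⟨h.2.1, h.2.2.1, h.2.2.2, fun h1 => ?_⟩
      have e := leaf_gcd hM hMZ hb hc h.2.1
      rw [h1.1, h1.2] at e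
      have e2 : Nat.gcd b c = H := by rw [hH, ← e]; ring
      rw [← e2]; exact h.1)
  rw [← hH] at hl
  have hH0 : H ≠ 0 := ctr_ne_zero hZ
  have hHp : (0 : ℝ) < H := by exact_mod_cast Nat.pos_of_ne_zero hH0
  have hHM : H ∣ M := ctr_dvd hM hMZ hz
  have hR : 0 < (H : ℝ) / X := div_pos hHp hX
  have hD : ∀ l ∈ H.divisors, l ≠ 0 := fun l hl h =>
    hH0 (zero_dvd_iff.1 (h ▸ Nat.dvd_of_mem_divisors hl))
  have hF0 : ∀ l, 0 ≤ Ff M H f l := fun l => Ff_nonneg (fun b => (hf b).1) l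
  have hG0 : ∀ l, 0 ≤ Ff M H g l := fun l => Ff_nonneg (fun b => (hg b).1) l
  have h1D : 1 ∈ H.divisors := Nat.mem_divisors.2 ⟨one_dvd _, hH0⟩
  have hF1 : ∀ l ∈ H.divisors, Ff M H f l ≤ 1 :=
    fun l hl => Ff_le hM hHM hf (Nat.dvd_of_mem_divisors hl)
  have hG1 : ∀ l ∈ H.divisors, Ff M H g l ≤ 1 :=
    fun l hl => Ff_le hM hHM hg (Nat.dvd_of_mem_divisors hl)
  have hc0 : ((H.divisors.filter (fun l => Nat.log 2 l = 0)).card : ℝ) ≤ 1 := by
    simpa using card_dyadic hD 0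
  have hd := dyad hD (F := Ff M H f) (F' := Ff M H g) hF0 hF1 hG0 hG1
    hκ hκ1 hτ hR (Θ := θ0) hθ0 hk (fun i j => ¬ (i = 0 ∧ j = 0)) (fun i j hij => by
      have h2i : (0 : ℝ) ≤ 2 ^ i := by positivity
      have h2j : (0 : ℝ) ≤ 2 ^ j := by positivity
      rcases Nat.eq_zero_or_pos i with hi | hi
      · subst hi
        have hj : 1 ≤ j := Nat.one_le_iff_ne_zero.2 fun h => hij ⟨rfl, h⟩
        rw [zero_add]
        calc _ ≤ 1 * (θ0 * 2 ^ j) := mul_le_mul hc0 (hcount j hj) (Nat.cast_nonneg _) zero_le_one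
          _ = _ := one_mul _
      · rcases Nat.eq_zero_or_pos j with hj | hj
        · subst hj
          rw [add_zero]
          calc _ ≤ (θ0 * 2 ^ i) * 1 := mul_le_mul (hcount i hi) hc0 (Nat.cast_nonneg _) (by positivity)
            _ = _ := mul_one _
        · calc _ ≤ (θ0 * 2 ^ i) * (2 ^ j) :=
                mul_le_mul (hcount i hi) (card_dyadic hD j) (Nat.cast_nonneg _) (by positivity)
            _ = _ := by rw [pow_add]; ring)
  have e1 : ma M X f = (∑ l ∈ H.divisors, (l : ℝ) * Ff M H f l) / (H / X) := by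
    rw [ma_eq hM hHM, pow_cast_div hX hH0]
  have e2 : ma M X g = (∑ l ∈ H.divisors, (l : ℝ) * Ff M H g l) / (H / X) := by
    rw [ma_eq hM hHM, pow_cast_div hX hH0]
  rw [← e1, ← e2] at hd
  have ha0 : 0 ≤ ma M X f := ma_nonneg hX.le fun b => (hf b).1
  have hb0 : 0 ≤ ma M X g := ma_nonneg hX.le fun b => (hg b).1
  set R0 := (H : ℝ) / X with hR0
  -- the pure pair
  set P : ℝ := if (1 ≤ R0 ∧ R0 ≤ τ) ∧ K H then Ff M H f 1 * Ff M H g 1 else 0 with hP
  have hS : ∀ h : ℕ → ℝ, (∀ b, 0 ≤ h b) → Ff M H h 1 ≤ ∑ l ∈ H.divisors, (l : ℝ) * Ff M H h l := by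
    intro h hh
    have := single_le_sum (f := fun l : ℕ => (l : ℝ) * Ff M H h l) (s := H.divisors)
      (fun l _ => mul_nonneg (Nat.cast_nonneg l) (Ff_nonneg hh l)) h1D
    simpa using this
  have hpure : P ≤ R0 * (τ ^ (2 * κ - 1) * θ ^ (1 - κ) * (ma M X f * ma M X g) ^ κ) := by
    rw [hP]
    split_ifs with h
    · obtain ⟨⟨h1, h2⟩, h3⟩ := h
      set F := Ff M H f 1 with hF
      set G := Ff M H g 1 with hG
      have hFθ : F ≤ θ := by rw [hF, Ff_one hH0]; exact hK H h3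
      have hFa : F ≤ R0 * ma M X f := by
        rw [e1, mul_div_cancel₀ _ hR.ne']; exact hS f fun b => (hf b).1
      have hGb : G ≤ R0 * ma M X g := by
        rw [e2, mul_div_cancel₀ _ hR.ne']; exact hS g fun b => (hg b).1
      have hF0' : 0 ≤ F := hF0 1
      have hG0' : 0 ≤ G := hG0 1
      have hG1' : G ≤ 1 := hG1 1 h1D
      have hFG : 0 ≤ F * G := mul_nonneg hF0' hG0'
      have e3 : F * G = (F * G) ^ κ * (F * G) ^ (1 - κ) := by
        rcases hFG.eq_or_lt with h | h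
        · rw [← h, Real.zero_rpow hκ0.ne', zero_mul]
        · rw [← Real.rpow_add h]; simp
      have h4 : (F * G) ^ κ ≤ (R0 ^ (2 * κ)) * (ma M X f * ma M X g) ^ κ := by
        have : F * G ≤ R0 ^ (2 : ℝ) * (ma M X f * ma M X g) := by
          rw [Real.rpow_two]
          calc F * G ≤ (R0 * ma M X f) * (R0 * ma M X g) :=
                mul_le_mul hFa hGb hG0' (by positivity)
            _ = _ := by ring
        calc (F * G) ^ κ ≤ (R0 ^ (2 : ℝ) * (ma M X f * ma M X g)) ^ κ :=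
              Real.rpow_le_rpow hFG this hκ0.le
          _ = _ := by
              rw [Real.mul_rpow (by positivity) (by positivity), ← Real.rpow_mul hR.le]
      have h5 : (F * G) ^ (1 - κ) ≤ θ ^ (1 - κ) := by
        refine Real.rpow_le_rpow hFG ?_ (by linarith)
        calc F * G ≤ θ * 1 := mul_le_mul hFθ hG1' hG0' hθ
          _ = θ := mul_one θ
      have h6 : R0 ^ (2 * κ) = R0 * R0 ^ (2 * κ - 1) := by
        conv_rhs => rw [← Real.rpow_one R0, ← Real.rpow_mul hR.le, one_mul]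
        rw [← Real.rpow_add hR]; congr 1; ring
      have h7 : R0 ^ (2 * κ - 1) ≤ τ ^ (2 * κ - 1) := Real.rpow_le_rpow hR.le h2 (by linarith)
      have hmm : 0 ≤ (ma M X f * ma M X g) ^ κ := by positivity
      calc F * G = (F * G) ^ κ * (F * G) ^ (1 - κ) := e3
        _ ≤ (R0 ^ (2 * κ) * (ma M X f * ma M X g) ^ κ) * θ ^ (1 - κ) :=
            mul_le_mul h4 h5 (Real.rpow_nonneg hFG _) (by positivity)
        _ = R0 * R0 ^ (2 * κ - 1) * ((ma M X f * ma M X g) ^ κ * θ ^ (1 - κ)) := by rw [h6]; ring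
        _ ≤ R0 * τ ^ (2 * κ - 1) * ((ma M X f * ma M X g) ^ κ * θ ^ (1 - κ)) :=
            mul_le_mul_of_nonneg_right (mul_le_mul_of_nonneg_left h7 hR.le) (by positivity)
        _ = _ := by ring
    · positivity
  -- split
  have hsplit : ∑ l ∈ H.divisors, ∑ l' ∈ H.divisors,
      (if ((l : ℝ) * l' ≤ R0 ∧ R0 ≤ τ * (l * l')) ∧ (l = 1 ∧ l' = 1 → K H) then
        Ff M H f l * Ff M H g l' else 0) ≤
      P + ∑ l ∈ H.divisors, ∑ l' ∈ H.divisors,
      (if ((l : ℝ) * l' ≤ R0 ∧ R0 ≤ τ * (l * l')) ∧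
        ¬ (Nat.log 2 l = 0 ∧ Nat.log 2 l' = 0) then Ff M H f l * Ff M H g l' else 0) := by
    have hP0 : 0 ≤ P := by
      rw [hP]; split_ifs
      · exact mul_nonneg (hF0 1) (hG0 1)
      · exact le_rfl
    have hpt : ∀ l ∈ H.divisors, ∀ l' ∈ H.divisors,
        (if ((l : ℝ) * l' ≤ R0 ∧ R0 ≤ τ * (l * l')) ∧ (l = 1 ∧ l' = 1 → K H) then
          Ff M H f l * Ff M H g l' else 0) ≤
        (if l = 1 then (if l' = 1 then P else 0) else 0) +
        (if ((l : ℝ) * l' ≤ R0 ∧ R0 ≤ τ * (l * l')) ∧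
        ¬ (Nat.log 2 l = 0 ∧ Nat.log 2 l' = 0) then Ff M H f l * Ff M H g l' else 0) := by
      intro l hl l' hl'
      have h0 : 0 ≤ Ff M H f l * Ff M H g l' := mul_nonneg (hF0 l) (hG0 l')
      have hPn : 0 ≤ (if l = 1 then (if l' = 1 then P else 0) else 0) := by
        split_ifs <;> first | exact hP0 | exact le_rfl
      by_cases h1 : ((l : ℝ) * l' ≤ R0 ∧ R0 ≤ τ * (l * l')) ∧ (l = 1 ∧ l' = 1 → K H)
      · by_cases h2 : Nat.log 2 l = 0 ∧ Nat.log 2 l' = 0
        · have a1 : l = 1 := by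
            have := h2.1
            rw [Nat.log_eq_zero_iff] at this
            have := hD l hl
            omega
          have a2 : l' = 1 := by
            have := h2.2
            rw [Nat.log_eq_zero_iff] at this
            have := hD l' hl'
            omega
          have hKH := h1.2 ⟨a1, a2⟩
          subst a1; subst a2
          have h3 : (1 ≤ R0 ∧ R0 ≤ τ) ∧ K H := by
            refine ⟨⟨?_, ?_⟩, hKH⟩
            · simpa using h1.1.1
            · simpa using h1.1.2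
          have hPe : P = Ff M H f 1 * Ff M H g 1 := by rw [hP, if_pos h3]
          rw [if_pos h1, if_pos rfl, if_pos rfl, hPe]
          have e3 : (if (((1 : ℕ) : ℝ) * ((1 : ℕ) : ℝ) ≤ R0 ∧ R0 ≤ τ * (((1 : ℕ) : ℝ) * ((1 : ℕ) : ℝ))) ∧
              ¬ (Nat.log 2 1 = 0 ∧ Nat.log 2 1 = 0) then Ff M H f 1 * Ff M H g 1 else 0) = 0 :=
            if_neg fun h => h.2 h2
          rw [e3, add_zero]
        · rw [if_pos h1, if_pos (⟨h1.1, h2⟩ : _ ∧ _)]
          linarith
      · rw [if_neg h1]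
        have : 0 ≤ (if ((l : ℝ) * l' ≤ R0 ∧ R0 ≤ τ * (l * l')) ∧
            ¬ (Nat.log 2 l = 0 ∧ Nat.log 2 l' = 0) then Ff M H f l * Ff M H g l' else 0) := by
          split_ifs <;> first | exact h0 | exact le_rfl
        linarith
    calc _ ≤ ∑ l ∈ H.divisors, ∑ l' ∈ H.divisors,
        ((if l = 1 then (if l' = 1 then P else 0) else 0) +
        (if ((l : ℝ) * l' ≤ R0 ∧ R0 ≤ τ * (l * l')) ∧
        ¬ (Nat.log 2 l = 0 ∧ Nat.log 2 l' = 0) then Ff M H f l * Ff M H g l' else 0)) := by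
          refine sum_le_sum fun l hl => sum_le_sum fun l' hl' => ?_
          exact hpt l hl l' hl'
      _ = _ := by
        simp only [sum_add_distrib]
        congr 1
        rw [sum_eq_single_of_mem 1 h1D (fun l _ hl => by simp [hl]),
          sum_eq_single_of_mem 1 h1D (fun l _ hl => by simp [hl])]
        simp
  refine hl.trans ?_
  rw [pow_cast_div hX hH0, div_le_iff₀ hR]
  calc _ ≤ P + ∑ l ∈ H.divisors, ∑ l' ∈ H.divisors,
      (if ((l : ℝ) * l' ≤ R0 ∧ R0 ≤ τ * (l * l')) ∧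
        ¬ (Nat.log 2 l = 0 ∧ Nat.log 2 l' = 0) then Ff M H f l * Ff M H g l' else 0) := by
        refine le_trans (le_of_eq ?_) hsplit
        refine sum_congr rfl fun l _ => sum_congr rfl fun l' _ => ?_
        congr!
    _ ≤ R0 * (τ ^ (2 * κ - 1) * θ ^ (1 - κ) * (ma M X f * ma M X g) ^ κ) +
        R0 * (k * ((4 * τ) ^ (2 * κ - 1) * θ0 ^ (1 - κ)) * (ma M X f * ma M X g) ^ κ) := by
        refine add_le_add hpure (le_trans (le_of_eq ?_) hd)
        refine sum_congr rfl fun l _ => sum_congr rfl fun l' _ => ?_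
        congr!
    _ = _ := by ring

end base

end Crest.Agent.R4C.RPlusx817
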