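import Crest.Agent.R4C.TCnum_817

set_option autoImplicit false

open Finset

namespace Crest.Agent.R4C.RPlusx817

/-! ### light nodes -/

/-- density of `f` at the node `G` -/
noncomputable def dl (M G : ℕ) (f : ℕ → ℝ) : ℝ :=
  G * ∑ b ∈ M.divisors.filter (G ∣ ·), nu M b * f b

lemma dl_nonneg {M G : ℕ} {f : ℕ → ℝ} (hf : ∀ b, 0 ≤ f b) : 0 ≤ dl M G f :=
  mul_nonneg (Nat.cast_nonneg _) (sum_nonneg fun b _ => mul_nonneg (nu_nonneg _ _) (hf b))

lemma dl_split {p a M : ℕ} (hp : p.Prime) (hpM : ¬ p ∣ M) (hM : M ≠ 0) {v : ℕ} (hv : v ≤ a) (G : ℕ)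
    {f : ℕ → ℝ} (hf : ∀ b, 0 ≤ f b) :
    cc p a v * dl M G (fun b => f (p ^ v * b)) ≤ dl (p ^ a * M) (p ^ v * G) f := by
  classical
  have hp0 : (0 : ℝ) < p := by exact_mod_cast hp.pos
  have hN : p ^ a * M ≠ 0 := mul_ne_zero (pow_ne_zero _ hp.ne_zero) hM
  unfold dl
  have hinj : Set.InjOn (fun b => p ^ v * b) (M.divisors.filter (G ∣ ·) : Set ℕ) := by
    intro x _ y _ h
    exact Nat.eq_of_mul_eq_mul_left (pow_pos hp.pos v) h
  have hsub : (M.divisors.filter (G ∣ ·)).image (fun b => p ^ v * b) ⊆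
      (p ^ a * M).divisors.filter (p ^ v * G ∣ ·) := by
    intro c hc
    rw [mem_image] at hc
    obtain ⟨b, hb, rfl⟩ := hc
    rw [mem_filter] at hb ⊢
    exact ⟨Nat.mem_divisors.2 ⟨Nat.mul_dvd_mul (pow_dvd_pow p hv) (Nat.dvd_of_mem_divisors hb.1), hN⟩,
      Nat.mul_dvd_mul_left _ hb.2⟩
  have h1 : ∑ c ∈ (M.divisors.filter (G ∣ ·)).image (fun b => p ^ v * b),
      nu (p ^ a * M) c * f c ≤ ∑ b ∈ (p ^ a * M).divisors.filter (p ^ v * G ∣ ·),
      nu (p ^ a * M) b * f b :=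
    sum_le_sum_of_subset_of_nonneg hsub fun b _ _ => mul_nonneg (nu_nonneg _ _) (hf b)
  rw [sum_image hinj] at h1
  have h2 : ∑ b ∈ M.divisors.filter (G ∣ ·), nu (p ^ a * M) (p ^ v * b) * f (p ^ v * b) =
      cc p a v * ((p : ℝ)⁻¹) ^ v * ∑ b ∈ M.divisors.filter (G ∣ ·), nu M b * f (p ^ v * b) := by
    rw [mul_sum]
    refine sum_congr rfl fun b hb => ?_
    rw [nu_split hp hpM hM hv (Nat.dvd_of_mem_divisors (mem_filter.1 hb).1)]
    ring
  rw [h2] at h1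
  push_cast
  have e : ((p : ℝ) ^ v) * ((p : ℝ)⁻¹) ^ v = 1 := by
    rw [← mul_pow, mul_inv_cancel₀ hp0.ne', one_pow]
  calc cc p a v * (G * ∑ b ∈ M.divisors.filter (G ∣ ·), nu M b * f (p ^ v * b))
      = ((p : ℝ) ^ v * ((p : ℝ)⁻¹) ^ v) * (cc p a v *
        (G * ∑ b ∈ M.divisors.filter (G ∣ ·), nu M b * f (p ^ v * b))) := by rw [e, one_mul]
    _ = (p : ℝ) ^ v * G * (cc p a v * ((p : ℝ)⁻¹) ^ v *
        ∑ b ∈ M.divisors.filter (G ∣ ·), nu M b * f (p ^ v * b)) := by ring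
    _ ≤ _ := mul_le_mul_of_nonneg_left h1 (by positivity)

/-- the relation of the light recursion -/
def LQ (K : ℕ → Prop) (Z : Finset ℕ) (z0 : ℕ → ℕ) (X τ : ℝ) (b c : ℕ) : Prop :=
  K (Nat.gcd b c) ∧ Pas Z z0 b c ∧ X ≤ (Nat.gcd b c : ℝ) ∧ (Nat.gcd b c : ℝ) ≤ τ * X

lemma LQ_split {K : ℕ → Prop} {Z : Finset ℕ} {z0 : ℕ → ℕ} {X τ : ℝ} {p M : ℕ} (hp : p.Prime)
    (hpM : ¬ p ∣ M) (hM : M ≠ 0) (hpZ : p ∉ Z) {v v' b c : ℕ} (hb : b ∣ M) (hc : c ∣ M) :
    LQ K Z z0 X τ (p ^ v * b) (p ^ v' * c) ↔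
      LQ (fun G => K (p ^ (min v v') * G)) Z z0 (X / (p : ℝ) ^ (min v v')) τ b c := by
  unfold LQ
  have hp0 : (0 : ℝ) < (p : ℝ) ^ (min v v') := pow_pos (by exact_mod_cast hp.pos) _
  rw [pas_plain hp hM hpZ hb hc, gcd_split hp (fun h => hpM (h.trans hb)) (fun h => hpM (h.trans hc)),
    div_le_iff₀ hp0, ← mul_div_assoc, le_div_iff₀ hp0]
  push_cast
  rw [mul_comm (Nat.gcd b c : ℝ)]

lemma EnQ_or {M : ℕ} {Q Q1 Q2 : ℕ → ℕ → Prop}
    (h : ∀ b c, b ∣ M → c ∣ M → Q b c → Q1 b c ∨ Q2 b c)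
    {X : ℝ} (hX : 0 ≤ X) {f g : ℕ → ℝ} (hf : ∀ b, 0 ≤ f b) (hg : ∀ b, 0 ≤ g b) :
    EnQ M Q X f g ≤ EnQ M Q1 X f g + EnQ M Q2 X f g := by
  classical
  unfold EnQ
  rw [← sum_add_distrib]
  refine sum_le_sum fun b hb => ?_
  rw [← sum_add_distrib]
  refine sum_le_sum fun c hc => ?_
  have := h b c (Nat.dvd_of_mem_divisors hb) (Nat.dvd_of_mem_divisors hc)
  have h0 : 0 ≤ X * (Nat.gcd b c : ℝ) * nu M b * nu M c * (f b * g c) :=
    mul_nonneg (mul_nonneg (mul_nonneg (mul_nonneg hX (Nat.cast_nonneg _)) (nu_nonneg _ _))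
      (nu_nonneg _ _)) (mul_nonneg (hf b) (hg c))
  by_cases h1 : Q b c
  · rw [if_pos h1]
    rcases this h1 with h2 | h2
    · rw [if_pos h2]
      have : 0 ≤ (if Q2 b c then X * (Nat.gcd b c : ℝ) * nu M b * nu M c * (f b * g c) else 0) := by
        split_ifs
        · exact h0
        · exact le_rfl
      linarith
    · rw [if_pos h2]
      have : 0 ≤ (if Q1 b c then X * (Nat.gcd b c : ℝ) * nu M b * nu M c * (f b * g c) else 0) := by
        split_ifs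
        · exact h0
        · exact le_rfl
      linarith
  · rw [if_neg h1]
    have h3 : 0 ≤ (if Q1 b c then X * (Nat.gcd b c : ℝ) * nu M b * nu M c * (f b * g c) else 0) := by
      split_ifs
      · exact h0
      · exact le_rfl
    have h4 : 0 ≤ (if Q2 b c then X * (Nat.gcd b c : ℝ) * nu M b * nu M c * (f b * g c) else 0) := by
      split_ifs
      · exact h0
      · exact le_rfl
    linarith

lemma EnQ_add (M : ℕ) (Q R : ℕ → ℕ → Prop) (X : ℝ) (f g : ℕ → ℝ) :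
    EnQ M Q X f g = EnQ M (fun b c => Q b c ∧ R b c) X f g +
      EnQ M (fun b c => Q b c ∧ ¬ R b c) X f g := by
  classical
  unfold EnQ
  rw [← sum_add_distrib]
  refine sum_congr rfl fun b _ => ?_
  rw [← sum_add_distrib]
  refine sum_congr rfl fun c _ => ?_
  by_cases h1 : Q b c <;> by_cases h2 : R b c <;> simp [h1, h2]

/-- passive step -/
lemma EnL_passive {K : ℕ → Prop} {p a M : ℕ} (hp : p.Prime) (hpM : ¬ p ∣ M) (hM : M ≠ 0)
    {Z : Finset ℕ} (hpZ : p ∉ Z) (z0 : ℕ → ℕ) (v0 : ℕ) {X τ : ℝ} (hX : 0 < X) {f g : ℕ → ℝ}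
    (hf : ∀ b, 0 ≤ f b) (hg : ∀ b, 0 ≤ g b) :
    EnQ (p ^ a * M) (LQ K Z z0 X τ) X f g ≤
      EnQ (p ^ a * M) (LQ K (insert p Z) (Function.update z0 p v0) X τ) X f g +
      ∑ v ∈ (range (a + 1)).erase v0, ∑ v' ∈ (range (a + 1)).erase v0, Bl p a M Z z0 X τ f g v v' := by
  have h1 := En_passive (a := a) hp hpM hM hpZ z0 v0 X τ f g
  rw [En_eq_EnQ, En_eq_EnQ] at h1
  have h2 := EnQ_add (p ^ a * M) (fun b c => Pas Z z0 b c ∧ X ≤ (Nat.gcd b c : ℝ) ∧
      (Nat.gcd b c : ℝ) ≤ τ * X) (fun b c => Pas (insert p Z) (Function.update z0 p v0) b c) X f g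
  have hsub : ∀ b c, Pas (insert p Z) (Function.update z0 p v0) b c → Pas Z z0 b c := by
    intro b c h q hq
    have hne : q ≠ p := fun e => hpZ (e ▸ hq)
    have := h q (mem_insert_of_mem hq)
    rwa [Function.update_of_ne hne] at this
  have h3 : EnQ (p ^ a * M) (fun b c => (Pas Z z0 b c ∧ X ≤ (Nat.gcd b c : ℝ) ∧
      (Nat.gcd b c : ℝ) ≤ τ * X) ∧ Pas (insert p Z) (Function.update z0 p v0) b c) X f g =
      EnQ (p ^ a * M) (fun b c => Pas (insert p Z) (Function.update z0 p v0) b c ∧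
        X ≤ (Nat.gcd b c : ℝ) ∧ (Nat.gcd b c : ℝ) ≤ τ * X) X f g := by
    refine EnQ_congr (fun b c _ _ => ?_) _ _ _
    constructor
    · rintro ⟨⟨_, h⟩, h'⟩; exact ⟨h', h⟩
    · rintro ⟨h', h⟩; exact ⟨⟨hsub b c h', h⟩, h'⟩
  rw [h3] at h2
  have h4 : EnQ (p ^ a * M) (LQ K Z z0 X τ) X f g ≤
      EnQ (p ^ a * M) (LQ K (insert p Z) (Function.update z0 p v0) X τ) X f g +
      EnQ (p ^ a * M) (fun b c => (Pas Z z0 b c ∧ X ≤ (Nat.gcd b c : ℝ) ∧
        (Nat.gcd b c : ℝ) ≤ τ * X) ∧ ¬ Pas (insert p Z) (Function.update z0 p v0) b c) X f g := by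
    refine EnQ_or (fun b c _ _ h => ?_) hX.le hf hg
    by_cases h' : Pas (insert p Z) (Function.update z0 p v0) b c
    · exact Or.inl ⟨h.1, h', h.2.2⟩
    · exact Or.inr ⟨h.2, h'⟩
  linarith

/-- the light bound -/
def RL (κ τ : ℝ) (M : ℕ) (Z : Finset ℕ) (z0 : ℕ → ℕ) (A ε : ℝ) : Prop :=
  ∀ (X : ℝ) (f g : ℕ → ℝ) (K : ℕ → Prop) (θ : ℝ), 0 < X → (∀ b, 0 ≤ f b ∧ f b ≤ 1) →
    (∀ b, 0 ≤ g b ∧ g b ≤ 1) → 0 ≤ θ → (∀ G, K G → dl M G f ≤ θ) →
    EnQ M (LQ K Z z0 X τ) X f g ≤ (A * θ ^ (1 - κ) + ε) * (ma M X f * ma M X g) ^ κ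

section rec
variable {κ τ : ℝ} {ω x1 : ℕ → ℝ}

/-- the diagonal block -/
lemma diag_blkL (hκ : 1 / 2 ≤ κ) (hκ1 : κ ≤ 1) {A ε : ℝ} (hA : 0 ≤ A) (hε : 0 ≤ ε) {p a M : ℕ}
    (hp : p.Prime) (hpM : ¬ p ∣ M) (hM : M ≠ 0) {Z : Finset ℕ} (hpZ : p ∉ Z) {z0 : ℕ → ℕ}
    (H : RL κ τ M Z z0 A ε) {X : ℝ} (hX : 0 < X) {f g : ℕ → ℝ}
    (hf : ∀ b, 0 ≤ f b ∧ f b ≤ 1) (hg : ∀ b, 0 ≤ g b ∧ g b ≤ 1) {K : ℕ → Prop} {θ : ℝ} (hθ : 0 ≤ θ)
    (hK : ∀ G, K G → dl (p ^ a * M) G f ≤ θ) {v : ℕ} (hv : v ≤ a) :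
    cc p a v * cc p a v * ((p : ℝ)⁻¹) ^ (dd v v) *
      EnQ M (fun b c => LQ K Z z0 X τ (p ^ v * b) (p ^ v * c)) (X / (p : ℝ) ^ (min v v))
        (fun b => f (p ^ v * b)) (fun b => g (p ^ v * b)) ≤
      (A * θ ^ (1 - κ) + ε) *
      ((cc p a v * ma M (X / (p : ℝ) ^ v) (fun b => f (p ^ v * b))) *
       (cc p a v * ma M (X / (p : ℝ) ^ v) (fun b => g (p ^ v * b)))) ^ κ := by
  have hp0 : (0 : ℝ) < p := by exact_mod_cast hp.pos
  have hcv := cc_pos hp a v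
  have hc1 := cc_le_one p a v
  have hκ0 : 0 < κ := by linarith
  have e0 : EnQ M (fun b c => LQ K Z z0 X τ (p ^ v * b) (p ^ v * c)) (X / (p : ℝ) ^ (min v v))
        (fun b => f (p ^ v * b)) (fun b => g (p ^ v * b)) =
      EnQ M (LQ (fun G => K (p ^ v * G)) Z z0 (X / (p : ℝ) ^ v) τ) (X / (p : ℝ) ^ v)
        (fun b => f (p ^ v * b)) (fun b => g (p ^ v * b)) := by
    rw [min_self]
    refine EnQ_congr (fun b c hb hc => ?_) _ _ _
    rw [LQ_split hp hpM hM hpZ hb hc, min_self]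
  have h1 := H (X / (p : ℝ) ^ v) (fun b => f (p ^ v * b)) (fun b => g (p ^ v * b))
    (fun G => K (p ^ v * G)) (θ / cc p a v)
    (div_pos hX (pow_pos hp0 _)) (fun b => hf _) (fun b => hg _) (by positivity) (by
      intro G hG
      rw [le_div_iff₀ hcv, mul_comm]
      exact (dl_split hp hpM hM hv G fun b => (hf b).1).trans (hK _ hG))
  rw [e0, dd_self, pow_zero, mul_one]
  set P := ma M (X / (p : ℝ) ^ v) (fun b => f (p ^ v * b)) with hP
  set R := ma M (X / (p : ℝ) ^ v) (fun b => g (p ^ v * b)) with hR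
  set c := cc p a v with hc
  have hP0 : 0 ≤ P := ma_nonneg (div_nonneg hX.le (pow_pos hp0 _).le) fun b => (hf _).1
  have hR0 : 0 ≤ R := ma_nonneg (div_nonneg hX.le (pow_pos hp0 _).le) fun b => (hg _).1
  have hPR : 0 ≤ (P * R) ^ κ := by positivity
  have ec : c ^ (2 * κ) = (c * c) ^ κ := by
    rw [Real.mul_rpow hcv.le hcv.le, ← Real.rpow_add hcv]; congr 1; ring
  have h2 : c * c ≤ c ^ (2 * κ) := by
    calc c * c = c ^ (2 : ℝ) := by rw [Real.rpow_two]; ring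
      _ ≤ c ^ (2 * κ) := Real.rpow_le_rpow_of_exponent_ge hcv hc1 (by linarith)
  have h3 : c * c * (θ / c) ^ (1 - κ) ≤ c ^ (2 * κ) * θ ^ (1 - κ) := by
    rw [Real.div_rpow hθ hcv.le]
    have e1 : c * c * (θ ^ (1 - κ) / c ^ (1 - κ)) = c ^ (1 + κ) * θ ^ (1 - κ) := by
      have : c ^ (1 + κ) = c * c / c ^ (1 - κ) := by
        rw [eq_div_iff (by positivity), ← Real.rpow_add hcv]
        rw [show 1 + κ + (1 - κ) = (2 : ℝ) by ring, Real.rpow_two]; ring
      rw [this]; ring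
    rw [e1]
    refine mul_le_mul_of_nonneg_right ?_ (by positivity)
    exact Real.rpow_le_rpow_of_exponent_ge hcv hc1 (by linarith)
  calc c * c * _ ≤ c * c * ((A * (θ / c) ^ (1 - κ) + ε) * (P * R) ^ κ) :=
        mul_le_mul_of_nonneg_left h1 (by positivity)
    _ = (A * (c * c * (θ / c) ^ (1 - κ)) + ε * (c * c)) * (P * R) ^ κ := by ring
    _ ≤ (A * (c ^ (2 * κ) * θ ^ (1 - κ)) + ε * c ^ (2 * κ)) * (P * R) ^ κ := by
        refine mul_le_mul_of_nonneg_right (add_le_add (mul_le_mul_of_nonneg_left h3 hA)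
          (mul_le_mul_of_nonneg_left h2 hε)) hPR
    _ = (A * θ ^ (1 - κ) + ε) * ((c * c) ^ κ * (P * R) ^ κ) := by rw [ec]; ring
    _ = _ := by
        rw [← Real.mul_rpow (by positivity) (by positivity)]
        congr 2
        ring

/-- off-diagonal blocks are bounded by the plain ones -/
lemma off_blkL {K : ℕ → Prop} {p a M : ℕ} (hp : p.Prime) (hpM : ¬ p ∣ M) (hM : M ≠ 0)
    {Z : Finset ℕ} (hpZ : p ∉ Z) {z0 : ℕ → ℕ} {X : ℝ} (hX : 0 < X) {f g : ℕ → ℝ}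
    (hf : ∀ b, 0 ≤ f b) (hg : ∀ b, 0 ≤ g b) (v v' : ℕ) :
    cc p a v * cc p a v' * ((p : ℝ)⁻¹) ^ (dd v v') *
      EnQ M (fun b c => LQ K Z z0 X τ (p ^ v * b) (p ^ v' * c)) (X / (p : ℝ) ^ (min v v'))
        (fun b => f (p ^ v * b)) (fun b => g (p ^ v' * b)) ≤ Bl p a M Z z0 X τ f g v v' := by
  have hp0 : (0 : ℝ) < p := by exact_mod_cast hp.pos
  unfold Bl
  refine mul_le_mul_of_nonneg_left ?_ (mul_nonneg (mul_nonneg (cc_nonneg hp a v)
    (cc_nonneg hp a v')) (by positivity))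
  rw [En_eq_EnQ]
  refine EnQ_mono (fun b c hb hc h => ?_) (div_nonneg hX.le (pow_pos hp0 _).le) (fun b => hf _)
    (fun b => hg _)
  rw [LQ_split hp hpM hM hpZ hb hc] at h
  exact h.2

theorem rl_rec (hκ : 1 / 2 ≤ κ) (hκ1 : κ ≤ 1) {A C ε0 : ℝ} (hA : 0 ≤ A) (hC : 0 ≤ C) (hε0 : 0 ≤ ε0)
    (S : ℕ → Prop) (hcr : AllCR κ τ C S)
    (hS : ∀ p, S p → Good κ ω x1 p ∧ C * ((((p : ℝ)⁻¹) ^ (1 - κ)) / ω p) ≤ ε0)
    (hbase : ∀ (M : ℕ) (Z : Finset ℕ) (z0 : ℕ → ℕ), M ≠ 0 → M.primeFactors = Z → (∀ p ∈ Z, S p) →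
      (∀ p ∈ Z, z0 p ≤ M.factorization p) → RL κ τ M Z z0 A ε0) (U : Finset ℕ) :
    ∀ (M : ℕ) (Z : Finset ℕ) (z0 : ℕ → ℕ), M ≠ 0 → M.primeFactors = Z ∪ U → Disjoint Z U →
      (∀ p ∈ Z ∪ U, S p) → (∀ p ∈ Z, z0 p ≤ M.factorization p) →
      RL κ τ M Z z0 A (ε0 + ∑ p ∈ U, C * (4 * x1 p ^ (2 * κ))) := by
  induction U using Finset.induction_on with
  | empty =>
    intro M Z z0 hM hMZ _ hSZ hz
    rw [sum_empty, add_zero]
    exact hbase M Z z0 hM (by simpa using hMZ) (fun p hp => hSZ p (by simp [hp])) hz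
  | insert p U hpU ih =>
    intro M Z z0 hM hMZ hdis hSU hz X f g K θ hX hf hg hθ hK
    have hκ0 : 0 < κ := by linarith
    have hpm : p ∈ M.primeFactors := by rw [hMZ]; simp
    have hp : p.Prime := Nat.prime_of_mem_primeFactors hpm
    have hp0 : (0 : ℝ) < p := by exact_mod_cast hp.pos
    have hpZ : p ∉ Z := fun h => (disjoint_left.1 hdis) h (mem_insert_self p U)
    have hSp := hSU p (by simp)
    obtain ⟨hgp, hgc⟩ := hS p hSp
    set a := M.factorization p with ha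
    set M' := M / p ^ a with hM'
    have hMe : M = p ^ a * M' := (Nat.ordProj_mul_ordCompl_eq_self M p).symm
    have hM'0 : M' ≠ 0 := (Nat.ordCompl_pos p hM).ne'
    have hpM' : ¬ p ∣ M' := Nat.not_dvd_ordCompl hp hM
    have hM'f : M'.primeFactors = Z ∪ U := by
      rw [hM', ordCompl_primeFactors, hMZ]
      ext q
      simp only [mem_erase, mem_union, mem_insert]
      constructor
      · rintro ⟨h, h' | h' | h'⟩
        · exact Or.inl h'
        · exact absurd h' h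
        · exact Or.inr h'
      · rintro (h | h)
        · exact ⟨fun e => hpZ (e ▸ h), Or.inl h⟩
        · exact ⟨fun e => hpU (e ▸ h), Or.inr (Or.inr h)⟩
    have hz' : ∀ q ∈ Z, z0 q ≤ M'.factorization q := by
      intro q hq
      have hqp : q ≠ p := fun e => hpZ (e ▸ hq)
      rw [hM', ordCompl_fac hqp]
      exact hz q hq
    have hSU' : ∀ q ∈ Z ∪ U, S q := fun q hq => hSU q (by
      rcases mem_union.1 hq with h | h
      · exact mem_union_left _ h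
      · exact mem_union_right _ (mem_insert_of_mem h))
    set εU := ε0 + ∑ q ∈ U, C * (4 * x1 q ^ (2 * κ)) with hεU
    have hterm : ∀ q ∈ U, 0 ≤ C * (4 * x1 q ^ (2 * κ)) := fun q hq => by
      have := Real.rpow_nonneg (hS q (hSU' q (mem_union_right _ hq))).1.x1 (2 * κ)
      positivity
    have hεle : ε0 ≤ εU := by have := sum_nonneg hterm; linarith
    have hεU0 : 0 ≤ εU := hε0.trans hεle
    have h1 : RL κ τ M' Z z0 A εU :=
      ih M' Z z0 hM'0 hM'f (disjoint_of_subset_right (subset_insert p U) hdis) hSU' hz'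
    have h1c : CR κ τ M' Z z0 C := hcr M' Z z0 hM'0 (by rw [hM'f]; exact subset_union_left)
      (fun q hq => hSU' q (by rwa [hM'f] at hq)) hz'
    have h2 : ∀ v0, v0 ≤ a → RL κ τ M (insert p Z) (Function.update z0 p v0) A εU := by
      intro v0 hv0
      refine ih M (insert p Z) _ hM ?_ ?_ ?_ ?_
      · rw [hMZ]; ext q; simp only [mem_union, mem_insert]; tauto
      · rw [disjoint_left]
        intro q hq hqU
        rcases mem_insert.1 hq with h | h
        · exact hpU (h ▸ hqU)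
        · exact (disjoint_left.1 hdis) h (mem_insert_of_mem hqU)
      · intro q hq
        refine hSU q ?_
        simp only [mem_union, mem_insert] at hq ⊢
        tauto
      · intro q hq
        rcases mem_insert.1 hq with h | h
        · subst h; rw [Function.update_self]; exact hv0
        · have : q ≠ p := fun e => hpZ (e ▸ h)
          rw [Function.update_of_ne this]; exact hz q h
    rw [sum_insert hpU]
    set r := ((p : ℝ)⁻¹) ^ (1 - κ) with hr
    have hr0 : 0 < r := by positivity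
    have hωp : 0 < ω p := hr0.trans_le hgp.le
    set x : ℕ → ℝ := fun v => cc p a v * ma M' (X / (p : ℝ) ^ v) (fun b => f (p ^ v * b)) with hx
    set y : ℕ → ℝ := fun v => cc p a v * ma M' (X / (p : ℝ) ^ v) (fun b => g (p ^ v * b)) with hy
    have hx0 : ∀ v, 0 ≤ x v := fun v => mul_nonneg (cc_nonneg hp a v)
      (ma_nonneg (div_nonneg hX.le (pow_pos hp0 _).le) fun b => (hf _).1)
    have hy0 : ∀ v, 0 ≤ y v := fun v => mul_nonneg (cc_nonneg hp a v)
      (ma_nonneg (div_nonneg hX.le (pow_pos hp0 _).le) fun b => (hg _).1)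
    have hsx : ∑ v ∈ range (a + 1), x v = ma M X f := by
      rw [hMe]; exact (ma_split hp hpM' hM'0 X f).symm
    have hsy : ∑ v ∈ range (a + 1), y v = ma M X g := by
      rw [hMe]; exact (ma_split hp hpM' hM'0 X g).symm
    have hA0 : 0 ≤ ma M X f := by rw [← hsx]; exact sum_nonneg fun v _ => hx0 v
    have hB0 : 0 ≤ ma M X g := by rw [← hsy]; exact sum_nonneg fun v _ => hy0 v
    have hxp : 0 ≤ C * (4 * x1 p ^ (2 * κ)) := by
      have := Real.rpow_nonneg hgp.x1 (2 * κ)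
      positivity
    have hAB : 0 ≤ (ma M X f * ma M X g) ^ κ := by positivity
    have hAθ : 0 ≤ A * θ ^ (1 - κ) := by positivity
    set E := A * θ ^ (1 - κ) + εU with hE
    have hE0 : 0 ≤ E := by positivity
    have hεE : ε0 ≤ E := by linarith
    -- the split form
    have hEs : EnQ M (LQ K Z z0 X τ) X f g ≤ ∑ v ∈ range (a + 1), (E * (x v * y v) ^ κ) +
        C * ∑ v ∈ range (a + 1), ∑ v' ∈ (range (a + 1)).filter (· ≠ v),
        r ^ (dd v v') * (x v * y v') ^ κ := by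
      have e0 := EnQ_split (a := a) hp hpM' hM'0 (LQ K Z z0 X τ) X f g
      rw [← hMe] at e0
      rw [e0, mul_sum, ← sum_add_distrib]
      refine sum_le_sum fun v hv => ?_
      rw [filter_ne', ← add_sum_erase _ _ hv]
      refine add_le_add (diag_blkL hκ hκ1 hA hεU0 hp hpM' hM'0 hpZ h1 hX hf hg hθ
        (by rw [← hMe]; exact hK) (by rw [mem_range] at hv; omega)) ?_
      rw [mul_sum]
      exact sum_le_sum fun v' _ => (off_blkL hp hpM' hM'0 hpZ hX (fun b => (hf b).1)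
        (fun b => (hg b).1) v v').trans (blk_le hκ0 hκ1 hp hC h1c hX hf hg v v')
    have hcross : C * ∑ v ∈ range (a + 1), ∑ v' ∈ (range (a + 1)).filter (· ≠ v),
        r ^ (dd v v') * (x v * y v') ^ κ ≤ E * ∑ v ∈ range (a + 1),
        ∑ v' ∈ (range (a + 1)).filter (· ≠ v), ω p ^ (dd v v') * (x v * y v') ^ κ := by
      have hle : ∑ v ∈ range (a + 1), ∑ v' ∈ (range (a + 1)).filter (· ≠ v),
          r ^ (dd v v') * (x v * y v') ^ κ ≤ (r / ω p) * ∑ v ∈ range (a + 1),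
          ∑ v' ∈ (range (a + 1)).filter (· ≠ v), ω p ^ (dd v v') * (x v * y v') ^ κ := by
        rw [mul_sum]
        refine sum_le_sum fun v _ => ?_
        rw [mul_sum]
        refine sum_le_sum fun v' hv' => ?_
        rw [show r / ω p * (ω p ^ dd v v' * (x v * y v') ^ κ) =
          (r / ω p * ω p ^ dd v v') * (x v * y v') ^ κ by ring]
        refine mul_le_mul_of_nonneg_right ?_ (Real.rpow_nonneg (mul_nonneg (hx0 v) (hy0 v')) _)
        have hd : 1 ≤ dd v v' := dd_pos (Ne.symm (mem_filter.1 hv').2)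
        obtain ⟨k, hk⟩ : ∃ k, dd v v' = k + 1 := ⟨dd v v' - 1, by omega⟩
        rw [hk, pow_succ, pow_succ]
        have e : r / ω p * (ω p ^ k * ω p) = ω p ^ k * r := by field_simp
        rw [e]
        exact mul_le_mul_of_nonneg_right (pow_le_pow_left₀ hr0.le hgp.le k) hr0.le
      have hT : 0 ≤ ∑ v ∈ range (a + 1), ∑ v' ∈ (range (a + 1)).filter (· ≠ v),
          ω p ^ (dd v v') * (x v * y v') ^ κ := sum_nonneg fun v _ => sum_nonneg fun v' _ =>
        mul_nonneg (pow_nonneg hωp.le _) (Real.rpow_nonneg (mul_nonneg (hx0 v) (hy0 v')) _)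
      calc _ ≤ C * ((r / ω p) * _) := mul_le_mul_of_nonneg_left hle hC
        _ = (C * (r / ω p)) * _ := by ring
        _ ≤ E * _ := mul_le_mul_of_nonneg_right (hgc.trans hεE) hT
    have hD : ∀ D, (∑ v ∈ range (a + 1), (x v * y v) ^ κ +
        ∑ v ∈ range (a + 1), ∑ v' ∈ (range (a + 1)).filter (· ≠ v), ω p ^ (dd v v') *
          (x v * y v') ^ κ ≤ D) → EnQ M (LQ K Z z0 X τ) X f g ≤ E * D := by
      intro D hD
      have := mul_le_mul_of_nonneg_left hD hE0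
      rw [mul_add] at this
      rw [← mul_sum] at hEs
      linarith
    have hfin : E * (ma M X f * ma M X g) ^ κ ≤
        (A * θ ^ (1 - κ) + (ε0 + (C * (4 * x1 p ^ (2 * κ)) + ∑ q ∈ U, C * (4 * x1 q ^ (2 * κ))))) *
          (ma M X f * ma M X g) ^ κ := by
      refine mul_le_mul_of_nonneg_right ?_ hAB
      rw [hE, hεU]; linarith
    rcases hA0.eq_or_lt with hAz | hAp
    · have hx00 : ∀ v ∈ range (a + 1), x v = 0 :=
        (sum_eq_zero_iff_of_nonneg fun v _ => hx0 v).1 (hsx.trans hAz.symm)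
      have := hD 0 (by
        rw [sum_eq_zero, sum_eq_zero, add_zero]
        · intro v hv
          refine sum_eq_zero fun v' _ => ?_
          rw [hx00 v hv, zero_mul, Real.zero_rpow hκ0.ne', mul_zero]
        · intro v hv
          rw [hx00 v hv, zero_mul, Real.zero_rpow hκ0.ne'])
      rw [mul_zero] at this
      refine this.trans ?_
      rw [← hAz, zero_mul, Real.zero_rpow hκ0.ne', mul_zero]
    rcases hB0.eq_or_lt with hBz | hBp
    · have hy00 : ∀ v ∈ range (a + 1), y v = 0 :=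
        (sum_eq_zero_iff_of_nonneg fun v _ => hy0 v).1 (hsy.trans hBz.symm)
      have := hD 0 (by
        rw [sum_eq_zero, sum_eq_zero, add_zero]
        · intro v hv
          refine sum_eq_zero fun v' hv' => ?_
          rw [hy00 v' (mem_filter.1 hv').1, mul_zero, Real.zero_rpow hκ0.ne', mul_zero]
        · intro v hv
          rw [hy00 v hv, mul_zero, Real.zero_rpow hκ0.ne'])
      rw [mul_zero] at this
      refine this.trans ?_
      rw [← hBz, mul_zero, Real.zero_rpow hκ0.ne', mul_zero]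
    rcases hgp.lm.hom hx0 hy0 hsx hsy hAp hBp with ⟨v0, hv0, hA1, hB1⟩ | hs
    · -- passive
      have e0 := EnL_passive (K := K) (a := a) (τ := τ) hp hpM' hM'0 hpZ z0 v0 hX
        (fun b => (hf b).1) (fun b => (hg b).1)
      rw [← hMe] at e0
      have h3 := h2 v0 (by omega) X f g K θ hX hf hg hθ hK
      have h4 := removed_bd hκ hκ1 (ω := ω) hp hpM' hM'0 hgp hC h1c hX hf hg (v0 := v0) (a := a) hv0
        (by rw [← hMe]; exact hA1) (by rw [← hMe]; exact hB1)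
      rw [← hMe] at h4
      refine e0.trans ((add_le_add h3 h4).trans (le_of_eq ?_))
      rw [hεU]; ring
    · exact (hD _ hs).trans hfin

end rec

end Crest.Agent.R4C.RPlusx817
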