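import Crest.Agent.R4C.TCnum_817

set_option autoImplicit false

open Finset

namespace Crest.Agent.R4C.RPlusx817

/-- the bound of R+ as a hypothesis -/
def RPlus (C1 η K Z0 : ℝ) : Prop :=
  ∀ x : ℝ, Z0 ≤ x → ∀ M : ℕ, M ≠ 0 → (∀ p ∈ M.primeFactors, x < (p : ℝ)) →
    ∀ τ : ℝ, 1 ≤ τ → τ ≤ Real.log x ^ C1 →
    ∀ (X : ℝ) (f g : ℕ → ℝ), 0 < X → (∀ b, 0 ≤ f b ∧ f b ≤ 1) → (∀ b, 0 ≤ g b ∧ g b ≤ 1) →
    En M ∅ (fun _ => 0) X τ f g ≤ min (ma M X f) (ma M X g) +
      K * Real.log x ^ (-(1 / 4) : ℝ) * (ma M X f * ma M X g) ^ ((1 + η) / 2)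

/-- the slowly growing constant -/
noncomputable def BC (η K Z0 : ℝ) (M : ℕ) : ℝ :=
  12 * K / η + ∑ p ∈ M.primeFactors.filter (fun p : ℕ => Z0 ≤ (p : ℝ)),
    12 * K * ((p : ℝ)⁻¹ * Real.log p ^ (-(1 / 4) : ℝ))

lemma primeFactors_pow_mul {p a M : ℕ} (hp : p.Prime) (ha : a ≠ 0) (hM : M ≠ 0) :
    (p ^ a * M).primeFactors = insert p M.primeFactors := by
  rw [Nat.primeFactors_mul (pow_ne_zero _ hp.ne_zero) hM, Nat.primeFactors_pow p ha,
    hp.primeFactors, singleton_union]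

lemma BC_step {η K Z0 : ℝ} {p a M : ℕ} (hp : p.Prime) (ha : a ≠ 0) (hM : M ≠ 0) (hpM : ¬ p ∣ M) :
    BC η K Z0 (p ^ a * M) = BC η K Z0 M +
      if Z0 ≤ (p : ℝ) then 12 * K * ((p : ℝ)⁻¹ * Real.log p ^ (-(1 / 4) : ℝ)) else 0 := by
  unfold BC
  rw [primeFactors_pow_mul hp ha hM]
  have hpn : p ∉ M.primeFactors := fun h => hpM (Nat.dvd_of_mem_primeFactors h)
  rw [filter_insert]
  split_ifs with h
  · rw [sum_insert (fun h' => hpn (mem_filter.1 h').1)]
    ring
  · ring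

lemma BC_ge {η K Z0 : ℝ} (hK : 0 < K) (hZ : 3 ≤ Z0) (M : ℕ) : 12 * K / η ≤ BC η K Z0 M := by
  unfold BC
  have : 0 ≤ ∑ p ∈ M.primeFactors.filter (fun p : ℕ => Z0 ≤ (p : ℝ)),
      12 * K * ((p : ℝ)⁻¹ * Real.log p ^ (-(1 / 4) : ℝ)) := by
    refine sum_nonneg fun p hp => ?_
    have h1 : Z0 ≤ (p : ℝ) := (mem_filter.1 hp).2
    have : 0 ≤ Real.log p := Real.log_nonneg (by linarith)
    positivity
  linarith

/-- the cross energy at a node -/
lemma cross_le_node {C1 η K Z0 : ℝ} (hC1 : 0 ≤ C1) (hη0 : 0 < η) (hη1 : η ≤ 1 / 8) (hK : 0 < K)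
    (hZ0 : 3 ≤ Z0) (hR : RPlus C1 η K Z0) {p a M : ℕ} (hp : p.Prime) (hM : M ≠ 0)
    (hMp : ∀ q ∈ M.primeFactors, p < q) (hpZ : Z0 ≤ (p : ℝ)) {X : ℝ} (hX : 0 < X) {f g : ℕ → ℝ}
    (hf : ∀ b, 0 ≤ f b ∧ f b ≤ 1) (hg : ∀ b, 0 ≤ g b ∧ g b ≤ 1) (v v' : ℕ) :
    Bl p a M ∅ (fun _ => 0) X (Real.log p ^ C1) f g v v' ≤
      cc p a v * cc p a v' * ((p : ℝ)⁻¹) ^ (dd v v') *
        min ((p : ℝ) ^ (v - min v v') * ma M (X / (p : ℝ) ^ v) (fun b => f (p ^ v * b)))
          ((p : ℝ) ^ (v' - min v v') * ma M (X / (p : ℝ) ^ v') (fun b => g (p ^ v' * b))) +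
      K * Real.log p ^ (-(1 / 4) : ℝ) * ((((p : ℝ)⁻¹) ^ (1 - (1 + η) / 2)) ^ (dd v v') *
        ((cc p a v * ma M (X / (p : ℝ) ^ v) (fun b => f (p ^ v * b))) *
        (cc p a v' * ma M (X / (p : ℝ) ^ v') (fun b => g (p ^ v' * b)))) ^ ((1 + η) / 2)) := by
  have hp0 : (0 : ℝ) < p := by exact_mod_cast hp.pos
  set κ := (1 + η) / 2 with hκ
  have hκ0 : 0 < κ := by positivity
  have hκ1 : κ ≤ 1 := by rw [hκ]; linarith
  set ε := K * Real.log p ^ (-(1 / 4) : ℝ) with hε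
  have hlog1 : 1 ≤ Real.log p := by
    rw [Real.le_log_iff_exp_le hp0]
    have := Real.exp_one_lt_d9
    linarith
  have hε0 : 0 ≤ ε := by positivity
  set fv : ℕ → ℝ := fun b => f (p ^ v * b) with hfv
  set gv : ℕ → ℝ := fun b => g (p ^ v' * b) with hgv
  have hcv := cc_nonneg hp a v
  have hcv' := cc_nonneg hp a v'
  have h1 := hR p hpZ M hM (fun q hq => by exact_mod_cast hMp q hq) (Real.log p ^ C1)
    (Real.one_le_rpow hlog1 hC1) le_rfl
    (X / (p : ℝ) ^ (min v v')) fv gv (div_pos hX (pow_pos hp0 _)) (fun b => hf _) (fun b => hg _)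
  rw [ma_min hp X fv (min_le_left v v'), ma_min hp X gv (min_le_right v v')] at h1
  set A := ma M (X / (p : ℝ) ^ v) fv with hA
  set B := ma M (X / (p : ℝ) ^ v') gv with hB
  have hA0 : 0 ≤ A := ma_nonneg (div_nonneg hX.le (pow_pos hp0 _).le) fun b => (hf _).1
  have hB0 : 0 ≤ B := ma_nonneg (div_nonneg hX.le (pow_pos hp0 _).le) fun b => (hg _).1
  have e1 : (p : ℝ) ^ (v - min v v') * A * ((p : ℝ) ^ (v' - min v v') * B) =
      (p : ℝ) ^ (dd v v') * (A * B) := by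
    have : (p : ℝ) ^ (dd v v') = (p : ℝ) ^ (v - min v v') * (p : ℝ) ^ (v' - min v v') := by
      rw [← pow_add]; congr 1; unfold dd; omega
    rw [this]; ring
  rw [e1] at h1
  have e2 : ((p : ℝ)⁻¹) ^ (dd v v') * ((p : ℝ) ^ (dd v v') * (A * B)) ^ κ =
      (((p : ℝ)⁻¹) ^ (1 - κ)) ^ (dd v v') * (A * B) ^ κ := by
    rw [Real.mul_rpow (by positivity) (mul_nonneg hA0 hB0), ← mul_assoc]
    congr 1
    set n := dd v v'
    have hi : (0 : ℝ) < (p : ℝ)⁻¹ := inv_pos.2 hp0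
    have : (p : ℝ) ^ n = (((p : ℝ)⁻¹) ^ n)⁻¹ := by rw [inv_pow, inv_inv]
    rw [this, Real.inv_rpow (by positivity), ← Real.rpow_natCast, ← Real.rpow_natCast,
      ← Real.rpow_mul hi.le, ← Real.rpow_neg hi.le, ← Real.rpow_add hi, ← Real.rpow_mul hi.le]
    congr 1
    ring
  have hcc1 : cc p a v * cc p a v' ≤ 1 := mul_le_one₀ (cc_le_one p a v) hcv' (cc_le_one p a v')
  unfold Bl
  calc cc p a v * cc p a v' * ((p : ℝ)⁻¹) ^ (dd v v') *
        En M ∅ (fun _ => 0) (X / (p : ℝ) ^ (min v v')) (Real.log p ^ C1) fv gv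
      ≤ cc p a v * cc p a v' * ((p : ℝ)⁻¹) ^ (dd v v') *
        (min ((p : ℝ) ^ (v - min v v') * A) ((p : ℝ) ^ (v' - min v v') * B) +
          ε * ((p : ℝ) ^ (dd v v') * (A * B)) ^ κ) :=
        mul_le_mul_of_nonneg_left h1 (mul_nonneg (mul_nonneg hcv hcv') (by positivity))
    _ = cc p a v * cc p a v' * ((p : ℝ)⁻¹) ^ (dd v v') *
        min ((p : ℝ) ^ (v - min v v') * A) ((p : ℝ) ^ (v' - min v v') * B) +
        ε * ((((p : ℝ)⁻¹) ^ (1 - κ)) ^ (dd v v') * ((cc p a v * cc p a v') * (A * B) ^ κ)) := by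
        rw [mul_add]
        congr 1
        calc _ = ε * ((cc p a v * cc p a v') *
              (((p : ℝ)⁻¹) ^ (dd v v') * ((p : ℝ) ^ (dd v v') * (A * B)) ^ κ)) := by ring
          _ = _ := by rw [e2]; ring
    _ ≤ cc p a v * cc p a v' * ((p : ℝ)⁻¹) ^ (dd v v') *
        min ((p : ℝ) ^ (v - min v v') * A) ((p : ℝ) ^ (v' - min v v') * B) +
        ε * ((((p : ℝ)⁻¹) ^ (1 - κ)) ^ (dd v v') *
          (((cc p a v * cc p a v') ^ κ) * (A * B) ^ κ)) := by
        refine add_le_add le_rfl (mul_le_mul_of_nonneg_left (mul_le_mul_of_nonneg_left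
          (mul_le_mul_of_nonneg_right (le_rpow_self (mul_nonneg hcv hcv') hcc1 hκ0 hκ1)
            (by positivity)) (by positivity)) hε0)
    _ = _ := by
        rw [← Real.mul_rpow (mul_nonneg hcv hcv') (mul_nonneg hA0 hB0)]
        congr 4
        ring

/-- **Theorem C** (one set), induction -/
theorem thmC_ind {C1 η K Z0 : ℝ} (hC1 : 0 ≤ C1) (hη0 : 0 < η) (hη1 : η ≤ 1 / 8) (hK : 0 < K)
    (hZ0 : 16 ≤ Z0) (hR : RPlus C1 η K Z0) :
    ∀ (M : ℕ), M ≠ 0 → ∀ (X : ℝ) (f : ℕ → ℝ), 0 < X → (∀ b, 0 ≤ f b ∧ f b ≤ 1) →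
      EC C1 Z0 M X f f ≤ 2 * ma M X f + BC η K Z0 M * ma M X f ^ (1 + η) := by
  intro M
  induction M using Nat.strong_induction_on with
  | _ M ih =>
  intro hM X f hX hf
  have hη : (1 + η) / 2 * 2 = 1 + η := by ring
  rcases Nat.lt_or_ge 1 M with hM1 | hM1
  swap
  · -- M = 1
    have hM1' : M = 1 := by omega
    subst hM1'
    have h0 : EC C1 Z0 1 X f f = 0 := by
      unfold EC
      refine EnQ_false 1 (fun b c hb hc h => ?_) X f f
      rw [Nat.dvd_one] at hb hc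
      subst hb; subst hc
      have : xs 1 1 = 0 := by simp [xs]
      have h2 := h.1
      rw [this] at h2
      norm_num at h2
      linarith
    rw [h0]
    have h1 : 0 ≤ ma 1 X f := ma_nonneg hX.le fun b => (hf b).1
    have h2 := BC_ge (η := η) hK (by linarith : (3 : ℝ) ≤ Z0) 1
    have h3 : 0 ≤ 12 * K / η := by positivity
    have h4 : 0 ≤ BC η K Z0 1 := h3.trans h2
    positivity
  set p := M.minFac with hpd
  have hp : p.Prime := Nat.minFac_prime (by omega)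
  have hp0 : (0 : ℝ) < p := by exact_mod_cast hp.pos
  set a := M.factorization p with ha
  set M' := M / p ^ a with hM'
  have hMe : M = p ^ a * M' := (Nat.ordProj_mul_ordCompl_eq_self M p).symm
  have hM'0 : M' ≠ 0 := (Nat.ordCompl_pos p hM).ne'
  have hpM' : ¬ p ∣ M' := Nat.not_dvd_ordCompl hp hM
  have ha0 : a ≠ 0 := by
    rw [ha]
    exact (hp.factorization_pos_of_dvd hM (Nat.minFac_dvd M)).ne'
  have hlt : M' < M := Nat.div_lt_self (Nat.pos_of_ne_zero hM)
    (Nat.one_lt_pow ha0 hp.one_lt)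
  have hMp : ∀ q ∈ M'.primeFactors, p < q := by
    intro q hq
    have hqp := Nat.prime_of_mem_primeFactors hq
    have hqM : q ∣ M := (Nat.dvd_of_mem_primeFactors hq).trans (Nat.div_dvd_of_dvd
      (Nat.ordProj_dvd M p))
    have h1 : p ≤ q := Nat.minFac_le_of_dvd hqp.two_le hqM
    have h2 : p ≠ q := fun h => hpM' (h ▸ Nat.dvd_of_mem_primeFactors hq)
    omega
  set w : ℝ := (p : ℝ)⁻¹ with hw
  have hw0 : 0 < w := inv_pos.2 hp0
  set κ := (1 + η) / 2 with hκ
  have hκ' : 1 / 2 < κ := by rw [hκ]; linarith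
  have hκ1 : κ < 1 := by rw [hκ]; linarith
  have h2κ : 2 * κ = 1 + η := by rw [hκ]; ring
  set fv : ℕ → ℕ → ℝ := fun v b => f (p ^ v * b) with hfv
  set Mv : ℕ → ℝ := fun v => ma M' (X / (p : ℝ) ^ v) (fv v) with hMv
  set x : ℕ → ℝ := fun v => cc p a v * Mv v with hx
  have hMv0 : ∀ v, 0 ≤ Mv v := fun v =>
    ma_nonneg (div_nonneg hX.le (pow_pos hp0 _).le) fun b => (hf _).1
  have hx0 : ∀ v, 0 ≤ x v := fun v => mul_nonneg (cc_nonneg hp a v) (hMv0 v)
  have hsx : ∑ v ∈ range (a + 1), x v = ma M X f := by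
    rw [hMe]; exact (ma_split hp hpM' hM'0 X f).symm
  set m := ma M X f with hm
  have hm0 : 0 ≤ m := ma_nonneg hX.le fun b => (hf b).1
  set B := BC η K Z0 M with hB
  set B' := BC η K Z0 M' with hB'
  have hB'ge : 12 * K / η ≤ B' := BC_ge hK (by linarith) M'
  have hB'0 : 0 ≤ B' := le_trans (by positivity) hB'ge
  have hBe : B = B' + if Z0 ≤ (p : ℝ) then 12 * K * (w * Real.log p ^ (-(1 / 4) : ℝ)) else 0 := by
    rw [hB, hMe]; exact BC_step hp ha0 hM'0 hpM'
  -- the diagonal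
  have hdiag : ∑ v ∈ range (a + 1), cc p a v ^ 2 * EC C1 Z0 M' (X / (p : ℝ) ^ v) (fv v) (fv v) ≤
      ∑ v ∈ range (a + 1), 2 * (cc p a v ^ 2 * Mv v) + B' * ∑ v ∈ range (a + 1), x v ^ (1 + η) := by
    rw [mul_sum, ← sum_add_distrib]
    refine sum_le_sum fun v _ => ?_
    have h1 := ih M' hlt hM'0 (X / (p : ℝ) ^ v) (fv v) (div_pos hX (pow_pos hp0 _)) (fun b => hf _)
    have hcp := cc_pos hp a v
    have h2 : cc p a v ^ 2 ≤ cc p a v ^ (1 + η) := by
      rw [← Real.rpow_natCast]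
      exact Real.rpow_le_rpow_of_exponent_ge hcp (cc_le_one p a v) (by push_cast; linarith)
    calc cc p a v ^ 2 * EC C1 Z0 M' (X / (p : ℝ) ^ v) (fv v) (fv v)
        ≤ cc p a v ^ 2 * (2 * Mv v + B' * Mv v ^ (1 + η)) :=
          mul_le_mul_of_nonneg_left h1 (by positivity)
      _ = 2 * (cc p a v ^ 2 * Mv v) + B' * (cc p a v ^ 2 * Mv v ^ (1 + η)) := by ring
      _ ≤ 2 * (cc p a v ^ 2 * Mv v) + B' * (cc p a v ^ (1 + η) * Mv v ^ (1 + η)) := by
          refine add_le_add le_rfl (mul_le_mul_of_nonneg_left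
            (mul_le_mul_of_nonneg_right h2 (Real.rpow_nonneg (hMv0 v) _)) hB'0)
      _ = _ := by rw [← Real.mul_rpow hcp.le (hMv0 v)]
  have hsplit := EC_split (C1 := C1) (Z0 := Z0) (a := a) hp hM'0 hMp X f f
  rw [← hMe] at hsplit
  rw [hsplit]
  by_cases hpZ : Z0 ≤ (p : ℝ)
  · simp only [if_pos hpZ]
    rw [if_pos hpZ] at hBe
    have hr : w ^ (1 - κ) ≤ 1 / 2 := by
      rw [hw, Real.inv_rpow hp0.le, inv_le_comm₀ (by positivity) (by norm_num)]
      calc (1 / 2 : ℝ)⁻¹ = (16 : ℝ) ^ (1 / 4 : ℝ) := by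
            rw [show (16 : ℝ) = 2 ^ (4 : ℝ) by norm_num, ← Real.rpow_mul (by norm_num)]; norm_num
        _ ≤ (16 : ℝ) ^ (1 - κ) := Real.rpow_le_rpow_of_exponent_le (by norm_num) (by
            rw [hκ]; linarith)
        _ ≤ (p : ℝ) ^ (1 - κ) := Real.rpow_le_rpow (by norm_num) (by linarith) (by linarith)
    obtain ⟨μ, hμ0, hμ1, hsum1, hsum2⟩ := off_le hκ' hκ1 hw0 hr hx0 hsx
    rw [h2κ] at hsum1 hsum2
    set ε := K * Real.log p ^ (-(1 / 4) : ℝ) with hε
    have hlog1 : 1 ≤ Real.log p := by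
      rw [Real.le_log_iff_exp_le hp0]
      have := Real.exp_one_lt_d9
      linarith
    have hε0 : 0 ≤ ε := by positivity
    have hεK : ε ≤ K := by
      have : Real.log p ^ (-(1 / 4) : ℝ) ≤ 1 :=
        Real.rpow_le_one_of_one_le_of_nonpos hlog1 (by norm_num)
      rw [hε]; nlinarith
    -- cross
    have hcross : ∑ v ∈ range (a + 1), ∑ v' ∈ (range (a + 1)).filter (· ≠ v),
        Bl p a M' ∅ (fun _ => 0) X (Real.log p ^ C1) f f v v' ≤
        ∑ v ∈ range (a + 1), 2 * ((cc p a v - cc p a v ^ 2) * Mv v) +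
          ε * (12 * (w + μ) * m ^ (1 + η)) := by
      calc _ ≤ ∑ v ∈ range (a + 1), ∑ v' ∈ (range (a + 1)).filter (· ≠ v),
            (cc p a v * cc p a v' * w ^ (dd v v') * Mv (min v v') +
              ε * ((w ^ (1 - κ)) ^ (dd v v') * (x v * x v') ^ κ)) := by
            refine sum_le_sum fun v _ => sum_le_sum fun v' hv' => ?_
            refine (cross_le_node hC1 hη0 hη1 hK (by linarith) hR hp hM'0 hMp hpZ hX hf hf v v').trans ?_
            refine add_le_add (mul_le_mul_of_nonneg_left ?_ (mul_nonneg (mul_nonneg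
              (cc_nonneg hp a v) (cc_nonneg hp a v')) (by positivity))) le_rfl
            rcases le_total v v' with h | h
            · rw [min_eq_left h, Nat.sub_self, pow_zero, one_mul]
              exact min_le_left _ _
            · rw [min_eq_right h, Nat.sub_self, pow_zero, one_mul]
              exact min_le_right _ _
        _ = ∑ v ∈ range (a + 1), ∑ v' ∈ (range (a + 1)).filter (· ≠ v),
              (cc p a v * cc p a v' * w ^ (dd v v') * Mv (min v v')) +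
            ε * ∑ v ∈ range (a + 1), ∑ v' ∈ (range (a + 1)).filter (· ≠ v),
              ((w ^ (1 - κ)) ^ (dd v v') * (x v * x v') ^ κ) := by
            simp only [sum_add_distrib, mul_sum]
        _ ≤ _ := by
            refine add_le_add (le_of_eq ?_) (mul_le_mul_of_nonneg_left hsum2 hε0)
            rw [sum_offdiag _ _ (fun v v' => by rw [dd_comm, min_comm]; ring), mul_sum]
            refine sum_congr rfl fun v hv => ?_
            have hva : v ≤ a := by rw [mem_range] at hv; omega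
            congr 1
            have e1 : ∀ v' ∈ (range (a + 1)).filter (v < ·),
                cc p a v * cc p a v' * w ^ (dd v v') * Mv (min v v') =
                (cc p a v * Mv v) * (cc p a v' * w ^ (v' - v)) := by
              intro v' hv'
              have h1 : v < v' := (mem_filter.1 hv').2
              rw [min_eq_left h1.le]
              have : dd v v' = v' - v := by unfold dd; omega
              rw [this]; ring
            rw [sum_congr rfl e1, ← mul_sum, tail_cc' hva]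
            ring
    rw [show 1 + η - 1 = η by ring] at hsum1
    have hmη : 0 ≤ m ^ (1 + η) := Real.rpow_nonneg hm0 _
    calc _ ≤ (∑ v ∈ range (a + 1), 2 * (cc p a v ^ 2 * Mv v) +
            B' * ∑ v ∈ range (a + 1), x v ^ (1 + η)) +
          (∑ v ∈ range (a + 1), 2 * ((cc p a v - cc p a v ^ 2) * Mv v) +
          ε * (12 * (w + μ) * m ^ (1 + η))) := add_le_add hdiag hcross
      _ = 2 * m + B' * ∑ v ∈ range (a + 1), x v ^ (1 + η) + ε * (12 * (w + μ) * m ^ (1 + η)) := by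
          have : 2 * m = ∑ v ∈ range (a + 1), 2 * (cc p a v ^ 2 * Mv v) +
              ∑ v ∈ range (a + 1), 2 * ((cc p a v - cc p a v ^ 2) * Mv v) := by
            rw [← hsx, mul_sum, ← sum_add_distrib]
            refine sum_congr rfl fun v _ => ?_
            rw [hx]; ring
          rw [this]; ring
      _ ≤ 2 * m + B' * ((1 - η * μ) * m ^ (1 + η)) + ε * (12 * (w + μ) * m ^ (1 + η)) := by
          refine add_le_add (add_le_add le_rfl (mul_le_mul_of_nonneg_left hsum1 hB'0)) le_rfl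
      _ ≤ 2 * m + B * m ^ (1 + η) := by
          rw [hBe]
          have h1 : 12 * ε * μ ≤ B' * η * μ := by
            have h2 : 12 * K ≤ B' * η := by
              rw [div_le_iff₀ hη0] at hB'ge; exact hB'ge
            refine mul_le_mul_of_nonneg_right ?_ hμ0
            linarith
          have h3 : 12 * K * (w * Real.log p ^ (-(1 / 4) : ℝ)) = 12 * ε * w := by rw [hε]; ring
          rw [h3]
          nlinarith
  · simp only [if_neg hpZ, sum_const_zero, add_zero]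
    rw [if_neg hpZ, add_zero] at hBe
    rw [hBe]
    refine hdiag.trans (add_le_add ?_ (mul_le_mul_of_nonneg_left ?_ hB'0))
    · rw [← hsx, mul_sum]
      refine sum_le_sum fun v _ => ?_
      have := cc_le_one p a v
      have h0 := cc_nonneg hp a v
      have : cc p a v ^ 2 ≤ cc p a v := by nlinarith
      exact mul_le_mul_of_nonneg_left (mul_le_mul_of_nonneg_right this (hMv0 v)) (by norm_num)
    · have := Multix251.pow_sum_le' (κ := κ) hκ'.le hm0 (range (a + 1)) x hx0 hsx.le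
      rwa [h2κ] at this

/-- **Theorem C** (one set, general exponents): all pairs whose smallest differing prime `x` is
`≥ Z0` and whose gcd lies in `[X, X (log x)^C1]`. -/
theorem thmC_one {C1 : ℝ} (hC1 : 0 ≤ C1) :
    ∃ η K Z0 : ℝ, 0 < η ∧ η ≤ 1 / 8 ∧ 0 < K ∧ 16 ≤ Z0 ∧ RPlus C1 η K Z0 ∧
      ∀ Z1, Z0 ≤ Z1 → ∀ M : ℕ, M ≠ 0 → ∀ (X : ℝ) (f : ℕ → ℝ), 0 < X →
      (∀ b, 0 ≤ f b ∧ f b ≤ 1) →
      EC C1 Z1 M X f f ≤ 2 * ma M X f + K * ma M X f ^ (1 + η) := by
  obtain ⟨η, K, Z0, hη0, hη1, hK, hZ0, hR⟩ := rplus' hC1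
  obtain ⟨K2, hK2, hlog⟩ := Roughx882.sum_prime_log (1 / 4) (by norm_num)
  refine ⟨η, 12 * K / η + 12 * K * K2 + K, max Z0 16, hη0, hη1, by positivity, le_max_right _ _, ?_, ?_⟩
  · intro x hx M hM hMx τ hτ hτ1 X f g hX hf hg
    refine (hR x ((le_max_left _ _).trans hx) M hM hMx τ hτ hτ1 X f g hX hf hg).trans
      (add_le_add le_rfl ?_)
    have hx16 : 16 ≤ x := (le_max_right _ _).trans hx
    have hl : 0 ≤ Real.log x := Real.log_nonneg (by linarith)
    have h0 : 0 ≤ ma M X f * ma M X g := mul_nonneg (ma_nonneg hX.le fun b => (hf b).1)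
      (ma_nonneg hX.le fun b => (hg b).1)
    refine mul_le_mul_of_nonneg_right (mul_le_mul_of_nonneg_right ?_ (Real.rpow_nonneg hl _))
      (Real.rpow_nonneg h0 _)
    have : 0 ≤ 12 * K / η + 12 * K * K2 := by positivity
    linarith
  · intro Z1 hZ1 M hM X f hX hf
    have hZ116 : 16 ≤ Z1 := (le_max_right _ _).trans hZ1
    have hR' : RPlus C1 η K Z1 := fun x hx => hR x (((le_max_left _ _).trans hZ1).trans hx)
    refine (thmC_ind hC1 hη0 hη1 hK hZ116 hR' M hM X f hX hf).trans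
      (add_le_add le_rfl (mul_le_mul_of_nonneg_right ?_
        (Real.rpow_nonneg (ma_nonneg hX.le fun b => (hf b).1) _)))
    unfold BC
    have h1 := hlog Z1 (by linarith) (M.primeFactors.filter (fun p : ℕ => Z1 ≤ (p : ℝ)))
      (fun p hp => ⟨Nat.prime_of_mem_primeFactors (mem_filter.1 hp).1, (mem_filter.1 hp).2⟩)
    have hl1 : 1 ≤ Real.log Z1 := by
      rw [Real.le_log_iff_exp_le (by linarith)]
      have := Real.exp_one_lt_d9
      linarith
    have h2 : Real.log Z1 ^ (-(1 / 4) : ℝ) ≤ 1 :=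
      Real.rpow_le_one_of_one_le_of_nonpos hl1 (by norm_num)
    have h3 : ∑ p ∈ M.primeFactors.filter (fun p : ℕ => Z1 ≤ (p : ℝ)),
        12 * K * ((p : ℝ)⁻¹ * Real.log p ^ (-(1 / 4) : ℝ)) ≤ 12 * K * K2 := by
      rw [← mul_sum]
      refine mul_le_mul_of_nonneg_left ?_ (by positivity)
      calc _ = ∑ p ∈ M.primeFactors.filter (fun p : ℕ => Z1 ≤ (p : ℝ)),
            1 / ((p : ℝ) * Real.log p ^ (1 / 4 : ℝ)) := by
            refine sum_congr rfl fun p hp => ?_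
            have : Z1 ≤ (p : ℝ) := (mem_filter.1 hp).2
            rw [Real.rpow_neg (Real.log_nonneg (by linarith))]
            simp only [one_div, mul_inv]
        _ ≤ K2 * Real.log Z1 ^ (-(1 / 4) : ℝ) := h1
        _ ≤ K2 * 1 := mul_le_mul_of_nonneg_left h2 hK2.le
        _ = K2 := mul_one _
    linarith

end Crest.Agent.R4C.RPlusx817
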