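import Crest.Agent.R4C.RLightB_817
import Crest.Agent.R4C.ThmC_817

set_option autoImplicit false

open Finset

namespace Crest.Agent.R4C.RPlusx817

set_option maxHeartbeats 1600000 in
/-- all the parameters of the recursions, with explicit `η` -/
theorem params {Cr : ℝ} (hCr0 : 0 ≤ Cr) (hCr : RoughCount Cr) {C1 : ℝ} (hC1 : 0 ≤ C1) {η : ℝ}
    (hηd : η = 1 / (8 * (C1 + 1))) :
    ∃ K Z0 : ℝ, 0 < K ∧ 3 ≤ Z0 ∧ ∀ x : ℝ, Z0 ≤ x → ∀ τ : ℝ, 1 ≤ τ → τ ≤ Real.log x ^ C1 →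
    ∃ (C ε0 θ0 : ℝ) (k : ℕ) (ω x1 : ℕ → ℝ), 0 ≤ C ∧ 0 ≤ ε0 ∧ 0 ≤ θ0 ∧ 4 * τ ≤ 2 ^ k ∧
      AllCR ((1 + η) / 2) τ C (fun p => x < (p : ℝ)) ∧
      (∀ p : ℕ, x < (p : ℝ) → Good ((1 + η) / 2) ω x1 p ∧
        C * ((((p : ℝ)⁻¹) ^ (1 - (1 + η) / 2)) / ω p) ≤ ε0) ∧
      (∀ (Z : Finset ℕ) (z0 : ℕ → ℕ), (∀ p ∈ Z, p.Prime) → (∀ p ∈ Z, x < (p : ℝ)) →
        ∀ i, 1 ≤ i → (((ctr Z z0).divisors.filter (fun l => Nat.log 2 l = i)).card : ℝ) ≤
          θ0 * 2 ^ i) ∧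
      k * ((4 * τ) ^ (2 * ((1 + η) / 2) - 1) * θ0 ^ (1 - (1 + η) / 2)) ≤ ε0 ∧
      ∀ U : Finset ℕ, (∀ p ∈ U, x < (p : ℝ)) →
        ε0 + ∑ p ∈ U, C * (4 * x1 p ^ (2 * ((1 + η) / 2))) ≤ K * Real.log x ^ (-(1 / 4) : ℝ) := by
  have hη0 : 0 < η := by rw [hηd]; positivity
  have hη1 : η ≤ 1 / 8 := by
    rw [hηd]; apply one_div_le_one_div_of_le (by norm_num); linarith
  have hηC : 2 * C1 * η = 1 / 4 - 2 * η := by
    rw [hηd]; field_simp; ring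
  set κ : ℝ := (1 + η) / 2 with hκd
  have hκ : 1 / 2 < κ := by rw [hκd]; linarith
  have hκ1 : κ < 1 := by rw [hκd]; linarith
  have h2κ : 2 * κ - 1 = η := by rw [hκd]; ring
  have h1κ : 1 - κ = (1 - η) / 2 := by rw [hκd]; ring
  set δ : ℝ := (1 - κ) * (η / 4) with hδd
  have h1κ0 : 0 < 1 - κ := by linarith
  have hδ0 : 0 < δ := by positivity
  have hδ1 : δ < 1 - κ := by
    rw [hδd]; nlinarith
  have hδκ : δ / (1 - κ) = η / 4 := by rw [hδd]; field_simp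
  obtain ⟨P0, hP0, hgood⟩ := good_ex hκ hκ1 hδ0.le hδ1
  -- the tail
  set c : ℝ := (1 - η / 4) * (2 * κ) - 1 with hcd
  have hc : η / 2 ≤ c := by
    rw [hcd]
    have : 2 * κ = 1 + η := by linarith
    rw [this]; nlinarith
  have hc0 : 0 < c := by linarith
  obtain ⟨K4, hK4, htail⟩ := sum_tail hc0
  set A := Multix251.A0 κ with hA
  have hA0 : 0 < A := Multix251.A0_pos (by linarith)
  have hx1 : ∀ p : ℕ, 0 < p → (Multix251.x1 κ δ ((p : ℝ)⁻¹)) ^ (2 * κ) =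
      A ^ (2 * κ) * ((p : ℝ)⁻¹) ^ (1 + c) := by
    intro p hp
    have hw : 0 < (p : ℝ)⁻¹ := inv_pos.2 (by exact_mod_cast hp)
    unfold Multix251.x1
    rw [Real.mul_rpow hA0.le (by positivity), ← Real.rpow_mul hw.le, hδκ]
    congr 2
    rw [hcd]; ring
  set K1 : ℝ := 2 / η + 1 with hK1
  have hK10 : 0 < K1 := by positivity
  set K5 : ℝ := Real.exp (4 * A ^ (2 * κ) * K4) with hK5
  have hK50 : 0 < K5 := Real.exp_pos _
  -- log versus powers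
  set K7 : ℝ := ((1 / 2) / δ) ^ (1 / 2 : ℝ) with hK7
  set K8 : ℝ := ((1 / 2) / (c / 2)) ^ (1 / 2 : ℝ) with hK8
  have hK70 : 0 < K7 := by positivity
  have hK80 : 0 < K8 := by positivity
  set K : ℝ := (4 * K1) * K5 * K7 + (4 * K1) * (Cr ^ (1 - κ)) +
    (4 * K1) * K5 * (4 * A ^ (2 * κ) * K4) * K8 + 1 with hK
  have hKpos : 0 < K := by positivity
  refine ⟨K, max 3 P0, hKpos, le_max_left _ _, ?_⟩
  intro x hx τ hτ hτ1
  have hx3 : 3 ≤ x := (le_max_left _ _).trans hx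
  have hxP : P0 ≤ x := (le_max_right _ _).trans hx
  have hx0 : 0 < x := by linarith
  set L := Real.log x with hL
  have hL1 : 1 ≤ L := by
    rw [hL, Real.le_log_iff_exp_le hx0]
    have := Real.exp_one_lt_d9
    linarith
  have hL0 : 0 < L := by linarith
  set t : ℝ := 4 * τ with ht
  have ht4 : 4 ≤ t := by rw [ht]; linarith
  have ht0 : 0 < t := by linarith
  obtain ⟨k, hk, hkle⟩ := exists_k hη0 ht4
  -- `k t^η ≤ 4 K1 L^(1/4 - 2η)`
  have hkt : (k : ℝ) * t ^ η ≤ 4 * K1 * L ^ (1 / 4 - 2 * η) := by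
    calc (k : ℝ) * t ^ η ≤ (K1 * t ^ η) * t ^ η := mul_le_mul_of_nonneg_right hkle (by positivity)
      _ = K1 * t ^ (2 * η) := by
          rw [mul_assoc, ← Real.rpow_add ht0]; congr 2; ring
      _ ≤ K1 * (4 * L ^ C1) ^ (2 * η) := by
          refine mul_le_mul_of_nonneg_left (Real.rpow_le_rpow ht0.le ?_ (by positivity)) hK10.le
          rw [ht]; linarith
      _ = K1 * (4 ^ (2 * η) * L ^ (1 / 4 - 2 * η)) := by
          rw [Real.mul_rpow (by norm_num) (by positivity), ← Real.rpow_mul hL0.le]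
          congr 3
          linarith
      _ ≤ K1 * (4 * L ^ (1 / 4 - 2 * η)) := by
          refine mul_le_mul_of_nonneg_left (mul_le_mul_of_nonneg_right ?_ (by positivity)) hK10.le
          calc (4 : ℝ) ^ (2 * η) ≤ 4 ^ (1 : ℝ) :=
                Real.rpow_le_rpow_of_exponent_le (by norm_num) (by linarith)
            _ = 4 := Real.rpow_one 4
      _ = _ := by ring
  set C0 : ℝ := k * t ^ η with hC0
  have hC00 : 0 ≤ C0 := by positivity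
  set C : ℝ := C0 * K5 with hC
  have hC0' : 0 ≤ C := by positivity
  have hCle : C ≤ (4 * K1) * K5 * L ^ (1 / 4 : ℝ) := by
    calc C ≤ (4 * K1 * L ^ (1 / 4 - 2 * η)) * K5 := mul_le_mul_of_nonneg_right hkt hK50.le
      _ ≤ (4 * K1 * L ^ (1 / 4 : ℝ)) * K5 := by
          refine mul_le_mul_of_nonneg_right (mul_le_mul_of_nonneg_left ?_ (by positivity)) hK50.le
          exact Real.rpow_le_rpow_of_exponent_le hL1 (by linarith)
      _ = _ := by ring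
  -- sums
  have hsum : ∀ U : Finset ℕ, (∀ p ∈ U, x < (p : ℝ)) →
      ∑ p ∈ U, 4 * (Multix251.x1 κ δ ((p : ℝ)⁻¹)) ^ (2 * κ) ≤
        4 * A ^ (2 * κ) * K4 * x ^ (-(c / 2)) := by
    intro U hU
    have h1 := htail x (by linarith) U (fun p hp => (hU p hp).le)
    calc ∑ p ∈ U, 4 * (Multix251.x1 κ δ ((p : ℝ)⁻¹)) ^ (2 * κ)
        = 4 * A ^ (2 * κ) * ∑ p ∈ U, ((p : ℝ)⁻¹) ^ (1 + c) := by
          rw [mul_sum]
          refine sum_congr rfl fun p hp => ?_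
          have hp0 : 0 < p := by
            have := hU p hp
            have h2 : (0 : ℝ) < p := by linarith
            exact_mod_cast h2
          rw [hx1 p hp0]; ring
      _ ≤ 4 * A ^ (2 * κ) * (K4 * x ^ (-(c / 2))) := mul_le_mul_of_nonneg_left h1 (by positivity)
      _ = _ := by ring
  have hxc1 : x ^ (-(c / 2)) ≤ 1 := Real.rpow_le_one_of_one_le_of_nonpos (by linarith) (by linarith)
  have hS0 : ∀ p : ℕ, x < (p : ℝ) →
      Good κ (fun p => Multix251.om κ δ ((p : ℝ)⁻¹)) (fun p => Multix251.x1 κ δ ((p : ℝ)⁻¹)) p :=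
    fun p hp => hgood p (hxP.trans hp.le)
  -- crude
  have hcr : AllCR κ τ C (fun p => x < (p : ℝ)) := by
    intro M' Z z0 hM' hZ hS hz
    have h1 := crude_rec (κ := κ) (τ := τ) (ω := fun p => Multix251.om κ δ ((p : ℝ)⁻¹))
      (x1 := fun p => Multix251.x1 κ δ ((p : ℝ)⁻¹)) hκ.le hκ1.le hC00
      (fun M Z z0 hM hMZ hz => by
        have := crude_base hκ.le hκ1.le hτ hk hM hMZ hz
        rw [h2κ] at this
        exact this) (M'.primeFactors \ Z) M' Z z0 hM'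
      (by rw [union_sdiff_of_subset hZ]) disjoint_sdiff
      (fun p hp => hS0 p (hS p (mem_sdiff.1 hp).1)) hz
    refine h1.mono (mul_le_mul_of_nonneg_left ?_ hC00)
    have h2 := hsum (M'.primeFactors \ Z) (fun p hp => hS p (mem_sdiff.1 hp).1)
    calc ∏ p ∈ M'.primeFactors \ Z, (1 + 4 * (Multix251.x1 κ δ ((p : ℝ)⁻¹)) ^ (2 * κ))
        ≤ ∏ p ∈ M'.primeFactors \ Z, Real.exp (4 * (Multix251.x1 κ δ ((p : ℝ)⁻¹)) ^ (2 * κ)) := by
          refine prod_le_prod (fun p hp => ?_) fun p _ => ?_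
          · have hpp : 0 < p := (Nat.prime_of_mem_primeFactors (mem_sdiff.1 hp).1).pos
            have := Multix251.x1_pos (κ := κ) (δ := δ) (w := (p : ℝ)⁻¹) (by linarith)
              (inv_pos.2 (by exact_mod_cast hpp))
            positivity
          · have := Real.add_one_le_exp (4 * (Multix251.x1 κ δ ((p : ℝ)⁻¹)) ^ (2 * κ))
            linarith
      _ = Real.exp (∑ p ∈ M'.primeFactors \ Z, 4 * (Multix251.x1 κ δ ((p : ℝ)⁻¹)) ^ (2 * κ)) := by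
          rw [Real.exp_sum]
      _ ≤ K5 := by
          rw [hK5]
          apply Real.exp_le_exp.2
          refine h2.trans ?_
          exact mul_le_of_le_one_right (by positivity) hxc1
  set θ : ℝ := Cr / L with hθ
  have hθ0 : 0 ≤ θ := by positivity
  set ε0 : ℝ := C * x ^ (-δ) + k * (t ^ η * θ ^ (1 - κ)) with hε0
  have hε00 : 0 ≤ ε0 := by positivity
  refine ⟨C, ε0, θ, k, fun p => Multix251.om κ δ ((p : ℝ)⁻¹), fun p => Multix251.x1 κ δ ((p : ℝ)⁻¹),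
    hC0', hε00, hθ0, hk, hcr, ?_, ?_, ?_, ?_⟩
  · intro p hp
    refine ⟨hS0 p hp, ?_⟩
    have hp0 : (0 : ℝ) < p := by linarith
    have hw : 0 < (p : ℝ)⁻¹ := inv_pos.2 hp0
    have e : ((p : ℝ)⁻¹) ^ (1 - κ) / Multix251.om κ δ ((p : ℝ)⁻¹) = ((p : ℝ)⁻¹) ^ δ := by
      unfold Multix251.om
      rw [← Real.rpow_sub hw]; congr 1; ring
    rw [e]
    have h1 : ((p : ℝ)⁻¹) ^ δ ≤ x ^ (-δ) := by
      rw [Real.inv_rpow hp0.le, ← Real.rpow_neg hp0.le]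
      exact Real.rpow_le_rpow_of_nonpos hx0 hp.le (by linarith)
    have h2 : 0 ≤ k * (t ^ η * θ ^ (1 - κ)) := by positivity
    have := mul_le_mul_of_nonneg_left h1 hC0'
    rw [hε0]; linarith
  · intro Z z0 hZp hS i hi
    exact ctr_count hCr (by linarith) hZp hS hi
  · rw [h2κ]
    have : 0 ≤ C * x ^ (-δ) := by positivity
    rw [hε0]; linarith
  intro U hUx
  -- the final numeric bound
  have hsumM := hsum U hUx
  have hLq : L ^ (1 / 4 : ℝ) = L ^ (-(1 / 4) : ℝ) * L ^ (1 / 2 : ℝ) := by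
    rw [← Real.rpow_add hL0]; norm_num
  have hLn : 0 < L ^ (-(1 / 4) : ℝ) := by positivity
  have b1 : C * x ^ (-δ) ≤ (4 * K1) * K5 * K7 * L ^ (-(1 / 4) : ℝ) := by
    have h1 : L ^ (1 / 2 : ℝ) * x ^ (-δ) ≤ K7 := by
      have := log_pow_le (a := 1 / 2) (b := δ) (by norm_num) hδ0 (x := x) (by linarith)
      rw [Real.rpow_neg hx0.le]
      rw [← div_eq_mul_inv, div_le_iff₀ (by positivity)]
      exact this
    calc C * x ^ (-δ) ≤ ((4 * K1) * K5 * L ^ (1 / 4 : ℝ)) * x ^ (-δ) :=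
          mul_le_mul_of_nonneg_right hCle (by positivity)
      _ = (4 * K1) * K5 * L ^ (-(1 / 4) : ℝ) * (L ^ (1 / 2 : ℝ) * x ^ (-δ)) := by rw [hLq]; ring
      _ ≤ (4 * K1) * K5 * L ^ (-(1 / 4) : ℝ) * K7 := mul_le_mul_of_nonneg_left h1 (by positivity)
      _ = _ := by ring
  have b3 : C * (4 * A ^ (2 * κ) * K4 * x ^ (-(c / 2))) ≤
      (4 * K1) * K5 * (4 * A ^ (2 * κ) * K4) * K8 * L ^ (-(1 / 4) : ℝ) := by
    have h1 : L ^ (1 / 2 : ℝ) * x ^ (-(c / 2)) ≤ K8 := by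
      have := log_pow_le (a := 1 / 2) (b := c / 2) (by norm_num) (by positivity) (x := x) (by linarith)
      rw [Real.rpow_neg hx0.le]
      rw [← div_eq_mul_inv, div_le_iff₀ (by positivity)]
      exact this
    calc C * (4 * A ^ (2 * κ) * K4 * x ^ (-(c / 2)))
        ≤ ((4 * K1) * K5 * L ^ (1 / 4 : ℝ)) * (4 * A ^ (2 * κ) * K4 * x ^ (-(c / 2))) :=
          mul_le_mul_of_nonneg_right hCle (by positivity)
      _ = (4 * K1) * K5 * (4 * A ^ (2 * κ) * K4) * L ^ (-(1 / 4) : ℝ) *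
          (L ^ (1 / 2 : ℝ) * x ^ (-(c / 2))) := by rw [hLq]; ring
      _ ≤ (4 * K1) * K5 * (4 * A ^ (2 * κ) * K4) * L ^ (-(1 / 4) : ℝ) * K8 :=
          mul_le_mul_of_nonneg_left h1 (by positivity)
      _ = _ := by ring
  have b2 : (k : ℝ) * (t ^ η * θ ^ (1 - κ)) ≤ (4 * K1) * (Cr ^ (1 - κ)) * L ^ (-(1 / 4) : ℝ) := by
    calc (k : ℝ) * (t ^ η * θ ^ (1 - κ)) = (k * t ^ η) * θ ^ (1 - κ) := by ring
      _ ≤ (4 * K1 * L ^ (1 / 4 - 2 * η)) * θ ^ (1 - κ) := mul_le_mul_of_nonneg_right hkt (by positivity)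
      _ = (4 * K1) * (Cr ^ (1 - κ)) * L ^ ((1 / 4 - 2 * η) - (1 - κ)) := by
          rw [hθ, Real.div_rpow hCr0 hL0.le, Real.rpow_sub hL0 (1 / 4 - 2 * η) (1 - κ)]; ring
      _ ≤ (4 * K1) * (Cr ^ (1 - κ)) * L ^ (-(1 / 4) : ℝ) := by
          refine mul_le_mul_of_nonneg_left ?_ (by positivity)
          refine Real.rpow_le_rpow_of_exponent_le hL1 ?_
          rw [h1κ]; linarith
  have e : ∑ p ∈ U, C * (4 * (Multix251.x1 κ δ ((p : ℝ)⁻¹)) ^ (2 * κ)) =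
      C * ∑ p ∈ U, 4 * (Multix251.x1 κ δ ((p : ℝ)⁻¹)) ^ (2 * κ) := by rw [mul_sum]
  rw [e]
  have b4 := (mul_le_mul_of_nonneg_left hsumM hC0').trans b3
  calc _ ≤ ((4 * K1) * K5 * K7 * L ^ (-(1 / 4) : ℝ) + (4 * K1) * (Cr ^ (1 - κ)) * L ^ (-(1 / 4) : ℝ)) +
        (4 * K1) * K5 * (4 * A ^ (2 * κ) * K4) * K8 * L ^ (-(1 / 4) : ℝ) :=
        add_le_add (add_le_add b1 b2) b4
    _ ≤ K * L ^ (-(1 / 4) : ℝ) := by
        rw [hK]; nlinarith


/-- **(R+)** with explicit `η` -/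
theorem rplusE {C1 η : ℝ} (hC1 : 0 ≤ C1) (hη : η = 1 / (8 * (C1 + 1))) :
    ∃ K Z0 : ℝ, 0 < K ∧ 3 ≤ Z0 ∧ RPlus C1 η K Z0 := by
  obtain ⟨Cr, hCr0, hCr⟩ := Roughx882.rough_count
  obtain ⟨K, Z0, hK, hZ0, H⟩ := params hCr0.le hCr hC1 hη
  have hη0 : 0 < η := by rw [hη]; positivity
  have hη1 : η ≤ 1 / 8 := by
    rw [hη]; apply one_div_le_one_div_of_le (by norm_num); linarith
  refine ⟨K, Z0, hK, hZ0, ?_⟩
  intro x hx M hM hMx τ hτ hτ1 X f g hX hf hg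
  obtain ⟨C, ε0, θ0, k, ω, x1, hC, hε0, hθ0, hk, hcr, hS, hcount, hbase, hfin⟩ := H x hx τ hτ hτ1
  have hκ : (1 : ℝ) / 2 ≤ (1 + η) / 2 := by linarith
  have hκ1 : (1 + η) / 2 ≤ 1 := by linarith
  have hmain := rplus_rec hκ hκ1 hC hε0 (fun p => x < (p : ℝ)) hcr hS
    (fun M Z z0 hM hMZ hS' hz => (rp_base hκ hκ1 hτ hk hθ0 hM hMZ hz
      (hcount Z z0 (fun p hp => Nat.prime_of_mem_primeFactors (hMZ ▸ hp)) hS')).mono hbase)
    M.primeFactors M ∅ (fun _ => 0) hM (by simp) (by simp) (by simpa using hMx) (by simp)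
  refine (hmain X f g hX hf hg).trans (add_le_add le_rfl (mul_le_mul_of_nonneg_right
    (hfin M.primeFactors hMx)
    (Real.rpow_nonneg (mul_nonneg (ma_nonneg hX.le fun b => (hf b).1)
    (ma_nonneg hX.le fun b => (hg b).1)) _)))

/-- the light bound as a hypothesis -/
def RLight (C1 η K Z0 : ℝ) : Prop :=
  ∀ x : ℝ, Z0 ≤ x → ∀ M : ℕ, M ≠ 0 → (∀ p ∈ M.primeFactors, x < (p : ℝ)) →
    ∀ τ : ℝ, 1 ≤ τ → τ ≤ Real.log x ^ C1 →
    ∀ (X : ℝ) (f g : ℕ → ℝ) (Kp : ℕ → Prop), 0 < X → (∀ b, 0 ≤ f b ∧ f b ≤ 1) →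
    (∀ b, 0 ≤ g b ∧ g b ≤ 1) → (∀ G, Kp G → dl M G f ≤ 2 * x ^ (-(1 / 2) : ℝ)) →
    EnQ M (LQ Kp ∅ (fun _ => 0) X τ) X f g ≤
      K * Real.log x ^ (-(1 / 4) : ℝ) * (ma M X f * ma M X g) ^ ((1 + η) / 2)

/-- **light nodes** -/
theorem rlightE {C1 η : ℝ} (hC1 : 0 ≤ C1) (hη : η = 1 / (8 * (C1 + 1))) :
    ∃ K Z0 : ℝ, 0 < K ∧ 3 ≤ Z0 ∧ RLight C1 η K Z0 := by
  obtain ⟨Cr, hCr0, hCr⟩ := Roughx882.rough_count
  obtain ⟨K, Z0, hK, hZ0, H⟩ := params hCr0.le hCr hC1 hη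
  have hη0 : 0 < η := by rw [hη]; positivity
  have hη1 : η ≤ 1 / 8 := by
    rw [hη]; apply one_div_le_one_div_of_le (by norm_num); linarith
  have hηC : C1 * η ≤ 1 / 8 := by
    rw [hη, mul_one_div, div_le_iff₀ (by positivity)]; linarith
  set K2 : ℝ := ((3 / 8) / (7 / 32)) ^ (3 / 8 : ℝ) with hK2
  have hK20 : 0 < K2 := by positivity
  refine ⟨2 * K2 + K, Z0, by positivity, hZ0, ?_⟩
  intro x hx M hM hMx τ hτ hτ1 X f g Kp hX hf hg hKp
  obtain ⟨C, ε0, θ0, k, ω, x1, hC, hε0, hθ0, hk, hcr, hS, hcount, hbase, hfin⟩ := H x hx τ hτ hτ1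
  have hκ : (1 : ℝ) / 2 ≤ (1 + η) / 2 := by linarith
  have hκ1 : (1 + η) / 2 ≤ 1 := by linarith
  have hx0 : 0 < x := by linarith
  have hL1 : 1 ≤ Real.log x := by
    rw [Real.le_log_iff_exp_le hx0]
    have := Real.exp_one_lt_d9
    linarith
  have hL0 : 0 < Real.log x := by linarith
  have hmain := rl_rec hκ hκ1 (A := τ ^ (2 * ((1 + η) / 2) - 1)) (by positivity) hC hε0
    (fun p => x < (p : ℝ)) hcr hS
    (fun M Z z0 hM hMZ hS' hz => by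
      intro X f g K θ hX hf hg hθ hKK
      have hb := rl_base hκ hκ1 hτ hk hθ0 hM hMZ hz
        (hcount Z z0 (fun p hp => Nat.prime_of_mem_primeFactors (hMZ ▸ hp)) hS') X f g K θ hX hf hg
        hθ hKK
      refine hb.trans (mul_le_mul_of_nonneg_right (add_le_add le_rfl hbase) ?_)
      exact Real.rpow_nonneg (mul_nonneg (ma_nonneg hX.le fun b => (hf b).1)
        (ma_nonneg hX.le fun b => (hg b).1)) _)
    M.primeFactors M ∅ (fun _ => 0) hM (by simp) (by simp) (by simpa using hMx) (by simp)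
  have h2 := hmain X f g Kp (2 * x ^ (-(1 / 2) : ℝ)) hX hf hg (by positivity) hKp
  have hmm : 0 ≤ (ma M X f * ma M X g) ^ ((1 + η) / 2) :=
    Real.rpow_nonneg (mul_nonneg (ma_nonneg hX.le fun b => (hf b).1)
    (ma_nonneg hX.le fun b => (hg b).1)) _
  refine h2.trans (mul_le_mul_of_nonneg_right ?_ hmm)
  have h3 := hfin M.primeFactors hMx
  have h4 : τ ^ (2 * ((1 + η) / 2) - 1) * (2 * x ^ (-(1 / 2) : ℝ)) ^ (1 - (1 + η) / 2) ≤
      2 * K2 * Real.log x ^ (-(1 / 4) : ℝ) := by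
    have e1 : 2 * ((1 + η) / 2) - 1 = η := by ring
    rw [e1]
    have a1 : τ ^ η ≤ Real.log x ^ (1 / 8 : ℝ) := by
      calc τ ^ η ≤ (Real.log x ^ C1) ^ η := Real.rpow_le_rpow (by linarith) hτ1 hη0.le
        _ = Real.log x ^ (C1 * η) := by rw [← Real.rpow_mul hL0.le]
        _ ≤ _ := Real.rpow_le_rpow_of_exponent_le hL1 hηC
    have a2 : (2 * x ^ (-(1 / 2) : ℝ)) ^ (1 - (1 + η) / 2) ≤ 2 * x ^ (-(7 / 32) : ℝ) := by
      rw [Real.mul_rpow (by norm_num) (by positivity), ← Real.rpow_mul hx0.le]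
      refine mul_le_mul ?_ ?_ (by positivity) (by norm_num)
      · calc (2 : ℝ) ^ (1 - (1 + η) / 2) ≤ 2 ^ (1 : ℝ) :=
              Real.rpow_le_rpow_of_exponent_le (by norm_num) (by linarith)
          _ = 2 := Real.rpow_one 2
      · exact Real.rpow_le_rpow_of_exponent_le (by linarith) (by linarith)
    have a3 : Real.log x ^ (3 / 8 : ℝ) ≤ K2 * x ^ (7 / 32 : ℝ) :=
      log_pow_le (by norm_num) (by norm_num) (by linarith)
    have a4 : Real.log x ^ (1 / 8 : ℝ) = Real.log x ^ (3 / 8 : ℝ) * Real.log x ^ (-(1 / 4) : ℝ) := by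
      rw [← Real.rpow_add hL0]; norm_num
    have a5 : x ^ (7 / 32 : ℝ) * x ^ (-(7 / 32) : ℝ) = 1 := by
      rw [← Real.rpow_add hx0]; norm_num
    have hn : 0 ≤ Real.log x ^ (-(1 / 4) : ℝ) := by positivity
    calc _ ≤ Real.log x ^ (1 / 8 : ℝ) * (2 * x ^ (-(7 / 32) : ℝ)) :=
          mul_le_mul a1 a2 (by positivity) (by positivity)
      _ = 2 * Real.log x ^ (3 / 8 : ℝ) * (x ^ (-(7 / 32) : ℝ) * Real.log x ^ (-(1 / 4) : ℝ)) := by
          rw [a4]; ring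
      _ ≤ 2 * (K2 * x ^ (7 / 32 : ℝ)) * (x ^ (-(7 / 32) : ℝ) * Real.log x ^ (-(1 / 4) : ℝ)) :=
          mul_le_mul_of_nonneg_right (mul_le_mul_of_nonneg_left a3 (by norm_num)) (by positivity)
      _ = 2 * K2 * Real.log x ^ (-(1 / 4) : ℝ) * (x ^ (7 / 32 : ℝ) * x ^ (-(7 / 32) : ℝ)) := by ring
      _ = _ := by rw [a5, mul_one]
  linarith

/-- **Theorem C** (one set), explicit `η` -/
theorem thmC_oneE {C1 η : ℝ} (hC1 : 0 ≤ C1) (hη : η = 1 / (8 * (C1 + 1))) :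
    ∃ K Z0 : ℝ, 0 < K ∧ 16 ≤ Z0 ∧ ∀ Z1, Z0 ≤ Z1 → ∀ M : ℕ, M ≠ 0 → ∀ (X : ℝ) (f : ℕ → ℝ), 0 < X →
      (∀ b, 0 ≤ f b ∧ f b ≤ 1) →
      EC C1 Z1 M X f f ≤ 2 * ma M X f + K * ma M X f ^ (1 + η) := by
  obtain ⟨K, Z0, hK, hZ0, hR⟩ := rplusE hC1 hη
  obtain ⟨K2, hK2, hlog⟩ := Roughx882.sum_prime_log (1 / 4) (by norm_num)
  have hη0 : 0 < η := by rw [hη]; positivity
  have hη1 : η ≤ 1 / 8 := by
    rw [hη]; apply one_div_le_one_div_of_le (by norm_num); linarith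
  refine ⟨12 * K / η + 12 * K * K2, max Z0 16, by positivity, le_max_right _ _, ?_⟩
  intro Z1 hZ1 M hM X f hX hf
  have hZ116 : 16 ≤ Z1 := (le_max_right _ _).trans hZ1
  have hR' : RPlus C1 η K Z1 := fun x hx => hR x (((le_max_left _ _).trans hZ1).trans hx)
  refine (thmC_ind hC1 hη0 hη1 hK hZ116 hR' M hM X f hX hf).trans
    (add_le_add le_rfl (mul_le_mul_of_nonneg_right ?_
      (Real.rpow_nonneg (ma_nonneg hX.le fun b => (hf b).1) _)))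
  unfold BC
  have h1 := hlog Z1 (by linarith) (M.primeFactors.filter (fun p : ℕ => Z1 ≤ (p : ℝ)))
    (fun p hp => ⟨Nat.prime_of_mem_primeFactors (mem_filter.1 hp).1, (mem_filter.1 hp).2⟩)
  have hl1 : 1 ≤ Real.log Z1 := by
    rw [Real.le_log_iff_exp_le (by linarith)]
    have := Real.exp_one_lt_d9
    linarith
  have h2 : Real.log Z1 ^ (-(1 / 4) : ℝ) ≤ 1 :=
    Real.rpow_le_one_of_one_le_of_nonpos hl1 (by norm_num)
  have h3 : ∑ p ∈ M.primeFactors.filter (fun p : ℕ => Z1 ≤ (p : ℝ)),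
      12 * K * ((p : ℝ)⁻¹ * Real.log p ^ (-(1 / 4) : ℝ)) ≤ 12 * K * K2 := by
    rw [← mul_sum]
    refine mul_le_mul_of_nonneg_left ?_ (by positivity)
    calc _ = ∑ p ∈ M.primeFactors.filter (fun p : ℕ => Z1 ≤ (p : ℝ)),
          1 / ((p : ℝ) * Real.log p ^ (1 / 4 : ℝ)) := by
          refine sum_congr rfl fun p hp => ?_
          have : Z1 ≤ (p : ℝ) := (mem_filter.1 hp).2
          rw [Real.rpow_neg (Real.log_nonneg (by linarith))]
          simp only [one_div, mul_inv]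
      _ ≤ K2 * Real.log Z1 ^ (-(1 / 4) : ℝ) := h1
      _ ≤ K2 * 1 := mul_le_mul_of_nonneg_left h2 hK2.le
      _ = K2 := mul_one _
  linarith

end Crest.Agent.R4C.RPlusx817
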