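import Mathlib
import Crest.Agent.R4C.MultiB_251

set_option autoImplicit false

open Finset

namespace Crest.Agent.R4C.RPlusx817

/-- exact type law on the divisors of `M` -/
noncomputable def nu (M b : ℕ) : ℝ := (Nat.totient (M / b) : ℝ) / M

/-- weight of the exponent `v` inside `p ^ a` -/
noncomputable def cc (p a v : ℕ) : ℝ := if v < a then 1 - (p : ℝ)⁻¹ else 1

lemma cc_nonneg {p : ℕ} (hp : p.Prime) (a v : ℕ) : 0 ≤ cc p a v := by
  unfold cc
  split_ifs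
  · have : (1 : ℝ) ≤ p := by exact_mod_cast hp.one_lt.le
    have := inv_le_one_of_one_le₀ this
    linarith
  · exact zero_le_one

lemma cc_le_one (p a v : ℕ) : cc p a v ≤ 1 := by
  unfold cc
  split_ifs
  · have : (0 : ℝ) ≤ (p : ℝ)⁻¹ := by positivity
    linarith
  · exact le_rfl

lemma nu_nonneg (M b : ℕ) : 0 ≤ nu M b := by unfold nu; positivity

lemma sum_divisors_split {p a M : ℕ} (hp : p.Prime) (hpM : ¬ p ∣ M) (hM : M ≠ 0) (F : ℕ → ℝ) :
    ∑ b ∈ (p ^ a * M).divisors, F b = ∑ v ∈ range (a + 1), ∑ b ∈ M.divisors, F (p ^ v * b) := by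
  rw [← sum_product']
  symm
  have hpa : p ^ a ≠ 0 := pow_ne_zero _ hp.ne_zero
  refine sum_bij (fun x _ => p ^ x.1 * x.2) ?_ ?_ ?_ ?_
  · rintro ⟨v, b⟩ hx
    simp only [mem_product, mem_range, Nat.mem_divisors] at hx ⊢
    exact ⟨Nat.mul_dvd_mul (pow_dvd_pow p (by omega)) hx.2.1, mul_ne_zero hpa hM⟩
  · rintro ⟨v, b⟩ hx ⟨v', b'⟩ hx' h
    simp only [mem_product, mem_range, Nat.mem_divisors] at hx hx' h
    have hb : ¬ p ∣ b := fun h => hpM (h.trans hx.2.1)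
    have hb' : ¬ p ∣ b' := fun h => hpM (h.trans hx'.2.1)
    have hb0 : b ≠ 0 := fun h => hb (h ▸ dvd_zero p)
    have hb0' : b' ≠ 0 := fun h => hb' (h ▸ dvd_zero p)
    have e1 : (p ^ v * b).factorization p = v := by
      rw [Nat.factorization_mul (pow_ne_zero _ hp.ne_zero) hb0, hp.factorization_pow]
      simp [Nat.factorization_eq_zero_of_not_dvd hb]
    have e2 : (p ^ v' * b').factorization p = v' := by
      rw [Nat.factorization_mul (pow_ne_zero _ hp.ne_zero) hb0', hp.factorization_pow]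
      simp [Nat.factorization_eq_zero_of_not_dvd hb']
    have hv : v = v' := by rw [← e1, ← e2, h]
    subst hv
    have : b = b' := Nat.eq_of_mul_eq_mul_left (pow_pos hp.pos v) h
    rw [this]
  · intro b hb
    rw [Nat.mem_divisors] at hb
    have hb0 : b ≠ 0 := fun h => hb.2 (zero_dvd_iff.1 (h ▸ hb.1))
    refine ⟨(b.factorization p, b / p ^ b.factorization p), ?_, Nat.ordProj_mul_ordCompl_eq_self b p⟩
    simp only [mem_product, mem_range, Nat.mem_divisors]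
    have hfac : (p ^ a * M).factorization p = a := by
      rw [Nat.factorization_mul hpa hM, hp.factorization_pow]
      simp [Nat.factorization_eq_zero_of_not_dvd hpM]
    have h1 : b.factorization p ≤ a := by
      rw [← hfac]
      exact (Nat.factorization_le_iff_dvd hb0 (mul_ne_zero hpa hM)).2 hb.1 p
    refine ⟨by omega, ?_, hM⟩
    have hcop : Nat.Coprime (b / p ^ b.factorization p) (p ^ a) :=
      (Nat.Coprime.pow_right a ((Nat.coprime_ordCompl hp hb0).symm))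
    exact hcop.dvd_of_dvd_mul_left ((Nat.ordCompl_dvd b p).trans hb.1)
  · intro x _
    rfl

lemma nu_split {p a M v b : ℕ} (hp : p.Prime) (hpM : ¬ p ∣ M) (hM : M ≠ 0) (hv : v ≤ a) (hb : b ∣ M) :
    nu (p ^ a * M) (p ^ v * b) = cc p a v * ((p : ℝ)⁻¹) ^ v * nu M b := by
  have hb0 : b ≠ 0 := fun h => hM (zero_dvd_iff.1 (h ▸ hb))
  have hp0 : (p : ℝ) ≠ 0 := by exact_mod_cast hp.ne_zero
  have hM0 : (M : ℝ) ≠ 0 := by exact_mod_cast hM
  unfold nu
  have e1 : p ^ a * M / (p ^ v * b) = p ^ (a - v) * (M / b) := by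
    rw [Nat.mul_div_mul_comm (pow_dvd_pow p hv) hb, Nat.pow_div hv hp.pos]
  have hcop : Nat.Coprime (p ^ (a - v)) (M / b) := by
    refine Nat.Coprime.pow_left _ ((Nat.Prime.coprime_iff_not_dvd hp).2 fun h => hpM ?_)
    exact h.trans (Nat.div_dvd_of_dvd hb)
  rw [e1, Nat.totient_mul hcop]
  have e2 : ((Nat.totient (p ^ (a - v)) : ℕ) : ℝ) = cc p a v * (p : ℝ) ^ (a - v) := by
    unfold cc
    split_ifs with h
    · rw [Nat.totient_prime_pow hp (by omega)]
      push_cast [Nat.cast_sub hp.one_lt.le]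
      have : (p : ℝ) ^ (a - v) = (p : ℝ) ^ (a - v - 1) * p := by
        rw [← pow_succ]; congr 1; omega
      rw [this]
      field_simp
    · have : a - v = 0 := by omega
      rw [this]; simp
  push_cast
  rw [e2]
  have e3 : (p : ℝ) ^ a = (p : ℝ) ^ (a - v) * (p : ℝ) ^ v := by rw [← pow_add]; congr 1; omega
  rw [e3, inv_pow]
  field_simp

lemma gcd_split {p b c : ℕ} (hp : p.Prime) (hb : ¬ p ∣ b) (hc : ¬ p ∣ c) (v v' : ℕ) :
    Nat.gcd (p ^ v * b) (p ^ v' * c) = p ^ (min v v') * Nat.gcd b c := by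
  have key : ∀ (v v' b c : ℕ), ¬ p ∣ b → v ≤ v' →
      Nat.gcd (p ^ v * b) (p ^ v' * c) = p ^ (min v v') * Nat.gcd b c := by
    intro v v' b c hb h
    rw [min_eq_left h]
    have e : p ^ v' = p ^ v * p ^ (v' - v) := by rw [← pow_add]; congr 1; omega
    rw [e, mul_assoc, Nat.gcd_mul_left]
    congr 1
    rw [Nat.Coprime.gcd_mul_left_cancel_right]
    exact Nat.Coprime.pow_left _ ((Nat.Prime.coprime_iff_not_dvd hp).2 hb)
  rcases le_total v v' with h | h
  · exact key v v' b c hb h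
  · rw [Nat.gcd_comm, key v' v c b hc h, min_comm, Nat.gcd_comm]

/-- distance of exponents -/
def dd (v v' : ℕ) : ℕ := (v - v') + (v' - v)

lemma dd_self (v : ℕ) : dd v v = 0 := by simp [dd]

lemma dd_comm (v v' : ℕ) : dd v v' = dd v' v := by unfold dd; omega

lemma dd_pos {v v' : ℕ} (h : v ≠ v') : 1 ≤ dd v v' := by unfold dd; omega

/-- the mass of `f` in the window `X` -/
noncomputable def ma (M : ℕ) (X : ℝ) (f : ℕ → ℝ) : ℝ := X * ∑ b ∈ M.divisors, nu M b * f b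

lemma ma_nonneg {M : ℕ} {X : ℝ} {f : ℕ → ℝ} (hX : 0 ≤ X) (hf : ∀ b, 0 ≤ f b) : 0 ≤ ma M X f :=
  mul_nonneg hX (sum_nonneg fun b _ => mul_nonneg (nu_nonneg M b) (hf b))

lemma ma_scale (M : ℕ) (r X : ℝ) (f : ℕ → ℝ) : ma M (r * X) f = r * ma M X f := by
  unfold ma; ring

lemma ma_split {p a M : ℕ} (hp : p.Prime) (hpM : ¬ p ∣ M) (hM : M ≠ 0) (X : ℝ) (f : ℕ → ℝ) :
    ma (p ^ a * M) X f =
      ∑ v ∈ range (a + 1), cc p a v * ma M (X / (p : ℝ) ^ v) (fun b => f (p ^ v * b)) := by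
  unfold ma
  rw [sum_divisors_split hp hpM hM, mul_sum]
  refine sum_congr rfl fun v hv => ?_
  rw [mem_range] at hv
  rw [mul_sum, mul_sum, mul_sum]
  refine sum_congr rfl fun b hb => ?_
  rw [nu_split hp hpM hM (by omega) (Nat.dvd_of_mem_divisors hb), inv_pow]
  ring

/-- passive constraint -/
def Pas (Z : Finset ℕ) (z0 : ℕ → ℕ) (b c : ℕ) : Prop :=
  ∀ p ∈ Z, b.factorization p = z0 p ∨ c.factorization p = z0 p

open Classical in
/-- energy of the pairs with `X ≤ gcd ≤ τ X` which satisfy the passive constraint -/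
noncomputable def En (M : ℕ) (Z : Finset ℕ) (z0 : ℕ → ℕ) (X τ : ℝ) (f g : ℕ → ℝ) : ℝ :=
  ∑ b ∈ M.divisors, ∑ c ∈ M.divisors,
    if Pas Z z0 b c ∧ X ≤ (Nat.gcd b c : ℝ) ∧ (Nat.gcd b c : ℝ) ≤ τ * X then
      X * (Nat.gcd b c : ℝ) * nu M b * nu M c * (f b * g c) else 0

/-- block of exponents `(v, v')` at the prime `p` -/
noncomputable def Bl (p a M : ℕ) (Z : Finset ℕ) (z0 : ℕ → ℕ) (X τ : ℝ) (f g : ℕ → ℝ) (v v' : ℕ) : ℝ :=
  cc p a v * cc p a v' * ((p : ℝ)⁻¹) ^ (dd v v') *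
    En M Z z0 (X / (p : ℝ) ^ (min v v')) τ (fun b => f (p ^ v * b)) (fun b => g (p ^ v' * b))

open Classical in
lemma En_split_gen {p a M : ℕ} (hp : p.Prime) (hpM : ¬ p ∣ M) (hM : M ≠ 0) {Z Z' : Finset ℕ}
    {z0 z0' : ℕ → ℕ} (Q : ℕ → ℕ → Prop)
    (hQ : ∀ v v' b c, v ≤ a → v' ≤ a → b ∣ M → c ∣ M →
      (Pas Z' z0' (p ^ v * b) (p ^ v' * c) ↔ Q v v' ∧ Pas Z z0 b c))
    (X τ : ℝ) (f g : ℕ → ℝ) :
    En (p ^ a * M) Z' z0' X τ f g =
      ∑ v ∈ range (a + 1), ∑ v' ∈ range (a + 1), if Q v v' then Bl p a M Z z0 X τ f g v v' else 0 := by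
  unfold En
  rw [sum_divisors_split hp hpM hM]
  refine sum_congr rfl fun v hv => ?_
  rw [mem_range] at hv
  have e1 : ∀ b ∈ M.divisors, (∑ c ∈ (p ^ a * M).divisors,
      if Pas Z' z0' (p ^ v * b) c ∧ X ≤ (Nat.gcd (p ^ v * b) c : ℝ) ∧
        (Nat.gcd (p ^ v * b) c : ℝ) ≤ τ * X then
      X * (Nat.gcd (p ^ v * b) c : ℝ) * nu (p ^ a * M) (p ^ v * b) * nu (p ^ a * M) c *
        (f (p ^ v * b) * g c) else 0) =
      ∑ v' ∈ range (a + 1), ∑ c ∈ M.divisors,
      if Pas Z' z0' (p ^ v * b) (p ^ v' * c) ∧ X ≤ (Nat.gcd (p ^ v * b) (p ^ v' * c) : ℝ) ∧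
        (Nat.gcd (p ^ v * b) (p ^ v' * c) : ℝ) ≤ τ * X then
      X * (Nat.gcd (p ^ v * b) (p ^ v' * c) : ℝ) * nu (p ^ a * M) (p ^ v * b) *
        nu (p ^ a * M) (p ^ v' * c) * (f (p ^ v * b) * g (p ^ v' * c)) else 0 := by
    intro b _
    exact sum_divisors_split hp hpM hM _
  rw [sum_congr rfl e1, sum_comm]
  refine sum_congr rfl fun v' hv' => ?_
  rw [mem_range] at hv'
  have hp0 : (0 : ℝ) < (p : ℝ) ^ (min v v') := pow_pos (by exact_mod_cast hp.pos) _
  have key : ∀ b ∈ M.divisors, ∀ c ∈ M.divisors,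
      (if Pas Z' z0' (p ^ v * b) (p ^ v' * c) ∧ X ≤ (Nat.gcd (p ^ v * b) (p ^ v' * c) : ℝ) ∧
        (Nat.gcd (p ^ v * b) (p ^ v' * c) : ℝ) ≤ τ * X then
      X * (Nat.gcd (p ^ v * b) (p ^ v' * c) : ℝ) * nu (p ^ a * M) (p ^ v * b) *
        nu (p ^ a * M) (p ^ v' * c) * (f (p ^ v * b) * g (p ^ v' * c)) else 0) =
      if Q v v' then cc p a v * cc p a v' * ((p : ℝ)⁻¹) ^ (dd v v') *
        (if Pas Z z0 b c ∧ X / (p : ℝ) ^ (min v v') ≤ (Nat.gcd b c : ℝ) ∧
          (Nat.gcd b c : ℝ) ≤ τ * (X / (p : ℝ) ^ (min v v')) then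
        X / (p : ℝ) ^ (min v v') * (Nat.gcd b c : ℝ) * nu M b * nu M c *
          (f (p ^ v * b) * g (p ^ v' * c)) else 0) else 0 := by
    intro b hb c hc
    have hbM := Nat.dvd_of_mem_divisors hb
    have hcM := Nat.dvd_of_mem_divisors hc
    have hg := gcd_split hp (fun h => hpM (h.trans hbM)) (fun h => hpM (h.trans hcM)) v v' (b := b) (c := c)
    have hQ' := hQ v v' b c (by omega) (by omega) hbM hcM
    have c1 : X ≤ ((p ^ (min v v') * Nat.gcd b c : ℕ) : ℝ) ↔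
        X / (p : ℝ) ^ (min v v') ≤ (Nat.gcd b c : ℝ) := by
      rw [div_le_iff₀ hp0]; push_cast; rw [mul_comm]
    have c2 : ((p ^ (min v v') * Nat.gcd b c : ℕ) : ℝ) ≤ τ * X ↔
        (Nat.gcd b c : ℝ) ≤ τ * (X / (p : ℝ) ^ (min v v')) := by
      rw [← mul_div_assoc, le_div_iff₀ hp0]; push_cast; rw [mul_comm]
    have hcond : (Pas Z' z0' (p ^ v * b) (p ^ v' * c) ∧ X ≤ (Nat.gcd (p ^ v * b) (p ^ v' * c) : ℝ) ∧
        (Nat.gcd (p ^ v * b) (p ^ v' * c) : ℝ) ≤ τ * X) ↔ Q v v' ∧ (Pas Z z0 b c ∧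
        X / (p : ℝ) ^ (min v v') ≤ (Nat.gcd b c : ℝ) ∧
        (Nat.gcd b c : ℝ) ≤ τ * (X / (p : ℝ) ^ (min v v'))) := by
      rw [hg, hQ', c1, c2, and_assoc]
    by_cases h1 : Q v v'
    · by_cases h2 : Pas Z z0 b c ∧ X / (p : ℝ) ^ (min v v') ≤ (Nat.gcd b c : ℝ) ∧
          (Nat.gcd b c : ℝ) ≤ τ * (X / (p : ℝ) ^ (min v v'))
      · rw [if_pos (hcond.2 ⟨h1, h2⟩), if_pos h1, if_pos h2, hg,
          nu_split hp hpM hM (by omega) hbM, nu_split hp hpM hM (by omega) hcM]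
        have e3 : ((p : ℝ)⁻¹) ^ v * ((p : ℝ)⁻¹) ^ v' =
            ((p : ℝ)⁻¹) ^ (dd v v') * (((p : ℝ)⁻¹) ^ (min v v') * ((p : ℝ)⁻¹) ^ (min v v')) := by
          rw [← pow_add, ← pow_add, ← pow_add]; congr 1; unfold dd; omega
        have e4 : (p : ℝ) ^ (min v v') * ((p : ℝ)⁻¹) ^ (min v v') = 1 := by
          rw [← mul_pow, mul_inv_cancel₀ (by exact_mod_cast hp.ne_zero), one_pow]
        push_cast
        calc X * ((p : ℝ) ^ (min v v') * (Nat.gcd b c : ℝ)) * (cc p a v * ((p : ℝ)⁻¹) ^ v * nu M b) *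
              (cc p a v' * ((p : ℝ)⁻¹) ^ v' * nu M c) * (f (p ^ v * b) * g (p ^ v' * c))
            = X * (p : ℝ) ^ (min v v') * (Nat.gcd b c : ℝ) * (cc p a v * cc p a v') *
              (((p : ℝ)⁻¹) ^ v * ((p : ℝ)⁻¹) ^ v') * nu M b * nu M c *
              (f (p ^ v * b) * g (p ^ v' * c)) := by ring
          _ = cc p a v * cc p a v' * ((p : ℝ)⁻¹) ^ (dd v v') *
              (((p : ℝ) ^ (min v v') * ((p : ℝ)⁻¹) ^ (min v v')) *
              (X * ((p : ℝ)⁻¹) ^ (min v v')) * (Nat.gcd b c : ℝ) * nu M b * nu M c *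
              (f (p ^ v * b) * g (p ^ v' * c))) := by rw [e3]; ring
          _ = _ := by rw [e4, inv_pow, ← div_eq_mul_inv]; ring
      · rw [if_neg (fun h => h2 (hcond.1 h).2), if_pos h1, if_neg h2, mul_zero]
    · rw [if_neg (fun h => h1 (hcond.1 h).1), if_neg h1]
  rw [sum_congr rfl fun b hb => sum_congr rfl fun c hc => key b hb c hc]
  by_cases h1 : Q v v'
  · simp only [if_pos h1]
    unfold Bl En
    simp only [← mul_sum]
  · simp [if_neg h1]

lemma fac_mul_self {p b v : ℕ} (hp : p.Prime) (hb : ¬ p ∣ b) : (p ^ v * b).factorization p = v := by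
  have hb0 : b ≠ 0 := fun h => hb (h ▸ dvd_zero p)
  rw [Nat.factorization_mul (pow_ne_zero _ hp.ne_zero) hb0, hp.factorization_pow]
  simp [Nat.factorization_eq_zero_of_not_dvd hb]

lemma fac_mul_ne {p q b v : ℕ} (hp : p.Prime) (hb : b ≠ 0) (hq : q ≠ p) :
    (p ^ v * b).factorization q = b.factorization q := by
  rw [Nat.factorization_mul (pow_ne_zero _ hp.ne_zero) hb, hp.factorization_pow]
  simp [hq.symm]

lemma pas_plain {p M : ℕ} (hp : p.Prime) (hM : M ≠ 0) {Z : Finset ℕ} (hpZ : p ∉ Z) {z0 : ℕ → ℕ}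
    {v v' b c : ℕ} (hb : b ∣ M) (hc : c ∣ M) :
    Pas Z z0 (p ^ v * b) (p ^ v' * c) ↔ Pas Z z0 b c := by
  have hb0 : b ≠ 0 := fun h => hM (zero_dvd_iff.1 (h ▸ hb))
  have hc0 : c ≠ 0 := fun h => hM (zero_dvd_iff.1 (h ▸ hc))
  unfold Pas
  refine forall₂_congr fun q hq => ?_
  have : q ≠ p := fun h => hpZ (h ▸ hq)
  rw [fac_mul_ne hp hb0 this, fac_mul_ne hp hc0 this]

lemma pas_insert {p M : ℕ} (hp : p.Prime) (hpM : ¬ p ∣ M) (hM : M ≠ 0) {Z : Finset ℕ} (hpZ : p ∉ Z)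
    {z0 : ℕ → ℕ} (v0 : ℕ) {v v' b c : ℕ} (hb : b ∣ M) (hc : c ∣ M) :
    Pas (insert p Z) (Function.update z0 p v0) (p ^ v * b) (p ^ v' * c) ↔
      (v = v0 ∨ v' = v0) ∧ Pas Z z0 b c := by
  have hb0 : b ≠ 0 := fun h => hM (zero_dvd_iff.1 (h ▸ hb))
  have hc0 : c ≠ 0 := fun h => hM (zero_dvd_iff.1 (h ▸ hc))
  unfold Pas
  rw [Finset.forall_mem_insert]
  refine and_congr ?_ (forall₂_congr fun q hq => ?_)
  · rw [fac_mul_self hp (fun h => hpM (h.trans hb)), fac_mul_self hp (fun h => hpM (h.trans hc)),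
      Function.update_self]
  · have : q ≠ p := fun h => hpZ (h ▸ hq)
    rw [fac_mul_ne hp hb0 this, fac_mul_ne hp hc0 this, Function.update_of_ne this]

lemma En_split {p a M : ℕ} (hp : p.Prime) (hpM : ¬ p ∣ M) (hM : M ≠ 0) {Z : Finset ℕ} (hpZ : p ∉ Z)
    (z0 : ℕ → ℕ) (X τ : ℝ) (f g : ℕ → ℝ) :
    En (p ^ a * M) Z z0 X τ f g =
      ∑ v ∈ range (a + 1), ∑ v' ∈ range (a + 1), Bl p a M Z z0 X τ f g v v' := by
  rw [En_split_gen (Z := Z) (z0 := z0) hp hpM hM (fun _ _ => True)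
    (fun v v' b c _ _ hb hc => by rw [pas_plain hp hM hpZ hb hc]; simp) X τ f g]
  simp

lemma En_passive {p a M : ℕ} (hp : p.Prime) (hpM : ¬ p ∣ M) (hM : M ≠ 0) {Z : Finset ℕ} (hpZ : p ∉ Z)
    (z0 : ℕ → ℕ) (v0 : ℕ) (X τ : ℝ) (f g : ℕ → ℝ) :
    En (p ^ a * M) Z z0 X τ f g = En (p ^ a * M) (insert p Z) (Function.update z0 p v0) X τ f g +
      ∑ v ∈ (range (a + 1)).erase v0, ∑ v' ∈ (range (a + 1)).erase v0, Bl p a M Z z0 X τ f g v v' := by
  classical
  rw [En_split hp hpM hM hpZ, En_split_gen (Z := Z) (z0 := z0) hp hpM hM (fun v v' => v = v0 ∨ v' = v0)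
    (fun v v' b c _ _ hb hc => pas_insert hp hpM hM hpZ v0 hb hc) X τ f g]
  have h1 : ∑ v ∈ (range (a + 1)).erase v0, ∑ v' ∈ (range (a + 1)).erase v0,
      Bl p a M Z z0 X τ f g v v' = ∑ v ∈ range (a + 1), ∑ v' ∈ range (a + 1),
      if v = v0 ∨ v' = v0 then 0 else Bl p a M Z z0 X τ f g v v' := by
    rw [← sum_subset (erase_subset v0 (range (a + 1)))]
    · refine sum_congr rfl fun v hv => ?_
      rw [← sum_subset (erase_subset v0 (range (a + 1)))]
      · refine sum_congr rfl fun v' hv' => ?_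
        rw [if_neg]
        rintro (h | h)
        · exact (mem_erase.1 hv).1 h
        · exact (mem_erase.1 hv').1 h
      · intro v' hv' hn
        have : v' = v0 := by
          by_contra hne
          exact hn (mem_erase.2 ⟨hne, hv'⟩)
        rw [if_pos (Or.inr this)]
    · intro v hv hn
      have : v = v0 := by
        by_contra hne
        exact hn (mem_erase.2 ⟨hne, hv⟩)
      exact sum_eq_zero fun v' _ => if_pos (Or.inl this)
  rw [h1, ← sum_add_distrib]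
  refine sum_congr rfl fun v _ => ?_
  rw [← sum_add_distrib]
  refine sum_congr rfl fun v' _ => ?_
  split_ifs <;> simp

/-! ### numerical lemmas -/

lemma mul_rpow_le_half {u v κ : ℝ} (hκ : 1 / 2 ≤ κ) (hu : 0 ≤ u) (hu1 : u ≤ 1) (hv : 0 ≤ v)
    (hv1 : v ≤ 1) : (u * v) ^ κ ≤ (u + v) / 2 := by
  have h0 : 0 ≤ u * v := mul_nonneg hu hv
  have h1 : u * v ≤ 1 := mul_le_one₀ hu1 hv hv1
  have h2 : (u * v) ^ κ ≤ (u * v) ^ (1 / 2 : ℝ) := by
    rcases h0.eq_or_lt with h | h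
    · rw [← h, Real.zero_rpow (by linarith), Real.zero_rpow (by norm_num)]
    · exact Real.rpow_le_rpow_of_exponent_ge h h1 hκ
  refine h2.trans ?_
  rw [← Real.sqrt_eq_rpow, Real.sqrt_le_left (by positivity)]
  nlinarith [sq_nonneg (u - v)]

lemma mul_rpow_le_mass {x y A B κ : ℝ} (hκ : 1 / 2 ≤ κ) (hx : 0 ≤ x) (hxA : x ≤ A) (hy : 0 ≤ y)
    (hyB : y ≤ B) (hA : 0 < A) (hB : 0 < B) : (x * y) ^ κ ≤ (A * B) ^ κ * ((x / A + y / B) / 2) := by
  have h1 := mul_rpow_le_half hκ (div_nonneg hx hA.le) ((div_le_one hA).2 hxA)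
    (div_nonneg hy hB.le) ((div_le_one hB).2 hyB)
  have h2 : (x * y) ^ κ = (A * B) ^ κ * (x / A * (y / B)) ^ κ := by
    rw [← Real.mul_rpow (by positivity) (by positivity)]
    congr 1
    field_simp
  rw [h2]
  exact mul_le_mul_of_nonneg_left h1 (by positivity)

/-- weighted `κ`-sum -/
lemma wsum_le {S : Finset ℕ} {x y : ℕ → ℝ} {κ K : ℝ} (hκ : 1 / 2 ≤ κ) (hx : ∀ v, 0 ≤ x v)
    (hy : ∀ v, 0 ≤ y v) (ω : ℕ → ℕ → ℝ) (hω : ∀ v v', 0 ≤ ω v v')
    (h1 : ∀ v ∈ S, ∑ v' ∈ S, ω v v' ≤ K) (h2 : ∀ v' ∈ S, ∑ v ∈ S, ω v v' ≤ K) (hK : 0 ≤ K) :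
    ∑ v ∈ S, ∑ v' ∈ S, ω v v' * (x v * y v') ^ κ ≤ K * ((∑ v ∈ S, x v) * ∑ v ∈ S, y v) ^ κ := by
  set A := ∑ v ∈ S, x v with hA
  set B := ∑ v ∈ S, y v with hB
  have hκ0 : κ ≠ 0 := by linarith
  have hA0 : 0 ≤ A := sum_nonneg fun v _ => hx v
  have hB0 : 0 ≤ B := sum_nonneg fun v _ => hy v
  rcases hA0.eq_or_lt with hAz | hAp
  · have : ∀ v ∈ S, x v = 0 := (sum_eq_zero_iff_of_nonneg fun v _ => hx v).1 hAz.symm
    rw [sum_eq_zero]
    · exact mul_nonneg hK (by positivity)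
    · intro v hv
      refine sum_eq_zero fun v' _ => ?_
      rw [this v hv, zero_mul, Real.zero_rpow hκ0, mul_zero]
  rcases hB0.eq_or_lt with hBz | hBp
  · have : ∀ v ∈ S, y v = 0 := (sum_eq_zero_iff_of_nonneg fun v _ => hy v).1 hBz.symm
    rw [sum_eq_zero]
    · exact mul_nonneg hK (by positivity)
    · intro v _
      refine sum_eq_zero fun v' hv' => ?_
      rw [this v' hv', mul_zero, Real.zero_rpow hκ0, mul_zero]
  have hxA : ∀ v ∈ S, x v ≤ A := fun v hv => single_le_sum (fun v _ => hx v) hv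
  have hyB : ∀ v ∈ S, y v ≤ B := fun v hv => single_le_sum (fun v _ => hy v) hv
  calc ∑ v ∈ S, ∑ v' ∈ S, ω v v' * (x v * y v') ^ κ
      ≤ ∑ v ∈ S, ∑ v' ∈ S, ω v v' * ((A * B) ^ κ * ((x v / A + y v' / B) / 2)) :=
        sum_le_sum fun v hv => sum_le_sum fun v' hv' => mul_le_mul_of_nonneg_left
          (mul_rpow_le_mass hκ (hx v) (hxA v hv) (hy v') (hyB v' hv') hAp hBp) (hω v v')
    _ = (A * B) ^ κ / 2 * (∑ v ∈ S, x v / A * ∑ v' ∈ S, ω v v') +
        (A * B) ^ κ / 2 * (∑ v' ∈ S, y v' / B * ∑ v ∈ S, ω v v') := by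
        simp only [mul_sum]
        conv_rhs => rw [sum_comm (f := fun v' v => (A * B) ^ κ / 2 * (y v' / B * ω v v'))]
        rw [← sum_add_distrib]
        refine sum_congr rfl fun v _ => ?_
        rw [← sum_add_distrib]
        exact sum_congr rfl fun v' _ => by ring
    _ ≤ (A * B) ^ κ / 2 * (∑ v ∈ S, x v / A * K) + (A * B) ^ κ / 2 * (∑ v' ∈ S, y v' / B * K) := by
        refine add_le_add (mul_le_mul_of_nonneg_left (sum_le_sum fun v hv => ?_) (by positivity))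
          (mul_le_mul_of_nonneg_left (sum_le_sum fun v' hv' => ?_) (by positivity))
        · exact mul_le_mul_of_nonneg_left (h1 v hv) (div_nonneg (hx v) hA0)
        · exact mul_le_mul_of_nonneg_left (h2 v' hv') (div_nonneg (hy v') hB0)
    _ = K * (A * B) ^ κ := by
        rw [← sum_mul, ← sum_mul, ← sum_div, ← sum_div, ← hA, ← hB, div_self hAp.ne', div_self hBp.ne']
        ring

lemma diag_le {S : Finset ℕ} {x y : ℕ → ℝ} {κ : ℝ} (hκ : 1 / 2 ≤ κ) (hx : ∀ v, 0 ≤ x v)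
    (hy : ∀ v, 0 ≤ y v) :
    ∑ v ∈ S, (x v * y v) ^ κ ≤ ((∑ v ∈ S, x v) * ∑ v ∈ S, y v) ^ κ := by
  classical
  have := wsum_le (S := S) (x := x) (y := y) (κ := κ) (K := 1) hκ hx hy
    (fun v v' => if v = v' then 1 else 0) (fun v v' => by split_ifs <;> norm_num)
    (fun v hv => by simp [hv]) (fun v hv => by simp [hv]) zero_le_one
  rw [one_mul] at this
  refine le_trans (le_of_eq ?_) this
  refine sum_congr rfl fun v hv => ?_
  simp [hv]

lemma geom_dd {r : ℝ} (hr0 : 0 ≤ r) (hr1 : r < 1) (S : Finset ℕ) (v : ℕ) :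
    ∑ v' ∈ S, r ^ (dd v v') ≤ 2 / (1 - r) := by
  classical
  have hs : Summable fun n : ℕ => r ^ n := summable_geometric_of_lt_one hr0 hr1
  have key : ∀ (T : Finset ℕ) (h : ℕ → ℕ), Set.InjOn h T → ∑ v' ∈ T, r ^ (h v') ≤ 1 / (1 - r) := by
    intro T h hinj
    rw [← sum_image (g := h) (f := fun n => r ^ n) hinj, one_div, ← tsum_geometric_of_lt_one hr0 hr1]
    exact hs.sum_le_tsum _ fun i _ => pow_nonneg hr0 i
  rw [← sum_filter_add_sum_filter_not S (fun v' => v' ≤ v)]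
  have h1 := key (S.filter (fun v' => v' ≤ v)) (fun v' => dd v v') (by
    intro a ha b hb hab
    simp only [coe_filter, Set.mem_ofPred_eq] at ha hb
    simp only [dd] at hab
    omega)
  have h2 := key (S.filter (fun v' => ¬ v' ≤ v)) (fun v' => dd v v') (by
    intro a ha b hb hab
    simp only [coe_filter, Set.mem_ofPred_eq] at ha hb
    simp only [dd] at hab
    omega)
  have : 2 / (1 - r) = 1 / (1 - r) + 1 / (1 - r) := by ring
  linarith

lemma geom_dd' {r : ℝ} (hr0 : 0 ≤ r) (hr1 : r < 1) (S : Finset ℕ) (v' : ℕ) :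
    ∑ v ∈ S, r ^ (dd v v') ≤ 2 / (1 - r) := by
  simp only [dd_comm _ v']
  exact geom_dd hr0 hr1 S v'

/-! ### the block bound -/

/-- uniform bound for the pairs energy -/
def CR (κ τ : ℝ) (M : ℕ) (Z : Finset ℕ) (z0 : ℕ → ℕ) (C : ℝ) : Prop :=
  ∀ (X : ℝ) (f g : ℕ → ℝ), 0 < X → (∀ b, 0 ≤ f b ∧ f b ≤ 1) → (∀ b, 0 ≤ g b ∧ g b ≤ 1) →
    En M Z z0 X τ f g ≤ C * (ma M X f * ma M X g) ^ κ

lemma ma_min {p M v m : ℕ} (hp : p.Prime) (X : ℝ) (f : ℕ → ℝ) (hm : m ≤ v) :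
    ma M (X / (p : ℝ) ^ m) f = (p : ℝ) ^ (v - m) * ma M (X / (p : ℝ) ^ v) f := by
  rw [← ma_scale]
  congr 1
  have h1 : (p : ℝ) ^ v = (p : ℝ) ^ (v - m) * (p : ℝ) ^ m := by rw [← pow_add]; congr 1; omega
  have hp0 : (p : ℝ) ≠ 0 := by exact_mod_cast hp.ne_zero
  rw [h1]
  field_simp

lemma le_rpow_self {u κ : ℝ} (hu : 0 ≤ u) (hu1 : u ≤ 1) (hκ0 : 0 < κ) (hκ1 : κ ≤ 1) : u ≤ u ^ κ := by
  rcases hu.eq_or_lt with h | h
  · rw [← h, Real.zero_rpow hκ0.ne']
  · calc u = u ^ (1 : ℝ) := (Real.rpow_one u).symm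
      _ ≤ u ^ κ := Real.rpow_le_rpow_of_exponent_ge h hu1 hκ1

lemma blk_le {κ τ C : ℝ} (hκ0 : 0 < κ) (hκ1 : κ ≤ 1) {p a M : ℕ} (hp : p.Prime) {Z : Finset ℕ}
    {z0 : ℕ → ℕ} (hC : 0 ≤ C) (H : CR κ τ M Z z0 C) {X : ℝ} (hX : 0 < X) {f g : ℕ → ℝ}
    (hf : ∀ b, 0 ≤ f b ∧ f b ≤ 1) (hg : ∀ b, 0 ≤ g b ∧ g b ≤ 1) (v v' : ℕ) :
    Bl p a M Z z0 X τ f g v v' ≤ C * ((((p : ℝ)⁻¹) ^ (1 - κ)) ^ (dd v v') *
      ((cc p a v * ma M (X / (p : ℝ) ^ v) (fun b => f (p ^ v * b))) *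
       (cc p a v' * ma M (X / (p : ℝ) ^ v') (fun b => g (p ^ v' * b)))) ^ κ) := by
  have hp0 : (0 : ℝ) < p := by exact_mod_cast hp.pos
  set fv : ℕ → ℝ := fun b => f (p ^ v * b) with hfv
  set gv : ℕ → ℝ := fun b => g (p ^ v' * b) with hgv
  have hcv := cc_nonneg hp a v
  have hcv' := cc_nonneg hp a v'
  have h1 := H (X / (p : ℝ) ^ (min v v')) fv gv (div_pos hX (pow_pos hp0 _)) (fun b => hf _)
    (fun b => hg _)
  rw [ma_min hp X fv (min_le_left v v'), ma_min hp X gv (min_le_right v v')] at h1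
  set A := ma M (X / (p : ℝ) ^ v) fv with hA
  set B := ma M (X / (p : ℝ) ^ v') gv with hB
  have hA0 : 0 ≤ A := ma_nonneg (div_nonneg hX.le (pow_pos hp0 _).le) fun b => (hf _).1
  have hB0 : 0 ≤ B := ma_nonneg (div_nonneg hX.le (pow_pos hp0 _).le) fun b => (hg _).1
  have e1 : (p : ℝ) ^ (v - min v v') * A * ((p : ℝ) ^ (v' - min v v') * B) =
      (p : ℝ) ^ (dd v v') * (A * B) := by
    have : (p : ℝ) ^ (dd v v') = (p : ℝ) ^ (v - min v v') * (p : ℝ) ^ (v' - min v v') := by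
      rw [← pow_add]; congr 1; unfold dd; omega
    rw [this]; ring
  rw [e1] at h1
  have e2 : ((p : ℝ)⁻¹) ^ (dd v v') * ((p : ℝ) ^ (dd v v') * (A * B)) ^ κ =
      (((p : ℝ)⁻¹) ^ (1 - κ)) ^ (dd v v') * (A * B) ^ κ := by
    rw [Real.mul_rpow (by positivity) (mul_nonneg hA0 hB0), ← mul_assoc]
    congr 1
    set n := dd v v'
    have hi : (0 : ℝ) < (p : ℝ)⁻¹ := inv_pos.2 hp0
    have : (p : ℝ) ^ n = (((p : ℝ)⁻¹) ^ n)⁻¹ := by rw [inv_pow, inv_inv]
    rw [this, Real.inv_rpow (by positivity), ← Real.rpow_natCast, ← Real.rpow_natCast,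
      ← Real.rpow_mul hi.le, ← Real.rpow_neg hi.le, ← Real.rpow_add hi, ← Real.rpow_mul hi.le]
    congr 1
    ring
  have hcc1 : cc p a v * cc p a v' ≤ 1 := mul_le_one₀ (cc_le_one p a v) hcv' (cc_le_one p a v')
  unfold Bl
  calc cc p a v * cc p a v' * ((p : ℝ)⁻¹) ^ (dd v v') *
        En M Z z0 (X / (p : ℝ) ^ (min v v')) τ fv gv
      ≤ cc p a v * cc p a v' * ((p : ℝ)⁻¹) ^ (dd v v') *
        (C * ((p : ℝ) ^ (dd v v') * (A * B)) ^ κ) :=
        mul_le_mul_of_nonneg_left h1 (mul_nonneg (mul_nonneg hcv hcv') (by positivity))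
    _ = C * ((((p : ℝ)⁻¹) ^ (1 - κ)) ^ (dd v v') * ((cc p a v * cc p a v') * (A * B) ^ κ)) := by
        calc _ = C * ((cc p a v * cc p a v') *
              (((p : ℝ)⁻¹) ^ (dd v v') * ((p : ℝ) ^ (dd v v') * (A * B)) ^ κ)) := by ring
          _ = _ := by rw [e2]; ring
    _ ≤ C * ((((p : ℝ)⁻¹) ^ (1 - κ)) ^ (dd v v') *
          (((cc p a v * cc p a v') ^ κ) * (A * B) ^ κ)) := by
        refine mul_le_mul_of_nonneg_left (mul_le_mul_of_nonneg_left
          (mul_le_mul_of_nonneg_right (le_rpow_self (mul_nonneg hcv hcv') hcc1 hκ0 hκ1)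
            (by positivity)) (by positivity)) hC
    _ = _ := by
        rw [← Real.mul_rpow (mul_nonneg hcv hcv') (mul_nonneg hA0 hB0)]
        congr 3
        ring

/-! ### the one prime inequality (Lemma M of helper251), homogeneous form -/

def LM (κ ω x1 : ℝ) : Prop :=
  ∀ (n : ℕ) (x y : ℕ → ℝ), (∀ v, 0 ≤ x v) → (∀ v, 0 ≤ y v) →
    ∑ v ∈ range n, x v = 1 → ∑ v ∈ range n, y v = 1 →
    (∃ v0 < n, 1 - x v0 ≤ x1 ∧ 1 - y v0 ≤ x1) ∨
      ∑ v ∈ range n, (x v * y v) ^ κ +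
        ∑ v ∈ range n, ∑ v' ∈ (range n).filter (· ≠ v), ω ^ (dd v v') * (x v * y v') ^ κ ≤ 1

lemma LM.hom {κ ω x1 : ℝ} (h : LM κ ω x1) {n : ℕ} {x y : ℕ → ℝ} (hx : ∀ v, 0 ≤ x v)
    (hy : ∀ v, 0 ≤ y v) {A B : ℝ} (hA : ∑ v ∈ range n, x v = A) (hB : ∑ v ∈ range n, y v = B)
    (hA0 : 0 < A) (hB0 : 0 < B) :
    (∃ v0 < n, A - x v0 ≤ x1 * A ∧ B - y v0 ≤ x1 * B) ∨
      ∑ v ∈ range n, (x v * y v) ^ κ +
        ∑ v ∈ range n, ∑ v' ∈ (range n).filter (· ≠ v), ω ^ (dd v v') * (x v * y v') ^ κ ≤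
      (A * B) ^ κ := by
  have hAB : 0 < (A * B) ^ κ := by positivity
  have hsc : ∀ v v', (x v / A * (y v' / B)) ^ κ = (x v * y v') ^ κ / (A * B) ^ κ := by
    intro v v'
    rw [div_mul_div_comm, Real.div_rpow (mul_nonneg (hx v) (hy v')) (by positivity)]
  rcases h n (fun v => x v / A) (fun v => y v / B) (fun v => div_nonneg (hx v) hA0.le)
    (fun v => div_nonneg (hy v) hB0.le) (by rw [← sum_div, hA, div_self hA0.ne'])
    (by rw [← sum_div, hB, div_self hB0.ne']) with ⟨v0, hv0, h1, h2⟩ | h1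
  · left
    refine ⟨v0, hv0, ?_, ?_⟩
    · have := mul_le_mul_of_nonneg_right h1 hA0.le
      simp only [sub_mul, one_mul, div_mul_cancel₀ _ hA0.ne'] at this
      linarith
    · have := mul_le_mul_of_nonneg_right h2 hB0.le
      simp only [sub_mul, one_mul, div_mul_cancel₀ _ hB0.ne'] at this
      linarith
  · right
    simp only [hsc] at h1
    have h2 := mul_le_mul_of_nonneg_right h1 hAB.le
    rw [one_mul] at h2
    refine le_trans (le_of_eq ?_) h2
    rw [add_mul, sum_mul, sum_mul]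
    congr 1
    · refine sum_congr rfl fun v _ => ?_
      rw [div_mul_cancel₀ _ hAB.ne']
    · refine sum_congr rfl fun v _ => ?_
      rw [sum_mul]
      refine sum_congr rfl fun v' _ => ?_
      rw [mul_assoc, div_mul_cancel₀ _ hAB.ne']

lemma ordCompl_fac {M p q : ℕ} (hq : q ≠ p) :
    (M / p ^ M.factorization p).factorization q = M.factorization q := by
  rw [Nat.factorization_ordCompl, Finsupp.erase_ne hq]

lemma ordCompl_primeFactors {M p : ℕ} :
    (M / p ^ M.factorization p).primeFactors = M.primeFactors.erase p := by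
  ext q
  rw [← Nat.support_factorization, ← Nat.support_factorization, Nat.factorization_ordCompl,
    Finsupp.support_erase]

/-- admissible primes -/
structure Good (κ : ℝ) (ω x1 : ℕ → ℝ) (p : ℕ) : Prop where
  lm : LM κ (ω p) (x1 p)
  le : ((p : ℝ)⁻¹) ^ (1 - κ) ≤ ω p
  half : ((p : ℝ)⁻¹) ^ (1 - κ) ≤ 1 / 2
  x1 : 0 ≤ x1 p

section rec
variable {κ τ : ℝ} {ω x1 : ℕ → ℝ}

/-- the data at one prime -/
lemma removed_bd (hκ : 1 / 2 ≤ κ) (hκ1 : κ ≤ 1) {p a M : ℕ} (hp : p.Prime)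
    (hpM : ¬ p ∣ M) (hM : M ≠ 0) (hg : Good κ ω x1 p) {Z : Finset ℕ} {z0 : ℕ → ℕ}
    {C : ℝ} (hC : 0 ≤ C) (H : CR κ τ M Z z0 C) {X : ℝ} (hX : 0 < X) {f g : ℕ → ℝ}
    (hf : ∀ b, 0 ≤ f b ∧ f b ≤ 1) (hg' : ∀ b, 0 ≤ g b ∧ g b ≤ 1) {v0 : ℕ} (hv0 : v0 < a + 1)
    (hA : ma (p ^ a * M) X f - cc p a v0 * ma M (X / (p : ℝ) ^ v0) (fun b => f (p ^ v0 * b)) ≤
      x1 p * ma (p ^ a * M) X f)
    (hB : ma (p ^ a * M) X g - cc p a v0 * ma M (X / (p : ℝ) ^ v0) (fun b => g (p ^ v0 * b)) ≤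
      x1 p * ma (p ^ a * M) X g) :
    ∑ v ∈ (range (a + 1)).erase v0, ∑ v' ∈ (range (a + 1)).erase v0, Bl p a M Z z0 X τ f g v v' ≤
      C * (4 * x1 p ^ (2 * κ)) * (ma (p ^ a * M) X f * ma (p ^ a * M) X g) ^ κ := by
  have hp0 : (0 : ℝ) < p := by exact_mod_cast hp.pos
  have hκ0 : 0 < κ := by linarith
  set r := ((p : ℝ)⁻¹) ^ (1 - κ) with hr
  have hr0 : 0 ≤ r := by positivity
  set x : ℕ → ℝ := fun v => cc p a v * ma M (X / (p : ℝ) ^ v) (fun b => f (p ^ v * b)) with hx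
  set y : ℕ → ℝ := fun v => cc p a v * ma M (X / (p : ℝ) ^ v) (fun b => g (p ^ v * b)) with hy
  have hx0 : ∀ v, 0 ≤ x v := fun v => mul_nonneg (cc_nonneg hp a v)
    (ma_nonneg (div_nonneg hX.le (pow_pos hp0 _).le) fun b => (hf _).1)
  have hy0 : ∀ v, 0 ≤ y v := fun v => mul_nonneg (cc_nonneg hp a v)
    (ma_nonneg (div_nonneg hX.le (pow_pos hp0 _).le) fun b => (hg' _).1)
  have hsx : ∑ v ∈ range (a + 1), x v = ma (p ^ a * M) X f := (ma_split hp hpM hM X f).symm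
  have hsy : ∑ v ∈ range (a + 1), y v = ma (p ^ a * M) X g := (ma_split hp hpM hM X g).symm
  have hA' : ∑ v ∈ (range (a + 1)).erase v0, x v ≤ x1 p * ma (p ^ a * M) X f := by
    rw [← hsx] at hA ⊢
    have := add_sum_erase (range (a + 1)) x (mem_range.2 hv0)
    linarith
  have hB' : ∑ v ∈ (range (a + 1)).erase v0, y v ≤ x1 p * ma (p ^ a * M) X g := by
    rw [← hsy] at hB ⊢
    have := add_sum_erase (range (a + 1)) y (mem_range.2 hv0)
    linarith
  have hA0 : 0 ≤ ma (p ^ a * M) X f := by rw [← hsx]; exact sum_nonneg fun v _ => hx0 v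
  have hB0 : 0 ≤ ma (p ^ a * M) X g := by rw [← hsy]; exact sum_nonneg fun v _ => hy0 v
  have hr1 : r < 1 := by have := hg.half; rw [← hr] at this; linarith
  have h2 : 2 / (1 - r) ≤ 4 := by
    rw [div_le_iff₀ (by linarith)]
    have := hg.half; rw [← hr] at this; linarith
  calc ∑ v ∈ (range (a + 1)).erase v0, ∑ v' ∈ (range (a + 1)).erase v0, Bl p a M Z z0 X τ f g v v'
      ≤ ∑ v ∈ (range (a + 1)).erase v0, ∑ v' ∈ (range (a + 1)).erase v0,
        C * (r ^ (dd v v') * (x v * y v') ^ κ) := by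
        refine sum_le_sum fun v _ => sum_le_sum fun v' _ => ?_
        exact blk_le hκ0 hκ1 hp hC H hX hf hg' v v'
    _ = C * ∑ v ∈ (range (a + 1)).erase v0, ∑ v' ∈ (range (a + 1)).erase v0,
        r ^ (dd v v') * (x v * y v') ^ κ := by simp only [mul_sum]
    _ ≤ C * (4 * ((∑ v ∈ (range (a + 1)).erase v0, x v) * ∑ v ∈ (range (a + 1)).erase v0, y v) ^ κ) := by
        refine mul_le_mul_of_nonneg_left ?_ hC
        refine wsum_le hκ hx0 hy0 (fun v v' => r ^ (dd v v')) (fun v v' => pow_nonneg hr0 _) ?_ ?_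
          (by norm_num)
        · intro v _; exact (geom_dd hr0 hr1 _ v).trans h2
        · intro v _; exact (geom_dd' hr0 hr1 _ v).trans h2
    _ ≤ C * (4 * ((x1 p * ma (p ^ a * M) X f) * (x1 p * ma (p ^ a * M) X g)) ^ κ) := by
        refine mul_le_mul_of_nonneg_left (mul_le_mul_of_nonneg_left ?_ (by norm_num)) hC
        refine Real.rpow_le_rpow (mul_nonneg (sum_nonneg fun v _ => hx0 v) (sum_nonneg fun v _ => hy0 v))
          (mul_le_mul hA' hB' (sum_nonneg fun v _ => hy0 v) (mul_nonneg hg.x1 hA0)) hκ0.le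
    _ = _ := by
        have e : x1 p * ma (p ^ a * M) X f * (x1 p * ma (p ^ a * M) X g) =
            (x1 p) ^ (2 : ℝ) * (ma (p ^ a * M) X f * ma (p ^ a * M) X g) := by
          rw [Real.rpow_two]; ring
        rw [e, Real.mul_rpow (Real.rpow_nonneg hg.x1 _) (mul_nonneg hA0 hB0), ← Real.rpow_mul hg.x1]
        ring

theorem crude_rec (hκ : 1 / 2 ≤ κ) (hκ1 : κ ≤ 1) {C0 : ℝ} (hC0 : 0 ≤ C0)
    (hbase : ∀ (M : ℕ) (Z : Finset ℕ) (z0 : ℕ → ℕ), M ≠ 0 → M.primeFactors = Z →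
      (∀ p ∈ Z, z0 p ≤ M.factorization p) → CR κ τ M Z z0 C0) (U : Finset ℕ) :
    ∀ (M : ℕ) (Z : Finset ℕ) (z0 : ℕ → ℕ), M ≠ 0 → M.primeFactors = Z ∪ U → Disjoint Z U →
      (∀ p ∈ U, Good κ ω x1 p) → (∀ p ∈ Z, z0 p ≤ M.factorization p) →
      CR κ τ M Z z0 (C0 * ∏ p ∈ U, (1 + 4 * x1 p ^ (2 * κ))) := by
  induction U using Finset.induction_on with
  | empty =>
    intro M Z z0 hM hMZ _ _ hz
    rw [prod_empty, mul_one]
    exact hbase M Z z0 hM (by simpa using hMZ) hz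
  | insert p U hpU ih =>
    intro M Z z0 hM hMZ hdis hgood hz X f g hX hf hg
    have hκ0 : 0 < κ := by linarith
    have hpm : p ∈ M.primeFactors := by rw [hMZ]; simp
    have hp : p.Prime := Nat.prime_of_mem_primeFactors hpm
    have hp0 : (0 : ℝ) < p := by exact_mod_cast hp.pos
    have hpZ : p ∉ Z := fun h => (disjoint_left.1 hdis) h (mem_insert_self p U)
    have hgp := hgood p (mem_insert_self p U)
    set a := M.factorization p with ha
    set M' := M / p ^ a with hM'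
    have hMe : M = p ^ a * M' := (Nat.ordProj_mul_ordCompl_eq_self M p).symm
    have hM'0 : M' ≠ 0 := (Nat.ordCompl_pos p hM).ne'
    have hpM' : ¬ p ∣ M' := Nat.not_dvd_ordCompl hp hM
    set CU := C0 * ∏ q ∈ U, (1 + 4 * x1 q ^ (2 * κ)) with hCU
    have hgU : ∀ q ∈ U, Good κ ω x1 q := fun q hq => hgood q (mem_insert_of_mem hq)
    have hx1 : ∀ q ∈ U, 0 ≤ x1 q := fun q hq => (hgU q hq).x1
    have hCU0 : 0 ≤ CU := by
      refine mul_nonneg hC0 (prod_nonneg fun q hq => ?_)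
      have := Real.rpow_nonneg (hx1 q hq) (2 * κ)
      linarith
    have h1 : CR κ τ M' Z z0 CU := by
      refine ih M' Z z0 hM'0 ?_ (disjoint_of_subset_right (subset_insert p U) hdis) hgU ?_
      · rw [hM', ordCompl_primeFactors, hMZ]
        ext q
        simp only [mem_erase, mem_union, mem_insert]
        constructor
        · rintro ⟨h, h' | h' | h'⟩
          · exact Or.inl h'
          · exact absurd h' h
          · exact Or.inr h'
        · rintro (h | h)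
          · exact ⟨fun e => hpZ (e ▸ h), Or.inl h⟩
          · exact ⟨fun e => hpU (e ▸ h), Or.inr (Or.inr h)⟩
      · intro q hq
        have hqp : q ≠ p := fun e => hpZ (e ▸ hq)
        rw [hM', ordCompl_fac hqp]
        exact hz q hq
    have h2 : ∀ v0, v0 ≤ a → CR κ τ M (insert p Z) (Function.update z0 p v0) CU := by
      intro v0 hv0
      refine ih M (insert p Z) _ hM ?_ ?_ hgU ?_
      · rw [hMZ]; ext q; simp only [mem_union, mem_insert]; tauto
      · rw [disjoint_left]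
        intro q hq hqU
        rcases mem_insert.1 hq with h | h
        · exact hpU (h ▸ hqU)
        · exact (disjoint_left.1 hdis) h (mem_insert_of_mem hqU)
      · intro q hq
        rcases mem_insert.1 hq with h | h
        · subst h; rw [Function.update_self]; exact hv0
        · have : q ≠ p := fun e => hpZ (e ▸ h)
          rw [Function.update_of_ne this]; exact hz q h
    rw [prod_insert hpU]
    set r := ((p : ℝ)⁻¹) ^ (1 - κ) with hr
    have hr0 : 0 ≤ r := by positivity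
    have hr1 : r < 1 := by have := hgp.half; rw [← hr] at this; linarith
    set x : ℕ → ℝ := fun v => cc p a v * ma M' (X / (p : ℝ) ^ v) (fun b => f (p ^ v * b)) with hx
    set y : ℕ → ℝ := fun v => cc p a v * ma M' (X / (p : ℝ) ^ v) (fun b => g (p ^ v * b)) with hy
    have hx0 : ∀ v, 0 ≤ x v := fun v => mul_nonneg (cc_nonneg hp a v)
      (ma_nonneg (div_nonneg hX.le (pow_pos hp0 _).le) fun b => (hf _).1)
    have hy0 : ∀ v, 0 ≤ y v := fun v => mul_nonneg (cc_nonneg hp a v)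
      (ma_nonneg (div_nonneg hX.le (pow_pos hp0 _).le) fun b => (hg _).1)
    have hsx : ∑ v ∈ range (a + 1), x v = ma M X f := by
      rw [hMe]; exact (ma_split hp hpM' hM'0 X f).symm
    have hsy : ∑ v ∈ range (a + 1), y v = ma M X g := by
      rw [hMe]; exact (ma_split hp hpM' hM'0 X g).symm
    have hA0 : 0 ≤ ma M X f := by rw [← hsx]; exact sum_nonneg fun v _ => hx0 v
    have hB0 : 0 ≤ ma M X g := by rw [← hsy]; exact sum_nonneg fun v _ => hy0 v
    have hxp : 0 ≤ x1 p ^ (2 * κ) := Real.rpow_nonneg hgp.x1 _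
    have hAB : 0 ≤ (ma M X f * ma M X g) ^ κ := by positivity
    have hEs : En M Z z0 X τ f g ≤ CU * ∑ v ∈ range (a + 1), ∑ v' ∈ range (a + 1),
        r ^ (dd v v') * (x v * y v') ^ κ := by
      have e0 : En M Z z0 X τ f g = ∑ v ∈ range (a + 1), ∑ v' ∈ range (a + 1),
          Bl p a M' Z z0 X τ f g v v' := by
        conv_lhs => rw [hMe]
        exact En_split hp hpM' hM'0 hpZ z0 X τ f g
      rw [e0, mul_sum]
      refine sum_le_sum fun v _ => ?_
      rw [mul_sum]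
      exact sum_le_sum fun v' _ => blk_le hκ0 hκ1 hp hCU0 h1 hX hf hg v v'
    have hgoal : CU * (ma M X f * ma M X g) ^ κ ≤
        C0 * ((1 + 4 * x1 p ^ (2 * κ)) * ∏ q ∈ U, (1 + 4 * x1 q ^ (2 * κ))) *
          (ma M X f * ma M X g) ^ κ := by
      have e : C0 * ((1 + 4 * x1 p ^ (2 * κ)) * ∏ q ∈ U, (1 + 4 * x1 q ^ (2 * κ))) =
          (1 + 4 * x1 p ^ (2 * κ)) * CU := by rw [hCU]; ring
      rw [e, mul_assoc]
      have : 0 ≤ CU * (ma M X f * ma M X g) ^ κ := mul_nonneg hCU0 hAB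
      nlinarith
    rcases hA0.eq_or_lt with hAz | hAp
    · have hx00 : ∀ v ∈ range (a + 1), x v = 0 :=
        (sum_eq_zero_iff_of_nonneg fun v _ => hx0 v).1 (hsx.trans hAz.symm)
      refine hEs.trans (le_trans (le_of_eq ?_) hgoal)
      rw [← hAz, zero_mul, Real.zero_rpow hκ0.ne', mul_zero, sum_eq_zero, mul_zero]
      intro v hv
      refine sum_eq_zero fun v' _ => ?_
      rw [hx00 v hv, zero_mul, Real.zero_rpow hκ0.ne', mul_zero]
    rcases hB0.eq_or_lt with hBz | hBp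
    · have hy00 : ∀ v ∈ range (a + 1), y v = 0 :=
        (sum_eq_zero_iff_of_nonneg fun v _ => hy0 v).1 (hsy.trans hBz.symm)
      refine hEs.trans (le_trans (le_of_eq ?_) hgoal)
      rw [← hBz, mul_zero, Real.zero_rpow hκ0.ne', mul_zero, sum_eq_zero, mul_zero]
      intro v _
      refine sum_eq_zero fun v' hv' => ?_
      rw [hy00 v' hv', mul_zero, Real.zero_rpow hκ0.ne', mul_zero]
    rcases hgp.lm.hom hx0 hy0 hsx hsy hAp hBp with ⟨v0, hv0, hA1, hB1⟩ | hs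
    · -- passive
      have e0 : En M Z z0 X τ f g = En M (insert p Z) (Function.update z0 p v0) X τ f g +
          ∑ v ∈ (range (a + 1)).erase v0, ∑ v' ∈ (range (a + 1)).erase v0,
            Bl p a M' Z z0 X τ f g v v' := by
        conv_lhs => rw [hMe]
        rw [En_passive hp hpM' hM'0 hpZ z0 v0, ← hMe]
      have h3 := h2 v0 (by omega) X f g hX hf hg
      have h4 := removed_bd (a := a) (M := M') hκ hκ1 hp hpM' hM'0 hgp hCU0 h1 hX hf hg hv0
        (by rw [← hMe]; exact hA1) (by rw [← hMe]; exact hB1)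
      rw [← hMe] at h4
      rw [e0]
      calc _ ≤ CU * (ma M X f * ma M X g) ^ κ +
            CU * (4 * x1 p ^ (2 * κ)) * (ma M X f * ma M X g) ^ κ := add_le_add h3 h4
        _ = _ := by rw [hCU]; ring
    · -- split
      refine hEs.trans (le_trans ?_ hgoal)
      refine mul_le_mul_of_nonneg_left (le_trans ?_ hs) hCU0
      rw [← sum_add_distrib]
      refine sum_le_sum fun v hv => ?_
      have e1 : ∑ v' ∈ range (a + 1), r ^ (dd v v') * (x v * y v') ^ κ =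
          (x v * y v) ^ κ + ∑ v' ∈ (range (a + 1)).filter (· ≠ v), r ^ (dd v v') * (x v * y v') ^ κ := by
        rw [filter_ne', ← add_sum_erase _ _ hv, dd_self, pow_zero, one_mul]
      rw [e1]
      refine add_le_add le_rfl (sum_le_sum fun v' _ => ?_)
      exact mul_le_mul_of_nonneg_right (pow_le_pow_left₀ hr0 hgp.le _)
        (Real.rpow_nonneg (mul_nonneg (hx0 v) (hy0 v')) _)

/-- crude + exact diagonal: all `C`-systems -/
def AllCR (κ τ C : ℝ) (S : ℕ → Prop) : Prop :=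
  ∀ (M : ℕ) (Z : Finset ℕ) (z0 : ℕ → ℕ), M ≠ 0 → Z ⊆ M.primeFactors → (∀ p ∈ M.primeFactors, S p) →
    (∀ p ∈ Z, z0 p ≤ M.factorization p) → CR κ τ M Z z0 C

/-- pure leaves kept -/
def RP (κ τ : ℝ) (M : ℕ) (Z : Finset ℕ) (z0 : ℕ → ℕ) (ε : ℝ) : Prop :=
  ∀ (X : ℝ) (f g : ℕ → ℝ), 0 < X → (∀ b, 0 ≤ f b ∧ f b ≤ 1) → (∀ b, 0 ≤ g b ∧ g b ≤ 1) →
    En M Z z0 X τ f g ≤ min (ma M X f) (ma M X g) + ε * (ma M X f * ma M X g) ^ κ

lemma diag_blk (hκ0 : 0 < κ) (hκ1 : κ ≤ 1) {p a M : ℕ} (hp : p.Prime) {Z : Finset ℕ} {z0 : ℕ → ℕ}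
    {ε : ℝ} (hε : 0 ≤ ε) (H : RP κ τ M Z z0 ε) {X : ℝ} (hX : 0 < X) {f g : ℕ → ℝ}
    (hf : ∀ b, 0 ≤ f b ∧ f b ≤ 1) (hg : ∀ b, 0 ≤ g b ∧ g b ≤ 1) (v : ℕ) :
    Bl p a M Z z0 X τ f g v v ≤
      min (cc p a v * ma M (X / (p : ℝ) ^ v) (fun b => f (p ^ v * b)))
        (cc p a v * ma M (X / (p : ℝ) ^ v) (fun b => g (p ^ v * b))) +
      ε * ((cc p a v * ma M (X / (p : ℝ) ^ v) (fun b => f (p ^ v * b))) *
       (cc p a v * ma M (X / (p : ℝ) ^ v) (fun b => g (p ^ v * b)))) ^ κ := by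
  have hp0 : (0 : ℝ) < p := by exact_mod_cast hp.pos
  have hcv := cc_nonneg hp a v
  have hc1 := cc_le_one p a v
  have h1 := H (X / (p : ℝ) ^ v) (fun b => f (p ^ v * b)) (fun b => g (p ^ v * b))
    (div_pos hX (pow_pos hp0 _)) (fun b => hf _) (fun b => hg _)
  set A := ma M (X / (p : ℝ) ^ v) (fun b => f (p ^ v * b)) with hA
  set B := ma M (X / (p : ℝ) ^ v) (fun b => g (p ^ v * b)) with hB
  have hA0 : 0 ≤ A := ma_nonneg (div_nonneg hX.le (pow_pos hp0 _).le) fun b => (hf _).1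
  have hB0 : 0 ≤ B := ma_nonneg (div_nonneg hX.le (pow_pos hp0 _).le) fun b => (hg _).1
  have hcc1 : cc p a v * cc p a v ≤ 1 := mul_le_one₀ hc1 hcv hc1
  unfold Bl
  rw [dd_self, pow_zero, mul_one, min_self]
  calc cc p a v * cc p a v * En M Z z0 (X / (p : ℝ) ^ v) τ (fun b => f (p ^ v * b))
          (fun b => g (p ^ v * b))
      ≤ cc p a v * cc p a v * (min A B + ε * (A * B) ^ κ) :=
        mul_le_mul_of_nonneg_left h1 (mul_nonneg hcv hcv)
    _ = cc p a v * cc p a v * min A B + ε * ((cc p a v * cc p a v) * (A * B) ^ κ) := by ring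
    _ ≤ min (cc p a v * A) (cc p a v * B) +
          ε * ((cc p a v * cc p a v) ^ κ * (A * B) ^ κ) := by
        refine add_le_add ?_ (mul_le_mul_of_nonneg_left (mul_le_mul_of_nonneg_right
          (le_rpow_self (mul_nonneg hcv hcv) hcc1 hκ0 hκ1) (by positivity)) hε)
        rw [le_min_iff]
        have hm0 : 0 ≤ min A B := le_min hA0 hB0
        have hle : cc p a v * cc p a v * min A B ≤ cc p a v * min A B := by
          rw [mul_assoc]
          exact mul_le_of_le_one_left (mul_nonneg hcv hm0) hc1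
        exact ⟨hle.trans (mul_le_mul_of_nonneg_left (min_le_left _ _) hcv),
          hle.trans (mul_le_mul_of_nonneg_left (min_le_right _ _) hcv)⟩
    _ = _ := by
        rw [← Real.mul_rpow (mul_nonneg hcv hcv) (mul_nonneg hA0 hB0)]
        congr 3
        ring

theorem rplus_rec (hκ : 1 / 2 ≤ κ) (hκ1 : κ ≤ 1) {C ε0 : ℝ} (hC : 0 ≤ C) (hε0 : 0 ≤ ε0)
    (S : ℕ → Prop) (hcr : AllCR κ τ C S)
    (hS : ∀ p, S p → Good κ ω x1 p ∧ C * ((((p : ℝ)⁻¹) ^ (1 - κ)) / ω p) ≤ ε0)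
    (hbase : ∀ (M : ℕ) (Z : Finset ℕ) (z0 : ℕ → ℕ), M ≠ 0 → M.primeFactors = Z → (∀ p ∈ Z, S p) →
      (∀ p ∈ Z, z0 p ≤ M.factorization p) → RP κ τ M Z z0 ε0) (U : Finset ℕ) :
    ∀ (M : ℕ) (Z : Finset ℕ) (z0 : ℕ → ℕ), M ≠ 0 → M.primeFactors = Z ∪ U → Disjoint Z U →
      (∀ p ∈ Z ∪ U, S p) → (∀ p ∈ Z, z0 p ≤ M.factorization p) →
      RP κ τ M Z z0 (ε0 + ∑ p ∈ U, C * (4 * x1 p ^ (2 * κ))) := by
  induction U using Finset.induction_on with
  | empty =>
    intro M Z z0 hM hMZ _ hSZ hz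
    rw [sum_empty, add_zero]
    exact hbase M Z z0 hM (by simpa using hMZ) (fun p hp => hSZ p (by simp [hp])) hz
  | insert p U hpU ih =>
    intro M Z z0 hM hMZ hdis hSU hz X f g hX hf hg
    have hκ0 : 0 < κ := by linarith
    have hpm : p ∈ M.primeFactors := by rw [hMZ]; simp
    have hp : p.Prime := Nat.prime_of_mem_primeFactors hpm
    have hp0 : (0 : ℝ) < p := by exact_mod_cast hp.pos
    have hpZ : p ∉ Z := fun h => (disjoint_left.1 hdis) h (mem_insert_self p U)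
    have hSp := hSU p (by simp)
    obtain ⟨hgp, hgc⟩ := hS p hSp
    set a := M.factorization p with ha
    set M' := M / p ^ a with hM'
    have hMe : M = p ^ a * M' := (Nat.ordProj_mul_ordCompl_eq_self M p).symm
    have hM'0 : M' ≠ 0 := (Nat.ordCompl_pos p hM).ne'
    have hpM' : ¬ p ∣ M' := Nat.not_dvd_ordCompl hp hM
    have hM'f : M'.primeFactors = Z ∪ U := by
      rw [hM', ordCompl_primeFactors, hMZ]
      ext q
      simp only [mem_erase, mem_union, mem_insert]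
      constructor
      · rintro ⟨h, h' | h' | h'⟩
        · exact Or.inl h'
        · exact absurd h' h
        · exact Or.inr h'
      · rintro (h | h)
        · exact ⟨fun e => hpZ (e ▸ h), Or.inl h⟩
        · exact ⟨fun e => hpU (e ▸ h), Or.inr (Or.inr h)⟩
    have hz' : ∀ q ∈ Z, z0 q ≤ M'.factorization q := by
      intro q hq
      have hqp : q ≠ p := fun e => hpZ (e ▸ hq)
      rw [hM', ordCompl_fac hqp]
      exact hz q hq
    have hSU' : ∀ q ∈ Z ∪ U, S q := fun q hq => hSU q (by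
      rcases mem_union.1 hq with h | h
      · exact mem_union_left _ h
      · exact mem_union_right _ (mem_insert_of_mem h))
    set εU := ε0 + ∑ q ∈ U, C * (4 * x1 q ^ (2 * κ)) with hεU
    have hterm : ∀ q ∈ U, 0 ≤ C * (4 * x1 q ^ (2 * κ)) := fun q hq => by
      have := Real.rpow_nonneg (hS q (hSU' q (mem_union_right _ hq))).1.x1 (2 * κ)
      positivity
    have hεle : ε0 ≤ εU := by have := sum_nonneg hterm; linarith
    have hεU0 : 0 ≤ εU := hε0.trans hεle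
    have h1 : RP κ τ M' Z z0 εU :=
      ih M' Z z0 hM'0 hM'f (disjoint_of_subset_right (subset_insert p U) hdis) hSU' hz'
    have h1c : CR κ τ M' Z z0 C := hcr M' Z z0 hM'0 (by rw [hM'f]; exact subset_union_left)
      (fun q hq => hSU' q (by rwa [hM'f] at hq)) hz'
    have h2 : ∀ v0, v0 ≤ a → RP κ τ M (insert p Z) (Function.update z0 p v0) εU := by
      intro v0 hv0
      refine ih M (insert p Z) _ hM ?_ ?_ ?_ ?_
      · rw [hMZ]; ext q; simp only [mem_union, mem_insert]; tauto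
      · rw [disjoint_left]
        intro q hq hqU
        rcases mem_insert.1 hq with h | h
        · exact hpU (h ▸ hqU)
        · exact (disjoint_left.1 hdis) h (mem_insert_of_mem hqU)
      · intro q hq
        refine hSU q ?_
        simp only [mem_union, mem_insert] at hq ⊢
        tauto
      · intro q hq
        rcases mem_insert.1 hq with h | h
        · subst h; rw [Function.update_self]; exact hv0
        · have : q ≠ p := fun e => hpZ (e ▸ h)
          rw [Function.update_of_ne this]; exact hz q h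
    rw [sum_insert hpU]
    set r := ((p : ℝ)⁻¹) ^ (1 - κ) with hr
    have hr0 : 0 < r := by positivity
    have hωp : 0 < ω p := hr0.trans_le hgp.le
    set x : ℕ → ℝ := fun v => cc p a v * ma M' (X / (p : ℝ) ^ v) (fun b => f (p ^ v * b)) with hx
    set y : ℕ → ℝ := fun v => cc p a v * ma M' (X / (p : ℝ) ^ v) (fun b => g (p ^ v * b)) with hy
    have hx0 : ∀ v, 0 ≤ x v := fun v => mul_nonneg (cc_nonneg hp a v)
      (ma_nonneg (div_nonneg hX.le (pow_pos hp0 _).le) fun b => (hf _).1)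
    have hy0 : ∀ v, 0 ≤ y v := fun v => mul_nonneg (cc_nonneg hp a v)
      (ma_nonneg (div_nonneg hX.le (pow_pos hp0 _).le) fun b => (hg _).1)
    have hsx : ∑ v ∈ range (a + 1), x v = ma M X f := by
      rw [hMe]; exact (ma_split hp hpM' hM'0 X f).symm
    have hsy : ∑ v ∈ range (a + 1), y v = ma M X g := by
      rw [hMe]; exact (ma_split hp hpM' hM'0 X g).symm
    have hA0 : 0 ≤ ma M X f := by rw [← hsx]; exact sum_nonneg fun v _ => hx0 v
    have hB0 : 0 ≤ ma M X g := by rw [← hsy]; exact sum_nonneg fun v _ => hy0 v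
    have hxp : 0 ≤ C * (4 * x1 p ^ (2 * κ)) := by
      have := Real.rpow_nonneg hgp.x1 (2 * κ)
      positivity
    have hAB : 0 ≤ (ma M X f * ma M X g) ^ κ := by positivity
    have hmin : ∑ v ∈ range (a + 1), min (x v) (y v) ≤ min (ma M X f) (ma M X g) := by
      rw [le_min_iff, ← hsx, ← hsy]
      exact ⟨sum_le_sum fun v _ => min_le_left _ _, sum_le_sum fun v _ => min_le_right _ _⟩
    -- the split form
    have hEs : En M Z z0 X τ f g ≤ ∑ v ∈ range (a + 1), (min (x v) (y v) + εU * (x v * y v) ^ κ) +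
        C * ∑ v ∈ range (a + 1), ∑ v' ∈ (range (a + 1)).filter (· ≠ v),
        r ^ (dd v v') * (x v * y v') ^ κ := by
      have e0 : En M Z z0 X τ f g = ∑ v ∈ range (a + 1), ∑ v' ∈ range (a + 1),
          Bl p a M' Z z0 X τ f g v v' := by
        conv_lhs => rw [hMe]
        exact En_split hp hpM' hM'0 hpZ z0 X τ f g
      rw [e0, mul_sum, ← sum_add_distrib]
      refine sum_le_sum fun v hv => ?_
      rw [filter_ne', ← add_sum_erase _ _ hv]
      refine add_le_add (diag_blk hκ0 hκ1 hp hεU0 h1 hX hf hg v) ?_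
      rw [mul_sum]
      exact sum_le_sum fun v' _ => blk_le hκ0 hκ1 hp hC h1c hX hf hg v v'
    have hcross : C * ∑ v ∈ range (a + 1), ∑ v' ∈ (range (a + 1)).filter (· ≠ v),
        r ^ (dd v v') * (x v * y v') ^ κ ≤ εU * ∑ v ∈ range (a + 1),
        ∑ v' ∈ (range (a + 1)).filter (· ≠ v), ω p ^ (dd v v') * (x v * y v') ^ κ := by
      have hle : ∑ v ∈ range (a + 1), ∑ v' ∈ (range (a + 1)).filter (· ≠ v),
          r ^ (dd v v') * (x v * y v') ^ κ ≤ (r / ω p) * ∑ v ∈ range (a + 1),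
          ∑ v' ∈ (range (a + 1)).filter (· ≠ v), ω p ^ (dd v v') * (x v * y v') ^ κ := by
        rw [mul_sum]
        refine sum_le_sum fun v _ => ?_
        rw [mul_sum]
        refine sum_le_sum fun v' hv' => ?_
        rw [show r / ω p * (ω p ^ dd v v' * (x v * y v') ^ κ) =
          (r / ω p * ω p ^ dd v v') * (x v * y v') ^ κ by ring]
        refine mul_le_mul_of_nonneg_right ?_ (Real.rpow_nonneg (mul_nonneg (hx0 v) (hy0 v')) _)
        have hd : 1 ≤ dd v v' := dd_pos (Ne.symm (mem_filter.1 hv').2)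
        obtain ⟨k, hk⟩ : ∃ k, dd v v' = k + 1 := ⟨dd v v' - 1, by omega⟩
        rw [hk, pow_succ, pow_succ]
        have e : r / ω p * (ω p ^ k * ω p) = ω p ^ k * r := by field_simp
        rw [e]
        exact mul_le_mul_of_nonneg_right (pow_le_pow_left₀ hr0.le hgp.le k) hr0.le
      have hT : 0 ≤ ∑ v ∈ range (a + 1), ∑ v' ∈ (range (a + 1)).filter (· ≠ v),
          ω p ^ (dd v v') * (x v * y v') ^ κ := sum_nonneg fun v _ => sum_nonneg fun v' _ =>
        mul_nonneg (pow_nonneg hωp.le _) (Real.rpow_nonneg (mul_nonneg (hx0 v) (hy0 v')) _)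
      calc _ ≤ C * ((r / ω p) * _) := mul_le_mul_of_nonneg_left hle hC
        _ = (C * (r / ω p)) * _ := by ring
        _ ≤ εU * _ := mul_le_mul_of_nonneg_right (hgc.trans hεle) hT
    have hD : ∀ D, (∑ v ∈ range (a + 1), (x v * y v) ^ κ +
        ∑ v ∈ range (a + 1), ∑ v' ∈ (range (a + 1)).filter (· ≠ v), ω p ^ (dd v v') *
          (x v * y v') ^ κ ≤ D) → En M Z z0 X τ f g ≤ min (ma M X f) (ma M X g) + εU * D := by
      intro D hD
      have := mul_le_mul_of_nonneg_left hD hεU0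
      rw [mul_add] at this
      have h5 : ∑ v ∈ range (a + 1), (min (x v) (y v) + εU * (x v * y v) ^ κ) =
          ∑ v ∈ range (a + 1), min (x v) (y v) + εU * ∑ v ∈ range (a + 1), (x v * y v) ^ κ := by
        rw [sum_add_distrib, mul_sum]
      linarith
    rcases hA0.eq_or_lt with hAz | hAp
    · have hx00 : ∀ v ∈ range (a + 1), x v = 0 :=
        (sum_eq_zero_iff_of_nonneg fun v _ => hx0 v).1 (hsx.trans hAz.symm)
      have := hD 0 (by
        rw [sum_eq_zero, sum_eq_zero, add_zero]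
        · intro v hv
          refine sum_eq_zero fun v' _ => ?_
          rw [hx00 v hv, zero_mul, Real.zero_rpow hκ0.ne', mul_zero]
        · intro v hv
          rw [hx00 v hv, zero_mul, Real.zero_rpow hκ0.ne'])
      rw [mul_zero, add_zero] at this
      refine this.trans (le_add_of_nonneg_right ?_)
      rw [← hAz, zero_mul, Real.zero_rpow hκ0.ne', mul_zero]
    rcases hB0.eq_or_lt with hBz | hBp
    · have hy00 : ∀ v ∈ range (a + 1), y v = 0 :=
        (sum_eq_zero_iff_of_nonneg fun v _ => hy0 v).1 (hsy.trans hBz.symm)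
      have := hD 0 (by
        rw [sum_eq_zero, sum_eq_zero, add_zero]
        · intro v hv
          refine sum_eq_zero fun v' hv' => ?_
          rw [hy00 v' (mem_filter.1 hv').1, mul_zero, Real.zero_rpow hκ0.ne', mul_zero]
        · intro v hv
          rw [hy00 v hv, mul_zero, Real.zero_rpow hκ0.ne'])
      rw [mul_zero, add_zero] at this
      refine this.trans (le_add_of_nonneg_right ?_)
      rw [← hBz, mul_zero, Real.zero_rpow hκ0.ne', mul_zero]
    rcases hgp.lm.hom hx0 hy0 hsx hsy hAp hBp with ⟨v0, hv0, hA1, hB1⟩ | hs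
    · -- passive
      have e0 : En M Z z0 X τ f g = En M (insert p Z) (Function.update z0 p v0) X τ f g +
          ∑ v ∈ (range (a + 1)).erase v0, ∑ v' ∈ (range (a + 1)).erase v0,
            Bl p a M' Z z0 X τ f g v v' := by
        conv_lhs => rw [hMe]
        rw [En_passive hp hpM' hM'0 hpZ z0 v0, ← hMe]
      have h3 := h2 v0 (by omega) X f g hX hf hg
      have h4 := removed_bd (a := a) (M := M') hκ hκ1 hp hpM' hM'0 hgp hC h1c hX hf hg hv0
        (by rw [← hMe]; exact hA1) (by rw [← hMe]; exact hB1)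
      rw [← hMe] at h4
      rw [e0]
      have e5 : (ε0 + (C * (4 * x1 p ^ (2 * κ)) + ∑ q ∈ U, C * (4 * x1 q ^ (2 * κ)))) =
          εU + C * (4 * x1 p ^ (2 * κ)) := by rw [hεU]; ring
      rw [e5, add_mul]
      linarith
    · -- split
      have := hD _ hs
      refine this.trans ?_
      have e5 : (ε0 + (C * (4 * x1 p ^ (2 * κ)) + ∑ q ∈ U, C * (4 * x1 q ^ (2 * κ)))) =
          εU + C * (4 * x1 p ^ (2 * κ)) := by rw [hεU]; ring
      rw [e5, add_mul]
      have := mul_nonneg hxp hAB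
      linarith

end rec

end Crest.Agent.R4C.RPlusx817
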