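import Crest.Agent.R4C.Base_935

/-!
# Row 4: Rankin bounds and fixed-word energy (helper882)

* `sum_smooth` : `∑_{n ∈ S} n^{-σ} ≤ exp (Cσ z^{1-σ})` for `z`-smooth `n`, `0 < σ < 1`,
  `Cσ = 1 / ((1 - 2^{-σ})(1 - σ))`;  `sum_smooth4` : `σ = 1/4`, constant `9`.
* `rankin_tail` : `∑_{n ∈ S, n ≥ N} n^{-1/2} ≤ N^{-1/4} exp (9 z^{3/4})`.
* `rankin_two` : two variables.
* `rankin_log` : `z = log k`, `N = k^{1/2}/2` : `≤ k^{-1/16}`;  `rankin_two_log`.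
* `nu_le` : `ν(b) ≤ 1/b`.
* `word_energy`, `words_energy` : fixed-word energy, general `M`.
-/

set_option autoImplicit false

open Finset

namespace Crest.Agent.R4C.Rankinx882

open Crest.Agent.R4C.Basex935

/-! ### Rankin -/

/-- `∑_{1 ≤ n ≤ N} n^{-σ} ≤ N^{1-σ} / (1-σ)` -/
lemma sum_rpow_le {σ : ℝ} (h0 : 0 < σ) (h1 : σ < 1) (N : ℕ) :
    ∑ n ∈ Icc 1 N, (n : ℝ) ^ (-σ) ≤ (N : ℝ) ^ (1 - σ) / (1 - σ) := by
  have hs : 0 < 1 - σ := by linarith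
  induction N with
  | zero => simp; positivity
  | succ n ih =>
    rw [sum_Icc_succ_top (by omega)]
    have hn : (0 : ℝ) < ((n + 1 : ℕ) : ℝ) := by positivity
    have key : (n : ℝ) ^ (1 - σ) ≤
        ((n + 1 : ℕ) : ℝ) ^ (1 - σ) - (1 - σ) * ((n + 1 : ℕ) : ℝ) ^ (-σ) := by
      have e1 : (n : ℝ) = ((n + 1 : ℕ) : ℝ) * (1 + -(1 / ((n + 1 : ℕ) : ℝ))) := by
        field_simp
        push_cast
        ring
      have h2 : (0 : ℝ) ≤ 1 + -(1 / ((n + 1 : ℕ) : ℝ)) := by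
        have : (1 : ℝ) / ((n + 1 : ℕ) : ℝ) ≤ 1 := by
          rw [div_le_one hn]
          push_cast
          have : (0 : ℝ) ≤ n := Nat.cast_nonneg n
          linarith
        linarith
      have h3 : (1 + -(1 / ((n + 1 : ℕ) : ℝ))) ^ (1 - σ) ≤
          1 + (1 - σ) * (-(1 / ((n + 1 : ℕ) : ℝ))) :=
        _root_.rpow_one_add_le_one_add_mul_self (by linarith) hs.le (by linarith)
      have e2 : ((n + 1 : ℕ) : ℝ) ^ (-σ) = ((n + 1 : ℕ) : ℝ) ^ (1 - σ) * (1 / ((n + 1 : ℕ) : ℝ)) := by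
        rw [show (-σ) = (1 - σ) - 1 by ring, Real.rpow_sub_one hn.ne']
        ring
      conv_lhs => rw [e1]
      rw [Real.mul_rpow hn.le h2, e2]
      calc ((n + 1 : ℕ) : ℝ) ^ (1 - σ) * (1 + -(1 / ((n + 1 : ℕ) : ℝ))) ^ (1 - σ)
          ≤ ((n + 1 : ℕ) : ℝ) ^ (1 - σ) * (1 + (1 - σ) * (-(1 / ((n + 1 : ℕ) : ℝ)))) :=
            mul_le_mul_of_nonneg_left h3 (by positivity)
        _ = _ := by ring
    have h4 : (n : ℝ) ^ (1 - σ) / (1 - σ) ≤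
        ((n + 1 : ℕ) : ℝ) ^ (1 - σ) / (1 - σ) - ((n + 1 : ℕ) : ℝ) ^ (-σ) := by
      rw [div_le_iff₀ hs]
      refine key.trans (le_of_eq ?_)
      field_simp
    linarith

/-- the constant -/
noncomputable def Cs (σ : ℝ) : ℝ := 1 / ((1 - (2 : ℝ) ^ (-σ)) * (1 - σ))

lemma two_lt {σ : ℝ} (h0 : 0 < σ) : (2 : ℝ) ^ (-σ) < 1 :=
  Real.rpow_lt_one_of_one_lt_of_neg (by norm_num) (by linarith)

lemma Cs_pos {σ : ℝ} (h0 : 0 < σ) (h1 : σ < 1) : 0 < Cs σ := by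
  have := two_lt h0
  unfold Cs
  have h2 : 0 < 1 - (2 : ℝ) ^ (-σ) := by linarith
  have h3 : 0 < 1 - σ := by linarith
  positivity

/-- **Rankin sum over `z`-smooth numbers** -/
theorem sum_smooth {σ : ℝ} (h0 : 0 < σ) (h1 : σ < 1) {z : ℝ} (hz : 0 ≤ z) (S : Finset ℕ)
    (hS : ∀ n ∈ S, 0 < n ∧ ∀ p : ℕ, p.Prime → p ∣ n → (p : ℝ) ≤ z) :
    ∑ n ∈ S, (n : ℝ) ^ (-σ) ≤ Real.exp (Cs σ * z ^ (1 - σ)) := by
  classical
  have h2 := two_lt h0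
  set P := (Icc 1 ⌊z⌋₊).filter Nat.Prime with hP
  let f : ℕ →* ℝ :=
    { toFun := fun n => (n : ℝ) ^ (-σ)
      map_one' := by simp
      map_mul' := fun a b => by
        push_cast
        rw [Real.mul_rpow (Nat.cast_nonneg a) (Nat.cast_nonneg b)] }
  have hf : ∀ n, f n = (n : ℝ) ^ (-σ) := fun n => rfl
  have hfp : ∀ p : ℕ, p.Prime → f p ≤ (2 : ℝ) ^ (-σ) := by
    intro p hp
    rw [hf]
    have : (2 : ℝ) ≤ p := by exact_mod_cast hp.two_le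
    exact Real.rpow_le_rpow_of_nonpos (by norm_num) this (by linarith)
  have hf0 : ∀ n, 0 ≤ f n := fun n => by rw [hf]; positivity
  have h3 := (EulerProduct.summable_and_hasSum_factoredNumbers_prod_filter_prime_geometric (f := f)
    (fun {p} hp => by
      rw [Real.norm_eq_abs, abs_of_nonneg (hf0 p)]
      exact (hfp p hp).trans_lt h2) P).2
  have h4 : (P.filter Nat.Prime) = P := by
    rw [Finset.filter_eq_self]
    intro p hp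
    exact (mem_filter.1 hp).2
  rw [h4] at h3
  have h5 : HasSum (Set.indicator (Nat.factoredNumbers P) (fun n => f n))
      (∏ p ∈ P, (1 - f p)⁻¹) :=
    (hasSum_subtype_iff_indicator (f := fun n => f n) (s := Nat.factoredNumbers P)).1 h3
  have h6 : ∀ m ∈ S, Set.indicator (Nat.factoredNumbers P) (fun n => f n) m = (m : ℝ) ^ (-σ) := by
    intro m hm
    obtain ⟨h7, h8⟩ := hS m hm
    rw [Set.indicator_of_mem, hf]
    rw [Nat.mem_factoredNumbers']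
    intro p hp hd
    rw [hP, mem_filter, mem_Icc]
    exact ⟨⟨hp.one_le, Nat.le_floor (h8 p hp hd)⟩, hp⟩
  have h7 : ∏ p ∈ P, (1 - f p)⁻¹ ≤ Real.exp (Cs σ * z ^ (1 - σ)) := by
    have h8 : ∀ p ∈ P, (1 - f p)⁻¹ ≤ Real.exp (f p * (1 - (2 : ℝ) ^ (-σ))⁻¹) := by
      intro p hp
      have h9 := hfp p (mem_filter.1 hp).2
      have h10 : 0 < 1 - f p := by linarith
      have h11 : 0 < 1 - (2 : ℝ) ^ (-σ) := by linarith
      have e : (1 - f p)⁻¹ = f p * (1 - f p)⁻¹ + 1 := by field_simp; ring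
      rw [e]
      refine le_trans (Real.add_one_le_exp _) ?_
      rw [Real.exp_le_exp]
      exact mul_le_mul_of_nonneg_left (inv_anti₀ h11 (by linarith)) (hf0 p)
    refine (prod_le_prod (fun p hp => ?_) h8).trans ?_
    · have h9 := hfp p (mem_filter.1 hp).2
      exact inv_nonneg.2 (by linarith)
    · rw [← Real.exp_sum, Real.exp_le_exp, ← sum_mul]
      have h9 : ∑ p ∈ P, f p ≤ z ^ (1 - σ) / (1 - σ) := by
        calc ∑ p ∈ P, f p ≤ ∑ n ∈ Icc 1 ⌊z⌋₊, (n : ℝ) ^ (-σ) :=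
              sum_le_sum_of_subset_of_nonneg (filter_subset _ _) fun n _ _ => hf0 n
          _ ≤ (⌊z⌋₊ : ℝ) ^ (1 - σ) / (1 - σ) := sum_rpow_le h0 h1 _
          _ ≤ z ^ (1 - σ) / (1 - σ) := by
              refine div_le_div_of_nonneg_right ?_ (by linarith)
              exact Real.rpow_le_rpow (Nat.cast_nonneg _) (Nat.floor_le hz) (by linarith)
      calc (∑ p ∈ P, f p) * (1 - (2 : ℝ) ^ (-σ))⁻¹
          ≤ z ^ (1 - σ) / (1 - σ) * (1 - (2 : ℝ) ^ (-σ))⁻¹ :=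
            mul_le_mul_of_nonneg_right h9 (inv_nonneg.2 (by linarith))
        _ = Cs σ * z ^ (1 - σ) := by
            unfold Cs
            have h11 : 1 - (2 : ℝ) ^ (-σ) ≠ 0 := by linarith
            have h12 : 1 - σ ≠ 0 := by linarith
            field_simp
  calc ∑ n ∈ S, (n : ℝ) ^ (-σ)
      = ∑ m ∈ S, Set.indicator (Nat.factoredNumbers P) (fun n => f n) m := (sum_congr rfl h6).symm
    _ ≤ ∏ p ∈ P, (1 - f p)⁻¹ :=
        sum_le_hasSum _ (fun n _ => Set.indicator_nonneg (fun n _ => hf0 n) n) h5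
    _ ≤ _ := h7

lemma Cs_quarter : Cs (1 / 4) ≤ 9 := by
  unfold Cs
  have h1 : (2 : ℝ) ^ (-(1 / 4 : ℝ)) ≤ 0.85 := by
    have h2 : (2 : ℝ) ^ (-(1 / 4 : ℝ)) = ((1 / 2 : ℝ)) ^ (1 / 4 : ℝ) := by
      rw [Real.rpow_neg (by norm_num), ← Real.inv_rpow (by norm_num)]
      norm_num
    rw [h2]
    have h3 : (1 / 2 : ℝ) ≤ (0.85 : ℝ) ^ (4 : ℝ) := by
      rw [show (4 : ℝ) = ((4 : ℕ) : ℝ) by norm_num, Real.rpow_natCast]
      norm_num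
    calc (1 / 2 : ℝ) ^ (1 / 4 : ℝ) ≤ ((0.85 : ℝ) ^ (4 : ℝ)) ^ (1 / 4 : ℝ) :=
          Real.rpow_le_rpow (by norm_num) h3 (by norm_num)
      _ = 0.85 := by
          rw [← Real.rpow_mul (by norm_num)]
          norm_num
  rw [div_le_iff₀ (by nlinarith)]
  nlinarith

/-- `σ = 1/4` -/
theorem sum_smooth4 {z : ℝ} (hz : 0 ≤ z) (S : Finset ℕ)
    (hS : ∀ n ∈ S, 0 < n ∧ ∀ p : ℕ, p.Prime → p ∣ n → (p : ℝ) ≤ z) :
    ∑ n ∈ S, (n : ℝ) ^ (-(1 / 4 : ℝ)) ≤ Real.exp (9 * z ^ (3 / 4 : ℝ)) := by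
  refine (sum_smooth (by norm_num) (by norm_num) hz S hS).trans ?_
  rw [Real.exp_le_exp, show (1 : ℝ) - 1 / 4 = 3 / 4 by norm_num]
  exact mul_le_mul_of_nonneg_right Cs_quarter (by positivity)

/-- `σ = 1/2` (crude) -/
theorem sum_smooth2 {z : ℝ} (hz : 0 ≤ z) (S : Finset ℕ)
    (hS : ∀ n ∈ S, 0 < n ∧ ∀ p : ℕ, p.Prime → p ∣ n → (p : ℝ) ≤ z) :
    ∑ n ∈ S, (n : ℝ) ^ (-(1 / 2 : ℝ)) ≤ Real.exp (9 * z ^ (3 / 4 : ℝ)) := by
  refine le_trans (sum_le_sum fun n hn => ?_) (sum_smooth4 hz S hS)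
  have h1 : (1 : ℝ) ≤ n := by exact_mod_cast (hS n hn).1
  exact Real.rpow_le_rpow_of_exponent_le h1 (by norm_num)

/-- **Rankin tail** -/
theorem rankin_tail {z N : ℝ} (hz : 0 ≤ z) (hN : 0 < N) (S : Finset ℕ)
    (hS : ∀ n ∈ S, 0 < n ∧ ∀ p : ℕ, p.Prime → p ∣ n → (p : ℝ) ≤ z) (hSN : ∀ n ∈ S, N ≤ (n : ℝ)) :
    ∑ n ∈ S, (n : ℝ) ^ (-(1 / 2 : ℝ)) ≤ N ^ (-(1 / 4 : ℝ)) * Real.exp (9 * z ^ (3 / 4 : ℝ)) := by
  calc ∑ n ∈ S, (n : ℝ) ^ (-(1 / 2 : ℝ)) ≤ ∑ n ∈ S, N ^ (-(1 / 4 : ℝ)) * (n : ℝ) ^ (-(1 / 4 : ℝ)) := by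
        refine sum_le_sum fun n hn => ?_
        have h1 := hSN n hn
        have h2 : (0 : ℝ) < n := hN.trans_le h1
        rw [show (-(1 / 2 : ℝ)) = -(1 / 4 : ℝ) + -(1 / 4 : ℝ) by norm_num, Real.rpow_add h2]
        refine mul_le_mul_of_nonneg_right ?_ (by positivity)
        exact Real.rpow_le_rpow_of_nonpos hN h1 (by norm_num)
    _ = N ^ (-(1 / 4 : ℝ)) * ∑ n ∈ S, (n : ℝ) ^ (-(1 / 4 : ℝ)) := by rw [mul_sum]
    _ ≤ _ := mul_le_mul_of_nonneg_left (sum_smooth4 hz S hS) (by positivity)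

/-- **two variables**: pairs of `z`-smooth numbers with `max ≥ N` -/
theorem rankin_two {z N : ℝ} (hz : 0 ≤ z) (hN : 0 < N) (W : Finset (ℕ × ℕ))
    (hW : ∀ w ∈ W, (0 < w.1 ∧ ∀ p : ℕ, p.Prime → p ∣ w.1 → (p : ℝ) ≤ z) ∧
      (0 < w.2 ∧ ∀ p : ℕ, p.Prime → p ∣ w.2 → (p : ℝ) ≤ z))
    (hWN : ∀ w ∈ W, N ≤ max (w.1 : ℝ) (w.2 : ℝ)) :
    ∑ w ∈ W, ((w.1 : ℝ) * (w.2 : ℝ)) ^ (-(1 / 2 : ℝ)) ≤
      2 * (N ^ (-(1 / 4 : ℝ)) * Real.exp (18 * z ^ (3 / 4 : ℝ))) := by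
  classical
  set A := W.image Prod.fst with hA
  set B := W.image Prod.snd with hB
  have hAs : ∀ n ∈ A, 0 < n ∧ ∀ p : ℕ, p.Prime → p ∣ n → (p : ℝ) ≤ z := by
    intro n hn
    rw [hA, mem_image] at hn
    obtain ⟨w, hw, rfl⟩ := hn
    exact (hW w hw).1
  have hBs : ∀ n ∈ B, 0 < n ∧ ∀ p : ℕ, p.Prime → p ∣ n → (p : ℝ) ≤ z := by
    intro n hn
    rw [hB, mem_image] at hn
    obtain ⟨w, hw, rfl⟩ := hn
    exact (hW w hw).2
  set A' := A.filter (fun n : ℕ => N ≤ (n : ℝ)) with hA'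
  set B' := B.filter (fun n : ℕ => N ≤ (n : ℝ)) with hB'
  have hsub : W ⊆ A' ×ˢ B ∪ A ×ˢ B' := by
    intro w hw
    have h1 : w.1 ∈ A := mem_image_of_mem _ hw
    have h2 : w.2 ∈ B := mem_image_of_mem _ hw
    rw [mem_union, mem_product, mem_product, hA', hB', mem_filter, mem_filter]
    rcases le_max_iff.1 (hWN w hw) with h3 | h3
    · exact Or.inl ⟨⟨h1, h3⟩, h2⟩
    · exact Or.inr ⟨h1, h2, h3⟩
  have hpos : ∀ w : ℕ × ℕ, 0 ≤ ((w.1 : ℝ) * (w.2 : ℝ)) ^ (-(1 / 2 : ℝ)) := fun w => by positivity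
  have hprod : ∀ (X Y : Finset ℕ), ∑ w ∈ X ×ˢ Y, ((w.1 : ℝ) * (w.2 : ℝ)) ^ (-(1 / 2 : ℝ)) =
      (∑ n ∈ X, (n : ℝ) ^ (-(1 / 2 : ℝ))) * ∑ n ∈ Y, (n : ℝ) ^ (-(1 / 2 : ℝ)) := by
    intro X Y
    rw [sum_product, sum_mul_sum]
    refine sum_congr rfl fun n _ => sum_congr rfl fun m _ => ?_
    rw [Real.mul_rpow (Nat.cast_nonneg n) (Nat.cast_nonneg m)]
  have hexp : Real.exp (9 * z ^ (3 / 4 : ℝ)) * Real.exp (9 * z ^ (3 / 4 : ℝ)) =
      Real.exp (18 * z ^ (3 / 4 : ℝ)) := by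
    rw [← Real.exp_add]; congr 1; ring
  have hnn : ∀ X : Finset ℕ, 0 ≤ ∑ n ∈ X, (n : ℝ) ^ (-(1 / 2 : ℝ)) := fun X =>
    sum_nonneg fun n _ => by positivity
  have e1 : ∑ w ∈ A' ×ˢ B, ((w.1 : ℝ) * (w.2 : ℝ)) ^ (-(1 / 2 : ℝ)) ≤
      N ^ (-(1 / 4 : ℝ)) * Real.exp (18 * z ^ (3 / 4 : ℝ)) := by
    rw [hprod]
    have h1 := rankin_tail hz hN A' (fun n hn => hAs n (mem_filter.1 hn).1)
      (fun n hn => (mem_filter.1 hn).2)
    have h2 := sum_smooth2 hz B hBs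
    calc _ ≤ (N ^ (-(1 / 4 : ℝ)) * Real.exp (9 * z ^ (3 / 4 : ℝ))) *
          Real.exp (9 * z ^ (3 / 4 : ℝ)) := mul_le_mul h1 h2 (hnn _) (by positivity)
      _ = _ := by rw [mul_assoc, hexp]
  have e2 : ∑ w ∈ A ×ˢ B', ((w.1 : ℝ) * (w.2 : ℝ)) ^ (-(1 / 2 : ℝ)) ≤
      N ^ (-(1 / 4 : ℝ)) * Real.exp (18 * z ^ (3 / 4 : ℝ)) := by
    rw [hprod]
    have h1 := rankin_tail hz hN B' (fun n hn => hBs n (mem_filter.1 hn).1)
      (fun n hn => (mem_filter.1 hn).2)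
    have h2 := sum_smooth2 hz A hAs
    calc _ ≤ Real.exp (9 * z ^ (3 / 4 : ℝ)) *
          (N ^ (-(1 / 4 : ℝ)) * Real.exp (9 * z ^ (3 / 4 : ℝ))) :=
            mul_le_mul h2 h1 (hnn _) (by positivity)
      _ = N ^ (-(1 / 4 : ℝ)) * (Real.exp (9 * z ^ (3 / 4 : ℝ)) * Real.exp (9 * z ^ (3 / 4 : ℝ))) := by
          ring
      _ = _ := by rw [hexp]
  have e3 : ∑ w ∈ A' ×ˢ B ∪ A ×ˢ B', ((w.1 : ℝ) * (w.2 : ℝ)) ^ (-(1 / 2 : ℝ)) ≤
      ∑ w ∈ A' ×ˢ B, ((w.1 : ℝ) * (w.2 : ℝ)) ^ (-(1 / 2 : ℝ)) +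
      ∑ w ∈ A ×ˢ B', ((w.1 : ℝ) * (w.2 : ℝ)) ^ (-(1 / 2 : ℝ)) := by
    have h1 := sum_union_inter (s₁ := A' ×ˢ B) (s₂ := A ×ˢ B')
      (f := fun w : ℕ × ℕ => ((w.1 : ℝ) * (w.2 : ℝ)) ^ (-(1 / 2 : ℝ)))
    have h2 : 0 ≤ ∑ w ∈ (A' ×ˢ B) ∩ (A ×ˢ B'), ((w.1 : ℝ) * (w.2 : ℝ)) ^ (-(1 / 2 : ℝ)) :=
      sum_nonneg fun w _ => hpos w
    linarith
  have e4 := sum_le_sum_of_subset_of_nonneg hsub fun w _ _ => hpos w
  linarith

/-- growth: `A (log k)^{3/4} + B ≤ c log k` for `k ≥ k0` -/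
lemma log_growth (A B c : ℝ) (hc : 0 < c) : ∃ k0 : ℝ, 1 ≤ k0 ∧ ∀ k : ℝ, k0 ≤ k →
    A * Real.log k ^ (3 / 4 : ℝ) + B ≤ c * Real.log k := by
  have h1 : Filter.Tendsto (fun k : ℝ => Real.log k ^ (1 / 4 : ℝ)) Filter.atTop Filter.atTop :=
    (tendsto_rpow_atTop (by norm_num)).comp Real.tendsto_log_atTop
  have h2 := (h1.eventually_ge_atTop (2 * |A| / c)).and
    ((Real.tendsto_log_atTop.eventually_ge_atTop (2 * |B| / c)).and
      (Filter.eventually_ge_atTop (1 : ℝ)))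
  obtain ⟨k0, h3⟩ := Filter.eventually_atTop.1 h2
  refine ⟨max k0 1, le_max_right _ _, fun k hk => ?_⟩
  obtain ⟨h4, h5, h6⟩ := h3 k ((le_max_left _ _).trans hk)
  have hl : 0 ≤ Real.log k := Real.log_nonneg h6
  have e : Real.log k ^ (1 / 4 : ℝ) * Real.log k ^ (3 / 4 : ℝ) = Real.log k := by
    rw [← Real.rpow_add_of_nonneg hl (by norm_num) (by norm_num)]
    norm_num
  have h7 : |A| * Real.log k ^ (3 / 4 : ℝ) ≤ c / 2 * Real.log k := by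
    rw [div_le_iff₀ hc] at h4
    have h8 : 0 ≤ Real.log k ^ (3 / 4 : ℝ) := by positivity
    nlinarith
  have h8 : |B| ≤ c / 2 * Real.log k := by
    rw [div_le_iff₀ hc] at h5
    linarith
  have h9 : A * Real.log k ^ (3 / 4 : ℝ) ≤ |A| * Real.log k ^ (3 / 4 : ℝ) :=
    mul_le_mul_of_nonneg_right (le_abs_self A) (by positivity)
  have h10 := le_abs_self B
  linarith

/-- **`log k`-smooth numbers beyond `k^{1/2}/2`** -/
theorem rankin_log : ∃ k0 : ℝ, 1 ≤ k0 ∧ ∀ k : ℝ, k0 ≤ k → ∀ S : Finset ℕ,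
    (∀ n ∈ S, 0 < n ∧ ∀ p : ℕ, p.Prime → p ∣ n → (p : ℝ) ≤ Real.log k) →
    (∀ n ∈ S, k ^ (1 / 2 : ℝ) / 2 ≤ (n : ℝ)) →
    ∑ n ∈ S, (n : ℝ) ^ (-(1 / 2 : ℝ)) ≤ k ^ (-(1 / 16 : ℝ)) := by
  obtain ⟨k0, h0, h1⟩ := log_growth 9 (Real.log 2 / 4) (1 / 16) (by norm_num)
  refine ⟨k0, h0, fun k hk S hS hSN => ?_⟩
  have hk1 : 1 ≤ k := h0.trans hk
  have hk0 : 0 < k := by linarith
  refine (rankin_tail (Real.log_nonneg hk1) (by positivity) S hS hSN).trans ?_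
  have e1 : (k ^ (1 / 2 : ℝ) / 2) ^ (-(1 / 4 : ℝ)) = Real.exp (Real.log 2 / 4 - Real.log k / 8) := by
    rw [Real.rpow_def_of_pos (by positivity), Real.log_div (by positivity) (by norm_num),
      Real.log_rpow hk0]
    congr 1
    ring
  rw [e1, ← Real.exp_add, Real.rpow_def_of_pos hk0, Real.exp_le_exp]
  have := h1 k hk
  linarith

/-- **two variables, `log k`-smooth** -/
theorem rankin_two_log : ∃ k0 : ℝ, 1 ≤ k0 ∧ ∀ k : ℝ, k0 ≤ k → ∀ W : Finset (ℕ × ℕ),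
    (∀ w ∈ W, (0 < w.1 ∧ ∀ p : ℕ, p.Prime → p ∣ w.1 → (p : ℝ) ≤ Real.log k) ∧
      (0 < w.2 ∧ ∀ p : ℕ, p.Prime → p ∣ w.2 → (p : ℝ) ≤ Real.log k)) →
    (∀ w ∈ W, k ^ (1 / 2 : ℝ) / 2 ≤ max (w.1 : ℝ) (w.2 : ℝ)) →
    ∑ w ∈ W, ((w.1 : ℝ) * (w.2 : ℝ)) ^ (-(1 / 2 : ℝ)) ≤ k ^ (-(1 / 16 : ℝ)) := by
  obtain ⟨k0, h0, h1⟩ := log_growth 18 (Real.log 2 / 4 + Real.log 2) (1 / 16) (by norm_num)
  refine ⟨k0, h0, fun k hk W hW hWN => ?_⟩
  have hk1 : 1 ≤ k := h0.trans hk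
  have hk0 : 0 < k := by linarith
  refine (rankin_two (Real.log_nonneg hk1) (by positivity) W hW hWN).trans ?_
  have e1 : (k ^ (1 / 2 : ℝ) / 2) ^ (-(1 / 4 : ℝ)) = Real.exp (Real.log 2 / 4 - Real.log k / 8) := by
    rw [Real.rpow_def_of_pos (by positivity), Real.log_div (by positivity) (by norm_num),
      Real.log_rpow hk0]
    congr 1
    ring
  have e2 : (2 : ℝ) = Real.exp (Real.log 2) := (Real.exp_log (by norm_num)).symm
  rw [e1, ← Real.exp_add]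
  conv_lhs => rw [e2]
  rw [← Real.exp_add, Real.rpow_def_of_pos hk0, Real.exp_le_exp]
  have := h1 k hk
  rw [← e2]
  linarith

/-! ### Fixed-word energy -/

lemma nu_le {M b : ℕ} (hM : 0 < M) (hb : b ∣ M) : (b : ℝ) * nu M b ≤ 1 := by
  have hM0 : (0 : ℝ) < M := by exact_mod_cast hM
  have hb0 : 0 < b := Nat.pos_of_dvd_of_pos hb hM
  unfold nu
  rw [← mul_div_assoc, div_le_one hM0]
  have h1 : b * (M / b).totient ≤ b * (M / b) := Nat.mul_le_mul_left _ (Nat.totient_le _)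
  rw [Nat.mul_div_cancel' hb] at h1
  exact_mod_cast h1

/-- one pair: `g ν(gs) ν(gs') ≤ (ss')^{-1/2} √ν(gs) √ν(gs')` -/
lemma word_pair {M g s s' : ℕ} (hM : 0 < M) (h : g * s ∣ M) (h' : g * s' ∣ M) :
    (g : ℝ) * nu M (g * s) * nu M (g * s') ≤
      ((s : ℝ) * (s' : ℝ)) ^ (-(1 / 2 : ℝ)) * (Real.sqrt (nu M (g * s)) * Real.sqrt (nu M (g * s'))) := by
  have hgs : 0 < g * s := Nat.pos_of_dvd_of_pos h hM
  have hgs' : 0 < g * s' := Nat.pos_of_dvd_of_pos h' hM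
  have hs : (0 : ℝ) < s := by exact_mod_cast Nat.pos_of_mul_pos_left hgs
  have hs' : (0 : ℝ) < s' := by exact_mod_cast Nat.pos_of_mul_pos_left hgs'
  have ha := nu_nonneg M (g * s)
  have ha' := nu_nonneg M (g * s')
  have h1 := nu_le hM h
  have h2 := nu_le hM h'
  set a := nu M (g * s) with hadef
  set a' := nu M (g * s') with hadef'
  push_cast at h1 h2
  have hx : 0 ≤ (g : ℝ) * a * a' := by positivity
  -- square both sides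
  have hss : 0 < (s : ℝ) * s' := by positivity
  have e : ((s : ℝ) * (s' : ℝ)) ^ (-(1 / 2 : ℝ)) = (Real.sqrt ((s : ℝ) * s'))⁻¹ := by
    rw [Real.rpow_neg hss.le, Real.sqrt_eq_rpow]
  rw [e, ← Real.sqrt_mul ha, inv_mul_eq_div, le_div_iff₀ (Real.sqrt_pos.2 hss)]
  have h3 : (g : ℝ) * a * a' * Real.sqrt ((s : ℝ) * s') = Real.sqrt ((g * a * a') ^ 2 * (s * s')) := by
    rw [Real.sqrt_mul (x := (g * a * a') ^ 2) (by positivity), Real.sqrt_sq hx]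
  rw [h3]
  apply Real.sqrt_le_sqrt
  calc ((g : ℝ) * a * a') ^ 2 * (s * s') = (a * a') * ((g * s * a) * (g * s' * a')) := by ring
    _ ≤ (a * a') * (1 * 1) := by
        refine mul_le_mul_of_nonneg_left ?_ (mul_nonneg ha ha')
        exact mul_le_mul h1 h2 (by positivity) (by norm_num)
    _ = a * a' := by ring

/-- **fixed-word energy, bilinear form** -/
theorem word_energy {M s s' : ℕ} (hM : 0 < M) (G : Finset ℕ)
    (hG : ∀ g ∈ G, g * s ∣ M ∧ g * s' ∣ M) (f f' : ℕ → ℝ) (hf : ∀ b, 0 ≤ f b) (hf' : ∀ b, 0 ≤ f' b) :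
    ∑ g ∈ G, (g : ℝ) * nu M (g * s) * nu M (g * s') * (f (g * s) * f' (g * s')) ≤
      ((s : ℝ) * (s' : ℝ)) ^ (-(1 / 2 : ℝ)) *
        ((∑ b ∈ M.divisors, nu M b * f b ^ 2 + ∑ b ∈ M.divisors, nu M b * f' b ^ 2) / 2) := by
  classical
  have hss : 0 ≤ ((s : ℝ) * (s' : ℝ)) ^ (-(1 / 2 : ℝ)) := by positivity
  have himg : ∀ (r : ℕ) (F : ℕ → ℝ), (∀ g ∈ G, g * r ∣ M) → (∀ b, 0 ≤ F b) →
      ∑ g ∈ G, F (g * r) ≤ ∑ b ∈ M.divisors, F b := by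
    intro r F hr hF
    rcases Nat.eq_zero_or_pos r with h0 | h0
    · subst h0
      rcases G.eq_empty_or_nonempty with h1 | ⟨g, hg⟩
      · rw [h1, sum_empty]
        exact sum_nonneg fun b _ => hF b
      · have := hr g hg
        rw [mul_zero, Nat.zero_dvd] at this
        omega
    · rw [← sum_image (g := fun g => g * r) (f := F)]
      · refine sum_le_sum_of_subset_of_nonneg ?_ fun b _ _ => hF b
        intro b hb
        rw [mem_image] at hb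
        obtain ⟨g, hg, rfl⟩ := hb
        exact Nat.mem_divisors.2 ⟨hr g hg, hM.ne'⟩
      · intro x _ y _ hxy
        exact Nat.eq_of_mul_eq_mul_right h0 hxy
  calc ∑ g ∈ G, (g : ℝ) * nu M (g * s) * nu M (g * s') * (f (g * s) * f' (g * s'))
      ≤ ∑ g ∈ G, ((s : ℝ) * (s' : ℝ)) ^ (-(1 / 2 : ℝ)) *
        ((nu M (g * s) * f (g * s) ^ 2 + nu M (g * s') * f' (g * s') ^ 2) / 2) := by
        refine sum_le_sum fun g hg => ?_
        obtain ⟨h1, h2⟩ := hG g hg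
        have h3 := word_pair hM h1 h2
        have h4 : 0 ≤ f (g * s) * f' (g * s') := mul_nonneg (hf _) (hf' _)
        refine (mul_le_mul_of_nonneg_right h3 h4).trans ?_
        rw [mul_assoc]
        refine mul_le_mul_of_nonneg_left ?_ hss
        have h5 := Real.sq_sqrt (nu_nonneg M (g * s))
        have h6 := Real.sq_sqrt (nu_nonneg M (g * s'))
        have h7 := sq_nonneg (Real.sqrt (nu M (g * s)) * f (g * s) -
          Real.sqrt (nu M (g * s')) * f' (g * s'))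
        have e1 : nu M (g * s) * f (g * s) ^ 2 = (Real.sqrt (nu M (g * s)) * f (g * s)) ^ 2 := by
          rw [mul_pow, h5]
        have e2 : nu M (g * s') * f' (g * s') ^ 2 = (Real.sqrt (nu M (g * s')) * f' (g * s')) ^ 2 := by
          rw [mul_pow, h6]
        rw [e1, e2]
        nlinarith
    _ = ((s : ℝ) * (s' : ℝ)) ^ (-(1 / 2 : ℝ)) *
        ((∑ g ∈ G, nu M (g * s) * f (g * s) ^ 2 + ∑ g ∈ G, nu M (g * s') * f' (g * s') ^ 2) / 2) := by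
        rw [← mul_sum, ← sum_div, sum_add_distrib]
    _ ≤ _ := by
        refine mul_le_mul_of_nonneg_left ?_ hss
        have h1 := himg s (fun b => nu M b * f b ^ 2) (fun g hg => (hG g hg).1)
          (fun b => mul_nonneg (nu_nonneg M b) (sq_nonneg _))
        have h2 := himg s' (fun b => nu M b * f' b ^ 2) (fun g hg => (hG g hg).2)
          (fun b => mul_nonneg (nu_nonneg M b) (sq_nonneg _))
        linarith

/-- **energy of the pairs with cofactor word in a finite set `W`** -/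
theorem words_energy {M : ℕ} (hM : 0 < M) (U : Finset (ℕ × ℕ))
    (hU : ∀ u ∈ U, u.1 ∣ M ∧ u.2 ∣ M) (W : Finset (ℕ × ℕ))
    (hW : ∀ u ∈ U, (u.1 / Nat.gcd u.1 u.2, u.2 / Nat.gcd u.1 u.2) ∈ W) (f : ℕ → ℝ)
    (hf : ∀ b, 0 ≤ f b) :
    ∑ u ∈ U, (Nat.gcd u.1 u.2 : ℝ) * nu M u.1 * nu M u.2 * (f u.1 * f u.2) ≤
      (∑ w ∈ W, ((w.1 : ℝ) * (w.2 : ℝ)) ^ (-(1 / 2 : ℝ))) * ∑ b ∈ M.divisors, nu M b * f b ^ 2 := by
  classical
  rw [← sum_fiberwise_of_maps_to (g := fun u : ℕ × ℕ =>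
    (u.1 / Nat.gcd u.1 u.2, u.2 / Nat.gcd u.1 u.2)) hW, sum_mul]
  refine sum_le_sum fun w _ => ?_
  set Uw := U.filter (fun u => (u.1 / Nat.gcd u.1 u.2, u.2 / Nat.gcd u.1 u.2) = w) with hUw
  have hmem : ∀ u ∈ Uw, u.1 = Nat.gcd u.1 u.2 * w.1 ∧ u.2 = Nat.gcd u.1 u.2 * w.2 := by
    intro u hu
    rw [hUw, mem_filter] at hu
    rw [← hu.2]
    exact ⟨(Nat.mul_div_cancel' (Nat.gcd_dvd_left _ _)).symm,
      (Nat.mul_div_cancel' (Nat.gcd_dvd_right _ _)).symm⟩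
  set G := Uw.image (fun u => Nat.gcd u.1 u.2) with hG
  have e1 : ∑ u ∈ Uw, (Nat.gcd u.1 u.2 : ℝ) * nu M u.1 * nu M u.2 * (f u.1 * f u.2) =
      ∑ g ∈ G, (g : ℝ) * nu M (g * w.1) * nu M (g * w.2) * (f (g * w.1) * f (g * w.2)) := by
    rw [hG, sum_image]
    · refine sum_congr rfl fun u hu => ?_
      obtain ⟨h1, h2⟩ := hmem u hu
      rw [← h1, ← h2]
    · intro u hu v hv huv
      obtain ⟨h1, h2⟩ := hmem u hu
      obtain ⟨h3, h4⟩ := hmem v hv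
      simp only at huv
      exact Prod.ext (by rw [h1, h3, huv]) (by rw [h2, h4, huv])
  rw [e1]
  have h1 := word_energy hM G (s := w.1) (s' := w.2) (fun g hg => by
    rw [hG, mem_image] at hg
    obtain ⟨u, hu, rfl⟩ := hg
    obtain ⟨h1, h2⟩ := hmem u hu
    rw [← h1, ← h2]
    exact hU u (mem_filter.1 hu).1) f f hf hf
  refine h1.trans (le_of_eq ?_)
  ring

end Crest.Agent.R4C.Rankinx882
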