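import Crest.Agent.R4C.RareCor_590
import Crest.Agent.R4C.RareEn_442

/-!
# Row 4: RARE pairs, unconditional (helper590; 442's `rare_thm` plugged into `RareCor_590`)

`log Y ≤ A₁ log T`, `C₀ ≥ 0` (boost), `f, f'` with values in `[0,1]`, scale `T L ≤ gcd < 2 T L`:
`(log Y)^{C₀} L · energy ≤ C T^{-c'} ((L ν f)(L ν f'))^κ` for
* `gen`  : low relation of natural density `≤ B (log Y)^b T^{-c}`;
* `box`  : rare boxes `KRare`, `D ≥ T^c`;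
* `word` : one low word of product `≥ T^c` per pair of high words;
* `deep` : `KDeep`, depth `≥ T^c`.
-/

set_option autoImplicit false

open Finset

namespace Crest.Agent.R4C.RareFinx590

open Basex935 Cutx50 MXlowx808 RelTailx808 RelRarex808 LowTaux808 S2x232 RareCorx590

/-- 442's theorem gives `RareThm` -/
theorem rareThm {κ : ℝ} (hκ : 1 / 2 < κ) (hκ1 : κ < 1) :
    ∃ A C : ℝ, 0 ≤ A ∧ 1 ≤ C ∧ RareThm κ A C := by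
  obtain ⟨A, C, hA, hC, h⟩ := RareEnx442.rare_thm hκ hκ1
  exact ⟨A, C, hA, hC, fun M Y f f' K k τ X hM hY hf hf1 hf' hf1' _ hk hk1 hd hK hτ hX =>
    h M Y f f' K k τ X hM hY hf hf1 hf' hf1' hk hk1 hd hK hτ hX⟩

theorem gen {c : ℝ} (hc : 0 < c) (hc1 : c ≤ 1) {A₁ B b C₀ : ℝ} (hA₁ : 0 ≤ A₁) (hB : 1 ≤ B)
    (hb : 0 ≤ b) (hC₀ : 0 ≤ C₀) :
    ∃ C' : ℝ, 0 < C' ∧ ∀ (M Y : ℕ) (f f' : ℕ → ℝ) (K : ℕ → ℕ → ℝ) (k : ℕ → ℕ → ℕ → ℕ → ℝ)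
      (T L : ℝ), 0 < M → 8 ≤ Y → 1 ≤ T → 0 < L → Real.log Y ≤ A₁ * Real.log T →
      (∀ b, 0 ≤ f b) → (∀ b, f b ≤ 1) → (∀ b, 0 ≤ f' b) → (∀ b, f' b ≤ 1) →
      (∀ b c, 0 ≤ K b c) → (∀ U U' s t, 0 ≤ k U U' s t) → (∀ U U' s t, k U U' s t ≤ 1) →
      (∀ U U', U ∣ upp Y M → U' ∣ upp Y M →
        MXlowx808.dens (low Y M) (k U U') ≤ B * Real.log Y ^ b * T ^ (-c)) →
      (∀ U U' n n', U ∣ upp Y M → U' ∣ upp Y M → n ∣ low Y M → n' ∣ low Y M →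
        K (n * U) (n' * U') ≤ k U U' (n / Nat.gcd n n') (n' / Nat.gcd n n')) →
      Real.log Y ^ C₀ * (L * ∑ b ∈ M.divisors, ∑ c ∈ M.divisors,
        (if T * L ≤ (Nat.gcd b c : ℝ) ∧ (Nat.gcd b c : ℝ) < 2 * (T * L) then
          (Nat.gcd b c : ℝ) * nu M b * nu M c * (f b * f' c * K b c) else 0)) ≤
      C' * T ^ (-(c / 100)) * ((L * Ex M f) * (L * Ex M f')) ^ (1 / 2 + c / 256) := by
  obtain ⟨A, C, hA, hC, hR⟩ := rareThm (κ := 1 / 2 + c / 256) (by linarith) (by linarith)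
  exact rare_gen hc hc1 hA (by linarith) hR hA₁ hB hb hC₀

theorem box {c : ℝ} (hc : 0 < c) (hc1 : c ≤ 1) {A₁ C₀ : ℝ} (hA₁ : 0 ≤ A₁) (hC₀ : 0 ≤ C₀) :
    ∃ C' : ℝ, 0 < C' ∧ ∀ (M Y : ℕ) (f f' : ℕ → ℝ) (γ t D T L : ℝ), 0 < M → 8 ≤ Y → 1 ≤ T → 0 < L →
      Real.log Y ≤ A₁ * Real.log T → T ^ c ≤ D →
      (∀ b, 0 ≤ f b) → (∀ b, f b ≤ 1) → (∀ b, 0 ≤ f' b) → (∀ b, f' b ≤ 1) →
      Real.log Y ^ C₀ * (L * ∑ b ∈ M.divisors, ∑ c ∈ M.divisors,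
        (if T * L ≤ (Nat.gcd b c : ℝ) ∧ (Nat.gcd b c : ℝ) < 2 * (T * L) then
          (Nat.gcd b c : ℝ) * nu M b * nu M c *
            (f b * f' c * KRare γ t D Y (b / Nat.gcd b c) (c / Nat.gcd b c)) else 0)) ≤
      C' * T ^ (-(c / 200)) * ((L * Ex M f) * (L * Ex M f')) ^ (1 / 2 + c / 2 / 256) := by
  obtain ⟨A, C, hA, hC, hR⟩ := rareThm (κ := 1 / 2 + c / 2 / 256) (by linarith) (by linarith)
  exact rare_box hc hc1 hA (by linarith) hR hA₁ hC₀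

theorem word {c : ℝ} (hc : 0 < c) (hc1 : c ≤ 1) {A₁ C₀ : ℝ} (hA₁ : 0 ≤ A₁) (hC₀ : 0 ≤ C₀) :
    ∃ C' : ℝ, 0 < C' ∧ ∀ (M Y : ℕ) (f f' : ℕ → ℝ) (K : ℕ → ℕ → ℝ) (w : ℕ → ℕ → ℕ × ℕ) (T L : ℝ),
      0 < M → 8 ≤ Y → 1 ≤ T → 0 < L → Real.log Y ≤ A₁ * Real.log T →
      (∀ U U', T ^ c ≤ ((w U U').1 : ℝ) * (w U U').2) →
      (∀ b, 0 ≤ f b) → (∀ b, f b ≤ 1) → (∀ b, 0 ≤ f' b) → (∀ b, f' b ≤ 1) →
      (∀ b c, 0 ≤ K b c) → (∀ b c, K b c ≤ 1) →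
      (∀ U U' n n', U ∣ upp Y M → U' ∣ upp Y M → n ∣ low Y M → n' ∣ low Y M →
        K (n * U) (n' * U') ≠ 0 → (n / Nat.gcd n n', n' / Nat.gcd n n') = w U U') →
      Real.log Y ^ C₀ * (L * ∑ b ∈ M.divisors, ∑ c ∈ M.divisors,
        (if T * L ≤ (Nat.gcd b c : ℝ) ∧ (Nat.gcd b c : ℝ) < 2 * (T * L) then
          (Nat.gcd b c : ℝ) * nu M b * nu M c * (f b * f' c * K b c) else 0)) ≤
      C' * T ^ (-(c / 100)) * ((L * Ex M f) * (L * Ex M f')) ^ (1 / 2 + c / 256) := by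
  obtain ⟨A, C, hA, hC, hR⟩ := rareThm (κ := 1 / 2 + c / 256) (by linarith) (by linarith)
  exact rare_word hc hc1 hA (by linarith) hR hA₁ hC₀

theorem deep {c : ℝ} (hc : 0 < c) (hc1 : c ≤ 1) {A₁ C₀ : ℝ} (hA₁ : 0 ≤ A₁) (hC₀ : 0 ≤ C₀) :
    ∃ C' : ℝ, 0 < C' ∧ ∀ (M Y : ℕ) (f f' : ℕ → ℝ) (γ t E Kd T L : ℝ), 0 < M → 8 ≤ Y → 1 ≤ T → 0 < L →
      Real.log Y ≤ A₁ * Real.log T → T ^ c ≤ Kd → 64 ≤ Kd → 8 * E ^ 5 ≤ t → 0 ≤ t →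
      (∀ b, 0 ≤ f b) → (∀ b, f b ≤ 1) → (∀ b, 0 ≤ f' b) → (∀ b, f' b ≤ 1) →
      Real.log Y ^ C₀ * (L * ∑ b ∈ M.divisors, ∑ c ∈ M.divisors,
        (if T * L ≤ (Nat.gcd b c : ℝ) ∧ (Nat.gcd b c : ℝ) < 2 * (T * L) then
          (Nat.gcd b c : ℝ) * nu M b * nu M c *
            (f b * f' c * KDeep γ t E Kd Y (b / Nat.gcd b c) (c / Nat.gcd b c)) else 0)) ≤
      C' * T ^ (-(c / 600)) * ((L * Ex M f) * (L * Ex M f')) ^ (1 / 2 + c / 6 / 256) := by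
  obtain ⟨A, C, hA, hC, hR⟩ := rareThm (κ := 1 / 2 + c / 6 / 256) (by linarith) (by linarith)
  exact rare_deep hc hc1 hA (by linarith) hR hA₁ hC₀

end Crest.Agent.R4C.RareFinx590
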