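import Crest.Agent.R4C.RareEn_442
import Crest.Agent.R4C.Dyad_281

/-!
# Row 4: THEOREM RARE, all scales below `X` together (helper442)

`rare_below`: `∑_{gcd < X} gcd ν ν f f' K ≤ C (log Y)^A τ^((1-κ)/8) X^(2κ-1) (ν f)^κ (ν f')^κ`
under the hypotheses of `RareEnx442.rare_thm`.
-/

set_option autoImplicit false

open Finset

namespace Crest.Agent.R4C.RareSumx442

open Basex935 Cutx50 MXlowx808 RareEnx442 Dyadx281

/-- a gcd `< X` lies in one of the windows `[X/2^(j+1), X/2^j)` -/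
lemma win_below {X g t : ℝ} {J : ℕ} (hJ : X ≤ 2 ^ J) (hg : 1 ≤ g) (ht : 0 ≤ t) :
    (if g < X then t else 0) ≤
      ∑ j ∈ range J, (if X / 2 ^ (j + 1) ≤ g ∧ g < 2 * (X / 2 ^ (j + 1)) then t else 0) := by
  have hn : ∀ j ∈ range J,
      0 ≤ (if X / 2 ^ (j + 1) ≤ g ∧ g < 2 * (X / 2 ^ (j + 1)) then t else (0 : ℝ)) := by
    intro j _
    split_ifs
    · exact ht
    · exact le_rfl
  split_ifs with hgX
  · -- the last `j` with `g < X / 2^j`
    have hg0 : 0 < g := by linarith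
    have hne : ∃ n : ℕ, X / 2 ^ n ≤ g := ⟨J, by
      rw [div_le_iff₀ (by positivity)]
      nlinarith [show (0 : ℝ) < 2 ^ J by positivity]⟩
    classical
    set n := Nat.find hne with hn'
    have h1 : X / 2 ^ n ≤ g := Nat.find_spec hne
    have hn0 : n ≠ 0 := by
      intro h0
      rw [h0, pow_zero, div_one] at h1
      linarith
    obtain ⟨j, hj⟩ := Nat.exists_eq_succ_of_ne_zero hn0
    have h2 : ¬ X / 2 ^ j ≤ g := by
      apply Nat.find_min hne
      rw [← hn', hj]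
      exact Nat.lt_succ_self j
    have hjJ : j ∈ range J := by
      rw [mem_range]
      by_contra hc
      push Not at hc
      apply h2
      rw [div_le_iff₀ (by positivity)]
      have : (2 : ℝ) ^ J ≤ 2 ^ j := pow_le_pow_right₀ (by norm_num) hc
      nlinarith [show (0 : ℝ) < 2 ^ j by positivity]
    have h3 := single_le_sum hn hjJ
    rw [if_pos] at h3
    · exact h3
    · refine ⟨?_, ?_⟩
      · rw [hj] at h1; exact h1
      · push Not at h2
        have e : 2 * (X / 2 ^ (j + 1)) = X / 2 ^ j := by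
          rw [pow_succ]; field_simp
        rw [e]; exact h2
  · exact sum_nonneg hn

/-- **THEOREM RARE, all pairs with `gcd < X`** -/
theorem rare_below {κ : ℝ} (hκ : 1 / 2 < κ) (hκ1 : κ < 1) :
    ∃ A C : ℝ, 0 ≤ A ∧ 1 ≤ C ∧ ∀ (M Y : ℕ) (f f' : ℕ → ℝ) (K : ℕ → ℕ → ℝ)
      (k : ℕ → ℕ → ℕ → ℕ → ℝ) (τ X : ℝ), 0 < M → 8 ≤ Y →
      (∀ b, 0 ≤ f b) → (∀ b, f b ≤ 1) → (∀ b, 0 ≤ f' b) → (∀ b, f' b ≤ 1) →
      (∀ T T' s t, 0 ≤ k T T' s t) → (∀ T T' s t, k T T' s t ≤ 1) →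
      (∀ T T', T ∣ upp Y M → T' ∣ upp Y M → dens (low Y M) (k T T') ≤ τ) →
      (∀ T T' n n', T ∣ upp Y M → T' ∣ upp Y M → n ∣ low Y M → n' ∣ low Y M →
        K (n * T) (n' * T') ≤ k T T' (n / Nat.gcd n n') (n' / Nat.gcd n n')) →
      τ ≤ 1 → 0 < X →
      ∑ b ∈ M.divisors, ∑ c ∈ M.divisors,
        (if (Nat.gcd b c : ℝ) < X then
          (Nat.gcd b c : ℝ) * nu M b * nu M c * (f b * f' c * K b c) else 0) ≤
      C * Real.log Y ^ A * τ ^ ((1 - κ) / 8) * X ^ (2 * κ - 1) *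
        ((Ex M f) ^ κ * (Ex M f') ^ κ) := by
  obtain ⟨A, C, hA, hC, H⟩ := rare_thm hκ hκ1
  have hη : 0 < 2 * κ - 1 := by linarith
  refine ⟨A, C * gC (2 * κ - 1), hA, one_le_mul_of_one_le_of_one_le hC (one_le_gC hη), ?_⟩
  intro M Y f f' K k τ X hM hY hf hf1 hf' hf1' hk hk1 hdens hK hτ1 hX
  have hY1 : (1 : ℝ) ≤ Y := by
    have : (8 : ℝ) ≤ Y := by exact_mod_cast hY
    linarith
  have hly0 : 0 ≤ Real.log Y := Real.log_nonneg hY1
  have hτ0 : 0 ≤ τ := (dens_nonneg _ (hk 1 1)).trans (hdens 1 1 (one_dvd _) (one_dvd _))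
  obtain ⟨J, hJ⟩ := pow_unbounded_of_one_lt X (by norm_num : (1 : ℝ) < 2)
  have hEE : 0 ≤ (Ex M f) ^ κ * (Ex M f') ^ κ :=
    mul_nonneg (Real.rpow_nonneg (Ex_nonneg _ hf) _) (Real.rpow_nonneg (Ex_nonneg _ hf') _)
  set P := C * Real.log Y ^ A * τ ^ ((1 - κ) / 8) with hP
  have hP0 : 0 ≤ P := by
    rw [hP]
    exact mul_nonneg (mul_nonneg (by linarith) (Real.rpow_nonneg hly0 _)) (Real.rpow_nonneg hτ0 _)
  have hwin : ∀ j, ∑ b ∈ M.divisors, ∑ c ∈ M.divisors,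
        (if X / 2 ^ (j + 1) ≤ (Nat.gcd b c : ℝ) ∧ (Nat.gcd b c : ℝ) < 2 * (X / 2 ^ (j + 1)) then
          (Nat.gcd b c : ℝ) * nu M b * nu M c * (f b * f' c * max (K b c) 0) else 0) ≤
      P * (X / 2 ^ (j + 1)) ^ (2 * κ - 1) * ((Ex M f) ^ κ * (Ex M f') ^ κ) := by
    intro j
    refine H M Y f f' (fun b c => max (K b c) 0) k τ (X / 2 ^ (j + 1)) hM hY hf hf1 hf' hf1' hk hk1
      hdens ?_ hτ1 (by positivity)
    intro T T' n n' h1 h2 h3 h4
    exact max_le (hK T T' n n' h1 h2 h3 h4) (hk _ _ _ _)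
  calc ∑ b ∈ M.divisors, ∑ c ∈ M.divisors,
        (if (Nat.gcd b c : ℝ) < X then
          (Nat.gcd b c : ℝ) * nu M b * nu M c * (f b * f' c * K b c) else 0)
      ≤ ∑ b ∈ M.divisors, ∑ c ∈ M.divisors, ∑ j ∈ range J,
        (if X / 2 ^ (j + 1) ≤ (Nat.gcd b c : ℝ) ∧ (Nat.gcd b c : ℝ) < 2 * (X / 2 ^ (j + 1)) then
          (Nat.gcd b c : ℝ) * nu M b * nu M c * (f b * f' c * max (K b c) 0) else 0) := by
        refine sum_le_sum fun b hb => sum_le_sum fun c _ => ?_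
        have hw : 0 ≤ (Nat.gcd b c : ℝ) * nu M b * nu M c :=
          mul_nonneg (mul_nonneg (Nat.cast_nonneg _) (nu_nonneg _ _)) (nu_nonneg _ _)
        have hff : 0 ≤ f b * f' c := mul_nonneg (hf b) (hf' c)
        have ht : 0 ≤ (Nat.gcd b c : ℝ) * nu M b * nu M c * (f b * f' c * max (K b c) 0) :=
          mul_nonneg hw (mul_nonneg hff (le_max_right _ _))
        have hg1 : (1 : ℝ) ≤ (Nat.gcd b c : ℕ) := by
          exact_mod_cast Nat.gcd_pos_of_pos_left c (Nat.pos_of_mem_divisors hb)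
        refine le_trans ?_ (win_below hJ.le hg1 ht)
        split_ifs
        · exact mul_le_mul_of_nonneg_left (mul_le_mul_of_nonneg_left (le_max_left _ _) hff) hw
        · exact le_rfl
    _ = ∑ j ∈ range J, ∑ b ∈ M.divisors, ∑ c ∈ M.divisors,
        (if X / 2 ^ (j + 1) ≤ (Nat.gcd b c : ℝ) ∧ (Nat.gcd b c : ℝ) < 2 * (X / 2 ^ (j + 1)) then
          (Nat.gcd b c : ℝ) * nu M b * nu M c * (f b * f' c * max (K b c) 0) else 0) := by
        rw [sum_congr rfl fun b _ => sum_comm, sum_comm]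
    _ ≤ ∑ j ∈ range J, P * (X / 2 ^ (j + 1)) ^ (2 * κ - 1) * ((Ex M f) ^ κ * (Ex M f') ^ κ) :=
        sum_le_sum fun j _ => hwin j
    _ = P * X ^ (2 * κ - 1) * ((Ex M f) ^ κ * (Ex M f') ^ κ) *
        ∑ j ∈ range J, ((2 : ℝ) ^ (j + 1)) ^ (-(2 * κ - 1)) := by
        rw [mul_sum]
        refine sum_congr rfl fun j _ => ?_
        rw [Real.div_rpow hX.le (by positivity), Real.rpow_neg (by positivity)]
        ring
    _ ≤ P * X ^ (2 * κ - 1) * ((Ex M f) ^ κ * (Ex M f') ^ κ) * gC (2 * κ - 1) := by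
        refine mul_le_mul_of_nonneg_left ?_ (by positivity)
        refine le_trans ?_ (geom_range hη J)
        refine sum_le_sum fun j _ => ?_
        rw [← Real.rpow_natCast, ← Real.rpow_mul (by norm_num)]
        refine Real.rpow_le_rpow_of_exponent_le (by norm_num) ?_
        push_cast
        nlinarith
    _ = _ := by rw [hP]; ring

end Crest.Agent.R4C.RareSumx442
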