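import Crest.Agent.R4C.LeafRho_590
import Crest.Agent.R4C.HVWt_19

/-!
# Row 4: low HVW with a relation, no anatomy weight (relLow; helper590)

`relLow_pow` (all gcd, power form), `relLow` (window `G ≤ gcd < 2 G`): for a relation `R0` on
coprime pairs with `#(R0 ∩ box) ≤ 8 |box| / D` (`BoxD`), every weight `0 ≤ K ≤ 1` supported on pairs
with cofactors in `R0`, all primes of `M` at most `Y`, `f, f'` with values in `[0,1]`:

`∑_{G ≤ (b,c) < 2G} (b,c) ν(b) ν(c) f(b) f'(c) K(b,c)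
    ≤ C (D^{-1/2} (log Y)^5)^θ G^{-1} ((G ν f) (G ν f'))^{(1+η)/2}`.

General exponents, no anatomy weight.
-/

set_option autoImplicit false

namespace Crest.Agent.R4C.RelLowx590

open Finset Crest.Agent.R4C.Basex935 Crest.Agent.R4C.PowRx473
open Crest.Agent.R4C.LeafTaux590 Crest.Agent.R4C.OnePx19
open Crest.Agent.R4C.ThmRx19 (lvl FF gg)

lemma prod_fact {N x : ℕ} (hN : 0 < N) (hx : x ∣ N) :
    x = ∏ p ∈ N.primeFactors, p ^ x.factorization p := by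
  have hx0 : x ≠ 0 := (Nat.pos_of_dvd_of_pos hx hN).ne'
  conv_lhs => rw [← Nat.prod_factorization_pow_eq_self hx0]
  refine Finsupp.prod_of_support_subset _ ?_ _ fun p _ => pow_zero p
  rw [Nat.support_factorization]
  exact Nat.primeFactors_mono hx hN.ne'

/-- the cofactors of `h, h'` as a product of distances -/
lemma cof_prod {Ma h h' : ℕ} (hMa : 0 < Ma) (hh : h ∣ Ma) (hh' : h' ∣ Ma) :
    (h / Nat.gcd h h') * (h' / Nat.gcd h h') =
      ∏ p ∈ Ma.primeFactors, p ^ dst (h.factorization p) (h'.factorization p) := by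
  have hh0 : h ≠ 0 := (Nat.pos_of_dvd_of_pos hh hMa).ne'
  have hh0' : h' ≠ 0 := (Nat.pos_of_dvd_of_pos hh' hMa).ne'
  have d1 : h / Nat.gcd h h' ∣ Ma := (Nat.div_dvd_of_dvd (Nat.gcd_dvd_left _ _)).trans hh
  have d2 : h' / Nat.gcd h h' ∣ Ma := (Nat.div_dvd_of_dvd (Nat.gcd_dvd_right _ _)).trans hh'
  have e1 := prod_fact hMa d1
  have e2 := prod_fact hMa d2
  calc (h / Nat.gcd h h') * (h' / Nat.gcd h h')
      = (∏ p ∈ Ma.primeFactors, p ^ (h / Nat.gcd h h').factorization p) *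
          ∏ p ∈ Ma.primeFactors, p ^ (h' / Nat.gcd h h').factorization p := by
        rw [← e1, ← e2]
    _ = ∏ p ∈ Ma.primeFactors, p ^ dst (h.factorization p) (h'.factorization p) := by
        rw [← Finset.prod_mul_distrib]
        refine Finset.prod_congr rfl fun p _ => ?_
        rw [← pow_add]
        congr 1
        rw [Nat.factorization_div (Nat.gcd_dvd_left _ _),
          Nat.factorization_div (Nat.gcd_dvd_right _ _), Nat.factorization_gcd hh0 hh0']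
        simp only [Finsupp.coe_tsub, Pi.sub_apply, Finsupp.inf_apply]
        unfold dst
        omega

lemma FF_le_pow {δ : ℝ} {g : ℕ → ℝ} (hg : ∀ p, 0 ≤ g p) (hg1 : ∀ p, g p ≤ 1) {Ma h h' : ℕ}
    (hMa : 0 < Ma) (hh : h ∣ Ma) (hh' : h' ∣ Ma) :
    FF δ g Ma h h' ≤
      (((h / Nat.gcd h h' : ℕ) : ℝ) * ((h' / Nat.gcd h h' : ℕ) : ℝ)) ^ (-δ) := by
  have e : ((h / Nat.gcd h h' : ℕ) : ℝ) * ((h' / Nat.gcd h h' : ℕ) : ℝ) =
      ∏ p ∈ Ma.primeFactors, ((p : ℝ) ^ dst (h.factorization p) (h'.factorization p)) := by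
    have := cof_prod hMa hh hh'
    exact_mod_cast this
  rw [e, ← Real.finsetProd_rpow _ _ (fun p _ => by positivity)]
  unfold FF
  refine Finset.prod_le_prod (fun p _ => ?_) (fun p _ => ?_)
  · split_ifs
    · exact hg p
    · exact Real.rpow_nonneg (Nat.cast_nonneg _) _
  · have e2 : ((p : ℝ) ^ dst (h.factorization p) (h'.factorization p)) ^ (-δ) =
        (p : ℝ) ^ (-(δ * dst (h.factorization p) (h'.factorization p))) := by
      rw [← Real.rpow_natCast, ← Real.rpow_mul (Nat.cast_nonneg _)]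
      congr 1; ring
    rw [e2]
    split_ifs with hc
    · rw [hc, dst_self]
      simpa using hg1 p
    · exact le_rfl

lemma rhoB_min {Mz H : ℕ} {K : ℕ → ℕ → ℝ} {r r' : ℝ} (h : RhoB Mz H K r) (h' : RhoB Mz H K r') :
    RhoB Mz H K (min r r') := by
  intro a a'
  rcases le_total r r' with hr | hr
  · rw [min_eq_left hr]; exact h a a'
  · rw [min_eq_right hr]; exact h' a a'

/-- the trivial model bound in `b`-language -/
lemma rhoB_one {Mz H : ℕ} (hMz : 0 < Mz) (hH : H ∣ Mz) {K : ℕ → ℕ → ℝ} (hK : ∀ x y, 0 ≤ K x y)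
    (hK1 : ∀ x y, K x y ≤ 1) : RhoB Mz H K 1 := by
  intro a a'
  have h := ThmRx19.RhoB_one hMz.ne' hH K hK hK1 a a'
  have e : ∀ b, Nat.gcd H b = Nat.gcd b H := fun b => Nat.gcd_comm H b
  simp only [e] at h
  exact h

/-- **the leaf condition of THEOREM (R) for a box-rare relation** -/
theorem leafB_rel : ∃ C : ℝ, 0 < C ∧ ∀ (Y D : ℝ) (M : ℕ) (R0 : ℕ → ℕ → Prop) (K : ℕ → ℕ → ℝ),
    16 ≤ Y → 0 < D → 0 < M → (∀ p, p.Prime → p ∣ M → (p : ℝ) ≤ Y) → BoxD M R0 D →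
    (∀ b c, 0 ≤ K b c) → (∀ b c, K b c ≤ 1) →
    (∀ b c, b ∣ M → c ∣ M → K b c ≠ 0 → R0 (b / Nat.gcd b c) (c / Nat.gcd b c)) →
    ∀ (κ δ θ : ℝ) (g : ℕ → ℝ), (∀ p, 0 ≤ g p) → (∀ p, g p ≤ 1) → 0 < θ → θ ≤ 2 * δ → θ ≤ 1 - κ →
      LeafB κ δ g M K ((C * Real.sqrt (1 / D) * Real.log Y ^ 5) ^ θ) := by
  obtain ⟨C, hC, hρ⟩ := LeafRhox590.rho_model
  refine ⟨C, hC, ?_⟩
  intro Y D M R0 K hY hD hM hp hR hK hK1 hKR κ δ θ g hg hg1 hθ0 hθδ hθκ Ma Mz H h h' hMM hco hh hh' hH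
  have hMa : 0 < Ma := Nat.pos_of_ne_zero (by rintro rfl; omega)
  have hMz : 0 < Mz := Nat.pos_of_ne_zero (by rintro rfl; omega)
  have hl0 : 0 ≤ Real.log Y := Real.log_nonneg (by linarith)
  set v : ℕ := h / Nat.gcd h h' with hv
  set v' : ℕ := h' / Nat.gcd h h' with hv'
  have hh0 : 0 < h := Nat.pos_of_dvd_of_pos hh hMa
  have hh0' : 0 < h' := Nat.pos_of_dvd_of_pos hh' hMa
  have hg0 : 0 < Nat.gcd h h' := Nat.gcd_pos_of_pos_left _ hh0
  have hv0 : 0 < v := Nat.div_pos (Nat.le_of_dvd hh0 (Nat.gcd_dvd_left _ _)) hg0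
  have hv0' : 0 < v' := Nat.div_pos (Nat.le_of_dvd hh0' (Nat.gcd_dvd_right _ _)) hg0
  have hV1 : (1 : ℝ) ≤ (v : ℝ) * v' := by
    have : 1 ≤ v * v' := Nat.mul_pos hv0 hv0'
    exact_mod_cast this
  have hV0 : (0 : ℝ) < (v : ℝ) * v' := by linarith
  set A : ℝ := C * Real.sqrt (1 / D) * Real.log Y ^ 5 with hA
  have hA0 : 0 ≤ A := by positivity
  have hr1 := hρ Y D M R0 K hY hD hM hp hR hK hK1 hKR Ma Mz H h h' hMM hco hh hh' hH
  have hr2 : RhoB Mz H (fun u v => K (h * u) (h' * v)) 1 :=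
    rhoB_one hMz hH (fun _ _ => hK _ _) (fun _ _ => hK1 _ _)
  have e1 : C * Real.sqrt ((v : ℝ) * v' / D) * Real.log Y ^ 5 = A * Real.sqrt ((v : ℝ) * v') := by
    rw [hA, show (v : ℝ) * v' / D = (v : ℝ) * v' * (1 / D) by ring, Real.sqrt_mul hV0.le]
    ring
  rw [e1] at hr1
  set r : ℝ := A * Real.sqrt ((v : ℝ) * v') with hr
  have hr0 : 0 ≤ r := by positivity
  have hm0 : 0 ≤ min r 1 := le_min hr0 zero_le_one
  refine ⟨min r 1, hm0, rhoB_min hr1 hr2, ?_⟩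
  have hF := FF_le_pow (δ := δ) hg hg1 hMa hh hh'
  have hF0 := FF_nonneg (δ := δ) hg Ma h h'
  have hstep : (min r 1) ^ (1 - κ) ≤ A ^ θ * ((v : ℝ) * v') ^ (θ / 2) := by
    calc (min r 1) ^ (1 - κ) ≤ (min r 1) ^ θ := by
          rcases hm0.eq_or_lt with h0 | h0
          · rw [← h0, Real.zero_rpow (by linarith), Real.zero_rpow hθ0.ne']
          · exact Real.rpow_le_rpow_of_exponent_ge h0 (min_le_right _ _) hθκ
      _ ≤ r ^ θ := Real.rpow_le_rpow hm0 (min_le_left _ _) hθ0.le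
      _ = A ^ θ * ((v : ℝ) * v') ^ (θ / 2) := by
          rw [hr, Real.mul_rpow hA0 (Real.sqrt_nonneg _), Real.sqrt_eq_rpow, ← Real.rpow_mul hV0.le]
          congr 2; ring
  calc FF δ g Ma h h' * (min r 1) ^ (1 - κ)
      ≤ ((v : ℝ) * v') ^ (-δ) * (A ^ θ * ((v : ℝ) * v') ^ (θ / 2)) :=
        mul_le_mul hF hstep (Real.rpow_nonneg hm0 _) (Real.rpow_nonneg hV0.le _)
    _ = A ^ θ * ((v : ℝ) * v') ^ (-δ + θ / 2) := by
        rw [Real.rpow_add hV0]; ring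
    _ ≤ A ^ θ * 1 := by
        refine mul_le_mul_of_nonneg_left ?_ (Real.rpow_nonneg hA0 _)
        exact Real.rpow_le_one_of_one_le_of_nonpos hV1 (by linarith)
    _ = A ^ θ := mul_one _

/-- **low HVW with a box-rare relation**, all gcd, power form, no anatomy weight -/
theorem relLow_pow {η : ℝ} (hη0 : 0 < η) (hη1 : η < 1) :
    ∃ C θ : ℝ, 0 < C ∧ 0 < θ ∧ θ ≤ 1 ∧ ∀ (Y D : ℝ) (M : ℕ) (R0 : ℕ → ℕ → Prop) (K : ℕ → ℕ → ℝ)
      (f f' : ℕ → ℝ), 16 ≤ Y → 0 < D → 0 < M → (∀ p, p.Prime → p ∣ M → (p : ℝ) ≤ Y) →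
      BoxD M R0 D → (∀ b c, 0 ≤ K b c) → (∀ b c, K b c ≤ 1) →
      (∀ b c, b ∣ M → c ∣ M → K b c ≠ 0 → R0 (b / Nat.gcd b c) (c / Nat.gcd b c)) →
      (∀ x, 0 ≤ f x) → (∀ x, f x ≤ 1) → (∀ x, 0 ≤ f' x) → (∀ x, f' x ≤ 1) →
      ∑ b ∈ M.divisors, ∑ c ∈ M.divisors, (Nat.gcd b c : ℝ) ^ (1 - η) * nu M b * nu M c *
          (f b * f' c * K b c) ≤
        C * (Real.sqrt (1 / D) * Real.log Y ^ 5) ^ θ *
          ((∑ b ∈ M.divisors, nu M b * f b) * ∑ b ∈ M.divisors, nu M b * f' b)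
            ^ ((1 + η) / 2) := by
  set α : ℝ := min η (1 - η) / 2 with hα
  have hm : 0 < min η (1 - η) := lt_min hη0 (by linarith)
  have hα0 : 0 < α := by rw [hα]; linarith
  have h1 : 0 < η - α := by rw [hα]; linarith [min_le_left η (1 - η)]
  have h2 : η + α < 1 := by rw [hα]; linarith [min_le_right η (1 - η)]
  have g1 : 0 < (1 - (1 + η - α) / 2) * (η - α) := mul_pos (by linarith) h1
  have g2 : 0 < (1 - (1 + η + α) / 2) * (η + α) := mul_pos (by linarith) (by linarith)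
  set δ : ℝ := min ((1 - (1 + η - α) / 2) * (η - α)) ((1 - (1 + η + α) / 2) * (η + α)) / 4 with hδ
  have hδm : 0 < min ((1 - (1 + η - α) / 2) * (η - α)) ((1 - (1 + η + α) / 2) * (η + α)) :=
    lt_min g1 g2
  have hδ0 : 0 < δ := by rw [hδ]; linarith
  have hδa : δ * (1 + η - α) < (1 - (1 + η - α) / 2) * (η - α) := by
    have : δ * 4 ≤ (1 - (1 + η - α) / 2) * (η - α) := by
      rw [hδ]; linarith [min_le_left ((1 - (1 + η - α) / 2) * (η - α))
        ((1 - (1 + η + α) / 2) * (η + α))]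
    nlinarith
  have hδb : δ * (1 + η + α) < (1 - (1 + η + α) / 2) * (η + α) := by
    have : δ * 4 ≤ (1 - (1 + η + α) / 2) * (η + α) := by
      rw [hδ]; linarith [min_le_right ((1 - (1 + η - α) / 2) * (η - α))
        ((1 - (1 + η + α) / 2) * (η + α))]
    nlinarith
  obtain ⟨c, C, p0, hc, hC, hg1, hg2, H⟩ := power_b hη1 hα0 h1 h2 hδ0 hδa hδb
  obtain ⟨C1, hC1, hL⟩ := leafB_rel
  set θ : ℝ := min (2 * δ) (1 - (1 + η + α) / 2) with hθ
  have hθ0 : 0 < θ := lt_min (by linarith) (by linarith)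
  have hθ1 : θ ≤ 1 := (min_le_right _ _).trans (by linarith)
  refine ⟨C * C1 ^ θ, θ, by positivity, hθ0, hθ1, ?_⟩
  intro Y D M R0 K f f' hY hD hM hp hR hK hK1 hKR hf hf1 hf' hf1'
  have hl0 : 0 ≤ Real.log Y := Real.log_nonneg (by linarith)
  have hL1 := hL Y D M R0 K hY hD hM hp hR hK hK1 hKR ((1 + η - α) / 2) δ θ
    (gg ((1 + η - α) / 2) δ c p0) (fun p => (hg1 p).1) (fun p => (hg1 p).2) hθ0
    (min_le_left _ _) ((min_le_right _ _).trans (by linarith))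
  have hL2 := hL Y D M R0 K hY hD hM hp hR hK hK1 hKR ((1 + η + α) / 2) δ θ
    (gg ((1 + η + α) / 2) δ c p0) (fun p => (hg2 p).1) (fun p => (hg2 p).2) hθ0
    (min_le_left _ _) (min_le_right _ _)
  have hV0 : 0 ≤ (C1 * Real.sqrt (1 / D) * Real.log Y ^ 5) ^ θ := by positivity
  have h3 := H M _ f f' K hM hV0 hf hf1 hf' hf1' hK hK1 hL1 hL2
  refine h3.trans (le_of_eq ?_)
  rw [mul_assoc C1, Real.mul_rpow hC1.le (by positivity)]
  ring

/-- **relLow**: window `G ≤ gcd < 2G`, no anatomy weight -/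
theorem relLow {η : ℝ} (hη0 : 0 < η) (hη1 : η < 1) :
    ∃ C θ : ℝ, 0 < C ∧ 0 < θ ∧ θ ≤ 1 ∧ ∀ (Y D G : ℝ) (M : ℕ) (R0 : ℕ → ℕ → Prop)
      (K : ℕ → ℕ → ℝ) (f f' : ℕ → ℝ), 16 ≤ Y → 0 < D → 0 < G → 0 < M →
      (∀ p, p.Prime → p ∣ M → (p : ℝ) ≤ Y) →
      BoxD M R0 D → (∀ b c, 0 ≤ K b c) → (∀ b c, K b c ≤ 1) →
      (∀ b c, b ∣ M → c ∣ M → K b c ≠ 0 → R0 (b / Nat.gcd b c) (c / Nat.gcd b c)) →
      (∀ x, 0 ≤ f x) → (∀ x, f x ≤ 1) → (∀ x, 0 ≤ f' x) → (∀ x, f' x ≤ 1) →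
      ∑ b ∈ M.divisors, ∑ c ∈ M.divisors,
          (if G ≤ (Nat.gcd b c : ℝ) ∧ (Nat.gcd b c : ℝ) ≤ 2 * G then
            (Nat.gcd b c : ℝ) * nu M b * nu M c * (f b * f' c * K b c) else 0) ≤
        C * (Real.sqrt (1 / D) * Real.log Y ^ 5) ^ θ * G⁻¹ *
          ((G * ∑ b ∈ M.divisors, nu M b * f b) * (G * ∑ b ∈ M.divisors, nu M b * f' b))
            ^ ((1 + η) / 2) := by
  obtain ⟨C, θ, hC, hθ0, hθ1, H⟩ := relLow_pow hη0 hη1
  refine ⟨2 * C, θ, by positivity, hθ0, hθ1, ?_⟩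
  intro Y D G M R0 K f f' hY hD hG hM hp hR hK hK1 hKR hf hf1 hf' hf1'
  have h := H Y D M R0 K f f' hY hD hM hp hR hK hK1 hKR hf hf1 hf' hf1'
  have hl0 : 0 ≤ Real.log Y := Real.log_nonneg (by linarith)
  set m1 : ℝ := ∑ b ∈ M.divisors, nu M b * f b with hm1
  set m2 : ℝ := ∑ b ∈ M.divisors, nu M b * f' b with hm2
  have hm10 : 0 ≤ m1 := Finset.sum_nonneg fun b _ => mul_nonneg (nu_nonneg _ _) (hf _)
  have hm20 : 0 ≤ m2 := Finset.sum_nonneg fun b _ => mul_nonneg (nu_nonneg _ _) (hf' _)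
  have hterm : ∀ b ∈ M.divisors, ∀ c ∈ M.divisors,
      (if G ≤ (Nat.gcd b c : ℝ) ∧ (Nat.gcd b c : ℝ) ≤ 2 * G then
        (Nat.gcd b c : ℝ) * nu M b * nu M c * (f b * f' c * K b c) else 0) ≤
      2 * G ^ η * ((Nat.gcd b c : ℝ) ^ (1 - η) * nu M b * nu M c * (f b * f' c * K b c)) := by
    intro b hb c hc
    have hn : 0 ≤ nu M b * nu M c * (f b * f' c * K b c) :=
      mul_nonneg (mul_nonneg (nu_nonneg _ _) (nu_nonneg _ _))
        (mul_nonneg (mul_nonneg (hf _) (hf' _)) (hK _ _))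
    have hg1 : 0 ≤ (Nat.gcd b c : ℝ) ^ (1 - η) := Real.rpow_nonneg (Nat.cast_nonneg _) _
    have hGη : 0 ≤ G ^ η := Real.rpow_nonneg hG.le _
    split_ifs with hcond
    · have hgp : (0 : ℝ) < (Nat.gcd b c : ℝ) := lt_of_lt_of_le hG hcond.1
      have e1 : (Nat.gcd b c : ℝ) = (Nat.gcd b c : ℝ) ^ η * (Nat.gcd b c : ℝ) ^ (1 - η) := by
        rw [← Real.rpow_add hgp, show η + (1 - η) = 1 by ring, Real.rpow_one]
      have e2 : (Nat.gcd b c : ℝ) ^ η ≤ 2 * G ^ η := by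
        calc (Nat.gcd b c : ℝ) ^ η ≤ (2 * G) ^ η := Real.rpow_le_rpow hgp.le hcond.2 hη0.le
          _ = 2 ^ η * G ^ η := Real.mul_rpow (by norm_num) hG.le
          _ ≤ 2 * G ^ η := by
              refine mul_le_mul_of_nonneg_right ?_ hGη
              calc (2 : ℝ) ^ η ≤ 2 ^ (1 : ℝ) :=
                    Real.rpow_le_rpow_of_exponent_le (by norm_num) hη1.le
                _ = 2 := Real.rpow_one 2
      calc (Nat.gcd b c : ℝ) * nu M b * nu M c * (f b * f' c * K b c)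
          = (Nat.gcd b c : ℝ) ^ η * ((Nat.gcd b c : ℝ) ^ (1 - η) *
              (nu M b * nu M c * (f b * f' c * K b c))) := by
            conv_lhs => rw [e1]
            ring
        _ ≤ 2 * G ^ η * ((Nat.gcd b c : ℝ) ^ (1 - η) *
              (nu M b * nu M c * (f b * f' c * K b c))) :=
            mul_le_mul_of_nonneg_right e2 (mul_nonneg hg1 hn)
        _ = _ := by ring
    · have : 0 ≤ (Nat.gcd b c : ℝ) ^ (1 - η) * (nu M b * nu M c * (f b * f' c * K b c)) :=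
        mul_nonneg hg1 hn
      calc (0 : ℝ) ≤ 2 * G ^ η * ((Nat.gcd b c : ℝ) ^ (1 - η) *
            (nu M b * nu M c * (f b * f' c * K b c))) := by positivity
        _ = _ := by ring
  have hsum : ∑ b ∈ M.divisors, ∑ c ∈ M.divisors,
      (if G ≤ (Nat.gcd b c : ℝ) ∧ (Nat.gcd b c : ℝ) ≤ 2 * G then
        (Nat.gcd b c : ℝ) * nu M b * nu M c * (f b * f' c * K b c) else 0) ≤
      2 * G ^ η * ∑ b ∈ M.divisors, ∑ c ∈ M.divisors,
        (Nat.gcd b c : ℝ) ^ (1 - η) * nu M b * nu M c * (f b * f' c * K b c) := by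
    rw [Finset.mul_sum]
    refine Finset.sum_le_sum fun b hb => ?_
    rw [Finset.mul_sum]
    exact Finset.sum_le_sum fun c hc => hterm b hb c hc
  refine hsum.trans ((mul_le_mul_of_nonneg_left h (by positivity)).trans (le_of_eq ?_))
  have e3 : ((G * m1) * (G * m2)) ^ ((1 + η) / 2) = G ^ (1 + η) * (m1 * m2) ^ ((1 + η) / 2) := by
    rw [show (G * m1) * (G * m2) = (G ^ (2 : ℝ)) * (m1 * m2) by
      rw [show (2 : ℝ) = ((2 : ℕ) : ℝ) by norm_num, Real.rpow_natCast]; ring,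
      Real.mul_rpow (by positivity) (mul_nonneg hm10 hm20), ← Real.rpow_mul hG.le]
    congr 2; ring
  rw [e3]
  have e4 : G ^ η = G⁻¹ * G ^ (1 + η) := by
    rw [← Real.rpow_neg_one, ← Real.rpow_add hG]; congr 1; ring
  rw [e4]
  ring

end Crest.Agent.R4C.RelLowx590
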