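import Crest.Agent.R4C.RowL2_423
import Crest.Agent.R4C.RowP_823

/-!
# Row 4: the BOOSTED two-sided `L²` row lemma (helper81; from RowL2_423 and RowP_823)

The weight of a pair with smallest differing prime `x` is `gcd ν ν' / V_{<x}(b)` (full boost by the
common missing primes `< x`), `V_{<x}(b) = Vx M x b`.
* `row_mainV` : `SSV F A f ≤ ∑ ν Φ(f, RR F A)` (member without `x`, 423's proof);
* `row_presentV` : member with `x`, arbitrary weights (823's proof);
* `row_bilinV` : bilinear form of `row_mainV`.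
(The combined two-sided statement is `Row2_7`.)
-/

set_option autoImplicit false

namespace Crest.Agent.R4C.RowBx81

open Finset Crest.Agent.R4C.Basex935 Crest.Agent.R4C.Cutx50 Crest.Agent.R4C.FLDefx935
  Crest.Agent.R4C.PureL2x232 Crest.Agent.R4C.RowL2x423

variable {p a M1 : ℕ}

/-! ### the factor `V_{<x}` -/

lemma Vx_pos (M x b : ℕ) : 0 < Vx M x b := by
  refine Finset.prod_pos fun q hq => ?_
  have hq' := Nat.prime_of_mem_primeFactors (Finset.mem_filter.1 hq).1
  have h1 : (1 : ℝ) < q := by exact_mod_cast hq'.one_lt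
  have h2 : 1 / (q : ℝ) < 1 := by
    rw [div_lt_one (by linarith)]; exact h1
  linarith

/-- below (or at) the top prime the factor does not see the top prime -/
lemma Vx_top (hp : p.Prime) (hM : 0 < M1) (ha : 0 < a) {x v b : ℕ}
    (hx : x ≤ p) (hb : b ∣ M1) : Vx (p ^ a * M1) x (p ^ v * b) = Vx M1 x b := by
  have hb0 := mem_ne_zero hM hb
  unfold Vx
  rw [pf_insert hp hM ha, Finset.filter_insert, if_neg (by omega)]
  refine Finset.prod_congr ?_ fun _ _ => rfl
  ext q
  simp only [Finset.mem_filter]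
  constructor
  · rintro ⟨h1, h2, h3⟩
    have hqp : q ≠ p := by omega
    rw [fac_ne hp hb0 hqp, fac_ne hp hM.ne' hqp] at h3
    exact ⟨h1, h2, h3⟩
  · rintro ⟨h1, h2, h3⟩
    have hqp : q ≠ p := by omega
    rw [fac_ne hp hb0 hqp, fac_ne hp hM.ne' hqp]
    exact ⟨h1, h2, h3⟩

/-- `b ν(b)` is the product over all missing primes -/
lemma mul_nu {M b : ℕ} (hM : 0 < M) (hb : b ∣ M) : (b : ℝ) * nu M b =
    ∏ q ∈ M.primeFactors.filter (fun q => b.factorization q < M.factorization q),
      (1 - 1 / (q : ℝ)) := by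
  have hb0 : b ≠ 0 := (Nat.pos_of_dvd_of_pos hb hM).ne'
  have hq0 : M / b ≠ 0 := (Nat.div_pos (Nat.le_of_dvd hM hb) (Nat.pos_of_ne_zero hb0)).ne'
  have h1 : ((M / b).totient : ℝ) = ((M / b : ℕ) : ℝ) *
      ∏ q ∈ (M / b).primeFactors, (1 - (q : ℝ)⁻¹) := by
    have := Nat.totient_eq_mul_prod_factors (M / b)
    have h2 := congrArg (fun r : ℚ => (r : ℝ)) this
    push_cast at h2
    exact_mod_cast h2
  have h2 : (M / b).primeFactors =
      M.primeFactors.filter (fun q => b.factorization q < M.factorization q) := by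
    ext q
    rw [Finset.mem_filter, Nat.mem_primeFactors, Nat.mem_primeFactors]
    constructor
    · rintro ⟨hq, hd, _⟩
      have h3 : q ∣ M := hd.trans (Nat.div_dvd_of_dvd hb)
      refine ⟨⟨hq, h3, hM.ne'⟩, ?_⟩
      have h4 := (hq.dvd_iff_one_le_factorization hq0).1 hd
      rw [Nat.factorization_div hb] at h4
      simp only [Finsupp.coe_tsub, Pi.sub_apply] at h4
      omega
    · rintro ⟨⟨hq, _, _⟩, h4⟩
      refine ⟨hq, ?_, hq0⟩
      rw [hq.dvd_iff_one_le_factorization hq0, Nat.factorization_div hb]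
      simp only [Finsupp.coe_tsub, Pi.sub_apply]
      omega
  unfold nu
  rw [h1, h2]
  have hMb : ((M / b : ℕ) : ℝ) * b = M := by exact_mod_cast Nat.div_mul_cancel hb
  have hMR : (M : ℝ) ≠ 0 := by exact_mod_cast hM.ne'
  simp only [one_div]
  rw [mul_div_assoc', div_eq_iff hMR, ← hMb]
  ring

/-- at the top prime: `b ν(b) = V_{<p}(b)` for `b ∣ M1` -/
lemma mul_nu_top (hM : 0 < M1) (hmax : ∀ r, r.Prime → r ∣ M1 → r < p) {b : ℕ} (hb : b ∣ M1) :
    (b : ℝ) * nu M1 b = Vx M1 p b := by
  rw [mul_nu hM hb]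
  unfold Vx
  refine Finset.prod_congr ?_ fun _ _ => rfl
  ext q
  simp only [Finset.mem_filter]
  constructor
  · rintro ⟨h1, h2⟩
    exact ⟨h1, hmax q (Nat.prime_of_mem_primeFactors h1) (Nat.dvd_of_mem_primeFactors h1), h2⟩
  · rintro ⟨h1, _, h3⟩
    exact ⟨h1, h3⟩

open Classical in
/-- the boosted energy -/
noncomputable def SSV {M : ℕ} (F : FL M) (A : ℕ → ℕ → ℝ) (f : ℕ → ℝ) : ℝ :=
  ∑ x ∈ M.primeFactors, frm M (fun b c => if pd F x b c then
    (Vx M x b)⁻¹ * A x b * f c else 0)

open Classical in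
/-- **the boosted row theorem** (423's proof with `b ν(b) = V`) -/
theorem row_mainV : ∀ M : ℕ, 0 < M → (∀ (F : FL M) (A : ℕ → ℕ → ℝ) (f : ℕ → ℝ),
    (∀ b, 0 ≤ f b) → (∀ x b, 0 ≤ A x b) → (∀ x b, A x b ≤ f b) →
    SSV F A f ≤ ∑ b ∈ M.divisors, nu M b * Phi (f b) (RR F A b)) := by
  refine ind_max ?_ ?_
  · intro F A f hf hA hAf
    unfold SSV
    rw [Nat.primeFactors_one, Finset.sum_empty]
    exact Finset.sum_nonneg fun b _ => mul_nonneg (nu_nonneg _ _) (Phi_nonneg _ _)
  · intro p a M1 hp ha hM hnd hmax ih F A f hf hA hAf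
    have hcop : Nat.Coprime (p ^ a) M1 :=
      Nat.Coprime.pow_left a ((Nat.Prime.coprime_iff_not_dvd hp).2 hnd)
    have hMM : 0 < p ^ a * M1 := Nat.mul_pos (pow_pos hp.pos a) hM
    have hnn : ∀ v, 0 ≤ nup p a v := fun v => nup_nonneg hp.pos a v
    have hstat : ∀ v b, v ≤ a → b ∣ M1 → F.ctr (p ^ v * b) p = F.ctr 1 p := fun v b hv hb =>
      ctr_top hMM hp F (top_le_p hp hmax) (Nat.mul_dvd_mul (pow_dvd_pow p hv) hb) (one_dvd _)
    have hrhs : ∑ b ∈ (p ^ a * M1).divisors, nu (p ^ a * M1) b * Phi (f b) (RR F A b) =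
        ∑ v ∈ range (a + 1), ∑ b ∈ M1.divisors,
          nup p a v * (nu M1 b * Phi (f (p ^ v * b)) (RR F A (p ^ v * b))) := by
      rw [sum_split hp a hM hnd]
      refine Finset.sum_congr rfl fun v hv => Finset.sum_congr rfl fun b hb => ?_
      rw [Finset.mem_range] at hv
      rw [Nat.mem_divisors] at hb
      rw [nu_mul hcop (pow_dvd_pow p (by omega)) hb.1, nu_prime_pow hp (by omega), mul_assoc]
    have hlhs : SSV F A f = ∑ x ∈ insert p M1.primeFactors,
        ∑ v ∈ range (a + 1), ∑ v' ∈ range (a + 1),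
        (p : ℝ) ^ (min v v') * nup p a v * nup p a v' *
        frm M1 (fun b c => if pd F x (p ^ v * b) (p ^ v' * c) then
          (Vx M1 x b)⁻¹ * A x (p ^ v * b) * f (p ^ v' * c) else 0) := by
      unfold SSV
      rw [pf_insert hp hM ha]
      refine Finset.sum_congr rfl fun x hx => ?_
      have hxp : x ≤ p := by
        rcases Finset.mem_insert.1 hx with h | h
        · exact h.le
        · exact (hmax x (Nat.prime_of_mem_primeFactors h) (Nat.dvd_of_mem_primeFactors h)).le
      rw [frm_split hp a hM hnd]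
      refine Finset.sum_congr rfl fun v _ => Finset.sum_congr rfl fun v' _ => ?_
      congr 1
      unfold frm
      refine Finset.sum_congr rfl fun b hb => Finset.sum_congr rfl fun c _ => ?_
      dsimp only
      rw [Vx_top hp hM ha hxp (Nat.dvd_of_mem_divisors hb)]
    rw [hrhs, hlhs]
    cases hs : F.ctr 1 p with
    | none =>
      -- branched
      have hzero : ∀ v b c x, v ≤ a → b ∣ M1 → x = p → ¬ pd F x (p ^ v * b) c := by
        intro v b c x hv hb hx h
        subst hx
        have := h.2.1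
        rw [hstat v b hv hb, hs] at this
        cases this
      rw [Finset.sum_comm]
      refine Finset.sum_le_sum fun v hv => ?_
      rw [Finset.mem_range] at hv
      have hva : v ≤ a := by omega
      rw [Finset.sum_insert (p_notMem hnd)]
      have h1 : ∑ v' ∈ range (a + 1), (p : ℝ) ^ (min v v') * nup p a v * nup p a v' *
          frm M1 (fun b c => if pd F p (p ^ v * b) (p ^ v' * c) then
          (Vx M1 p b)⁻¹ * A p (p ^ v * b) * f (p ^ v' * c) else 0) ≤ 0 := by
        refine Finset.sum_nonpos fun v' _ => ?_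
        refine mul_nonpos_of_nonneg_of_nonpos (mul_nonneg (mul_nonneg (by positivity) (hnn _))
          (hnn _)) (frm_le_zero fun b c hb hc => ?_)
        rw [if_neg (hzero v b _ p hva hb rfl)]
      have h2 : ∑ x ∈ M1.primeFactors, ∑ v' ∈ range (a + 1),
          (p : ℝ) ^ (min v v') * nup p a v * nup p a v' *
          frm M1 (fun b c => if pd F x (p ^ v * b) (p ^ v' * c) then
          (Vx M1 x b)⁻¹ * A x (p ^ v * b) * f (p ^ v' * c) else 0) ≤
          (p : ℝ) ^ v * nup p a v * nup p a v *
            SSV (restr hp hM hnd F v hva) (fun x b => A x (p ^ v * b)) (fun b => f (p ^ v * b)) := by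
        unfold SSV
        rw [Finset.mul_sum]
        refine Finset.sum_le_sum fun x hx => ?_
        have hxp : x.Prime := Nat.prime_of_mem_primeFactors hx
        have hxlt : x < p := hmax x hxp (Nat.dvd_of_mem_primeFactors hx)
        rw [Finset.sum_eq_single_of_mem v (Finset.mem_range.2 hv)]
        · rw [min_self]
          refine mul_le_mul_of_nonneg_left (frm_mono fun b c hb hc => ?_)
            (mul_nonneg (mul_nonneg (by positivity) (hnn _)) (hnn _))
          by_cases h : pd F x (p ^ v * b) (p ^ v * c)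
          · have h3 := pd_branch hp hM hnd F hxlt hva hb hc (by rw [hstat v b hva hb, hs]) h
            rw [if_pos h, if_pos h3.2]
          · rw [if_neg h]
            split_ifs
            · exact mul_nonneg (mul_nonneg (inv_nonneg.2 (Vx_nonneg _ _ _)) (hA _ _)) (hf _)
            · exact le_rfl
        · intro v' hv' hne
          have e : frm M1 (fun b c => if pd F x (p ^ v * b) (p ^ v' * c) then
              (Vx M1 x b)⁻¹ * A x (p ^ v * b) * f (p ^ v' * c) else 0) = 0 := by
            unfold frm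
            refine Finset.sum_eq_zero fun b hb => Finset.sum_eq_zero fun c hc => ?_
            rw [Nat.mem_divisors] at hb hc
            dsimp only
            rw [if_neg, mul_zero]
            intro h
            exact hne (pd_branch hp hM hnd F hxlt hva hb.1 hc.1
              (by rw [hstat v b hva hb.1, hs]) h).1.symm
          rw [e, mul_zero]
      have h3 := ih (restr hp hM hnd F v hva) (fun x b => A x (p ^ v * b))
        (fun b => f (p ^ v * b)) (fun b => hf _) (fun x b => hA _ _) (fun x b => hAf _ _)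
      have hθ := theta_le hp a v hva
      have hθ0 : 0 ≤ (p : ℝ) ^ v * nup p a v := mul_nonneg (by positivity) (hnn v)
      calc _ ≤ 0 + (p : ℝ) ^ v * nup p a v * nup p a v *
            SSV (restr hp hM hnd F v hva) (fun x b => A x (p ^ v * b)) (fun b => f (p ^ v * b)) :=
            add_le_add h1 h2
        _ ≤ 0 + (p : ℝ) ^ v * nup p a v * nup p a v * ∑ b ∈ M1.divisors, nu M1 b *
            Phi (f (p ^ v * b)) (RR (restr hp hM hnd F v hva) (fun x b => A x (p ^ v * b)) b) :=
            add_le_add_right (mul_le_mul_of_nonneg_left h3 (mul_nonneg hθ0 (hnn v))) _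
        _ ≤ _ := by
          rw [zero_add, Finset.mul_sum]
          refine Finset.sum_le_sum fun b hb => ?_
          rw [Nat.mem_divisors] at hb
          have hνb := nu_nonneg M1 b
          have h4 : Phi (f (p ^ v * b))
              (RR (restr hp hM hnd F v hva) (fun x b => A x (p ^ v * b)) b) ≤
              Phi (f (p ^ v * b)) (RR F A (p ^ v * b)) := by
            refine Phi_mono (hf _) (RR_nonneg _ (fun x b => hA _ _) _) ?_
            rw [RR_restr hp hM hnd F _ hva, RR_split hp hM hnd ha F A hb.1]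
            refine le_add_of_nonneg_left ?_
            split_ifs
            · exact mul_nonneg (by positivity) (hA _ _)
            · exact le_rfl
          have h5 := Phi_nonneg (f (p ^ v * b)) (RR F A (p ^ v * b))
          calc (p : ℝ) ^ v * nup p a v * nup p a v * (nu M1 b * Phi (f (p ^ v * b))
              (RR (restr hp hM hnd F v hva) (fun x b => A x (p ^ v * b)) b))
              ≤ (p : ℝ) ^ v * nup p a v * nup p a v *
                (nu M1 b * Phi (f (p ^ v * b)) (RR F A (p ^ v * b))) :=
                mul_le_mul_of_nonneg_left (mul_le_mul_of_nonneg_left h4 hνb)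
                  (mul_nonneg hθ0 (hnn v))
            _ ≤ 1 * nup p a v * (nu M1 b * Phi (f (p ^ v * b)) (RR F A (p ^ v * b))) :=
                mul_le_mul_of_nonneg_right (mul_le_mul_of_nonneg_right hθ (hnn v))
                  (mul_nonneg hνb h5)
            _ = _ := by rw [one_mul]
    | some v0 =>
      -- passive, centre `v0`
      have hv0 : v0 ≤ a := by
        have h1 := F.le (one_dvd _) hp hs
        rwa [fac_self hp hM.ne' hnd] at h1
      have hv0m : v0 ∈ range (a + 1) := Finset.mem_range.2 (by omega)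
      set F1 := restr hp hM hnd F v0 hv0 with hF1
      set π : ℝ := (1 / (p : ℝ)) ^ v0 with hπ
      have hπ0 : 0 ≤ π := by positivity
      have hmn : ∀ v, 0 ≤ ml p a v0 v := ml_nonneg hp a v0
      have hst : ∀ v b, v ≤ a → b ∣ M1 → F.ctr (p ^ v * b) p = some v0 := fun v b hv hb =>
        (hstat v b hv hb).trans hs
      have hcoef : ∀ v v', min v v' = v0 → (p : ℝ) ^ (min v v') * nup p a v * nup p a v' =
          π * (ml p a v0 v * ml p a v0 v') := by
        intro v v' hmin
        unfold ml
        rw [if_pos (by omega), if_pos (by omega), hmin]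
        calc (p : ℝ) ^ v0 * nup p a v * nup p a v'
            = 1 * ((p : ℝ) ^ v0 * nup p a v * nup p a v') := (one_mul _).symm
          _ = (π * (p : ℝ) ^ v0) * ((p : ℝ) ^ v0 * nup p a v * nup p a v') := by
              rw [hπ, pi_mul hp]
          _ = _ := by ring
      set Ap : ℕ → ℝ := fun b => if v0 < a then A p (p ^ v0 * b) else 0 with hAp
      have hAp0 : ∀ b, 0 ≤ Ap b := by
        intro b
        simp only [hAp]
        split_ifs
        · exact hA _ _
        · exact le_rfl
      have hApf : ∀ b, Ap b ≤ f (p ^ v0 * b) := by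
        intro b
        simp only [hAp]
        split_ifs
        · exact hAf _ _
        · exact hf _
      rw [Finset.sum_insert (p_notMem hnd)]
      -- the primes below `p`
      have hlow : ∑ x ∈ M1.primeFactors, ∑ v ∈ range (a + 1), ∑ v' ∈ range (a + 1),
          (p : ℝ) ^ (min v v') * nup p a v * nup p a v' *
          frm M1 (fun b c => if pd F x (p ^ v * b) (p ^ v' * c) then
            (Vx M1 x b)⁻¹ * A x (p ^ v * b) * f (p ^ v' * c) else 0) ≤
          π * SSV F1 (fun x b => ∑ v ∈ range (a + 1), ml p a v0 v * A x (p ^ v * b))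
            (fun b => ∑ v ∈ range (a + 1), ml p a v0 v * f (p ^ v * b)) := by
        unfold SSV
        rw [Finset.mul_sum]
        refine Finset.sum_le_sum fun x hx => ?_
        have hxp : x.Prime := Nat.prime_of_mem_primeFactors hx
        have hxlt : x < p := hmax x hxp (Nat.dvd_of_mem_primeFactors hx)
        have e0 : (fun b c => if pd F1 x b c then (Vx M1 x b)⁻¹ *
            (∑ v ∈ range (a + 1), ml p a v0 v * A x (p ^ v * b)) *
            (∑ v ∈ range (a + 1), ml p a v0 v * f (p ^ v * c)) else 0) =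
            (fun b c => if pd F1 x b c then
            (∑ v ∈ range (a + 1), ml p a v0 v * ((Vx M1 x b)⁻¹ * A x (p ^ v * b))) *
            (∑ v ∈ range (a + 1), ml p a v0 v * f (p ^ v * c)) else 0) := by
          funext b c
          split_ifs
          · congr 1
            rw [Finset.mul_sum]
            exact Finset.sum_congr rfl fun v _ => by ring
          · rfl
        rw [e0, ← frm_avg2 (range (a + 1)) (ml p a v0)
          (fun v b => (Vx M1 x b)⁻¹ * A x (p ^ v * b))
          (fun v b => f (p ^ v * b)) (pd F1 x)]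
        rw [Finset.mul_sum]
        refine Finset.sum_le_sum fun v hv => ?_
        rw [Finset.mul_sum]
        refine Finset.sum_le_sum fun v' hv' => ?_
        rw [Finset.mem_range] at hv hv'
        have hva : v ≤ a := by omega
        by_cases hmin : min v v' = v0
        · rw [hcoef v v' hmin, mul_assoc]
          refine mul_le_mul_of_nonneg_left (mul_le_mul_of_nonneg_left (frm_mono fun b c hb hc => ?_)
            (mul_nonneg (hmn v) (hmn v'))) hπ0
          by_cases h : pd F x (p ^ v * b) (p ^ v' * c)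
          · rw [if_pos h, if_pos (pd_passive hp hM hnd F hxlt hxp hva hv0 hb hc (hst v b hva hb) h).2]
          · rw [if_neg h]
            split_ifs
            · exact mul_nonneg (mul_nonneg (inv_nonneg.2 (Vx_nonneg _ _ _)) (hA _ _)) (hf _)
            · exact le_rfl
        · have e : frm M1 (fun b c => if pd F x (p ^ v * b) (p ^ v' * c) then
              (Vx M1 x b)⁻¹ * A x (p ^ v * b) * f (p ^ v' * c) else 0) = 0 := by
            unfold frm
            refine Finset.sum_eq_zero fun b hb => Finset.sum_eq_zero fun c hc => ?_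
            rw [Nat.mem_divisors] at hb hc
            dsimp only
            rw [if_neg, mul_zero]
            intro h
            exact hmin (pd_passive hp hM hnd F hxlt hxp hva hv0 hb.1 hc.1 (hst v b hva hb.1) h).1
          rw [e, mul_zero]
          refine mul_nonneg hπ0 (mul_nonneg (mul_nonneg (hmn v) (hmn v')) (frm_nonneg fun b c _ _ => ?_))
          split_ifs
          · exact mul_nonneg (mul_nonneg (inv_nonneg.2 (Vx_nonneg _ _ _)) (hA _ _)) (hf _)
          · exact le_rfl
      -- the prime `p`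
      have hfz : ∀ v v', v ≤ a → ¬ (v = v0 ∧ v < v') →
          frm M1 (fun b c => if pd F p (p ^ v * b) (p ^ v' * c) then
              (Vx M1 p b)⁻¹ * A p (p ^ v * b) * f (p ^ v' * c) else 0) = 0 := by
        intro v v' hva hne
        unfold frm
        refine Finset.sum_eq_zero fun b hb => Finset.sum_eq_zero fun c hc => ?_
        rw [Nat.mem_divisors] at hb hc
        dsimp only
        rw [if_neg, mul_zero]
        intro h
        obtain ⟨_, h2, h3⟩ := pd_top hp hM hnd hmax F hb.1 hc.1 h
        rw [hst v b hva hb.1] at h2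
        cases h2
        exact hne ⟨rfl, h3⟩
      have htop : ∑ v ∈ range (a + 1), ∑ v' ∈ range (a + 1),
          (p : ℝ) ^ (min v v') * nup p a v * nup p a v' *
          frm M1 (fun b c => if pd F p (p ^ v * b) (p ^ v' * c) then
            (Vx M1 p b)⁻¹ * A p (p ^ v * b) * f (p ^ v' * c) else 0) ≤
          π * ∑ b ∈ M1.divisors, nu M1 b * (ml p a v0 v0 * Ap b *
            ∑ v' ∈ (range (a + 1)).erase v0, ml p a v0 v' * f (p ^ v' * b)) := by
        rw [Finset.sum_eq_single_of_mem v0 hv0m]
        · have e1 : π * ∑ b ∈ M1.divisors, nu M1 b * (ml p a v0 v0 * Ap b *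
              ∑ v' ∈ (range (a + 1)).erase v0, ml p a v0 v' * f (p ^ v' * b)) =
              ∑ v' ∈ (range (a + 1)).erase v0, π * (ml p a v0 v0 * ml p a v0 v') *
                ∑ b ∈ M1.divisors, nu M1 b * (Ap b * f (p ^ v' * b)) := by
            simp only [Finset.mul_sum]
            rw [Finset.sum_comm]
            refine Finset.sum_congr rfl fun v' _ => Finset.sum_congr rfl fun b _ => by ring
          rw [e1, ← Finset.add_sum_erase _ _ hv0m, hfz v0 v0 hv0 (by omega), mul_zero, zero_add]
          refine Finset.sum_le_sum fun v' hv' => ?_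
          have hv'a : v' ≤ a := by
            have := Finset.mem_range.1 (Finset.mem_of_mem_erase hv')
            omega
          have hrn : 0 ≤ ∑ b ∈ M1.divisors, nu M1 b * (Ap b * f (p ^ v' * b)) :=
            Finset.sum_nonneg fun b _ => mul_nonneg (nu_nonneg _ _) (mul_nonneg (hAp0 _) (hf _))
          by_cases hlt : v0 < v'
          · rw [hcoef v0 v' (min_eq_left hlt.le)]
            refine mul_le_mul_of_nonneg_left ?_ (mul_nonneg hπ0 (mul_nonneg (hmn _) (hmn _)))
            have hAe : ∀ b, A p (p ^ v0 * b) = Ap b := fun b => by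
              simp only [hAp]
              rw [if_pos (by omega)]
            have h1 : frm M1 (fun b c => if pd F p (p ^ v0 * b) (p ^ v' * c) then
                (Vx M1 p b)⁻¹ * A p (p ^ v0 * b) * f (p ^ v' * c) else 0) ≤
                frm M1 (fun b c => if b = c then (Vx M1 p b)⁻¹ * Ap b * f (p ^ v' * c) else 0) := by
              refine frm_mono fun b c hb hc => ?_
              by_cases h : pd F p (p ^ v0 * b) (p ^ v' * c)
              · rw [if_pos h, if_pos (pd_top hp hM hnd hmax F hb hc h).1, hAe]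
              · rw [if_neg h]
                split_ifs
                · exact mul_nonneg (mul_nonneg (inv_nonneg.2 (Vx_nonneg _ _ _)) (hAp0 _)) (hf _)
                · exact le_rfl
            refine h1.trans ?_
            rw [frm_diag (fun b c => (Vx M1 p b)⁻¹ * Ap b * f (p ^ v' * c))]
            refine Finset.sum_le_sum fun b hb => ?_
            rw [Nat.mem_divisors] at hb
            have h2 := mul_nu_top hM hmax hb.1
            have h3 := Vx_pos M1 p b
            refine le_of_eq ?_
            rw [h2]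
            field_simp
          · rw [hfz v0 v' hv0 (by omega), mul_zero]
            exact mul_nonneg (mul_nonneg hπ0 (mul_nonneg (hmn _) (hmn _))) hrn
        · intro v hv hne
          refine Finset.sum_eq_zero fun v' _ => ?_
          rw [hfz v v' (by have := Finset.mem_range.1 hv; omega) (fun h => hne h.1), mul_zero]
      have hih := ih F1 (fun x b => ∑ v ∈ range (a + 1), ml p a v0 v * A x (p ^ v * b))
        (fun b => ∑ v ∈ range (a + 1), ml p a v0 v * f (p ^ v * b))
        (fun b => Finset.sum_nonneg fun v _ => mul_nonneg (hmn v) (hf _))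
        (fun x b => Finset.sum_nonneg fun v _ => mul_nonneg (hmn v) (hA _ _))
        (fun x b => Finset.sum_le_sum fun v _ => mul_le_mul_of_nonneg_left (hAf _ _) (hmn v))
      have hp2 : (1 : ℝ) / p ≤ 1 / 2 := one_div_le_one_div_of_le (by norm_num)
        (by exact_mod_cast hp.two_le)
      refine (add_le_add htop (hlow.trans (mul_le_mul_of_nonneg_left hih hπ0))).trans ?_
      rw [← mul_add, ← Finset.sum_add_distrib, Finset.sum_comm, Finset.mul_sum]
      refine Finset.sum_le_sum fun b hb => ?_
      rw [Nat.mem_divisors] at hb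
      have hνb := nu_nonneg M1 b
      -- the row sums
      have hRR : RR F1 (fun x b => ∑ v ∈ range (a + 1), ml p a v0 v * A x (p ^ v * b)) b =
          ∑ v ∈ range (a + 1), ml p a v0 v * RR F A (p ^ v * b) -
            ml p a v0 v0 * (1 / (p : ℝ) * Ap b) := by
        rw [hF1, RR_restr hp hM hnd F _ hv0]
        have e1 : ∑ v ∈ range (a + 1), ml p a v0 v * RR F A (p ^ v * b) =
            ∑ v ∈ range (a + 1), ml p a v0 v *
              (if F.ctr (p ^ v * b) p = some v ∧ v < a then 1 / (p : ℝ) * A p (p ^ v * b) else 0) +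
            ∑ v ∈ range (a + 1), ml p a v0 v * ∑ x ∈ M1.primeFactors,
              (if F.ctr (p ^ v0 * b) x = some (b.factorization x) ∧
              b.factorization x < M1.factorization x
              then 1 / (x : ℝ) * A x (p ^ v * b) else 0) := by
          rw [← Finset.sum_add_distrib]
          refine Finset.sum_congr rfl fun v hv => ?_
          have hva : v ≤ a := by have := Finset.mem_range.1 hv; omega
          rw [RR_split hp hM hnd ha F A hb.1, mul_add]
          congr 2
          refine Finset.sum_congr rfl fun x hx => ?_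
          rw [ctr_passive hp hM F hva hv0 hb.1 (Nat.prime_of_mem_primeFactors hx)
            (hst v b hva hb.1)]
        have e2 : ∑ v ∈ range (a + 1), ml p a v0 v *
              (if F.ctr (p ^ v * b) p = some v ∧ v < a then 1 / (p : ℝ) * A p (p ^ v * b) else 0) =
            ml p a v0 v0 * (1 / (p : ℝ) * Ap b) := by
          rw [Finset.sum_eq_single_of_mem v0 hv0m]
          · simp only [hAp]
            by_cases hva : v0 < a
            · rw [if_pos ⟨hst v0 b hv0 hb.1, hva⟩, if_pos hva]
            · rw [if_neg (fun h => hva h.2), if_neg hva, mul_zero, mul_zero, mul_zero]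
          · intro v hv hne
            have hva : v ≤ a := by have := Finset.mem_range.1 hv; omega
            rw [if_neg, mul_zero]
            rw [hst v b hva hb.1]
            intro h
            exact hne (Option.some.inj h.1).symm
        rw [e1, e2, add_sub_cancel_left]
        simp only [Finset.mul_sum]
        rw [Finset.sum_comm]
        refine Finset.sum_congr rfl fun x _ => ?_
        split_ifs with h
        · exact Finset.sum_congr rfl fun v _ => by ring
        · simp
      have hstep := step_sum (range (a + 1)) (ml p a v0) (fun v => f (p ^ v * b))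
        (fun v => RR F A (p ^ v * b)) hv0m (fun v _ => hmn v) (sum_ml hp hv0) hp2
        (ml_self_ge hp hv0) (fun v => hf _) (fun v => RR_nonneg F hA _) (hAp0 b)
        (hApf b) (by
          rw [RR_split hp hM hnd ha F A hb.1]
          have h1 : 1 / (p : ℝ) * Ap b ≤ (if F.ctr (p ^ v0 * b) p = some v0 ∧ v0 < a then
              1 / (p : ℝ) * A p (p ^ v0 * b) else 0) := by
            simp only [hAp]
            by_cases hva : v0 < a
            · rw [if_pos hva, if_pos ⟨hst v0 b hv0 hb.1, hva⟩]
            · rw [if_neg hva, if_neg (fun h => hva h.2), mul_zero]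
          refine h1.trans (le_add_of_nonneg_right (Finset.sum_nonneg fun x _ => ?_))
          split_ifs
          · exact mul_nonneg (by positivity) (hA _ _)
          · exact le_rfl)
      rw [hRR]
      calc π * (nu M1 b * (ml p a v0 v0 * Ap b *
            ∑ v' ∈ (range (a + 1)).erase v0, ml p a v0 v' * f (p ^ v' * b)) +
            nu M1 b * Phi (∑ v ∈ range (a + 1), ml p a v0 v * f (p ^ v * b))
              (∑ v ∈ range (a + 1), ml p a v0 v * RR F A (p ^ v * b) -
                ml p a v0 v0 * (1 / (p : ℝ) * Ap b)))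
          = (π * nu M1 b) * (Phi (∑ v ∈ range (a + 1), ml p a v0 v * f (p ^ v * b))
              (∑ v ∈ range (a + 1), ml p a v0 v * RR F A (p ^ v * b) -
                ml p a v0 v0 * (1 / (p : ℝ) * Ap b)) +
              ml p a v0 v0 * Ap b *
            ∑ v' ∈ (range (a + 1)).erase v0, ml p a v0 v' * f (p ^ v' * b)) := by ring
        _ ≤ (π * nu M1 b) * ∑ v ∈ range (a + 1),
              ml p a v0 v * Phi (f (p ^ v * b)) (RR F A (p ^ v * b)) :=
            mul_le_mul_of_nonneg_left hstep (mul_nonneg hπ0 hνb)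
        _ ≤ _ := by
            rw [Finset.mul_sum]
            refine Finset.sum_le_sum fun v _ => ?_
            have h1 := pi_ml_le hp a v0 v
            have h2 := Phi_nonneg (f (p ^ v * b)) (RR F A (p ^ v * b))
            calc π * nu M1 b * (ml p a v0 v * Phi (f (p ^ v * b)) (RR F A (p ^ v * b)))
                = (π * ml p a v0 v) * (nu M1 b * Phi (f (p ^ v * b)) (RR F A (p ^ v * b))) := by
                  ring
              _ ≤ _ := mul_le_mul_of_nonneg_right h1 (mul_nonneg hνb h2)


/-! ### User forms, member without `x` -/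

/-- weights `α x b ∈ [0,1]` with row sums `≤ ρ` -/
theorem row_energyV {M : ℕ} (hM : 0 < M) (F : FL M) (α : ℕ → ℕ → ℝ) (f : ℕ → ℝ) {ρ : ℝ}
    (hf : ∀ b, 0 ≤ f b) (h0 : ∀ x b, 0 ≤ α x b) (h1 : ∀ x b, α x b ≤ 1)
    (hr : ∀ b, b ∣ M → RR F α b ≤ ρ) :
    SSV F (fun x b => α x b * f b) f ≤
      (1 / 2 + 3 / 4 * (1 + ρ) ^ 2) * ∑ b ∈ M.divisors, nu M b * f b ^ 2 := by
  refine (row_mainV M hM F _ f hf (fun x b => mul_nonneg (h0 x b) (hf b))
    (fun x b => mul_le_of_le_one_left (hf b) (h1 x b))).trans ?_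
  rw [Finset.mul_sum]
  refine Finset.sum_le_sum fun b hb => ?_
  rw [Nat.mem_divisors] at hb
  rw [RR_mul]
  have h2 := hr b hb.1
  have h3 := RR_nonneg F h0 b
  have h4 : (1 + RR F α b) ^ 2 ≤ (1 + ρ) ^ 2 := pow_le_pow_left₀ (by linarith) (by linarith) 2
  have e : Phi (f b) (RR F α b * f b) = (1 / 2 + 3 / 4 * (1 + RR F α b) ^ 2) * f b ^ 2 := by
    unfold Phi; ring
  rw [e]
  calc nu M b * ((1 / 2 + 3 / 4 * (1 + RR F α b) ^ 2) * f b ^ 2)
      ≤ nu M b * ((1 / 2 + 3 / 4 * (1 + ρ) ^ 2) * f b ^ 2) :=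
        mul_le_mul_of_nonneg_left (mul_le_mul_of_nonneg_right (by linarith) (sq_nonneg _))
          (nu_nonneg _ _)
    _ = _ := by ring

lemma l2_zero {M : ℕ} (hM : 0 < M) {f : ℕ → ℝ} (h : ∑ b ∈ M.divisors, nu M b * f b ^ 2 = 0)
    {b : ℕ} (hb : b ∣ M) : f b = 0 := by
  have h1 := (Finset.sum_eq_zero_iff_of_nonneg (fun b _ =>
    mul_nonneg (nu_nonneg M b) (sq_nonneg (f b)))).1 h b (Nat.mem_divisors.2 ⟨hb, hM.ne'⟩)
  rcases mul_eq_zero.1 h1 with h2 | h2
  · exact absurd h2 (nu_pos hM hb).ne'
  · exact pow_eq_zero_iff (two_ne_zero) |>.1 h2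

/-- bilinear form of the side without `x` -/
theorem row_bilinV {M : ℕ} (hM : 0 < M) (F : FL M) (α : ℕ → ℕ → ℝ) (f g : ℕ → ℝ) {ρ : ℝ}
    (hρ : 0 ≤ ρ)
    (hf : ∀ b, 0 ≤ f b) (hg : ∀ b, 0 ≤ g b) (h0 : ∀ x b, 0 ≤ α x b) (h1 : ∀ x b, α x b ≤ 1)
    (hr : ∀ b, b ∣ M → RR F α b ≤ ρ) :
    SSV F (fun x b => α x b * f b) g ≤
      (2 + 3 * (1 + ρ) ^ 2) * (Real.sqrt (∑ b ∈ M.divisors, nu M b * f b ^ 2) *
        Real.sqrt (∑ b ∈ M.divisors, nu M b * g b ^ 2)) := by
  set Nf := ∑ b ∈ M.divisors, nu M b * f b ^ 2 with hNf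
  set Ng := ∑ b ∈ M.divisors, nu M b * g b ^ 2 with hNg
  have hNf0 : 0 ≤ Nf := Finset.sum_nonneg fun b _ => mul_nonneg (nu_nonneg _ _) (sq_nonneg _)
  have hNg0 : 0 ≤ Ng := Finset.sum_nonneg fun b _ => mul_nonneg (nu_nonneg _ _) (sq_nonneg _)
  have hrhs : 0 ≤ (2 + 3 * (1 + ρ) ^ 2) * (Real.sqrt Nf * Real.sqrt Ng) := by positivity
  -- the energy vanishes if `f = 0` or `g = 0`
  have hz : (∀ b, b ∣ M → f b = 0) ∨ (∀ b, b ∣ M → g b = 0) →
      SSV F (fun x b => α x b * f b) g ≤ 0 := by
    intro h
    unfold SSV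
    refine Finset.sum_nonpos fun x _ => frm_le_zero fun b c hb hc => ?_
    split_ifs
    · rcases h with h | h
      · simp only [h b hb, mul_zero, zero_mul, le_refl]
      · rw [h c hc, mul_zero]
    · exact le_rfl
  rcases hNf0.eq_or_lt with h | hNfp
  · exact (hz (Or.inl fun b hb => l2_zero hM (by rw [← hNf]; exact h.symm) hb)).trans hrhs
  rcases hNg0.eq_or_lt with h | hNgp
  · exact (hz (Or.inr fun b hb => l2_zero hM (by rw [← hNg]; exact h.symm) hb)).trans hrhs
  -- scaling
  set u := Real.sqrt Nf with hu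
  set v := Real.sqrt Ng with hv
  have hu0 : 0 < u := Real.sqrt_pos.2 hNfp
  have hv0 : 0 < v := Real.sqrt_pos.2 hNgp
  have huu : u ^ 2 = Nf := Real.sq_sqrt hNf0
  have hvv : v ^ 2 = Ng := Real.sq_sqrt hNg0
  set h : ℕ → ℝ := fun b => u⁻¹ * f b + v⁻¹ * g b with hh
  have hui : 0 < u⁻¹ := inv_pos.2 hu0
  have hvi : 0 < v⁻¹ := inv_pos.2 hv0
  have hh0 : ∀ b, 0 ≤ h b := fun b => add_nonneg (mul_nonneg hui.le (hf b))
    (mul_nonneg hvi.le (hg b))
  have e1 : (u⁻¹ * v⁻¹) * SSV F (fun x b => α x b * f b) g ≤ SSV F (fun x b => α x b * h b) h := by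
    unfold SSV
    rw [Finset.mul_sum]
    refine Finset.sum_le_sum fun x _ => ?_
    rw [← frm_smul]
    refine PureL2x232.frm_mono fun b c _ _ => ?_
    beta_reduce
    split_ifs
    · have e2 : (u⁻¹ * f b) * (v⁻¹ * g c) ≤ h b * h c := by
        refine mul_le_mul ?_ ?_ (mul_nonneg hvi.le (hg c)) (hh0 b)
        · simp only [hh]
          linarith [mul_nonneg hvi.le (hg b)]
        · simp only [hh]
          linarith [mul_nonneg hui.le (hf c)]
      have e3 : 0 ≤ (Vx M x b)⁻¹ * α x b := mul_nonneg (inv_nonneg.2 (Vx_nonneg _ _ _)) (h0 x b)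
      calc (u⁻¹ * v⁻¹) * ((Vx M x b)⁻¹ * (α x b * f b) * g c)
          = ((Vx M x b)⁻¹ * α x b) * ((u⁻¹ * f b) * (v⁻¹ * g c)) := by ring
        _ ≤ ((Vx M x b)⁻¹ * α x b) * (h b * h c) := mul_le_mul_of_nonneg_left e2 e3
        _ = _ := by ring
    · rw [mul_zero]
  have e4 := e1.trans (row_energyV hM F α h hh0 h0 h1 hr)
  have e5 : ∑ b ∈ M.divisors, nu M b * h b ^ 2 ≤ 4 := by
    have e6 : ∀ b ∈ M.divisors, nu M b * h b ^ 2 ≤
        2 * (u⁻¹ ^ 2 * (nu M b * f b ^ 2)) + 2 * (v⁻¹ ^ 2 * (nu M b * g b ^ 2)) := by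
      intro b _
      have h2 := nu_nonneg M b
      have h3 : h b ^ 2 ≤ 2 * (u⁻¹ * f b) ^ 2 + 2 * (v⁻¹ * g b) ^ 2 := by
        simp only [hh]
        nlinarith [sq_nonneg (u⁻¹ * f b - v⁻¹ * g b)]
      calc nu M b * h b ^ 2 ≤ nu M b * (2 * (u⁻¹ * f b) ^ 2 + 2 * (v⁻¹ * g b) ^ 2) :=
            mul_le_mul_of_nonneg_left h3 h2
        _ = _ := by ring
    refine (Finset.sum_le_sum e6).trans ?_
    rw [Finset.sum_add_distrib, ← Finset.mul_sum, ← Finset.mul_sum, ← Finset.mul_sum,
      ← Finset.mul_sum, ← hNf, ← hNg, ← huu, ← hvv]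
    have a1 : u⁻¹ ^ 2 * u ^ 2 = 1 := by rw [← mul_pow, inv_mul_cancel₀ hu0.ne', one_pow]
    have a2 : v⁻¹ ^ 2 * v ^ 2 = 1 := by rw [← mul_pow, inv_mul_cancel₀ hv0.ne', one_pow]
    rw [a1, a2]
    norm_num
  have hc0 : 0 ≤ 1 / 2 + 3 / 4 * (1 + ρ) ^ 2 := by positivity
  have e7 := e4.trans (mul_le_mul_of_nonneg_left e5 hc0)
  have e8 : SSV F (fun x b => α x b * f b) g =
      (u * v) * ((u⁻¹ * v⁻¹) * SSV F (fun x b => α x b * f b) g) := by
    rw [← mul_assoc]
    have : u * v * (u⁻¹ * v⁻¹) = 1 := by field_simp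
    rw [this, one_mul]
  rw [e8]
  calc (u * v) * ((u⁻¹ * v⁻¹) * SSV F (fun x b => α x b * f b) g)
      ≤ (u * v) * ((1 / 2 + 3 / 4 * (1 + ρ) ^ 2) * 4) :=
        mul_le_mul_of_nonneg_left e7 (by positivity)
    _ = _ := by ring

/-! ### Member with `x` -/

open RowPx823 in
/-- mass of the class at `x`, with the factor `V_{<x}` -/
lemma mu_le_V {M : ℕ} {F : FL M} (hM : 0 < M) {x b c : ℕ} (hb : b ∣ M) (hc : c ∣ M)
    (h : PureFrom F x b c) :
    mu M.divisors (nu M) (Cls F) x b ≤ Vx M x b / (Nat.gcd b c : ℝ) := by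
  classical
  have hb0 : b ≠ 0 := (Nat.pos_of_dvd_of_pos hb hM).ne'
  have hc0 : c ≠ 0 := (Nat.pos_of_dvd_of_pos hc hM).ne'
  rcases Nat.eq_zero_or_pos x with hx | hx
  · -- no prime below `x`
    subst hx
    have h1 : Vx M 0 b = 1 := by
      unfold Vx
      rw [Finset.filter_false_of_mem (fun q _ hq => absurd hq.1 (Nat.not_lt_zero q)),
        Finset.prod_empty]
    rw [h1]
    refine le_trans ?_ (Lawx69.prob_dvd_le hM (Nat.gcd b c))
    unfold mu
    refine Finset.sum_le_sum_of_subset_of_nonneg ?_ fun d _ _ => nu_nonneg M d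
    intro d hd
    rw [Finset.mem_filter] at hd ⊢
    exact ⟨hd.1, gcd_dvd_cls hM hb hc h hd.2⟩
  · set y := x - 1 with hy
    have hlow : low y b = low y c := by
      refine Nat.eq_of_factorization_eq (low_pos _ _).ne' (low_pos _ _).ne' fun q => ?_
      rw [fact_low, fact_low]
      by_cases hq : q ≤ y
      · rw [if_pos hq, if_pos hq]
        by_cases hqp : q.Prime
        · exact (h q hqp).1 (by omega)
        · rw [Nat.factorization_eq_zero_of_not_prime _ hqp,
            Nat.factorization_eq_zero_of_not_prime _ hqp]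
      · rw [if_neg hq, if_neg hq]
    set gu := Nat.gcd (upp y b) (upp y c) with hgu
    have hgcd : Nat.gcd b c = low y b * gu := by
      have h1 := gcd_cut (M := M) (M' := M) (fun p => p ≤ y) (low_dvd y hM.ne' hb)
        (upp_dvd y hM.ne' hb) (low_dvd y hM.ne' hc) (upp_dvd y hM.ne' hc)
      rw [low_mul_upp y hb0, low_mul_upp y hc0, ← hlow, Nat.gcd_self] at h1
      exact h1
    -- bound by the two parts
    have h2 : mu M.divisors (nu M) (Cls F) x b ≤ ∑ d ∈ M.divisors,
        if low y d = low y b ∧ gu ∣ upp y d then nu M d else 0 := by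
      unfold mu
      rw [Finset.sum_filter]
      refine Finset.sum_le_sum fun d hd => ?_
      have hdM := Nat.dvd_of_mem_divisors hd
      by_cases hcl : Cls F x b d
      · rw [if_pos hcl, if_pos]
        refine ⟨?_, ?_⟩
        · refine Nat.eq_of_factorization_eq (low_pos _ _).ne' (low_pos _ _).ne' fun q => ?_
          rw [fact_low, fact_low]
          by_cases hq : q ≤ y
          · rw [if_pos hq, if_pos hq]
            by_cases hqp : q.Prime
            · exact ((hcl.2.2 q hqp).1 (by omega)).symm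
            · rw [Nat.factorization_eq_zero_of_not_prime _ hqp,
                Nat.factorization_eq_zero_of_not_prime _ hqp]
          · rw [if_neg hq, if_neg hq]
        · have h3 : gu ∣ d := (Dvd.intro_left _ hgcd.symm).trans (gcd_dvd_cls hM hb hc h hcl)
          have hd0 : d ≠ 0 := (Nat.pos_of_dvd_of_pos hdM hM).ne'
          rw [← low_mul_upp y hd0] at h3
          refine Nat.Coprime.dvd_of_dvd_mul_left ?_ h3
          refine Nat.Coprime.coprime_dvd_left (Nat.gcd_dvd_left _ _) ?_
          exact (coprime_part (S := fun p => p ≤ y) d b).symm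
      · rw [if_neg hcl]
        split_ifs
        · exact nu_nonneg M d
        · exact le_rfl
    refine h2.trans ?_
    rw [sum_low_upp hM y, Finset.sum_comm]
    have hlb : low y b ∈ (low y M).divisors :=
      Nat.mem_divisors.2 ⟨low_dvd y hM.ne' hb, (low_pos y M).ne'⟩
    have h3 : ∑ n ∈ (low y M).divisors, ∑ T ∈ (upp y M).divisors,
        (if low y (n * T) = low y b ∧ gu ∣ upp y (n * T) then nu M (n * T) else 0) =
        nu (low y M) (low y b) * ∑ T ∈ (upp y M).divisors with gu ∣ T, nu (upp y M) T := by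
      rw [Finset.sum_eq_single_of_mem _ hlb]
      · rw [Finset.mul_sum, Finset.sum_filter]
        refine Finset.sum_congr rfl fun T hT => ?_
        have hT' := Nat.dvd_of_mem_divisors hT
        have hn' := Nat.dvd_of_mem_divisors hlb
        rw [low_of_mul hn' hT', upp_of_mul hn' hT', nu_low_upp hM hn' hT']
        by_cases hg : gu ∣ T
        · rw [if_pos ⟨rfl, hg⟩, if_pos hg]
        · rw [if_neg (fun hh => hg hh.2), if_neg hg]
      · intro n hn hne
        refine Finset.sum_eq_zero fun T hT => ?_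
        rw [if_neg]
        intro hh
        apply hne
        rw [← hh.1, low_of_mul (Nat.dvd_of_mem_divisors hn) (Nat.dvd_of_mem_divisors hT)]
    rw [h3]
    have h4 := Lawx69.prob_dvd_le (upp_pos y M) gu
    have h5 : (low y b : ℝ) * nu (low y M) (low y b) = Vx M x b := by
      rw [mul_nu (low_pos y M) (low_dvd y hM.ne' hb)]
      unfold Vx
      refine Finset.prod_congr ?_ fun _ _ => rfl
      ext q
      simp only [Finset.mem_filter, Nat.mem_primeFactors]
      constructor
      · rintro ⟨⟨hq, hd, _⟩, hlt⟩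
        have hqy : q ≤ y := prime_dvd_part (S := fun p => p ≤ y) hq hd
        rw [fact_low, fact_low, if_pos hqy, if_pos hqy] at hlt
        exact ⟨⟨hq, hd.trans (low_dvd_self y M), hM.ne'⟩, by omega, hlt⟩
      · rintro ⟨⟨hq, hd, _⟩, hqx, hlt⟩
        have hqy : q ≤ y := by omega
        refine ⟨⟨hq, ?_, (low_pos y M).ne'⟩, ?_⟩
        · rw [hq.dvd_iff_one_le_factorization (low_pos y M).ne', fact_low, if_pos hqy]
          omega
        · rw [fact_low, fact_low, if_pos hqy, if_pos hqy]
          exact hlt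
    have hgu0 : 0 < gu := Nat.gcd_pos_of_pos_left _ (upp_pos y b)
    have hl0 : (0 : ℝ) < low y b := by exact_mod_cast low_pos y b
    have hg0 : (0 : ℝ) < gu := by exact_mod_cast hgu0
    have e : Vx M x b / (Nat.gcd b c : ℝ) = nu (low y M) (low y b) * (1 / (gu : ℝ)) := by
      rw [hgcd, ← h5]
      push_cast
      field_simp
    rw [e]
    exact mul_le_mul_of_nonneg_left h4 (nu_nonneg _ _)

open Classical RowPx823 in
/-- **boosted row lemma, member WITH `x`, arbitrary weights** -/
theorem row_presentV {M : ℕ} {F : FL M} (hM : 0 < M) (s : Finset ℕ) (h : ℕ → ℕ → ℝ)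
    (hh : ∀ x ∈ s, ∀ b, b ∣ M → 0 ≤ h x b) (f : ℕ → ℝ) (hf : ∀ b, b ∣ M → 0 ≤ f b) :
    ∑ x ∈ s, frm M (fun b c => if PureFrom F x b c then (Vx M x b)⁻¹ * (f b * h x c) else 0) ≤
      2 * (Real.sqrt (∑ b ∈ M.divisors, nu M b * f b ^ 2) *
        Real.sqrt (∑ b ∈ M.divisors, nu M b * (∑ x ∈ s, h x b) ^ 2)) := by
  have hmain := row_abs (D := M.divisors) (ν := nu M) (E := Cls F)
    (fun b _ => nu_nonneg M b) cls_symm cls_trans cls_nest cls_dom s h
    (fun x hx b hb => hh x hx b (Nat.dvd_of_mem_divisors hb)) f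
  refine le_trans (Finset.sum_le_sum fun x hx => ?_) hmain
  unfold frm
  refine Finset.sum_le_sum fun b hb => ?_
  have hbM := Nat.dvd_of_mem_divisors hb
  unfold cx
  rw [← mul_div_assoc, Finset.mul_sum, Finset.sum_div, Finset.sum_filter]
  refine Finset.sum_le_sum fun c hc => ?_
  have hcM := Nat.dvd_of_mem_divisors hc
  have hνb := nu_nonneg M b
  have hνc := nu_nonneg M c
  have hfb := hf b hbM
  have hhc := hh x hx c hcM
  beta_reduce
  by_cases hp : PureFrom F x b c
  · have hcls := cls_of_pure hbM hcM hp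
    rw [if_pos hp, if_pos hcls]
    have hνc' : 0 < nu M c := nu_pos hM hcM
    have hmu : 0 < mu M.divisors (nu M) (Cls F) x b := by
      refine lt_of_lt_of_le hνc' ?_
      exact Finset.single_le_sum (f := nu M) (fun d _ => nu_nonneg M d)
        (Finset.mem_filter.2 ⟨hc, hcls⟩)
    have hg0 : 0 < Nat.gcd b c :=
      Nat.gcd_pos_of_pos_left _ (Nat.pos_of_dvd_of_pos hbM hM)
    have hmu1 := mu_le_V hM hbM hcM hp
    have hV := Vx_pos M x b
    have hgR : (0:ℝ) < (Nat.gcd b c : ℝ) := by exact_mod_cast hg0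
    have h1 : (Nat.gcd b c : ℝ) * (Vx M x b)⁻¹ ≤ 1 / mu M.divisors (nu M) (Cls F) x b := by
      rw [le_div_iff₀ hmu]
      rw [le_div_iff₀ hgR] at hmu1
      calc (Nat.gcd b c : ℝ) * (Vx M x b)⁻¹ * mu M.divisors (nu M) (Cls F) x b
          = (mu M.divisors (nu M) (Cls F) x b * (Nat.gcd b c : ℝ)) * (Vx M x b)⁻¹ := by ring
        _ ≤ Vx M x b * (Vx M x b)⁻¹ :=
            mul_le_mul_of_nonneg_right hmu1 (inv_nonneg.2 hV.le)
        _ = 1 := mul_inv_cancel₀ hV.ne'
    calc (Nat.gcd b c : ℝ) * nu M b * nu M c * ((Vx M x b)⁻¹ * (f b * h x c))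
        = ((Nat.gcd b c : ℝ) * (Vx M x b)⁻¹) * (nu M b * f b * (nu M c * h x c)) := by ring
      _ ≤ (1 / mu M.divisors (nu M) (Cls F) x b) * (nu M b * f b * (nu M c * h x c)) :=
          mul_le_mul_of_nonneg_right h1 (by positivity)
      _ = _ := by ring
  · rw [if_neg hp, mul_zero]
    split_ifs
    · refine div_nonneg (by positivity) (mu_nonneg (fun d _ => nu_nonneg M d) _ _)
    · exact le_rfl

/-- `pd` is pure from `x` on -/
lemma pureFrom_of_pd {M : ℕ} {F : FL M} {x b c : ℕ} (h : pd F x b c) :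
    RowPx823.PureFrom F x b c := by
  obtain ⟨h1, h2, h3, h4, h5⟩ := h
  refine fun q hq => ⟨h1 q hq, fun hxq => ⟨fun hn => ?_, fun v hv => ?_⟩⟩
  · rcases hxq.eq_or_lt with h6 | h6
    · subst h6
      rw [h2] at hn
      cases hn
    · exact h4 q hq h6 hn
  · rcases hxq.eq_or_lt with h6 | h6
    · subst h6
      rw [h2] at hv
      cases hv
      exact min_eq_left h3.le
    · exact h5 q hq h6 v hv

end Crest.Agent.R4C.RowBx81
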