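import Mathlib

/-!
# Row 4, BLOCK S2 (note 2736, helper284): classification of linked pairs (helper949)

Everything is about integers and real numbers; no set of primes, no `B`.

`NT t ξ ξ' u v` : `‖u ξ - v ξ'‖ < 1/t`.
-/

set_option autoImplicit false

namespace Crest.Agent.R4C.S2x949

open Finset

/-! ### counting -/

/-- integers in a real interval -/
lemma card_int_le {T : Finset ℤ} {x y : ℝ} (hT : ∀ m ∈ T, x ≤ m ∧ (m : ℝ) ≤ y) (hxy : x ≤ y) :
    (T.card : ℝ) ≤ y - x + 1 := by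
  have hsub : T ⊆ Finset.Icc ⌈x⌉ ⌊y⌋ := by
    intro m hm
    rw [Finset.mem_Icc]
    exact ⟨Int.ceil_le.2 (hT m hm).1, Int.le_floor.2 (hT m hm).2⟩
  have h1 := Finset.card_le_card hsub
  rw [Int.card_Icc] at h1
  have h2 : (T.card : ℝ) ≤ ((⌊y⌋ + 1 - ⌈x⌉).toNat : ℝ) := by exact_mod_cast h1
  refine h2.trans ?_
  rcases le_or_gt 0 (⌊y⌋ + 1 - ⌈x⌉) with h3 | h3
  · have h4 : (((⌊y⌋ + 1 - ⌈x⌉).toNat : ℤ) : ℝ) = ((⌊y⌋ + 1 - ⌈x⌉ : ℤ) : ℝ) := by
      rw [Int.toNat_of_nonneg h3]
    have h5 : ((⌊y⌋ + 1 - ⌈x⌉).toNat : ℝ) = ((⌊y⌋ + 1 - ⌈x⌉ : ℤ) : ℝ) := by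
      rw [← h4, Int.cast_natCast]
    rw [h5]
    push_cast
    have := Int.floor_le y
    have := Int.le_ceil x
    linarith
  · rw [Int.toNat_eq_zero.2 h3.le]
    simp
    linarith

/-- naturals `≡ r (mod k)` in a real interval -/
lemma card_mod_le {T : Finset ℕ} {k r : ℕ} (hk : 0 < k) {x y : ℝ}
    (hT : ∀ u ∈ T, u % k = r ∧ x ≤ u ∧ (u : ℝ) ≤ y) (hxy : x ≤ y) :
    (T.card : ℝ) ≤ (y - x) / k + 1 := by
  have hk0 : (0 : ℝ) < k := by exact_mod_cast hk
  have hinj : Set.InjOn (fun u : ℕ => ((u / k : ℕ) : ℤ)) T := by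
    intro u hu v hv huv
    have h1 : u / k = v / k := Int.ofNat_inj.1 huv
    have h2 := (hT u hu).1
    have h3 := (hT v hv).1
    rw [← Nat.div_add_mod u k, ← Nat.div_add_mod v k, h1, h2, h3]
  have hc : (T.image (fun u : ℕ => ((u / k : ℕ) : ℤ))).card = T.card := Finset.card_image_of_injOn hinj
  have hdiv : ∀ u ∈ T, ((u / k : ℕ) : ℝ) = (u - r) / k := by
    intro u hu
    rw [eq_div_iff hk0.ne']
    have := Nat.div_add_mod u k
    rw [(hT u hu).1] at this
    have h2 : ((k * (u / k) + r : ℕ) : ℝ) = u := by exact_mod_cast this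
    push_cast at h2
    linarith
  have := card_int_le (T := T.image (fun u : ℕ => ((u / k : ℕ) : ℤ))) (x := (x - r) / k)
    (y := (y - r) / k) (by
      intro m hm
      obtain ⟨u, hu, rfl⟩ := Finset.mem_image.1 hm
      have h1 := hdiv u hu
      have h2 := hT u hu
      constructor
      · rw [Int.cast_natCast, h1]
        exact div_le_div_of_nonneg_right (by linarith [h2.2.1]) hk0.le
      · rw [Int.cast_natCast, h1]
        exact div_le_div_of_nonneg_right (by linarith [h2.2.2]) hk0.le)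
    (div_le_div_of_nonneg_right (by linarith) hk0.le)
  rw [hc] at this
  have e : (y - r) / k - (x - r) / k = (y - x) / k := by ring
  linarith

/-- lowest terms -/
lemma reduce (A : ℤ) {d : ℕ} (hd : 0 < d) :
    ∃ (a : ℤ) (k : ℕ), 0 < k ∧ k ∣ d ∧ IsCoprime a (k : ℤ) ∧ (A : ℝ) / d = a / k := by
  refine ⟨((A : ℚ) / ((d : ℤ) : ℚ)).num, ((A : ℚ) / ((d : ℤ) : ℚ)).den, Rat.den_pos _, ?_, ?_, ?_⟩
  · have := Rat.den_dvd A (d : ℤ)
    rw [Rat.divInt_eq_div] at this
    exact Int.natCast_dvd_natCast.1 this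
  · exact Rat.isCoprime_num_den _
  · have h := Rat.cast_def (K := ℝ) ((A : ℚ) / ((d : ℤ) : ℚ))
    rw [← h]
    push_cast
    rfl

/-- two elements of a finset of `[U, 2U)` at a distance `< 2U/n` -/
lemma close_pair {U : ℕ} {S : Finset ℕ} (hS : S ⊆ Finset.Ico U (2 * U)) (h5 : 5 ≤ S.card) :
    ∃ u₁ ∈ S, ∃ u₂ ∈ S, u₁ < u₂ ∧ (u₂ - u₁) * S.card < 2 * U := by
  classical
  set n := S.card with hn
  have hnU : n ≤ U := by
    have := Finset.card_le_card hS
    rw [Nat.card_Ico] at this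
    omega
  set w := 2 * U / n with hw
  have hn0 : 0 < n := by omega
  have hw1 : w * n ≤ 2 * U := Nat.div_mul_le_self _ _
  have hw2 : 2 * U < (w + 1) * n := by
    have := Nat.lt_div_mul_add (a := 2 * U) hn0
    rw [← hw] at this
    nlinarith
  have hw3 : 2 ≤ w := by
    rw [hw, Nat.le_div_iff_mul_le hn0]; omega
  have hw4 : 4 * U ≤ 3 * w * n := by nlinarith
  -- classes
  have hcl : (Finset.range (U / w + 1)).card < S.card := by
    rw [Finset.card_range, ← hn]
    have h1 : U / w * w ≤ U := Nat.div_mul_le_self _ _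
    have h2 : 4 * (U / w) ≤ 3 * n := by
      by_contra hc
      push Not at hc
      have h3 : 3 * n * w < 4 * (U / w) * w := Nat.mul_lt_mul_of_pos_right hc (by omega)
      nlinarith
    omega
  obtain ⟨u₁, h1, u₂, h2, hne, heq⟩ := Finset.exists_ne_map_eq_of_card_lt_of_maps_to hcl
    (f := fun u => (u - U) / w) (by
      intro u hu
      have h3 := Finset.mem_Ico.1 (hS hu)
      simp only [Finset.coe_range, Set.mem_Iio]
      refine Nat.lt_succ_of_le (Nat.div_le_div_right ?_)
      omega)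
  have key : ∀ a ∈ S, ∀ b ∈ S, a < b → (a - U) / w = (b - U) / w → (b - a) * n < 2 * U := by
    intro a ha b hb hab he
    have h3 := Finset.mem_Ico.1 (hS ha)
    have h4 := Finset.mem_Ico.1 (hS hb)
    have h5 := Nat.div_add_mod (a - U) w
    have h6 := Nat.div_add_mod (b - U) w
    have h7 := Nat.mod_lt (b - U) (show 0 < w by omega)
    have h8 : b - a < w := by
      have : w * ((a - U) / w) = w * ((b - U) / w) := by rw [he]
      omega
    calc (b - a) * n < w * n := Nat.mul_lt_mul_of_pos_right h8 hn0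
      _ ≤ 2 * U := hw1
  rcases lt_or_gt_of_ne hne with h | h
  · exact ⟨u₁, h1, u₂, h2, h, key u₁ h1 u₂ h2 h heq⟩
  · exact ⟨u₂, h2, u₁, h1, h, key u₂ h2 u₁ h1 h heq.symm⟩

/-- the counting step of Lemma 1: an arithmetic function that stays close to a rational number -/
lemma count_step {U k : ℕ} {a : ℤ} {ξ η t : ℝ} {S : Finset ℕ} (hS : S ⊆ Finset.Ico U (2 * U))
    (hk : 0 < k) (ht : 2 ≤ t) (hδ : ξ - a / k ≠ 0)
    (hm : ∀ u ∈ S, ∃ m : ℤ, |(u : ℝ) * ξ - η - m| < 1 / t) :
    (S.card : ℝ) ≤ (2 / (t * |ξ - a / k|) / k + 1) * ((U * |ξ - a / k| + 2) * k) := by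
  classical
  set δ := ξ - a / k with hδd
  have hk0 : (0 : ℝ) < k := by exact_mod_cast hk
  have hδ0 : 0 < |δ| := abs_pos.2 hδ
  have ht0 : (0 : ℝ) < t := by linarith
  have ht1 : 1 / t ≤ 1 / 2 := one_div_le_one_div_of_le (by norm_num) ht
  choose! mm hmm using hm
  set f : ℕ → ℕ × ℤ := fun u => (u % k, mm u - a * ((u / k : ℕ) : ℤ)) with hf
  -- key formula
  have key : ∀ u ∈ S, |(((u % k : ℕ) : ℝ) * a / k - η) + u * δ - ((f u).2 : ℤ)| < 1 / t := by
    intro u hu
    have h1 := hmm u hu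
    have h2 : ((k * (u / k) + u % k : ℕ) : ℝ) = u := by exact_mod_cast Nat.div_add_mod u k
    push_cast at h2
    have e : (((u % k : ℕ) : ℝ) * a / k - η) + u * δ - ((f u).2 : ℤ) = (u : ℝ) * ξ - η - mm u := by
      simp only [hf, Int.cast_sub, Int.cast_mul, Int.cast_natCast]
      rw [hδd]
      have h3 : ((u % k : ℕ) : ℝ) = u - k * ((u / k : ℕ) : ℝ) := by linarith
      rw [h3]
      field_simp
      ring
    rw [e]
    exact h1
  set N₁ : ℕ := ⌊2 / (t * |δ|) / k + 1⌋₊ with hN₁
  set N₂ : ℕ := ⌊U * |δ| + 2⌋₊ with hN₂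
  have hfib : ∀ z ∈ S.image f, (S.filter fun u => f u = z).card ≤ N₁ := by
    intro z _
    rw [hN₁]
    refine Nat.le_floor ?_
    -- interval
    set c : ℝ := ((z.1 : ℝ) * a / k - η) - (z.2 : ℤ) with hc
    have hb : ∀ u ∈ S.filter (fun u => f u = z), |c + u * δ| < 1 / t := by
      intro u hu
      rw [Finset.mem_filter] at hu
      have h1 := key u hu.1
      have h2 : u % k = z.1 := by rw [← hu.2]
      have h3 : (f u).2 = z.2 := by rw [hu.2]
      rw [h3] at h1
      rw [hc, ← h2]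
      have e : ((u % k : ℕ) : ℝ) * a / k - η - (z.2 : ℤ) + u * δ =
        ((u % k : ℕ) : ℝ) * a / k - η + u * δ - (z.2 : ℤ) := by ring
      rw [e]; exact h1
    have hw : (2 / (t * |δ|)) = (-c / δ + 1 / (t * |δ|)) - (-c / δ - 1 / (t * |δ|)) := by ring
    rw [hw]
    refine card_mod_le (r := z.1) hk ?_ ?_
    · intro u hu
      refine ⟨?_, ?_⟩
      · rw [Finset.mem_filter] at hu
        rw [← hu.2]
      · have h1 := hb u hu
        have h2 : |(u : ℝ) - (-c / δ)| < 1 / (t * |δ|) := by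
          have e : c + u * δ = δ * (u - (-c / δ)) := by field_simp; ring
          rw [e, abs_mul] at h1
          rw [lt_div_iff₀ (by positivity)]
          rw [lt_div_iff₀ ht0] at h1
          nlinarith
        rw [abs_lt] at h2
        constructor <;> linarith [h2.1, h2.2]
    · have : 0 < 1 / (t * |δ|) := by positivity
      linarith
  have h1 := Finset.card_le_mul_card_image S N₁ hfib
  have himg : (S.image f).card ≤ N₂ * k := by
    have h2 : ∀ r ∈ (S.image f).image Prod.fst, ((S.image f).filter fun z => z.1 = r).card ≤ N₂ := by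
      intro r _
      rw [hN₂]
      refine Nat.le_floor ?_
      -- project to the second coordinate
      have hinj : Set.InjOn Prod.snd (((S.image f).filter fun z => z.1 = r : Finset (ℕ × ℤ)) :
          Set (ℕ × ℤ)) := by
        intro z hz z' hz' he
        have h3 := (Finset.mem_filter.1 hz).2
        have h4 := (Finset.mem_filter.1 hz').2
        exact Prod.ext (h3.trans h4.symm) he
      rw [← Finset.card_image_of_injOn hinj]
      set c : ℝ := ((r : ℝ) * a / k - η) with hc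
      set x : ℝ := min (U * δ) (2 * U * δ) + c - 1 / t with hx
      set y : ℝ := max (U * δ) (2 * U * δ) + c + 1 / t with hy
      have hU0 : (0 : ℝ) ≤ U := Nat.cast_nonneg _
      have hlen : y - x = U * |δ| + 2 / t := by
        rw [hx, hy]
        rcases le_total 0 δ with h | h
        · rw [min_eq_left (by nlinarith), max_eq_right (by nlinarith), abs_of_nonneg h]; ring
        · rw [min_eq_right (by nlinarith), max_eq_left (by nlinarith), abs_of_nonpos h]; ring
      have h5 := card_int_le (T := ((S.image f).filter fun z => z.1 = r).image Prod.snd) (x := x)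
        (y := y) (by
          intro m hm'
          obtain ⟨z, hz, rfl⟩ := Finset.mem_image.1 hm'
          obtain ⟨hz1, hz2⟩ := Finset.mem_filter.1 hz
          obtain ⟨u, hu, rfl⟩ := Finset.mem_image.1 hz1
          have h6 := key u hu
          have h7 := Finset.mem_Ico.1 (hS hu)
          have h8 : (U : ℝ) ≤ u := by exact_mod_cast h7.1
          have h9 : (u : ℝ) ≤ 2 * U := by exact_mod_cast h7.2.le
          have h10 : u % k = r := hz2
          rw [h10] at h6
          rw [← hc] at h6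
          rw [abs_lt] at h6
          have h11 : min (U * δ) (2 * U * δ) ≤ u * δ := by
            rcases le_total 0 δ with h | h
            · exact (min_le_left _ _).trans (by nlinarith)
            · exact (min_le_right _ _).trans (by nlinarith)
          have h12 : u * δ ≤ max (U * δ) (2 * U * δ) := by
            rcases le_total 0 δ with h | h
            · exact le_trans (by nlinarith) (le_max_right _ _)
            · exact le_trans (by nlinarith) (le_max_left _ _)
          constructor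
          · rw [hx]; linarith [h6.2]
          · rw [hy]; linarith [h6.1])
        (by
          have : 0 ≤ y - x := by rw [hlen]; positivity
          linarith)
      rw [hlen] at h5
      have : 2 / t = 2 * (1 / t) := by ring
      linarith
    have h3 := Finset.card_le_mul_card_image (f := Prod.fst) (S.image f) N₂ h2
    refine h3.trans (Nat.mul_le_mul_left _ ?_)
    have h4 : (S.image f).image Prod.fst ⊆ Finset.range k := by
      intro r hr
      obtain ⟨z, hz, rfl⟩ := Finset.mem_image.1 hr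
      obtain ⟨u, _, rfl⟩ := Finset.mem_image.1 hz
      exact Finset.mem_range.2 (Nat.mod_lt _ hk)
    have := Finset.card_le_card h4
    rwa [Finset.card_range] at this
  have h2 : S.card ≤ N₁ * (N₂ * k) := h1.trans (Nat.mul_le_mul_left _ himg)
  have h3 : (S.card : ℝ) ≤ (N₁ : ℝ) * ((N₂ : ℝ) * k) := by exact_mod_cast h2
  refine h3.trans ?_
  have h4 : (N₁ : ℝ) ≤ 2 / (t * |δ|) / k + 1 := Nat.floor_le (by positivity)
  have h5 : (N₂ : ℝ) ≤ U * |δ| + 2 := Nat.floor_le (by positivity)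
  exact mul_le_mul h4 (mul_le_mul_of_nonneg_right h5 hk0.le) (by positivity) (by positivity)

/-- **LEMMA 1** (one variable) -/
theorem lemma1 {U : ℕ} {D t ξ η : ℝ} {S : Finset ℕ} (hS : S ⊆ Finset.Ico U (2 * U))
    (hD : 4 ≤ D) (hU : D ^ 2 ≤ U) (ht : 2 * D ≤ t)
    (hm : ∀ u ∈ S, ∃ m : ℤ, |(u : ℝ) * ξ - η - m| < 1 / t) (hc : 8 * U / D < S.card) :
    ∃ (a : ℤ) (k : ℕ), 0 < k ∧ (k : ℝ) < D / 4 ∧ IsCoprime a (k : ℤ) ∧
      |ξ - a / k| < D / (t * U) := by
  have hD0 : (0 : ℝ) < D := by linarith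
  have ht0 : (0 : ℝ) < t := by linarith
  have hU0 : (0 : ℝ) < U := by nlinarith
  have hn : (32 : ℝ) < S.card := by
    have : (32 : ℝ) ≤ 8 * U / D := by
      rw [le_div_iff₀ hD0]; nlinarith
    linarith
  have hn5 : 5 ≤ S.card := by
    have : (5 : ℝ) ≤ S.card := by linarith
    exact_mod_cast this
  obtain ⟨u₁, h1, u₂, h2, hlt, hprod⟩ := close_pair hS hn5
  set d := u₂ - u₁ with hd
  have hd0 : 0 < d := by omega
  have hd0' : (0 : ℝ) < d := by exact_mod_cast hd0
  have hdr : (d : ℝ) = u₂ - u₁ := by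
    rw [hd, Nat.cast_sub hlt.le]
  have hdD : (d : ℝ) < D / 4 := by
    have h3 : (d : ℝ) * S.card < 2 * U := by exact_mod_cast hprod
    have h4 : (d : ℝ) * (8 * U / D) < 2 * U := lt_of_le_of_lt (by
      exact mul_le_mul_of_nonneg_left hc.le hd0'.le) h3
    have h5 : (d : ℝ) * (8 * U / D) = d * 8 * U / D := by ring
    rw [h5, div_lt_iff₀ hD0] at h4
    by_contra hcon
    push Not at hcon
    nlinarith
  obtain ⟨m₁, hm₁⟩ := hm u₁ h1
  obtain ⟨m₂, hm₂⟩ := hm u₂ h2
  obtain ⟨a, k, hk, hkd, hcop, hred⟩ := reduce (m₂ - m₁) hd0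
  have hk0 : (0 : ℝ) < k := by exact_mod_cast hk
  have hkd' : (k : ℝ) ≤ d := by exact_mod_cast Nat.le_of_dvd hd0 hkd
  have hkD : (k : ℝ) < D / 4 := lt_of_le_of_lt hkd' hdD
  have hδ : |ξ - a / k| < 2 / (t * d) := by
    rw [← hred]
    have h3 : |(d : ℝ) * ξ - ((m₂ - m₁ : ℤ) : ℝ)| < 2 / t := by
      have e : (d : ℝ) * ξ - ((m₂ - m₁ : ℤ) : ℝ) =
          ((u₂ : ℝ) * ξ - η - m₂) - ((u₁ : ℝ) * ξ - η - m₁) := by
        push_cast
        rw [hdr]; ring
      rw [e]
      have := abs_sub ((u₂ : ℝ) * ξ - η - m₂) ((u₁ : ℝ) * ξ - η - m₁)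
      have e2 : 2 / t = 1 / t + 1 / t := by ring
      linarith
    have e : ξ - ((m₂ - m₁ : ℤ) : ℝ) / d = ((d : ℝ) * ξ - ((m₂ - m₁ : ℤ) : ℝ)) / d := by
      field_simp
    rw [e, abs_div, abs_of_pos hd0', div_lt_iff₀ hd0']
    have e3 : 2 / (t * d) * d = 2 / t := by field_simp
    rw [e3]; exact h3
  refine ⟨a, k, hk, hkD, hcop, ?_⟩
  rcases eq_or_ne (ξ - a / k) 0 with h0 | h0
  · rw [h0, abs_zero]; positivity
  by_contra hcon
  push Not at hcon
  have hcount := count_step (a := a) (η := η) hS hk (by linarith) h0 hm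
  set δ := ξ - a / k with hδd
  have hδ0 : 0 < |δ| := abs_pos.2 h0
  have e1 : (2 / (t * |δ|) / k + 1) * ((U * |δ| + 2) * k) =
      2 * U / t + k * U * |δ| + 4 / (t * |δ|) + 2 * k := by
    field_simp
    ring
  rw [e1] at hcount
  have h3 : (k : ℝ) * U * |δ| ≤ 2 * U / t := by
    have h4 : |δ| * k ≤ 2 / t := by
      have h5 : |δ| * d < 2 / t := by
        have h6 : |δ| * d < 2 / (t * d) * d := mul_lt_mul_of_pos_right hδ hd0'
        have e3 : 2 / (t * d) * d = 2 / t := by field_simp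
        rwa [e3] at h6
      have := mul_le_mul_of_nonneg_left hkd' hδ0.le
      linarith
    have e4 : (k : ℝ) * U * |δ| = U * (|δ| * k) := by ring
    have e5 : 2 * (U : ℝ) / t = U * (2 / t) := by ring
    rw [e4, e5]
    exact mul_le_mul_of_nonneg_left h4 hU0.le
  have h4 : 2 * (U : ℝ) / t ≤ U / D := by
    rw [div_le_div_iff₀ ht0 hD0]
    nlinarith
  have h5 : 4 / (t * |δ|) ≤ 4 * U / D := by
    rw [div_le_div_iff₀ (by positivity) hD0]
    rw [div_le_iff₀ (by positivity)] at hcon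
    nlinarith
  have h6 : 2 * (k : ℝ) ≤ U / (2 * D) := by
    rw [le_div_iff₀ (by positivity)]
    nlinarith
  have h7 : 8 * (U : ℝ) / D = 8 * (U / D) := by ring
  have h8 : 4 * (U : ℝ) / D = 4 * (U / D) := by ring
  have h9 : (U : ℝ) / (2 * D) = (U / D) / 2 := by field_simp
  have h10 : 0 < (U : ℝ) / D := by positivity
  rw [h7] at hc
  rw [h8] at h5
  rw [h9] at h6
  linarith

end Crest.Agent.R4C.S2x949
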