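import Crest.Agent.R4C.HeavyC_899
import Crest.Agent.R4C.Dyad_281
import Crest.Agent.R4C.Rule_945

/-!
# Row 4, BLOCK S5 v1 (note 3383), leaf S5-4: CLASS (H) (helper21)

Class (H): a member `b` of the pair is *heavy* at a cut `V ≤ P0` :
`K^h ≤ b_{<V} ν_{<V}(B_{b_{≥V}})`, and `u_{P0}(b) ≤ K^a L` (conflict inequality (1b)).
LEMMA H (HeavyC_899) at the cut `V` with the list
`E(T) = {e : e ∣ u_{P0}(T), u_{P0}(T)/e ≤ J}` pays all these pairs, whatever the partner is,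
with any weight `W ≤ K^w`.

* `ctr_upp`, `uu_upp`, `low_uu`, `uu_eq` : `u_x(b) = b_{≤V} · u_x(b_{>V})` for `V ≤ x`;
* `hcore` : fixed cut and fixed scale;
* `InH`, `classH_t` (fixed cut scale `t`, all pair scales `≥ 1/t`, all `K ≥ t^{9/10}`, all `V`),
  `classH` (all cut scales `2^j ≥ 2^{j0}` together).
-/

set_option autoImplicit false

namespace Crest.Agent.R4C.S5Hx21

open Finset Crest.Agent.R4C.Basex935 Crest.Agent.R4C.Cutx50 Crest.Agent.R4C.HeavyLx50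
  Crest.Agent.R4C.HeavyCx899 Crest.Agent.R4C.FLDefx935 Crest.Agent.R4C.Dyadx281
  Crest.Agent.R4C.Rulex945

variable {M : ℕ} {F : FL M}

/-! ### `uu` and cuts -/

lemma upp_dvd_M {b V : ℕ} (hb : b ∣ M) : upp V b ∣ M := (upp_dvd_self V b).trans hb

/-- the status above the cut only depends on the upper part -/
lemma ctr_upp {b V p : ℕ} (hb : b ∣ M) (hp : p.Prime) (h : V ≤ p) :
    F.ctr (upp V b) p = F.ctr b p := by
  refine F.coh (upp_dvd_M hb) hb hp fun q _ hpq _ => ?_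
  rw [fact_upp]
  have : ¬ q ≤ V := by omega
  simp [this]

lemma uu_upp {x b V : ℕ} (hb : b ∣ M) (hV : V ≤ x) :
    upp V (F.uu x b) = F.uu x (upp V b) := by
  refine Nat.eq_of_factorization_eq (upp_pos _ _).ne' (FL.uu_pos x _).ne' fun p => ?_
  rw [fact_upp, FL.fact_uu, FL.fact_uu]
  by_cases hp : p ∈ M.primeFactors
  · have hpp := Nat.prime_of_mem_primeFactors hp
    simp only [hp, if_true, FL.uuE, fact_upp]
    by_cases hx : x < p
    · have h1 : ¬ p ≤ V := by omega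
      rw [ctr_upp hb hpp (by omega)]
      simp [hx, h1]
    · simp [hx]
  · simp [hp]

lemma low_uu {x b V : ℕ} (hM : 0 < M) (hb : b ∣ M) (hV : V ≤ x) :
    low V (F.uu x b) = low V b := by
  refine Nat.eq_of_factorization_eq (low_pos _ _).ne' (low_pos _ _).ne' fun p => ?_
  rw [fact_low, fact_low, FL.fact_uu]
  by_cases h : p ≤ V
  · have hx : ¬ x < p := by omega
    by_cases hp : p ∈ M.primeFactors
    · simp [h, hp, FL.uuE, hx]
    · simp [h, hp, FL.fact_zero hM hb hp]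
  · simp [h]

lemma uu_eq {x b V : ℕ} (hM : 0 < M) (hb : b ∣ M) (hV : V ≤ x) :
    F.uu x b = low V b * F.uu x (upp V b) := by
  rw [← uu_upp hb hV, ← low_uu (F := F) hM hb hV]
  exact (low_mul_upp V (FL.uu_pos x b).ne').symm

/-! ### fixed cut, fixed scale -/

/-- the list of Lemma H -/
noncomputable def EH (F : FL M) (f : ℕ → ℝ) (P0 V : ℕ) (J Γ L : ℝ) (T : ℕ) : Finset ℕ := by
  classical
  exact (F.uu P0 T).divisors.filter
    (fun e => ((F.uu P0 T / e : ℕ) : ℝ) ≤ J ∧ (e : ℝ) * Γ ≤ L * mass M f V T)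

lemma mem_EH {f : ℕ → ℝ} {P0 V : ℕ} {J Γ L : ℝ} {T e : ℕ} : e ∈ EH F f P0 V J Γ L T ↔
    e ∣ F.uu P0 T ∧ ((F.uu P0 T / e : ℕ) : ℝ) ≤ J ∧ (e : ℝ) * Γ ≤ L * mass M f V T := by
  classical
  unfold EH
  rw [Finset.mem_filter, Nat.mem_divisors]
  constructor
  · rintro ⟨⟨h1, _⟩, h2⟩; exact ⟨h1, h2⟩
  · rintro ⟨h1, h2⟩; exact ⟨⟨h1, (FL.uu_pos P0 T).ne'⟩, h2⟩

lemma card_EH (f : ℕ → ℝ) (P0 V : ℕ) {J : ℝ} (hJ : 0 ≤ J) (Γ L : ℝ) (T : ℕ) :
    ((EH F f P0 V J Γ L T).card : ℝ) ≤ J := by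
  have h1 : (EH F f P0 V J Γ L T).card ≤ (Finset.Icc 1 ⌊J⌋₊).card := by
    refine Finset.card_le_card_of_injOn (fun e => F.uu P0 T / e) ?_ ?_
    · intro e he
      have he' := mem_EH.1 (Finset.mem_coe.1 he)
      rw [Finset.mem_coe, Finset.mem_Icc]
      refine ⟨Nat.div_pos (Nat.le_of_dvd (FL.uu_pos P0 T) he'.1)
        (Nat.pos_of_dvd_of_pos he'.1 (FL.uu_pos P0 T)), Nat.le_floor he'.2.1⟩
    · intro e he e' he' hee
      have h2 := (mem_EH.1 (Finset.mem_coe.1 he)).1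
      have h3 := (mem_EH.1 (Finset.mem_coe.1 he')).1
      have hu := FL.uu_pos (F := F) P0 T
      have h4 : 0 < F.uu P0 T / e' := Nat.div_pos (Nat.le_of_dvd hu h3)
        (Nat.pos_of_dvd_of_pos h3 hu)
      have h5 : F.uu P0 T / e = F.uu P0 T / e' := hee
      have h6 := Nat.div_mul_cancel h2
      have h7 := Nat.div_mul_cancel h3
      rw [h5] at h6
      exact Nat.eq_of_mul_eq_mul_left h4 (h6.trans h7.symm)
  rw [Nat.card_Icc] at h1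
  calc ((EH F f P0 V J Γ L T).card : ℝ) ≤ ((⌊J⌋₊ + 1 - 1 : ℕ) : ℝ) := by exact_mod_cast h1
    _ = (⌊J⌋₊ : ℝ) := by simp
    _ ≤ J := Nat.floor_le hJ

/-- membership in the list -/
lemma pair_mem {f : ℕ → ℝ} {P0 V b c : ℕ} {J0 H t L : ℝ} (hM : 0 < M) (hb : b ∣ M) (hc : c ∣ M)
    (hV : V ≤ P0) (ht : 0 < t) (hL : 0 < L) (hJ0 : 0 < J0) (hf : ∀ b, 0 ≤ f b)
    (hg : F.good P0 b c) (hu : (F.uu P0 b : ℝ) ≤ J0 * L)
    (hH : H ≤ (low V b : ℝ) * mass M f V (upp V b)) (hs : t * L ≤ (Nat.gcd b c : ℝ)) :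
    Nat.gcd (upp V b) c ∈ EH F f P0 V (J0 / t) (H / J0) L (upp V b) := by
  have hb0 : b ≠ 0 := (Nat.pos_of_dvd_of_pos hb hM).ne'
  set e := Nat.gcd (upp V b) c with he
  have he0 : 0 < e := Nat.gcd_pos_of_pos_left _ (upp_pos V b)
  have huu : F.uu P0 b = low V b * F.uu P0 (upp V b) := uu_eq hM hb hV
  -- e divides uu
  have h1 : e ∣ F.uu P0 (upp V b) := by
    have h2 : e ∣ F.uu P0 b := (Nat.gcd_dvd_gcd_of_dvd_left c (upp_dvd_self V b)).trans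
      (FL.good_gcd_dvd_uu hM hb hc hg)
    rw [huu] at h2
    refine Nat.Coprime.dvd_of_dvd_mul_left ?_ h2
    exact (Nat.Coprime.coprime_dvd_right (Nat.gcd_dvd_left _ _)
      (coprime_part (fun p => p ≤ V) b b)).symm
  obtain ⟨j, hj⟩ := h1
  have hj0 : 0 < j := by
    rcases Nat.eq_zero_or_pos j with h | h
    · rw [h, mul_zero] at hj
      exact absurd hj (FL.uu_pos P0 _).ne'
    · exact h
  -- gcd b c ≤ low * e
  have h3 : Nat.gcd b c ≤ low V b * e := by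
    have h4 : Nat.gcd b c ∣ Nat.gcd (low V b) c * Nat.gcd (upp V b) c := by
      conv_lhs => rw [← low_mul_upp V hb0]
      rw [Nat.gcd_comm, Nat.gcd_comm (low V b), Nat.gcd_comm (upp V b)]
      exact Nat.gcd_mul_right_dvd_mul_gcd _ _ _
    refine (Nat.le_of_dvd (Nat.mul_pos (Nat.gcd_pos_of_pos_left _ (low_pos V b)) he0) h4).trans ?_
    exact Nat.mul_le_mul_right _ (Nat.le_of_dvd (low_pos V b) (Nat.gcd_dvd_left _ _))
  have h3' : (Nat.gcd b c : ℝ) ≤ (low V b : ℝ) * e := by exact_mod_cast h3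
  have hlow : (0 : ℝ) < low V b := by exact_mod_cast low_pos V b
  have he0' : (0 : ℝ) < e := by exact_mod_cast he0
  have hj0' : (0 : ℝ) < j := by exact_mod_cast hj0
  have hj1 : (1 : ℝ) ≤ j := by exact_mod_cast hj0
  have hmass : 0 ≤ mass M f V (upp V b) := mass_nonneg _ hf _ _
  have hu' : (low V b : ℝ) * (e * j) ≤ J0 * L := by
    have : ((F.uu P0 b : ℕ) : ℝ) = (low V b : ℝ) * ((e : ℝ) * j) := by
      rw [huu, hj]; push_cast; ring
    rw [← this]; exact hu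
  rw [mem_EH]
  refine ⟨⟨j, hj⟩, ?_, ?_⟩
  · rw [hj, Nat.mul_div_cancel_left _ he0, le_div_iff₀ ht]
    have h5 : (j : ℝ) * t * L ≤ J0 * L := by
      calc (j : ℝ) * t * L = j * (t * L) := by ring
        _ ≤ j * ((low V b : ℝ) * e) := mul_le_mul_of_nonneg_left (hs.trans h3') hj0'.le
        _ = (low V b : ℝ) * (e * j) := by ring
        _ ≤ J0 * L := hu'
    exact le_of_mul_le_mul_right h5 hL
  · rw [mul_div_assoc', div_le_iff₀ hJ0]
    calc (e : ℝ) * H ≤ e * ((low V b : ℝ) * mass M f V (upp V b)) :=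
          mul_le_mul_of_nonneg_left hH he0'.le
      _ = ((low V b : ℝ) * e) * mass M f V (upp V b) := by ring
      _ ≤ (J0 * L) * mass M f V (upp V b) := by
          refine mul_le_mul_of_nonneg_right (le_trans ?_ hu') hmass
          have : (low V b : ℝ) * e ≤ (low V b : ℝ) * e * j := le_mul_of_one_le_right
            (mul_pos hlow he0').le hj1
          linarith [this]
      _ = L * mass M f V (upp V b) * J0 := by ring

open Classical in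
/-- **class (H) at a fixed cut `V` and a fixed scale `t L ≤ g < 2 t L`** -/
theorem hcore (hM : 0 < M) {P0 V : ℕ} (hV : V ≤ P0) {η C t L J0 H : ℝ} (hη0 : 0 ≤ η)
    (hη1 : η ≤ 1) (hC : 0 ≤ C) (ht : 0 < t) (hL : 0 < L) (hJ0 : 0 < J0) (hH : 0 < H)
    {f f' : ℕ → ℝ} (hf : ∀ b, 0 ≤ f b ∧ f b ≤ 1) (hf' : ∀ b, 0 ≤ f' b ∧ f' b ≤ 1)
    (HVW : ∀ M' : ℕ, M' ∣ M → ∀ f f' : ℕ → ℝ, (∀ b, 0 ≤ f b ∧ f b ≤ 1) →
      (∀ b, 0 ≤ f' b ∧ f' b ≤ 1) → ∀ X : ℝ, 0 < X →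
      frm M' (fun b c => if X ≤ (Nat.gcd b c : ℝ) ∧ (Nat.gcd b c : ℝ) < 2 * X
        then f b * f' c else 0) ≤ C * X ^ η * (Ex M' f * Ex M' f') ^ ((1 + η) / 2)) :
    L * frm M (fun b c =>
      if (F.good P0 b c ∧ (F.uu P0 b : ℝ) ≤ J0 * L ∧
          H ≤ (low V b : ℝ) * mass M f V (upp V b)) ∧
        t * L ≤ (Nat.gcd b c : ℝ) ∧ (Nat.gcd b c : ℝ) < 2 * (t * L) then f b * f' c else 0) ≤
      C * t ^ η * (J0 / t * (H / J0) ^ (-((1 - η) / 2))) * (L * Ex M f) *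
        (L * Ex M f') ^ ((1 + η) / 2) := by
  have h := heavyFix_J hM V (EH F f P0 V (J0 / t) (H / J0) L) (κ := 2) (η := η) (C := C) (t := t)
    (L := L) (Γ := H / J0) (J := J0 / t) hη0 hη1 hC ht hL (div_pos hH hJ0)
    (div_pos hJ0 ht).le hf hf' HVW
    (fun T _ => card_EH f P0 V (div_pos hJ0 ht).le _ _ T)
    (fun T _ e he => (mem_EH.1 he).2.2)
  refine le_trans (mul_le_mul_of_nonneg_left (frm_mono fun b c hb hc => ?_) hL.le) h
  by_cases h1 : (F.good P0 b c ∧ (F.uu P0 b : ℝ) ≤ J0 * L ∧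
          H ≤ (low V b : ℝ) * mass M f V (upp V b)) ∧
        t * L ≤ (Nat.gcd b c : ℝ) ∧ (Nat.gcd b c : ℝ) < 2 * (t * L)
  · rw [if_pos h1, if_pos ⟨pair_mem hM hb hc hV ht hL hJ0 (fun b => (hf b).1) h1.1.1 h1.1.2.1
      h1.1.2.2 h1.2.1, h1.2⟩]
  · rw [if_neg h1]
    split_ifs
    · exact mul_nonneg (hf b).1 (hf' c).1
    · exact le_rfl


/-! ### all scales, all depths, all cuts -/

lemma dyad_ex {x κ B : ℝ} (hκ : 0 < κ) (h1 : κ ≤ x) (h2 : x ≤ B) :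
    ∃ k ∈ range (Nat.log 2 ⌊B / κ⌋₊ + 1), κ * 2 ^ k ≤ x ∧ x < κ * 2 ^ (k + 1) := by
  have h3 : 1 ≤ x / κ := (one_le_div hκ).2 h1
  have h4 : 1 ≤ ⌊x / κ⌋₊ := Nat.le_floor (by exact_mod_cast h3)
  refine ⟨Nat.log 2 ⌊x / κ⌋₊, ?_, ?_, ?_⟩
  · rw [Finset.mem_range]
    refine Nat.lt_succ_of_le (Nat.log_mono_right (Nat.floor_le_floor ?_))
    exact div_le_div_of_nonneg_right h2 hκ.le
  · have h5 : 2 ^ Nat.log 2 ⌊x / κ⌋₊ ≤ ⌊x / κ⌋₊ := Nat.pow_log_le_self 2 (by omega)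
    have h6 : ((2 : ℝ) ^ Nat.log 2 ⌊x / κ⌋₊) ≤ x / κ := by
      calc ((2 : ℝ) ^ Nat.log 2 ⌊x / κ⌋₊) = ((2 ^ Nat.log 2 ⌊x / κ⌋₊ : ℕ) : ℝ) := by push_cast; rfl
        _ ≤ (⌊x / κ⌋₊ : ℝ) := by exact_mod_cast h5
        _ ≤ x / κ := Nat.floor_le (by linarith)
    rw [le_div_iff₀ hκ] at h6
    linarith
  · have h5 : ⌊x / κ⌋₊ < 2 ^ (Nat.log 2 ⌊x / κ⌋₊ + 1) := Nat.lt_pow_succ_log_self (by norm_num) _
    have h6 : x / κ < (2 : ℝ) ^ (Nat.log 2 ⌊x / κ⌋₊ + 1) := by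
      have h7 : x / κ < (⌊x / κ⌋₊ : ℝ) + 1 := Nat.lt_floor_add_one _
      have h8 : ((⌊x / κ⌋₊ : ℝ) + 1) ≤ ((2 ^ (Nat.log 2 ⌊x / κ⌋₊ + 1) : ℕ) : ℝ) := by
        exact_mod_cast h5
      push_cast at h8
      linarith
    rw [div_lt_iff₀ hκ] at h6
    linarith

/-- the class (H): cut `P0`, pair scale `≥ τ`, depth `≥ κ`, block ends `Y v`, `v < n` -/
def InH (F : FL M) (f : ℕ → ℝ) (Y : ℕ → ℕ) (n P0 : ℕ) (L τ κ a h w : ℝ) (W : ℕ → ℕ → ℝ)
    (b c : ℕ) : Prop :=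
  F.good P0 b c ∧ τ * L ≤ (Nat.gcd b c : ℝ) ∧ ∃ K : ℝ, κ ≤ K ∧ (F.uu P0 b : ℝ) ≤ K ^ a * L ∧
    W b c ≤ K ^ w ∧ ∃ v < n, Y v ≤ P0 ∧ K ^ h ≤ Th M f (Y v) b

/-- the constant of `classH_core` -/
noncomputable def CH (C η a h w : ℝ) : ℝ :=
  C * 2 ^ (a * (1 + (1 - η) / 2) + w) * (gC (1 - η) * gC ((h - a) * ((1 - η) / 2) - a - w))

lemma Th_le (hM : 0 < M) {f : ℕ → ℝ} (hf : ∀ b, 0 ≤ f b ∧ f b ≤ 1) {y b : ℕ} (hb : b ∣ M) :
    Th M f y b ≤ M := by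
  unfold Th
  have h1 : (low y b : ℝ) ≤ M := by
    exact_mod_cast Nat.le_of_dvd hM ((low_dvd_self y b).trans hb)
  have h2 : mass M f y (upp y b) ≤ 1 := by
    unfold mass
    calc Ex (low y M) (fun n => f (n * upp y b)) ≤ Ex (low y M) (fun _ => 1) :=
          Ex_mono _ fun n _ => (hf _).2
      _ = 1 := Ex_const (low_pos y M) 1
  calc (low y b : ℝ) * mass M f y (upp y b) ≤ M * 1 :=
        mul_le_mul h1 h2 (mass_nonneg M (fun b => (hf b).1) _ _) (Nat.cast_nonneg _)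
    _ = M := mul_one _

/-- the numbers of one cell -/
lemma cell_num {C η a h w κ τ : ℝ} (hκ : 0 < κ) (hτ : 0 < τ) (i k : ℕ) :
    (κ * 2 ^ (k + 1)) ^ w * (C * (τ * 2 ^ i) ^ η * ((κ * 2 ^ (k + 1)) ^ a / (τ * 2 ^ i) *
      ((κ * 2 ^ k) ^ h / (κ * 2 ^ (k + 1)) ^ a) ^ (-((1 - η) / 2)))) =
      C * 2 ^ (a * (1 + (1 - η) / 2) + w) * τ ^ (η - 1) *
        κ ^ (-((h - a) * ((1 - η) / 2) - a - w)) *
        ((2 : ℝ) ^ (-((1 - η) * i)) * (2 : ℝ) ^ (-(((h - a) * ((1 - η) / 2) - a - w) * k))) := by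
  have h2 : (0 : ℝ) < 2 := by norm_num
  have hK : 0 < κ * 2 ^ k := by positivity
  have hT : 0 < τ * 2 ^ i := by positivity
  have eK : κ * 2 ^ (k + 1) = 2 * (κ * 2 ^ k) := by ring
  rw [eK, Real.mul_rpow h2.le hK.le, Real.mul_rpow h2.le hK.le]
  set X := κ * 2 ^ k with hX
  set T := τ * 2 ^ i with hTd
  set r := (1 - η) / 2 with hr
  clear_value X T
  have e1 : (X ^ h / ((2 : ℝ) ^ a * X ^ a)) ^ (-r) = 2 ^ (a * r) * X ^ (-(h * r) + a * r) := by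
    rw [Real.div_rpow (Real.rpow_nonneg hK.le _) (by positivity), Real.mul_rpow (by positivity)
      (by positivity), ← Real.rpow_mul hK.le, ← Real.rpow_mul h2.le, ← Real.rpow_mul hK.le,
      div_eq_mul_inv, mul_inv, ← Real.rpow_neg h2.le, ← Real.rpow_neg hK.le, Real.rpow_add hK]
    have e2 : -(a * -r) = a * r := by ring
    have e3 : h * -r = -(h * r) := by ring
    rw [e2, e3]
    ring
  have e4 : T ^ η / T = T ^ (η - 1) := by
    rw [Real.rpow_sub_one hT.ne']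
  have e5 : X ^ w * X ^ a * X ^ (-(h * r) + a * r) = X ^ (-((h - a) * r - a - w)) := by
    rw [← Real.rpow_add hK, ← Real.rpow_add hK]
    congr 1
    ring
  have e6 : (2 : ℝ) ^ w * 2 ^ a * 2 ^ (a * r) = 2 ^ (a * (1 + r) + w) := by
    rw [← Real.rpow_add h2, ← Real.rpow_add h2]
    congr 1
    ring
  have e7 : T ^ (η - 1) = τ ^ (η - 1) * (2 : ℝ) ^ (-((1 - η) * i)) := by
    rw [hTd, Real.mul_rpow hτ.le (by positivity), ← Real.rpow_natCast, ← Real.rpow_mul h2.le]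
    congr 2
    ring
  have e8 : X ^ (-((h - a) * r - a - w)) = κ ^ (-((h - a) * r - a - w)) *
      (2 : ℝ) ^ (-(((h - a) * r - a - w) * k)) := by
    rw [hX, Real.mul_rpow hκ.le (by positivity), ← Real.rpow_natCast, ← Real.rpow_mul h2.le]
    congr 2
    ring
  rw [e1]
  calc (2 : ℝ) ^ w * X ^ w * (C * T ^ η * (2 ^ a * X ^ a / T *
        (2 ^ (a * r) * X ^ (-(h * r) + a * r))))
      = C * (2 ^ w * 2 ^ a * 2 ^ (a * r)) * (T ^ η / T) *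
        (X ^ w * X ^ a * X ^ (-(h * r) + a * r)) := by ring
    _ = _ := by rw [e4, e5, e6, e7, e8]; ring

open Classical in
/-- **CLASS (H)**, all pair scales `≥ τ`, all depths `≥ κ`, all cuts `Y v ≤ P0`, `v < n`,
with any weight `W ≤ K^w` -/
theorem classH_core (hM : 0 < M) (F : FL M) {η a h w C : ℝ} (hη0 : 0 ≤ η) (hη1 : η < 1)
    (ha : 0 ≤ a) (hw : 0 ≤ w) (hs : 0 < (h - a) * ((1 - η) / 2) - a - w) (hC : 0 ≤ C)
    (Y : ℕ → ℕ) (n P0 : ℕ) {L τ κ : ℝ} (hL : 0 < L) (hτ : 0 < τ) (hκ : 0 < κ)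
    {f f' : ℕ → ℝ} (hf : ∀ b, 0 ≤ f b ∧ f b ≤ 1) (hf' : ∀ b, 0 ≤ f' b ∧ f' b ≤ 1)
    {W : ℕ → ℕ → ℝ}
    (HVW : ∀ M' : ℕ, M' ∣ M → ∀ f f' : ℕ → ℝ, (∀ b, 0 ≤ f b ∧ f b ≤ 1) →
      (∀ b, 0 ≤ f' b ∧ f' b ≤ 1) → ∀ X : ℝ, 0 < X →
      frm M' (fun b c => if X ≤ (Nat.gcd b c : ℝ) ∧ (Nat.gcd b c : ℝ) < 2 * X
        then f b * f' c else 0) ≤ C * X ^ η * (Ex M' f * Ex M' f') ^ ((1 + η) / 2)) :
    L * frm M (fun b c => if InH F f Y n P0 L τ κ a h w W b c then W b c * (f b * f' c) else 0) ≤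
      CH C η a h w * τ ^ (η - 1) * κ ^ (-((h - a) * ((1 - η) / 2) - a - w)) * n *
        ((L * Ex M f) * (L * Ex M f') ^ ((1 + η) / 2)) := by
  set s := (h - a) * ((1 - η) / 2) - a - w with hsd
  have hh : 0 < h := by
    have h1 : 0 < (h - a) * ((1 - η) / 2) := by linarith
    have h2 : 0 < (1 - η) / 2 := by linarith
    have h3 : 0 < h - a := by
      by_contra hc
      have := mul_nonpos_of_nonpos_of_nonneg (not_lt.1 hc) h2.le
      linarith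
    linarith
  set I := range (Nat.log 2 ⌊(M : ℝ) / (τ * L)⌋₊ + 1) with hI
  set KK := range (Nat.log 2 ⌊(M : ℝ) ^ (1 / h) / κ⌋₊ + 1) with hKK
  -- the cell
  set G : ℕ → ℕ → ℕ → ℕ → ℕ → ℝ := fun i k v b c =>
    if (F.good P0 b c ∧ (F.uu P0 b : ℝ) ≤ (κ * 2 ^ (k + 1)) ^ a * L ∧
          (κ * 2 ^ k) ^ h ≤ (low (Y v) b : ℝ) * mass M f (Y v) (upp (Y v) b)) ∧
        (τ * 2 ^ i) * L ≤ (Nat.gcd b c : ℝ) ∧ (Nat.gcd b c : ℝ) < 2 * ((τ * 2 ^ i) * L)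
      then f b * f' c else 0 with hG
  have hG0 : ∀ i k v b c, 0 ≤ G i k v b c := by
    intro i k v b c
    simp only [hG]
    split_ifs
    · exact mul_nonneg (hf b).1 (hf' c).1
    · exact le_rfl
  set m1 := (L * Ex M f) * (L * Ex M f') ^ ((1 + η) / 2) with hm1
  have hm0 : 0 ≤ m1 := mul_nonneg (mul_nonneg hL.le (Ex_nonneg _ fun b => (hf b).1))
    (Real.rpow_nonneg (mul_nonneg hL.le (Ex_nonneg _ fun b => (hf' b).1)) _)
  have hcell : ∀ i k v, Y v ≤ P0 → (κ * 2 ^ (k + 1)) ^ w * (L * frm M (G i k v)) ≤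
      C * 2 ^ (a * (1 + (1 - η) / 2) + w) * τ ^ (η - 1) * κ ^ (-s) *
        ((2 : ℝ) ^ (-((1 - η) * i)) * (2 : ℝ) ^ (-(s * k))) * m1 := by
    intro i k v hv
    have h1 := hcore (F := F) hM hv (η := η) (C := C) (t := τ * 2 ^ i) (L := L)
      (J0 := (κ * 2 ^ (k + 1)) ^ a) (H := (κ * 2 ^ k) ^ h) hη0 hη1.le hC (by positivity) hL
      (by positivity) (by positivity) hf hf' HVW
    have h2 : (0 : ℝ) ≤ (κ * 2 ^ (k + 1)) ^ w := by positivity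
    have h3 := mul_le_mul_of_nonneg_left h1 h2
    refine h3.trans (le_of_eq ?_)
    rw [hsd, ← cell_num (C := C) (η := η) (a := a) (h := h) (w := w) hκ hτ i k, hm1]
    ring
  -- pointwise
  have hpt : ∀ b c, b ∣ M → c ∣ M →
      (if InH F f Y n P0 L τ κ a h w W b c then W b c * (f b * f' c) else 0) ≤
      ∑ i ∈ I, ∑ k ∈ KK, ∑ v ∈ range n,
        (if Y v ≤ P0 then (κ * 2 ^ (k + 1)) ^ w * G i k v b c else 0) := by
    intro b c hb hc
    have hnn : ∀ i k v, 0 ≤ (if Y v ≤ P0 then (κ * 2 ^ (k + 1)) ^ w * G i k v b c else 0) := by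
      intro i k v
      split_ifs
      · exact mul_nonneg (by positivity) (hG0 i k v b c)
      · exact le_rfl
    by_cases hin : InH F f Y n P0 L τ κ a h w W b c
    · rw [if_pos hin]
      obtain ⟨hgood, hsc, K, hκK, huu, hWK, v, hvn, hvP, hTh⟩ := hin
      have hK0 : 0 < K := lt_of_lt_of_le hκ hκK
      have hgM : (Nat.gcd b c : ℝ) ≤ M := by
        exact_mod_cast Nat.le_of_dvd hM ((Nat.gcd_dvd_left b c).trans hb)
      obtain ⟨i, hi, hi1, hi2⟩ := dyad_ex (mul_pos hτ hL) hsc hgM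
      have hKM : K ≤ (M : ℝ) ^ (1 / h) := by
        have h1 : K ^ h ≤ M := hTh.trans (Th_le hM hf hb)
        calc K = (K ^ h) ^ (1 / h) := by
              rw [← Real.rpow_mul hK0.le, mul_one_div_cancel hh.ne', Real.rpow_one]
          _ ≤ (M : ℝ) ^ (1 / h) := Real.rpow_le_rpow (Real.rpow_nonneg hK0.le _) h1
              (by positivity)
      obtain ⟨k, hk, hk1, hk2⟩ := dyad_ex hκ hκK hKM
      have hX0 : 0 < κ * 2 ^ k := by positivity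
      have hcond : (F.good P0 b c ∧ (F.uu P0 b : ℝ) ≤ (κ * 2 ^ (k + 1)) ^ a * L ∧
          (κ * 2 ^ k) ^ h ≤ (low (Y v) b : ℝ) * mass M f (Y v) (upp (Y v) b)) ∧
        (τ * 2 ^ i) * L ≤ (Nat.gcd b c : ℝ) ∧ (Nat.gcd b c : ℝ) < 2 * ((τ * 2 ^ i) * L) := by
        refine ⟨⟨hgood, huu.trans ?_, le_trans ?_ hTh⟩, ?_, ?_⟩
        · exact mul_le_mul_of_nonneg_right (Real.rpow_le_rpow hK0.le hk2.le ha) hL.le
        · exact Real.rpow_le_rpow hX0.le hk1 hh.le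
        · calc τ * 2 ^ i * L = τ * L * 2 ^ i := by ring
            _ ≤ _ := hi1
        · calc (Nat.gcd b c : ℝ) < τ * L * 2 ^ (i + 1) := hi2
            _ = _ := by ring
      have hGv : G i k v b c = f b * f' c := by
        simp only [hG]
        rw [if_pos hcond]
      have hWX : W b c ≤ (κ * 2 ^ (k + 1)) ^ w := hWK.trans (Real.rpow_le_rpow hK0.le hk2.le hw)
      calc W b c * (f b * f' c) ≤ (κ * 2 ^ (k + 1)) ^ w * (f b * f' c) :=
            mul_le_mul_of_nonneg_right hWX (mul_nonneg (hf b).1 (hf' c).1)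
        _ = (if Y v ≤ P0 then (κ * 2 ^ (k + 1)) ^ w * G i k v b c else 0) := by
            rw [if_pos hvP, hGv]
        _ ≤ ∑ v ∈ range n, (if Y v ≤ P0 then (κ * 2 ^ (k + 1)) ^ w * G i k v b c else 0) :=
            Finset.single_le_sum (f := fun v => if Y v ≤ P0 then (κ * 2 ^ (k + 1)) ^ w *
              G i k v b c else 0) (fun v _ => hnn i k v) (Finset.mem_range.2 hvn)
        _ ≤ ∑ k ∈ KK, ∑ v ∈ range n,
            (if Y v ≤ P0 then (κ * 2 ^ (k + 1)) ^ w * G i k v b c else 0) :=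
            Finset.single_le_sum (f := fun k => ∑ v ∈ range n,
              (if Y v ≤ P0 then (κ * 2 ^ (k + 1)) ^ w * G i k v b c else 0))
              (fun k _ => Finset.sum_nonneg fun v _ => hnn i k v) hk
        _ ≤ _ := Finset.single_le_sum (f := fun i => ∑ k ∈ KK, ∑ v ∈ range n,
            (if Y v ≤ P0 then (κ * 2 ^ (k + 1)) ^ w * G i k v b c else 0))
            (fun i _ => Finset.sum_nonneg fun k _ => Finset.sum_nonneg fun v _ => hnn i k v) hi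
    · rw [if_neg hin]
      exact Finset.sum_nonneg fun i _ => Finset.sum_nonneg fun k _ =>
        Finset.sum_nonneg fun v _ => hnn i k v
  have hfrm : frm M (fun b c => ∑ i ∈ I, ∑ k ∈ KK, ∑ v ∈ range n,
        (if Y v ≤ P0 then (κ * 2 ^ (k + 1)) ^ w * G i k v b c else 0)) =
      ∑ i ∈ I, ∑ k ∈ KK, ∑ v ∈ range n,
        (if Y v ≤ P0 then (κ * 2 ^ (k + 1)) ^ w * frm M (G i k v) else 0) := by
    rw [← frm_sum]
    refine Finset.sum_congr rfl fun i _ => ?_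
    rw [← frm_sum]
    refine Finset.sum_congr rfl fun k _ => ?_
    rw [← frm_sum]
    refine Finset.sum_congr rfl fun v _ => ?_
    by_cases hv : Y v ≤ P0
    · simp only [hv, if_true]
      unfold frm
      rw [Finset.mul_sum]
      refine Finset.sum_congr rfl fun b _ => ?_
      rw [Finset.mul_sum]
      exact Finset.sum_congr rfl fun c _ => by ring
    · simp only [hv, if_false]
      unfold frm
      simp
  calc L * frm M (fun b c => if InH F f Y n P0 L τ κ a h w W b c then W b c * (f b * f' c) else 0)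
      ≤ L * frm M (fun b c => ∑ i ∈ I, ∑ k ∈ KK, ∑ v ∈ range n,
        (if Y v ≤ P0 then (κ * 2 ^ (k + 1)) ^ w * G i k v b c else 0)) :=
        mul_le_mul_of_nonneg_left (frm_mono fun b c hb hc => hpt b c hb hc) hL.le
    _ = ∑ i ∈ I, ∑ k ∈ KK, ∑ v ∈ range n,
        (if Y v ≤ P0 then (κ * 2 ^ (k + 1)) ^ w * (L * frm M (G i k v)) else 0) := by
        rw [hfrm, Finset.mul_sum]
        refine Finset.sum_congr rfl fun i _ => ?_
        rw [Finset.mul_sum]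
        refine Finset.sum_congr rfl fun k _ => ?_
        rw [Finset.mul_sum]
        refine Finset.sum_congr rfl fun v _ => ?_
        split_ifs
        · ring
        · ring
    _ ≤ ∑ i ∈ I, ∑ k ∈ KK, ∑ v ∈ range n,
        (C * 2 ^ (a * (1 + (1 - η) / 2) + w) * τ ^ (η - 1) * κ ^ (-s) * m1) *
        ((2 : ℝ) ^ (-((1 - η) * i)) * (2 : ℝ) ^ (-(s * k))) := by
        refine Finset.sum_le_sum fun i _ => Finset.sum_le_sum fun k _ =>
          Finset.sum_le_sum fun v _ => ?_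
        split_ifs with hv
        · refine (hcell i k v hv).trans (le_of_eq (by ring))
        · positivity
    _ = (C * 2 ^ (a * (1 + (1 - η) / 2) + w) * τ ^ (η - 1) * κ ^ (-s) * m1) * n *
        ((∑ i ∈ I, (2 : ℝ) ^ (-((1 - η) * i))) * ∑ k ∈ KK, (2 : ℝ) ^ (-(s * k))) := by
        rw [Finset.sum_mul_sum, Finset.mul_sum]
        refine Finset.sum_congr rfl fun i _ => ?_
        rw [Finset.mul_sum]
        refine Finset.sum_congr rfl fun k _ => ?_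
        rw [Finset.sum_const, Finset.card_range, nsmul_eq_mul]
        ring
    _ ≤ (C * 2 ^ (a * (1 + (1 - η) / 2) + w) * τ ^ (η - 1) * κ ^ (-s) * m1) * n *
        (gC (1 - η) * gC s) := by
        refine mul_le_mul_of_nonneg_left ?_ (by positivity)
        refine mul_le_mul (geom_range (by linarith) _) (geom_range hs _)
          (Finset.sum_nonneg fun k _ => by positivity) (gC_pos (by linarith)).le
    _ = _ := by
        unfold CH
        rw [← hsd]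
        ring


open Classical in
/-- **CLASS (H), a family of cuts** `P0 m`, `m ∈ S`, with their own `τ m`, `κ m`, `n m` -/
theorem classH_family (hM : 0 < M) (F : FL M) {η a h w C : ℝ} (hη0 : 0 ≤ η) (hη1 : η < 1)
    (ha : 0 ≤ a) (hw : 0 ≤ w) (hs : 0 < (h - a) * ((1 - η) / 2) - a - w) (hC : 0 ≤ C)
    (Y : ℕ → ℕ) (S : Finset ℕ) (n P0 : ℕ → ℕ) {L : ℝ} {τ κ : ℕ → ℝ} (hL : 0 < L)
    (hτ : ∀ m, 0 < τ m) (hκ : ∀ m, 0 < κ m)
    {f f' : ℕ → ℝ} (hf : ∀ b, 0 ≤ f b ∧ f b ≤ 1) (hf' : ∀ b, 0 ≤ f' b ∧ f' b ≤ 1)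
    {W : ℕ → ℕ → ℝ} (hW0 : ∀ b c, 0 ≤ W b c)
    (HVW : ∀ M' : ℕ, M' ∣ M → ∀ f f' : ℕ → ℝ, (∀ b, 0 ≤ f b ∧ f b ≤ 1) →
      (∀ b, 0 ≤ f' b ∧ f' b ≤ 1) → ∀ X : ℝ, 0 < X →
      frm M' (fun b c => if X ≤ (Nat.gcd b c : ℝ) ∧ (Nat.gcd b c : ℝ) < 2 * X
        then f b * f' c else 0) ≤ C * X ^ η * (Ex M' f * Ex M' f') ^ ((1 + η) / 2)) :
    L * frm M (fun b c => if ∃ m ∈ S, InH F f Y (n m) (P0 m) L (τ m) (κ m) a h w W b c then
      W b c * (f b * f' c) else 0) ≤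
      CH C η a h w *
        (∑ m ∈ S, τ m ^ (η - 1) * κ m ^ (-((h - a) * ((1 - η) / 2) - a - w)) * n m) *
        ((L * Ex M f) * (L * Ex M f') ^ ((1 + η) / 2)) := by
  set H : ℕ → ℕ → ℕ → ℝ := fun m b c =>
    if InH F f Y (n m) (P0 m) L (τ m) (κ m) a h w W b c then W b c * (f b * f' c) else 0 with hH
  have hHn : ∀ m b c, 0 ≤ H m b c := by
    intro m b c
    simp only [hH]
    split_ifs
    · exact mul_nonneg (hW0 b c) (mul_nonneg (hf b).1 (hf' c).1)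
    · exact le_rfl
  calc L * frm M (fun b c => if ∃ m ∈ S, InH F f Y (n m) (P0 m) L (τ m) (κ m) a h w W b c then
        W b c * (f b * f' c) else 0)
      ≤ L * frm M (fun b c => ∑ m ∈ S, H m b c) := by
        refine mul_le_mul_of_nonneg_left (frm_mono fun b c _ _ => ?_) hL.le
        by_cases hex : ∃ m ∈ S, InH F f Y (n m) (P0 m) L (τ m) (κ m) a h w W b c
        · rw [if_pos hex]
          obtain ⟨m, hm, hin⟩ := hex
          refine le_trans (le_of_eq ?_) (Finset.single_le_sum (f := fun m => H m b c)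
            (fun m _ => hHn m b c) hm)
          simp only [hH]
          rw [if_pos hin]
        · rw [if_neg hex]
          exact Finset.sum_nonneg fun m _ => hHn m b c
    _ = ∑ m ∈ S, L * frm M (H m) := by rw [← frm_sum, Finset.mul_sum]
    _ ≤ ∑ m ∈ S, CH C η a h w * τ m ^ (η - 1) *
        κ m ^ (-((h - a) * ((1 - η) / 2) - a - w)) * n m *
        ((L * Ex M f) * (L * Ex M f') ^ ((1 + η) / 2)) :=
        Finset.sum_le_sum fun m _ => classH_core hM F hη0 hη1 ha hw hs hC Y (n m) (P0 m) hL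
          (hτ m) (hκ m) hf hf' HVW
    _ = _ := by
        rw [Finset.mul_sum, Finset.sum_mul]
        refine Finset.sum_congr rfl fun m _ => ?_
        ring

open Classical in
/-- HVW in the form used here -/
theorem hvw_form {η : ℝ} (hη0 : 0 < η) (hη1 : η < 1) : ∃ C : ℝ, 0 ≤ C ∧ ∀ (M' : ℕ), 0 < M' →
    ∀ f f' : ℕ → ℝ, (∀ b, 0 ≤ f b ∧ f b ≤ 1) → (∀ b, 0 ≤ f' b ∧ f' b ≤ 1) → ∀ X : ℝ, 0 < X →
      frm M' (fun b c => if X ≤ (Nat.gcd b c : ℝ) ∧ (Nat.gcd b c : ℝ) < 2 * X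
        then f b * f' c else 0) ≤ C * X ^ η * (Ex M' f * Ex M' f') ^ ((1 + η) / 2) := by
  obtain ⟨C, hC, h⟩ := ThmRx19.hvw_b (κ := (1 + η) / 2) (by linarith) (by linarith)
  refine ⟨C, hC.le, fun M' hM' f f' hf hf' X hX => ?_⟩
  have h1 := h M' X f f' hM'.ne' hX (fun b => (hf b).1) (fun b => (hf b).2)
    (fun b => (hf' b).1) (fun b => (hf' b).2)
  have e : 2 * ((1 + η) / 2) - 1 = η := by ring
  rw [e] at h1
  calc frm M' (fun b c => if X ≤ (Nat.gcd b c : ℝ) ∧ (Nat.gcd b c : ℝ) < 2 * X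
        then f b * f' c else 0)
      = ∑ b ∈ M'.divisors, ∑ c ∈ M'.divisors,
        (if X ≤ (Nat.gcd b c : ℝ) ∧ (Nat.gcd b c : ℝ) < 2 * X then
          (Nat.gcd b c : ℝ) * nu M' b * nu M' c * (f b * f' c)
        else 0) := by
        unfold frm
        refine Finset.sum_congr rfl fun b _ => Finset.sum_congr rfl fun c _ => ?_
        beta_reduce
        split_ifs <;> ring
    _ ≤ _ := h1
    _ = _ := by
        rw [Real.mul_rpow (Ex_nonneg _ fun b => (hf b).1) (Ex_nonneg _ fun b => (hf' b).1)]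
        unfold Ex
        ring

/-! ### link with the rule (Rule_945) -/

section rule

variable {P : Par}

/-- a used depth `K` larger than the trivial threshold makes `b` heavy -/
theorem inH_of_thr {ε δ w a κ τ K : ℝ} {f : ℕ → ℝ} {W : ℕ → ℕ → ℝ} {P0 b c n i : ℕ}
    (hf : ∀ b, 0 ≤ f b) (hε : 0 < ε) (hK1 : 0 ≤ K)
    (hY : Monotone P.Y) (hthr : P.thr = thrS M f P.Y δ ε) (hn : ∀ i, P.Y i ≤ P0 → i < n)
    (hg : F.good P0 b c) (hsc : τ * P.L ≤ (Nat.gcd b c : ℝ)) (hκ : κ ≤ K)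
    (hd : K ≤ P.thr b i) (hi : P.Y i ≤ P0) (hYm : (P.Y (i - 1) : ℝ) ^ δ < K)
    (hu : (F.uu P0 b : ℝ) ≤ K ^ a * P.L) (hW : W b c ≤ K ^ w) :
    InH F f P.Y n P0 P.L τ κ a (1 / ε) w W b c := by
  have hThS : K ≤ ThS M f P.Y b i ^ ε := by
    rw [hthr] at hd
    have h3 : K ≤ max ((P.Y (i - 1) : ℝ) ^ δ) (ThS M f P.Y b i ^ ε) :=
      hd.trans (min_le_left _ _)
    rcases le_max_iff.1 h3 with h4 | h4
    · exact absurd h4 (not_le.2 hYm)
    · exact h4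
  obtain ⟨j, hji, hj⟩ := exists_Th M f P.Y b i
  have hThK : K ^ (1 / ε) ≤ Th M f (P.Y j) b := by
    have h5 : 0 ≤ ThS M f P.Y b i := by rw [hj]; exact Th_nonneg M hf _ _
    rw [← hj]
    calc K ^ (1 / ε) ≤ (ThS M f P.Y b i ^ ε) ^ (1 / ε) :=
          Real.rpow_le_rpow hK1 hThS (by positivity)
      _ = ThS M f P.Y b i := by
          rw [← Real.rpow_mul h5, mul_one_div_cancel hε.ne', Real.rpow_one]
  have hYj : P.Y j ≤ P0 := (hY hji).trans hi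
  exact ⟨hg, hsc, K, hκ, hu, hW, j, hn j hYj, hYj, hThK⟩

/-- (H)-situation of 945's rule, cut scale `2^m`: at a scale `2^m₁ ≥ 2^m` the item `b` has the
tree centre `f₁` and it uses a different centre `f₂` of a scale `m₂ ≥ m₁`, admissible for a
block `i` below the cut; `w` : admissible weight exponent -/
def HC (F : FL M) (P : Par) (w : ℝ) (W : ℕ → ℕ → ℝ) (m b c : ℕ) : Prop :=
  ∃ (m₁ m₂ : ℕ) (f₁ f₂ : ℚ) (i : ℕ), m ≤ m₁ ∧ m₁ ≤ m₂ ∧ f₁ ≠ f₂ ∧ TC F P m₁ b f₁ ∧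
    dep F P m₂ b f₂ ≤ P.thr b i ∧ P.Y i ≤ P.cut m ∧ W b c ≤ (dep F P m₂ b f₂) ^ w

/-- class (H) at the cut scale `2^m` -/
def HPair (F : FL M) (P : Par) (w : ℝ) (W : ℕ → ℕ → ℝ) (m b c : ℕ) : Prop :=
  F.good (P.cut m) b c ∧ P.L / 2 ^ m ≤ (Nat.gcd b c : ℝ) ∧ HC F P w W m b c

/-- numbers of a conflict: the depth of the second centre is `≥ 2^(19 m₁/20)`, and
`u ≤ K^(11/10) L` -/
theorem conf_num {m₁ m₂ b : ℕ} {f₁ f₂ : ℚ} (hM : 0 < M) (hb : b ∣ M) (hL : 0 < P.L)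
    (hcut : Monotone P.cut) (hE : 2 * P.E m₁ ^ 2 ≤ (2 : ℝ) ^ ((m₁ : ℝ) / 20)) (h12 : m₁ ≤ m₂)
    (hne : f₁ ≠ f₂) (hT : TC F P m₁ b f₁) :
    (2 : ℝ) ^ (19 * (m₁ : ℝ) / 20) ≤ dep F P m₂ b f₂ ∧
      (F.uu (P.cut m₁) b : ℝ) ≤ dep F P m₂ b f₂ ^ (11 / 10 : ℝ) * P.L := by
  set K := dep F P m₂ b f₂ with hK
  have hK1 : 1 ≤ K := one_le_dep m₂ b f₂
  have h2 : (1 : ℝ) < 2 := by norm_num
  have h20 : (0 : ℝ) < 2 := by norm_num
  have hd1 : 2 * dep F P m₁ b f₁ ≤ (2 : ℝ) ^ ((m₁ : ℝ) / 20) :=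
    (mul_le_mul_of_nonneg_left (hT.dep_le hL) (by norm_num)).trans hE
  have hd0 : 0 < dep F P m₁ b f₁ := by linarith [one_le_dep (F := F) (P := P) m₁ b f₁]
  have hsc2 := conflict_scale (F := F) hL hM hcut hb h12 hT hne
  have hκ : (2 : ℝ) ^ (19 * (m₁ : ℝ) / 20) ≤ K := by
    have h3 : (2 : ℝ) ^ m₁ ≤ (2 : ℝ) ^ ((m₁ : ℝ) / 20) * K := by
      refine hsc2.trans ?_
      exact mul_le_mul_of_nonneg_right hd1 (by linarith)
    have h4 : (2 : ℝ) ^ m₁ = (2 : ℝ) ^ ((m₁ : ℝ) / 20) * (2 : ℝ) ^ (19 * (m₁ : ℝ) / 20) := by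
      rw [← Real.rpow_add h20, ← Real.rpow_natCast]
      congr 1
      ring
    rw [h4] at h3
    exact le_of_mul_le_mul_left h3 (Real.rpow_pos_of_pos h20 _)
  refine ⟨hκ, (conflict_uu (F := F) hL hM hcut hb h12 hne).trans ?_⟩
  refine mul_le_mul_of_nonneg_right ?_ hL.le
  have h4 : (2 : ℝ) ^ ((m₁ : ℝ) / 20) ≤ K ^ (1 / 10 : ℝ) := by
    have h5 : (2 : ℝ) ^ ((m₁ : ℝ) / 20) ≤ ((2 : ℝ) ^ (19 * (m₁ : ℝ) / 20)) ^ (1 / 10 : ℝ) := by
      rw [← Real.rpow_mul h20.le]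
      refine Real.rpow_le_rpow_of_exponent_le h2.le ?_
      have : (0 : ℝ) ≤ m₁ := Nat.cast_nonneg m₁
      nlinarith
    exact h5.trans (Real.rpow_le_rpow (by positivity) hκ (by norm_num))
  calc 2 * dep F P m₁ b f₁ * K ≤ (2 : ℝ) ^ ((m₁ : ℝ) / 20) * K :=
        mul_le_mul_of_nonneg_right hd1 (by linarith)
    _ ≤ K ^ (1 / 10 : ℝ) * K := mul_le_mul_of_nonneg_right h4 (by linarith)
    _ = K ^ (11 / 10 : ℝ) := by
        nth_rewrite 2 [← Real.rpow_one K]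
        rw [← Real.rpow_add (by linarith)]
        norm_num

/-- the conflict makes `b` heavy: `HPair` gives `InH` with `a = 11/10`, `h = 1/ε`,
`κ = 2^(19 m / 20)`, `τ = 2^(-m)` -/
theorem inH_of_HPair {ε δ w : ℝ} {f : ℕ → ℝ} {W : ℕ → ℕ → ℝ} {m b c n : ℕ} (hM : 0 < M)
    (hb : b ∣ M) (hL : 0 < P.L) (hf : ∀ b, 0 ≤ f b) (hε : 0 < ε) (hδ : 0 ≤ δ)
    (hcut : Monotone P.cut) (hY : Monotone P.Y) (hthr : P.thr = thrS M f P.Y δ ε)
    (hE : ∀ m₁, m ≤ m₁ → 2 * P.E m₁ ^ 2 ≤ (2 : ℝ) ^ ((m₁ : ℝ) / 20))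
    (hδm : (P.cut m : ℝ) ^ δ < (2 : ℝ) ^ (19 * (m : ℝ) / 20))
    (hn : ∀ i, P.Y i ≤ P.cut m → i < n) (h : HPair F P w W m b c) :
    InH F f P.Y n (P.cut m) P.L (1 / 2 ^ m) ((2 : ℝ) ^ (19 * (m : ℝ) / 20)) (11 / 10) (1 / ε) w
      W b c := by
  obtain ⟨hg, hsc, m₁, m₂, f₁, f₂, i, hm1, hmm, hne, hT, hd, hi, hW⟩ := h
  obtain ⟨hκ, hu⟩ := conf_num (F := F) hM hb hL hcut (hE m₁ hm1) hmm hne hT
  have h20 : (1 : ℝ) ≤ 2 := by norm_num
  have hκ' : (2 : ℝ) ^ (19 * (m : ℝ) / 20) ≤ dep F P m₂ b f₂ := by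
    refine le_trans (Real.rpow_le_rpow_of_exponent_le h20 ?_) hκ
    have : (m : ℝ) ≤ m₁ := by exact_mod_cast hm1
    linarith
  refine inH_of_thr (ε := ε) (δ := δ) hf hε (by linarith [one_le_dep (F := F) (P := P) m₂ b f₂])
    hY hthr hn hg (le_trans (le_of_eq (by ring)) hsc) hκ' hd hi ?_ ?_ hW
  · have h3 : (P.Y (i - 1) : ℝ) ≤ P.cut m := by
      exact_mod_cast (hY (Nat.sub_le i 1)).trans hi
    exact lt_of_le_of_lt (Real.rpow_le_rpow (Nat.cast_nonneg _) h3 hδ) (hδm.trans_le hκ')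
  · refine le_trans ?_ hu
    exact_mod_cast Nat.le_of_dvd (FL.uu_pos _ _) (FL.uu_dvd_uu (hcut hm1))

lemma TC.le_N' (hL : 0 < P.L) (hN : (M : ℝ) / P.L ≤ P.N) (hM : 0 < M) {m b : ℕ} (hb : b ∣ M)
    {f : ℚ} (h : TC F P m b f) : m ≤ P.N := h.le_N hL hN hM hb

open Classical in
/-- **CLASS (H) OF THE RULE**, all cut scales `2^m ≥ 2^{m0}`, all pair scales `≥ 2^{-m}`, all
depths, all cuts, partner arbitrary, weight (boost) `W ≤ K^w`. -/
theorem classH_rule {η ε w : ℝ} (hη0 : 0 < η) (hη1 : η < 1) (hε : 0 < ε) (hw : 0 ≤ w)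
    (hs : 16 / 5 ≤ (1 / ε - 11 / 10) * ((1 - η) / 2) - 11 / 10 - w) :
    ∃ C : ℝ, 0 ≤ C ∧ ∀ (M : ℕ), 0 < M → ∀ (F : FL M) (P : Par) (δ n0 : ℝ) (f f' : ℕ → ℝ)
      (W : ℕ → ℕ → ℝ) (n : ℕ → ℕ), (∀ b c, 0 ≤ W b c) → 0 < P.L → 0 ≤ δ →
      (∀ b, 0 ≤ f b ∧ f b ≤ 1) →
      (∀ b, 0 ≤ f' b ∧ f' b ≤ 1) → Monotone P.cut → Monotone P.Y →
      P.thr = thrS M f P.Y δ ε → (M : ℝ) / P.L ≤ P.N → 0 ≤ n0 →
      (∀ m, P.m0 ≤ m → 2 * P.E m ^ 2 ≤ (2 : ℝ) ^ ((m : ℝ) / 20)) →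
      (∀ m, P.m0 ≤ m → (P.cut m : ℝ) ^ δ < (2 : ℝ) ^ (19 * (m : ℝ) / 20)) →
      (∀ m i, P.Y i ≤ P.cut m → i < n m) → (∀ m, (n m : ℝ) ≤ n0 * (m + 1)) →
      P.L * frm M (fun b c => if ∃ m, P.m0 ≤ m ∧ HPair F P w W m b c then W b c * (f b * f' c)
        else 0) ≤
        C * n0 * (2 : ℝ) ^ (-(P.m0 : ℝ)) * ((P.L * Ex M f) * (P.L * Ex M f') ^ ((1 + η) / 2)) := by
  obtain ⟨C, hC, hvw⟩ := hvw_form hη0 hη1
  have hs0 : 0 < (1 / ε - 11 / 10) * ((1 - η) / 2) - 11 / 10 - w := by linarith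
  have hCH0 : 0 ≤ CH C η (11 / 10) (1 / ε) w := by
    unfold CH
    exact mul_nonneg (mul_nonneg hC (by positivity))
      (mul_nonneg (gC_pos (by linarith)).le (gC_pos hs0).le)
  refine ⟨CH C η (11 / 10) (1 / ε) w * gC 1, mul_nonneg hCH0 (gC_pos one_pos).le, ?_⟩
  intro M hM F P δ n0 f f' W n hW0 hL hδ hf hf' hcut hY hthr hN hn0 hE hδm hn hnn
  set s := (1 / ε - 11 / 10) * ((1 - η) / 2) - 11 / 10 - w with hsd
  set m1 := (P.L * Ex M f) * (P.L * Ex M f') ^ ((1 + η) / 2) with hm1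
  have hm0 : 0 ≤ m1 := mul_nonneg (mul_nonneg hL.le (Ex_nonneg _ fun b => (hf b).1))
    (Real.rpow_nonneg (mul_nonneg hL.le (Ex_nonneg _ fun b => (hf' b).1)) _)
  set S := (range (P.N + 1)).filter (fun m => P.m0 ≤ m) with hS
  have hfam := classH_family hM F (η := η) (a := 11 / 10) (h := 1 / ε) (w := w) (C := C) hη0.le hη1
    (by norm_num) hw hs0 hC P.Y S n P.cut (L := P.L) (τ := fun m => 1 / 2 ^ m)
    (κ := fun m => (2 : ℝ) ^ (19 * (m : ℝ) / 20)) hL (fun m => by positivity)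
    (fun m => by positivity) hf hf' (W := W) hW0
    (fun M' hM' => hvw M' (Nat.pos_of_dvd_of_pos hM' hM))
  rw [← hsd] at hfam
  -- one scale
  have hone : ∀ m ∈ S, (1 / (2 : ℝ) ^ m) ^ (η - 1) * ((2 : ℝ) ^ (19 * (m : ℝ) / 20)) ^ (-s) *
      (n m : ℝ) ≤ n0 * (2 : ℝ) ^ (-(m : ℝ)) := by
    intro m _
    have h2 : (1 / (2 : ℝ) ^ m) ^ (η - 1) = (2 : ℝ) ^ ((1 - η) * m) := by
      rw [one_div, ← Real.rpow_natCast, ← Real.rpow_neg (by norm_num),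
        ← Real.rpow_mul (by norm_num)]
      congr 1
      ring
    have h3 : ((2 : ℝ) ^ (19 * (m : ℝ) / 20)) ^ (-s) = (2 : ℝ) ^ (-(19 * m / 20 * s)) := by
      rw [← Real.rpow_mul (by norm_num)]
      congr 1
      ring
    have h4 : ((m : ℝ) + 1) ≤ (2 : ℝ) ^ (m : ℝ) := by
      rw [Real.rpow_natCast]
      have : m + 1 ≤ 2 ^ m := Nat.lt_two_pow_self
      exact_mod_cast this
    have h5 : (2 : ℝ) ^ ((1 - η) * m) * (2 : ℝ) ^ (-(19 * m / 20 * s)) * (2 : ℝ) ^ (m : ℝ) ≤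
        (2 : ℝ) ^ (-(m : ℝ)) := by
      rw [← Real.rpow_add (by norm_num), ← Real.rpow_add (by norm_num)]
      refine Real.rpow_le_rpow_of_exponent_le (by norm_num) ?_
      have hm : (0 : ℝ) ≤ m := Nat.cast_nonneg m
      have : 16 / 5 ≤ s := hs
      nlinarith [mul_nonneg hm (sub_nonneg.2 this), mul_nonneg hm hη0.le]
    rw [h2, h3]
    calc (2 : ℝ) ^ ((1 - η) * m) * (2 : ℝ) ^ (-(19 * m / 20 * s)) * (n m : ℝ)
        ≤ (2 : ℝ) ^ ((1 - η) * m) * (2 : ℝ) ^ (-(19 * m / 20 * s)) * (n0 * (2 : ℝ) ^ (m : ℝ)) := by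
          refine mul_le_mul_of_nonneg_left ?_ (by positivity)
          exact (hnn m).trans (mul_le_mul_of_nonneg_left h4 hn0)
      _ = n0 * ((2 : ℝ) ^ ((1 - η) * m) *
          (2 : ℝ) ^ (-(19 * m / 20 * s)) * (2 : ℝ) ^ (m : ℝ)) := by ring
      _ ≤ _ := mul_le_mul_of_nonneg_left h5 hn0
  have hsum : ∑ m ∈ S, (2 : ℝ) ^ (-(m : ℝ)) ≤ gC 1 * (2 : ℝ) ^ (-(P.m0 : ℝ)) := by
    have h6 : ∑ m ∈ S, (2 : ℝ) ^ (-(m : ℝ)) =
        ∑ m ∈ S.image (fun m => m - P.m0), (2 : ℝ) ^ (-(P.m0 : ℝ)) *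
          (2 : ℝ) ^ (-(1 * (m : ℝ))) := by
      rw [Finset.sum_image]
      · refine Finset.sum_congr rfl fun m hm => ?_
        rw [hS, Finset.mem_filter] at hm
        rw [← Real.rpow_add (by norm_num)]
        congr 1
        push_cast [Nat.cast_sub hm.2]
        ring
      · intro x hx y hy hxy
        have h7 := (Finset.mem_filter.1 (Finset.mem_coe.1 hx)).2
        have h8 := (Finset.mem_filter.1 (Finset.mem_coe.1 hy)).2
        have h9 : x - P.m0 = y - P.m0 := hxy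
        omega
    rw [h6, ← Finset.mul_sum, mul_comm (gC 1)]
    exact mul_le_mul_of_nonneg_left (geom_finset one_pos _) (by positivity)
  calc P.L * frm M (fun b c => if ∃ m, P.m0 ≤ m ∧ HPair F P w W m b c then
        W b c * (f b * f' c) else 0)
      ≤ P.L * frm M (fun b c => if ∃ m ∈ S, InH F f P.Y (n m) (P.cut m) P.L (1 / 2 ^ m)
        ((2 : ℝ) ^ (19 * (m : ℝ) / 20)) (11 / 10) (1 / ε) w W b c then
          W b c * (f b * f' c) else 0) := by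
        refine mul_le_mul_of_nonneg_left (frm_mono fun b c hb hc => ?_) hL.le
        by_cases hex : ∃ m, P.m0 ≤ m ∧ HPair F P w W m b c
        · rw [if_pos hex]
          obtain ⟨m, hm, hp⟩ := hex
          have hin := inH_of_HPair (ε := ε) (δ := δ) (n := n m) hM hb hL (fun b => (hf b).1) hε
            hδ hcut hY hthr (fun m₁ h1 => hE m₁ (hm.trans h1)) (hδm m hm) (hn m) hp
          have hmN : m ≤ P.N := by
            obtain ⟨_, _, m₁, m₂, f₁, f₂, i, h1, _, _, hT, _⟩ := hp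
            exact h1.trans (hT.le_N hL hN hM hb)
          have hmS : m ∈ S := by
            rw [hS, Finset.mem_filter, Finset.mem_range]
            exact ⟨by omega, hm⟩
          rw [if_pos ⟨m, hmS, hin⟩]
        · rw [if_neg hex]
          split_ifs
          · exact mul_nonneg (hW0 b c) (mul_nonneg (hf b).1 (hf' c).1)
          · exact le_rfl
    _ ≤ CH C η (11 / 10) (1 / ε) w *
        (∑ m ∈ S, (1 / (2 : ℝ) ^ m) ^ (η - 1) * ((2 : ℝ) ^ (19 * (m : ℝ) / 20)) ^ (-s) *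
          (n m : ℝ)) * m1 := hfam
    _ ≤ CH C η (11 / 10) (1 / ε) w * (n0 * (gC 1 * (2 : ℝ) ^ (-(P.m0 : ℝ)))) * m1 := by
        refine mul_le_mul_of_nonneg_right (mul_le_mul_of_nonneg_left ?_ hCH0) hm0
        refine (Finset.sum_le_sum hone).trans ?_
        rw [← Finset.mul_sum]
        exact mul_le_mul_of_nonneg_left hsum hn0
    _ = _ := by ring

lemma frm_swap (M : ℕ) (K : ℕ → ℕ → ℝ) : frm M (fun b c => K c b) = frm M K := by
  unfold frm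
  rw [Finset.sum_comm]
  refine Finset.sum_congr rfl fun b _ => Finset.sum_congr rfl fun c _ => ?_
  rw [Nat.gcd_comm]
  ring

open Classical in
/-- the same with the **second** member heavy -/
theorem classH_rule_symm {η ε w : ℝ} (hη0 : 0 < η) (hη1 : η < 1) (hε : 0 < ε) (hw : 0 ≤ w)
    (hs : 16 / 5 ≤ (1 / ε - 11 / 10) * ((1 - η) / 2) - 11 / 10 - w) :
    ∃ C : ℝ, 0 ≤ C ∧ ∀ (M : ℕ), 0 < M → ∀ (F : FL M) (P : Par) (δ n0 : ℝ) (f f' : ℕ → ℝ)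
      (W : ℕ → ℕ → ℝ) (n : ℕ → ℕ), (∀ b c, 0 ≤ W b c) → 0 < P.L → 0 ≤ δ →
      (∀ b, 0 ≤ f b ∧ f b ≤ 1) →
      (∀ b, 0 ≤ f' b ∧ f' b ≤ 1) → Monotone P.cut → Monotone P.Y →
      P.thr = thrS M f P.Y δ ε → (M : ℝ) / P.L ≤ P.N → 0 ≤ n0 →
      (∀ m, P.m0 ≤ m → 2 * P.E m ^ 2 ≤ (2 : ℝ) ^ ((m : ℝ) / 20)) →
      (∀ m, P.m0 ≤ m → (P.cut m : ℝ) ^ δ < (2 : ℝ) ^ (19 * (m : ℝ) / 20)) →
      (∀ m i, P.Y i ≤ P.cut m → i < n m) → (∀ m, (n m : ℝ) ≤ n0 * (m + 1)) →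
      P.L * frm M (fun b c => if ∃ m, P.m0 ≤ m ∧ HPair F P w (fun c b => W b c) m c b then
        W b c * (f' b * f c) else 0) ≤
        C * n0 * (2 : ℝ) ^ (-(P.m0 : ℝ)) * ((P.L * Ex M f) * (P.L * Ex M f') ^ ((1 + η) / 2)) := by
  obtain ⟨C, hC, h⟩ := classH_rule hη0 hη1 hε hw hs
  refine ⟨C, hC, ?_⟩
  intro M hM F P δ n0 f f' W n hW0 hL hδ hf hf' hcut hY hthr hN hn0 hE hδm hn hnn
  have h1 := h M hM F P δ n0 f f' (fun c b => W b c) n (fun b c => hW0 c b) hL hδ hf hf' hcut hY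
    hthr hN hn0 hE hδm hn hnn
  refine le_trans (le_of_eq ?_) h1
  congr 1
  rw [← frm_swap]
  unfold frm
  refine Finset.sum_congr rfl fun b _ => Finset.sum_congr rfl fun c _ => ?_
  beta_reduce
  rw [mul_comm (f' c) (f b)]

end rule

end Crest.Agent.R4C.S5Hx21
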