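import Crest.Agent.R4C.Rule_945
import Crest.Agent.R4C.HeavyC_899
import Crest.Agent.R4C.HeavyU_50

/-!
# Row 4, BLOCK S5, class (H) (note 3383 (5), (7)), helper952

Over an F-Λ structure `F : FL M` and the rule of `Rule_945` (`Par`, `TC`, `dep`, `Th`, `ThS`), with
a threshold `P.thr b i ≤ max (Y(i-1)^δ) (ThS b i ^ ε)`, `δ A ≤ 1/4`, `ε ≤ 1/20`, cuts
`P.cut m ≤ 2^(A m)`.

* `HK F P m k b c` : `(b, c)` is good above the cut of the scale `t = 2^m`, `gcd (b, c) ≥ L / t`,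
  `b` has a tree centre at the scale `t` and ANOTHER tree centre at a larger scale, of depth
  `K* ∈ [2^k, 2^(k+1))`, below the threshold of `b` at some block active for `t`
* `classH` : all pairs `HK`, `m ≥ m0`, together, with any weight `≤ 4^k`:
  energy `≤ C 2^(-m0) m m'^((1+η)/2)`.
-/

set_option autoImplicit false

namespace Crest.Agent.R4C.S5Hx952

open Finset Crest.Agent.R4C.Basex935 Crest.Agent.R4C.Cutx50 Crest.Agent.R4C.HeavyLx50
open Crest.Agent.R4C.FLDefx935 Crest.Agent.R4C.Rulex945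

lemma ThS_nonneg {M : ℕ} {f : ℕ → ℝ} (hf : ∀ b, 0 ≤ f b) (Y : ℕ → ℕ) (b n : ℕ) :
    0 ≤ ThS M f Y b n := by
  obtain ⟨i, _, e⟩ := exists_Th M f Y b n
  rw [e]
  exact Th_nonneg M hf _ _

/-! ### the word `uu` and a lower cut -/

section FLs

variable {M : ℕ} {F : FL M}

lemma ctr_upp {x b q : ℕ} (hb : b ∣ M) (hq : q.Prime) (hx : x < q) :
    F.ctr (upp x b) q = F.ctr b q := by
  refine F.coh ((upp_dvd_self x b).trans hb) hb hq fun r _ hqr _ => ?_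
  rw [fact_upp, if_pos (by omega)]

/-- `uu x b` splits at a cut `y ≤ x` -/
lemma uu_split {x y b : ℕ} (hM : 0 < M) (hb : b ∣ M) (hyx : y ≤ x) :
    F.uu x b = low y b * F.uu x (upp y b) := by
  refine Nat.eq_of_factorization_eq (FL.uu_pos x b).ne'
    (mul_ne_zero (low_pos y b).ne' (FL.uu_pos x _).ne') fun p => ?_
  rw [Nat.factorization_mul (low_pos y b).ne' (FL.uu_pos x _).ne', Finsupp.add_apply,
    FL.fact_uu, FL.fact_uu, fact_low]
  by_cases hp : p ∈ M.primeFactors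
  · have hpp := Nat.prime_of_mem_primeFactors hp
    rw [if_pos hp, if_pos hp]
    unfold FL.uuE
    by_cases hx : x < p
    · have hy : y < p := by omega
      rw [if_pos hx, if_pos hx, ctr_upp hb hpp hy, fact_upp, if_pos (by omega : ¬ p ≤ y),
        if_neg (by omega : ¬ p ≤ y), zero_add]
    · rw [if_neg hx, if_neg hx, fact_upp]
      by_cases hy : p ≤ y
      · rw [if_pos hy, if_neg (by omega), add_zero]
      · rw [if_neg hy, if_pos hy, zero_add]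
  · rw [if_neg hp, if_neg hp, FL.fact_zero hM hb hp]
    simp

lemma gcd_upp_eq (y b c : ℕ) (hb : b ≠ 0) (hc : c ≠ 0) :
    Nat.gcd b c = Nat.gcd (low y b) (low y c) * Nat.gcd (upp y b) c := by
  have h1 : Nat.gcd (low y b) (low y c) ≠ 0 := Nat.gcd_ne_zero_left (low_pos _ _).ne'
  have h2 : Nat.gcd (upp y b) c ≠ 0 := Nat.gcd_ne_zero_left (upp_pos _ _).ne'
  refine Nat.eq_of_factorization_eq (Nat.gcd_ne_zero_left hb) (mul_ne_zero h1 h2) fun p => ?_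
  rw [Nat.factorization_mul h1 h2, Nat.factorization_gcd hb hc,
    Nat.factorization_gcd (low_pos _ _).ne' (low_pos _ _).ne',
    Nat.factorization_gcd (upp_pos _ _).ne' hc]
  simp only [Finsupp.add_apply, Finsupp.inf_apply, fact_low, fact_upp]
  by_cases hp : p ≤ y <;> simp [hp]

/-- the upper common part of a good pair divides `uu x (upp y b)` -/
lemma gcd_dvd_uu {x y b c : ℕ} (hM : 0 < M) (hb : b ∣ M) (hc : c ∣ M) (hyx : y ≤ x)
    (h : F.good x b c) : Nat.gcd (upp y b) c ∣ F.uu x (upp y b) := by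
  have h1 := FL.good_gcd_dvd_uu hM hb hc h
  have h2 : Nat.gcd (upp y b) c ∣ Nat.gcd b c :=
    Nat.gcd_dvd_gcd_of_dvd_left _ (upp_dvd_self y b)
  have h3 : Nat.gcd (upp y b) c ∣ low y b * F.uu x (upp y b) := by
    rw [← uu_split hM hb hyx]
    exact h2.trans h1
  refine Nat.Coprime.dvd_of_dvd_mul_left ?_ h3
  refine Nat.Coprime.coprime_dvd_left (Nat.gcd_dvd_left _ _) ?_
  exact (coprime_part (fun p => p ≤ y) b b).symm

/-- the cofactor is at most `uu x b / gcd (b, c)` -/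
lemma cofactor_le {x y b c : ℕ} (hM : 0 < M) (hb : b ∣ M) (hc : c ∣ M) (hyx : y ≤ x) :
    F.uu x (upp y b) * Nat.gcd b c ≤ F.uu x b * Nat.gcd (upp y b) c := by
  have hb0 : b ≠ 0 := (Nat.pos_of_dvd_of_pos hb hM).ne'
  have hc0 : c ≠ 0 := (Nat.pos_of_dvd_of_pos hc hM).ne'
  rw [uu_split hM hb hyx, gcd_upp_eq y b c hb0 hc0]
  have h1 : Nat.gcd (low y b) (low y c) ≤ low y b := Nat.gcd_le_left _ (low_pos y b)
  calc F.uu x (upp y b) * (Nat.gcd (low y b) (low y c) * Nat.gcd (upp y b) c)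
      ≤ F.uu x (upp y b) * (low y b * Nat.gcd (upp y b) c) := by gcongr
    _ = _ := by ring

end FLs

/-! ### the list -/

/-- divisors `e` of `n` with cofactor `≤ J` : at most `J` of them -/
lemma card_cof {n : ℕ} {J : ℝ} (hJ : 0 ≤ J) (S : Finset ℕ)
    (hS : ∀ e ∈ S, e ∣ n ∧ (n : ℝ) ≤ e * J) (hn : 0 < n) : (S.card : ℝ) ≤ J := by
  classical
  have h1 : S.card ≤ (Finset.Icc 1 ⌊J⌋₊).card := by
    refine Finset.card_le_card_of_injOn (fun e => n / e) (fun e he => ?_) ?_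
    · obtain ⟨⟨a, ha⟩, h2⟩ := hS e he
      have he0 : 0 < e := by
        rcases Nat.eq_zero_or_pos e with h | h
        · rw [h, zero_mul] at ha; omega
        · exact h
      have h3 : n / e = a := by rw [ha]; exact Nat.mul_div_cancel_left a he0
      have ha0 : 0 < a := by
        rcases Nat.eq_zero_or_pos a with h | h
        · rw [h, mul_zero] at ha; omega
        · exact h
      rw [Finset.coe_Icc, Set.mem_Icc]
      simp only [h3]
      refine ⟨ha0, Nat.le_floor ?_⟩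
      rw [ha] at h2
      push_cast at h2
      exact le_of_mul_le_mul_left h2 (by exact_mod_cast he0)
    · intro e he e' he' h
      simp only at h
      have h2 := (hS e he).1
      have h3 := (hS e' he').1
      have h4 : e = n / (n / e) := (Nat.div_div_self h2 hn.ne').symm
      rw [h4, h, Nat.div_div_self h3 hn.ne']
  rw [Nat.card_Icc] at h1
  have h2 : (S.card : ℝ) ≤ ⌊J⌋₊ := by exact_mod_cast (by omega : S.card ≤ ⌊J⌋₊)
  exact h2.trans (Nat.floor_le hJ)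

open Classical in
/-- the list at the node `T'`, cut `y`, scale cut `x` -/
noncomputable def EL {M : ℕ} (F : FL M) (f : ℕ → ℝ) (x y : ℕ) (L J Γ : ℝ) (T' : ℕ) : Finset ℕ :=
  (F.uu x T').divisors.filter (fun e => (F.uu x T' : ℝ) ≤ e * J ∧
    (e : ℝ) * Γ ≤ L * mass M f y T')

section energy

variable {M : ℕ} (F : FL M)

open Classical in
/-- **one step**: fixed cuts, fixed `J`, `Γ`, scale `τ L ≤ gcd < 2 τ L` -/
theorem stepH {η : ℝ} (hη0 : 0 < η) (hη1 : η < 1) :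
    ∃ C : ℝ, 0 < C ∧ ∀ (M : ℕ) (F : FL M) (x y : ℕ) (τ L J Γ : ℝ) (f f' : ℕ → ℝ), 0 < M →
      0 < τ → 0 < L → 0 ≤ J → 0 < Γ → (∀ b, 0 ≤ f b ∧ f b ≤ 1) → (∀ b, 0 ≤ f' b ∧ f' b ≤ 1) →
      L * frm M (fun b c => if Nat.gcd (upp y b) c ∈ EL F f x y L J Γ (upp y b) ∧
        τ * L ≤ (Nat.gcd b c : ℝ) ∧ (Nat.gcd b c : ℝ) < 2 * (τ * L) then f b * f' c else 0) ≤
      C * τ ^ η * (J * Γ ^ (-((1 - η) / 2))) * (L * Ex M f) *
        (L * Ex M f') ^ ((1 + η) / 2) := by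
  obtain ⟨C, hC, h⟩ := HeavyUx50.hvw hη0 hη1
  refine ⟨C, hC, fun M F x y τ L J Γ f f' hM hτ hL hJ hΓ hf hf' => ?_⟩
  have h1 := HeavyCx899.heavyFix_J hM y (EL F f x y L J Γ) (κ := 2) hη0.le hη1.le hC.le hτ hL
    hΓ hJ hf hf' (fun M' hM' => h M' (Nat.pos_of_dvd_of_pos hM' hM)) (fun T' hT' => ?_)
    (fun T' hT' e he => ?_)
  · exact h1
  · refine card_cof hJ _ (fun e he => ?_) (FL.uu_pos (F := F) x T')
    unfold EL at he
    rw [Finset.mem_filter, Nat.mem_divisors] at he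
    exact ⟨he.1.1, he.2.1⟩
  · unfold EL at he
    rw [Finset.mem_filter] at he
    exact he.2.2

end energy

/-! ### membership -/

/-- class (H) at the scale `t = 2^m`, depth of the other centre in `[2^k, 2^(k+1))` -/
def HK {M : ℕ} (F : FL M) (P : Par) (m k b c : ℕ) : Prop :=
  F.good (P.cut m) b c ∧ P.L ≤ 2 ^ m * (Nat.gcd b c : ℝ) ∧
  ∃ (f₁ f₂ : ℚ) (m₂ j : ℕ), TC F P m b f₁ ∧ m < m₂ ∧ f₁ ≠ f₂ ∧
    dep F P m₂ b f₂ ≤ P.thr b j ∧ P.Y j ≤ P.cut m ∧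
    (2 : ℝ) ^ k ≤ dep F P m₂ b f₂ ∧ dep F P m₂ b f₂ < 2 ^ (k + 1)

/-- the hypotheses on the rule -/
structure RuleH {M : ℕ} (P : Par) (f : ℕ → ℝ) (A m0 : ℕ) (δ ε : ℝ) : Prop where
  L_pos : 0 < P.L
  m0_le : 25 ≤ m0
  δ_nn : 0 ≤ δ
  δ_le : δ * A ≤ 1 / 4
  ε_pos : 0 < ε
  ε_le : ε ≤ 1 / 20
  cut_mono : Monotone P.cut
  cut_le : ∀ m, P.cut m ≤ 2 ^ (A * m)
  Y_mono : Monotone P.Y
  Y_ge : ∀ i, 2 ^ i ≤ P.Y i
  E_le : ∀ m, m0 ≤ m → P.E m ≤ (2 : ℝ) ^ ((m : ℝ) / 100)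
  thr_le : ∀ b j, b ∣ M → P.thr b j ≤ max ((P.Y (j - 1) : ℝ) ^ δ) (ThS M f P.Y b j ^ ε)

/-- the threshold of the text -/
lemma thrS_le_max {M : ℕ} {P : Par} {f : ℕ → ℝ} {δ ε : ℝ}
    (h : P.thr = thrS M f P.Y δ ε) (b j : ℕ) :
    P.thr b j ≤ max ((P.Y (j - 1) : ℝ) ^ δ) (ThS M f P.Y b j ^ ε) := by
  rw [h]
  exact min_le_left _ _

section mem

variable {M : ℕ} {F : FL M} {P : Par} {f : ℕ → ℝ} {A m0 : ℕ} {δ ε : ℝ}

/-- the numbers of class (H): `K* ≥ t^(9/10)`, `uu ≤ K*^2 L`, `K*^20 ≤ ThB` at some cut -/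
theorem numbers (h : RuleH (M := M) P f A m0 δ ε) (hf : ∀ b, 0 ≤ f b) (hM : 0 < M) {m m₂ j b : ℕ}
    (hm : m0 ≤ m) (hb : b ∣ M) {f₁ f₂ : ℚ} (h₁ : TC F P m b f₁) (h12 : m < m₂) (hne : f₁ ≠ f₂)
    (hd : dep F P m₂ b f₂ ≤ P.thr b j) (hj : P.Y j ≤ P.cut m) :
    (2 : ℝ) ^ (9 / 10 * (m : ℝ)) ≤ dep F P m₂ b f₂ ∧
    (F.uu (P.cut m) b : ℝ) ≤ dep F P m₂ b f₂ ^ 2 * P.L ∧
    ∃ i ≤ A * m, P.Y i ≤ P.cut m ∧ dep F P m₂ b f₂ ^ 20 ≤ Th M f (P.Y i) b := by
  have hL := h.L_pos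
  set K := dep F P m₂ b f₂ with hK
  set K₁ := dep F P m b f₁ with hK₁
  have hm25 : (25 : ℝ) ≤ m := by exact_mod_cast h.m0_le.trans hm
  have a0 : 1 ≤ K := one_le_dep m₂ b f₂
  have a1 : 1 ≤ K₁ := one_le_dep m b f₁
  have a2 : K₁ ≤ P.E m ^ 2 := h₁.dep_le hL
  have a3 : 1 ≤ P.E m := (k0_pos' (F := F) (P := P) m b f₁).trans h₁.den
  have a4 : K₁ ≤ (2 : ℝ) ^ ((m : ℝ) / 50) := by
    refine a2.trans ?_
    calc P.E m ^ 2 ≤ ((2 : ℝ) ^ ((m : ℝ) / 100)) ^ 2 :=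
          pow_le_pow_left₀ (by linarith) (h.E_le m hm) 2
      _ = (2 : ℝ) ^ ((m : ℝ) / 50) := by
          rw [← Real.rpow_natCast, ← Real.rpow_mul (by norm_num)]
          congr 1
          push_cast
          ring
  have a5 : 2 * K₁ ≤ (2 : ℝ) ^ ((m : ℝ) / 10) := by
    calc 2 * K₁ ≤ 2 * (2 : ℝ) ^ ((m : ℝ) / 50) := by linarith
      _ = (2 : ℝ) ^ (1 + (m : ℝ) / 50) := by
          rw [Real.rpow_add (by norm_num), Real.rpow_one]
      _ ≤ (2 : ℝ) ^ ((m : ℝ) / 10) :=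
          Real.rpow_le_rpow_of_exponent_le (by norm_num) (by linarith)
  have a6 : (2 : ℝ) ^ m ≤ 2 * K₁ * K := conflict_scale hL hM h.cut_mono hb h12.le h₁ hne
  have a7 : (2 : ℝ) ^ (9 / 10 * (m : ℝ)) ≤ K := by
    have h1 : (2 : ℝ) ^ ((m : ℝ) / 10) * (2 : ℝ) ^ (9 / 10 * (m : ℝ)) ≤
        (2 : ℝ) ^ ((m : ℝ) / 10) * K := by
      calc (2 : ℝ) ^ ((m : ℝ) / 10) * (2 : ℝ) ^ (9 / 10 * (m : ℝ)) = (2 : ℝ) ^ m := by
            rw [← Real.rpow_add (by norm_num), ← Real.rpow_natCast]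
            congr 1
            ring
        _ ≤ 2 * K₁ * K := a6
        _ ≤ (2 : ℝ) ^ ((m : ℝ) / 10) * K := mul_le_mul_of_nonneg_right a5 (by linarith)
    exact le_of_mul_le_mul_left h1 (Real.rpow_pos_of_pos (by norm_num) _)
  have a8 : 2 * K₁ ≤ K := by
    refine a5.trans (le_trans ?_ a7)
    exact Real.rpow_le_rpow_of_exponent_le (by norm_num) (by linarith)
  refine ⟨a7, ?_, ?_⟩
  · refine (conflict_uu (F := F) hL hM h.cut_mono hb h12.le hne).trans ?_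
    refine mul_le_mul_of_nonneg_right ?_ hL.le
    calc 2 * K₁ * K ≤ K * K := mul_le_mul_of_nonneg_right a8 (by linarith)
      _ = K ^ 2 := by ring
  · have b1 : (P.Y (j - 1) : ℝ) ^ δ < K := by
      refine lt_of_lt_of_le ?_ a7
      calc (P.Y (j - 1) : ℝ) ^ δ ≤ ((2 : ℝ) ^ (A * m)) ^ δ := by
            refine Real.rpow_le_rpow (Nat.cast_nonneg _) ?_ h.δ_nn
            have h1 : P.Y (j - 1) ≤ 2 ^ (A * m) :=
              (h.Y_mono (Nat.sub_le j 1)).trans (hj.trans (h.cut_le m))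
            exact_mod_cast h1
        _ = (2 : ℝ) ^ (δ * A * m) := by
            rw [← Real.rpow_natCast, ← Real.rpow_mul (by norm_num)]
            congr 1
            push_cast
            ring
        _ ≤ (2 : ℝ) ^ (1 / 4 * (m : ℝ)) := by
            refine Real.rpow_le_rpow_of_exponent_le (by norm_num) ?_
            exact mul_le_mul_of_nonneg_right h.δ_le (Nat.cast_nonneg _)
        _ < (2 : ℝ) ^ (9 / 10 * (m : ℝ)) :=
            Real.rpow_lt_rpow_of_exponent_lt (by norm_num) (by linarith)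
    have a9 : 1 < K := by
      refine lt_of_lt_of_le ?_ a7
      exact Real.one_lt_rpow (by norm_num) (by linarith)
    have hΘ := ThS_nonneg (M := M) hf P.Y b j
    have b2 : K ≤ ThS M f P.Y b j ^ ε := by
      have := hd.trans (h.thr_le b j hb)
      rcases le_max_iff.1 this with h1 | h1
      · linarith
      · exact h1
    have b4 : 1 ≤ ThS M f P.Y b j := by
      by_contra hc
      have := Real.rpow_le_one hΘ (not_le.1 hc).le h.ε_pos.le
      linarith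
    have b5 : K ≤ ThS M f P.Y b j ^ (1 / 20 : ℝ) :=
      b2.trans (Real.rpow_le_rpow_of_exponent_le b4 h.ε_le)
    have b3 : K ^ 20 ≤ ThS M f P.Y b j := by
      calc K ^ 20 ≤ (ThS M f P.Y b j ^ (1 / 20 : ℝ)) ^ 20 :=
            pow_le_pow_left₀ (by linarith) b5 20
        _ = ThS M f P.Y b j := by
            rw [← Real.rpow_natCast, ← Real.rpow_mul hΘ]
            norm_num
    obtain ⟨i, hi, e⟩ := exists_Th M f P.Y b j
    have c1 : P.Y i ≤ P.cut m := (h.Y_mono hi).trans hj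
    have c2 : i ≤ A * m :=
      (Nat.pow_le_pow_iff_right (by norm_num)).1 ((h.Y_ge i).trans (c1.trans (h.cut_le m)))
    exact ⟨i, c2, c1, e ▸ b3⟩

/-- **membership in the list** -/
theorem mem_EL (h : RuleH (M := M) P f A m0 δ ε) (hf : ∀ b, 0 ≤ f b) (hM : 0 < M) {m k b c : ℕ}
    (hm : m0 ≤ m) (hb : b ∣ M) (hc : c ∣ M) (hk : HK F P m k b c) :
    (2 : ℝ) ^ (9 / 10 * (m : ℝ)) ≤ 2 ^ (k + 1) ∧ ∃ i ≤ A * m, ∃ n : ℕ,
      Nat.gcd (upp (P.Y i) b) c ∈ EL F f (P.cut m) (P.Y i) P.L (4 ^ (k + 1) / (2 ^ n / 2 ^ m))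
        (2 ^ (18 * k)) (upp (P.Y i) b) ∧
      2 ^ n / 2 ^ m * P.L ≤ (Nat.gcd b c : ℝ) ∧ (Nat.gcd b c : ℝ) < 2 * (2 ^ n / 2 ^ m * P.L) := by
  obtain ⟨hg, hs, f₁, f₂, m₂, j, h₁, h12, hne, hd, hj, hk1, hk2⟩ := hk
  have hL := h.L_pos
  obtain ⟨n1, n2, i, hi, hyx, n3⟩ := numbers h hf hM hm hb h₁ h12 hne hd hj
  set K := dep F P m₂ b f₂ with hK
  have a0 : 1 ≤ K := one_le_dep m₂ b f₂
  refine ⟨n1.trans hk2.le, i, hi, ?_⟩
  have hb0 : 0 < b := Nat.pos_of_dvd_of_pos hb hM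
  have hg0 : (0 : ℝ) < Nat.gcd b c := by exact_mod_cast Nat.gcd_pos_of_pos_left c hb0
  have h2m : (0 : ℝ) < 2 ^ m := by positivity
  have hx : 1 ≤ (Nat.gcd b c : ℝ) * 2 ^ m / P.L := by
    rw [le_div_iff₀ hL]
    linarith
  obtain ⟨n, hn1, hn2⟩ := exists_nat_pow_near hx (by norm_num : (1 : ℝ) < 2)
  have w1 : 2 ^ n / 2 ^ m * P.L ≤ (Nat.gcd b c : ℝ) := by
    rw [le_div_iff₀ hL] at hn1
    rw [div_mul_eq_mul_div, div_le_iff₀ h2m]
    exact hn1
  have w2 : (Nat.gcd b c : ℝ) < 2 * (2 ^ n / 2 ^ m * P.L) := by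
    rw [div_lt_iff₀ hL] at hn2
    rw [div_mul_eq_mul_div, ← mul_div_assoc, lt_div_iff₀ h2m]
    calc (Nat.gcd b c : ℝ) * 2 ^ m < 2 ^ (n + 1) * P.L := hn2
      _ = 2 * (2 ^ n * P.L) := by ring
  refine ⟨n, ?_, w1, w2⟩
  set τ : ℝ := 2 ^ n / 2 ^ m with hτ
  have hτ0 : 0 < τ := by positivity
  set y := P.Y i with hy
  set e := Nat.gcd (upp y b) c with he
  have he0 : (0 : ℝ) < e := by
    exact_mod_cast Nat.gcd_pos_of_pos_left c (upp_pos y b)
  set N := F.uu (P.cut m) (upp y b) with hN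
  have hN0 : (0 : ℝ) < N := by exact_mod_cast FL.uu_pos (F := F) (P.cut m) (upp y b)
  have hl0 : (0 : ℝ) < low y b := by exact_mod_cast low_pos y b
  have c1 : e ∣ N := gcd_dvd_uu hM hb hc hyx hg
  have c2 : (N : ℝ) * Nat.gcd b c ≤ F.uu (P.cut m) b * e := by
    exact_mod_cast cofactor_le (F := F) hM hb hc hyx
  have c3 : (F.uu (P.cut m) b : ℝ) = low y b * N := by
    exact_mod_cast uu_split hM hb hyx
  have hKk : K ^ 2 ≤ 4 ^ (k + 1) := by
    calc K ^ 2 ≤ (2 ^ (k + 1)) ^ 2 := pow_le_pow_left₀ (by linarith) hk2.le 2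
      _ = 4 ^ (k + 1) := by
        rw [← pow_mul, mul_comm, pow_mul]
        norm_num
  unfold EL
  rw [Finset.mem_filter, Nat.mem_divisors]
  refine ⟨⟨c1, (FL.uu_pos _ _).ne'⟩, ?_, ?_⟩
  · -- cofactor
    have d1 : (N : ℝ) * (τ * P.L) ≤ (K ^ 2 * P.L) * e := by
      calc (N : ℝ) * (τ * P.L) ≤ N * Nat.gcd b c := mul_le_mul_of_nonneg_left w1 hN0.le
        _ ≤ F.uu (P.cut m) b * e := c2
        _ ≤ (K ^ 2 * P.L) * e := mul_le_mul_of_nonneg_right n2 he0.le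
    have d2 : (N : ℝ) * τ ≤ K ^ 2 * e := by
      have : (N : ℝ) * τ * P.L ≤ K ^ 2 * e * P.L := by
        calc (N : ℝ) * τ * P.L = N * (τ * P.L) := by ring
          _ ≤ (K ^ 2 * P.L) * e := d1
          _ = _ := by ring
      exact le_of_mul_le_mul_right this hL
    rw [mul_div_assoc', le_div_iff₀ hτ0]
    calc (N : ℝ) * τ ≤ K ^ 2 * e := d2
      _ ≤ 4 ^ (k + 1) * e := mul_le_mul_of_nonneg_right hKk he0.le
      _ = _ := by ring
  · -- mass
    have d1 : (e : ℝ) ≤ N := by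
      exact_mod_cast Nat.le_of_dvd (FL.uu_pos _ _) c1
    have hG : (2 : ℝ) ^ (18 * k) ≤ K ^ 18 := by
      calc (2 : ℝ) ^ (18 * k) = (2 ^ k) ^ 18 := by rw [← pow_mul, mul_comm]
        _ ≤ K ^ 18 := pow_le_pow_left₀ (by positivity) hk1 18
    have d2 : (low y b : ℝ) * (e * K ^ 18) ≤ low y b * (P.L * mass M f y (upp y b)) := by
      calc (low y b : ℝ) * (e * K ^ 18) ≤ low y b * (N * K ^ 18) := by gcongr
        _ = F.uu (P.cut m) b * K ^ 18 := by rw [c3]; ring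
        _ ≤ (K ^ 2 * P.L) * K ^ 18 := by gcongr
        _ = P.L * K ^ 20 := by ring
        _ ≤ P.L * Th M f y b := mul_le_mul_of_nonneg_left n3 hL.le
        _ = low y b * (P.L * mass M f y (upp y b)) := by
          unfold Th
          ring
    have d3 := le_of_mul_le_mul_left d2 hl0
    calc (e : ℝ) * 2 ^ (18 * k) ≤ e * K ^ 18 := by gcongr
      _ ≤ _ := d3

end mem

/-! ### summation -/

lemma geom_bound {r : ℝ} (h0 : 0 ≤ r) (h1 : r < 1) (R : ℕ) : ∑ n ∈ range R, r ^ n ≤ 1 / (1 - r) := by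
  refine ((summable_geometric_of_lt_one h0 h1).sum_le_tsum (range R)
    (fun n _ => pow_nonneg h0 n)).trans (le_of_eq ?_)
  rw [tsum_geometric_of_lt_one h0 h1, one_div]

lemma geom_Ico (m0 R : ℕ) : ∑ m ∈ Ico m0 R, (1 / 2 : ℝ) ^ m ≤ 2 * (1 / 2) ^ m0 := by
  rw [Finset.sum_Ico_eq_sum_range]
  have h1 : ∀ i ∈ range (R - m0), (1 / 2 : ℝ) ^ (m0 + i) = (1 / 2) ^ m0 * (1 / 2) ^ i :=
    fun i _ => pow_add _ _ _
  rw [Finset.sum_congr rfl h1, ← Finset.mul_sum]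
  have h2 := geom_bound (r := 1 / 2) (by norm_num) (by norm_num) (R - m0)
  have h3 : (1 : ℝ) / (1 - 1 / 2) = 2 := by norm_num
  rw [h3] at h2
  calc (1 / 2 : ℝ) ^ m0 * ∑ i ∈ range (R - m0), (1 / 2 : ℝ) ^ i ≤ (1 / 2) ^ m0 * 2 :=
        mul_le_mul_of_nonneg_left h2 (by positivity)
    _ = _ := by ring

/-- ratio of the sum over the scales `τ` -/
noncomputable def rr : ℝ := (2 : ℝ) ^ (-(9 / 10) : ℝ)

lemma rr_pos : 0 < rr := Real.rpow_pos_of_pos (by norm_num) _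
lemma rr_lt : rr < 1 := Real.rpow_lt_one_of_one_lt_of_neg (by norm_num) (by norm_num)

lemma term_num {η : ℝ} (hη1 : η ≤ 1 / 10) (hη0 : 0 ≤ η) (A : ℕ) {m k n : ℕ}
    (h : (2 : ℝ) ^ (9 / 10 * (m : ℝ)) ≤ 2 ^ (k + 1)) :
    ((A * m + 1 : ℕ) : ℝ) * (4 ^ k * ((2 ^ n / 2 ^ m : ℝ) ^ η * ((4 ^ (k + 1) / (2 ^ n / 2 ^ m)) *
      ((2 : ℝ) ^ (18 * k)) ^ (-((1 - η) / 2))))) ≤
      (96 * ((A : ℝ) + 1)) * ((1 / 2) ^ m * ((1 / 2) ^ k * rr ^ n)) := by
  -- Γ
  have e1 : ((2 : ℝ) ^ (18 * k)) ^ (-((1 - η) / 2)) ≤ (1 / 256) ^ k := by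
    calc ((2 : ℝ) ^ (18 * k)) ^ (-((1 - η) / 2)) ≤ ((2 : ℝ) ^ (18 * k)) ^ (-(4 / 9) : ℝ) := by
          refine Real.rpow_le_rpow_of_exponent_le (one_le_pow₀ (by norm_num)) ?_
          linarith
      _ = (1 / 256) ^ k := by
          rw [← Real.rpow_natCast, ← Real.rpow_mul (by norm_num)]
          have h2 : ((18 * k : ℕ) : ℝ) * -(4 / 9) = -8 * (k : ℝ) := by
            push_cast
            ring
          rw [h2, Real.rpow_mul (by norm_num), Real.rpow_natCast]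
          congr 1
          rw [show (-8 : ℝ) = ((-8 : ℤ) : ℝ) by norm_num, Real.rpow_intCast]
          norm_num
  -- τ
  have hτ : (0 : ℝ) < 2 ^ n / 2 ^ m := by positivity
  have e2 : (2 ^ n / 2 ^ m : ℝ) ^ η * (4 ^ (k + 1) / (2 ^ n / 2 ^ m)) ≤
      4 ^ (k + 1) * (2 ^ m * rr ^ n) := by
    have h1 : (2 ^ n / 2 ^ m : ℝ) ^ η * (4 ^ (k + 1) / (2 ^ n / 2 ^ m)) =
        4 ^ (k + 1) * (2 ^ n / 2 ^ m : ℝ) ^ (η - 1) := by
      rw [Real.rpow_sub_one hτ.ne']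
      ring
    rw [h1]
    refine mul_le_mul_of_nonneg_left ?_ (by positivity)
    rw [Real.div_rpow (by positivity) (by positivity)]
    have h2 : ((2 : ℝ) ^ n) ^ (η - 1) ≤ rr ^ n := by
      calc ((2 : ℝ) ^ n) ^ (η - 1) ≤ ((2 : ℝ) ^ n) ^ (-(9 / 10) : ℝ) :=
            Real.rpow_le_rpow_of_exponent_le (one_le_pow₀ (by norm_num)) (by linarith)
        _ = rr ^ n := by
            unfold rr
            rw [← Real.rpow_natCast, ← Real.rpow_natCast, ← Real.rpow_mul (by norm_num),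
              ← Real.rpow_mul (by norm_num)]
            congr 1
            ring
    have h3 : (1 : ℝ) ≤ ((2 : ℝ) ^ m) ^ (η - 1) * 2 ^ m := by
      calc (1 : ℝ) ≤ ((2 : ℝ) ^ m) ^ η :=
            Real.one_le_rpow (one_le_pow₀ (by norm_num)) hη0
        _ = _ := by
            rw [Real.rpow_sub_one (by positivity)]
            field_simp
    have h4 : (0 : ℝ) < ((2 : ℝ) ^ m) ^ (η - 1) := Real.rpow_pos_of_pos (by positivity) _
    rw [div_le_iff₀ h4]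
    calc ((2 : ℝ) ^ n) ^ (η - 1) ≤ rr ^ n := h2
      _ ≤ rr ^ n * (((2 : ℝ) ^ m) ^ (η - 1) * 2 ^ m) :=
          le_mul_of_one_le_right (pow_nonneg rr_pos.le _) h3
      _ = _ := by ring
  -- m against k
  have e3 : ((m : ℝ) + 1) * 2 ^ (2 * m) ≤ 3 * (2 ^ (k + 1)) ^ 3 := by
    have h1 : (m : ℝ) + 1 ≤ 3 * (2 : ℝ) ^ (7 / 10 * (m : ℝ)) := by
      have h2 := Real.add_one_le_exp (7 / 10 * (m : ℝ) * Real.log 2)
      have h3 : Real.exp (7 / 10 * (m : ℝ) * Real.log 2) = (2 : ℝ) ^ (7 / 10 * (m : ℝ)) := by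
        rw [Real.rpow_def_of_pos (by norm_num)]
        congr 1
        ring
      rw [h3] at h2
      have h4 := Real.log_two_gt_d9
      have h5 : (0 : ℝ) ≤ m := Nat.cast_nonneg _
      have h6 : (m : ℝ) * (1 / 2) ≤ (m : ℝ) * Real.log 2 :=
        mul_le_mul_of_nonneg_left (by linarith) h5
      nlinarith
    calc ((m : ℝ) + 1) * 2 ^ (2 * m) ≤ (3 * (2 : ℝ) ^ (7 / 10 * (m : ℝ))) * 2 ^ (2 * m) :=
          mul_le_mul_of_nonneg_right h1 (by positivity)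
      _ = 3 * ((2 : ℝ) ^ (9 / 10 * (m : ℝ))) ^ 3 := by
          rw [← Real.rpow_natCast ((2 : ℝ) ^ (9 / 10 * (m : ℝ))), ← Real.rpow_mul (by norm_num),
            ← Real.rpow_natCast (2 : ℝ) (2 * m), mul_assoc, ← Real.rpow_add (by norm_num)]
          congr 2
          push_cast
          ring
      _ ≤ 3 * (2 ^ (k + 1)) ^ 3 := by
          have := pow_le_pow_left₀ (Real.rpow_nonneg (by norm_num) _) h 3
          linarith
  have e4 : ((A * m + 1 : ℕ) : ℝ) ≤ ((A : ℝ) + 1) * ((m : ℝ) + 1) := by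
    push_cast
    have h5 : (0 : ℝ) ≤ m := Nat.cast_nonneg _
    have h6 : (0 : ℝ) ≤ A := Nat.cast_nonneg _
    nlinarith
  have hr : (0 : ℝ) ≤ rr ^ n := pow_nonneg rr_pos.le _
  have hm1 : (0 : ℝ) ≤ (m : ℝ) + 1 := by positivity
  calc ((A * m + 1 : ℕ) : ℝ) * (4 ^ k * ((2 ^ n / 2 ^ m : ℝ) ^ η *
        ((4 ^ (k + 1) / (2 ^ n / 2 ^ m)) * ((2 : ℝ) ^ (18 * k)) ^ (-((1 - η) / 2)))))
      = ((A * m + 1 : ℕ) : ℝ) * (4 ^ k * (((2 ^ n / 2 ^ m : ℝ) ^ η *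
        (4 ^ (k + 1) / (2 ^ n / 2 ^ m))) * ((2 : ℝ) ^ (18 * k)) ^ (-((1 - η) / 2)))) := by ring
    _ ≤ (((A : ℝ) + 1) * ((m : ℝ) + 1)) * (4 ^ k * ((4 ^ (k + 1) * (2 ^ m * rr ^ n)) *
        (1 / 256) ^ k)) := by
        refine mul_le_mul e4 ?_ (by positivity) (by positivity)
        refine mul_le_mul_of_nonneg_left ?_ (by positivity)
        exact mul_le_mul e2 e1 (Real.rpow_nonneg (by positivity) _) (by positivity)
    _ = (4 * ((A : ℝ) + 1) * rr ^ n) * ((((m : ℝ) + 1) * 2 ^ (2 * m)) *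
        ((4 * 4 / 256) ^ k * (1 / 2) ^ m)) := by
        have g1 : (4 * 4 / 256 : ℝ) ^ k = 4 ^ k * 4 ^ k * (1 / 256) ^ k := by
          rw [← mul_pow, ← mul_pow]
          norm_num
        have g2 : (2 : ℝ) ^ m * (1 / 2) ^ m = 1 := by
          rw [← mul_pow]
          norm_num
        rw [g1, show (2 : ℝ) ^ (2 * m) = 2 ^ m * 2 ^ m by rw [two_mul, pow_add]]
        calc ((A : ℝ) + 1) * ((m : ℝ) + 1) * (4 ^ k * (4 ^ (k + 1) * (2 ^ m * rr ^ n) *
              (1 / 256) ^ k))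
            = (4 * ((A : ℝ) + 1) * rr ^ n) * ((((m : ℝ) + 1) * 2 ^ m) *
              (4 ^ k * 4 ^ k * (1 / 256) ^ k)) := by ring
          _ = (4 * ((A : ℝ) + 1) * rr ^ n) * ((((m : ℝ) + 1) * 2 ^ m) *
              (4 ^ k * 4 ^ k * (1 / 256) ^ k)) * ((2 : ℝ) ^ m * (1 / 2) ^ m) := by
              rw [g2, mul_one]
          _ = _ := by ring
    _ ≤ (4 * ((A : ℝ) + 1) * rr ^ n) * ((3 * (2 ^ (k + 1)) ^ 3) *
        ((4 * 4 / 256) ^ k * (1 / 2) ^ m)) := by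
        refine mul_le_mul_of_nonneg_left ?_ (by positivity)
        exact mul_le_mul_of_nonneg_right e3 (by positivity)
    _ = _ := by
        have h7 : ((2 : ℝ) ^ (k + 1)) ^ 3 = 8 * 8 ^ k := by
          rw [← pow_mul, mul_comm (k + 1) 3, pow_mul, pow_succ]
          norm_num
          ring
        have h8 : ((4 * 4 / 256 : ℝ)) ^ k = (1 / 2) ^ k * (1 / 8) ^ k := by
          rw [← mul_pow]
          norm_num
        have h9 : (8 : ℝ) ^ k * (1 / 8) ^ k = 1 := by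
          rw [← mul_pow]
          norm_num
        rw [h7, h8]
        calc (4 * ((A : ℝ) + 1) * rr ^ n) * ((3 * (8 * 8 ^ k)) *
              ((1 / 2) ^ k * (1 / 8) ^ k * (1 / 2) ^ m))
            = (96 * ((A : ℝ) + 1)) * ((1 / 2) ^ m * ((1 / 2) ^ k * rr ^ n)) *
              ((8 : ℝ) ^ k * (1 / 8) ^ k) := by ring
          _ = _ := by rw [h9, mul_one]

open Classical in
/-- the majorant at fixed `(m, k, n, i)` -/
noncomputable def GG {M : ℕ} (F : FL M) (P : Par) (f f' : ℕ → ℝ) (m k n i b c : ℕ) : ℝ :=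
  if Nat.gcd (upp (P.Y i) b) c ∈ EL F f (P.cut m) (P.Y i) P.L (4 ^ (k + 1) / (2 ^ n / 2 ^ m))
        (2 ^ (18 * k)) (upp (P.Y i) b) ∧
      2 ^ n / 2 ^ m * P.L ≤ (Nat.gcd b c : ℝ) ∧ (Nat.gcd b c : ℝ) < 2 * (2 ^ n / 2 ^ m * P.L)
  then f b * f' c else 0

open Classical in
/-- the weighted majorant -/
noncomputable def TT {M : ℕ} (F : FL M) (P : Par) (f f' : ℕ → ℝ) (m k n i b c : ℕ) : ℝ :=
  if (2 : ℝ) ^ (9 / 10 * (m : ℝ)) ≤ 2 ^ (k + 1) then 4 ^ k * GG F P f f' m k n i b c else 0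

lemma GG_nonneg {M : ℕ} (F : FL M) (P : Par) {f f' : ℕ → ℝ} (hf : ∀ b, 0 ≤ f b)
    (hf' : ∀ b, 0 ≤ f' b) (m k n i b c : ℕ) : 0 ≤ GG F P f f' m k n i b c := by
  unfold GG
  split_ifs
  · exact mul_nonneg (hf b) (hf' c)
  · exact le_rfl

lemma TT_nonneg {M : ℕ} (F : FL M) (P : Par) {f f' : ℕ → ℝ} (hf : ∀ b, 0 ≤ f b)
    (hf' : ∀ b, 0 ≤ f' b) (m k n i b c : ℕ) : 0 ≤ TT F P f f' m k n i b c := by
  unfold TT
  split_ifs
  · exact mul_nonneg (by positivity) (GG_nonneg F P hf hf' m k n i b c)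
  · exact le_rfl

lemma frm_smul (M : ℕ) (a : ℝ) (F : ℕ → ℕ → ℝ) : frm M (fun b c => a * F b c) = a * frm M F := by
  unfold frm
  rw [Finset.mul_sum]
  refine Finset.sum_congr rfl fun b _ => ?_
  rw [Finset.mul_sum]
  refine Finset.sum_congr rfl fun c _ => ?_
  ring

/-- **CLASS (H)** (note 3383 (5), (7)): pairs whose item `b` has a tree centre at a scale
`t = 2^m`, `m ≥ m0`, `gcd (b, c) ≥ L / t`, and another tree centre at a larger scale of depth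
`K*` below the threshold of `b`; any weight at most `K*^2`. -/
theorem classH {η : ℝ} (hη0 : 0 < η) (hη1 : η ≤ 1 / 10) (A : ℕ) :
    ∃ C : ℝ, 0 < C ∧ ∀ (M : ℕ) (F : FL M) (P : Par) (δ ε : ℝ) (m0 : ℕ) (f f' : ℕ → ℝ)
      (K : ℕ → ℕ → ℝ), 0 < M → RuleH (M := M) P f A m0 δ ε →
      (∀ b, 0 ≤ f b ∧ f b ≤ 1) → (∀ b, 0 ≤ f' b ∧ f' b ≤ 1) →
      (∀ b c, b ∣ M → c ∣ M → K b c ≤ 0 ∨
        ∃ m k, m0 ≤ m ∧ HK F P m k b c ∧ K b c ≤ 4 ^ k * (f b * f' c)) →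
      P.L * frm M K ≤ C * (1 / 2) ^ m0 * (P.L * Ex M f) * (P.L * Ex M f') ^ ((1 + η) / 2) := by
  classical
  obtain ⟨C, hC, hstep⟩ := stepH hη0 (by linarith : η < 1)
  refine ⟨C * (96 * ((A : ℝ) + 1)) * (4 / (1 - rr)), by
    have := rr_lt
    have h1 : 0 < 1 - rr := by linarith
    positivity, fun M F P δ ε m0 f f' K hM hR hf hf' hK => ?_⟩
  have hL := hR.L_pos
  have hf0 : ∀ b, 0 ≤ f b := fun b => (hf b).1
  have hf0' : ∀ b, 0 ≤ f' b := fun b => (hf' b).1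
  -- witnesses and a common range
  have hw : ∀ b c, b ∣ M → c ∣ M → ∃ R : ℕ, K b c ≤ 0 ∨ ∃ m k n i, m0 ≤ m ∧ m ≤ R ∧ k ≤ R ∧
      n ≤ R ∧ i ≤ A * m ∧ K b c ≤ TT F P f f' m k n i b c := by
    intro b c hb hc
    rcases hK b c hb hc with h | ⟨m, k, hm, hk, hle⟩
    · exact ⟨0, Or.inl h⟩
    · obtain ⟨h1, i, hi, n, h2⟩ := mem_EL hR hf0 hM hm hb hc hk
      refine ⟨m + k + n, Or.inr ⟨m, k, n, i, hm, by omega, by omega, by omega, hi, ?_⟩⟩
      unfold TT GG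
      rw [if_pos h1, if_pos h2]
      exact hle
  choose! R hR' using hw
  set R0 : ℕ := ∑ b ∈ M.divisors, ∑ c ∈ M.divisors, R b c with hR0
  have hRle : ∀ b c, b ∣ M → c ∣ M → R b c ≤ R0 := by
    intro b c hb hc
    have h1 : R b c ≤ ∑ c ∈ M.divisors, R b c :=
      Finset.single_le_sum (f := fun c => R b c) (fun _ _ => Nat.zero_le _)
        (Nat.mem_divisors.2 ⟨hc, hM.ne'⟩)
    exact h1.trans (Finset.single_le_sum (f := fun b => ∑ c ∈ M.divisors, R b c)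
      (fun _ _ => Nat.zero_le _) (Nat.mem_divisors.2 ⟨hb, hM.ne'⟩))
  -- pointwise majorant
  have hpt : frm M K ≤ ∑ m ∈ Ico m0 (R0 + 1), ∑ k ∈ range (R0 + 1), ∑ n ∈ range (R0 + 1),
      ∑ i ∈ range (A * m + 1), frm M (TT F P f f' m k n i) := by
    have e : ∑ m ∈ Ico m0 (R0 + 1), ∑ k ∈ range (R0 + 1), ∑ n ∈ range (R0 + 1),
      ∑ i ∈ range (A * m + 1), frm M (TT F P f f' m k n i) =
        frm M (fun b c => ∑ m ∈ Ico m0 (R0 + 1), ∑ k ∈ range (R0 + 1), ∑ n ∈ range (R0 + 1),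
          ∑ i ∈ range (A * m + 1), TT F P f f' m k n i b c) := by
      rw [← frm_sum]
      refine Finset.sum_congr rfl fun m _ => ?_
      rw [← frm_sum]
      refine Finset.sum_congr rfl fun k _ => ?_
      rw [← frm_sum]
      refine Finset.sum_congr rfl fun n _ => ?_
      rw [← frm_sum]
    rw [e]
    refine frm_mono fun b c hb hc => ?_
    have hT := fun m k n i => TT_nonneg F P hf0 hf0' m k n i b c
    rcases hR' b c hb hc with h | ⟨m, k, n, i, hm, hmR, hkR, hnR, hi, hle⟩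
    · refine h.trans ?_
      exact Finset.sum_nonneg fun m _ => Finset.sum_nonneg fun k _ => Finset.sum_nonneg
        fun n _ => Finset.sum_nonneg fun i _ => hT m k n i
    · have hRR := hRle b c hb hc
      refine hle.trans ?_
      refine le_trans ?_ (Finset.single_le_sum (f := fun m => ∑ k ∈ range (R0 + 1),
        ∑ n ∈ range (R0 + 1), ∑ i ∈ range (A * m + 1), TT F P f f' m k n i b c)
        (fun m _ => Finset.sum_nonneg fun k _ => Finset.sum_nonneg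
        fun n _ => Finset.sum_nonneg fun i _ => hT m k n i)
        (Finset.mem_Ico.2 ⟨hm, by omega⟩ : m ∈ Ico m0 (R0 + 1)))
      refine le_trans ?_ (Finset.single_le_sum (f := fun k =>
        ∑ n ∈ range (R0 + 1), ∑ i ∈ range (A * m + 1), TT F P f f' m k n i b c)
        (fun k _ => Finset.sum_nonneg
        fun n _ => Finset.sum_nonneg fun i _ => hT m k n i)
        (Finset.mem_range.2 (by omega) : k ∈ range (R0 + 1)))
      refine le_trans ?_ (Finset.single_le_sum (f := fun n =>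
        ∑ i ∈ range (A * m + 1), TT F P f f' m k n i b c)
        (fun n _ => Finset.sum_nonneg fun i _ => hT m k n i)
        (Finset.mem_range.2 (by omega) : n ∈ range (R0 + 1)))
      exact Finset.single_le_sum (f := fun i => TT F P f f' m k n i b c)
        (fun i _ => hT m k n i) (Finset.mem_range.2 (by omega) : i ∈ range (A * m + 1))
  -- mass factor
  set Q : ℝ := (P.L * Ex M f) * (P.L * Ex M f') ^ ((1 + η) / 2) with hQ
  have hQ0 : 0 ≤ Q := mul_nonneg (mul_nonneg hL.le (Ex_nonneg _ hf0))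
    (Real.rpow_nonneg (mul_nonneg hL.le (Ex_nonneg _ hf0')) _)
  -- one term
  have hone : ∀ m k n i, P.L * frm M (TT F P f f' m k n i) * ((A * m + 1 : ℕ) : ℝ) ≤
      (C * (96 * ((A : ℝ) + 1)) * Q) * ((1 / 2) ^ m * ((1 / 2) ^ k * rr ^ n)) := by
    intro m k n i
    have hrr := rr_pos
    have hpos : 0 ≤ (C * (96 * ((A : ℝ) + 1)) * Q) * ((1 / 2) ^ m * ((1 / 2) ^ k * rr ^ n)) := by
      positivity
    by_cases h : (2 : ℝ) ^ (9 / 10 * (m : ℝ)) ≤ 2 ^ (k + 1)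
    · have e : frm M (TT F P f f' m k n i) = 4 ^ k * frm M (GG F P f f' m k n i) := by
        rw [← frm_smul]
        unfold TT
        simp only [if_pos h]
      have h1 := hstep M F (P.cut m) (P.Y i) (2 ^ n / 2 ^ m) P.L (4 ^ (k + 1) / (2 ^ n / 2 ^ m))
        (2 ^ (18 * k)) f f' hM (by positivity) hL (by positivity) (by positivity) hf hf'
      have h2 := term_num hη1 hη0.le A (m := m) (k := k) (n := n) h
      rw [e]
      calc P.L * (4 ^ k * frm M (GG F P f f' m k n i)) * ((A * m + 1 : ℕ) : ℝ)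
          = (((A * m + 1 : ℕ) : ℝ) * 4 ^ k) * (P.L * frm M (GG F P f f' m k n i)) := by ring
        _ ≤ (((A * m + 1 : ℕ) : ℝ) * 4 ^ k) * (C * (2 ^ n / 2 ^ m) ^ η *
            (4 ^ (k + 1) / (2 ^ n / 2 ^ m) * (2 ^ (18 * k)) ^ (-((1 - η) / 2))) * (P.L * Ex M f) *
            (P.L * Ex M f') ^ ((1 + η) / 2)) :=
            mul_le_mul_of_nonneg_left h1 (by positivity)
        _ = (C * Q) * (((A * m + 1 : ℕ) : ℝ) * (4 ^ k * ((2 ^ n / 2 ^ m : ℝ) ^ η *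
            ((4 ^ (k + 1) / (2 ^ n / 2 ^ m)) * ((2 : ℝ) ^ (18 * k)) ^ (-((1 - η) / 2)))))) := by
            rw [hQ]
            ring
        _ ≤ (C * Q) * ((96 * ((A : ℝ) + 1)) * ((1 / 2) ^ m * ((1 / 2) ^ k * rr ^ n))) :=
            mul_le_mul_of_nonneg_left h2 (by positivity)
        _ = _ := by ring
    · have e : frm M (TT F P f f' m k n i) = 0 := by
        unfold TT
        simp only [if_neg h]
        unfold frm
        simp
      rw [e, mul_zero, zero_mul]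
      exact hpos
  -- sum over i
  have htwo : ∀ m k n, P.L * ∑ i ∈ range (A * m + 1), frm M (TT F P f f' m k n i) ≤
      (C * (96 * ((A : ℝ) + 1)) * Q) * ((1 / 2) ^ m * ((1 / 2) ^ k * rr ^ n)) := by
    intro m k n
    have h0 : (0 : ℝ) < ((A * m + 1 : ℕ) : ℝ) := by positivity
    rw [Finset.mul_sum]
    have h1 : ∀ i ∈ range (A * m + 1), P.L * frm M (TT F P f f' m k n i) ≤
        (C * (96 * ((A : ℝ) + 1)) * Q) * ((1 / 2) ^ m * ((1 / 2) ^ k * rr ^ n)) /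
          ((A * m + 1 : ℕ) : ℝ) := by
      intro i _
      rw [le_div_iff₀ h0]
      exact hone m k n i
    refine (Finset.sum_le_sum h1).trans (le_of_eq ?_)
    rw [Finset.sum_const, Finset.card_range, nsmul_eq_mul]
    field_simp
  have hrl : 0 < 1 - rr := by
    have := rr_lt
    linarith
  calc P.L * frm M K ≤ P.L * ∑ m ∈ Ico m0 (R0 + 1), ∑ k ∈ range (R0 + 1),
        ∑ n ∈ range (R0 + 1), ∑ i ∈ range (A * m + 1), frm M (TT F P f f' m k n i) :=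
        mul_le_mul_of_nonneg_left hpt hL.le
    _ = ∑ m ∈ Ico m0 (R0 + 1), ∑ k ∈ range (R0 + 1),
        ∑ n ∈ range (R0 + 1), P.L * ∑ i ∈ range (A * m + 1), frm M (TT F P f f' m k n i) := by
        simp only [Finset.mul_sum]
    _ ≤ ∑ m ∈ Ico m0 (R0 + 1), ∑ k ∈ range (R0 + 1), ∑ n ∈ range (R0 + 1),
        (C * (96 * ((A : ℝ) + 1)) * Q) * ((1 / 2) ^ m * ((1 / 2) ^ k * rr ^ n)) :=
        Finset.sum_le_sum fun m _ => Finset.sum_le_sum fun k _ => Finset.sum_le_sum fun n _ =>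
          htwo m k n
    _ = (C * (96 * ((A : ℝ) + 1)) * Q) * ((∑ m ∈ Ico m0 (R0 + 1), (1 / 2) ^ m) *
        ((∑ k ∈ range (R0 + 1), (1 / 2) ^ k) * ∑ n ∈ range (R0 + 1), rr ^ n)) := by
        simp only [← Finset.mul_sum, ← Finset.sum_mul]
    _ ≤ (C * (96 * ((A : ℝ) + 1)) * Q) * ((2 * (1 / 2) ^ m0) *
        ((1 / (1 - 1 / 2)) * (1 / (1 - rr)))) := by
        have hrr := rr_pos
        have g1 := geom_Ico m0 (R0 + 1)
        have g2 := geom_bound (r := 1 / 2) (by norm_num) (by norm_num) (R0 + 1)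
        have g3 := geom_bound rr_pos.le rr_lt (R0 + 1)
        refine mul_le_mul_of_nonneg_left ?_ (by positivity)
        refine mul_le_mul g1 ?_ (by positivity) (by positivity)
        exact mul_le_mul g2 g3 (by positivity) (by norm_num)
    _ = _ := by
        rw [hQ]
        have : (1 : ℝ) / (1 - 1 / 2) = 2 := by norm_num
        rw [this]
        ring

end Crest.Agent.R4C.S5Hx952
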