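import Crest.Agent.R4C.Rule_945
import Crest.Agent.R4C.S5H_952

/-!
# Row 4, BLOCK S6, leaf S6-2: uniqueness of the centre per box (note 3463), helper952

Cut `X`; `K_b = k0 X b f * max 1 (b |γ - f| / L)` (depth at ONE cut).

* `conflict_box` : two items with the same word above `X`, cut `y ≥ X`, `b₁ ≤ 2 b₂`, different
  fractions: `uu y b₁ ≤ k₁ k₂ (D₁ + 2 D₂)`.
* `Cand F γ L X b f` : for some cut `y ≥ X` the denominator of `f` does not change between `X` and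
  `y`, and `uu y b > 16 K_b² L`.
* `Cand.unique` : given the word above `X`, the dyadic size of the word below `X` and the dyadic
  size of `K_b` there is at most one candidate `f`.
* `cand_of_TC`, `cand_or` : a tree centre at a scale `m' ≥ m` is a candidate at the cut `P.cut m`, or
  its depth `K₂` at the scale `m'` exceeds the cut, and `uu (cut m) b ≤ K₂^4 L` (Lemma H) or it is
  live at `m`, and a candidate.
-/

set_option autoImplicit false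

namespace Crest.Agent.R4C.S6Uniqx952

open Finset Crest.Agent.R4C.Basex935 Crest.Agent.R4C.Cutx50
open Crest.Agent.R4C.FLDefx935 Crest.Agent.R4C.Rulex945 Crest.Agent.R4C.BoostCx972
open Crest.Agent.R4C.S7cx14

variable {M : ℕ} {F : FL M}

/-- the excess word above a cut `y ≥ X` is a function of the word above `X` -/
lemma lam_eq {X y b b' : ℕ} (hb : b ∣ M) (hb' : b' ∣ M) (hXy : X ≤ y)
    (h : upp X b = upp X b') : F.lam y b = F.lam y b' := by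
  unfold FL.lam
  refine Finset.prod_congr rfl fun p hp => ?_
  have hpp := Nat.prime_of_mem_primeFactors hp
  congr 1
  unfold FL.lamE
  by_cases hy : y < p
  · have hX : X < p := by omega
    have e1 : F.ctr b p = F.ctr b' p := by
      rw [← S5Hx952.ctr_upp (F := F) hb hpp hX, h, S5Hx952.ctr_upp (F := F) hb' hpp hX]
    have e2 : b.factorization p = b'.factorization p := by
      have := congrArg (fun n => n.factorization p) h
      simp only [fact_upp] at this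
      rwa [if_pos (by omega), if_pos (by omega)] at this
    rw [if_pos hy, if_pos hy, e1, e2]
  · rw [if_neg hy, if_neg hy]

/-- **conflict inequality in a box**: two items with the same word above `X` -/
theorem conflict_box {X y b₁ b₂ k₁ k₂ : ℕ} {f₁ f₂ : ℚ} {γ : ℝ} (hM : 0 < M) (hb₁ : b₁ ∣ M)
    (hb₂ : b₂ ∣ M) (hXy : X ≤ y) (hup : upp X b₁ = upp X b₂) (h12 : (b₁ : ℝ) ≤ 2 * b₂)
    (h₁ : IsC F y b₁ k₁ f₁) (h₂ : IsC F y b₂ k₂ f₂) (hne : f₁ ≠ f₂) :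
    (F.uu y b₁ : ℝ) ≤ (k₁ : ℝ) * k₂ * ((b₁ : ℝ) * |γ - f₁| + 2 * ((b₂ : ℝ) * |γ - f₂|)) := by
  obtain ⟨hk₁, hd₁⟩ := h₁
  obtain ⟨hk₂, hd₂⟩ := h₂
  have hlam : F.lam y b₂ = F.lam y b₁ := (lam_eq (F := F) hb₁ hb₂ hXy hup).symm
  rw [hlam] at hd₂
  set l := F.lam y b₁ with hl
  have hl0 : 0 < l := FL.lam_pos y b₁
  have hu : F.uu y b₁ * l = b₁ := FL.uu_mul_lam hM hb₁
  -- integers
  obtain ⟨r₁, hr₁⟩ := hd₁
  obtain ⟨r₂, hr₂⟩ := hd₂
  -- the difference is at least `1 / (k₁ k₂ l)`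
  have hdiff : (1 : ℝ) ≤ (k₁ : ℝ) * k₂ * l * |(f₁ : ℝ) - f₂| := by
    have e1 : ((k₁ * l : ℕ) : ℚ) * f₁ = ((r₁ * f₁.num : ℤ) : ℚ) := by
      rw [hr₁]
      push_cast
      have : (f₁.den : ℚ) * f₁ = f₁.num := by
        rw [mul_comm]; exact Rat.mul_den_eq_num f₁
      calc (f₁.den : ℚ) * r₁ * f₁ = r₁ * (f₁.den * f₁) := by ring
        _ = r₁ * f₁.num := by rw [this]
    have e2 : ((k₂ * l : ℕ) : ℚ) * f₂ = ((r₂ * f₂.num : ℤ) : ℚ) := by
      rw [hr₂]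
      push_cast
      have : (f₂.den : ℚ) * f₂ = f₂.num := by
        rw [mul_comm]; exact Rat.mul_den_eq_num f₂
      calc (f₂.den : ℚ) * r₂ * f₂ = r₂ * (f₂.den * f₂) := by ring
        _ = r₂ * f₂.num := by rw [this]
    set N : ℤ := k₂ * (r₁ * f₁.num) - k₁ * (r₂ * f₂.num) with hN
    have e3 : ((k₁ : ℚ) * k₂ * l) * (f₁ - f₂) = (N : ℚ) := by
      rw [hN]
      push_cast
      push_cast at e1 e2
      calc ((k₁ : ℚ) * k₂ * l) * (f₁ - f₂) = k₂ * (k₁ * l * f₁) - k₁ * (k₂ * l * f₂) := by ring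
        _ = _ := by rw [e1, e2]
    have hN0 : N ≠ 0 := by
      intro h0
      rw [h0, Int.cast_zero] at e3
      have hk1 : (k₁ : ℚ) ≠ 0 := by exact_mod_cast hk₁.ne'
      have hk2 : (k₂ : ℚ) ≠ 0 := by exact_mod_cast hk₂.ne'
      have hl1 : (l : ℚ) ≠ 0 := by exact_mod_cast hl0.ne'
      rcases mul_eq_zero.1 e3 with h | h
      · exact (mul_ne_zero (mul_ne_zero hk1 hk2) hl1) h
      · exact hne (sub_eq_zero.1 h)
    have e4 : ((k₁ : ℝ) * k₂ * l) * ((f₁ : ℝ) - f₂) = (N : ℝ) := by exact_mod_cast e3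
    have h5 : (1 : ℝ) ≤ |(N : ℝ)| := by
      rw [← Int.cast_abs]
      exact_mod_cast Int.one_le_abs hN0
    rw [← e4, abs_mul, abs_of_nonneg (by positivity)] at h5
    exact h5
  have htri : |(f₁ : ℝ) - f₂| ≤ |γ - f₁| + |γ - f₂| := by
    have : (f₁ : ℝ) - f₂ = (γ - f₂) - (γ - f₁) := by ring
    rw [this]
    exact (abs_sub _ _).trans (le_of_eq (add_comm _ _))
  have hb1 : (b₁ : ℝ) = (F.uu y b₁ : ℝ) * l := by exact_mod_cast hu.symm
  have hu0 : (0 : ℝ) ≤ F.uu y b₁ := Nat.cast_nonneg _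
  calc (F.uu y b₁ : ℝ) = F.uu y b₁ * 1 := (mul_one _).symm
    _ ≤ F.uu y b₁ * ((k₁ : ℝ) * k₂ * l * |(f₁ : ℝ) - f₂|) := mul_le_mul_of_nonneg_left hdiff hu0
    _ = (k₁ : ℝ) * k₂ * (b₁ * |(f₁ : ℝ) - f₂|) := by rw [hb1]; ring
    _ ≤ (k₁ : ℝ) * k₂ * (b₁ * (|γ - f₁| + |γ - f₂|)) := by gcongr
    _ = (k₁ : ℝ) * k₂ * (b₁ * |γ - f₁| + b₁ * |γ - f₂|) := by ring
    _ ≤ (k₁ : ℝ) * k₂ * (b₁ * |γ - f₁| + 2 * b₂ * |γ - f₂|) := by gcongr
    _ = _ := by ring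

/-- depth at the cut `x` -/
noncomputable def depx {M : ℕ} (F : FL M) (γ L : ℝ) (x b : ℕ) (f : ℚ) : ℝ :=
  (k0 F x b f : ℝ) * max 1 ((b : ℝ) * |γ - f| / L)

lemma dep_eq {P : Par} (m b : ℕ) (f : ℚ) : dep F P m b f = depx F P.γ P.L (P.cut m) b f := rfl

lemma one_le_depx {γ L : ℝ} (x b : ℕ) (f : ℚ) : 1 ≤ depx F γ L x b f := by
  unfold depx
  have h1 : (1 : ℝ) ≤ k0 F x b f := by exact_mod_cast k0_pos (F := F) x b f
  have h2 : (1 : ℝ) ≤ max 1 ((b : ℝ) * |γ - f| / L) := le_max_left _ _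
  nlinarith

/-- the depth grows with the cut -/
lemma depx_mono {γ L : ℝ} {x y : ℕ} (h : x ≤ y) (b : ℕ) (f : ℚ) :
    depx F γ L x b f ≤ depx F γ L y b f := by
  unfold depx
  have h1 : (k0 F x b f : ℝ) ≤ k0 F y b f := by
    exact_mod_cast Nat.le_of_dvd (k0_pos (F := F) y b f) (k0_mono h f)
  exact mul_le_mul_of_nonneg_right h1 (zero_le_one.trans (le_max_left _ _))

/-- **candidates** at the cut `X` -/
def Cand {M : ℕ} (F : FL M) (γ L : ℝ) (X b : ℕ) (f : ℚ) : Prop :=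
  ∃ y, X ≤ y ∧ k0 F y b f = k0 F X b f ∧ 16 * depx F γ L X b f ^ 2 * L < F.uu y b

private lemma uniq_aux {γ L : ℝ} (hL : 0 < L) (hM : 0 < M) {X b₁ b₂ y₁ y₂ : ℕ} {f₁ f₂ : ℚ}
    (hb₁ : b₁ ∣ M) (hb₂ : b₂ ∣ M) (hup : upp X b₁ = upp X b₂) (h12 : (b₁ : ℝ) ≤ 2 * b₂)
    (hK : depx F γ L X b₂ f₂ ≤ 2 * depx F γ L X b₁ f₁) (hy : y₁ ≤ y₂)
    (hX1 : X ≤ y₁) (hk1 : k0 F y₁ b₁ f₁ = k0 F X b₁ f₁)
    (hu1 : 16 * depx F γ L X b₁ f₁ ^ 2 * L < F.uu y₁ b₁)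
    (hk2 : k0 F y₂ b₂ f₂ = k0 F X b₂ f₂) : f₁ = f₂ := by
  by_contra hne
  have hk2' : k0 F y₁ b₂ f₂ = k0 F X b₂ f₂ := by
    refine Nat.dvd_antisymm ?_ (k0_mono hX1 f₂)
    rw [← hk2]
    exact k0_mono hy f₂
  have h := conflict_box (γ := γ) hM hb₁ hb₂ hX1 hup h12 (isC_k0 (F := F) y₁ b₁ f₁)
    (isC_k0 (F := F) y₁ b₂ f₂) hne
  rw [hk1, hk2'] at h
  unfold depx at hK hu1
  set k₁ : ℝ := (k0 F X b₁ f₁ : ℝ) with hk₁
  set k₂ : ℝ := (k0 F X b₂ f₂ : ℝ) with hk₂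
  set d₁ : ℝ := (b₁ : ℝ) * |γ - f₁| with hd₁
  set d₂ : ℝ := (b₂ : ℝ) * |γ - f₂| with hd₂
  have a1 : 1 ≤ k₁ := Nat.one_le_cast.2 (k0_pos (F := F) X b₁ f₁)
  have a2 : 1 ≤ k₂ := Nat.one_le_cast.2 (k0_pos (F := F) X b₂ f₂)
  have e1 : d₁ ≤ max 1 (d₁ / L) * L := by
    calc d₁ = d₁ / L * L := by field_simp
      _ ≤ _ := mul_le_mul_of_nonneg_right (le_max_right _ _) hL.le
  have e2 : d₂ ≤ max 1 (d₂ / L) * L := by
    calc d₂ = d₂ / L * L := by field_simp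
      _ ≤ _ := mul_le_mul_of_nonneg_right (le_max_right _ _) hL.le
  set x₁ := max 1 (d₁ / L) with hx₁
  set x₂ := max 1 (d₂ / L) with hx₂
  have b1 : 1 ≤ x₁ := le_max_left _ _
  have b2 : 1 ≤ x₂ := le_max_left _ _
  have e3 : d₁ + 2 * d₂ ≤ 3 * (x₁ * x₂) * L := by
    have : x₁ + 2 * x₂ ≤ 3 * (x₁ * x₂) := by nlinarith
    calc d₁ + 2 * d₂ ≤ (x₁ + 2 * x₂) * L := by linarith
      _ ≤ _ := mul_le_mul_of_nonneg_right this hL.le
  have h2 : (F.uu y₁ b₁ : ℝ) ≤ 6 * (k₁ * x₁) ^ 2 * L := by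
    calc (F.uu y₁ b₁ : ℝ) ≤ k₁ * k₂ * (d₁ + 2 * d₂) := h
      _ ≤ k₁ * k₂ * (3 * (x₁ * x₂) * L) := mul_le_mul_of_nonneg_left e3 (by positivity)
      _ = 3 * (k₁ * x₁) * (k₂ * x₂) * L := by ring
      _ ≤ 3 * (k₁ * x₁) * (2 * (k₁ * x₁)) * L := by gcongr
      _ = _ := by ring
  have h3 : 6 * (k₁ * x₁) ^ 2 * L ≤ 16 * (k₁ * x₁) ^ 2 * L := by
    have : 0 ≤ (k₁ * x₁) ^ 2 * L := by positivity
    nlinarith
  linarith

/-- **uniqueness per box** -/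
theorem Cand.unique {γ L : ℝ} (hL : 0 < L) (hM : 0 < M) {X b₁ b₂ : ℕ} {f₁ f₂ : ℚ}
    (hb₁ : b₁ ∣ M) (hb₂ : b₂ ∣ M) (h₁ : Cand F γ L X b₁ f₁) (h₂ : Cand F γ L X b₂ f₂)
    (hup : upp X b₁ = upp X b₂) (h12 : (b₁ : ℝ) ≤ 2 * b₂) (h21 : (b₂ : ℝ) ≤ 2 * b₁)
    (hK12 : depx F γ L X b₁ f₁ ≤ 2 * depx F γ L X b₂ f₂)
    (hK21 : depx F γ L X b₂ f₂ ≤ 2 * depx F γ L X b₁ f₁) : f₁ = f₂ := by
  obtain ⟨y₁, hX1, hk1, hu1⟩ := h₁
  obtain ⟨y₂, hX2, hk2, hu2⟩ := h₂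
  rcases le_total y₁ y₂ with h | h
  · exact uniq_aux hL hM hb₁ hb₂ hup h12 hK21 h hX1 hk1 hu1 hk2
  · exact (uniq_aux hL hM hb₂ hb₁ hup.symm h21 hK12 h hX2 hk2 hu2 hk1).symm

/-- sizes: the same word above `X` and low words within a factor 2 -/
lemma size_box {X b₁ b₂ : ℕ} (hb₁ : b₁ ≠ 0) (hb₂ : b₂ ≠ 0) (hup : upp X b₁ = upp X b₂)
    (h : low X b₁ ≤ 2 * low X b₂) : (b₁ : ℝ) ≤ 2 * b₂ := by
  have e1 := low_mul_upp X hb₁
  have e2 := low_mul_upp X hb₂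
  have : b₁ ≤ 2 * b₂ := by
    rw [← e1, ← e2, hup]
    calc low X b₁ * upp X b₂ ≤ (2 * low X b₂) * upp X b₂ := Nat.mul_le_mul_right _ h
      _ = _ := by ring
  exact_mod_cast this

/-- the fraction determines the denominator -/
lemma k0_eq {X b₁ b₂ : ℕ} {f : ℚ} (hb₁ : b₁ ∣ M) (hb₂ : b₂ ∣ M) (hup : upp X b₁ = upp X b₂)
    {y : ℕ} (hXy : X ≤ y) : k0 F y b₁ f = k0 F y b₂ f := by
  unfold k0
  rw [lam_eq (F := F) hb₁ hb₂ hXy hup]

/-! ### tree centres are candidates -/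

section rule

variable {P : Par}

/-- a tree centre at a scale `m' ≥ m` whose denominator does not change down to the cut of `m` -/
theorem cand_of_TC (hL : 0 < P.L) (hcut : Monotone P.cut) {m m' b : ℕ} {f : ℚ} (hm : m ≤ m')
    (h : TC F P m' b f) (hE : 16 * P.E m' ^ 4 < 2 ^ m')
    (hk : k0 F (P.cut m') b f = k0 F (P.cut m) b f) : Cand F P.γ P.L (P.cut m) b f := by
  refine ⟨P.cut m', hcut hm, hk, ?_⟩
  have h1 : depx F P.γ P.L (P.cut m) b f ≤ P.E m' ^ 2 :=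
    (depx_mono (hcut hm) b f).trans (h.dep_le hL)
  have h0 : 1 ≤ depx F P.γ P.L (P.cut m) b f := one_le_depx _ _ _
  calc 16 * depx F P.γ P.L (P.cut m) b f ^ 2 * P.L ≤ 16 * (P.E m' ^ 2) ^ 2 * P.L := by gcongr
    _ = (16 * P.E m' ^ 4) * P.L := by ring
    _ < 2 ^ m' * P.L := mul_lt_mul_of_pos_right hE hL
    _ ≤ F.uu (P.cut m') b := h.scl

/-- if the denominator changes between two cuts, the larger one exceeds the lower cut -/
lemma lt_k0_of_ne {x y b : ℕ} {f : ℚ} (hM : 0 < M) (hb : b ∣ M) (hxy : x ≤ y)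
    (h : k0 F y b f ≠ k0 F x b f) : x < k0 F y b f := by
  -- a prime `q` with larger multiplicity in `k0 y`
  have hx0 := (k0_pos (F := F) x b f).ne'
  have hy0 := (k0_pos (F := F) y b f).ne'
  obtain ⟨q, hq⟩ : ∃ q, (k0 F x b f).factorization q < (k0 F y b f).factorization q := by
    by_contra hc
    push Not at hc
    apply h
    refine Nat.dvd_antisymm ?_ (k0_mono hxy f)
    exact (Nat.factorization_le_iff_dvd hy0 hx0).1 hc
  have hqp : q.Prime := by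
    by_contra hc
    have := Nat.factorization_eq_zero_of_not_prime (k0 F y b f) hc
    omega
  have hqk : q ∣ k0 F y b f := Nat.dvd_of_factorization_pos (by omega)
  refine lt_of_lt_of_le ?_ (Nat.le_of_dvd (Nat.pos_of_ne_zero hy0) hqk)
  by_contra hqx
  push Not at hqx
  -- then the `q`-parts of the two excess words are trivial
  have hl : ∀ z, x ≤ z → (F.lam z b).factorization q = 0 := by
    intro z hz
    rw [FL.fact_lam hM hb]
    unfold FL.lamE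
    rw [if_neg (by omega : ¬ z < q)]
    simp
  have hkf : ∀ z, x ≤ z → (k0 F z b f).factorization q = f.den.factorization q := by
    intro z hz
    have h1 := k0_mul (F := F) z b f
    have hg : Nat.gcd f.den (F.lam z b) ≠ 0 := Nat.gcd_ne_zero_left f.den_pos.ne'
    have h2 := congrArg (fun n => n.factorization q) h1
    simp only [Nat.factorization_mul (k0_pos (F := F) z b f).ne' hg, Finsupp.add_apply,
      Nat.factorization_gcd f.den_pos.ne' (FL.lam_pos z b).ne', Finsupp.inf_apply, hl z hz] at h2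
    simpa using h2
  rw [hkf x le_rfl, hkf y hxy] at hq
  exact lt_irrefl _ hq

/-- **trichotomy** (B1 of 3463): a tree centre `f` at a scale `m' ≥ m` is a candidate at the cut of
`m`, or its depth `K₂` exceeds the cut and `uu (cut m) b ≤ K₂^4 L` -/
theorem cand_or (hL : 0 < P.L) (hM : 0 < M) (hcut : Monotone P.cut) {m m' b : ℕ} {f : ℚ}
    (hb : b ∣ M) (hm : m ≤ m') (h : TC F P m' b f) (hE : 16 * P.E m' ^ 4 < 2 ^ m')
    (hX : 4 ≤ P.cut m) :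
    Cand F P.γ P.L (P.cut m) b f ∨
      ((P.cut m : ℝ) < dep F P m' b f ∧ (F.uu (P.cut m) b : ℝ) ≤ dep F P m' b f ^ 4 * P.L) := by
  by_cases hk : k0 F (P.cut m') b f = k0 F (P.cut m) b f
  · exact Or.inl (cand_of_TC hL hcut hm h hE hk)
  · have h1 : (P.cut m : ℝ) < k0 F (P.cut m') b f := by
      exact_mod_cast lt_k0_of_ne hM hb (hcut hm) hk
    have h2 : (P.cut m : ℝ) < dep F P m' b f := h1.trans_le (k0_le_dep m' b f)
    have hX' : (4 : ℝ) ≤ P.cut m := by exact_mod_cast hX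
    by_cases hu : (F.uu (P.cut m) b : ℝ) ≤ dep F P m' b f ^ 4 * P.L
    · exact Or.inr ⟨h2, hu⟩
    · refine Or.inl ⟨P.cut m, le_rfl, rfl, lt_of_le_of_lt ?_ (not_le.1 hu)⟩
      have h3 : depx F P.γ P.L (P.cut m) b f ≤ dep F P m' b f := depx_mono (hcut hm) b f
      have h0 : 1 ≤ depx F P.γ P.L (P.cut m) b f := one_le_depx _ _ _
      set K := dep F P m' b f with hK
      calc 16 * depx F P.γ P.L (P.cut m) b f ^ 2 * P.L ≤ (K * K) * K ^ 2 * P.L := by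
            have : (16 : ℝ) ≤ K * K := by nlinarith
            gcongr
        _ = K ^ 4 * P.L := by ring

end rule

end Crest.Agent.R4C.S6Uniqx952
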