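import Crest.Agent.R4C.NHdef_656

/-!
# Row 4, block NH (note 3754), lemma SP: lost fractions at short primes (helper601)

Primes `p ∈ (X, X²]`, `X ≤ τ^B`, with `On K (p y) τ` but not `On K y (τ p)` have reciprocal sum
`≤ C (min τ X)^(-c)`, if `K^64 ≤ min τ X`.  Only integers are counted (Dirichlet at `4R` in every
dyadic block `[R, 2R)`).
-/

set_option autoImplicit false

namespace Crest.Agent.R4C.SPx601

open Finset Crest.Agent.R4C.NHx656

/-- integers in a window -/
lemma card_window (P : Finset ℕ) (u v ρ : ℝ) (hu : 0 < u) (hρ : 0 ≤ ρ)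
    (h : ∀ p ∈ P, |u * p - v| ≤ ρ) : (#P : ℝ) ≤ 2 * ρ / u + 1 := by
  rcases P.eq_empty_or_nonempty with h0 | hne
  · subst h0
    simp
    positivity
  · set a := P.min' hne with ha
    set b := P.max' hne with hb
    have hsub : P ⊆ Icc a b := fun p hp => mem_Icc.2 ⟨P.min'_le p hp, P.le_max' p hp⟩
    have h1 : #P ≤ b + 1 - a := by
      have := card_le_card hsub
      simpa using this
    have hab : a ≤ b := P.min'_le _ (P.max'_mem hne)
    have h2 : (#P : ℝ) ≤ (b : ℝ) - a + 1 := by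
      have h3 : (#P : ℕ) + a ≤ b + 1 := by omega
      have h4 : ((#P + a : ℕ) : ℝ) ≤ ((b + 1 : ℕ) : ℝ) := by exact_mod_cast h3
      push_cast at h4
      linarith
    have ha' := abs_le.1 (h a (P.min'_mem hne))
    have hb' := abs_le.1 (h b (P.max'_mem hne))
    have h5 : u * ((b : ℝ) - a) ≤ 2 * ρ := by nlinarith
    have h6 : (b : ℝ) - a ≤ 2 * ρ / u := by
      rw [le_div_iff₀ hu]
      linarith
    linarith

/-- integers of `[R, 2R)` in one class -/
lemma card_class (P : Finset ℕ) (R w : ℕ) (hw : 0 < w) (hP : ∀ p ∈ P, R ≤ p ∧ p < 2 * R)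
    (h : ∀ p ∈ P, ∀ q ∈ P, p ≡ q [MOD w]) : (#P : ℝ) ≤ R / w + 1 := by
  rcases P.eq_empty_or_nonempty with h0 | ⟨p0, hp0⟩
  · subst h0
    simp
    positivity
  · have hinj : Set.InjOn (fun p : ℕ => p / w) (P : Set ℕ) := by
      intro p hp q hq hpq
      have h1 := h p hp q hq
      have h2 := Nat.div_add_mod p w
      have h3 := Nat.div_add_mod q w
      simp only at hpq
      rw [← h2, ← h3, hpq, h1]
    have hc : #(P.image fun p : ℕ => p / w) = #P := card_image_of_injOn hinj
    rw [← hc]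
    have hw0 : (0 : ℝ) < w := by exact_mod_cast hw
    have := card_window (P.image fun p : ℕ => p / w) (w : ℝ) (3 * R / 2 - (p0 % w : ℕ)) (R / 2) hw0
      (by positivity) (by
        intro q hq
        obtain ⟨p, hp, rfl⟩ := mem_image.1 hq
        have h1 : p % w = p0 % w := h p hp p0 hp0
        have h2 : ((w * (p / w) + p % w : ℕ) : ℝ) = (p : ℝ) := by
          rw [Nat.div_add_mod]
        push_cast at h2
        have h3 : (R : ℝ) ≤ p := by exact_mod_cast (hP p hp).1
        have h4 : (p : ℝ) ≤ 2 * R := by exact_mod_cast (hP p hp).2.le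
        rw [← h1, abs_le]
        constructor <;> linarith)
    refine this.trans (le_of_eq ?_)
    ring

set_option maxHeartbeats 1600000 in
/-- one dyadic block -/
lemma block {y τ K W : ℝ} {R : ℕ} {F : Finset ℕ} (hK : 1 ≤ K) (hKW : 2 * K ≤ W)
    (hτ : W ^ 4 ≤ τ) (hR : W ^ 4 ≤ 2 * R)
    (hF : ∀ p ∈ F, p.Prime ∧ R ≤ p ∧ p < 2 * R ∧ On K (p * y) τ ∧ ¬ On K y (τ * p)) :
    (#F : ℝ) ≤ 25 * K ^ 3 * R / W := by
  have hW : 2 ≤ W := by linarith
  have hW0 : 0 < W := by linarith
  have hW4 : W ≤ W ^ 4 := by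
    calc W = W * 1 := by ring
      _ ≤ W * W ^ 3 := by
        refine mul_le_mul_of_nonneg_left ?_ hW0.le
        exact one_le_pow₀ (by linarith)
      _ = W ^ 4 := by ring
  have hW16 : 16 ≤ W ^ 4 := by
    calc (16 : ℝ) = 2 ^ 4 := by norm_num
      _ ≤ W ^ 4 := pow_le_pow_left₀ (by norm_num) hW 4
  have hτ0 : 0 < τ := by linarith
  have hR0 : (0 : ℝ) < R := by linarith
  have hRn : 0 < R := by exact_mod_cast hR0
  have hR8 : (8 : ℝ) ≤ R := by linarith
  have hK0 : 0 < K := by linarith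
  obtain ⟨q, hq1, hq2⟩ := Real.exists_rat_abs_sub_le_and_den_le y (n := 4 * R) (by omega)
  set b : ℤ := q.num with hb
  set w : ℕ := q.den with hw
  have hw1 : 0 < w := q.pos
  have hw0 : (0 : ℝ) < w := by exact_mod_cast hw1
  have hcop : IsCoprime b (w : ℤ) := by
    rw [Int.isCoprime_iff_nat_coprime]
    simpa using q.reduced
  have hqv : (q : ℝ) = b / w := by
    rw [hb, hw]
    exact (Rat.cast_def q)
  set β : ℝ := w * y - b with hβ
  have hβ1 : |β| ≤ 1 / (4 * R + 1) := by
    have h1 : β = w * (y - q) := by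
      rw [hβ, hqv]
      field_simp
    rw [h1, abs_mul, Nat.abs_cast]
    calc (w : ℝ) * |y - q| ≤ w * (1 / (((4 * R : ℕ) + 1) * w)) :=
          mul_le_mul_of_nonneg_left hq1 hw0.le
      _ = 1 / (4 * R + 1) := by
        push_cast
        field_simp
  -- data of `p`
  have hdat : ∀ p ∈ F, ∃ (a : ℤ) (k : ℕ), 0 < k ∧ (k : ℝ) < K ∧ τ * |k * p * y - a| < K := by
    intro p hp
    obtain ⟨_, _, _, ⟨a, k, hk, hlt⟩, _⟩ := hF p hp
    have hk0 : (0 : ℝ) < k := by exact_mod_cast hk
    refine ⟨a, k, hk, ?_, ?_⟩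
    · refine lt_of_le_of_lt ?_ hlt
      nlinarith [le_max_left (1 : ℝ) (τ * |(p : ℝ) * y - a / k|)]
    · refine lt_of_le_of_lt ?_ hlt
      have h1 : (k : ℝ) * p * y - a = k * (p * y - a / k) := by
        field_simp
      rw [h1, abs_mul, Nat.abs_cast]
      calc τ * (k * |(p : ℝ) * y - a / k|) = k * (τ * |(p : ℝ) * y - a / k|) := by ring
        _ ≤ _ := mul_le_mul_of_nonneg_left (le_max_right _ _) hk0.le
  choose! a k hk0 hkK hak using hdat
  have hN : ∀ p ∈ F, (((k p : ℤ) * b * p - a p * w : ℤ) : ℝ) =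
      w * (k p * p * y - a p) - k p * p * β := by
    intro p _
    push_cast
    rw [hβ]
    ring
  have hpR : ∀ p ∈ F, (R : ℝ) ≤ p ∧ (p : ℝ) ≤ 2 * R := by
    intro p hp
    obtain ⟨_, h1, h2, _⟩ := hF p hp
    exact ⟨by exact_mod_cast h1, by exact_mod_cast h2.le⟩
  have hb1 : ∀ p ∈ F, |(w : ℝ) * (k p * p * y - a p)| ≤ w * K / τ := by
    intro p hp
    rw [abs_mul, Nat.abs_cast, mul_div_assoc]
    refine mul_le_mul_of_nonneg_left ?_ hw0.le
    rw [le_div_iff₀ hτ0]
    linarith [hak p hp]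
  have hb2 : ∀ p ∈ F, |(k p : ℝ) * p * β| ≤ K / 2 := by
    intro p hp
    have h1 := hkK p hp
    have h2 := (hpR p hp).2
    rw [abs_mul, abs_mul, Nat.abs_cast, Nat.abs_cast]
    calc (k p : ℝ) * p * |β| ≤ K * (2 * R) * (1 / (4 * R + 1)) := by
          gcongr
      _ ≤ K / 2 := by
        rw [mul_one_div, div_le_div_iff₀ (by positivity) (by norm_num)]
        nlinarith
  have hKfl : ∀ p ∈ F, k p ∈ Icc 1 ⌊K⌋₊ := by
    intro p hp
    exact mem_Icc.2 ⟨hk0 p hp, Nat.le_floor (hkK p hp).le⟩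
  have hfl : ((⌊K⌋₊ : ℕ) : ℝ) ≤ K := Nat.floor_le hK0.le
  rcases le_or_gt W w with hcase | hcase
  · -- large denominator
    set T : ℝ := w * K / τ + K / 2 with hT
    have hT0 : 0 ≤ T := by positivity
    have hmap : ∀ p ∈ F, (k p, (k p : ℤ) * b * p - a p * w) ∈ Icc 1 ⌊K⌋₊ ×ˢ Icc (-⌊T⌋) ⌊T⌋ := by
      intro p hp
      refine mem_product.2 ⟨hKfl p hp, ?_⟩
      have h1 : |(((k p : ℤ) * b * p - a p * w : ℤ) : ℝ)| ≤ T := by
        rw [hN p hp]
        exact (abs_sub _ _).trans (add_le_add (hb1 p hp) (hb2 p hp))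
      have h2 := abs_le.1 h1
      simp only [mem_Icc]
      constructor
      · rw [neg_le]
        refine Int.le_floor.2 ?_
        push_cast at h2 ⊢
        linarith [h2.1]
      · exact Int.le_floor.2 h2.2
    have hfib : ∀ v ∈ Icc 1 ⌊K⌋₊ ×ˢ Icc (-⌊T⌋) ⌊T⌋,
        #{p ∈ F | (k p, (k p : ℤ) * b * p - a p * w) = v} ≤ ⌊(R : ℝ) * K / w + 1⌋₊ := by
      rintro ⟨k0, n0⟩ hv
      have hk0' : 1 ≤ k0 := (mem_Icc.1 (mem_product.1 hv).1).1
      have hk1' : k0 ≤ ⌊K⌋₊ := (mem_Icc.1 (mem_product.1 hv).1).2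
      refine Nat.le_floor ?_
      set w' := w / Nat.gcd w k0 with hw'
      have hg0 : 0 < Nat.gcd w k0 := Nat.gcd_pos_of_pos_left _ hw1
      have hw'0 : 0 < w' := Nat.div_pos (Nat.le_of_dvd hw1 (Nat.gcd_dvd_left _ _)) hg0
      have hc := card_class {p ∈ F | (k p, (k p : ℤ) * b * p - a p * w) = (k0, n0)} R w' hw'0
        (by
          intro p hp
          have := hF p (mem_filter.1 hp).1
          exact ⟨this.2.1, this.2.2.1⟩)
        (by
          intro p hp p' hp'
          have e1 := (mem_filter.1 hp).2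
          have e2 := (mem_filter.1 hp').2
          simp only [Prod.mk.injEq] at e1 e2
          obtain ⟨e1, e1'⟩ := e1
          obtain ⟨e2, e2'⟩ := e2
          rw [e1] at e1'
          rw [e2] at e2'
          have h1 : (w : ℤ) ∣ b * ((k0 : ℤ) * (p' - p)) := by
            refine ⟨a p' - a p, ?_⟩
            linear_combination e2' - e1'
          have h2 : (w : ℤ) ∣ (k0 : ℤ) * (p' - p) := hcop.symm.dvd_of_dvd_mul_left h1
          rw [Nat.modEq_iff_dvd]
          have h3 : (w : ℤ) = (Nat.gcd w k0 : ℤ) * w' := by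
            rw [hw']
            exact_mod_cast (Nat.mul_div_cancel' (Nat.gcd_dvd_left w k0)).symm
          obtain ⟨k1, hk1⟩ := Nat.gcd_dvd_right w k0
          have h4 : (w' : ℤ) ∣ (k1 : ℤ) * (p' - p) := by
            have h5 : ((Nat.gcd w k0 : ℕ) : ℤ) * w' ∣ ((Nat.gcd w k0 : ℕ) : ℤ) * (k1 * (p' - p)) := by
              rw [← h3, ← mul_assoc]
              have : ((Nat.gcd w k0 : ℕ) : ℤ) * k1 = k0 := by exact_mod_cast hk1.symm
              rw [this]
              exact h2
            exact (mul_dvd_mul_iff_left (by exact_mod_cast hg0.ne')).1 h5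
          have h6 : IsCoprime (w' : ℤ) (k1 : ℤ) := by
            rw [Nat.isCoprime_iff_coprime]
            have h7 : k1 = k0 / Nat.gcd w k0 := by
              rw [Nat.div_eq_of_eq_mul_right hg0 hk1]
            rw [h7, hw']
            exact Nat.coprime_div_gcd_div_gcd hg0
          exact h6.dvd_of_dvd_mul_left h4)
      refine hc.trans ?_
      have hw'r : (w : ℝ) / K ≤ w' := by
        have h3 : (w : ℝ) = (Nat.gcd w k0 : ℝ) * w' := by
          rw [hw']
          exact_mod_cast (Nat.mul_div_cancel' (Nat.gcd_dvd_left w k0)).symm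
        have h4 : ((Nat.gcd w k0 : ℕ) : ℝ) ≤ K := by
          have h5 : Nat.gcd w k0 ≤ k0 := Nat.le_of_dvd hk0' (Nat.gcd_dvd_right _ _)
          have h6 : ((Nat.gcd w k0 : ℕ) : ℝ) ≤ (⌊K⌋₊ : ℕ) := by exact_mod_cast h5.trans hk1'
          linarith
        rw [div_le_iff₀ hK0, h3, mul_comm]
        exact mul_le_mul_of_nonneg_left h4 (by positivity)
      have hw'0r : (0 : ℝ) < w' := by exact_mod_cast hw'0
      have : (R : ℝ) / w' ≤ R * K / w := by
        rw [div_le_div_iff₀ hw'0r hw0]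
        rw [div_le_iff₀ hK0] at hw'r
        nlinarith
      linarith
    have hcard := card_le_mul_card_image_of_maps_to hmap _ hfib
    have h1 : (#F : ℝ) ≤ (⌊(R : ℝ) * K / w + 1⌋₊ : ℕ) *
        (#(Icc 1 ⌊K⌋₊ ×ˢ Icc (-⌊T⌋) ⌊T⌋) : ℕ) := by exact_mod_cast hcard
    have h2 : ((⌊(R : ℝ) * K / w + 1⌋₊ : ℕ) : ℝ) ≤ 5 * R * K / w := by
      refine (Nat.floor_le (by positivity)).trans ?_
      have h3 : (w : ℝ) ≤ 4 * R := by exact_mod_cast hq2
      rw [div_add_one hw0.ne']
      refine div_le_div_of_nonneg_right ?_ hw0.le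
      nlinarith
    have h3 : ((#(Icc 1 ⌊K⌋₊ ×ˢ Icc (-⌊T⌋) ⌊T⌋) : ℕ) : ℝ) ≤ K * (2 * T + 1) := by
      rw [card_product]
      push_cast
      have h4 : (#(Icc 1 ⌊K⌋₊) : ℝ) ≤ K := by simpa using hfl
      have h5 : (#(Icc (-⌊T⌋) ⌊T⌋) : ℝ) ≤ 2 * T + 1 := by
        rw [Int.card_Icc]
        have h6 : 0 ≤ ⌊T⌋ := Int.floor_nonneg.2 hT0
        have h7 : ((⌊T⌋ + 1 - -⌊T⌋).toNat : ℤ) = 2 * ⌊T⌋ + 1 := by
          rw [Int.toNat_of_nonneg (by omega)]
          ring
        have h8 : (((⌊T⌋ + 1 - -⌊T⌋).toNat : ℕ) : ℝ) = 2 * (⌊T⌋ : ℝ) + 1 := by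
          exact_mod_cast h7
        rw [h8]
        linarith [Int.floor_le T]
      exact mul_le_mul h4 h5 (by positivity) hK0.le
    have h4 : (#F : ℝ) ≤ (5 * R * K / w) * (K * (2 * T + 1)) := by
      refine h1.trans (mul_le_mul h2 h3 (by positivity) (by positivity))
    refine h4.trans ?_
    have h5 : (5 * R * K / w) * (K * (2 * T + 1)) = 10 * R * K ^ 3 / τ + 5 * R * K ^ 2 * (K + 1) / w := by
      rw [hT]
      field_simp
      ring
    rw [h5]
    have h6 : 10 * R * K ^ 3 / τ ≤ 10 * R * K ^ 3 / W := by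
      refine div_le_div_of_nonneg_left (by positivity) hW0 (by linarith)
    have h7 : 5 * R * K ^ 2 * (K + 1) / w ≤ 10 * R * K ^ 3 / W := by
      refine div_le_div₀ (by positivity) ?_ hW0 hcase
      have : R * K ^ 2 * 1 ≤ R * K ^ 2 * K := by
        refine mul_le_mul_of_nonneg_left hK (by positivity)
      nlinarith
    calc 10 * R * K ^ 3 / τ + 5 * R * K ^ 2 * (K + 1) / w
        ≤ 10 * R * K ^ 3 / W + 10 * R * K ^ 3 / W := add_le_add h6 h7
      _ = 20 * (K ^ 3 * R) / W := by ring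
      _ ≤ 25 * (K ^ 3 * R) / W := by gcongr; norm_num
      _ = 25 * K ^ 3 * R / W := by ring
  · -- small denominator
    have hwK : w * K / τ ≤ 1 / 2 := by
      rw [div_le_div_iff₀ hτ0 (by norm_num)]
      have h1 : (w : ℝ) * K ≤ W * (W / 2) := by
        refine mul_le_mul hcase.le (by linarith) hK0.le hW0.le
      have h2 : W * W ≤ W ^ 4 := by
        have : 1 ≤ W ^ 2 := one_le_pow₀ (by linarith)
        calc W * W = W ^ 2 * 1 := by ring
          _ ≤ W ^ 2 * W ^ 2 := mul_le_mul_of_nonneg_left this (by positivity)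
          _ = W ^ 4 := by ring
      linarith
    have hwR : w < R := by
      have : (w : ℝ) < R := by
        have h1 : W * 8 ≤ W * W ^ 3 := by
          refine mul_le_mul_of_nonneg_left ?_ hW0.le
          calc (8 : ℝ) = 2 ^ 3 := by norm_num
            _ ≤ W ^ 3 := pow_le_pow_left₀ (by norm_num) hW 3
        have h2 : W * W ^ 3 = W ^ 4 := by ring
        linarith
      exact_mod_cast this
    -- `N ≠ 0`
    have hN0 : ∀ p ∈ F, (k p : ℤ) * b * p - a p * w ≠ 0 := by
      intro p hp h0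
      obtain ⟨hpp, hp1, hp2, _, hnot⟩ := hF p hp
      have hpw : ¬ p ∣ w := fun h => absurd (Nat.le_of_dvd hw1 h) (by omega)
      have hcw : IsCoprime (w : ℤ) (p : ℤ) := by
        rw [Nat.isCoprime_iff_coprime]
        exact ((Nat.Prime.coprime_iff_not_dvd hpp).2 hpw).symm
      have h1 : (w : ℤ) ∣ (k p : ℤ) * (b * p) := ⟨a p, by linear_combination h0⟩
      have h2 : (w : ℤ) ∣ (k p : ℤ) := (hcop.symm.mul_right hcw).dvd_of_dvd_mul_right h1
      obtain ⟨j, hj⟩ : w ∣ k p := by exact_mod_cast h2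
      have hj0 : 0 < j := by
        rcases Nat.eq_zero_or_pos j with h | h
        · rw [h, mul_zero] at hj
          exact absurd (hk0 p hp) (by omega)
        · exact h
      have h3 : a p = j * b * p := by
        have : (w : ℤ) * (a p - j * b * p) = 0 := by
          rw [hj] at h0
          push_cast at h0
          linear_combination -h0
        rcases mul_eq_zero.1 this with h | h
        · exact absurd h (by exact_mod_cast hw1.ne')
        · linarith
      apply hnot
      refine ⟨b, w, hw1, ?_⟩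
      have hjr : (1 : ℝ) ≤ j := by exact_mod_cast hj0
      have h4 : (w : ℝ) < K := by
        have h5 : (w : ℝ) ≤ k p := by
          rw [hj]
          push_cast
          nlinarith
        linarith [hkK p hp]
      have h5 := hak p hp
      rw [hj, h3] at h5
      have h6 : ((w * j : ℕ) : ℝ) * p * y - ((j * b * p : ℤ) : ℝ) = j * (p * β) := by
        push_cast
        rw [hβ]
        ring
      rw [h6, abs_mul, Nat.abs_cast] at h5
      have h7 : (w : ℝ) * (τ * p * |y - b / w|) = τ * |(p : ℝ) * β| := by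
        have : β = w * (y - b / w) := by
          rw [hβ]
          field_simp
        rw [this, abs_mul, abs_mul, Nat.abs_cast, Nat.abs_cast]
        ring
      rw [mul_max_of_nonneg _ _ hw0.le, mul_one, h7]
      refine max_lt h4 ?_
      refine lt_of_le_of_lt ?_ h5
      have h8 : 0 ≤ τ * |(p : ℝ) * β| := by positivity
      calc τ * |(p : ℝ) * β| = 1 * (τ * |(p : ℝ) * β|) := by ring
        _ ≤ j * (τ * |(p : ℝ) * β|) := mul_le_mul_of_nonneg_right hjr h8
        _ = τ * (j * |(p : ℝ) * β|) := by ring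
    have hmap : ∀ p ∈ F, (k p, ((k p : ℤ) * b * p - a p * w).natAbs) ∈
        Icc 1 ⌊K⌋₊ ×ˢ Icc 1 ⌊K⌋₊ := by
      intro p hp
      refine mem_product.2 ⟨hKfl p hp, mem_Icc.2 ⟨Int.natAbs_pos.2 (hN0 p hp), Nat.le_floor ?_⟩⟩
      have h1 : |(((k p : ℤ) * b * p - a p * w : ℤ) : ℝ)| ≤ 1 / 2 + K / 2 := by
        rw [hN p hp]
        exact (abs_sub _ _).trans (add_le_add ((hb1 p hp).trans hwK) (hb2 p hp))
      rw [Nat.cast_natAbs, Int.cast_abs]
      linarith
    have hfib : ∀ v ∈ Icc 1 ⌊K⌋₊ ×ˢ Icc 1 ⌊K⌋₊,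
        #{p ∈ F | (k p, ((k p : ℤ) * b * p - a p * w).natAbs) = v} ≤
          ⌊8 * R * w * K / τ + 1⌋₊ := by
      rintro ⟨k0, n0⟩ hv
      refine Nat.le_floor ?_
      rcases Finset.eq_empty_or_nonempty
        {p ∈ F | (k p, ((k p : ℤ) * b * p - a p * w).natAbs) = (k0, n0)} with h0 | ⟨p0, hp0⟩
      · rw [h0]
        simp
        positivity
      · have hk0' : 1 ≤ k0 := (mem_Icc.1 (mem_product.1 hv).1).1
        have hk0r : (0 : ℝ) < k0 := by exact_mod_cast hk0'
        -- lower bound for `k0 |β|`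
        have hlow : 1 / (4 * R) ≤ k0 * |β| := by
          obtain ⟨hp, e⟩ := mem_filter.1 hp0
          simp only [Prod.mk.injEq] at e
          have h1 : (1 : ℝ) ≤ |(((k p0 : ℤ) * b * p0 - a p0 * w : ℤ) : ℝ)| := by
            rw [← Int.cast_abs]
            exact_mod_cast Int.one_le_abs (hN0 p0 hp)
          rw [hN p0 hp] at h1
          have h2 := (abs_sub ((w : ℝ) * (k p0 * p0 * y - a p0)) (k p0 * p0 * β))
          have h3 := (hb1 p0 hp).trans hwK
          have h4 : 1 / 2 ≤ |(k p0 : ℝ) * p0 * β| := by linarith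
          rw [abs_mul, abs_mul, Nat.abs_cast, Nat.abs_cast, e.1] at h4
          have h5 := (hpR p0 hp).2
          rw [div_le_iff₀ (by positivity)]
          have h6 : 0 ≤ k0 * |β| := by positivity
          nlinarith
        have hu0 : 0 < k0 * |β| := lt_of_lt_of_le (by positivity) hlow
        have hc := card_window {p ∈ F | (k p, ((k p : ℤ) * b * p - a p * w).natAbs) = (k0, n0)}
          (k0 * |β|) n0 (w * K / τ) hu0 (by positivity) (by
            intro p hp
            obtain ⟨hp, e⟩ := mem_filter.1 hp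
            simp only [Prod.mk.injEq] at e
            have h1 := hb1 p hp
            have h2 : (w : ℝ) * (k p * p * y - a p) =
                (((k p : ℤ) * b * p - a p * w : ℤ) : ℝ) - (-(k p * p * β)) := by
              rw [hN p hp]
              ring
            rw [h2] at h1
            have h3 := (abs_abs_sub_abs_le_abs_sub
              ((((k p : ℤ) * b * p - a p * w : ℤ) : ℝ)) (-(k p * p * β))).trans h1
            rw [abs_neg, abs_mul, abs_mul, Nat.abs_cast, Nat.abs_cast, ← Int.cast_abs,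
              ← Nat.cast_natAbs, e.2, e.1] at h3
            rw [abs_sub_comm]
            have : (k0 : ℝ) * |β| * p = k0 * p * |β| := by ring
            rw [this]
            exact h3)
        refine hc.trans ?_
        have h1 : 2 * (w * K / τ) / (k0 * |β|) ≤ 8 * R * w * K / τ := by
          rw [div_le_iff₀ hu0]
          have h2 : 8 * R * w * K / τ * (1 / (4 * R)) ≤ 8 * R * w * K / τ * (k0 * |β|) :=
            mul_le_mul_of_nonneg_left hlow (by positivity)
          have h3 : 8 * R * w * K / τ * (1 / (4 * R)) = 2 * (w * K / τ) := by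
            field_simp
            ring
          linarith
        linarith
    have hcard := card_le_mul_card_image_of_maps_to hmap _ hfib
    have h1 : (#F : ℝ) ≤ (⌊8 * R * w * K / τ + 1⌋₊ : ℕ) *
        (#(Icc 1 ⌊K⌋₊ ×ˢ Icc 1 ⌊K⌋₊) : ℕ) := by exact_mod_cast hcard
    have h2 : ((⌊8 * R * w * K / τ + 1⌋₊ : ℕ) : ℝ) ≤ 8 * R * w * K / τ + 1 :=
      Nat.floor_le (by positivity)
    have h3 : ((#(Icc 1 ⌊K⌋₊ ×ˢ Icc 1 ⌊K⌋₊) : ℕ) : ℝ) ≤ K * K := by
      rw [card_product]
      push_cast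
      have h4 : (#(Icc 1 ⌊K⌋₊) : ℝ) ≤ K := by simpa using hfl
      exact mul_le_mul h4 h4 (by positivity) hK0.le
    have h4 : (#F : ℝ) ≤ (8 * R * w * K / τ + 1) * (K * K) :=
      h1.trans (mul_le_mul h2 h3 (by positivity) (by positivity))
    refine h4.trans ?_
    have h5 : 8 * R * w * K / τ ≤ 8 * R * K / W := by
      rw [div_le_div_iff₀ hτ0 hW0]
      have h6 : (w : ℝ) * W ≤ W ^ 4 := by
        calc (w : ℝ) * W ≤ W * W := mul_le_mul_of_nonneg_right hcase.le hW0.le
          _ = W ^ 2 * 1 := by ring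
          _ ≤ W ^ 2 * W ^ 2 := mul_le_mul_of_nonneg_left (one_le_pow₀ (by linarith)) (by positivity)
          _ = W ^ 4 := by ring
      calc 8 * R * w * K * W = 8 * R * K * (w * W) := by ring
        _ ≤ 8 * R * K * τ := mul_le_mul_of_nonneg_left (h6.trans hτ) (by positivity)
    have h6 : 1 ≤ R * K / W := by
      rw [le_div_iff₀ hW0]
      have : W ≤ R := by
        have h1 : W * 8 ≤ W * W ^ 3 := by
          refine mul_le_mul_of_nonneg_left ?_ hW0.le
          calc (8 : ℝ) = 2 ^ 3 := by norm_num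
            _ ≤ W ^ 3 := pow_le_pow_left₀ (by norm_num) hW 3
        have h2 : W * W ^ 3 = W ^ 4 := by ring
        linarith
      nlinarith
    calc (8 * R * w * K / τ + 1) * (K * K) ≤ (8 * R * K / W + R * K / W) * (K * K) := by
          refine mul_le_mul_of_nonneg_right (add_le_add h5 h6) (by positivity)
      _ = 9 * (K ^ 3 * R) / W := by ring
      _ ≤ 25 * (K ^ 3 * R) / W := by gcongr; norm_num
      _ = 25 * K ^ 3 * R / W := by ring

/-- **lemma SP** (block NH, leaf (B)) -/
theorem sp (B : ℝ) : ∃ C c : ℝ, 0 < C ∧ 0 < c ∧ ∀ (y τ K X : ℝ) (F : Finset ℕ), 2 ≤ X →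
    X ≤ τ ^ B → K ^ 64 ≤ min τ X →
    (∀ p ∈ F, p.Prime ∧ X < p ∧ (p : ℝ) ≤ X ^ 2 ∧ On K (p * y) τ ∧ ¬ On K y (τ * p)) →
    ∑ p ∈ F, (1 : ℝ) / p ≤ C * (min τ X) ^ (-c) := by
  have hl2 : 0 < Real.log 2 := Real.log_pos (by norm_num)
  set B' : ℝ := max 1 B with hB'
  have hB1 : 1 ≤ B' := le_max_left _ _
  set C0 : ℝ := (128 * B' / Real.log 2 + 1) * 25 with hC0
  have hC00 : 0 < C0 := by positivity
  refine ⟨C0 + 256 * 256 ^ B', 3 / 16, by positivity, by norm_num, ?_⟩
  intro y τ K X F hX hXτ hKm hF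
  set m : ℝ := min τ X with hm
  have hm00 : 0 ≤ m := le_trans (by positivity) hKm
  rcases F.eq_empty_or_nonempty with h0 | ⟨p0, hp0⟩
  · rw [h0, sum_empty]
    positivity
  have hK1 : 1 < K := (hF p0 hp0).2.2.2.1.one_lt
  have hK0 : 0 < K := by linarith
  have hm1 : 1 < m := lt_of_lt_of_le (one_lt_pow₀ hK1 (by norm_num)) hKm
  have hm0 : 0 < m := by linarith
  have hmX : m ≤ X := min_le_right _ _
  have hmτ : m ≤ τ := min_le_left _ _
  have hX0 : 0 < X := by linarith
  have hXm : X ≤ m ^ B' := by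
    rcases min_choice τ X with h | h
    · rw [← hm] at h
      rw [h]
      exact hXτ.trans (Real.rpow_le_rpow_of_exponent_le (by linarith) (le_max_right _ _))
    · rw [← hm] at h
      rw [h]
      calc X = X ^ (1 : ℝ) := (Real.rpow_one X).symm
        _ ≤ X ^ B' := Real.rpow_le_rpow_of_exponent_le (by linarith) hB1
  rcases lt_or_ge m 256 with hsm | hlg
  · -- small `m`
    have h1 : ∑ p ∈ F, (1 : ℝ) / p ≤ X := by
      have hcard : (#F : ℝ) ≤ X ^ 2 := by
        have : F ⊆ Icc 1 ⌊X ^ 2⌋₊ := by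
          intro p hp
          obtain ⟨h1, _, h2, _⟩ := hF p hp
          exact mem_Icc.2 ⟨h1.pos, Nat.le_floor h2⟩
        have h2 := card_le_card this
        rw [Nat.card_Icc, Nat.add_sub_cancel] at h2
        calc (#F : ℝ) ≤ (⌊X ^ 2⌋₊ : ℕ) := by exact_mod_cast h2
          _ ≤ X ^ 2 := Nat.floor_le (by positivity)
      calc ∑ p ∈ F, (1 : ℝ) / p ≤ ∑ _p ∈ F, 1 / X := by
            refine sum_le_sum fun p hp => ?_
            exact one_div_le_one_div_of_le hX0 (hF p hp).2.1.le
        _ = #F * (1 / X) := by rw [sum_const, nsmul_eq_mul]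
        _ ≤ X ^ 2 * (1 / X) := mul_le_mul_of_nonneg_right hcard (by positivity)
        _ = X := by field_simp
    have h2 : m ^ B' ≤ 256 ^ B' := Real.rpow_le_rpow hm0.le hsm.le (by linarith)
    have h3 : (1 : ℝ) / 256 ≤ m ^ (-(3 / 16) : ℝ) := by
      calc (1 : ℝ) / 256 = 256 ^ (-1 : ℝ) := by
            rw [Real.rpow_neg_one]
            norm_num
        _ ≤ m ^ (-1 : ℝ) := by
            rw [Real.rpow_neg_one, Real.rpow_neg_one]
            exact inv_anti₀ hm0 hsm.le
        _ ≤ m ^ (-(3 / 16) : ℝ) := Real.rpow_le_rpow_of_exponent_le hm1.le (by norm_num)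
    calc ∑ p ∈ F, (1 : ℝ) / p ≤ 256 ^ B' := by linarith
      _ = 256 * 256 ^ B' * (1 / 256) := by ring
      _ ≤ 256 * 256 ^ B' * m ^ (-(3 / 16) : ℝ) := mul_le_mul_of_nonneg_left h3 (by positivity)
      _ ≤ (C0 + 256 * 256 ^ B') * m ^ (-(3 / 16) : ℝ) := by
        refine mul_le_mul_of_nonneg_right ?_ (by positivity)
        linarith
  · -- large `m`
    set V : ℝ := m ^ (1 / 64 : ℝ) with hV
    have hV0 : 0 < V := Real.rpow_pos_of_pos hm0 _
    have hVm : V ^ 64 = m := by
      rw [hV, ← Real.rpow_natCast, ← Real.rpow_mul hm0.le]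
      norm_num
    have hKV : K ≤ V := by
      by_contra h
      push_neg at h
      have : V ^ 64 < K ^ 64 := pow_lt_pow_left₀ h hV0.le (by norm_num)
      linarith
    have hV1 : 1 ≤ V := by linarith
    have hV8 : 2 ≤ V ^ 8 := by
      by_contra h
      push_neg at h
      have : (V ^ 8) ^ 8 < 2 ^ 8 := pow_lt_pow_left₀ h (by positivity) (by norm_num)
      rw [← pow_mul] at this
      norm_num at this
      linarith
    have hW4 : (V ^ 16) ^ 4 = m := by
      rw [← pow_mul]
      exact hVm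
    have hKW : 2 * K ≤ V ^ 16 := by
      calc 2 * K ≤ V ^ 8 * V := mul_le_mul hV8 hKV hK0.le (by positivity)
        _ = V ^ 9 * 1 := by ring
        _ ≤ V ^ 9 * V ^ 7 := mul_le_mul_of_nonneg_left (one_le_pow₀ hV1) (by positivity)
        _ = V ^ 16 := by ring
    have hlogX : Real.log X ≤ B' * Real.log m := by
      rw [← Real.log_rpow hm0]
      exact Real.log_le_log hX0 hXm
    have hlogm : Real.log m ≤ 64 * V := by
      rw [← hVm, Real.log_pow]
      push_cast
      have := Real.log_le_sub_one_of_pos hV0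
      linarith
    -- the blocks
    set N : ℕ := ⌊2 * Real.log X / Real.log 2⌋₊ + 1 with hN
    have hmaps : ∀ p ∈ F, Nat.log 2 p ∈ range N := by
      intro p hp
      obtain ⟨h1, _, h2, _⟩ := hF p hp
      rw [mem_range, hN, Nat.lt_succ_iff]
      refine Nat.le_floor ?_
      rw [le_div_iff₀ hl2]
      have h3 : ((2 ^ Nat.log 2 p : ℕ) : ℝ) ≤ X ^ 2 :=
        le_trans (by exact_mod_cast Nat.pow_log_le_self 2 h1.pos.ne') h2
      have h4 := Real.log_le_log (by positivity) h3
      push_cast at h4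
      rw [Real.log_pow, Real.log_pow] at h4
      push_cast at h4
      exact h4
    rw [← sum_fiberwise_of_maps_to hmaps]
    have hblock : ∀ j ∈ range N, ∑ p ∈ F with Nat.log 2 p = j, (1 : ℝ) / p ≤ 25 * V ^ 3 / V ^ 16 := by
      intro j _
      rcases ({p ∈ F | Nat.log 2 p = j}).eq_empty_or_nonempty with h0 | ⟨p1, hp1⟩
      · rw [h0, sum_empty]
        positivity
      · have hlog : ∀ p ∈ ({p ∈ F | Nat.log 2 p = j}), 2 ^ j ≤ p ∧ p < 2 * 2 ^ j := by
          intro p hp
          obtain ⟨hpF, rfl⟩ := mem_filter.1 hp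
          have h1 := (hF p hpF).1
          refine ⟨Nat.pow_log_le_self 2 h1.pos.ne', ?_⟩
          have := Nat.lt_pow_succ_log_self (b := 2) (by norm_num) p
          rw [pow_succ] at this
          linarith
        have hR2 : m ≤ 2 * ((2 ^ j : ℕ) : ℝ) := by
          have h1 := (hF p1 (mem_filter.1 hp1).1).2.1
          have h2 : (p1 : ℝ) ≤ ((2 * 2 ^ j : ℕ) : ℝ) := by exact_mod_cast (hlog p1 hp1).2.le
          push_cast at h2 ⊢
          linarith
        have hb := block (y := y) (τ := τ) (K := K) (W := V ^ 16) (R := 2 ^ j)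
          (F := {p ∈ F | Nat.log 2 p = j}) hK1.le hKW (by rw [hW4]; exact hmτ)
          (by rw [hW4]; exact hR2) (by
            intro p hp
            obtain ⟨h1, _, _, h2, h3⟩ := hF p (mem_filter.1 hp).1
            exact ⟨h1, (hlog p hp).1, (hlog p hp).2, h2, h3⟩)
        have hRpos : (0 : ℝ) < ((2 ^ j : ℕ) : ℝ) := by positivity
        calc ∑ p ∈ F with Nat.log 2 p = j, (1 : ℝ) / p
            ≤ ∑ _p ∈ F with Nat.log 2 _p = j, 1 / ((2 ^ j : ℕ) : ℝ) := by
              refine sum_le_sum fun p hp => ?_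
              exact one_div_le_one_div_of_le hRpos (by exact_mod_cast (hlog p hp).1)
          _ = #{p ∈ F | Nat.log 2 p = j} * (1 / ((2 ^ j : ℕ) : ℝ)) := by
              rw [sum_const, nsmul_eq_mul]
          _ ≤ (25 * K ^ 3 * ((2 ^ j : ℕ) : ℝ) / V ^ 16) * (1 / ((2 ^ j : ℕ) : ℝ)) :=
              mul_le_mul_of_nonneg_right hb (by positivity)
          _ = 25 * K ^ 3 / V ^ 16 := by field_simp
          _ ≤ 25 * V ^ 3 / V ^ 16 := by gcongr
    have hNle : (N : ℝ) ≤ (128 * B' / Real.log 2 + 1) * V := by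
      rw [hN]
      push_cast
      have h1 : (⌊2 * Real.log X / Real.log 2⌋₊ : ℝ) ≤ 2 * Real.log X / Real.log 2 := by
        refine Nat.floor_le ?_
        have : 0 ≤ Real.log X := Real.log_nonneg (by linarith)
        positivity
      have h2 : 2 * Real.log X / Real.log 2 ≤ 128 * B' / Real.log 2 * V := by
        rw [div_mul_eq_mul_div, div_le_div_iff_of_pos_right hl2]
        nlinarith
      nlinarith
    calc ∑ j ∈ range N, ∑ p ∈ F with Nat.log 2 p = j, (1 : ℝ) / p
        ≤ ∑ _j ∈ range N, 25 * V ^ 3 / V ^ 16 := sum_le_sum hblock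
      _ = N * (25 * V ^ 3 / V ^ 16) := by
          rw [sum_const, nsmul_eq_mul, card_range]
      _ ≤ ((128 * B' / Real.log 2 + 1) * V) * (25 * V ^ 3 / V ^ 16) :=
          mul_le_mul_of_nonneg_right hNle (by positivity)
      _ = C0 * (V ^ 12)⁻¹ := by
          rw [hC0]
          field_simp
      _ = C0 * m ^ (-(3 / 16) : ℝ) := by
          congr 1
          rw [hV, ← Real.rpow_natCast, ← Real.rpow_mul hm0.le, ← Real.rpow_neg hm0.le]
          norm_num
      _ ≤ (C0 + 256 * 256 ^ B') * m ^ (-(3 / 16) : ℝ) := by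
        refine mul_le_mul_of_nonneg_right ?_ (by positivity)
        have : (0 : ℝ) < 256 * 256 ^ B' := by positivity
        linarith

end Crest.Agent.R4C.SPx601
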