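import Crest.Agent.R4C.SP_726
import Crest.Agent.R4C.NHdef_656

/-! # Lemma SP in the vocabulary of `NHdef_656` (helper726) -/

set_option autoImplicit false

namespace Crest.Agent.R4C.SPnx726

open Finset Crest.Agent.R4C.NHx656

lemma on_iff {K y τ : ℝ} : SPx726.On K y τ ↔ On K y τ := Iff.rfl

/-- **LEMMA SP** of BLOCK NH (3754) -/
theorem sp (B : ℝ) (hB : 1 ≤ B) : ∃ C : ℝ, 0 < C ∧ ∀ (y τ K X : ℝ), 1 ≤ τ → 2 ≤ X → X ≤ τ ^ B →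
    K ^ 64 ≤ min τ X → ∀ F : Finset ℕ,
    (∀ p ∈ F, p.Prime ∧ X < p ∧ (p : ℝ) ≤ X ^ 2 ∧ On K (p * y) τ ∧ ¬ On K y (τ * p)) →
    ∑ p ∈ F, (1 : ℝ) / p ≤ C * (min τ X) ^ (-(1 / 4) : ℝ) := by
  obtain ⟨C, hC, h⟩ := SPx726.sp B hB
  exact ⟨C, hC, fun y τ K X h1 h2 h3 h4 F hF =>
    h y τ K X h1 h2 h3 (h4.trans (min_le_left _ _)) (h4.trans (min_le_right _ _)) F hF⟩

end Crest.Agent.R4C.SPnx726
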