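import Crest.Agent.R4C.Scal_251

/-!
# Row 4: one-prime inequality with averaged relation, main case analysis
-/

set_option autoImplicit false

namespace Crest.Agent.R4C.Corex251

open Finset Crest.Agent.R4C.Basex935 Crest.Agent.R4C.Multix251

lemma jv_swap (k0 : ℝ) (kp km : ℕ → ℝ) (v v' : ℕ) : jv k0 kp km v v' = jv k0 km kp v' v := by
  unfold jv
  by_cases h : v = v'
  · simp [h]
  · rcases lt_or_gt_of_ne h with h' | h'
    · rw [if_neg h, if_neg (by omega), if_neg (Ne.symm h), if_pos h']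
    · rw [if_neg h, if_pos h', if_neg (Ne.symm h), if_neg (by omega)]

lemma jv_nonneg {k0 : ℝ} {kp km : ℕ → ℝ} (hk0 : 0 ≤ k0) (hkp : ∀ j, 0 ≤ kp j)
    (hkm : ∀ j, 0 ≤ km j) (v v' : ℕ) : 0 ≤ jv k0 kp km v v' := by
  unfold jv; split_ifs
  · exact hk0
  · exact hkp _
  · exact hkm _

/-- sum of the off-centre values -/
lemma sum_jv {a v0 : ℕ} (hv0 : v0 ≤ a) (k0 : ℝ) {kp km : ℕ → ℝ} (hkp : ∀ j, 0 ≤ kp j)
    (hkm : ∀ j, 0 ≤ km j) :
    ∑ v' ∈ (range (a + 1)).erase v0, jv k0 kp km v0 v' ≤ ∑ j ∈ Icc 1 a, (kp j + km j) := by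
  have e : (range (a + 1)).erase v0 = (range (a + 1)).filter (fun v' => v' < v0) ∪
      (range (a + 1)).filter (fun v' => v0 < v') := by
    ext b; simp only [mem_erase, mem_union, mem_filter]
    constructor
    · rintro ⟨h1, h2⟩
      rcases lt_or_gt_of_ne h1 with h | h
      · exact Or.inl ⟨h2, h⟩
      · exact Or.inr ⟨h2, h⟩
    · rintro (⟨h1, h2⟩ | ⟨h1, h2⟩)
      · exact ⟨h2.ne, h1⟩
      · exact ⟨h2.ne', h1⟩
  have hd : Disjoint ((range (a + 1)).filter (fun v' => v' < v0))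
      ((range (a + 1)).filter (fun v' => v0 < v')) := by
    rw [disjoint_left]; intro b hb hc
    rw [mem_filter] at hb hc; omega
  rw [e, sum_union hd, sum_add_distrib]
  apply add_le_add
  · calc ∑ v' ∈ (range (a + 1)).filter (fun v' => v' < v0), jv k0 kp km v0 v'
        = ∑ j ∈ ((range (a + 1)).filter (fun v' => v' < v0)).image (fun v' => v0 - v'), kp j := by
          rw [sum_image]
          · apply sum_congr rfl; intro b hb; rw [mem_filter] at hb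
            unfold jv; rw [if_neg (by omega), if_pos hb.2]
          · intro b hb c hc hbc
            rw [mem_coe, mem_filter] at hb hc
            simp only at hbc; omega
      _ ≤ ∑ j ∈ Icc 1 a, kp j := by
          apply sum_le_sum_of_subset_of_nonneg
          · intro j hj
            rw [mem_image] at hj
            obtain ⟨b, hb, rfl⟩ := hj
            rw [mem_filter] at hb; rw [mem_Icc]; omega
          · intro j _ _; exact hkp j
  · calc ∑ v' ∈ (range (a + 1)).filter (fun v' => v0 < v'), jv k0 kp km v0 v'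
        = ∑ j ∈ ((range (a + 1)).filter (fun v' => v0 < v')).image (fun v' => v' - v0), km j := by
          rw [sum_image]
          · apply sum_congr rfl; intro b hb; rw [mem_filter] at hb
            unfold jv; rw [if_neg (by omega), if_neg (by omega)]
          · intro b hb c hc hbc
            rw [mem_coe, mem_filter] at hb hc
            simp only at hbc; omega
      _ ≤ ∑ j ∈ Icc 1 a, km j := by
          apply sum_le_sum_of_subset_of_nonneg
          · intro j hj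
            rw [mem_image] at hj
            obtain ⟨b, hb, rfl⟩ := hj
            rw [mem_filter, mem_range] at hb; rw [mem_Icc]; omega
          · intro j _ _; exact hkm j

/-- row through the centre -/
noncomputable def RR (ρ θ z : ℝ) (k0 : ℝ) (kp km : ℕ → ℝ) (y : ℕ → ℝ) (a v0 : ℕ) : ℝ :=
  ∑ v' ∈ (range (a + 1)).erase v0, z ^ (Nat.dist v0 v') * (y v') ^ ρ * (jv k0 kp km v0 v') ^ θ

/-- the decomposition of `GG` at a centre -/
lemma GG_split {ρ θ z : ℝ} (hρ : 1/2 < ρ) (hρ1 : ρ < 1) (hθ : 0 < θ) (hz : 0 ≤ z)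
    (hz1 : z ≤ 1/2) {t : ℕ → ℝ}
    (ht0 : ∀ v, 0 ≤ t v) (ht1 : ∀ v, t v ≤ 1) {k0 : ℝ} {kp km : ℕ → ℝ} (hk0 : 0 ≤ k0)
    (hkp : ∀ j, 0 ≤ kp j) (hkm : ∀ j, 0 ≤ km j) {x y : ℕ → ℝ} (hx : ∀ v, 0 ≤ x v)
    (hy : ∀ v, 0 ≤ y v) {a v0 : ℕ} (hv0 : v0 ≤ a)
    (hk1 : ∀ v ≤ a, ∀ v' ≤ a, jv k0 kp km v v' ≤ 1)
    (hx1 : ∑ v ∈ range (a + 1), x v = 1) (hy1 : ∑ v ∈ range (a + 1), y v = 1)
    {X Y Z : ℝ} (hX : ∑ v ∈ (range (a + 1)).erase v0, x v = X)
    (hY : ∑ v ∈ (range (a + 1)).erase v0, y v = Y) (hXZ : X ≤ Z) (hYZ : Y ≤ Z) :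
    GG ρ θ z t k0 kp km x y (range (a + 1)) (range (a + 1)) ≤
      (t v0) ^ 2 * (1 - ρ * X) * (1 - ρ * Y) * k0 ^ θ +
        (RR ρ θ z k0 kp km y a v0 + RR ρ θ z k0 km kp x a v0) + 3 * Z ^ (2 * ρ) := by
  have hmem : v0 ∈ range (a + 1) := mem_range.2 (by omega)
  unfold GG
  rw [double_split _ hmem]
  have ex := add_sum_erase (range (a + 1)) x hmem
  have ey := add_sum_erase (range (a + 1)) y hmem
  rw [hx1, hX] at ex
  rw [hy1, hY] at ey
  have hX0 : 0 ≤ X := by rw [← hX]; exact sum_nonneg fun v _ => hx v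
  have hY0 : 0 ≤ Y := by rw [← hY]; exact sum_nonneg fun v _ => hy v
  have exv : x v0 = 1 - X := by linarith
  have eyv : y v0 = 1 - Y := by linarith
  have hX1 : X ≤ 1 := by have := hx v0; linarith
  have hY1 : Y ≤ 1 := by have := hy v0; linarith
  have hρ0 : 0 < ρ := by linarith
  have bern : ∀ q : ℝ, 0 ≤ q → q ≤ 1 → (1 - q) ^ ρ ≤ 1 - ρ * q := by
    intro q hq0 hq1
    have := _root_.rpow_one_add_le_one_add_mul_self (s := -q) (p := ρ) (by linarith) hρ0.le hρ1.le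
    calc (1 - q) ^ ρ = (1 + -q) ^ ρ := by ring_nf
      _ ≤ 1 + ρ * (-q) := this
      _ = _ := by ring
  have hjv0 : ∀ v v', 0 ≤ jv k0 kp km v v' := jv_nonneg hk0 hkp hkm
  -- centre
  have hc : t v0 * t v0 * z ^ (Nat.dist v0 v0) * (x v0 * y v0) ^ ρ * (jv k0 kp km v0 v0) ^ θ ≤
      (t v0) ^ 2 * (1 - ρ * X) * (1 - ρ * Y) * k0 ^ θ := by
    have e1 : jv k0 kp km v0 v0 = k0 := by unfold jv; simp
    rw [e1, Nat.dist_self, pow_zero, Real.mul_rpow (hx _) (hy _), exv, eyv]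
    have b1 := bern X hX0 hX1
    have b2 := bern Y hY0 hY1
    have hk : 0 ≤ k0 ^ θ := Real.rpow_nonneg hk0 _
    have h1 : 0 ≤ (1 - X) ^ ρ := Real.rpow_nonneg (by linarith) _
    have h2 : 0 ≤ (1 - Y) ^ ρ := Real.rpow_nonneg (by linarith) _
    have hXX : 0 ≤ 1 - ρ * X := h1.trans b1
    calc t v0 * t v0 * 1 * ((1 - X) ^ ρ * (1 - Y) ^ ρ) * k0 ^ θ
        = ((t v0) ^ 2 * k0 ^ θ) * ((1 - X) ^ ρ * (1 - Y) ^ ρ) := by ring
      _ ≤ ((t v0) ^ 2 * k0 ^ θ) * ((1 - ρ * X) * (1 - ρ * Y)) :=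
          mul_le_mul_of_nonneg_left (mul_le_mul b1 b2 h2 hXX) (by positivity)
      _ = _ := by ring
  have ht2 : ∀ v v', t v * t v' ≤ 1 := fun v v' => by
    calc t v * t v' ≤ 1 * 1 := mul_le_mul (ht1 v) (ht1 v') (ht0 v') (by norm_num)
      _ = 1 := one_mul 1
  have hx01 : x v0 ≤ 1 := by linarith
  have hy01 : y v0 ≤ 1 := by linarith
  have hr1 : ∑ v' ∈ (range (a + 1)).erase v0, t v0 * t v' * z ^ (Nat.dist v0 v') *
      (x v0 * y v') ^ ρ * (jv k0 kp km v0 v') ^ θ ≤ RR ρ θ z k0 kp km y a v0 := by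
    unfold RR
    apply sum_le_sum
    intro v' _
    have hj := Real.rpow_nonneg (hjv0 v0 v') θ
    have hzz := pow_nonneg hz (Nat.dist v0 v')
    have hyy := Real.rpow_nonneg (hy v') ρ
    have h1 : (x v0 * y v') ^ ρ ≤ (y v') ^ ρ := by
      apply Real.rpow_le_rpow (mul_nonneg (hx _) (hy _)) _ hρ0.le
      calc x v0 * y v' ≤ 1 * y v' := mul_le_mul_of_nonneg_right hx01 (hy _)
        _ = y v' := one_mul _
    calc t v0 * t v' * z ^ (Nat.dist v0 v') * (x v0 * y v') ^ ρ * (jv k0 kp km v0 v') ^ θ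
        = (t v0 * t v') * (z ^ (Nat.dist v0 v') * (jv k0 kp km v0 v') ^ θ * (x v0 * y v') ^ ρ) := by
          ring
      _ ≤ 1 * (z ^ (Nat.dist v0 v') * (jv k0 kp km v0 v') ^ θ * (y v') ^ ρ) := by
          apply mul_le_mul (ht2 _ _) _ _ (by norm_num)
          · exact mul_le_mul_of_nonneg_left h1 (mul_nonneg hzz hj)
          · have := Real.rpow_nonneg (mul_nonneg (hx v0) (hy v')) ρ
            positivity
      _ = _ := by ring
  have hr2 : ∑ v ∈ (range (a + 1)).erase v0, t v * t v0 * z ^ (Nat.dist v v0) *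
      (x v * y v0) ^ ρ * (jv k0 kp km v v0) ^ θ ≤ RR ρ θ z k0 km kp x a v0 := by
    unfold RR
    apply sum_le_sum
    intro v _
    rw [← jv_swap k0 kp km v v0, Nat.dist_comm v0 v]
    have hj := Real.rpow_nonneg (hjv0 v v0) θ
    have hzz := pow_nonneg hz (Nat.dist v v0)
    have hxx := Real.rpow_nonneg (hx v) ρ
    have h1 : (x v * y v0) ^ ρ ≤ (x v) ^ ρ := by
      apply Real.rpow_le_rpow (mul_nonneg (hx _) (hy _)) _ hρ0.le
      calc x v * y v0 ≤ x v * 1 := mul_le_mul_of_nonneg_left hy01 (hx _)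
        _ = x v := mul_one _
    calc t v * t v0 * z ^ (Nat.dist v v0) * (x v * y v0) ^ ρ * (jv k0 kp km v v0) ^ θ
        = (t v * t v0) * (z ^ (Nat.dist v v0) * (jv k0 kp km v v0) ^ θ * (x v * y v0) ^ ρ) := by
          ring
      _ ≤ 1 * (z ^ (Nat.dist v v0) * (jv k0 kp km v v0) ^ θ * (x v) ^ ρ) := by
          apply mul_le_mul (ht2 _ _) _ _ (by norm_num)
          · exact mul_le_mul_of_nonneg_left h1 (mul_nonneg hzz hj)
          · have := Real.rpow_nonneg (mul_nonneg (hx v) (hy v0)) ρ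
            positivity
      _ = _ := by ring
  have hr3 : ∑ v ∈ (range (a + 1)).erase v0, ∑ v' ∈ (range (a + 1)).erase v0,
      t v * t v' * z ^ (Nat.dist v v') * (x v * y v') ^ ρ * (jv k0 kp km v v') ^ θ ≤
      3 * Z ^ (2 * ρ) := by
    have h1 := GG_le_mc (ρ := ρ) hθ.le hz ht0 ht1 hk0 hkp hkm hx hy ((range (a + 1)).erase v0)
      (fun v hv v' hv' => hk1 v (by have := mem_range.1 (mem_of_mem_erase hv); omega) v'
        (by have := mem_range.1 (mem_of_mem_erase hv'); omega))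
    unfold GG at h1
    exact h1.trans (removed_le hρ.le hz hz1 (range (a + 1)) x y hx hy v0 (by rw [hX]; exact hXZ)
      (by rw [hY]; exact hYZ))
  linarith

/-- row bound, non-small case -/
lemma RR_large {ρ θ z : ℝ} (hρ : 0 ≤ ρ) (hθ : 0 ≤ θ) (hz : 0 ≤ z) (hz1 : z ≤ 1/2) {k0 : ℝ}
    {kp km : ℕ → ℝ} (hk0 : 0 ≤ k0) (hkp : ∀ j, 0 ≤ kp j) (hkm : ∀ j, 0 ≤ km j) {y : ℕ → ℝ}
    (hy : ∀ v, 0 ≤ y v) {a v0 : ℕ} (hv0 : v0 ≤ a) {m : ℝ}
    (hY : ∑ v ∈ (range (a + 1)).erase v0, y v ≤ m)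
    (hk : ∑ j ∈ Icc 1 a, (kp j + km j) ≤ m) :
    RR ρ θ z k0 kp km y a v0 ≤ 4 * z * (m ^ ρ * m ^ θ) := by
  have hm : 0 ≤ m := (sum_nonneg fun v _ => hy v).trans hY
  have hj : ∀ v' ∈ (range (a + 1)).erase v0, jv k0 kp km v0 v' ≤ m := fun v' hv' =>
    ((single_le_sum (f := fun v' => jv k0 kp km v0 v')
      (fun i _ => jv_nonneg hk0 hkp hkm v0 i) hv').trans (sum_jv hv0 k0 hkp hkm)).trans hk
  have hyv : ∀ v' ∈ (range (a + 1)).erase v0, y v' ≤ m := fun v' hv' =>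
    (single_le_sum (f := y) (fun i _ => hy i) hv').trans hY
  unfold RR
  calc ∑ v' ∈ (range (a + 1)).erase v0, z ^ (Nat.dist v0 v') * (y v') ^ ρ *
        (jv k0 kp km v0 v') ^ θ
      ≤ ∑ v' ∈ (range (a + 1)).erase v0, z ^ (Nat.dist v0 v') * (m ^ ρ * m ^ θ) := by
        apply sum_le_sum
        intro v' hv'
        rw [mul_assoc]
        apply mul_le_mul_of_nonneg_left _ (pow_nonneg hz _)
        exact mul_le_mul (Real.rpow_le_rpow (hy _) (hyv v' hv') hρ)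
          (Real.rpow_le_rpow (jv_nonneg hk0 hkp hkm _ _) (hj v' hv') hθ)
          (Real.rpow_nonneg (jv_nonneg hk0 hkp hkm _ _) _) (Real.rpow_nonneg hm _)
    _ = (∑ v' ∈ (range (a + 1)).erase v0, z ^ (Nat.dist v0 v')) * (m ^ ρ * m ^ θ) := by
        rw [sum_mul]
    _ ≤ 4 * z * (m ^ ρ * m ^ θ) := by
        apply mul_le_mul_of_nonneg_right _
          (mul_nonneg (Real.rpow_nonneg hm _) (Real.rpow_nonneg hm _))
        have e : (range (a + 1)).erase v0 = (range (a + 1)).filter (· ≠ v0) := by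
          ext b; simp only [mem_filter, mem_erase]; tauto
        rw [e]
        exact geom_both hz hz1 (range (a + 1)) v0

/-- row bound with Young, weight `A` -/
lemma RR_young {ρ θ σ w : ℝ} (hρ : 0 < ρ) (hθ : 0 < θ) (hσ : 0 < σ) (hs : σ + ρ + θ = 1)
    (hw : 0 < w) {k0 : ℝ} {kp km : ℕ → ℝ} (hk0 : 0 ≤ k0)
    (hkp : ∀ j, 0 ≤ kp j) (hkm : ∀ j, 0 ≤ km j) {y : ℕ → ℝ}
    (hy : ∀ v, 0 ≤ y v) {a v0 : ℕ} {A B : ℝ} (hA : 0 < A) (hB : 0 < B)
    (hAB : A ^ σ * B ^ θ = 1) :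
    RR ρ θ (w ^ σ) k0 kp km y a v0 ≤
      σ * A * ∑ v' ∈ (range (a + 1)).erase v0, w ^ (Nat.dist v0 v') +
      ρ * ∑ v' ∈ (range (a + 1)).erase v0, y v' +
      θ * B * ∑ v' ∈ (range (a + 1)).erase v0, jv k0 kp km v0 v' := by
  unfold RR
  rw [mul_sum, mul_sum, mul_sum, ← sum_add_distrib, ← sum_add_distrib]
  apply sum_le_sum
  intro v' _
  have hj := jv_nonneg hk0 hkp hkm v0 v'
  have hwp : 0 < w ^ (Nat.dist v0 v') := pow_pos hw _
  have h := Real.geom_mean_le_arith_mean3_weighted hσ.le hρ.le hθ.le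
    (by positivity : 0 ≤ A * w ^ (Nat.dist v0 v')) (hy v') (mul_nonneg hB.le hj) hs
  rw [Real.mul_rpow hA.le hwp.le, Real.mul_rpow hB.le hj] at h
  have e : (w ^ σ) ^ (Nat.dist v0 v') = (w ^ (Nat.dist v0 v')) ^ σ := by
    rw [← Real.rpow_natCast, ← Real.rpow_natCast, ← Real.rpow_mul hw.le, ← Real.rpow_mul hw.le,
      mul_comm]
  rw [e]
  calc (w ^ (Nat.dist v0 v')) ^ σ * (y v') ^ ρ * (jv k0 kp km v0 v') ^ θ
      = (A ^ σ * B ^ θ) * ((w ^ (Nat.dist v0 v')) ^ σ * (y v') ^ ρ * (jv k0 kp km v0 v') ^ θ) := by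
        rw [hAB, one_mul]
    _ = A ^ σ * (w ^ (Nat.dist v0 v')) ^ σ * (y v') ^ ρ * (B ^ θ * (jv k0 kp km v0 v') ^ θ) := by
        ring
    _ ≤ σ * (A * w ^ (Nat.dist v0 v')) + ρ * y v' + θ * (B * jv k0 kp km v0 v') := h
    _ = _ := by ring

end Crest.Agent.R4C.Corex251
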