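import Crest.Agent.R4C.ScalB_251

/-!
# Row 4: one-prime inequality with averaged relation, conclusion for small `w = 1/p`
-/

set_option autoImplicit false

namespace Crest.Agent.R4C.Corex251

open Finset Crest.Agent.R4C.Basex935 Crest.Agent.R4C.Multix251

/-- constants and smallness of `w` -/
structure OC (ρ θ σ T ε A LL w : ℝ) : Prop where
  hρ : 1/2 < ρ
  hθ : 0 < θ
  hσ : 0 < σ
  hs : σ + ρ + θ = 1
  hT1 : 1 ≤ T
  hT2 : 8 * T ^ (-σ) ≤ θ / 4
  hT3 : 8 ≤ θ * T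
  hε0 : 0 < ε
  hε1 : ε ≤ 1/64
  hε2 : 3 * ε ^ (2 * ρ - 1) ≤ θ / 4
  hA : 0 < A
  hA2 : A ^ σ * (1/2 : ℝ) ^ θ = 1
  hLL : LL = 16 * σ * A + 4 * θ
  hw : 0 < w
  hw1 : w ≤ 1/16
  hz : w ^ σ ≤ 1/16
  hc : 4 * w ^ σ + 8 * w ≤ (2 * ρ - 1) * ε / 2
  hLw : (3 * T + 2 + LL) * w ≤ 1

/-- normalising factor -/
noncomputable def kf (θ w : ℝ) : ℝ := ((1 + w) / (1 - w)) ^ θ

lemma kf_le {θ w : ℝ} (hθ : 0 < θ) (hθ1 : θ ≤ 1) (hw : 0 < w) (hw1 : w ≤ 1/2) :
    kf θ w ≤ 1 + 2 * θ * w + 4 * w ^ 2 := by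
  have h1 : (1 + w) / (1 - w) ≤ 1 + (2 * w + 4 * w ^ 2) := by
    rw [div_le_iff₀ (by linarith)]
    nlinarith [mul_nonneg hw.le hw.le, mul_nonneg (mul_nonneg hw.le hw.le) hw.le]
  unfold kf
  calc ((1 + w) / (1 - w)) ^ θ ≤ (1 + (2 * w + 4 * w ^ 2)) ^ θ :=
        Real.rpow_le_rpow (div_nonneg (by linarith) (by linarith)) h1 hθ.le
    _ ≤ 1 + θ * (2 * w + 4 * w ^ 2) :=
        _root_.rpow_one_add_le_one_add_mul_self (by nlinarith) hθ.le hθ1
    _ ≤ 1 + 2 * θ * w + 4 * w ^ 2 := by nlinarith [mul_nonneg hw.le hw.le]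

lemma kf_nonneg {θ w : ℝ} (hw : 0 < w) (hw1 : w ≤ 1/2) : 0 ≤ kf θ w :=
  Real.rpow_nonneg (div_nonneg (by linarith) (by linarith)) _

lemma kf_le_three {θ w : ℝ} (hθ : 0 < θ) (hθ1 : θ ≤ 1) (hw : 0 < w) (hw1 : w ≤ 1/2) :
    kf θ w ≤ 3 := by
  have h1 : (1 + w) / (1 - w) ≤ 3 := by
    rw [div_le_iff₀ (by linarith)]; linarith
  unfold kf
  calc ((1 + w) / (1 - w)) ^ θ ≤ 3 ^ θ :=
        Real.rpow_le_rpow (div_nonneg (by linarith) (by linarith)) h1 hθ.le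
    _ ≤ 3 ^ (1:ℝ) := Real.rpow_le_rpow_of_exponent_le (by norm_num) hθ1
    _ = 3 := Real.rpow_one _

lemma prod4 {a b c d S : ℝ} (ha : 0 ≤ a) (hb : 0 ≤ b) (hc : 0 ≤ c) (hd : 0 ≤ d)
    (hS : S = a + b + c + d) (hS1 : S ≤ 1) :
    (1 - a) * (1 - b) * (1 - c) * (1 - d) ≤ 1 - S + S ^ 2 := by
  have e : ∀ q : ℝ, 1 - q ≤ Real.exp (-q) := fun q => by
    have := Real.add_one_le_exp (-q); linarith
  have p1 : 0 ≤ 1 - a := by linarith
  have p2 : 0 ≤ 1 - b := by linarith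
  have p3 : 0 ≤ 1 - c := by linarith
  have p4 : 0 ≤ 1 - d := by linarith
  calc (1 - a) * (1 - b) * (1 - c) * (1 - d)
      ≤ Real.exp (-a) * Real.exp (-b) * Real.exp (-c) * Real.exp (-d) := by
        have h1 := mul_le_mul (e a) (e b) p2 (Real.exp_pos _).le
        have h2 := mul_le_mul h1 (e c) p3 (by positivity)
        exact mul_le_mul h2 (e d) p4 (by positivity)
    _ = Real.exp (-S) := by
        rw [← Real.exp_add, ← Real.exp_add, ← Real.exp_add, hS]; congr 1; ring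
    _ ≤ 1 - S + S ^ 2 := by
        have hS0 : 0 ≤ S := by rw [hS]; positivity
        have := Real.abs_exp_sub_one_sub_id_le (x := -S) (by rw [abs_neg, abs_of_nonneg hS0]; exact hS1)
        have := (abs_le.1 this).2
        nlinarith

lemma sum_jv_zero (a : ℕ) (k0 : ℝ) {kp km : ℕ → ℝ} :
    ∑ v' ∈ (range (a + 1)).erase 0, jv k0 kp km 0 v' ≤ ∑ j ∈ Icc 1 a, km j := by
  have e : (range (a + 1)).erase 0 = Icc 1 a := by
    ext j; simp only [mem_erase, mem_range, mem_Icc]; omega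
  rw [e]
  apply sum_le_sum
  intro j hj
  rw [mem_Icc] at hj
  unfold jv
  rw [if_neg (by omega), if_neg (by omega), Nat.sub_zero]

lemma geo_zero {w : ℝ} (hw : 0 < w) (hw1 : w ≤ 1/2) (a : ℕ) :
    ∑ v' ∈ (range (a + 1)).erase 0, w ^ (Nat.dist 0 v') ≤ w + 2 * w ^ 2 := by
  have e : (range (a + 1)).erase 0 = (range a).image (fun j => j + 1) := by
    ext j; simp only [mem_erase, mem_range, mem_image]
    constructor
    · rintro ⟨h1, h2⟩; exact ⟨j - 1, by omega, by omega⟩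
    · rintro ⟨i, h1, rfl⟩; omega
  rw [e, sum_image (fun i _ j _ h => by omega)]
  have h1 : ∀ j ∈ range a, w ^ (Nat.dist 0 (j + 1)) = w * w ^ j := by
    intro j _
    have : Nat.dist 0 (j + 1) = j + 1 := by unfold Nat.dist; omega
    rw [this, pow_succ, mul_comm]
  rw [sum_congr rfl h1, ← mul_sum]
  have h2 : ∑ j ∈ range a, w ^ j ≤ 1 / (1 - w) := by
    calc ∑ j ∈ range a, w ^ j ≤ ∑' j, w ^ j :=
          (summable_geometric_of_lt_one hw.le (by linarith)).sum_le_tsum _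
            (fun j _ => pow_nonneg hw.le j)
      _ = 1 / (1 - w) := by rw [tsum_geometric_of_lt_one hw.le (by linarith), one_div]
  have h3 : 1 / (1 - w) ≤ 1 + 2 * w := by
    rw [div_le_iff₀ (by linarith)]; nlinarith
  calc w * ∑ j ∈ range a, w ^ j ≤ w * (1 + 2 * w) :=
        mul_le_mul_of_nonneg_left (h2.trans h3) hw.le
    _ = w + 2 * w ^ 2 := by ring

lemma kf_le_four {θ w : ℝ} (hθ : 0 < θ) (hθ1 : θ ≤ 1) (hw : 0 < w) (hw1 : w ≤ 1/16) :
    kf θ w ≤ 1 + 4 * w := by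
  have := kf_le hθ hθ1 hw (by linarith : w ≤ 1/2)
  nlinarith

lemma tt_zero_sq {ρ L : ℝ} (hρ : 1/2 < ρ) (hρ1 : ρ < 1) {p : ℕ} {w : ℝ} (hw : 0 < w)
    (hw1 : w ≤ 1/16) (hpw : w = 1 / (p : ℝ)) {a : ℕ} (ha : 0 < a) :
    tt ρ L p a 0 ^ 2 ≤ 1 - 2 * (1 - ρ) * w := by
  have e : tt ρ L p a 0 = (1 - w) ^ (1 - ρ) := by
    unfold tt lw
    rw [if_pos ha, if_pos rfl, Real.one_rpow, mul_one, hpw]
  have e2 : ((1 - w) ^ (1 - ρ)) ^ 2 = (1 - w) ^ (2 * (1 - ρ)) := by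
    rw [mul_comm, Real.rpow_mul (by linarith)]; norm_num
  rw [e, e2]
  have := _root_.rpow_one_add_le_one_add_mul_self (s := -w) (p := 2 * (1 - ρ))
    (by linarith) (by linarith) (by linarith)
  calc (1 - w) ^ (2 * (1 - ρ)) = (1 + -w) ^ (2 * (1 - ρ)) := by ring_nf
    _ ≤ 1 + 2 * (1 - ρ) * (-w) := this
    _ = _ := by ring

lemma tt_pos_sq {ρ L LL : ℝ} (hρ : 1/2 < ρ) (hρ1 : ρ < 1) {p : ℕ} {w : ℝ} (hw : 0 < w)
    (hw1 : w ≤ 1/16) (hpw : w = 1 / (p : ℝ)) {a v0 : ℕ} (hv00 : v0 ≠ 0) (hLL0 : 0 ≤ LL)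
    (hLb : LL ≤ L) (hLLw : LL * w ≤ 1) : tt ρ L p a v0 ^ 2 ≤ 1 - LL / 2 * w := by
  have hlw : lw L p v0 = 1 + L * w := by
    unfold lw; rw [if_neg hv00, hpw]; ring
  have hge : 1 + LL * w ≤ 1 + L * w := by
    have := mul_le_mul_of_nonneg_right hLb hw.le; linarith
  have hpos : 0 < 1 + LL * w := by positivity
  have hpos' : 0 < 1 + L * w := by linarith
  have h1 : (if v0 < a then (1 - 1 / (p : ℝ)) else 1) ^ (1 - ρ) ≤ (1:ℝ) := by
    apply Real.rpow_le_one _ _ (by linarith)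
    · rw [← hpw]; split_ifs <;> linarith
    · rw [← hpw]; split_ifs <;> linarith
  have h1' : 0 ≤ (if v0 < a then (1 - 1 / (p : ℝ)) else 1) ^ (1 - ρ) := by
    apply Real.rpow_nonneg
    rw [← hpw]; split_ifs <;> linarith
  have h2 : ((1 + L * w) ^ (-ρ)) ^ 2 ≤ (1 + LL * w)⁻¹ := by
    have e2 : ((1 + L * w) ^ (-ρ)) ^ 2 = (1 + L * w) ^ (-(2 * ρ)) := by
      rw [show -(2 * ρ) = -ρ * 2 by ring, Real.rpow_mul hpos'.le]; norm_num
    rw [e2, Real.rpow_neg hpos'.le]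
    apply inv_anti₀ hpos
    calc 1 + LL * w ≤ 1 + L * w := hge
      _ = (1 + L * w) ^ (1:ℝ) := (Real.rpow_one _).symm
      _ ≤ (1 + L * w) ^ (2 * ρ) := Real.rpow_le_rpow_of_exponent_le
          (by have : 0 ≤ LL * w := by positivity
              linarith) (by linarith)
  have h3 : (1 + LL * w)⁻¹ ≤ 1 - LL / 2 * w := by
    rw [inv_le_iff_one_le_mul₀ hpos]
    have hq : 0 ≤ LL * w := by positivity
    nlinarith
  have h4 : tt ρ L p a v0 ^ 2 ≤ ((1 + L * w) ^ (-ρ)) ^ 2 := by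
    unfold tt
    rw [hlw, mul_pow]
    have : ((if v0 < a then (1 - 1 / (p : ℝ)) else 1) ^ (1 - ρ)) ^ 2 ≤ (1:ℝ) :=
      pow_le_one₀ h1' h1
    have h5 : 0 ≤ ((1 + L * w) ^ (-ρ)) ^ 2 := sq_nonneg _
    calc _ ≤ 1 * ((1 + L * w) ^ (-ρ)) ^ 2 := mul_le_mul_of_nonneg_right this h5
      _ = _ := one_mul _
  exact h4.trans (h2.trans h3)

/-- last step of the small case -/
lemma finalize {ρ θ w C' G : ℝ} (hρ1 : ρ ≤ 1) (hθ : 0 < θ) (hθ1 : θ ≤ 1) (hw : 0 < w)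
    (hw1 : w ≤ 1/16) (hC : 0 ≤ C') (hG : G ≤ 1 - 2 * θ * w + C' * w ^ (2 * ρ)) :
    kf θ w * G ≤ 1 + (4 + 2 * C') * w ^ (2 * ρ) := by
  have h1 := kf_le hθ hθ1 hw (by linarith)
  have h0 := kf_nonneg (θ := θ) hw (by linarith)
  have hwρ : 0 ≤ w ^ (2 * ρ) := Real.rpow_nonneg hw.le _
  have hw2 : w ^ 2 ≤ w ^ (2 * ρ) := by
    calc w ^ 2 = w ^ (2:ℝ) := by norm_num
      _ ≤ w ^ (2 * ρ) := Real.rpow_le_rpow_of_exponent_ge hw (by linarith) (by linarith)
  have hG1 : 0 ≤ 1 - 2 * θ * w + C' * w ^ (2 * ρ) := by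
    have : 0 ≤ C' * w ^ (2 * ρ) := mul_nonneg hC hwρ
    nlinarith
  calc kf θ w * G ≤ kf θ w * (1 - 2 * θ * w + C' * w ^ (2 * ρ)) :=
        mul_le_mul_of_nonneg_left hG h0
    _ ≤ (1 + 2 * θ * w + 4 * w ^ 2) * (1 - 2 * θ * w + C' * w ^ (2 * ρ)) :=
        mul_le_mul_of_nonneg_right h1 hG1
    _ = 1 + 4 * w ^ 2 - (2 * θ * w) ^ 2 - 4 * w ^ 2 * (2 * θ * w) +
          (1 + 2 * θ * w + 4 * w ^ 2) * (C' * w ^ (2 * ρ)) := by ring
    _ ≤ 1 + 4 * w ^ 2 + 2 * (C' * w ^ (2 * ρ)) := by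
        have a1 : 0 ≤ (2 * θ * w) ^ 2 := sq_nonneg _
        have a2 : 0 ≤ 4 * w ^ 2 * (2 * θ * w) := by positivity
        have a3 : 1 + 2 * θ * w + 4 * w ^ 2 ≤ 2 := by nlinarith
        have a4 : 0 ≤ C' * w ^ (2 * ρ) := mul_nonneg hC hwρ
        nlinarith
    _ ≤ _ := by nlinarith

/-- the constant -/
noncomputable def CC (T LL : ℝ) : ℝ := (3 * T + 2 + LL) ^ 2 + 4 + 3 * T ^ 2

set_option maxHeartbeats 1000000 in
/-- same centre -/
theorem same_centre {ρ θ σ T ε A LL w : ℝ} (h : OC ρ θ σ T ε A LL w) {p : ℕ} (hp : p.Prime)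
    (hpw : w = 1 / (p : ℝ)) {a : ℕ} (ha : 0 < a) {L : ℝ} (hL : 0 ≤ L) {k0 : ℝ} {kp km : ℕ → ℝ}
    (hk0 : 0 ≤ k0) (hkp : ∀ j, 0 ≤ kp j) (hkm : ∀ j, 0 ≤ km j)
    (hk : k0 + ∑ j ∈ Icc 1 a, (kp j + km j) ≤ 1) {x y : ℕ → ℝ} (hx : ∀ v, 0 ≤ x v)
    (hy : ∀ v, 0 ≤ y v) (hx1 : ∑ v ∈ range (a + 1), x v = 1)
    (hy1 : ∑ v ∈ range (a + 1), y v = 1) {v0 : ℕ} (hv0 : v0 ≤ a)
    (hX : ∑ v ∈ (range (a + 1)).erase v0, x v ≤ ε) (hY : ∑ v ∈ (range (a + 1)).erase v0, y v ≤ ε)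
    (hcase : v0 = 0 ∨ LL ≤ L ∨ ¬ (∑ v ∈ (range (a + 1)).erase v0, x v ≤ T * w ∧
      ∑ v ∈ (range (a + 1)).erase v0, y v ≤ T * w)) :
    kf θ w * GG ρ θ (w ^ σ) (tt ρ L p a) k0 kp km x y (range (a + 1)) (range (a + 1)) ≤
      1 + (4 + 2 * CC T LL) * w ^ (2 * ρ) := by
  obtain ⟨hρ, hθ, hσ, hs, hT1, hT2, hT3, hε0, hε1, hε2, hA, hA2, hLL, hw, hw1, hz, hc, hLw⟩ := h
  have hρ1 : ρ < 1 := by linarith
  have hρ0 : 0 < ρ := by linarith
  have hθ1 : θ ≤ 1 := by linarith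
  have hθρ : θ ≤ ρ := by linarith
  have hz0 : 0 ≤ w ^ σ := Real.rpow_nonneg hw.le _
  have hLL0 : 0 ≤ LL := by rw [hLL]; positivity
  have hsum0 : 0 ≤ ∑ j ∈ Icc 1 a, (kp j + km j) :=
    sum_nonneg fun j _ => add_nonneg (hkp j) (hkm j)
  have hk01 : k0 ≤ 1 := by linarith
  have hk1 : ∀ v ≤ a, ∀ v' ≤ a, jv k0 kp km v v' ≤ 1 := by
    intro v hv v' hv'
    by_cases hvv : v = v'
    · unfold jv; rw [if_pos hvv]; exact hk01
    · have h1 := single_le_sum (f := fun v' => jv k0 kp km v v')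
        (fun i _ => jv_nonneg hk0 hkp hkm v i)
        (mem_erase.2 ⟨Ne.symm hvv, mem_range.2 (by omega)⟩ : v' ∈ (range (a + 1)).erase v)
      have h2 := sum_jv hv k0 hkp hkm
      linarith
  set X := ∑ v ∈ (range (a + 1)).erase v0, x v with hXd
  set Y := ∑ v ∈ (range (a + 1)).erase v0, y v with hYd
  have hX0 : 0 ≤ X := sum_nonneg fun v _ => hx v
  have hY0 : 0 ≤ Y := sum_nonneg fun v _ => hy v
  set Z := max X Y with hZd
  have hXZ : X ≤ Z := le_max_left _ _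
  have hYZ : Y ≤ Z := le_max_right _ _
  have hZ0 : 0 ≤ Z := hX0.trans hXZ
  have hZε : Z ≤ ε := max_le hX hY
  set kb := 1 - k0 with hkb
  have hkb0 : 0 ≤ kb := by linarith
  have hkbs : ∑ j ∈ Icc 1 a, (kp j + km j) ≤ kb := by linarith
  have hsplit := GG_split hρ hρ1 hθ hz0 (by linarith) (tt_nonneg hL hp a)
    (tt_le_one hρ0.le hρ1.le hL hp a) hk0 hkp hkm hx hy hv0 hk1 hx1 hy1 hXd.symm hYd.symm hXZ hYZ
  have hk0θ : k0 ^ θ ≤ 1 - θ * kb := by
    have := _root_.rpow_one_add_le_one_add_mul_self (s := -kb) (p := θ) (by linarith) hθ.le hθ1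
    calc k0 ^ θ = (1 + -kb) ^ θ := by rw [hkb]; ring_nf
      _ ≤ 1 + θ * (-kb) := this
      _ = _ := by ring
  have hk0θ0 : 0 ≤ k0 ^ θ := Real.rpow_nonneg hk0 _
  have ht0 := tt_nonneg (ρ := ρ) hL hp a v0
  have ht1 := tt_le_one (ρ := ρ) hρ0.le hρ1.le hL hp a v0
  have hρXle : ρ * X ≤ X := mul_le_of_le_one_left hX0 hρ1.le
  have hρYle : ρ * Y ≤ Y := mul_le_of_le_one_left hY0 hρ1.le
  have hρX : 0 ≤ 1 - ρ * X := by linarith
  have hρY : 0 ≤ 1 - ρ * Y := by linarith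
  have hkf0 := kf_nonneg (θ := θ) hw (by linarith : w ≤ 1/2)
  have hwρ : 0 ≤ w ^ (2 * ρ) := Real.rpow_nonneg hw.le _
  have hCC : 0 ≤ CC T LL := by unfold CC; positivity
  set m := max Z kb with hmd
  have hZm : Z ≤ m := le_max_left _ _
  have hkm' : kb ≤ m := le_max_right _ _
  have hm0 : 0 ≤ m := hZ0.trans hZm
  by_cases hbig : T * w < m
  · -- large case
    have hmpos : 0 < m := lt_of_le_of_lt (mul_nonneg (by linarith) hw.le) hbig
    have hR1 := RR_large hρ0.le hθ.le hz0 (by linarith) hk0 hkp hkm hy hv0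
      (hYZ.trans hZm) (hkbs.trans hkm')
    have hR2 := RR_large hρ0.le hθ.le hz0 (by linarith) hk0 hkm hkp hx hv0
      (hXZ.trans hZm) (m := m) (by
        have : ∑ j ∈ Icc 1 a, (km j + kp j) = ∑ j ∈ Icc 1 a, (kp j + km j) :=
          sum_congr rfl fun j _ => add_comm _ _
        rw [this]; exact hkbs.trans hkm')
    have hzm : w ^ σ * (m ^ ρ * m ^ θ) ≤ T ^ (-σ) * m := by
      have hwm : w ≤ m / T := by
        rw [le_div_iff₀ (by linarith)]; linarith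
      calc w ^ σ * (m ^ ρ * m ^ θ) ≤ (m / T) ^ σ * (m ^ ρ * m ^ θ) := by
            apply mul_le_mul_of_nonneg_right (Real.rpow_le_rpow hw.le hwm hσ.le)
            exact mul_nonneg (Real.rpow_nonneg hm0 _) (Real.rpow_nonneg hm0 _)
        _ = T ^ (-σ) * (m ^ σ * m ^ ρ * m ^ θ) := by
            rw [Real.div_rpow hm0 (by linarith), Real.rpow_neg (by linarith)]
            field_simp
        _ = T ^ (-σ) * m := by
            rw [← Real.rpow_add hmpos, ← Real.rpow_add hmpos, hs, Real.rpow_one]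
    have hZ3 : 3 * Z ^ (2 * ρ) ≤ θ / 4 * m := by
      rcases hZ0.eq_or_lt with h0 | h0
      · rw [← h0, Real.zero_rpow (by linarith), mul_zero]; positivity
      · have e : Z ^ (2 * ρ) = Z ^ (2 * ρ - 1) * Z := by
          rw [← Real.rpow_add_one h0.ne']; ring_nf
        rw [e]
        calc 3 * (Z ^ (2 * ρ - 1) * Z) = (3 * Z ^ (2 * ρ - 1)) * Z := by ring
          _ ≤ (θ / 4) * m := by
              apply mul_le_mul _ hZm hZ0 (by positivity)
              exact (mul_le_mul_of_nonneg_left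
                (Real.rpow_le_rpow hZ0 hZε (by linarith)) (by norm_num)).trans hε2
    have hdiag : tt ρ L p a v0 ^ 2 * (1 - ρ * X) * (1 - ρ * Y) * k0 ^ θ ≤ 1 - θ * m := by
      have t2 : tt ρ L p a v0 ^ 2 ≤ 1 := pow_le_one₀ ht0 ht1
      have a1 : (1 - ρ * X) ≤ 1 - θ * X := by
        have := mul_le_mul_of_nonneg_right hθρ hX0; linarith
      have a2 : (1 - ρ * Y) ≤ 1 - θ * Y := by
        have := mul_le_mul_of_nonneg_right hθρ hY0; linarith
      have b1 : 1 - ρ * X ≤ 1 := by have := mul_nonneg hρ0.le hX0; linarith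
      have b2 : 1 - ρ * Y ≤ 1 := by have := mul_nonneg hρ0.le hY0; linarith
      have b3 : k0 ^ θ ≤ 1 := by have := mul_nonneg hθ.le hkb0; linarith
      have b4 : 0 ≤ (1 - ρ * X) * (1 - ρ * Y) := mul_nonneg hρX hρY
      have c1 : tt ρ L p a v0 ^ 2 * (1 - ρ * X) * (1 - ρ * Y) * k0 ^ θ ≤
          (1 - ρ * X) * (1 - ρ * Y) * k0 ^ θ := by
        have hq : 0 ≤ (1 - ρ * X) * (1 - ρ * Y) * k0 ^ θ := mul_nonneg b4 hk0θ0
        calc tt ρ L p a v0 ^ 2 * (1 - ρ * X) * (1 - ρ * Y) * k0 ^ θ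
            = tt ρ L p a v0 ^ 2 * ((1 - ρ * X) * (1 - ρ * Y) * k0 ^ θ) := by ring
          _ ≤ 1 * ((1 - ρ * X) * (1 - ρ * Y) * k0 ^ θ) := mul_le_mul_of_nonneg_right t2 hq
          _ = _ := one_mul _
      refine c1.trans ?_
      rcases le_total Z kb with hcmp | hcmp
      · have : m = kb := max_eq_right hcmp
        rw [this]
        calc (1 - ρ * X) * (1 - ρ * Y) * k0 ^ θ ≤ 1 * 1 * k0 ^ θ :=
              mul_le_mul_of_nonneg_right (mul_le_mul b1 b2 hρY (by norm_num)) hk0θ0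
          _ = k0 ^ θ := by ring
          _ ≤ _ := hk0θ
      · have : m = Z := max_eq_left hcmp
        rw [this]
        rcases le_total X Y with hxy | hxy
        · have : Z = Y := max_eq_right hxy
          rw [this]
          calc (1 - ρ * X) * (1 - ρ * Y) * k0 ^ θ ≤ 1 * (1 - ρ * Y) * 1 := by
                apply mul_le_mul _ b3 hk0θ0 (by linarith)
                exact mul_le_mul_of_nonneg_right b1 hρY
            _ = 1 - ρ * Y := by ring
            _ ≤ _ := a2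
        · have : Z = X := max_eq_left hxy
          rw [this]
          calc (1 - ρ * X) * (1 - ρ * Y) * k0 ^ θ ≤ (1 - ρ * X) * 1 * 1 := by
                apply mul_le_mul _ b3 hk0θ0 (by linarith)
                exact mul_le_mul_of_nonneg_left b2 hρX
            _ = 1 - ρ * X := by ring
            _ ≤ _ := a1
    have hT2' : 8 * (T ^ (-σ) * m) ≤ θ / 4 * m := by
      calc 8 * (T ^ (-σ) * m) = (8 * T ^ (-σ)) * m := by ring
        _ ≤ _ := mul_le_mul_of_nonneg_right hT2 hm0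
    have hGG : GG ρ θ (w ^ σ) (tt ρ L p a) k0 kp km x y (range (a + 1)) (range (a + 1)) ≤
        1 - θ / 2 * m := by
      have : 4 * w ^ σ * (m ^ ρ * m ^ θ) = 4 * (w ^ σ * (m ^ ρ * m ^ θ)) := by ring
      rw [this] at hR1 hR2
      linarith
    have hkf : kf θ w ≤ 1 + 4 * w := kf_le_four hθ hθ1 hw hw1
    have hprod : kf θ w * GG ρ θ (w ^ σ) (tt ρ L p a) k0 kp km x y (range (a + 1))
        (range (a + 1)) ≤ 1 := by
      by_cases hneg : 1 - θ / 2 * m ≤ 0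
      · have : kf θ w * GG ρ θ (w ^ σ) (tt ρ L p a) k0 kp km x y (range (a + 1))
            (range (a + 1)) ≤ kf θ w * 0 := mul_le_mul_of_nonneg_left (hGG.trans hneg) hkf0
        linarith
      · push Not at hneg
        calc _ ≤ kf θ w * (1 - θ / 2 * m) := mul_le_mul_of_nonneg_left hGG hkf0
          _ ≤ (1 + 4 * w) * (1 - θ / 2 * m) := mul_le_mul_of_nonneg_right hkf hneg.le
          _ ≤ 1 := by
              have h1 : 4 * w ≤ θ / 2 * m := by
                have h2 : θ / 2 * (T * w) ≤ θ / 2 * m :=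
                  mul_le_mul_of_nonneg_left hbig.le (by linarith)
                have h3 : 8 * w ≤ θ * T * w := mul_le_mul_of_nonneg_right hT3 hw.le
                linarith
              have h4 : 0 ≤ w * (θ * m) := mul_nonneg hw.le (mul_nonneg hθ.le hm0)
              linarith
    have : 0 ≤ (4 + 2 * CC T LL) * w ^ (2 * ρ) := by positivity
    linarith
  · -- small case
    push Not at hbig
    have hZT : Z ≤ T * w := hZm.trans hbig
    have hXT : X ≤ T * w := hXZ.trans hZT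
    have hYT : Y ≤ T * w := hYZ.trans hZT
    have hkbT : kb ≤ T * w := hkm'.trans hbig
    have hw2 : w ^ 2 ≤ w ^ (2 * ρ) := by
      calc w ^ 2 = w ^ (2:ℝ) := by norm_num
        _ ≤ w ^ (2 * ρ) := Real.rpow_le_rpow_of_exponent_ge hw (by linarith) (by linarith)
    have hZ2 : 3 * Z ^ (2 * ρ) ≤ 3 * T ^ 2 * w ^ (2 * ρ) := by
      have : Z ^ (2 * ρ) ≤ T ^ 2 * w ^ (2 * ρ) := by
        calc Z ^ (2 * ρ) ≤ (T * w) ^ (2 * ρ) := Real.rpow_le_rpow hZ0 hZT (by linarith)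
          _ = T ^ (2 * ρ) * w ^ (2 * ρ) := Real.mul_rpow (by linarith) hw.le
          _ ≤ T ^ 2 * w ^ (2 * ρ) := by
              apply mul_le_mul_of_nonneg_right _ hwρ
              calc T ^ (2 * ρ) ≤ T ^ (2:ℝ) :=
                    Real.rpow_le_rpow_of_exponent_le hT1 (by linarith)
                _ = T ^ 2 := by norm_num
      linarith
    have hTw0 : 0 ≤ T * w := by positivity
    -- generic conclusion
    have hgen : ∀ a1 : ℝ, 0 ≤ a1 → a1 ≤ (2 + LL) * w → tt ρ L p a v0 ^ 2 ≤ 1 - a1 →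
        RR ρ θ (w ^ σ) k0 kp km y a v0 + RR ρ θ (w ^ σ) k0 km kp x a v0 ≤
          a1 - 2 * θ * w + 4 * w ^ 2 + ρ * (X + Y) + θ * kb →
        kf θ w * GG ρ θ (w ^ σ) (tt ρ L p a) k0 kp km x y (range (a + 1)) (range (a + 1)) ≤
          1 + (4 + 2 * CC T LL) * w ^ (2 * ρ) := by
      intro a1 ha1 ha1' htt hRR
      apply finalize hρ1.le hθ hθ1 hw hw1 hCC
      set Sm := a1 + ρ * X + ρ * Y + θ * kb with hSm
      have hSm0 : 0 ≤ Sm := by positivity
      have hSm1 : Sm ≤ (3 * T + 2 + LL) * w := by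
        have h1 : ρ * X ≤ T * w := hρXle.trans hXT
        have h2 : ρ * Y ≤ T * w := hρYle.trans hYT
        have h3 : θ * kb ≤ T * w := (mul_le_of_le_one_left hkb0 hθ1).trans hkbT
        rw [hSm]
        have : (3 * T + 2 + LL) * w = 3 * (T * w) + (2 + LL) * w := by ring
        linarith
      have hp4 := prod4 ha1 (by positivity : 0 ≤ ρ * X) (by positivity : 0 ≤ ρ * Y)
        (by positivity : 0 ≤ θ * kb) hSm (hSm1.trans hLw)
      have hdg : tt ρ L p a v0 ^ 2 * (1 - ρ * X) * (1 - ρ * Y) * k0 ^ θ ≤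
          (1 - a1) * (1 - ρ * X) * (1 - ρ * Y) * (1 - θ * kb) := by
        have q0 : 0 ≤ 1 - a1 := (sq_nonneg _).trans htt
        apply mul_le_mul _ hk0θ hk0θ0 (by positivity)
        apply mul_le_mul_of_nonneg_right _ hρY
        exact mul_le_mul_of_nonneg_right htt hρX
      have hSm2 : Sm ^ 2 ≤ (3 * T + 2 + LL) ^ 2 * w ^ 2 := by
        rw [← mul_pow]; exact pow_le_pow_left₀ hSm0 hSm1 2
      have hSm3 : (3 * T + 2 + LL) ^ 2 * w ^ 2 ≤ (3 * T + 2 + LL) ^ 2 * w ^ (2 * ρ) :=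
        mul_le_mul_of_nonneg_left hw2 (sq_nonneg _)
      have : CC T LL * w ^ (2 * ρ) = (3 * T + 2 + LL) ^ 2 * w ^ (2 * ρ) + 4 * w ^ (2 * ρ) +
          3 * T ^ 2 * w ^ (2 * ρ) := by unfold CC; ring
      rw [this]
      linarith
    by_cases hv00 : v0 = 0
    · subst hv00
      have hY1 := RR_young hρ0 hθ hσ hs hw hk0 hkp hkm hy (a := a) (v0 := 0)
        (A := 1) (B := 1) one_pos one_pos (by simp)
      have hX1 := RR_young hρ0 hθ hσ hs hw hk0 hkm hkp hx (a := a) (v0 := 0)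
        (A := 1) (B := 1) one_pos one_pos (by simp)
      rw [← hYd] at hY1
      rw [← hXd] at hX1
      have hj1 := sum_jv_zero a k0 (kp := kp) (km := km)
      have hj2 := sum_jv_zero a k0 (kp := km) (km := kp)
      have hg := geo_zero hw (by linarith : w ≤ 1/2) a
      refine hgen (2 * (1 - ρ) * w) ?_ ?_ ?_ ?_
      · exact mul_nonneg (by linarith) hw.le
      · exact mul_le_mul_of_nonneg_right (by linarith) hw.le
      · exact tt_zero_sq hρ hρ1 hw hw1 hpw ha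
      · have hjs : ∑ v' ∈ (range (a + 1)).erase 0, jv k0 kp km 0 v' +
            ∑ v' ∈ (range (a + 1)).erase 0, jv k0 km kp 0 v' ≤ kb := by
          calc _ ≤ ∑ j ∈ Icc 1 a, km j + ∑ j ∈ Icc 1 a, kp j := add_le_add hj1 hj2
            _ = ∑ j ∈ Icc 1 a, (kp j + km j) := by rw [← sum_add_distrib]; exact sum_congr rfl fun j _ => add_comm _ _
            _ ≤ kb := hkbs
        have hgσ : σ * ∑ v' ∈ (range (a + 1)).erase 0, w ^ (Nat.dist 0 v') ≤ σ * (w + 2 * w ^ 2) :=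
          mul_le_mul_of_nonneg_left hg hσ.le
        have hθj := mul_le_mul_of_nonneg_left hjs hθ.le
        have hσ1 : σ ≤ 1 := by linarith
        have hσw : σ * w ^ 2 ≤ w ^ 2 := mul_le_of_le_one_left (sq_nonneg w) hσ1
        have hs' : 2 * (1 - ρ) * w - 2 * θ * w = 2 * σ * w := by rw [← hs]; ring
        linarith
    · by_cases hLb : LL ≤ L
      · have hY1 := RR_young hρ0 hθ hσ hs hw hk0 hkp hkm hy (a := a) (v0 := v0)
          (A := A) (B := 1/2) hA (by norm_num) hA2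
        have hX1 := RR_young hρ0 hθ hσ hs hw hk0 hkm hkp hx (a := a) (v0 := v0)
          (A := A) (B := 1/2) hA (by norm_num) hA2
        rw [← hYd] at hY1
        rw [← hXd] at hX1
        have hj1 := (sum_jv hv0 k0 hkp hkm).trans hkbs
        have hj2 : ∑ v' ∈ (range (a + 1)).erase v0, jv k0 km kp v0 v' ≤ kb := by
          refine (sum_jv hv0 k0 hkm hkp).trans ?_
          have : ∑ j ∈ Icc 1 a, (km j + kp j) = ∑ j ∈ Icc 1 a, (kp j + km j) :=
            sum_congr rfl fun j _ => add_comm _ _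
          rw [this]; exact hkbs
        have hg : ∑ v' ∈ (range (a + 1)).erase v0, w ^ (Nat.dist v0 v') ≤ 4 * w := by
          have e : (range (a + 1)).erase v0 = (range (a + 1)).filter (· ≠ v0) := by
            ext b; simp only [mem_filter, mem_erase]; tauto
          rw [e]; exact geom_both hw.le (by linarith) (range (a + 1)) v0
        have hLLw : LL * w ≤ 1 := by
          have : 0 ≤ (3 * T + 2) * w := by positivity
          have e : (3 * T + 2 + LL) * w = (3 * T + 2) * w + LL * w := by ring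
          linarith
        refine hgen (LL / 2 * w) (by positivity)
          (mul_le_mul_of_nonneg_right (by linarith) hw.le) ?_ ?_
        · exact tt_pos_sq hρ hρ1 hw hw1 hpw hv00 hLL0 hLb hLLw
        · have hgσ : σ * A * ∑ v' ∈ (range (a + 1)).erase v0, w ^ (Nat.dist v0 v') ≤
              σ * A * (4 * w) := mul_le_mul_of_nonneg_left hg (by positivity)
          have hθj1 := mul_le_mul_of_nonneg_left hj1 (by positivity : 0 ≤ θ * (1/2))
          have hθj2 := mul_le_mul_of_nonneg_left hj2 (by positivity : 0 ≤ θ * (1/2))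
          have e : LL / 2 * w - 2 * θ * w = 8 * (σ * A) * w := by rw [hLL]; ring
          have hw20 : 0 ≤ w ^ 2 := sq_nonneg w
          linarith
      · exfalso
        rcases hcase with h1 | h1 | h1
        · exact hv00 h1
        · exact hLb h1
        · exact h1 ⟨hXT, hYT⟩

end Crest.Agent.R4C.Corex251
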