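import Crest.Agent.R4C.ScalC_251

/-!
# Row 4: one-prime inequality with averaged relation, all cases; existence of the constants;
the statement `scal_game` in the `D`-scale
-/

set_option autoImplicit false

namespace Crest.Agent.R4C.Corex251

open Finset Crest.Agent.R4C.Basex935 Crest.Agent.R4C.Multix251

lemma spread' {ρ ε : ℝ} (hρ : 1/2 < ρ) (hρ1 : ρ < 1) (hε1 : ε < 1) (s : Finset ℕ)
    (x : ℕ → ℝ) (hx : ∀ v, 0 ≤ x v) (h1 : ∑ v ∈ s, x v = 1) (hm : ∀ v ∈ s, x v ≤ 1 - ε) :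
    ∑ v ∈ s, x v ^ (2 * ρ) ≤ 1 - (2 * ρ - 1) * ε := by
  have a := pow_sum_le hρ.le s x hx hm
  rw [h1, mul_one] at a
  refine a.trans ?_
  have := _root_.rpow_one_add_le_one_add_mul_self (s := -ε) (p := 2 * ρ - 1)
    (by linarith) (by linarith) (by linarith)
  calc (1 - ε) ^ (2 * ρ - 1) = (1 + -ε) ^ (2 * ρ - 1) := by ring_nf
    _ ≤ 1 + (2 * ρ - 1) * (-ε) := this
    _ = _ := by ring

/-- different centres -/
lemma mc_diff {ρ ε z : ℝ} (hρ : 1/2 < ρ) (hε0 : 0 < ε) (hε1 : ε ≤ 1/64)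
    (hz0 : 0 ≤ z) (hz : z ≤ 1/16) {s : Finset ℕ} {x y : ℕ → ℝ} (hx : ∀ v, 0 ≤ x v)
    (hy : ∀ v, 0 ≤ y v) (hx1 : ∑ v ∈ s, x v = 1) (hy1 : ∑ v ∈ s, y v = 1) {v0 v1 : ℕ}
    (hv0 : v0 ∈ s) (hv1 : v1 ∈ s) (hv : v0 ≠ v1) (hX : ∑ v ∈ s.erase v0, x v ≤ ε)
    (hY : ∑ v ∈ s.erase v1, y v ≤ ε) :
    Multix251.diag ρ s x y + cross ρ z s s x y ≤ 3 / 4 := by
  have hk : 0 < ρ := by linarith
  have hxle : ∀ v ∈ s, x v ≤ 1 := fun v hv => by
    rw [← hx1]; exact single_le_sum (f := x) (fun i _ => hx i) hv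
  have hyle : ∀ v ∈ s, y v ≤ 1 := fun v hv => by
    rw [← hy1]; exact single_le_sum (f := y) (fun i _ => hy i) hv
  have hsq : ∀ c : ℝ, 0 ≤ c → c ≤ ε → c ^ ρ ≤ 1/8 := by
    intro c hc0 hc
    calc c ^ ρ ≤ ε ^ ρ := Real.rpow_le_rpow hc0 hc hk.le
      _ ≤ ε ^ (1/2 : ℝ) := Real.rpow_le_rpow_of_exponent_ge hε0 (by linarith) hρ.le
      _ ≤ (1/64 : ℝ) ^ (1/2 : ℝ) := Real.rpow_le_rpow hε0.le hε1 (by norm_num)
      _ = 1/8 := by
          rw [show (1/64 : ℝ) = (1/8) ^ (2:ℝ) by norm_num, ← Real.rpow_mul (by norm_num)]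
          norm_num
  have hv1' : v1 ∈ s.erase v0 := mem_erase.2 ⟨fun hh => hv hh.symm, hv1⟩
  have hv0' : v0 ∈ s.erase v1 := mem_erase.2 ⟨hv, hv0⟩
  have xv1 : x v1 ≤ ε := (single_le_sum (f := x) (fun i _ => hx i) hv1').trans hX
  have yv0 : y v0 ≤ ε := (single_le_sum (f := y) (fun i _ => hy i) hv0').trans hY
  have d0 : (x v0 * y v0) ^ ρ ≤ 1/8 := by
    apply hsq _ (mul_nonneg (hx _) (hy _))
    calc x v0 * y v0 ≤ 1 * y v0 := mul_le_mul_of_nonneg_right (hxle v0 hv0) (hy _)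
      _ ≤ ε := by rw [one_mul]; exact yv0
  have d1 : (x v1 * y v1) ^ ρ ≤ 1/8 := by
    apply hsq _ (mul_nonneg (hx _) (hy _))
    calc x v1 * y v1 ≤ x v1 * 1 := mul_le_mul_of_nonneg_left (hyle v1 hv1) (hx _)
      _ ≤ ε := by rw [mul_one]; exact xv1
  have d2 : Multix251.diag ρ ((s.erase v0).erase v1) x y ≤ ε := by
    have hx2 : ∑ v ∈ (s.erase v0).erase v1, x v ≤ ε :=
      (sum_le_sum_of_subset_of_nonneg (erase_subset _ _) (fun i _ _ => hx i)).trans hX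
    have hy2 : ∑ v ∈ (s.erase v0).erase v1, y v ≤ ε := by
      rw [erase_right_comm]
      exact (sum_le_sum_of_subset_of_nonneg (erase_subset _ _) (fun i _ _ => hy i)).trans hY
    have a := pow_sum_le' hρ.le hε0.le _ x hx hx2
    have b := pow_sum_le' hρ.le hε0.le _ y hy hy2
    have c := diag_le (κ := ρ) ((s.erase v0).erase v1) x y hx hy
    have d : ε ^ (2 * ρ) ≤ ε := by
      calc ε ^ (2 * ρ) ≤ ε ^ (1:ℝ) :=
            Real.rpow_le_rpow_of_exponent_ge hε0 (by linarith) (by linarith)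
        _ = ε := Real.rpow_one _
    linarith
  have e1 := diag_erase (κ := ρ) (x := x) (y := y) hv0
  have e2 := diag_erase (κ := ρ) (x := x) (y := y) hv1'
  have hC := cross_le (κ := ρ) hz0 (by linarith) s s x y hx hy
  have sx := pow_sum_one hρ.le s x hx hx1
  have sy := pow_sum_one hρ.le s y hy hy1
  have sx0 : 0 ≤ ∑ v ∈ s, x v ^ (2 * ρ) := sum_nonneg fun v _ => Real.rpow_nonneg (hx v) _
  have sy0 : 0 ≤ ∑ v ∈ s, y v ^ (2 * ρ) := sum_nonneg fun v _ => Real.rpow_nonneg (hy v) _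
  have hC' : cross ρ z s s x y ≤ 1/4 := by
    have : 2 * z * (∑ v ∈ s, x v ^ (2 * ρ) + ∑ v ∈ s, y v ^ (2 * ρ)) ≤ 2 * z * 2 :=
      mul_le_mul_of_nonneg_left (by linarith) (by linarith)
    linarith
  rw [e1, e2]
  linarith

/-- one spread share -/
lemma mc_spread {ρ ε z : ℝ} (hρ : 1/2 < ρ) (hρ1 : ρ < 1) (hε0 : 0 < ε) (hε1 : ε ≤ 1/64)
    (hz0 : 0 ≤ z) (hz : z ≤ 1/16) {s : Finset ℕ} {x y : ℕ → ℝ} (hx : ∀ v, 0 ≤ x v)
    (hy : ∀ v, 0 ≤ y v) (hx1 : ∑ v ∈ s, x v = 1) (hy1 : ∑ v ∈ s, y v = 1)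
    (hm : (∀ v ∈ s, x v ≤ 1 - ε) ∨ (∀ v ∈ s, y v ≤ 1 - ε)) :
    Multix251.diag ρ s x y + cross ρ z s s x y ≤ 1 - (2 * ρ - 1) * ε / 2 + 4 * z := by
  have hC := cross_le (κ := ρ) hz0 (by linarith) s s x y hx hy
  have hD := diag_le (κ := ρ) s x y hx hy
  have sx := pow_sum_one hρ.le s x hx hx1
  have sy := pow_sum_one hρ.le s y hy hy1
  have h2 : 2 * z * (∑ v ∈ s, x v ^ (2 * ρ) + ∑ v ∈ s, y v ^ (2 * ρ)) ≤ 2 * z * 2 :=
    mul_le_mul_of_nonneg_left (by linarith) (by linarith)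
  rcases hm with h | h
  · have := spread' hρ hρ1 (by linarith) s x hx hx1 h
    linarith
  · have := spread' hρ hρ1 (by linarith) s y hy hy1 h
    linarith

lemma kf_mul_le_one {θ w G a z : ℝ} (hθ : 0 < θ) (hθ1 : θ ≤ 1) (hw : 0 < w) (hw1 : w ≤ 1/16)
    (hz : z ≤ 1/16) (ha0 : 0 ≤ a) (ha : 4 * z + 8 * w ≤ a) (hG : G ≤ 1 - a + 4 * z) : kf θ w * G ≤ 1 := by
  have h0 := kf_nonneg (θ := θ) hw (by linarith : w ≤ 1/2)
  have h1 := kf_le_four hθ hθ1 hw hw1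
  by_cases hneg : 1 - a + 4 * z ≤ 0
  · have : kf θ w * G ≤ kf θ w * 0 := mul_le_mul_of_nonneg_left (hG.trans hneg) h0
    linarith
  · push Not at hneg
    calc kf θ w * G ≤ kf θ w * (1 - a + 4 * z) := mul_le_mul_of_nonneg_left hG h0
      _ ≤ (1 + 4 * w) * (1 - a + 4 * z) := mul_le_mul_of_nonneg_right h1 hneg.le
      _ ≤ 1 := by nlinarith

/-- **one prime, small `w`** -/
theorem one_small {ρ θ σ T ε A LL w : ℝ} (h : OC ρ θ σ T ε A LL w) {p : ℕ} (hp : p.Prime)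
    (hpw : w = 1 / (p : ℝ)) {a : ℕ} (ha : 0 < a) {L : ℝ} (hL : 0 ≤ L) {k0 : ℝ} {kp km : ℕ → ℝ}
    (hk0 : 0 ≤ k0) (hkp : ∀ j, 0 ≤ kp j) (hkm : ∀ j, 0 ≤ km j)
    (hk : k0 + ∑ j ∈ Icc 1 a, (kp j + km j) ≤ 1) {x y : ℕ → ℝ} (hx : ∀ v, 0 ≤ x v)
    (hy : ∀ v, 0 ≤ y v) (hx1 : ∑ v ∈ range (a + 1), x v = 1)
    (hy1 : ∑ v ∈ range (a + 1), y v = 1) :
    kf θ w * GG ρ θ (w ^ σ) (tt ρ L p a) k0 kp km x y (range (a + 1)) (range (a + 1)) ≤
      1 + (4 + 2 * CC T LL) * w ^ (2 * ρ) ∨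
    (¬ LL ≤ L ∧ ∃ v0, 1 ≤ v0 ∧ v0 ≤ a ∧ ∑ v ∈ (range (a + 1)).erase v0, x v ≤ T * w ∧
      ∑ v ∈ (range (a + 1)).erase v0, y v ≤ T * w) := by
  have h' := h
  obtain ⟨hρ, hθ, hσ, hs, hT1, hT2, hT3, hε0, hε1, hε2, hA, hA2, hLL, hw, hw1, hz, hc, hLw⟩ := h'
  have hρ1 : ρ < 1 := by linarith
  have hρ0 : 0 < ρ := by linarith
  have hθ1 : θ ≤ 1 := by linarith
  have hz0 : 0 ≤ w ^ σ := Real.rpow_nonneg hw.le _
  have hLL0 : 0 ≤ LL := by rw [hLL]; positivity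
  have hCC : 0 ≤ CC T LL := by unfold CC; positivity
  have hwρ : 0 ≤ w ^ (2 * ρ) := Real.rpow_nonneg hw.le _
  have herr : 0 ≤ (4 + 2 * CC T LL) * w ^ (2 * ρ) := by positivity
  have hsum0 : 0 ≤ ∑ j ∈ Icc 1 a, (kp j + km j) :=
    sum_nonneg fun j _ => add_nonneg (hkp j) (hkm j)
  have hk1 : ∀ v ∈ range (a + 1), ∀ v' ∈ range (a + 1), jv k0 kp km v v' ≤ 1 := by
    intro v hv v' hv'
    by_cases hvv : v = v'
    · unfold jv; rw [if_pos hvv]; linarith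
    · have h1 := single_le_sum (f := fun v' => jv k0 kp km v v')
        (fun i _ => jv_nonneg hk0 hkp hkm v i)
        (mem_erase.2 ⟨Ne.symm hvv, hv'⟩ : v' ∈ (range (a + 1)).erase v)
      have h2 := sum_jv (by have := mem_range.1 hv; omega : v ≤ a) k0 hkp hkm
      linarith
  have hmc := GG_le_mc (ρ := ρ) hθ.le hz0 (tt_nonneg (ρ := ρ) hL hp a)
    (tt_le_one hρ0.le hρ1.le hL hp a) hk0 hkp hkm hx hy (range (a + 1)) hk1
  by_cases hm : (∀ v ∈ range (a + 1), x v ≤ 1 - ε) ∨ (∀ v ∈ range (a + 1), y v ≤ 1 - ε)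
  · left
    have h1 := mc_spread hρ hρ1 hε0 hε1 hz0 hz hx hy hx1 hy1 hm
    have h2 := kf_mul_le_one hθ hθ1 hw hw1 hz (a := (2 * ρ - 1) * ε / 2)
      (by have : 0 < 2 * ρ - 1 := by linarith
          positivity) hc (hmc.trans h1)
    linarith
  push Not at hm
  obtain ⟨⟨v0, hv0, hxv⟩, ⟨v1, hv1, hyv⟩⟩ := hm
  have ex := add_sum_erase (range (a + 1)) x hv0
  have ey := add_sum_erase (range (a + 1)) y hv1
  rw [hx1] at ex; rw [hy1] at ey
  have hX : ∑ v ∈ (range (a + 1)).erase v0, x v ≤ ε := by linarith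
  have hY : ∑ v ∈ (range (a + 1)).erase v1, y v ≤ ε := by linarith
  by_cases hv : v0 = v1
  · subst hv
    have hv0' : v0 ≤ a := by have := mem_range.1 hv0; omega
    by_cases hcase : v0 = 0 ∨ LL ≤ L ∨ ¬ (∑ v ∈ (range (a + 1)).erase v0, x v ≤ T * w ∧
      ∑ v ∈ (range (a + 1)).erase v0, y v ≤ T * w)
    · left
      exact same_centre h hp hpw ha hL hk0 hkp hkm hk hx hy hx1 hy1 hv0' hX hY hcase
    · right
      push Not at hcase
      obtain ⟨c1, c2, c3, c4⟩ := hcase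
      exact ⟨not_le.2 c2, v0, by omega, hv0', c3, c4⟩
  · left
    have h1 := mc_diff hρ hε0 hε1 hz0 hz hx hy hx1 hy1 hv0 hv1 hv hX hY
    have h2 := kf_mul_le_one hθ hθ1 hw hw1 (z := 0) (by norm_num) (a := 8 * w) (by positivity)
      (by linarith) (G := GG ρ θ (w ^ σ) (tt ρ L p a) k0 kp km x y (range (a + 1)) (range (a + 1)))
      ?_
    · linarith
    · have h3 : (2 * ρ - 1) * ε ≤ ε := mul_le_of_le_one_left hε0.le (by linarith)
      linarith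

/-! ## existence of the constants -/

theorem oc_ex {ρ θ : ℝ} (hρ : 1/2 < ρ) (hθ : 0 < θ) (hρθ : ρ + θ < 1) :
    ∃ T ε A LL w0 : ℝ, 0 < w0 ∧ 1 ≤ T ∧ 0 ≤ LL ∧
      ∀ w, 0 < w → w ≤ w0 → OC ρ θ (1 - ρ - θ) T ε A LL w := by
  set σ := 1 - ρ - θ with hσd
  have hσ : 0 < σ := by linarith
  set T := max (8 / θ) ((32 / θ) ^ (1 / σ)) with hT
  have hTa : 8 / θ ≤ T := le_max_left _ _
  have hTb : (32 / θ) ^ (1 / σ) ≤ T := le_max_right _ _
  have h8 : 8 ≤ θ * T := by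
    rw [div_le_iff₀ hθ] at hTa; linarith
  have hT1 : 1 ≤ T := by
    have : (1:ℝ) ≤ 8 / θ := by rw [le_div_iff₀ hθ]; linarith
    linarith
  have hT0 : 0 < T := by linarith
  have h32 : 0 < 32 / θ := by positivity
  have hT2 : 8 * T ^ (-σ) ≤ θ / 4 := by
    have h1 : 32 / θ ≤ T ^ σ := by
      calc 32 / θ = ((32 / θ) ^ (1 / σ)) ^ σ := by
            rw [← Real.rpow_mul h32.le, one_div_mul_cancel hσ.ne', Real.rpow_one]
        _ ≤ T ^ σ := Real.rpow_le_rpow (Real.rpow_nonneg h32.le _) hTb hσ.le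
    rw [Real.rpow_neg hT0.le]
    have h2 : (T ^ σ)⁻¹ ≤ (32 / θ)⁻¹ := inv_anti₀ h32 h1
    have h3 : (32 / θ)⁻¹ = θ / 32 := by rw [inv_div]
    rw [h3] at h2
    linarith
  have hη : 0 < 2 * ρ - 1 := by linarith
  set ε := min (1/64) ((θ / 12) ^ (1 / (2 * ρ - 1))) with hε
  have hε0 : 0 < ε := lt_min (by norm_num) (by positivity)
  have hε1 : ε ≤ 1/64 := min_le_left _ _
  have hε2 : 3 * ε ^ (2 * ρ - 1) ≤ θ / 4 := by
    have h1 : ε ^ (2 * ρ - 1) ≤ θ / 12 := by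
      calc ε ^ (2 * ρ - 1) ≤ ((θ / 12) ^ (1 / (2 * ρ - 1))) ^ (2 * ρ - 1) :=
            Real.rpow_le_rpow hε0.le (min_le_right _ _) hη.le
        _ = θ / 12 := by
            rw [← Real.rpow_mul (by positivity), one_div_mul_cancel hη.ne', Real.rpow_one]
    linarith
  set A := (2:ℝ) ^ (θ / σ) with hA
  have hA0 : 0 < A := by positivity
  have hA2 : A ^ σ * (1/2 : ℝ) ^ θ = 1 := by
    rw [hA, ← Real.rpow_mul (by norm_num), div_mul_cancel₀ _ hσ.ne', one_div,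
      Real.inv_rpow (by norm_num)]
    exact mul_inv_cancel₀ (by positivity)
  set LL := 16 * σ * A + 4 * θ with hLL
  have hLL0 : 0 ≤ LL := by positivity
  set aa := (2 * ρ - 1) * ε / 2 with haa
  have haa0 : 0 < aa := by positivity
  refine ⟨T, ε, A, LL, min (1/16) (min ((1/16 : ℝ) ^ (1 / σ)) (min ((aa / 8) ^ (1 / σ))
    (min (aa / 16) (1 / (3 * T + 2 + LL))))), ?_, hT1, hLL0, ?_⟩
  · refine lt_min (by norm_num) (lt_min (by positivity) (lt_min (by positivity)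
      (lt_min (by positivity) (by positivity))))
  intro w hw hw0
  rw [le_min_iff, le_min_iff, le_min_iff, le_min_iff] at hw0
  obtain ⟨b1, b2, b3, b4, b5⟩ := hw0
  have hpow : ∀ c : ℝ, 0 < c → w ≤ c ^ (1 / σ) → w ^ σ ≤ c := by
    intro c hc hwc
    calc w ^ σ ≤ (c ^ (1 / σ)) ^ σ := Real.rpow_le_rpow hw.le hwc hσ.le
      _ = c := by rw [← Real.rpow_mul hc.le, one_div_mul_cancel hσ.ne', Real.rpow_one]
  refine ⟨hρ, hθ, hσ, by rw [hσd]; ring, hT1, hT2, h8, hε0, hε1, hε2, hA0, hA2, hLL, hw, b1,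
    hpow _ (by norm_num) b2, ?_, ?_⟩
  · have := hpow _ (by positivity) b3
    linarith
  · rw [le_div_iff₀ (by positivity)] at b5
    linarith

/-! ## `D`-scale -/

/-- law of the difference of the exponents, `j = 0` -/
noncomputable def kap0 (p : ℕ) : ℝ := (1 - 1 / (p : ℝ)) / (1 + 1 / (p : ℝ))

/-- average of the slice values -/
noncomputable def avg (p a : ℕ) (D0 : ℝ) (Dp Dm : ℕ → ℝ) : ℝ :=
  kap0 p * D0 + ∑ j ∈ Icc 1 a, kap0 p * (1 / (p : ℝ)) ^ j * (Dp j + Dm j)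

lemma kap0_pos {p : ℕ} (hp : p.Prime) : 0 < kap0 p := by
  obtain ⟨h1, h2⟩ := w_bounds hp
  unfold kap0
  exact div_pos (by linarith) (by linarith)

/-- identity: the one-prime sum in terms of the normalised one -/
lemma sum_eq_GG {ρ θ σ : ℝ} (hs : σ + ρ + θ = 1) {p : ℕ} (hp : p.Prime) {a : ℕ} {L : ℝ}
    (hL : 0 ≤ L) {D D0 : ℝ} {Dp Dm : ℕ → ℝ} (hD : 0 < D) (hD0 : 0 ≤ D0) (hDp : ∀ j, 0 ≤ Dp j)
    (hDm : ∀ j, 0 ≤ Dm j) (x y : ℕ → ℝ) {s : Finset ℕ} (hsub : s ⊆ range (a + 1)) :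
    ∑ v ∈ s, ∑ v' ∈ s, cf ρ L p a v v' * (x v * y v') ^ ρ * (jv D0 Dp Dm v v') ^ θ =
      D ^ θ * (kf θ (1 / (p : ℝ)) * GG ρ θ ((1 / (p : ℝ)) ^ σ) (tt ρ L p a)
        (kap0 p * D0 / D) (fun j => kap0 p * (1 / (p : ℝ)) ^ j * Dp j / D)
        (fun j => kap0 p * (1 / (p : ℝ)) ^ j * Dm j / D) x y s s) := by
  obtain ⟨hw0, hw1⟩ := w_bounds hp
  set w : ℝ := 1 / (p : ℝ) with hw
  have hk := kap0_pos hp
  unfold GG
  rw [mul_sum, mul_sum]
  refine sum_congr rfl fun v hv => ?_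
  rw [mul_sum, mul_sum]
  refine sum_congr rfl fun v' hv' => ?_
  have hva : v ≤ a := by have := mem_range.1 (hsub hv); omega
  have hva' : v' ≤ a := by have := mem_range.1 (hsub hv'); omega
  rw [cf_eq hL hp hva hva', ← hw]
  set j := Nat.dist v v' with hj
  -- value
  have hval : jv (kap0 p * D0 / D) (fun j => kap0 p * w ^ j * Dp j / D)
      (fun j => kap0 p * w ^ j * Dm j / D) v v' = kap0 p * w ^ j * jv D0 Dp Dm v v' / D := by
    unfold jv
    by_cases h : v = v'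
    · rw [if_pos h, if_pos h, hj, h, Nat.dist_self, pow_zero, mul_one]
    · rcases lt_or_gt_of_ne h with h' | h'
      · rw [if_neg h, if_neg (by omega), if_neg h, if_neg (by omega), hj,
          Nat.dist_eq_sub_of_le h'.le]
      · rw [if_neg h, if_pos h', if_neg h, if_pos h', hj, Nat.dist_eq_sub_of_le_right h'.le]
  have hJ0 : 0 ≤ jv D0 Dp Dm v v' := jv_nonneg hD0 hDp hDm v v'
  rw [hval]
  have hwj : 0 < w ^ j := pow_pos hw0 j
  have e1 : (kap0 p * w ^ j * jv D0 Dp Dm v v' / D) ^ θ =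
      kap0 p ^ θ * (w ^ θ) ^ j * (jv D0 Dp Dm v v') ^ θ / D ^ θ := by
    rw [Real.div_rpow (by positivity) hD.le, Real.mul_rpow (by positivity) hJ0,
      Real.mul_rpow hk.le hwj.le]
    congr 3
    rw [← Real.rpow_natCast, ← Real.rpow_natCast, ← Real.rpow_mul hw0.le, ← Real.rpow_mul hw0.le,
      mul_comm]
  have e2 : kf θ w * kap0 p ^ θ = 1 := by
    unfold kf kap0
    rw [← hw, ← Real.mul_rpow (div_nonneg (by linarith) (by linarith))
      (div_nonneg (by linarith) (by linarith))]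
    have : (1 + w) / (1 - w) * ((1 - w) / (1 + w)) = 1 := by
      have h1 : (1 - w) ≠ 0 := by linarith
      have h2 : (1 + w) ≠ 0 := by linarith
      field_simp
    rw [this, Real.one_rpow]
  have e3 : (w ^ (1 - ρ)) ^ j = (w ^ σ) ^ j * (w ^ θ) ^ j := by
    rw [← mul_pow, ← Real.rpow_add hw0]
    congr 2; linarith
  have hDθ : D ^ θ ≠ 0 := (Real.rpow_pos_of_pos hD θ).ne'
  rw [e1, e3]
  calc tt ρ L p a v * tt ρ L p a v' * ((w ^ σ) ^ j * (w ^ θ) ^ j) * (x v * y v') ^ ρ *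
        (jv D0 Dp Dm v v') ^ θ
      = (kf θ w * kap0 p ^ θ) * (tt ρ L p a v * tt ρ L p a v' * ((w ^ σ) ^ j * (w ^ θ) ^ j) *
        (x v * y v') ^ ρ * (jv D0 Dp Dm v v') ^ θ) := by rw [e2, one_mul]
    _ = _ := by field_simp

set_option maxHeartbeats 2000000 in
/-- **ONE PRIME, FINAL FORM.**  There are `C`, `LL` depending on `ρ, θ` only such that for every
prime `p` and every exponent `a ≥ 1`: if the slice values satisfy `avg ≤ D` then the one-prime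
inequality `Scal` holds with error `C p^{-2ρ}`; passive centres `1 ≤ v0 ≤ a` needed only if
`L < LL`. -/
theorem scal_game {ρ θ : ℝ} (hρ : 1/2 < ρ) (hθ : 0 < θ) (hρθ : ρ + θ < 1) :
    ∃ C LL : ℝ, 0 ≤ C ∧ 0 ≤ LL ∧ ∀ (p : ℕ), p.Prime → ∀ a : ℕ, 0 < a → ∀ L : ℝ, 0 ≤ L →
      ∀ (D D0 : ℝ) (Dp Dm : ℕ → ℝ), 0 ≤ D → 0 ≤ D0 → (∀ j, 0 ≤ Dp j) → (∀ j, 0 ≤ Dm j) →
      avg p a D0 Dp Dm ≤ D → ∀ (P : Finset ℕ) (up : ℕ → ℝ),
      (LL ≤ L ∨ (∀ v0, 1 ≤ v0 → v0 ≤ a → v0 ∈ P ∧ up v0 ≤ D ^ θ)) →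
      Scal ρ L (C * (1 / (p : ℝ)) ^ (2 * ρ)) p a (D ^ θ) (fun v v' => (jv D0 Dp Dm v v') ^ θ)
        P up := by
  obtain ⟨T, ε, A, LL, w0, hw0, hT1, hLL0, hOC⟩ := oc_ex hρ hθ hρθ
  set σ := 1 - ρ - θ with hσd
  have hσ : 0 < σ := by linarith
  have hρ1 : ρ < 1 := by linarith
  have hρ0 : 0 < ρ := by linarith
  have hθ1 : θ ≤ 1 := by linarith
  have hs : σ + ρ + θ = 1 := by rw [hσd]; ring
  have h2σ : (1/2 : ℝ) ^ σ < 1 := Real.rpow_lt_one (by norm_num) (by norm_num) hσ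
  have hCC : 0 ≤ CC T LL := by unfold CC; positivity
  set C1 : ℝ := 6 / (1 - (1/2 : ℝ) ^ σ) / w0 ^ (2 * ρ) with hC1
  have hC10 : 0 ≤ C1 := by
    have : 0 < 1 - (1/2 : ℝ) ^ σ := by linarith
    positivity
  set C := (4 + 2 * CC T LL) + 9 * T ^ 2 + C1 with hC
  refine ⟨C, LL, by positivity, hLL0, ?_⟩
  intro p hp a ha L hL D D0 Dp Dm hD hD0 hDp hDm havg P up hPu
  obtain ⟨hw, hw12⟩ := w_bounds hp
  set w : ℝ := 1 / (p : ℝ) with hwd
  have hwρ : 0 ≤ w ^ (2 * ρ) := Real.rpow_nonneg hw.le _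
  have hk := kap0_pos hp
  intro x y hx hy hx1 hy1
  rcases hD.eq_or_lt with hDz | hDpos
  · -- D = 0
    left
    have hterm : ∀ j ∈ Icc 1 a, 0 ≤ kap0 p * w ^ j * (Dp j + Dm j) := fun j _ => by
      have := hDp j; have := hDm j
      positivity
    have hS0 := sum_nonneg hterm
    have hk0 : 0 ≤ kap0 p * D0 := mul_nonneg hk.le hD0
    unfold avg at havg
    rw [← hDz, ← hwd] at havg
    have z1 : kap0 p * D0 = 0 := by linarith
    have z2 : ∑ j ∈ Icc 1 a, kap0 p * w ^ j * (Dp j + Dm j) = 0 := by linarith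
    have zD0 : D0 = 0 := by
      rcases mul_eq_zero.1 z1 with h | h
      · exact absurd h hk.ne'
      · exact h
    have zj : ∀ j ∈ Icc 1 a, Dp j = 0 ∧ Dm j = 0 := by
      intro j hj
      have h1 := (sum_eq_zero_iff_of_nonneg hterm).1 z2 j hj
      have h2 : kap0 p * w ^ j ≠ 0 := by positivity
      rcases mul_eq_zero.1 h1 with h | h
      · exact absurd h h2
      · have := hDp j; have := hDm j
        constructor <;> linarith
    have hall : ∀ v ∈ range (a + 1), ∀ v' ∈ range (a + 1), jv D0 Dp Dm v v' = 0 := by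
      intro v hv v' hv'
      rw [mem_range] at hv hv'
      unfold jv
      split_ifs with h1 h2
      · exact zD0
      · exact (zj _ (by rw [mem_Icc]; omega)).1
      · exact (zj _ (by rw [mem_Icc]; omega)).2
    have : ∑ v ∈ range (a + 1), ∑ v' ∈ range (a + 1), cf ρ L p a v v' * (x v * y v') ^ ρ *
        (jv D0 Dp Dm v v') ^ θ = 0 := by
      apply sum_eq_zero; intro v hv; apply sum_eq_zero; intro v' hv'
      rw [hall v hv v' hv', Real.zero_rpow hθ.ne', mul_zero]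
    rw [this, ← hDz, Real.zero_rpow hθ.ne', mul_zero]
  -- D > 0
  have hDθ : 0 < D ^ θ := Real.rpow_pos_of_pos hDpos θ
  have hk0n : 0 ≤ kap0 p * D0 / D := by positivity
  have hkpn : ∀ j, 0 ≤ kap0 p * w ^ j * Dp j / D := fun j => by have := hDp j; positivity
  have hkmn : ∀ j, 0 ≤ kap0 p * w ^ j * Dm j / D := fun j => by have := hDm j; positivity
  have hksum : kap0 p * D0 / D + ∑ j ∈ Icc 1 a, (kap0 p * w ^ j * Dp j / D +
      kap0 p * w ^ j * Dm j / D) ≤ 1 := by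
    have e : kap0 p * D0 / D + ∑ j ∈ Icc 1 a, (kap0 p * w ^ j * Dp j / D +
        kap0 p * w ^ j * Dm j / D) = avg p a D0 Dp Dm / D := by
      unfold avg
      rw [add_div, sum_div, ← hwd]
      congr 1
      refine sum_congr rfl fun j _ => ?_
      ring
    rw [e, div_le_one hDpos]
    exact havg
  have hGfull := sum_eq_GG hs hp (a := a) hL hDpos hD0 hDp hDm x y (subset_rfl)
  rw [← hwd] at hGfull
  by_cases hsmall : w ≤ w0
  · rcases one_small (hOC w hw hsmall) hp hwd ha hL hk0n hkpn hkmn hksum hx hy hx1 hy1 with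
      hres | ⟨hnL, v0, hv1, hva, hX, hY⟩
    · left
      rw [hGfull]
      have h1 : 1 + (4 + 2 * CC T LL) * w ^ (2 * ρ) ≤ 1 + C * w ^ (2 * ρ) := by
        have : (4 + 2 * CC T LL) ≤ C := by rw [hC]; nlinarith [sq_nonneg T]
        have := mul_le_mul_of_nonneg_right this hwρ
        linarith
      calc _ ≤ D ^ θ * (1 + C * w ^ (2 * ρ)) :=
            mul_le_mul_of_nonneg_left (hres.trans h1) hDθ.le
        _ = _ := by ring
    · right
      rcases hPu with h | h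
      · exact absurd h hnL
      obtain ⟨hPv, hup⟩ := h v0 hv1 hva
      refine ⟨v0, hPv, ?_⟩
      have hGe := sum_eq_GG hs hp (a := a) hL hDpos hD0 hDp hDm x y
        (erase_subset v0 (range (a + 1)))
      rw [← hwd] at hGe
      simp only
      rw [hGe]
      have hz0 : 0 ≤ w ^ σ := Real.rpow_nonneg hw.le _
      have hz1 : w ^ σ ≤ 1/2 := by
        have := (hOC w hw hsmall).hz; linarith
      have hjv1 : ∀ v ∈ (range (a + 1)).erase v0, ∀ v' ∈ (range (a + 1)).erase v0,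
          jv (kap0 p * D0 / D) (fun j => kap0 p * w ^ j * Dp j / D)
            (fun j => kap0 p * w ^ j * Dm j / D) v v' ≤ 1 := by
        intro v hv v' hv'
        have hv := mem_of_mem_erase hv
        have hv' := mem_of_mem_erase hv'
        have hsn : 0 ≤ ∑ j ∈ Icc 1 a, (kap0 p * w ^ j * Dp j / D + kap0 p * w ^ j * Dm j / D) :=
          sum_nonneg fun j _ => add_nonneg (hkpn j) (hkmn j)
        by_cases hvv : v = v'
        · unfold jv; rw [if_pos hvv]; linarith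
        · have h1 := single_le_sum (f := fun v' => jv (kap0 p * D0 / D)
              (fun j => kap0 p * w ^ j * Dp j / D) (fun j => kap0 p * w ^ j * Dm j / D) v v')
            (fun i _ => jv_nonneg hk0n hkpn hkmn v i)
            (mem_erase.2 ⟨Ne.symm hvv, hv'⟩ : v' ∈ (range (a + 1)).erase v)
          have h2 := sum_jv (by have := mem_range.1 hv; omega : v ≤ a) (kap0 p * D0 / D) hkpn hkmn
          linarith
      have hg := GG_le_mc (ρ := ρ) hθ.le hz0 (tt_nonneg (ρ := ρ) hL hp a)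
        (tt_le_one hρ0.le hρ1.le hL hp a) hk0n hkpn hkmn hx hy ((range (a + 1)).erase v0) hjv1
      have hr := removed_le hρ.le hz0 hz1 (range (a + 1)) x y hx hy v0 hX hY
      have hTw : (T * w) ^ (2 * ρ) ≤ T ^ 2 * w ^ (2 * ρ) := by
        rw [Real.mul_rpow (by linarith) hw.le]
        apply mul_le_mul_of_nonneg_right _ hwρ
        calc T ^ (2 * ρ) ≤ T ^ (2:ℝ) := Real.rpow_le_rpow_of_exponent_le hT1 (by linarith)
          _ = T ^ 2 := by norm_num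
      have hkf := kf_le_three hθ hθ1 hw hw12
      have hkf0 := kf_nonneg (θ := θ) hw hw12
      have htot : kf θ w * GG ρ θ (w ^ σ) (tt ρ L p a) (kap0 p * D0 / D)
          (fun j => kap0 p * w ^ j * Dp j / D) (fun j => kap0 p * w ^ j * Dm j / D) x y
          ((range (a + 1)).erase v0) ((range (a + 1)).erase v0) ≤ 9 * T ^ 2 * w ^ (2 * ρ) := by
        have hb : 0 ≤ 3 * (T ^ 2 * w ^ (2 * ρ)) := by positivity
        calc _ ≤ kf θ w * (3 * (T ^ 2 * w ^ (2 * ρ))) := by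
              apply mul_le_mul_of_nonneg_left _ hkf0
              linarith
          _ ≤ 3 * (3 * (T ^ 2 * w ^ (2 * ρ))) := mul_le_mul_of_nonneg_right hkf hb
          _ = _ := by ring
      have hC9 : 9 * T ^ 2 ≤ C := by rw [hC]; nlinarith
      have hC9' := mul_le_mul_of_nonneg_right hC9 hwρ
      calc _ ≤ D ^ θ * (9 * T ^ 2 * w ^ (2 * ρ)) + D ^ θ :=
            add_le_add (mul_le_mul_of_nonneg_left htot hDθ.le) hup
        _ ≤ D ^ θ * (C * w ^ (2 * ρ)) + D ^ θ := by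
            have := mul_le_mul_of_nonneg_left hC9' hDθ.le
            linarith
        _ = _ := by ring
  · left
    push Not at hsmall
    rw [hGfull]
    have hz0 : 0 ≤ w ^ σ := Real.rpow_nonneg hw.le _
    have hzle : w ^ σ ≤ (1/2 : ℝ) ^ σ := Real.rpow_le_rpow hw.le hw12 hσ.le
    have hz1 : w ^ σ < 1 := hzle.trans_lt h2σ
    have hjv1 : ∀ v ∈ range (a + 1), ∀ v' ∈ range (a + 1),
        jv (kap0 p * D0 / D) (fun j => kap0 p * w ^ j * Dp j / D)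
          (fun j => kap0 p * w ^ j * Dm j / D) v v' ≤ 1 := by
      intro v hv v' hv'
      have hsn : 0 ≤ ∑ j ∈ Icc 1 a, (kap0 p * w ^ j * Dp j / D + kap0 p * w ^ j * Dm j / D) :=
        sum_nonneg fun j _ => add_nonneg (hkpn j) (hkmn j)
      by_cases hvv : v = v'
      · unfold jv; rw [if_pos hvv]; linarith
      · have h1 := single_le_sum (f := fun v' => jv (kap0 p * D0 / D)
            (fun j => kap0 p * w ^ j * Dp j / D) (fun j => kap0 p * w ^ j * Dm j / D) v v')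
          (fun i _ => jv_nonneg hk0n hkpn hkmn v i)
          (mem_erase.2 ⟨Ne.symm hvv, hv'⟩ : v' ∈ (range (a + 1)).erase v)
        have h2 := sum_jv (by have := mem_range.1 hv; omega : v ≤ a) (kap0 p * D0 / D) hkpn hkmn
        linarith
    have hg := GG_le_mc (ρ := ρ) hθ.le hz0 (tt_nonneg (ρ := ρ) hL hp a)
      (tt_le_one hρ0.le hρ1.le hL hp a) hk0n hkpn hkmn hx hy (range (a + 1)) hjv1
    have hcr := mc_crude hρ.le hz0 hz1 hx hy (range (a + 1)) hx1 hy1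
    have hcr2 : 2 / (1 - w ^ σ) ≤ 2 / (1 - (1/2 : ℝ) ^ σ) :=
      div_le_div_of_nonneg_left (by norm_num) (by linarith) (by linarith)
    have hkf := kf_le_three hθ hθ1 hw hw12
    have hkf0 := kf_nonneg (θ := θ) hw hw12
    have hpos : 0 ≤ 2 / (1 - (1/2 : ℝ) ^ σ) := by
      have : 0 < 1 - (1/2 : ℝ) ^ σ := by linarith
      positivity
    have hCw : 6 / (1 - (1/2 : ℝ) ^ σ) ≤ C * w ^ (2 * ρ) := by
      have h1 : w0 ^ (2 * ρ) ≤ w ^ (2 * ρ) := Real.rpow_le_rpow hw0.le hsmall.le (by linarith)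
      have h2 : 0 < w0 ^ (2 * ρ) := Real.rpow_pos_of_pos hw0 _
      have h3 : C1 ≤ C := by rw [hC]; nlinarith [sq_nonneg T]
      calc 6 / (1 - (1/2 : ℝ) ^ σ) = C1 * w0 ^ (2 * ρ) := by rw [hC1, div_mul_cancel₀ _ h2.ne']
        _ ≤ C1 * w ^ (2 * ρ) := mul_le_mul_of_nonneg_left h1 hC10
        _ ≤ C * w ^ (2 * ρ) := mul_le_mul_of_nonneg_right h3 hwρ
    have htot : kf θ w * GG ρ θ (w ^ σ) (tt ρ L p a) (kap0 p * D0 / D)
        (fun j => kap0 p * w ^ j * Dp j / D) (fun j => kap0 p * w ^ j * Dm j / D) x y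
        (range (a + 1)) (range (a + 1)) ≤ C * w ^ (2 * ρ) := by
      calc _ ≤ kf θ w * (2 / (1 - (1/2 : ℝ) ^ σ)) :=
            mul_le_mul_of_nonneg_left (hg.trans (hcr.trans hcr2)) hkf0
        _ ≤ 3 * (2 / (1 - (1/2 : ℝ) ^ σ)) := mul_le_mul_of_nonneg_right hkf hpos
        _ = 6 / (1 - (1/2 : ℝ) ^ σ) := by ring
        _ ≤ _ := hCw
    calc _ ≤ D ^ θ * (C * w ^ (2 * ρ)) := mul_le_mul_of_nonneg_left htot hDθ.le
      _ ≤ (1 + C * w ^ (2 * ρ)) * D ^ θ := by nlinarith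

end Crest.Agent.R4C.Corex251
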