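import Crest.Agent.R4C.HypF5_473
import Crest.Agent.R4C.GWkillE_22
import Crest.Agent.R4C.ClsSc_244

/-!
# Row 4, GW section: the scalar class is a theorem (helper473)

* `hypEv`, `hypOK` : leaf (F5) in the forms of `GWfinZ_982`, `ClsSc_244`;
* `cls_sc`, `cls_domP1` : the scalar classes, no hypotheses.
-/

set_option autoImplicit false

namespace Crest.Agent.R4C.ScalEx473

open Crest.Agent.R4C.Spinex946

theorem hypEv (γ : ℝ) : GWfinx982.HypEv γ :=
  HypF5x473.hyp_inst.mono fun _ _ _ _ ⟨C1, h1, h⟩ =>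
    ⟨C1, h1, fun L M B F S G hG σ hσ _ => h γ L M B F S G hG σ 1 1 hσ le_rfl one_pos⟩

theorem hypOK (γ : ℝ) : ClsScx244.HypOK γ :=
  HypF5x473.hyp_inst.mono fun _ _ _ _ ⟨C1, h1, h⟩ =>
    ⟨1, C1, le_rfl, h1, fun L M B F S G hG σ hσ => h γ L M B F S G hG σ 1 1
      (by rcases hσ with rfl | rfl <;> norm_num) le_rfl one_pos⟩

/-- **the scalar class** -/
theorem cls_sc (γ : ℝ) : ClsOK γ (DomRedx244.cSc γ) := GWkillEx22.cls_scE (hypEv γ)

/-- **the scalar class**, second form -/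
theorem cls_domP1 (γ : ℝ) : ClsOK γ (Coverx946.nH γ (GWfinx982.clsDomP1 γ)) :=
  GWfinx982.cls_domP1 (hypEv γ) (GWkillEx22.killEv γ)

end Crest.Agent.R4C.ScalEx473
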