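import Crest.Agent.R4C.CoreB_251
import Crest.Agent.R4C.MultiB_251

/-!
# Row 4: one-prime inequality with averaged relation (2459 + anatomy weight), all exponents
-/

set_option autoImplicit false

namespace Crest.Agent.R4C.Corex251

open Finset Crest.Agent.R4C.Basex935 Crest.Agent.R4C.Multix251

/-- letter coefficient -/
noncomputable def tt (ρ L : ℝ) (p a v : ℕ) : ℝ :=
  (if v < a then (1 - 1 / (p : ℝ)) else 1) ^ (1 - ρ) * (lw L p v) ^ (-ρ)

lemma w_bounds {p : ℕ} (hp : p.Prime) : 0 < 1 / (p : ℝ) ∧ 1 / (p : ℝ) ≤ 1 / 2 := by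
  have h2 : (2:ℝ) ≤ p := by exact_mod_cast hp.two_le
  exact ⟨by positivity, one_div_le_one_div_of_le (by norm_num) h2⟩

lemma tt_nonneg {ρ L : ℝ} (hL : 0 ≤ L) {p : ℕ} (hp : p.Prime) (a v : ℕ) : 0 ≤ tt ρ L p a v := by
  have := (w_bounds hp).2
  have h1 : (0:ℝ) ≤ (if v < a then (1 - 1 / (p : ℝ)) else 1) := by split_ifs <;> linarith
  unfold tt
  exact mul_nonneg (Real.rpow_nonneg h1 _) (Real.rpow_nonneg (lw_pos hL p v).le _)

lemma tt_le_one {ρ L : ℝ} (hρ0 : 0 ≤ ρ) (hρ : ρ ≤ 1) (hL : 0 ≤ L) {p : ℕ} (hp : p.Prime)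
    (a v : ℕ) : tt ρ L p a v ≤ 1 := by
  obtain ⟨hw0, hw⟩ := w_bounds hp
  have h1 : (0:ℝ) ≤ (if v < a then (1 - 1 / (p : ℝ)) else 1) := by split_ifs <;> linarith
  have h2 : (if v < a then (1 - 1 / (p : ℝ)) else 1) ≤ (1:ℝ) := by split_ifs <;> linarith
  unfold tt
  have h3 : (if v < a then (1 - 1 / (p : ℝ)) else 1) ^ (1 - ρ) ≤ (1:ℝ) :=
    Real.rpow_le_one h1 h2 (by linarith)
  have h4 : (lw L p v) ^ (-ρ) ≤ 1 := by
    rw [Real.rpow_neg (lw_pos hL p v).le]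
    exact inv_le_one_of_one_le₀ (Real.one_le_rpow (one_le_lw hL p v) hρ0)
  calc _ ≤ (1:ℝ) * 1 := mul_le_mul h3 h4 (Real.rpow_nonneg (lw_pos hL p v).le _) (by norm_num)
    _ = 1 := one_mul 1

lemma nup_eq' (p a v : ℕ) (hv : v ≤ a) :
    nup p a v = (if v < a then (1 - 1 / (p : ℝ)) else 1) * (1 / (p : ℝ)) ^ v := by
  unfold nup
  split_ifs with h
  · rfl
  · have : a = v := by omega
    rw [this, one_mul]

lemma cf_eq {ρ L : ℝ} (hL : 0 ≤ L) {p : ℕ} (hp : p.Prime) {a v v' : ℕ} (hv : v ≤ a)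
    (hv' : v' ≤ a) : cf ρ L p a v v' =
      tt ρ L p a v * tt ρ L p a v' * ((1 / (p : ℝ)) ^ (1 - ρ)) ^ (Nat.dist v v') := by
  obtain ⟨hw0, hw⟩ := w_bounds hp
  have hp0 : (0:ℝ) < p := by exact_mod_cast hp.pos
  unfold cf tt
  rw [nup_eq' p a v hv, nup_eq' p a v' hv']
  set w : ℝ := 1 / (p : ℝ) with hwdef
  set t1 : ℝ := (if v < a then (1 - w) else 1) with ht1
  set t2 : ℝ := (if v' < a then (1 - w) else 1) with ht2
  have ht1p : 0 < t1 := by rw [ht1]; split_ifs <;> linarith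
  have ht2p : 0 < t2 := by rw [ht2]; split_ifs <;> linarith
  set A : ℝ := w ^ (1 - ρ) with hA
  have hA0 : 0 < A := Real.rpow_pos_of_pos hw0 _
  have hpow : ∀ n : ℕ, (w ^ n) ^ (1 - ρ) = A ^ n := by
    intro n
    rw [hA, ← Real.rpow_natCast, ← Real.rpow_natCast, ← Real.rpow_mul hw0.le,
      ← Real.rpow_mul hw0.le, mul_comm]
  have hpp : ((p : ℝ) ^ (min v v')) ^ (2 - 2 * ρ) = (A ^ (2 * min v v'))⁻¹ := by
    have hpw : (p : ℝ) ^ (min v v') = (w ^ (min v v'))⁻¹ := by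
      rw [hwdef, one_div, inv_pow, inv_inv]
    rw [hpw, Real.inv_rpow (by positivity)]
    congr 1
    rw [show (2 - 2 * ρ) = (1 - ρ) * 2 by ring, Real.rpow_mul (by positivity), hpow]
    rw [pow_mul']
    norm_num
  have hdist : v + v' = Nat.dist v v' + 2 * min v v' := by
    unfold Nat.dist
    omega
  rw [hpp, Real.mul_rpow (by positivity) (by positivity), Real.mul_rpow ht1p.le (by positivity),
    Real.mul_rpow ht2p.le (by positivity), hpow, hpow,
    Real.mul_rpow (lw_pos hL p v).le (lw_pos hL p v').le]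
  have hmain : (A ^ (2 * min v v'))⁻¹ * (A ^ v * A ^ v') = A ^ (Nat.dist v v') := by
    rw [← pow_add, hdist, pow_add]
    field_simp
  calc (A ^ (2 * min v v'))⁻¹ * (t1 ^ (1 - ρ) * A ^ v * (t2 ^ (1 - ρ) * A ^ v')) *
        (lw L p v ^ (-ρ) * lw L p v' ^ (-ρ))
      = ((A ^ (2 * min v v'))⁻¹ * (A ^ v * A ^ v')) * (t1 ^ (1 - ρ) * t2 ^ (1 - ρ)) *
        (lw L p v ^ (-ρ) * lw L p v' ^ (-ρ)) := by ring
    _ = _ := by rw [hmain]; ring

/-- value of a pair of letters as a function of the difference -/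
noncomputable def jv (D0 : ℝ) (Dp Dm : ℕ → ℝ) (v v' : ℕ) : ℝ :=
  if v = v' then D0 else if v' < v then Dp (v - v') else Dm (v' - v)

/-- the normalised one-prime sum -/
noncomputable def GG (ρ θ z : ℝ) (t : ℕ → ℝ) (k0 : ℝ) (kp km : ℕ → ℝ) (x y : ℕ → ℝ)
    (s s' : Finset ℕ) : ℝ :=
  ∑ v ∈ s, ∑ v' ∈ s', t v * t v' * z ^ (Nat.dist v v') * (x v * y v') ^ ρ *
    (jv k0 kp km v v') ^ θ

/-- splitting a double sum at a centre -/
lemma double_split (g : ℕ → ℕ → ℝ) {s : Finset ℕ} {v0 : ℕ} (h : v0 ∈ s) :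
    ∑ v ∈ s, ∑ v' ∈ s, g v v' = g v0 v0 + ∑ v' ∈ s.erase v0, g v0 v' + ∑ v ∈ s.erase v0, g v v0
      + ∑ v ∈ s.erase v0, ∑ v' ∈ s.erase v0, g v v' := by
  rw [← add_sum_erase s _ h, ← add_sum_erase s (fun v' => g v0 v') h]
  have : ∑ v ∈ s.erase v0, ∑ v' ∈ s, g v v' = ∑ v ∈ s.erase v0, (g v v0 +
      ∑ v' ∈ s.erase v0, g v v') := sum_congr rfl fun v _ => (add_sum_erase s _ h).symm
  rw [this, sum_add_distrib]
  ring

/-- all values `≤ 1`, `t ≤ 1`: `GG ≤ diag + cross` -/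
lemma GG_le_mc {ρ θ z : ℝ} (hθ : 0 ≤ θ) (hz : 0 ≤ z) {t : ℕ → ℝ} (ht0 : ∀ v, 0 ≤ t v)
    (ht1 : ∀ v, t v ≤ 1) {k0 : ℝ} {kp km : ℕ → ℝ} (hk0 : 0 ≤ k0) (hkp : ∀ j, 0 ≤ kp j)
    (hkm : ∀ j, 0 ≤ km j) {x y : ℕ → ℝ} (hx : ∀ v, 0 ≤ x v) (hy : ∀ v, 0 ≤ y v) (s : Finset ℕ)
    (hk1 : ∀ v ∈ s, ∀ v' ∈ s, jv k0 kp km v v' ≤ 1) :
    GG ρ θ z t k0 kp km x y s s ≤ diag ρ s x y + cross ρ z s s x y := by
  unfold GG Multix251.diag cross
  rw [← sum_add_distrib]
  apply sum_le_sum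
  intro v hv
  have hterm : ∀ v' ∈ s, t v * t v' * z ^ (Nat.dist v v') * (x v * y v') ^ ρ *
      (jv k0 kp km v v') ^ θ ≤ z ^ (Nat.dist v v') * (x v * y v') ^ ρ := by
    intro v' hv'
    have h0 : 0 ≤ jv k0 kp km v v' := by
      unfold jv; split_ifs
      · exact hk0
      · exact hkp _
      · exact hkm _
    have h1 : (jv k0 kp km v v') ^ θ ≤ 1 := Real.rpow_le_one h0 (hk1 v hv v' hv') hθ
    have h2 : t v * t v' ≤ 1 := by
      calc t v * t v' ≤ 1 * 1 := mul_le_mul (ht1 v) (ht1 v') (ht0 v') (by norm_num)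
        _ = 1 := one_mul 1
    have h3 : 0 ≤ z ^ (Nat.dist v v') * (x v * y v') ^ ρ :=
      mul_nonneg (pow_nonneg hz _) (Real.rpow_nonneg (mul_nonneg (hx v) (hy v')) _)
    calc t v * t v' * z ^ (Nat.dist v v') * (x v * y v') ^ ρ * (jv k0 kp km v v') ^ θ
        = (t v * t v') * (jv k0 kp km v v') ^ θ * (z ^ (Nat.dist v v') * (x v * y v') ^ ρ) := by
          ring
      _ ≤ 1 * 1 * (z ^ (Nat.dist v v') * (x v * y v') ^ ρ) := by
          apply mul_le_mul_of_nonneg_right _ h3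
          exact mul_le_mul h2 h1 (Real.rpow_nonneg h0 _) (by norm_num)
      _ = _ := by ring
  calc ∑ v' ∈ s, t v * t v' * z ^ (Nat.dist v v') * (x v * y v') ^ ρ * (jv k0 kp km v v') ^ θ
      ≤ ∑ v' ∈ s, z ^ (Nat.dist v v') * (x v * y v') ^ ρ := sum_le_sum hterm
    _ = (x v * y v) ^ ρ + ∑ v' ∈ s.filter (· ≠ v), z ^ (Nat.dist v v') * (x v * y v') ^ ρ := by
        rw [← add_sum_erase s _ hv]
        congr 1
        · rw [Nat.dist_self, pow_zero, one_mul]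
        · have : s.filter (· ≠ v) = s.erase v := by
            ext a; simp only [mem_filter, mem_erase]; tauto
          rw [this]

/-- crude bound for the finitely many small primes -/
lemma mc_crude {ρ z : ℝ} (hρ : 1/2 ≤ ρ) (hz : 0 ≤ z) (hz1 : z < 1) {x y : ℕ → ℝ}
    (hx : ∀ v, 0 ≤ x v) (hy : ∀ v, 0 ≤ y v) (s : Finset ℕ) (hx1 : ∑ v ∈ s, x v = 1)
    (hy1 : ∑ v ∈ s, y v = 1) : diag ρ s x y + cross ρ z s s x y ≤ 2 / (1 - z) := by
  have hgeo : ∀ v, ∑ v' ∈ s, z ^ (Nat.dist v v') ≤ 2 / (1 - z) := by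
    intro v
    have h1 : ∀ u : Finset ℕ, ∑ j ∈ u, z ^ j ≤ 1 / (1 - z) := by
      intro u
      calc ∑ j ∈ u, z ^ j ≤ ∑' j, z ^ j :=
            (summable_geometric_of_lt_one hz hz1).sum_le_tsum _ (fun j _ => pow_nonneg hz j)
        _ = 1 / (1 - z) := by rw [tsum_geometric_of_lt_one hz hz1, one_div]
    have e : s = s.filter (fun v' => v ≤ v') ∪ s.filter (fun v' => v' < v) := by
      ext a; simp only [mem_union, mem_filter]
      constructor
      · intro h; rcases le_or_gt v a with h' | h'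
        · exact Or.inl ⟨h, h'⟩
        · exact Or.inr ⟨h, h'⟩
      · rintro (h | h) <;> exact h.1
    have hd : Disjoint (s.filter (fun v' => v ≤ v')) (s.filter (fun v' => v' < v)) := by
      rw [disjoint_left]; intro a ha hb
      rw [mem_filter] at ha hb; omega
    rw [e, sum_union hd]
    have a1 : ∑ v' ∈ s.filter (fun v' => v ≤ v'), z ^ (Nat.dist v v') ≤ 1 / (1 - z) := by
      refine le_trans (le_of_eq ?_) (h1 ((s.filter (fun v' => v ≤ v')).image (fun v' => v' - v)))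
      rw [sum_image]
      · apply sum_congr rfl; intro a ha; rw [mem_filter] at ha
        rw [Nat.dist_eq_sub_of_le ha.2]
      · intro a ha b hb hab
        rw [mem_coe, mem_filter] at ha hb
        simp only at hab; omega
    have a2 : ∑ v' ∈ s.filter (fun v' => v' < v), z ^ (Nat.dist v v') ≤ 1 / (1 - z) := by
      refine le_trans (le_of_eq ?_) (h1 ((s.filter (fun v' => v' < v)).image (fun v' => v - v')))
      rw [sum_image]
      · apply sum_congr rfl; intro a ha; rw [mem_filter] at ha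
        rw [Nat.dist_eq_sub_of_le_right ha.2.le]
      · intro a ha b hb hab
        rw [mem_coe, mem_filter] at ha hb
        simp only at hab; omega
    calc _ ≤ 1 / (1 - z) + 1 / (1 - z) := add_le_add a1 a2
      _ = 2 / (1 - z) := by ring
  have e0 : diag ρ s x y + cross ρ z s s x y =
      ∑ v ∈ s, ∑ v' ∈ s, z ^ (Nat.dist v v') * (x v * y v') ^ ρ := by
    unfold Multix251.diag cross
    rw [← sum_add_distrib]
    apply sum_congr rfl; intro v hv
    rw [← add_sum_erase s (fun v' => z ^ (Nat.dist v v') * (x v * y v') ^ ρ) hv]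
    congr 1
    · rw [Nat.dist_self, pow_zero, one_mul]
    · have : s.filter (· ≠ v) = s.erase v := by
        ext a; simp only [mem_filter, mem_erase]; tauto
      rw [this]
  have sx := pow_sum_one hρ s x hx hx1
  have sy := pow_sum_one hρ s y hy hy1
  have hz2 : 0 < 1 - z := by linarith
  have hc : 0 ≤ 2 / (1 - z) := by positivity
  rw [e0]
  calc ∑ v ∈ s, ∑ v' ∈ s, z ^ (Nat.dist v v') * (x v * y v') ^ ρ
      ≤ ∑ v ∈ s, ∑ v' ∈ s, (z ^ (Nat.dist v v') * (x v ^ (2 * ρ) / 2) +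
          z ^ (Nat.dist v v') * (y v' ^ (2 * ρ) / 2)) := by
        apply sum_le_sum; intro v _; apply sum_le_sum; intro v' _
        rw [← mul_add]
        apply mul_le_mul_of_nonneg_left _ (pow_nonneg hz _)
        have := amgm (κ := ρ) (hx v) (hy v')
        linarith
    _ = ∑ v ∈ s, (∑ v' ∈ s, z ^ (Nat.dist v v')) * (x v ^ (2 * ρ) / 2) +
          ∑ v' ∈ s, (∑ v ∈ s, z ^ (Nat.dist v' v)) * (y v' ^ (2 * ρ) / 2) := by
        simp_rw [sum_add_distrib, sum_mul]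
        congr 1
        rw [sum_comm]
        apply sum_congr rfl; intro v' _; apply sum_congr rfl; intro v _
        rw [Nat.dist_comm]
    _ ≤ ∑ v ∈ s, (2 / (1 - z)) * (x v ^ (2 * ρ) / 2) +
          ∑ v' ∈ s, (2 / (1 - z)) * (y v' ^ (2 * ρ) / 2) := by
        apply add_le_add
        · apply sum_le_sum; intro v _
          apply mul_le_mul_of_nonneg_right (hgeo v)
          have := Real.rpow_nonneg (hx v) (2 * ρ); positivity
        · apply sum_le_sum; intro v _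
          apply mul_le_mul_of_nonneg_right (hgeo v)
          have := Real.rpow_nonneg (hy v) (2 * ρ); positivity
    _ = (2 / (1 - z)) * ((∑ v ∈ s, x v ^ (2 * ρ) + ∑ v ∈ s, y v ^ (2 * ρ)) / 2) := by
        rw [← mul_sum, ← mul_sum, ← sum_div, ← sum_div]; ring
    _ ≤ (2 / (1 - z)) * 1 := mul_le_mul_of_nonneg_left (by linarith) hc
    _ = _ := mul_one _

end Crest.Agent.R4C.Corex251
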