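import Mathlib

/-! Schur test with future weights (row 4, note 2699 (4), helper232).

Kernels `K k` (levels `k < n`), symmetric and nonnegative, on a finite set `B` of items with
weights `ν`; `c k b ∈ [0,1]`, `Sf c n k b = Σ_{k<j<n} c j b` = future activity.
If `Σ_{b'} K k b b' ν b' exp (θ Sf k b') ≤ C c k b` for all levels and items, then
`Σ_k Σ_{b,b'} ν b ν b' K k b b' f b f b' ≤ C (exp θ/θ) Σ ν f²`. -/

set_option autoImplicit false

open Finset Real

namespace Crest.Agent.R4C.Schurx232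

variable {ι : Type*}

/-- future activity -/
noncomputable def Sf (c : ℕ → ι → ℝ) (n k : ℕ) (b : ι) : ℝ := ∑ j ∈ Finset.Ico (k+1) n, c j b

theorem Sf_step (c : ℕ → ι → ℝ) (n k : ℕ) (b : ι) (hk : k + 1 < n) :
    Sf c n k b = c (k+1) b + Sf c n (k+1) b := by
  unfold Sf
  rw [Finset.sum_eq_sum_Ico_succ_bot (by omega : k + 1 < n)]

/-- one step inequality -/
theorem step_le {θ a S : ℝ} (hθ : 0 < θ) (ha : 0 ≤ a) (ha1 : a ≤ 1) :
    a * exp (-(θ * S)) ≤ (exp θ / θ) * (exp (-(θ * S)) - exp (-(θ * (a + S)))) := by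
  have h1 : exp (-(θ * (a + S))) = exp (-(θ * a)) * exp (-(θ * S)) := by
    rw [← exp_add]; ring_nf
  rw [h1]
  have h2 : 0 < exp (-(θ * S)) := exp_pos _
  have h3 : θ * a * exp (-(θ * a)) ≤ 1 - exp (-(θ * a)) := by
    have h4 : θ * a + 1 ≤ exp (θ * a) := add_one_le_exp _
    have h5 : exp (-(θ * a)) * exp (θ * a) = 1 := by rw [← exp_add]; simp
    have h6 : 0 < exp (-(θ * a)) := exp_pos _
    nlinarith [mul_le_mul_of_nonneg_left h4 h6.le]
  have h7 : exp (-θ) ≤ exp (-(θ * a)) := by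
    apply exp_le_exp.mpr; nlinarith
  have h8 : θ * a * exp (-θ) ≤ 1 - exp (-(θ * a)) :=
    le_trans (mul_le_mul_of_nonneg_left h7 (by positivity)) h3
  have h9 : exp θ * exp (-θ) = 1 := by rw [← exp_add]; simp
  have h10 : a ≤ (exp θ / θ) * (1 - exp (-(θ * a))) := by
    rw [div_mul_eq_mul_div, le_div_iff₀ hθ]
    calc a * θ = exp θ * (θ * a * exp (-θ)) := by
          rw [show exp θ * (θ * a * exp (-θ)) = θ * a * (exp θ * exp (-θ)) by ring, h9]; ring
      _ ≤ exp θ * (1 - exp (-(θ * a))) := mul_le_mul_of_nonneg_left h8 (exp_pos _).le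
  calc a * exp (-(θ * S)) ≤ (exp θ / θ) * (1 - exp (-(θ * a))) * exp (-(θ * S)) :=
        mul_le_mul_of_nonneg_right h10 h2.le
    _ = _ := by ring

theorem sum_le_aux (c : ℕ → ι → ℝ) (b : ι) {θ : ℝ} (hθ : 0 < θ)
    (hc0 : ∀ k, 0 ≤ c k b) (hc1 : ∀ k, c k b ≤ 1) (n : ℕ) :
    ∑ k ∈ range n, c k b * exp (-(θ * Sf c n k b)) ≤
      (exp θ / θ) * (1 - exp (-(θ * ∑ k ∈ range n, c k b))) := by
  induction n with
  | zero => simp
  | succ n ih =>
    have key : ∀ k ∈ range n, c k b * exp (-(θ * Sf c (n+1) k b)) =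
        exp (-(θ * c n b)) * (c k b * exp (-(θ * Sf c n k b))) := by
      intro k hk
      have hk' : k < n := mem_range.mp hk
      have : Sf c (n+1) k b = Sf c n k b + c n b := by
        unfold Sf
        rw [Finset.sum_Ico_succ_top (by omega : k + 1 ≤ n)]
      rw [this, show -(θ * (Sf c n k b + c n b)) = -(θ * Sf c n k b) + -(θ * c n b) by ring,
        exp_add]
      ring
    rw [Finset.sum_range_succ, Finset.sum_congr rfl key, ← Finset.mul_sum, Finset.sum_range_succ]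
    have h0 : Sf c (n+1) n b = 0 := by
      unfold Sf; simp
    rw [h0]
    have hs := step_le (a := c n b) (S := 0) hθ (hc0 n) (hc1 n)
    simp only [mul_zero, neg_zero, exp_zero, add_zero, mul_one] at hs ⊢
    have he : exp (-(θ * (∑ x ∈ range n, c x b + c n b))) =
        exp (-(θ * c n b)) * exp (-(θ * ∑ x ∈ range n, c x b)) := by
      rw [← exp_add]; ring_nf
    rw [he]
    have := mul_le_mul_of_nonneg_left ih (exp_pos (-(θ * c n b))).le
    calc exp (-(θ * c n b)) * ∑ k ∈ range n, c k b * exp (-(θ * Sf c n k b)) + c n b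
        ≤ exp (-(θ * c n b)) * (exp θ / θ * (1 - exp (-(θ * ∑ k ∈ range n, c k b))))
          + exp θ / θ * (1 - exp (-(θ * c n b))) := add_le_add this hs
      _ = _ := by ring

theorem sum_le (c : ℕ → ι → ℝ) (b : ι) {θ : ℝ} (hθ : 0 < θ)
    (hc0 : ∀ k, 0 ≤ c k b) (hc1 : ∀ k, c k b ≤ 1) (n : ℕ) :
    ∑ k ∈ range n, c k b * exp (-(θ * Sf c n k b)) ≤ exp θ / θ := by
  refine (sum_le_aux c b hθ hc0 hc1 n).trans ?_
  have h1 : 0 < exp θ / θ := div_pos (exp_pos _) hθ
  have h2 : 0 < exp (-(θ * ∑ k ∈ range n, c k b)) := exp_pos _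
  nlinarith

/-- SCHUR TEST WITH FUTURE WEIGHTS. -/
theorem schur_future (B : Finset ι) (n : ℕ) (K : ℕ → ι → ι → ℝ) (c : ℕ → ι → ℝ)
    (ν f : ι → ℝ) {θ C : ℝ} (hθ : 0 < θ) (hC : 0 ≤ C)
    (hK : ∀ k, ∀ b ∈ B, ∀ b' ∈ B, 0 ≤ K k b b')
    (hsym : ∀ k, ∀ b ∈ B, ∀ b' ∈ B, K k b b' = K k b' b)
    (hν : ∀ b ∈ B, 0 ≤ ν b)
    (hc0 : ∀ k, ∀ b ∈ B, 0 ≤ c k b) (hc1 : ∀ k, ∀ b ∈ B, c k b ≤ 1)
    (hrow : ∀ k < n, ∀ b ∈ B,
      ∑ b' ∈ B, K k b b' * ν b' * exp (θ * Sf c n k b') ≤ C * c k b) :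
    ∑ k ∈ range n, ∑ b ∈ B, ∑ b' ∈ B, ν b * ν b' * K k b b' * (f b * f b') ≤
      C * (exp θ / θ) * ∑ b ∈ B, ν b * f b ^ 2 := by
  -- level bound
  have hlev : ∀ k ∈ range n, ∑ b ∈ B, ∑ b' ∈ B, ν b * ν b' * K k b b' * (f b * f b') ≤
      ∑ b ∈ B, C * (ν b * f b ^ 2) * (c k b * exp (-(θ * Sf c n k b))) := by
    intro k hk
    have hk' : k < n := mem_range.mp hk
    set L : ι → ι → ℝ := fun b b' => exp (θ * Sf c n k b') * exp (-(θ * Sf c n k b)) with hL
    have hpt : ∀ b ∈ B, ∀ b' ∈ B, ν b * ν b' * K k b b' * (f b * f b') ≤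
        (1/2) * (ν b * ν b' * K k b b' * (L b b' * f b ^ 2)) +
        (1/2) * (ν b' * ν b * K k b' b * (L b' b * f b' ^ 2)) := by
      intro b hb b' hb'
      rw [hsym k b' hb' b hb]
      have hw : 0 ≤ ν b * ν b' * K k b b' :=
        mul_nonneg (mul_nonneg (hν b hb) (hν b' hb')) (hK k b hb b' hb')
      have hLL : L b b' * L b' b = 1 := by
        simp only [hL]
        rw [show exp (θ * Sf c n k b') * exp (-(θ * Sf c n k b)) *
          (exp (θ * Sf c n k b) * exp (-(θ * Sf c n k b'))) =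
          (exp (θ * Sf c n k b') * exp (-(θ * Sf c n k b'))) *
          (exp (θ * Sf c n k b) * exp (-(θ * Sf c n k b))) by ring]
        rw [← exp_add, ← exp_add]; simp
      have hL0 : 0 < L b b' := by simp only [hL]; positivity
      have hin : 2 * (f b * f b') ≤ L b b' * f b ^ 2 + L b' b * f b' ^ 2 := by
        have h3 : 0 ≤ (L b b' * f b - f b') ^ 2 := sq_nonneg _
        have h4 : L b b' * (L b b' * f b ^ 2 + L b' b * f b' ^ 2 - 2 * (f b * f b')) =
            (L b b' * f b - f b') ^ 2 + (L b b' * L b' b - 1) * f b' ^ 2 := by ring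
        rw [hLL] at h4
        have h5 : 0 ≤ L b b' * (L b b' * f b ^ 2 + L b' b * f b' ^ 2 - 2 * (f b * f b')) := by
          rw [h4]; simpa using h3
        have h6 := nonneg_of_mul_nonneg_right h5 hL0
        linarith
      nlinarith [mul_le_mul_of_nonneg_left hin hw]
    calc ∑ b ∈ B, ∑ b' ∈ B, ν b * ν b' * K k b b' * (f b * f b')
        ≤ ∑ b ∈ B, ∑ b' ∈ B, ((1/2) * (ν b * ν b' * K k b b' * (L b b' * f b ^ 2)) +
          (1/2) * (ν b' * ν b * K k b' b * (L b' b * f b' ^ 2))) :=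
          Finset.sum_le_sum fun b hb => Finset.sum_le_sum fun b' hb' => hpt b hb b' hb'
      _ = ∑ b ∈ B, ∑ b' ∈ B, ν b * ν b' * K k b b' * (L b b' * f b ^ 2) := by
          simp only [Finset.sum_add_distrib]
          rw [Finset.sum_comm (f := fun b b' => (1/2 : ℝ) * (ν b' * ν b * K k b' b * (L b' b * f b' ^ 2)))]
          simp only [← Finset.mul_sum]
          ring
      _ = ∑ b ∈ B, (ν b * f b ^ 2) * exp (-(θ * Sf c n k b)) *
            ∑ b' ∈ B, K k b b' * ν b' * exp (θ * Sf c n k b') := by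
          refine Finset.sum_congr rfl fun b _ => ?_
          rw [Finset.mul_sum]
          refine Finset.sum_congr rfl fun b' _ => ?_
          simp only [hL]; ring
      _ ≤ ∑ b ∈ B, (ν b * f b ^ 2) * exp (-(θ * Sf c n k b)) * (C * c k b) := by
          refine Finset.sum_le_sum fun b hb => ?_
          refine mul_le_mul_of_nonneg_left (hrow k hk' b hb) ?_
          exact mul_nonneg (mul_nonneg (hν b hb) (sq_nonneg _)) (exp_pos _).le
      _ = _ := by
          refine Finset.sum_congr rfl fun b _ => ?_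
          ring
  calc ∑ k ∈ range n, ∑ b ∈ B, ∑ b' ∈ B, ν b * ν b' * K k b b' * (f b * f b')
      ≤ ∑ k ∈ range n, ∑ b ∈ B, C * (ν b * f b ^ 2) * (c k b * exp (-(θ * Sf c n k b))) :=
        Finset.sum_le_sum hlev
    _ = ∑ b ∈ B, C * (ν b * f b ^ 2) * ∑ k ∈ range n, c k b * exp (-(θ * Sf c n k b)) := by
        rw [Finset.sum_comm]
        refine Finset.sum_congr rfl fun b _ => ?_
        rw [Finset.mul_sum]
    _ ≤ ∑ b ∈ B, C * (ν b * f b ^ 2) * (exp θ / θ) := by
        refine Finset.sum_le_sum fun b hb => ?_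
        refine mul_le_mul_of_nonneg_left ?_ (mul_nonneg hC (mul_nonneg (hν b hb) (sq_nonneg _)))
        exact sum_le (fun k (_ : ι) => c k b) b hθ (fun k => hc0 k b hb) (fun k => hc1 k b hb) n
    _ = _ := by
        rw [Finset.mul_sum]
        refine Finset.sum_congr rfl fun b _ => ?_
        ring

end Crest.Agent.R4C.Schurx232
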