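import Crest.Agent.R4C.Shared_11

/-!
# Row 4, S6: CASE B at the largest aligned prime, with the big twist exit (helper11)

* `norm_of_dep_le` : depth at the scale used `≤ cut m` => normal member;
* `TwB` : the big twist exit of 22's lemma TW: one member is at the reference scale, the other one
  uses the same point with depth `> E m ^ 4`;
* **`caseB`** : at an aligned prime with `m = ms`: not good at `cut m` | `TwB` | `ShB`, where
  `ShB` = both members normal with depth `≤ E m ^ 4`, and no explained prime `≤ cut m` or `ShPair`;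
* `not_pure_of_caseB` : no explained prime `≤ cut m`, `g E m < 2^m L` => not pure above `cut m`.
-/

set_option autoImplicit false

namespace Crest.Agent.R4C.Shared2x11

open Crest.Agent.R4C.FLDefx935 Crest.Agent.R4C.BoostCx972 Crest.Agent.R4C.CrCoinx935
  Crest.Agent.R4C.S7cx14 Crest.Agent.R4C.S7dx14 Crest.Agent.R4C.Cutx50
  Crest.Agent.R4C.Rulex945 Crest.Agent.R4C.Sharedx11 Crest.Agent.R4C.PairRx14

variable {M : ℕ} {F : FL M} {P : Par}

/-- depth at the scale used `≤ cut m` => normal member -/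
lemma norm_of_dep_le (hM : 0 < M) (hcut : Monotone P.cut) {m md d : ℕ} {f : ℚ} (hd : d ∣ M)
    (hm : m ≤ md) (h : dep F P md d f ≤ P.cut m) : Norm F P m md d f := by
  by_contra hn
  have := (lt_dep_of_not_norm hM hcut hd hm hn).1
  linarith

/-- for a normal member the depth at the reference scale is the depth at the scale used or `f` is
the tree centre at the reference scale -/
lemma dep_le_of_norm (hcut : Monotone P.cut) {m md d : ℕ} {f : ℚ} (hm : m ≤ md) :
    dep F P m d f ≤ dep F P md d f := by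
  unfold dep
  refine mul_le_mul_of_nonneg_right ?_ (zero_le_one.trans (le_max_left _ _))
  have h1 := k0_mono (F := F) (b := d) (hcut hm) f
  exact_mod_cast Nat.le_of_dvd (k0_pos _ d f) h1

/-- **big twist exit**: `(b, f)` at the scale used `mb` has depth `> E m ^ 4`, `c` has its tree
centre at the reference scale `m` -/
def TwB (F : FL M) (P : Par) (m mb b c s s' : ℕ) (h : ℤ) (f f' : ℚ) : Prop :=
  m ≤ mb ∧ TC F P mb b f ∧ TC F P m c f' ∧ BoostCx972.gap f f' s s' h = 0 ∧
    P.E m ^ 4 < dep F P mb b f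

/-- **the symmetric case** -/
def ShB (F : FL M) (P : Par) (m mb mc g s s' : ℕ) (h : ℤ) (f f' : ℚ) : Prop :=
  m ≤ mb ∧ m ≤ mc ∧ TC F P mb (g * s) f ∧ TC F P mc (g * s') f' ∧
    BoostCx972.gap f f' s s' h = 0 ∧
    F.good (P.cut m) (g * s) (g * s') ∧ Norm F P m mb (g * s) f ∧ Norm F P m mc (g * s') f' ∧
    dep F P mb (g * s) f ≤ P.E m ^ 4 ∧ dep F P mc (g * s') f' ≤ P.E m ^ 4 ∧
    (TC F P m (g * s) f ∨ TC F P m (g * s') f') ∧
    (NoEx (P.cut m) (g * s) (g * s') f f' ∨ ∃ q, ShPair F P m mb mc g s s' h f f' q)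

/-- **CASE B** -/
theorem caseB (hL : 0 < P.L) (hM : 0 < M) (hN : (M : ℝ) / P.L ≤ P.N)
    (hE : ∀ m, P.m0 ≤ m → 2 * P.E m ^ 3 < 2 ^ m) (hcut : Monotone P.cut)
    (hact : ∀ m p, p ≤ P.cut m → P.Y (P.blk p) ≤ P.cut m)
    (hEc : ∀ m, P.m0 ≤ m → P.E m ^ 4 ≤ P.cut m)
    {g s s' p : ℕ} {f f' : ℚ} {h : ℤ} (hb : g * s ∣ M) (hc : g * s' ∣ M)
    (hcop : Nat.Coprime s s') (ha : Al F P (g * s) (g * s') s s' h p f f')
    (hk : ¬ killedL (lamR F P) (g * s) (g * s') s s' h) {m : ℕ}
    (hms : m = ms F P (g * s) (g * s') p) :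
    ¬ F.good (P.cut m) (g * s) (g * s') ∨
    TwB F P m (mst F P (g * s) p) (g * s) (g * s') s s' h f f' ∨
    TwB F P m (mst F P (g * s') p) (g * s') (g * s) s' s (-h) f' f ∨
    ShB F P m (mst F P (g * s) p) (mst F P (g * s') p) g s s' h f f' := by
  classical
  obtain ⟨a1, _, a3, _⟩ := Fc_spec ha.used
  obtain ⟨b1, _, b3, _⟩ := Fc_spec ha.used'
  have hmb : m ≤ mst F P (g * s) p := hms ▸ min_le_left _ _
  have hmc : m ≤ mst F P (g * s') p := hms ▸ min_le_right _ _
  have hm0 : P.m0 ≤ m := hms ▸ le_min a1 b1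
  have hch : m = mst F P (g * s) p ∨ m = mst F P (g * s') p := by
    rw [hms]
    exact min_choice _ _
  -- one member is at the reference scale, its depth is at most `E m ^ 2`
  have hsmall : ∀ {d : ℕ} {u : ℚ}, TC F P m d u → dep F P m d u ≤ P.E m ^ 4 := by
    intro d u hT
    have h1 := hT.dep_le hL
    have h2 : 1 ≤ P.E m := (k0_pos' (F := F) (P := P) m d u).trans hT.den
    exact h1.trans (pow_le_pow_right₀ h2 (by norm_num))
  by_cases hx : F.good (P.cut m) (g * s) (g * s')
  swap
  · exact Or.inl hx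
  by_cases h1 : dep F P (mst F P (g * s) p) (g * s) f ≤ P.E m ^ 4
  · by_cases h2 : dep F P (mst F P (g * s') p) (g * s') f' ≤ P.E m ^ 4
    · have nb := norm_of_dep_le (F := F) hM hcut hb hmb (h1.trans (hEc m hm0))
      have nc := norm_of_dep_le (F := F) hM hcut hc hmc (h2.trans (hEc m hm0))
      refine Or.inr (Or.inr (Or.inr ⟨hmb, hmc, a3, b3, ha.pt, hx, nb, nc, h1, h2, ?_,
        split_same hL hM hN hE hcut (hact m) hb hc hm0 hmb hmc a3 b3 nb nc hcop ha.pt hk⟩))
      rcases hch with e | e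
      · left
        have := a3
        rwa [← e] at this
      · right
        have := b3
        rwa [← e] at this
    · -- `c` is deep, so `b` is at the reference scale
      have e : m = mst F P (g * s) p := by
        rcases hch with e | e
        · exact e
        · exfalso
          rw [← e] at h2 b3
          exact h2 (hsmall b3)
      have a3' := a3
      rw [← e] at a3'
      exact Or.inr (Or.inr (Or.inl ⟨hmc, b3, a3', gap_symm ha.pt, not_le.1 h2⟩))
  · have e : m = mst F P (g * s') p := by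
      rcases hch with e | e
      · exfalso
        rw [← e] at h1 a3
        exact h1 (hsmall a3)
      · exact e
    have b3' := b3
    rw [← e] at b3'
    exact Or.inr (Or.inl ⟨hmb, a3, b3', ha.pt, not_le.1 h1⟩)

/-- no explained prime `≤ cut m` and `g E m < 2^m L` : the pair is not pure above `cut m` -/
theorem not_pure_of_caseB (hM : 0 < M) {g s s' m mb mc : ℕ} {f f' : ℚ} {h : ℤ} (hb : g * s ∣ M)
    (hc : g * s' ∣ M) (hcop : Nat.Coprime s s') (hB : ShB F P m mb mc g s s' h f f')
    (hn : NoEx (P.cut m) (g * s) (g * s') f f') (hT : (g : ℝ) * P.E m < 2 ^ m * P.L) :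
    ¬ (F.ell (P.cut m) (g * s) = 1 ∧ F.ell (P.cut m) (g * s') = 1) := by
  obtain ⟨_, _, _, _, h0, hx, _, _, _, _, hT', _⟩ := hB
  rintro ⟨h1, h2⟩
  rcases hT' with h3 | h3
  · have := scale_of_pure hM hb hc hcop h0 h3 hx h2 hn
    linarith
  · have := scale_of_pure hM hc hb hcop.symm (gap_symm h0) h3 (FL.good_symm hb hc hx) h1 hn.symm
    linarith

end Crest.Agent.R4C.Shared2x11
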