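import Crest.Agent.R4C.CrCoin_935

/-!
# Row 4: the square-root label (helper693), 590's note 2132, Lemma (I) + (II)

All for an arbitrary real `θ` (rational or not) and arbitrary integers (no squarefreeness).

* `nn θ x = |x θ - round (x θ)|` (distance of `x θ` to the nearest integer);
* `Best θ d` : `d` is a strict best approximation denominator;
* `lev θ N`  : the largest `Best` denominator `≤ N` (= convergent of size `N`);
* `sep_best` : `Best θ D → 0 < x < D → 1/(2D) ≤ |x θ - k|`;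
* `count_sep`: separated counting;
* `exact_of_small` : **(I)** `d Δ ≤ 1/2`, `|s-s'| |dθ-a| < 1/2`, `|(s-s')θ+h| < Δ` ⟹
  `(s-s') a + h d = 0`;
* `kill_s`, `kill_s'` : then every prime of `s` (`s'`) kills, when the label of `q'` (`q`) is the
  class `a + d c ≡ 0 (mod p)` of the SAME fraction `a/d`; `cop_s`, `cop_s'`: such a prime does not
  divide `d`;
* `count_II` : **(II)** all other linked `s' ∈ [S,2S)`: at most `84 Δ S`, all levels together.
-/

set_option autoImplicit false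

namespace Crest.Agent.R4C.Sqrtx693

/-- distance of `x θ` to the nearest integer -/
noncomputable def nn (θ : ℝ) (x : ℕ) : ℝ := |(x : ℝ) * θ - round ((x : ℝ) * θ)|

lemma nn_nonneg (θ : ℝ) (x : ℕ) : 0 ≤ nn θ x := abs_nonneg _

lemma nn_le (θ : ℝ) (x : ℕ) (k : ℤ) : nn θ x ≤ |(x : ℝ) * θ - k| := round_le _ _

/-- integer version: differences -/
lemma nn_le_sub (θ : ℝ) {x y : ℕ} (h : x ≤ y) (k : ℤ) : nn θ (y - x) ≤ |((x : ℝ) - y) * θ + k| := by
  have h1 := nn_le θ (y - x) k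
  rw [Nat.cast_sub h] at h1
  refine h1.trans (le_of_eq ?_)
  rw [← abs_neg]
  congr 1
  ring

/-- strict best approximation denominator -/
def Best (θ : ℝ) (d : ℕ) : Prop := 0 < d ∧ ∀ x : ℕ, 0 < x → x < d → nn θ d < nn θ x

lemma best_one (θ : ℝ) : Best θ 1 := ⟨one_pos, fun x hx hx' => by omega⟩

/-- existence of the level of size `N` -/
lemma exists_lev (θ : ℝ) {N : ℕ} (hN : 1 ≤ N) :
    ∃ d : ℕ, Best θ d ∧ d ≤ N ∧ ∀ x : ℕ, 0 < x → x ≤ N → nn θ d ≤ nn θ x := by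
  classical
  obtain ⟨d₀, hd₀, hmin⟩ := Finset.exists_min_image (Finset.Icc 1 N) (fun x => nn θ x)
    ⟨1, Finset.mem_Icc.2 ⟨le_rfl, hN⟩⟩
  have hex : ∃ d : ℕ, 0 < d ∧ d ≤ N ∧ ∀ x : ℕ, 0 < x → x ≤ N → nn θ d ≤ nn θ x :=
    ⟨d₀, (Finset.mem_Icc.1 hd₀).1, (Finset.mem_Icc.1 hd₀).2,
      fun x h1 h2 => hmin x (Finset.mem_Icc.2 ⟨h1, h2⟩)⟩
  obtain ⟨h1, h2, h3⟩ := Nat.find_spec hex
  refine ⟨Nat.find hex, ⟨h1, fun x hx hx' => ?_⟩, h2, h3⟩
  by_contra hc
  push Not at hc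
  exact Nat.find_min hex hx' ⟨hx, hx'.le.trans h2, fun y hy hy' => hc.trans (h3 y hy hy')⟩

open Classical in
/-- the level (convergent denominator) of size `N` -/
noncomputable def lev (θ : ℝ) (N : ℕ) : ℕ :=
  if h : 1 ≤ N then Classical.choose (exists_lev θ h) else 1

lemma lev_best (θ : ℝ) (N : ℕ) : Best θ (lev θ N) := by
  unfold lev
  split_ifs with h
  · exact (Classical.choose_spec (exists_lev θ h)).1
  · exact best_one θ

lemma lev_pos (θ : ℝ) (N : ℕ) : 0 < lev θ N := (lev_best θ N).1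

lemma lev_le (θ : ℝ) {N : ℕ} (hN : 1 ≤ N) : lev θ N ≤ N := by
  unfold lev
  rw [dif_pos hN]
  exact (Classical.choose_spec (exists_lev θ hN)).2.1

lemma lev_min (θ : ℝ) {N x : ℕ} (hx : 0 < x) (hxN : x ≤ N) : nn θ (lev θ N) ≤ nn θ x := by
  have hN : 1 ≤ N := hx.trans_le hxN
  unfold lev
  rw [dif_pos hN]
  exact (Classical.choose_spec (exists_lev θ hN)).2.2 x hx hxN

lemma lev_mono (θ : ℝ) {N N' : ℕ} (hN : 1 ≤ N) (h : N ≤ N') : lev θ N ≤ lev θ N' := by
  by_contra hc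
  push Not at hc
  have h1 := (lev_best θ N).2 _ (lev_pos θ N') hc
  have h2 := lev_min θ (lev_pos θ N) ((lev_le θ hN).trans h)
  linarith

/-- the numerator of the level -/
noncomputable def num (θ : ℝ) (d : ℕ) : ℤ := round ((d : ℝ) * θ)

lemma abs_num (θ : ℝ) (d : ℕ) : |(d : ℝ) * θ - num θ d| = nn θ d := rfl

/-- a best approximation is in lowest terms -/
lemma Best.coprime {θ : ℝ} {d : ℕ} (hd : Best θ d) : IsCoprime (num θ d) (d : ℤ) := by
  rw [Int.isCoprime_iff_gcd_eq_one]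
  by_contra hc
  set f : ℕ := Int.gcd (num θ d) d with hf
  have hd0 : 0 < d := hd.1
  have hf0 : 0 < f := by
    rw [hf]
    exact Int.gcd_pos_of_ne_zero_right _ (by exact_mod_cast hd0.ne')
  have hf2 : 2 ≤ f := by omega
  obtain ⟨k, hk⟩ : (f : ℤ) ∣ num θ d := Int.gcd_dvd_left ..
  obtain ⟨e', he'⟩ : (f : ℤ) ∣ (d : ℤ) := Int.gcd_dvd_right ..
  have hfd : f ∣ d := by
    have : (f : ℤ) ∣ (d : ℤ) := ⟨e', he'⟩
    exact_mod_cast this
  obtain ⟨e, he⟩ := hfd
  have he0 : 0 < e := by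
    rcases Nat.eq_zero_or_pos e with h | h
    · rw [h] at he; omega
    · exact h
  have hed : e < d := by
    rw [he]; nlinarith
  have h1 := hd.2 e he0 hed
  have h2 := nn_le θ e k
  have h3 : nn θ d = f * |(e : ℝ) * θ - k| := by
    rw [← abs_num, hk, he]
    push_cast
    rw [← abs_of_pos (show (0 : ℝ) < f by exact_mod_cast hf0), ← abs_mul,
      abs_of_pos (show (0 : ℝ) < f by exact_mod_cast hf0)]
    congr 1
    ring
  have h4 : (2 : ℝ) ≤ f := by exact_mod_cast hf2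
  have h5 : 0 ≤ |(e : ℝ) * θ - k| := abs_nonneg _
  nlinarith

/-- two consecutive best approximations -/
lemma consec {θ : ℝ} {d D : ℕ} (hd : Best θ d) (hdD : d < D)
    (hlt : nn θ D < nn θ d) (hD : Best θ D) : 1 ≤ 2 * (D : ℝ) * nn θ d := by
  have hd0 : (0 : ℝ) < d := by exact_mod_cast hd.1
  have hD0 : (0 : ℝ) < D := by exact_mod_cast hD.1
  have hne : num θ d * D - num θ D * d ≠ 0 := by
    intro h0
    have e1 : (d : ℤ) ∣ num θ d * D := ⟨num θ D, by linear_combination h0⟩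
    have e2 : (d : ℤ) ∣ D := hd.coprime.symm.dvd_of_dvd_mul_left e1
    have e3 : (D : ℤ) ∣ num θ D * d := ⟨num θ d, by linear_combination -h0⟩
    have e4 : (D : ℤ) ∣ d := hD.coprime.symm.dvd_of_dvd_mul_left e3
    have : d = D := Nat.dvd_antisymm (by exact_mod_cast e2) (by exact_mod_cast e4)
    omega
  have h1 : (1 : ℝ) ≤ |((num θ d * D - num θ D * d : ℤ) : ℝ)| := by
    have := Int.one_le_abs hne
    exact_mod_cast this
  have e : ((num θ d * D - num θ D * d : ℤ) : ℝ) =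
      -(D * ((d : ℝ) * θ - num θ d)) + d * ((D : ℝ) * θ - num θ D) := by
    push_cast
    ring
  rw [e] at h1
  have h2 := abs_add_le (-(D * ((d : ℝ) * θ - num θ d))) (d * ((D : ℝ) * θ - num θ D))
  rw [abs_neg, abs_mul, abs_mul, abs_of_pos hd0, abs_of_pos hD0, abs_num, abs_num] at h2
  have h3 : (d : ℝ) ≤ D := by exact_mod_cast hdD.le
  have h4 := nn_nonneg θ D
  have h5 : (d : ℝ) * nn θ D ≤ D * nn θ d := by
    have : (d : ℝ) * nn θ D ≤ D * nn θ D := mul_le_mul_of_nonneg_right h3 h4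
    have : (D : ℝ) * nn θ D ≤ D * nn θ d := mul_le_mul_of_nonneg_left hlt.le hD0.le
    linarith
  linarith

/-- **separation** below a best approximation -/
theorem sep_nn {θ : ℝ} {D : ℕ} (hD : Best θ D) {x : ℕ} (hx : 0 < x) (hxD : x < D) :
    1 / (2 * (D : ℝ)) ≤ nn θ x := by
  have hD0 : (0 : ℝ) < D := by exact_mod_cast hD.1
  have hx1 : x ≤ D - 1 := by omega
  have h1 := lev_min θ hx hx1
  have h2 : lev θ (D - 1) < D := by
    have := lev_le θ (show 1 ≤ D - 1 by omega)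
    omega
  have h3 := consec (lev_best θ (D - 1)) h2 (hD.2 _ (lev_pos θ _) h2) hD
  rw [div_le_iff₀ (by positivity)]
  nlinarith

theorem sep_best {θ : ℝ} {D : ℕ} (hD : Best θ D) {x : ℕ} (hx : 0 < x) (hxD : x < D) (k : ℤ) :
    1 / (2 * (D : ℝ)) ≤ |(x : ℝ) * θ - k| := (sep_nn hD hx hxD).trans (nn_le θ x k)

/-- the next best approximation after `d`, with its Dirichlet bound -/
theorem exists_next {θ : ℝ} {d : ℕ} (hd : Best θ d) (h0 : 0 < nn θ d) :
    ∃ D : ℕ, d < D ∧ Best θ D ∧ (∀ x : ℕ, 0 < x → x < D → nn θ d ≤ nn θ x) ∧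
      nn θ D < nn θ d ∧ (D : ℝ) * nn θ d ≤ 1 := by
  classical
  have key : ∀ n : ℕ, 0 < n → ∃ x : ℕ, 0 < x ∧ x ≤ n ∧ nn θ x ≤ 1 / ((n : ℝ) + 1) := by
    intro n hn
    obtain ⟨j, k, hk0, hkn, hk⟩ := Real.exists_int_int_abs_mul_sub_le θ hn
    refine ⟨k.toNat, by omega, by omega, ?_⟩
    have e : ((k.toNat : ℕ) : ℝ) = (k : ℝ) := by
      have : ((k.toNat : ℕ) : ℤ) = k := Int.toNat_of_nonneg hk0.le
      exact_mod_cast this
    have := nn_le θ k.toNat j
    rw [e] at this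
    exact this.trans hk
  have hex : ∃ D : ℕ, 0 < D ∧ nn θ D < nn θ d := by
    obtain ⟨n, hn⟩ := exists_nat_gt (1 / nn θ d)
    obtain ⟨x, hx, _, hx2⟩ := key (n + 1) (Nat.succ_pos n)
    refine ⟨x, hx, hx2.trans_lt ?_⟩
    rw [div_lt_iff₀ (by positivity)]
    rw [div_lt_iff₀ h0] at hn
    push_cast
    nlinarith
  obtain ⟨h1, h2⟩ := Nat.find_spec hex
  set D := Nat.find hex with hDdef
  have hmin : ∀ x : ℕ, 0 < x → x < D → nn θ d ≤ nn θ x := by
    intro x hx hxD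
    by_contra hc
    push Not at hc
    exact Nat.find_min hex hxD ⟨hx, hc⟩
  have hdD : d < D := by
    by_contra hc
    push Not at hc
    rcases hc.lt_or_eq with h | h
    · exact absurd (hd.2 D h1 h) (not_lt.2 h2.le)
    · rw [h] at h2; exact lt_irrefl _ h2
  refine ⟨D, hdD, ⟨h1, fun x hx hxD => h2.trans_le (hmin x hx hxD)⟩, hmin, h2, ?_⟩
  obtain ⟨x, hx, hxD, hx2⟩ := key (D - 1) (by have := hd.1; omega)
  have h3 := (hmin x hx (by omega)).trans hx2
  have e : ((D - 1 : ℕ) : ℝ) + 1 = D := by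
    have : D - 1 + 1 = D := by omega
    exact_mod_cast this
  rw [e, le_div_iff₀ (by exact_mod_cast h1)] at h3
  linarith

/-! ### separated counting -/

/-- **separated counting**: if the multiples of `θ` below `D` are `1/(2D)`-separated then the number
of `x` in an interval of `N` integers with `x θ` in a given arc of length `2Δ` is at most
`(N/D+1)(4ΔD+1)` -/
theorem count_sep {θ Δ β : ℝ} {D A N : ℕ} (hD : 0 < D) (hΔ : 0 < Δ)
    (hsep : ∀ x : ℕ, 0 < x → x < D → ∀ k : ℤ, 1 / (2 * (D : ℝ)) ≤ |(x : ℝ) * θ - k|)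
    (X : Finset ℕ) (hX : ∀ x ∈ X, A ≤ x ∧ x < A + N ∧ ∃ h : ℤ, |(x : ℝ) * θ - β - h| < Δ) :
    (X.card : ℝ) ≤ ((N : ℝ) / D + 1) * (4 * Δ * D + 1) := by
  classical
  have hD0 : (0 : ℝ) < D := by exact_mod_cast hD
  have hX' : ∀ x ∈ X, ∃ h : ℤ, |(x : ℝ) * θ - β - h| < Δ := fun x hx => (hX x hx).2.2
  choose! H hH using hX'
  set u : ℕ → ℝ := fun x => (x : ℝ) * θ - β - H x with hu
  -- the injection
  set f : ℕ → ℕ × ℤ := fun x => ((x - A) / D, ⌊(u x + Δ) * (2 * D)⌋) with hf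
  have hinj : Set.InjOn f X := by
    intro x hx y hy hxy
    by_contra hne
    rw [hf] at hxy
    simp only [Prod.mk.injEq] at hxy
    obtain ⟨h1, h2⟩ := hxy
    have key : ∀ x ∈ X, ∀ y ∈ X, x < y → (x - A) / D = (y - A) / D →
        ⌊(u x + Δ) * (2 * D)⌋ = ⌊(u y + Δ) * (2 * D)⌋ → False := by
      intro x hx y hy hlt h1 h2
      have hxA := (hX x hx).1
      have hyA := (hX y hy).1
      have h3 : y - x < D := by
        have e1 := Nat.div_add_mod (x - A) D
        have e2 := Nat.div_add_mod (y - A) D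
        have e3 := Nat.mod_lt (y - A) hD
        rw [h1] at e1
        omega
      have h4 := hsep (y - x) (by omega) h3 (H y - H x)
      have e5 : ((y - x : ℕ) : ℝ) * θ - ((H y - H x : ℤ) : ℝ) = u y - u x := by
        rw [hu, Nat.cast_sub hlt.le]
        push_cast
        ring
      rw [e5] at h4
      have h6 : |(u x + Δ) * (2 * D) - (u y + Δ) * (2 * D)| < 1 := Int.abs_sub_lt_one_of_floor_eq_floor h2
      have e7 : (u x + Δ) * (2 * D) - (u y + Δ) * (2 * D) = -((u y - u x) * (2 * D)) := by ring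
      rw [e7, abs_neg, abs_mul, abs_of_pos (show (0 : ℝ) < 2 * D by positivity)] at h6
      rw [div_le_iff₀ (by positivity)] at h4
      linarith
    rcases lt_or_gt_of_ne hne with h | h
    · exact key x hx y hy h h1 h2
    · exact key y hy x hx h h1.symm h2.symm
  have hmaps : ∀ x ∈ X, f x ∈ (Finset.range (N / D + 1)) ×ˢ (Finset.Icc (0 : ℤ) ⌊4 * Δ * D⌋) := by
    intro x hx
    have h1 := hX x hx
    have h2 := hH x hx
    rw [Finset.mem_product, Finset.mem_range, Finset.mem_Icc]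
    have hu1 : -Δ < u x ∧ u x < Δ := abs_lt.1 h2
    refine ⟨?_, ?_, ?_⟩
    · have h9 : (x - A) / D ≤ N / D := Nat.div_le_div_right (by omega)
      exact Nat.lt_succ_of_le h9
    · refine Int.floor_nonneg.2 ?_
      have : 0 ≤ u x + Δ := by linarith
      positivity
    · refine Int.floor_le_floor ?_
      have h3 : u x + Δ ≤ 2 * Δ := by linarith
      have : (u x + Δ) * (2 * D) ≤ (2 * Δ) * (2 * D) := mul_le_mul_of_nonneg_right h3 (by positivity)
      linarith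
  have hcard := Finset.card_le_card_of_injOn f hmaps hinj
  rw [Finset.card_product, Finset.card_range, Int.card_Icc] at hcard
  have h1 : (X.card : ℝ) ≤ ((N / D + 1 : ℕ) : ℝ) * ((⌊4 * Δ * D⌋ + 1 - 0).toNat : ℝ) := by
    exact_mod_cast hcard
  refine h1.trans ?_
  have h2 : ((N / D + 1 : ℕ) : ℝ) ≤ (N : ℝ) / D + 1 := by
    push_cast
    have := @Nat.cast_div_le ℝ _ _ _ N D
    linarith
  have h3 : (((⌊4 * Δ * D⌋ + 1 - 0).toNat : ℕ) : ℝ) ≤ 4 * Δ * D + 1 := by
    have h4 : (0 : ℤ) ≤ ⌊4 * Δ * D⌋ := Int.floor_nonneg.2 (by positivity)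
    have h5 : (((⌊4 * Δ * D⌋ + 1 - 0).toNat : ℕ) : ℝ) = ((⌊4 * Δ * D⌋ + 1 - 0 : ℤ) : ℝ) := by
      have : (((⌊4 * Δ * D⌋ + 1 - 0).toNat : ℕ) : ℤ) = ⌊4 * Δ * D⌋ + 1 - 0 :=
        Int.toNat_of_nonneg (by omega)
      exact_mod_cast this
    rw [h5]
    push_cast
    have := Int.floor_le (4 * Δ * D)
    linarith
  exact mul_le_mul h2 h3 (Nat.cast_nonneg _) (by positivity)

/-! ### (I) -/

/-- **(I)**: the exact relation -/
theorem exact_of_small {θ Δ : ℝ} {d : ℕ} {a h : ℤ} {s s' : ℝ} (hd : 0 < d)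
    (hdΔ : d * Δ ≤ 1 / 2) (hs : |s - s'| * |(d : ℝ) * θ - a| ≤ 1 / 2)
    (hl : |(s - s') * θ + h| < Δ) : |(s - s') * a + h * d| < 1 := by
  have hd0 : (0 : ℝ) < d := by exact_mod_cast hd
  have e : (s - s') * a + h * d = d * ((s - s') * θ + h) - (s - s') * ((d : ℝ) * θ - a) := by ring
  rw [e]
  have h1 := abs_sub (d * ((s - s') * θ + h)) ((s - s') * ((d : ℝ) * θ - a))
  rw [abs_mul, abs_mul, abs_of_pos hd0] at h1
  have h2 : (d : ℝ) * |(s - s') * θ + h| < d * Δ := mul_lt_mul_of_pos_left hl hd0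
  linarith

theorem exact_int {θ Δ : ℝ} {d s s' : ℕ} {a h : ℤ} (hd : 0 < d)
    (hdΔ : d * Δ ≤ 1 / 2) (hs : |(s : ℝ) - s'| * |(d : ℝ) * θ - a| ≤ 1 / 2)
    (hl : |((s : ℝ) - s') * θ + h| < Δ) : ((s : ℤ) - s') * a + h * d = 0 := by
  have h1 := exact_of_small hd hdΔ hs hl
  have h2 : |((s : ℤ) - s') * a + h * d| < 1 := by
    have : |((((s : ℤ) - s') * a + h * d : ℤ) : ℝ)| < 1 := by push_cast; exact h1
    exact_mod_cast this
  exact Int.abs_lt_one_iff.1 h2

/-- primes of `s` do not divide the label's denominator -/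
lemma cop_s {d s s' : ℕ} {a h : ℤ} (hco : IsCoprime a (d : ℤ)) (hss : Nat.Coprime s s')
    (h0 : ((s : ℤ) - s') * a + h * d = 0) {p : ℕ} (hp : p.Prime) (hps : p ∣ s) : ¬ p ∣ d := by
  intro hpd
  have hpp : Prime (p : ℤ) := Nat.prime_iff_prime_int.1 hp
  have h1 : (p : ℤ) ∣ ((s : ℤ) - s') * a := by
    have : (p : ℤ) ∣ h * d := Dvd.dvd.mul_left (by exact_mod_cast hpd) _
    have e : ((s : ℤ) - s') * a = -(h * d) := by linarith
    rw [e]; exact (dvd_neg).2 this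
  rcases hpp.dvd_or_dvd h1 with h2 | h2
  · have h3 : (p : ℤ) ∣ s' := by
      have h4 : (p : ℤ) ∣ s := by exact_mod_cast hps
      have := dvd_sub h4 h2
      simpa using this
    have h5 := Nat.dvd_gcd hps (by exact_mod_cast h3 : p ∣ s')
    rw [hss.gcd_eq_one] at h5
    exact hp.one_lt.ne' (Nat.dvd_one.1 h5)
  · have h3 := hco.isUnit_of_dvd' h2 (by exact_mod_cast hpd)
    exact hpp.not_isUnit h3

lemma cop_s' {d s s' : ℕ} {a h : ℤ} (hco : IsCoprime a (d : ℤ)) (hss : Nat.Coprime s s')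
    (h0 : ((s : ℤ) - s') * a + h * d = 0) {p : ℕ} (hp : p.Prime) (hps : p ∣ s') : ¬ p ∣ d :=
  cop_s (s := s') (s' := s) (h := -h) hco hss.symm (by linear_combination -h0) hp hps

/-- a prime of `s` kills with the label of `q'` (class of the same fraction) -/
theorem kill_s {d s s' : ℕ} {a h c : ℤ} (hco : IsCoprime a (d : ℤ)) (hss : Nat.Coprime s s')
    (h0 : ((s : ℤ) - s') * a + h * d = 0) {p : ℕ} (hp : p.Prime) (hps : p ∣ s)
    (hc : (p : ℤ) ∣ a + d * c) : (p : ℤ) ∣ h + s' * c := by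
  have hpp : Prime (p : ℤ) := Nat.prime_iff_prime_int.1 hp
  have h1 : (p : ℤ) ∣ (d : ℤ) * (h + s' * c) := by
    have e : (d : ℤ) * (h + s' * c) = s' * (a + d * c) - s * a := by linear_combination h0
    rw [e]
    exact dvd_sub (hc.mul_left _) (Dvd.dvd.mul_right (by exact_mod_cast hps) _)
  rcases hpp.dvd_or_dvd h1 with h2 | h2
  · exact absurd (by exact_mod_cast h2) (cop_s hco hss h0 hp hps)
  · exact h2

/-- a prime of `s'` kills with the label of `q` -/
theorem kill_s' {d s s' : ℕ} {a h c : ℤ} (hco : IsCoprime a (d : ℤ)) (hss : Nat.Coprime s s')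
    (h0 : ((s : ℤ) - s') * a + h * d = 0) {p : ℕ} (hp : p.Prime) (hps : p ∣ s')
    (hc : (p : ℤ) ∣ a + d * c) : (p : ℤ) ∣ h - s * c := by
  have h1 := kill_s (s := s') (s' := s) (h := -h) hco hss.symm (by linear_combination -h0) hp hps hc
  have e : h - s * c = -(-h + s * c) := by ring
  rw [e]
  exact (dvd_neg).2 h1

/-- in case (I) with `s = 1`: the pair is the exact ancestor: `d ∣ s' - 1`, `h = a (s'-1)/d` -/
theorem ancestor {d s' : ℕ} {a h : ℤ} (hco : IsCoprime a (d : ℤ))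
    (h0 : ((1 : ℤ) - s') * a + h * d = 0) : ∃ e : ℤ, (s' : ℤ) = 1 + d * e ∧ ∀ _ : 0 < d, h = a * e := by
  have h1 : (d : ℤ) ∣ ((s' : ℤ) - 1) * a := ⟨h, by linear_combination -h0⟩
  obtain ⟨e, he⟩ := hco.symm.dvd_of_dvd_mul_right h1
  refine ⟨e, by linarith, fun hd => ?_⟩
  have hd0 : (d : ℤ) ≠ 0 := by exact_mod_cast hd.ne'
  apply mul_left_cancel₀ hd0
  linear_combination h0 + a * he

/-! ### (II) -/

/-- the size of `q'` seen from the pair: `b'/L = 2 s'/Δ` -/
noncomputable def szN (Δ : ℝ) (x : ℕ) : ℕ := ⌊Real.sqrt (2 * x / Δ)⌋₊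

lemma szN_mono {Δ : ℝ} (hΔ : 0 < Δ) {x y : ℕ} (h : x ≤ y) : szN Δ x ≤ szN Δ y := by
  unfold szN
  refine Nat.floor_le_floor (Real.sqrt_le_sqrt ?_)
  have : (x : ℝ) ≤ y := by exact_mod_cast h
  exact div_le_div_of_nonneg_right (by linarith) hΔ.le

/-- condition (I) for the cofactor `x = s'` at its own level -/
def condI (θ Δ : ℝ) (s x : ℕ) : Prop :=
  (lev θ (szN Δ x) : ℝ) * Δ ≤ 1 / 2 ∧
    |(s : ℝ) - x| * |((lev θ (szN Δ x) : ℕ) : ℝ) * θ - num θ (lev θ (szN Δ x))| ≤ 1 / 2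

open Classical in
/-- the linked cofactors of `[S,2S)` of type (II) -/
noncomputable def typeII (θ Δ : ℝ) (s S : ℕ) : Finset ℕ :=
  (Finset.Ico S (2 * S)).filter (fun x => s ≤ x ∧ ¬ condI θ Δ s x ∧
    ∃ h : ℤ, |((s : ℝ) - x) * θ + h| < Δ)

open Classical in
lemma mem_typeII {θ Δ : ℝ} {s S x : ℕ} : x ∈ typeII θ Δ s S ↔ (S ≤ x ∧ x < 2 * S) ∧ s ≤ x ∧
    ¬ condI θ Δ s x ∧ ∃ h : ℤ, |((s : ℝ) - x) * θ + h| < Δ := by
  unfold typeII
  rw [Finset.mem_filter, Finset.mem_Ico]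

/-- **(II)**, all levels together: at most `84 Δ S` -/
theorem count_II {θ Δ : ℝ} (hΔ : 0 < Δ) {s S : ℕ} (hS : 0 < S) (hsz : Δ ≤ 2 * S) :
    ((typeII θ Δ s S).card : ℝ) ≤ 84 * Δ * S := by
  classical
  have hS0 : (0 : ℝ) < S := by exact_mod_cast hS
  have hsz1 : ∀ x, S ≤ x → 1 ≤ szN Δ x := by
    intro x hx
    unfold szN
    rw [Nat.one_le_floor_iff, Real.one_le_sqrt, le_div_iff₀ hΔ]
    have : (S : ℝ) ≤ x := by exact_mod_cast hx
    linarith
  -- the two subsets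
  set A : Finset ℕ := (typeII θ Δ s S).filter (fun x => ¬ (lev θ (szN Δ x) : ℝ) * Δ ≤ 1 / 2) with hA
  set B : Finset ℕ := (typeII θ Δ s S).filter (fun x => ¬ |(s : ℝ) - x| *
    |((lev θ (szN Δ x) : ℕ) : ℝ) * θ - num θ (lev θ (szN Δ x))| ≤ 1 / 2) with hB
  have hcov : typeII θ Δ s S ⊆ A ∪ B := by
    intro x hx
    have h1 := hx
    unfold typeII at h1
    rw [Finset.mem_filter] at h1
    have h2 := h1.2.2.1
    unfold condI at h2
    rw [not_and_or] at h2
    rw [Finset.mem_union, hA, hB, Finset.mem_filter, Finset.mem_filter]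
    exact h2.imp (fun h => ⟨hx, h⟩) (fun h => ⟨hx, h⟩)
  have hmem : ∀ x ∈ typeII θ Δ s S, S ≤ x ∧ x < S + S ∧ ∃ h : ℤ, |(x : ℝ) * θ - s * θ - h| < Δ := by
    intro x hx
    unfold typeII at hx
    rw [Finset.mem_filter, Finset.mem_Ico] at hx
    obtain ⟨h, hh⟩ := hx.2.2.2
    refine ⟨hx.1.1, by omega, h, ?_⟩
    rw [← abs_neg]
    have e : -((x : ℝ) * θ - s * θ - h) = ((s : ℝ) - x) * θ + h := by ring
    rw [e]; exact hh
  have hsx : ∀ x ∈ typeII θ Δ s S, s ≤ x := by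
    intro x hx
    unfold typeII at hx
    rw [Finset.mem_filter] at hx
    exact hx.2.1
  -- (a)
  have hcA : (A.card : ℝ) ≤ 54 * Δ * S := by
    rcases A.eq_empty_or_nonempty with h | ⟨x, hx⟩
    · rw [h]; simp; positivity
    · set D := lev θ (szN Δ (2 * S)) with hD
      have hDb : Best θ D := lev_best _ _
      have hD0 : (0 : ℝ) < D := by exact_mod_cast hDb.1
      rw [hA, Finset.mem_filter] at hx
      have hx1 := hmem x hx.1
      have h1 : lev θ (szN Δ x) ≤ D := lev_mono θ (hsz1 x hx1.1) (szN_mono hΔ (by omega))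
      have h2 : 1 / 2 < (D : ℝ) * Δ := by
        have h3 := hx.2
        push Not at h3
        have h4 : (lev θ (szN Δ x) : ℝ) ≤ D := by exact_mod_cast h1
        have : (lev θ (szN Δ x) : ℝ) * Δ ≤ D * Δ := mul_le_mul_of_nonneg_right h4 hΔ.le
        linarith
      have h3 : (D : ℝ) ^ 2 ≤ 4 * S / Δ := by
        have h4 : (D : ℝ) ≤ Real.sqrt (2 * (2 * S : ℕ) / Δ) := by
          have h5 : D ≤ szN Δ (2 * S) := lev_le θ (hsz1 _ (by omega))
          have h6 : ((szN Δ (2 * S) : ℕ) : ℝ) ≤ Real.sqrt (2 * (2 * S : ℕ) / Δ) :=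
            Nat.floor_le (Real.sqrt_nonneg _)
          have h7 : (D : ℝ) ≤ (szN Δ (2 * S) : ℕ) := by exact_mod_cast h5
          exact h7.trans h6
        have h8 := Real.sq_sqrt (show (0 : ℝ) ≤ 2 * (2 * S : ℕ) / Δ by positivity)
        have h9 : (D : ℝ) ^ 2 ≤ Real.sqrt (2 * (2 * S : ℕ) / Δ) ^ 2 := pow_le_pow_left₀ hD0.le h4 2
        rw [h8] at h9
        refine h9.trans (le_of_eq ?_)
        push_cast
        ring
      have h4 : (D : ℝ) ≤ 8 * S := by
        rw [le_div_iff₀ hΔ] at h3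
        nlinarith
      have h5 := count_sep (θ := θ) (Δ := Δ) (β := s * θ) (A := S) (N := S) hDb.1 hΔ
        (fun x hx hxD k => sep_best hDb hx hxD k) A (fun x hx => hmem x (by
          rw [hA, Finset.mem_filter] at hx; exact hx.1))
      refine h5.trans ?_
      have h6 : 4 * Δ * D + 1 ≤ 6 * Δ * D := by nlinarith
      have h7 : ((S : ℝ) / D + 1) * (4 * Δ * D + 1) ≤ ((S : ℝ) / D + 1) * (6 * Δ * D) :=
        mul_le_mul_of_nonneg_left h6 (by positivity)
      refine h7.trans ?_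
      have h8 : ((S : ℝ) / D + 1) * (6 * Δ * D) = 6 * Δ * (S + D) := by
        field_simp
      rw [h8]
      nlinarith
  -- (b)
  have hcB : (B.card : ℝ) ≤ 30 * Δ * S := by
    rcases B.eq_empty_or_nonempty with h | ⟨x, hx⟩
    · rw [h]; simp; positivity
    · rw [hB, Finset.mem_filter] at hx
      have hx1 := hmem x hx.1
      have hx2 := hsx x hx.1
      have hx3 := hx.2
      push Not at hx3
      rw [abs_num] at hx3
      set d := lev θ (szN Δ S) with hd
      have hdb : Best θ d := lev_best _ _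
      have h1 : nn θ (lev θ (szN Δ x)) ≤ nn θ d := by
        refine lev_min θ hdb.1 ?_
        exact (lev_le θ (hsz1 S le_rfl)).trans (szN_mono hΔ hx1.1)
      have h0 : 0 < nn θ (lev θ (szN Δ x)) := by
        by_contra hc
        push Not at hc
        have : |(s : ℝ) - x| * nn θ (lev θ (szN Δ x)) ≤ 0 :=
          mul_nonpos_of_nonneg_of_nonpos (abs_nonneg _) hc
        linarith
      have h0d : 0 < nn θ d := h0.trans_le h1
      obtain ⟨D, hdD, hDb, hDmin, hDlt, hDir⟩ := exists_next hdb h0d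
      obtain ⟨D', hdD', hDb', hDmin', hDlt', hDir'⟩ := exists_next (lev_best θ (szN Δ x)) h0
      have hD0 : (0 : ℝ) < D := by exact_mod_cast hDb.1
      -- D ≤ D'
      have h2 : D ≤ D' := by
        by_contra hc
        push Not at hc
        have := hDmin D' hDb'.1 hc
        linarith
      have h3 : (D' : ℝ) ≤ 4 * S := by
        have h4 : |(s : ℝ) - x| ≤ 2 * S := by
          rw [abs_le]
          have e1 : (s : ℝ) ≤ x := by exact_mod_cast hx2
          have e2 : (x : ℝ) ≤ 2 * S := by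
            have : x ≤ 2 * S := by omega
            exact_mod_cast this
          have e3 : (0 : ℝ) ≤ s := Nat.cast_nonneg s
          constructor <;> linarith
        have h5 : |(s : ℝ) - x| * nn θ (lev θ (szN Δ x)) ≤ 2 * S * nn θ (lev θ (szN Δ x)) :=
          mul_le_mul_of_nonneg_right h4 h0.le
        have h6 : (1 : ℝ) / 2 < 2 * S * nn θ (lev θ (szN Δ x)) := by linarith
        by_contra hc
        push Not at hc
        have h7 : 4 * S * nn θ (lev θ (szN Δ x)) ≤ D' * nn θ (lev θ (szN Δ x)) :=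
          mul_le_mul_of_nonneg_right hc.le h0.le
        linarith
      have h4 : (D : ℝ) ≤ 4 * S := by
        have : (D : ℝ) ≤ D' := by exact_mod_cast h2
        linarith
      -- D > sqrt(2S/Δ)
      have h5 : 2 * S / Δ < (D : ℝ) ^ 2 := by
        have h6 : szN Δ S < D := by
          by_contra hc
          push Not at hc
          have := lev_min θ hDb.1 hc
          rw [← hd] at this
          linarith
        have h7 : Real.sqrt (2 * S / Δ) < D := by
          unfold szN at h6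
          exact (Nat.floor_lt (Real.sqrt_nonneg _)).1 h6
        have h8 := Real.sq_sqrt (show (0 : ℝ) ≤ 2 * S / Δ by positivity)
        rw [← h8]
        exact pow_lt_pow_left₀ h7 (Real.sqrt_nonneg _) two_ne_zero
      have h6 : 1 / 2 < (D : ℝ) * Δ := by
        rw [div_lt_iff₀ hΔ] at h5
        nlinarith
      have h7 := count_sep (θ := θ) (Δ := Δ) (β := s * θ) (A := S) (N := S) hDb.1 hΔ
        (fun x hx hxD k => sep_best hDb hx hxD k) B (fun x hx => hmem x (by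
          rw [hB, Finset.mem_filter] at hx; exact hx.1))
      refine h7.trans ?_
      have h8 : 4 * Δ * D + 1 ≤ 6 * Δ * D := by nlinarith
      have h9 : ((S : ℝ) / D + 1) * (4 * Δ * D + 1) ≤ ((S : ℝ) / D + 1) * (6 * Δ * D) :=
        mul_le_mul_of_nonneg_left h8 (by positivity)
      refine h9.trans ?_
      have h10 : ((S : ℝ) / D + 1) * (6 * Δ * D) = 6 * Δ * (S + D) := by
        field_simp
      rw [h10]
      nlinarith
  have hfin : ((typeII θ Δ s S).card : ℝ) ≤ A.card + B.card := by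
    have := (Finset.card_le_card hcov).trans (Finset.card_union_le A B)
    exact_mod_cast this
  linarith

/-! ### `q`-language (`KCl` conventions: `q = g s'`, `q' = g s`, `Δ = 2 ρ lcm`) -/

open Crest.Agent.R4C.CrCoinx935 Crest.Agent.R4C.CrCountx935

/-- size of the item `q`: `⌊√(1/(ρ q))⌋ = ⌊√(b/L)⌋` -/
noncomputable def szq (ρ : ℝ) (q : ℕ) : ℕ := ⌊Real.sqrt (1 / (ρ * q))⌋₊

/-- label denominator of the item `q` -/
noncomputable def dq (θ ρ : ℝ) (q : ℕ) : ℕ := lev θ (szq ρ q)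

open Classical in
/-- the square-root label: at `p ∤ d` the class `c` with `a + d c ≡ 0 (mod p)` -/
noncomputable def lamS (θ ρ : ℝ) (q p : ℕ) : Option ℤ :=
  if h : ∃ c : ℤ, (p : ℤ) ∣ num θ (dq θ ρ q) + dq θ ρ q * c then some h.choose else none

lemma lamS_some {θ ρ : ℝ} {q p : ℕ} (hp : p.Prime) (hd : ¬ p ∣ dq θ ρ q) :
    ∃ c : ℤ, lamS θ ρ q p = some c ∧ (p : ℤ) ∣ num θ (dq θ ρ q) + dq θ ρ q * c := by
  have hex : ∃ c : ℤ, (p : ℤ) ∣ num θ (dq θ ρ q) + dq θ ρ q * c := by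
    have hco : IsCoprime (p : ℤ) (dq θ ρ q : ℤ) := by
      rw [Nat.isCoprime_iff_coprime]
      exact (Nat.Prime.coprime_iff_not_dvd hp).2 hd
    obtain ⟨u, v, huv⟩ := hco
    refine ⟨-(v * num θ (dq θ ρ q)), u * num θ (dq θ ρ q), ?_⟩
    linear_combination -(num θ (dq θ ρ q)) * huv
  refine ⟨hex.choose, ?_, hex.choose_spec⟩
  unfold lamS
  rw [dif_pos hex]

lemma lamS_spec {θ ρ : ℝ} {q p : ℕ} {c : ℤ} (h : lamS θ ρ q p = some c) :
    (p : ℤ) ∣ num θ (dq θ ρ q) + dq θ ρ q * c := by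
  unfold lamS at h
  split_ifs at h with hex
  have := hex.choose_spec
  simp only [Option.some.injEq] at h
  rw [h] at this
  exact this

/-- the level of `q'` seen from the pair -/
lemma szN_eq {ρ : ℝ} (hρ : 0 < ρ) {l q' : ℕ} (hl : 0 < l) (hq' : 0 < q') (hd : q' ∣ l) :
    szN (2 * ρ * l) (l / q') = szq ρ q' := by
  obtain ⟨s', rfl⟩ := hd
  have hs' : 0 < s' := by
    rcases Nat.eq_zero_or_pos s' with h | h
    · rw [h] at hl; omega
    · exact h
  unfold szN szq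
  rw [Nat.mul_div_cancel_left _ hq']
  congr 2
  have h1 : (0 : ℝ) < q' := by exact_mod_cast hq'
  have h2 : (0 : ℝ) < s' := by exact_mod_cast hs'
  push_cast
  field_simp

/-- **(I) in `q`-language**: at the level of `q'`; every prime of `s` at which `q'` carries the
square-root label kills. -/
theorem killed_of_I {θ ρ : ℝ} {lam : ℕ → ℕ → Option ℤ} {q q' s s' : ℕ} {h : ℤ} {Δ : ℝ}
    (hss : Nat.Coprime s s') (h1 : (dq θ ρ q' : ℝ) * Δ ≤ 1 / 2)
    (h2 : |(s : ℝ) - s'| * nn θ (dq θ ρ q') ≤ 1 / 2)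
    (hl : |((s : ℝ) - s') * θ + h| < Δ) {p : ℕ} (hp : p.Prime) (hps : p ∣ s)
    (hlam : ∀ p : ℕ, p.Prime → p ∣ s → lam q' p = lamS θ ρ q' p) :
    killedL lam q q' s s' h := by
  have hb : Best θ (dq θ ρ q') := lev_best θ (szq ρ q')
  have h0 := exact_int (a := num θ (dq θ ρ q')) hb.1 h1 (by rw [abs_num]; exact h2) hl
  have hnd := cop_s hb.coprime hss h0 hp hps
  obtain ⟨c, hc, hc'⟩ := lamS_some (θ := θ) (ρ := ρ) (q := q') hp hnd
  refine Or.inr ⟨p, hp, hps, c, ?_, kill_s hb.coprime hss h0 hp hps hc'⟩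
  rw [hlam p hp hps, hc]

/-- **(I), equal levels**: every prime of `s'` at which `q` carries the square-root label kills. -/
theorem killed_of_I' {θ ρ : ℝ} {lam : ℕ → ℕ → Option ℤ} {q q' s s' : ℕ} {h : ℤ} {Δ : ℝ}
    (hss : Nat.Coprime s s') (h1 : (dq θ ρ q : ℝ) * Δ ≤ 1 / 2)
    (h2 : |(s : ℝ) - s'| * nn θ (dq θ ρ q) ≤ 1 / 2)
    (hl : |((s : ℝ) - s') * θ + h| < Δ) {p : ℕ} (hp : p.Prime) (hps : p ∣ s')
    (hlam : ∀ p : ℕ, p.Prime → p ∣ s' → lam q p = lamS θ ρ q p) :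
    killedL lam q q' s s' h := by
  have hb : Best θ (dq θ ρ q) := lev_best θ (szq ρ q)
  have h0 := exact_int (a := num θ (dq θ ρ q)) hb.1 h1 (by rw [abs_num]; exact h2) hl
  have hnd := cop_s' hb.coprime hss h0 hp hps
  obtain ⟨c, hc, hc'⟩ := lamS_some (θ := θ) (ρ := ρ) (q := q) hp hnd
  refine Or.inl ⟨p, hp, hps, c, ?_, kill_s' hb.coprime hss h0 hp hps hc'⟩
  rw [hlam p hp hps, hc]

/-- full square-root label: in case (I) a surviving pair has `s = 1` (i.e. `q' ∣ q`, the exact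
ancestor `s' = 1 + d e`, `h = a e`) and different levels (or `s' = 1`). -/
theorem survivor_of_I {θ ρ : ℝ} {q q' s s' : ℕ} {h : ℤ} {Δ : ℝ}
    (hss : Nat.Coprime s s') (h1 : (dq θ ρ q' : ℝ) * Δ ≤ 1 / 2)
    (h2 : |(s : ℝ) - s'| * nn θ (dq θ ρ q') ≤ 1 / 2)
    (hl : |((s : ℝ) - s') * θ + h| < Δ) (hk : ¬ killedL (lamS θ ρ) q q' s s' h) :
    s = 1 ∧ (s' = 1 ∨ dq θ ρ q ≠ dq θ ρ q') ∧
      ∃ e : ℤ, (s' : ℤ) = 1 + dq θ ρ q' * e ∧ h = num θ (dq θ ρ q') * e := by
  have hs1 : s = 1 := by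
    by_contra hc
    obtain ⟨p, hp, hps⟩ := Nat.exists_prime_and_dvd hc
    exact hk (killed_of_I hss h1 h2 hl hp hps (fun _ _ _ => rfl))
  refine ⟨hs1, ?_, ?_⟩
  · by_contra hc
    push Not at hc
    obtain ⟨p, hp, hps⟩ := Nat.exists_prime_and_dvd hc.1
    refine hk (killed_of_I' (θ := θ) (ρ := ρ) (Δ := Δ) hss ?_ ?_ hl hp hps (fun _ _ _ => rfl))
    · rw [hc.2]; exact h1
    · rw [hc.2]; exact h2
  · have hb : Best θ (dq θ ρ q') := lev_best θ (szq ρ q')
    have h0 := exact_int (a := num θ (dq θ ρ q')) hb.1 h1 (by rw [abs_num]; exact h2) hl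
    subst hs1
    obtain ⟨e, he, he'⟩ := ancestor hb.coprime (by simpa using h0)
    exact ⟨e, he, he' hb.1⟩

open Classical in
/-- the partners `q'` of `q` with `lcm q q' = l`, `S ≤ s' < 2 S`, `q' ≤ q`, linked, not of type (I) -/
noncomputable def partII (θ ρ : ℝ) (Q : Finset ℕ) (q l S : ℕ) : Finset ℕ :=
  Q.filter (fun q' => 0 < q' ∧ Nat.lcm q q' = l ∧ S ≤ l / q' ∧ l / q' < 2 * S ∧ q' ≤ q ∧
    (∃ h : ℤ, |(((l / q : ℕ) : ℝ) - ((l / q' : ℕ) : ℝ)) * θ + h| < 2 * ρ * l) ∧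
    ¬ ((dq θ ρ q' : ℝ) * (2 * ρ * l) ≤ 1 / 2 ∧
      |((l / q : ℕ) : ℝ) - ((l / q' : ℕ) : ℝ)| * nn θ (dq θ ρ q') ≤ 1 / 2))

/-- **(II) in `q`-language** -/
theorem card_partII {θ ρ : ℝ} (hρ : 0 < ρ) (Q : Finset ℕ) {q l S : ℕ} (hl : 0 < l) (hS : 0 < S)
    (hsz : ρ * l ≤ S) : ((partII θ ρ Q q l S).card : ℝ) ≤ 168 * ρ * l * S := by
  classical
  have hl0 : (0 : ℝ) < l := by exact_mod_cast hl
  have hΔ : (0 : ℝ) < 2 * ρ * l := by positivity
  have h1 : (partII θ ρ Q q l S).card ≤ (typeII θ (2 * ρ * l) (l / q) S).card := by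
    refine Finset.card_le_card_of_injOn (fun q' => l / q') ?_ ?_
    · intro q' hq'
      have hq' := Finset.mem_coe.1 hq'
      unfold partII at hq'
      rw [Finset.mem_filter] at hq'
      obtain ⟨_, h1, h2, h3, h4, h5, h6, h7⟩ := hq'
      have hd : q' ∣ l := by rw [← h2]; exact Nat.dvd_lcm_right _ _
      rw [Finset.mem_coe, mem_typeII]
      refine ⟨⟨h3, h4⟩, Nat.div_le_div_left h5 h1, ?_, h6⟩
      unfold condI
      rw [szN_eq hρ hl h1 hd]
      exact h7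
    · intro x hx y hy hxy
      have hx := Finset.mem_coe.1 hx
      have hy := Finset.mem_coe.1 hy
      unfold partII at hx hy
      rw [Finset.mem_filter] at hx hy
      have hdx : x ∣ l := by rw [← hx.2.2.1]; exact Nat.dvd_lcm_right _ _
      have hdy : y ∣ l := by rw [← hy.2.2.1]; exact Nat.dvd_lcm_right _ _
      have e1 := Nat.div_mul_cancel hdx
      have e2 := Nat.div_mul_cancel hdy
      simp only at hxy
      rw [hxy] at e1
      have h3 : 0 < l / y := hS.trans_le hy.2.2.2.1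
      exact Nat.eq_of_mul_eq_mul_left h3 (e1.trans e2.symm)
  have h2 := count_II (θ := θ) (s := l / q) hΔ hS (by linarith)
  have h3 : ((partII θ ρ Q q l S).card : ℝ) ≤ (typeII θ (2 * ρ * l) (l / q) S).card := by
    exact_mod_cast h1
  linarith

end Crest.Agent.R4C.Sqrtx693

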