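import Crest.Agent.R4C.HeavyC_899
import Crest.Agent.R4C.Chain_81
import Crest.Agent.R4C.FLSh_326

/-!
# Row 4, class (H) (STEP 0 of note 3224, rule of notes 3211/3307), rule-free form

`F : FL M`, cut `X` (`= P0(t)`), `e1 y T = upp y (F.uu X T)`; for `T = upp y b`, `y ≤ X`:
`low y b * e1 = F.uu X b`.  A word `b` is stopped at the first cut `y ≤ X` (from the top) with
`Γ e1 ≤ L mass(y, upp y b)`; for a pair `(b, c)` good at `X` the number `e = gcd (upp y b) c`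
divides `e1` and `e1 ≤ J e` as soon as `F.uu X b ≤ J gcd b c`.
-/

set_option autoImplicit false

namespace Crest.Agent.R4C.StepHx326

open Finset Crest.Agent.R4C.Basex935 Crest.Agent.R4C.Cutx50 Crest.Agent.R4C.HeavyLx50
  Crest.Agent.R4C.HeavyCx899 Crest.Agent.R4C.FLDefx935

variable {M : ℕ} {F : FL M}

/-! ### `uu` and the cuts -/

lemma ctr_upp {y b p : ℕ} (hb : b ∣ M) (hp : p.Prime) (hy : y ≤ p) :
    F.ctr (upp y b) p = F.ctr b p := by
  refine F.coh ((upp_dvd_self y b).trans hb) hb hp fun q _ hpq _ => ?_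
  rw [fact_upp, if_pos (by omega)]

lemma upp_uu {y X b : ℕ} (hb : b ∣ M) : upp y (F.uu X (upp y b)) = upp y (F.uu X b) := by
  refine Nat.eq_of_factorization_eq (upp_pos _ _).ne' (upp_pos _ _).ne' fun p => ?_
  rw [fact_upp, fact_upp]
  by_cases h1 : p ≤ y
  · simp [h1]
  · rw [if_pos h1, if_pos h1, FL.fact_uu, FL.fact_uu]
    by_cases hp : p ∈ M.primeFactors
    · rw [if_pos hp, if_pos hp]
      unfold FL.uuE
      rw [ctr_upp hb (Nat.prime_of_mem_primeFactors hp) (by omega), fact_upp, if_pos h1]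
    · rw [if_neg hp, if_neg hp]

lemma low_mul_e1 (hM : 0 < M) {y X b : ℕ} (hb : b ∣ M) (hyX : y ≤ X) :
    low y b * upp y (F.uu X b) = F.uu X b := by
  have h : low y (F.uu X b) = low y b := by
    refine Nat.eq_of_factorization_eq (low_pos _ _).ne' (low_pos _ _).ne' fun p => ?_
    rw [fact_low, fact_low]
    by_cases h1 : p ≤ y
    · rw [if_pos h1, if_pos h1]
      exact Chainx81.fact_uu_low hM hb (h1.trans hyX)
    · rw [if_neg h1, if_neg h1]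
  rw [← h]
  exact low_mul_upp y (FL.uu_pos X b).ne'

lemma dvd_upp {y d u b : ℕ} (hu : u ≠ 0) (h1 : d ∣ u) (h2 : d ∣ upp y b) : d ∣ upp y u := by
  have hd : d ≠ 0 := fun h => hu (Nat.eq_zero_of_zero_dvd (h ▸ h1))
  rw [← Nat.factorization_le_iff_dvd hd (upp_pos _ _).ne']
  intro p
  rw [fact_upp]
  have h3 := (Nat.factorization_le_iff_dvd hd hu).2 h1 p
  have h4 := (Nat.factorization_le_iff_dvd hd (upp_pos y b).ne').2 h2 p
  rw [fact_upp] at h4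
  by_cases hp : p ≤ y
  · rw [if_neg (by simpa using hp)] at h4 ⊢
    exact h4
  · rw [if_pos hp]
    exact h3

lemma gcd_le_low {y b c : ℕ} (hb : b ≠ 0) :
    Nat.gcd b c ≤ low y b * Nat.gcd (upp y b) c := by
  have h1 : Nat.gcd b c ∣ low y b * Nat.gcd (upp y b) c := by
    have h2 : Nat.gcd c (low y b * upp y b) ∣ Nat.gcd c (low y b) * Nat.gcd c (upp y b) :=
      Nat.gcd_mul_right_dvd_mul_gcd _ _ _
    rw [low_mul_upp y hb, Nat.gcd_comm c b, Nat.gcd_comm c (upp y b)] at h2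
    exact h2.trans (mul_dvd_mul_right (Nat.gcd_dvd_right _ _) _)
  refine Nat.le_of_dvd (Nat.mul_pos (low_pos _ _) ?_) h1
  exact Nat.gcd_pos_of_pos_left _ (upp_pos _ _)

/-! ### The stopping rule and the list -/

/-- stopping rule -/
def Sx (F : FL M) (L Γ : ℝ) (X : ℕ) (f : ℕ → ℝ) (y T : ℕ) : Prop :=
  (upp y (F.uu X T) : ℝ) * Γ ≤ L * mass M f y T

open Classical in
/-- the list -/
noncomputable def El (F : FL M) (J : ℝ) (X y T : ℕ) : Finset ℕ :=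
  (upp y (F.uu X T)).divisors.filter (fun e => ((upp y (F.uu X T) : ℕ) : ℝ) ≤ J * e)

lemma El_card {J : ℝ} (hJ : 0 ≤ J) (X y T : ℕ) : ((El F J X y T).card : ℝ) ≤ J := by
  classical
  set u := upp y (F.uu X T) with hu
  have hu0 : 0 < u := upp_pos _ _
  have h1 : (El F J X y T).card ≤ (Finset.Icc 1 ⌊J⌋₊).card := by
    refine Finset.card_le_card_of_injOn (fun e => u / e) ?_ ?_
    · intro e he
      unfold El at he
      rw [Finset.mem_coe, Finset.mem_filter, Nat.mem_divisors, ← hu] at he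
      obtain ⟨⟨h2, _⟩, h3⟩ := he
      rw [Finset.mem_coe, Finset.mem_Icc]
      have he0 : 0 < e := Nat.pos_of_dvd_of_pos h2 hu0
      obtain ⟨a, ha⟩ := h2
      have ha2 : u / e = a := by rw [ha]; exact Nat.mul_div_cancel_left a he0
      dsimp only
      rw [ha2]
      have ha0 : 0 < a := by
        rcases Nat.eq_zero_or_pos a with h | h
        · rw [h, mul_zero] at ha; omega
        · exact h
      refine ⟨ha0, Nat.le_floor ?_⟩
      have he' : (0 : ℝ) < e := by exact_mod_cast he0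
      rw [ha] at h3
      push_cast at h3
      nlinarith
    · intro e he e' he' h
      unfold El at he he'
      rw [Finset.mem_coe, Finset.mem_filter, Nat.mem_divisors, ← hu] at he he'
      have h2 := Nat.div_mul_cancel he.1.1
      have h3 := Nat.div_mul_cancel he'.1.1
      dsimp only at h
      rw [h] at h2
      have h4 : 0 < u / e' := Nat.div_pos (Nat.le_of_dvd hu0 he'.1.1)
        (Nat.pos_of_dvd_of_pos he'.1.1 hu0)
      exact Nat.eq_of_mul_eq_mul_left h4 (h2.trans h3.symm)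
  rw [Nat.card_Icc, Nat.add_sub_cancel] at h1
  calc ((El F J X y T).card : ℝ) ≤ (⌊J⌋₊ : ℝ) := by exact_mod_cast h1
    _ ≤ J := Nat.floor_le hJ

/-- the gcd of the upper part is in the list -/
lemma mem_El (hM : 0 < M) {J : ℝ} {X y b c : ℕ} (hb : b ∣ M) (hc : c ∣ M)
    (hg : F.good X b c) (hyX : y ≤ X) (hJ : (F.uu X b : ℝ) ≤ J * (Nat.gcd b c : ℝ)) :
    Nat.gcd (upp y b) c ∈ El F J X y (upp y b) := by
  classical
  have hb0 : b ≠ 0 := (Nat.pos_of_dvd_of_pos hb hM).ne'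
  have h1 : Nat.gcd (upp y b) c ∣ upp y (F.uu X b) := by
    refine dvd_upp (b := b) (FL.uu_pos X b).ne' ?_ (Nat.gcd_dvd_left _ _)
    exact (Nat.gcd_dvd_gcd_of_dvd_left _ (upp_dvd_self y b)).trans
      (FL.good_gcd_dvd_uu hM hb hc hg)
  unfold El
  rw [Finset.mem_filter, Nat.mem_divisors, upp_uu hb]
  refine ⟨⟨h1, (upp_pos _ _).ne'⟩, ?_⟩
  have h2 : ((low y b : ℕ) : ℝ) * ((upp y (F.uu X b) : ℕ) : ℝ) = (F.uu X b : ℝ) := by
    exact_mod_cast low_mul_e1 (F := F) hM hb hyX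
  have h3 : ((Nat.gcd b c : ℕ) : ℝ) ≤ ((low y b : ℕ) : ℝ) * ((Nat.gcd (upp y b) c : ℕ) : ℝ) := by
    exact_mod_cast gcd_le_low (y := y) (c := c) hb0
  have h4 : (0 : ℝ) < ((low y b : ℕ) : ℝ) := by exact_mod_cast low_pos y b
  have h5 : (0 : ℝ) < (Nat.gcd b c : ℝ) := by
    exact_mod_cast Nat.gcd_pos_of_pos_left c (Nat.pos_of_ne_zero hb0)
  have h6 : (0 : ℝ) < (F.uu X b : ℝ) := by exact_mod_cast FL.uu_pos X b
  have hJ0 : 0 < J := by
    by_contra hcon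
    push Not at hcon
    nlinarith
  have h7 : ((low y b : ℕ) : ℝ) * ((upp y (F.uu X b) : ℕ) : ℝ) ≤
      ((low y b : ℕ) : ℝ) * (J * ((Nat.gcd (upp y b) c : ℕ) : ℝ)) := by
    rw [h2]
    calc (F.uu X b : ℝ) ≤ J * (Nat.gcd b c : ℝ) := hJ
      _ ≤ J * (((low y b : ℕ) : ℝ) * ((Nat.gcd (upp y b) c : ℕ) : ℝ)) :=
        mul_le_mul_of_nonneg_left h3 hJ0.le
      _ = _ := by ring
  exact le_of_mul_le_mul_left h7 h4

/-- a heavy cut gives the stopping condition -/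
lemma Sx_of_theta (hM : 0 < M) {L Γ U : ℝ} {X y b : ℕ} {f : ℕ → ℝ} (hb : b ∣ M)
    (hL : 0 ≤ L) (hΓ : 0 ≤ Γ) (hyX : y ≤ X) (hU : (F.uu X b : ℝ) ≤ U * L)
    (hΘ : Γ * U ≤ (low y b : ℝ) * mass M f y (upp y b)) :
    Sx F L Γ X f y (upp y b) := by
  unfold Sx
  rw [upp_uu hb]
  have h2 : ((low y b : ℕ) : ℝ) * ((upp y (F.uu X b) : ℕ) : ℝ) = (F.uu X b : ℝ) := by
    exact_mod_cast low_mul_e1 (F := F) hM hb hyX
  have h4 : (0 : ℝ) < ((low y b : ℕ) : ℝ) := by exact_mod_cast low_pos y b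
  refine le_of_mul_le_mul_left ?_ h4
  calc ((low y b : ℕ) : ℝ) * (((upp y (F.uu X b) : ℕ) : ℝ) * Γ)
      = Γ * (F.uu X b : ℝ) := by rw [← h2]; ring
    _ ≤ Γ * (U * L) := mul_le_mul_of_nonneg_left hU hΓ
    _ = L * (Γ * U) := by ring
    _ ≤ L * ((low y b : ℝ) * mass M f y (upp y b)) := mul_le_mul_of_nonneg_left hΘ hL
    _ = _ := by ring

open Classical in
/-- **class (H), one depth class, one scale** -/
theorem heavy_one {η C : ℝ} (hM : 0 < M) (hη0 : 0 ≤ η) (hη1 : η ≤ 1) (hC : 0 ≤ C)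
    (HVW : ∀ M' : ℕ, M' ∣ M → ∀ f f' : ℕ → ℝ, (∀ b, 0 ≤ f b ∧ f b ≤ 1) →
      (∀ b, 0 ≤ f' b ∧ f' b ≤ 1) → ∀ X : ℝ, 0 < X →
      frm M' (fun b c => if X ≤ (Nat.gcd b c : ℝ) ∧ (Nat.gcd b c : ℝ) < 2 * X
        then f b * f' c else 0) ≤ C * X ^ η * (Ex M' f * Ex M' f') ^ ((1 + η) / 2))
    {L t U Γ : ℝ} (hL : 0 < L) (ht : 0 < t) (hU : 0 < U) (hΓ : 0 < Γ) (X : ℕ)
    {f f' : ℕ → ℝ} (hf : ∀ b, 0 ≤ f b ∧ f b ≤ 1) (hf' : ∀ b, 0 ≤ f' b ∧ f' b ≤ 1) :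
    L * frm M (fun b c => if ((F.uu X b : ℝ) ≤ U * L ∧ (∃ y ≤ X, Γ * U ≤
        (low y b : ℝ) * mass M f y (upp y b)) ∧ F.good X b c) ∧
        t * L ≤ (Nat.gcd b c : ℝ) ∧ (Nat.gcd b c : ℝ) < 2 * (t * L) then f b * f' c else 0) ≤
      C * t ^ η * (U / t * Γ ^ (-((1 - η) / 2))) * (L * Ex M f) *
        (L * Ex M f') ^ ((1 + η) / 2) := by
  have h := heavyCut_J hM X (fun y T => Sx F L Γ X f y T) (fun y T => El F (U / t) X y T)
    (κ := 2) hη0 hη1 hC ht hL hΓ (div_nonneg hU.le ht.le) hf hf' HVW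
    (fun y T _ _ _ => El_card (div_nonneg hU.le ht.le) X y T)
    (fun y T _ hT hF e he => by
      have hTT : upp y T = T := by
        have := upp_of_mul (x := y) (n := 1) (M := M) (one_dvd _) hT
        rwa [one_mul] at this
      have h1 : Sx F L Γ X f y T := by
        have h0 := hF.1
        rw [hTT] at h0
        exact h0
      unfold El at he
      rw [Finset.mem_filter, Nat.mem_divisors] at he
      unfold Sx at h1
      have h2 : (e : ℝ) ≤ ((upp y (F.uu X T) : ℕ) : ℝ) := by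
        exact_mod_cast Nat.le_of_dvd (upp_pos _ _) he.1.1
      exact (mul_le_mul_of_nonneg_right h2 hΓ.le).trans h1)
  refine le_trans (mul_le_mul_of_nonneg_left (frm_mono fun b c hb hc => ?_) hL.le) h
  by_cases h1 : ((F.uu X b : ℝ) ≤ U * L ∧ (∃ y ≤ X, Γ * U ≤
        (low y b : ℝ) * mass M f y (upp y b)) ∧ F.good X b c) ∧
        t * L ≤ (Nat.gcd b c : ℝ) ∧ (Nat.gcd b c : ℝ) < 2 * (t * L)
  · obtain ⟨⟨h2, ⟨y, hy, h3⟩, h4⟩, h5, h6⟩ := h1
    obtain ⟨y', hyy', hy', hF⟩ := Fst_exists (S := fun y T => Sx F L Γ X f y T) hy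
      (Sx_of_theta hM hb hL.le hΓ.le hy h2 h3)
    have h7 : (F.uu X b : ℝ) ≤ U / t * (Nat.gcd b c : ℝ) := by
      calc (F.uu X b : ℝ) ≤ U * L := h2
        _ = U / t * (t * L) := by field_simp
        _ ≤ _ := mul_le_mul_of_nonneg_left h5 (div_nonneg hU.le ht.le)
    rw [if_pos ⟨⟨h2, ⟨y, hy, h3⟩, h4⟩, h5, h6⟩,
      if_pos ⟨⟨y', hy', hF, mem_El hM hb hc h4 hy' h7⟩, h5, h6⟩]
  · rw [if_neg h1]
    split_ifs
    · exact mul_nonneg (hf b).1 (hf' c).1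
    · exact le_rfl

/-! ### Sum over the depth classes -/

/-- the words of class (H): depth `K`, `t ≤ K²`, `uu X b ≤ K³ L`, a cut `y ≤ X` with
`K^q ≤ Θ_y(b)` -/
def Dp (F : FL M) (L t : ℝ) (q X : ℕ) (f : ℕ → ℝ) (b : ℕ) : Prop :=
  ∃ K : ℝ, 1 ≤ K ∧ t ≤ K ^ 2 ∧ (F.uu X b : ℝ) ≤ K ^ 3 * L ∧
    ∃ y ≤ X, K ^ q ≤ (low y b : ℝ) * mass M f y (upp y b)

lemma Dp_mono {L t : ℝ} {q q' X : ℕ} {f : ℕ → ℝ} {b : ℕ} (h : q ≤ q') (hb : Dp F L t q' X f b) :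
    Dp F L t q X f b := by
  obtain ⟨K, h1, h2, h3, y, hy, h4⟩ := hb
  exact ⟨K, h1, h2, h3, y, hy, (pow_le_pow_right₀ h1 h).trans h4⟩

/-- numerical part -/
lemma num_class {η C1 t T : ℝ} (hη1 : η < 1) (hη0 : 0 ≤ η) (hC1 : 0 ≤ C1) (hT : 0 < T)
    (ht : 0 < t) {q : ℕ} (hq : 7 + 2 * C1 ≤ q * ((1 - η) / 2)) (j : ℕ)
    (htj : t ≤ 4 * 4 ^ j) :
    (8 * 8 ^ j : ℝ) / T * ((2 : ℝ) ^ (j * q) / (8 * 8 ^ j)) ^ (-((1 - η) / 2)) ≤
      64 * 4 ^ C1 * t ^ (-C1) * (1 / 2) ^ j / T := by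
  set s := (1 - η) / 2 with hs
  have hs0 : 0 ≤ s := by rw [hs]; linarith
  have hs1 : s ≤ 1 := by rw [hs]; linarith
  have hU : (1 : ℝ) ≤ 8 * 8 ^ j := by
    have : (1 : ℝ) ≤ 8 ^ j := one_le_pow₀ (by norm_num)
    linarith
  have hU0 : (0 : ℝ) < 8 * 8 ^ j := by linarith
  have e1 : ((2 : ℝ) ^ (j * q) / (8 * 8 ^ j)) ^ (-s) =
      (8 * 8 ^ j : ℝ) ^ s * (2 : ℝ) ^ (-((j : ℝ) * (q * s))) := by
    rw [Real.rpow_neg (by positivity), Real.div_rpow (by positivity) hU0.le, inv_div,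
      div_eq_mul_inv, ← Real.rpow_natCast 2 (j * q), ← Real.rpow_mul (by norm_num),
      ← Real.rpow_neg (by norm_num)]
    congr 2
    push_cast
    ring
  have e2 : (8 * 8 ^ j : ℝ) ^ s ≤ 8 * 8 ^ j := by
    calc (8 * 8 ^ j : ℝ) ^ s ≤ (8 * 8 ^ j : ℝ) ^ (1 : ℝ) :=
          Real.rpow_le_rpow_of_exponent_le hU hs1
      _ = _ := Real.rpow_one _
  have e3 : (2 : ℝ) ^ (-((j : ℝ) * (q * s))) ≤ (1 / 64) ^ j * (1 / 2) ^ j *
      ((4 : ℝ) ^ j) ^ (-C1) := by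
    have h1 : (2 : ℝ) ^ (-((j : ℝ) * (q * s))) ≤ (2 : ℝ) ^ (-((j : ℝ) * (7 + 2 * C1))) := by
      refine Real.rpow_le_rpow_of_exponent_le (by norm_num) ?_
      have hj : (0 : ℝ) ≤ j := Nat.cast_nonneg j
      nlinarith [mul_le_mul_of_nonneg_left hq hj]
    refine h1.trans (le_of_eq ?_)
    have h2 : ((1 / 64 : ℝ)) ^ j = (2 : ℝ) ^ (-((j : ℝ) * 6)) := by
      rw [one_div, inv_pow, ← Real.rpow_natCast 64 j, ← Real.rpow_neg (by norm_num)]
      rw [show (64 : ℝ) = 2 ^ (6 : ℝ) by norm_num, ← Real.rpow_mul (by norm_num)]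
      congr 1
      ring
    have h3 : ((1 / 2 : ℝ)) ^ j = (2 : ℝ) ^ (-(j : ℝ)) := by
      rw [one_div, inv_pow, ← Real.rpow_natCast 2 j, ← Real.rpow_neg (by norm_num)]
    have h4 : ((4 : ℝ) ^ j) ^ (-C1) = (2 : ℝ) ^ (-((j : ℝ) * (2 * C1))) := by
      rw [← Real.rpow_natCast 4 j, ← Real.rpow_mul (by norm_num),
        show (4 : ℝ) = 2 ^ (2 : ℝ) by norm_num, ← Real.rpow_mul (by norm_num)]
      congr 1
      ring
    rw [h2, h3, h4, ← Real.rpow_add (by norm_num), ← Real.rpow_add (by norm_num)]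
    congr 1
    ring
  have e4 : ((4 : ℝ) ^ j) ^ (-C1) ≤ 4 ^ C1 * t ^ (-C1) := by
    have h1 : t / 4 ≤ (4 : ℝ) ^ j := by linarith
    calc ((4 : ℝ) ^ j) ^ (-C1) ≤ (t / 4) ^ (-C1) :=
          Real.rpow_le_rpow_of_nonpos (by positivity) h1 (by linarith)
      _ = 4 ^ C1 * t ^ (-C1) := by
          rw [Real.div_rpow ht.le (by norm_num), Real.rpow_neg (by norm_num : (0 : ℝ) ≤ 4),
            div_inv_eq_mul, mul_comm]
  have e5 : (2 : ℝ) ^ (-((j : ℝ) * (q * s))) ≤ (1 / 64) ^ j * (1 / 2) ^ j *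
      (4 ^ C1 * t ^ (-C1)) :=
    e3.trans (mul_le_mul_of_nonneg_left e4 (by positivity))
  rw [e1]
  calc (8 * 8 ^ j : ℝ) / T * ((8 * 8 ^ j : ℝ) ^ s * (2 : ℝ) ^ (-((j : ℝ) * (q * s))))
      ≤ (8 * 8 ^ j : ℝ) / T * ((8 * 8 ^ j) * ((1 / 64) ^ j * (1 / 2) ^ j *
          (4 ^ C1 * t ^ (-C1)))) := by
        refine mul_le_mul_of_nonneg_left ?_ (by positivity)
        exact mul_le_mul e2 e5 (Real.rpow_nonneg (by norm_num) _) hU0.le
    _ = 64 * ((8 : ℝ) ^ j * 8 ^ j * (1 / 64) ^ j) * (4 ^ C1 * t ^ (-C1) * (1 / 2) ^ j) / T := by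
        ring
    _ = _ := by
        have : (8 : ℝ) ^ j * 8 ^ j * (1 / 64) ^ j = 1 := by
          rw [← mul_pow, ← mul_pow]
          norm_num
        rw [this]
        ring

open Classical in
/-- **class (H) at one scale `T`, all depths** -/
theorem heavy_scale {η C C1 : ℝ} (hM : 0 < M) (hη0 : 0 ≤ η) (hη1 : η < 1) (hC : 0 ≤ C)
    (hC1 : 0 ≤ C1)
    (HVW : ∀ M' : ℕ, M' ∣ M → ∀ f f' : ℕ → ℝ, (∀ b, 0 ≤ f b ∧ f b ≤ 1) →
      (∀ b, 0 ≤ f' b ∧ f' b ≤ 1) → ∀ X : ℝ, 0 < X →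
      frm M' (fun b c => if X ≤ (Nat.gcd b c : ℝ) ∧ (Nat.gcd b c : ℝ) < 2 * X
        then f b * f' c else 0) ≤ C * X ^ η * (Ex M' f * Ex M' f') ^ ((1 + η) / 2))
    {L t T : ℝ} (hL : 0 < L) (ht : 0 < t) (hT : 0 < T) (X : ℕ) {q : ℕ}
    (hq : 7 + 2 * C1 ≤ q * ((1 - η) / 2))
    {f f' : ℕ → ℝ} (hf : ∀ b, 0 ≤ f b ∧ f b ≤ 1) (hf' : ∀ b, 0 ≤ f' b ∧ f' b ≤ 1) :
    L * frm M (fun b c => if (Dp F L t q X f b ∧ F.good X b c) ∧
        T * L ≤ (Nat.gcd b c : ℝ) ∧ (Nat.gcd b c : ℝ) < 2 * (T * L) then f b * f' c else 0) ≤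
      128 * 4 ^ C1 * C * (T ^ (η - 1) * t ^ (-C1)) * (L * Ex M f) *
        (L * Ex M f') ^ ((1 + η) / 2) := by
  -- the depth class of a word
  have hex : ∀ b, ∃ j : ℕ, Dp F L t q X f b →
      (t ≤ 4 * 4 ^ j ∧ (F.uu X b : ℝ) ≤ (8 * 8 ^ j) * L ∧ ∃ y ≤ X,
        (2 : ℝ) ^ (j * q) / (8 * 8 ^ j) * (8 * 8 ^ j) ≤
          (low y b : ℝ) * mass M f y (upp y b)) := by
    intro b
    by_cases hb : Dp F L t q X f b
    · obtain ⟨K, h1, h2, h3, y, hy, h4⟩ := hb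
      obtain ⟨j, hj1, hj2⟩ := exists_nat_pow_near h1 (by norm_num : (1 : ℝ) < 2)
      refine ⟨j, fun _ => ⟨?_, ?_, y, hy, ?_⟩⟩
      · have h5 : K ^ 2 ≤ ((2 : ℝ) ^ (j + 1)) ^ 2 := pow_le_pow_left₀ (by linarith) hj2.le 2
        have h6 : ((2 : ℝ) ^ (j + 1)) ^ 2 = 4 * 4 ^ j := by
          rw [show (4 : ℝ) = 2 ^ 2 by norm_num, ← pow_mul, ← pow_mul, ← pow_add]
          congr 1
          ring
        linarith
      · have h5 : K ^ 3 ≤ ((2 : ℝ) ^ (j + 1)) ^ 3 := pow_le_pow_left₀ (by linarith) hj2.le 3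
        have h6 : ((2 : ℝ) ^ (j + 1)) ^ 3 = 8 * 8 ^ j := by
          rw [show (8 : ℝ) = 2 ^ 3 by norm_num, ← pow_mul, ← pow_mul, ← pow_add]
          congr 1
          ring
        rw [← h6]
        exact h3.trans (mul_le_mul_of_nonneg_right h5 hL.le)
      · rw [div_mul_cancel₀ _ (by positivity), pow_mul]
        exact (pow_le_pow_left₀ (by positivity) hj1 q).trans h4
    · exact ⟨0, fun h => absurd h hb⟩
  choose jj hjj using hex
  set N := M.divisors.sup jj + 1 with hN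
  have hjN : ∀ b, b ∣ M → jj b ∈ range N := fun b hb => by
    rw [mem_range, hN, Nat.lt_succ_iff]
    exact Finset.le_sup (f := jj) (Nat.mem_divisors.2 ⟨hb, hM.ne'⟩)
  set m := L * Ex M f with hm
  set m' := L * Ex M f' with hm'
  have hm0 : 0 ≤ m := mul_nonneg hL.le (Ex_nonneg _ fun b => (hf b).1)
  have hm0' : 0 ≤ m' := mul_nonneg hL.le (Ex_nonneg _ fun b => (hf' b).1)
  have hmm : 0 ≤ m * m' ^ ((1 + η) / 2) := mul_nonneg hm0 (Real.rpow_nonneg hm0' _)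
  have h1 : frm M (fun b c => if (Dp F L t q X f b ∧ F.good X b c) ∧
        T * L ≤ (Nat.gcd b c : ℝ) ∧ (Nat.gcd b c : ℝ) < 2 * (T * L) then f b * f' c else 0) ≤
      ∑ j ∈ range N, frm M (fun b c => if t ≤ 4 * 4 ^ j ∧ ((F.uu X b : ℝ) ≤ (8 * 8 ^ j) * L ∧
        (∃ y ≤ X, (2 : ℝ) ^ (j * q) / (8 * 8 ^ j) * (8 * 8 ^ j) ≤
          (low y b : ℝ) * mass M f y (upp y b)) ∧ F.good X b c) ∧
        T * L ≤ (Nat.gcd b c : ℝ) ∧ (Nat.gcd b c : ℝ) < 2 * (T * L)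
          then f b * f' c else 0) := by
    rw [frm_sum]
    refine frm_mono fun b c hb hc => ?_
    have hnn : ∀ j ∈ range N, (0 : ℝ) ≤ (if t ≤ 4 * 4 ^ j ∧
        ((F.uu X b : ℝ) ≤ (8 * 8 ^ j) * L ∧
        (∃ y ≤ X, (2 : ℝ) ^ (j * q) / (8 * 8 ^ j) * (8 * 8 ^ j) ≤
          (low y b : ℝ) * mass M f y (upp y b)) ∧ F.good X b c) ∧
        T * L ≤ (Nat.gcd b c : ℝ) ∧ (Nat.gcd b c : ℝ) < 2 * (T * L)
          then f b * f' c else 0) := fun j _ => by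
      split_ifs
      · exact mul_nonneg (hf b).1 (hf' c).1
      · exact le_rfl
    by_cases h : (Dp F L t q X f b ∧ F.good X b c) ∧
        T * L ≤ (Nat.gcd b c : ℝ) ∧ (Nat.gcd b c : ℝ) < 2 * (T * L)
    · rw [if_pos h]
      obtain ⟨⟨h2, h3⟩, h4, h5⟩ := h
      obtain ⟨h6, h7, h8⟩ := hjj b h2
      refine le_trans (le_of_eq ?_) (Finset.single_le_sum hnn (hjN b hb))
      rw [if_pos ⟨h6, ⟨h7, h8, h3⟩, h4, h5⟩]
    · rw [if_neg h]
      exact Finset.sum_nonneg hnn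
  have h2 : ∀ j ∈ range N, L * frm M (fun b c => if t ≤ 4 * 4 ^ j ∧
        ((F.uu X b : ℝ) ≤ (8 * 8 ^ j) * L ∧
        (∃ y ≤ X, (2 : ℝ) ^ (j * q) / (8 * 8 ^ j) * (8 * 8 ^ j) ≤
          (low y b : ℝ) * mass M f y (upp y b)) ∧ F.good X b c) ∧
        T * L ≤ (Nat.gcd b c : ℝ) ∧ (Nat.gcd b c : ℝ) < 2 * (T * L)
          then f b * f' c else 0) ≤
      (64 * 4 ^ C1 * C * (T ^ (η - 1) * t ^ (-C1)) * (m * m' ^ ((1 + η) / 2))) *
        (1 / 2) ^ j := by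
    intro j _
    have hrhs : 0 ≤ (64 * 4 ^ C1 * C * (T ^ (η - 1) * t ^ (-C1)) *
        (m * m' ^ ((1 + η) / 2))) * (1 / 2) ^ j := by positivity
    by_cases htj : t ≤ 4 * 4 ^ j
    · have h3 := heavy_one (F := F) hM hη0 hη1.le hC HVW (U := 8 * 8 ^ j)
        (Γ := (2 : ℝ) ^ (j * q) / (8 * 8 ^ j)) hL hT (by positivity) (by positivity) X hf hf'
      have e1 : frm M (fun b c => if t ≤ 4 * 4 ^ j ∧ ((F.uu X b : ℝ) ≤ (8 * 8 ^ j) * L ∧
          (∃ y ≤ X, (2 : ℝ) ^ (j * q) / (8 * 8 ^ j) * (8 * 8 ^ j) ≤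
          (low y b : ℝ) * mass M f y (upp y b)) ∧ F.good X b c) ∧
          T * L ≤ (Nat.gcd b c : ℝ) ∧ (Nat.gcd b c : ℝ) < 2 * (T * L)
          then f b * f' c else 0) =
          frm M (fun b c => if ((F.uu X b : ℝ) ≤ (8 * 8 ^ j) * L ∧
          (∃ y ≤ X, (2 : ℝ) ^ (j * q) / (8 * 8 ^ j) * (8 * 8 ^ j) ≤
          (low y b : ℝ) * mass M f y (upp y b)) ∧ F.good X b c) ∧
          T * L ≤ (Nat.gcd b c : ℝ) ∧ (Nat.gcd b c : ℝ) < 2 * (T * L)
          then f b * f' c else 0) := by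
        refine frm_congr fun b c _ _ => ?_
        refine if_congr ?_ rfl rfl
        exact ⟨fun h => h.2, fun h => ⟨htj, h⟩⟩
      rw [e1]
      refine h3.trans ?_
      have h4 := num_class hη1 hη0 hC1 hT ht hq j htj
      have h5 : C * T ^ η * ((8 * 8 ^ j : ℝ) / T *
          ((2 : ℝ) ^ (j * q) / (8 * 8 ^ j)) ^ (-((1 - η) / 2))) ≤
          C * T ^ η * (64 * 4 ^ C1 * t ^ (-C1) * (1 / 2) ^ j / T) :=
        mul_le_mul_of_nonneg_left h4 (mul_nonneg hC (Real.rpow_nonneg hT.le _))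
      have h6 : T ^ η / T = T ^ (η - 1) := by rw [Real.rpow_sub_one hT.ne']
      calc C * T ^ η * ((8 * 8 ^ j : ℝ) / T *
          ((2 : ℝ) ^ (j * q) / (8 * 8 ^ j)) ^ (-((1 - η) / 2))) * (L * Ex M f) *
          (L * Ex M f') ^ ((1 + η) / 2)
          = (C * T ^ η * ((8 * 8 ^ j : ℝ) / T *
          ((2 : ℝ) ^ (j * q) / (8 * 8 ^ j)) ^ (-((1 - η) / 2)))) *
            (m * m' ^ ((1 + η) / 2)) := by rw [hm, hm']; ring
        _ ≤ (C * T ^ η * (64 * 4 ^ C1 * t ^ (-C1) * (1 / 2) ^ j / T)) *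
            (m * m' ^ ((1 + η) / 2)) := mul_le_mul_of_nonneg_right h5 hmm
        _ = (64 * 4 ^ C1 * C * ((T ^ η / T) * t ^ (-C1)) * (m * m' ^ ((1 + η) / 2))) *
            (1 / 2) ^ j := by ring
        _ = _ := by rw [h6]
    · have e1 : frm M (fun b c => if t ≤ 4 * 4 ^ j ∧ ((F.uu X b : ℝ) ≤ (8 * 8 ^ j) * L ∧
          (∃ y ≤ X, (2 : ℝ) ^ (j * q) / (8 * 8 ^ j) * (8 * 8 ^ j) ≤
          (low y b : ℝ) * mass M f y (upp y b)) ∧ F.good X b c) ∧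
          T * L ≤ (Nat.gcd b c : ℝ) ∧ (Nat.gcd b c : ℝ) < 2 * (T * L)
          then f b * f' c else 0) = 0 := by
        unfold frm
        refine Finset.sum_eq_zero fun b _ => Finset.sum_eq_zero fun c _ => ?_
        beta_reduce
        rw [if_neg (fun h => htj h.1), mul_zero]
      rw [e1, mul_zero]
      exact hrhs
  have hgeo : ∑ j ∈ range N, ((1 / 2 : ℝ)) ^ j ≤ 2 := sum_geometric_two_le N
  have hA : 0 ≤ 64 * 4 ^ C1 * C * (T ^ (η - 1) * t ^ (-C1)) * (m * m' ^ ((1 + η) / 2)) := by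
    positivity
  calc L * frm M (fun b c => if (Dp F L t q X f b ∧ F.good X b c) ∧
        T * L ≤ (Nat.gcd b c : ℝ) ∧ (Nat.gcd b c : ℝ) < 2 * (T * L) then f b * f' c else 0)
      ≤ L * ∑ j ∈ range N, frm M (fun b c => if t ≤ 4 * 4 ^ j ∧
        ((F.uu X b : ℝ) ≤ (8 * 8 ^ j) * L ∧
        (∃ y ≤ X, (2 : ℝ) ^ (j * q) / (8 * 8 ^ j) * (8 * 8 ^ j) ≤
          (low y b : ℝ) * mass M f y (upp y b)) ∧ F.good X b c) ∧
        T * L ≤ (Nat.gcd b c : ℝ) ∧ (Nat.gcd b c : ℝ) < 2 * (T * L)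
          then f b * f' c else 0) := mul_le_mul_of_nonneg_left h1 hL.le
    _ ≤ ∑ j ∈ range N, (64 * 4 ^ C1 * C * (T ^ (η - 1) * t ^ (-C1)) *
        (m * m' ^ ((1 + η) / 2))) * (1 / 2) ^ j := by
        rw [Finset.mul_sum]
        exact Finset.sum_le_sum h2
    _ = (64 * 4 ^ C1 * C * (T ^ (η - 1) * t ^ (-C1)) * (m * m' ^ ((1 + η) / 2))) *
        ∑ j ∈ range N, (1 / 2) ^ j := by rw [Finset.mul_sum]
    _ ≤ (64 * 4 ^ C1 * C * (T ^ (η - 1) * t ^ (-C1)) * (m * m' ^ ((1 + η) / 2))) * 2 :=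
        mul_le_mul_of_nonneg_left hgeo hA
    _ = _ := by ring

/-! ### Sum over the scales -/

/-- trivial bound at scale `≤ T` -/
lemma triv_scale {L T : ℝ} (hL : 0 < L) (hT : 0 < T) {f f' : ℕ → ℝ} (hf : ∀ b, 0 ≤ f b)
    (hf' : ∀ b, 0 ≤ f' b) {P : ℕ → ℕ → Prop} [∀ b c, Decidable (P b c)]
    (hP : ∀ b c, P b c → (Nat.gcd b c : ℝ) < 2 * (T * L)) :
    L * frm M (fun b c => if P b c then f b * f' c else 0) ≤
      2 * T * (L * Ex M f) * (L * Ex M f') := by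
  have h1 : frm M (fun b c => if P b c then f b * f' c else 0) ≤
      2 * T * L * (Ex M f * Ex M f') := by
    unfold frm Ex
    rw [Finset.sum_mul_sum, Finset.mul_sum]
    refine Finset.sum_le_sum fun b _ => ?_
    rw [Finset.mul_sum]
    refine Finset.sum_le_sum fun c _ => ?_
    have n1 := nu_nonneg M b
    have n2 := nu_nonneg M c
    have n3 := hf b
    have n4 := hf' c
    have n5 : 0 ≤ nu M b * f b * (nu M c * f' c) :=
      mul_nonneg (mul_nonneg n1 n3) (mul_nonneg n2 n4)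
    beta_reduce
    by_cases h : P b c
    · rw [if_pos h]
      have h2 := (hP b c h).le
      calc (Nat.gcd b c : ℝ) * nu M b * nu M c * (f b * f' c)
          = (Nat.gcd b c : ℝ) * (nu M b * f b * (nu M c * f' c)) := by ring
        _ ≤ (2 * (T * L)) * (nu M b * f b * (nu M c * f' c)) :=
          mul_le_mul_of_nonneg_right h2 n5
        _ = _ := by ring
    · rw [if_neg h, mul_zero]
      positivity
  calc L * frm M (fun b c => if P b c then f b * f' c else 0)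
      ≤ L * (2 * T * L * (Ex M f * Ex M f')) := mul_le_mul_of_nonneg_left h1 hL.le
    _ = _ := by ring

lemma geo_le {ρ : ℝ} (h0 : 0 ≤ ρ) (h1 : ρ < 1) (N : ℕ) :
    ∑ n ∈ range N, ρ ^ n ≤ 1 / (1 - ρ) := by
  rw [le_div_iff₀ (by linarith), geom_sum_mul_neg]
  have : 0 ≤ ρ ^ N := pow_nonneg h0 N
  linarith

lemma min_le_interp {x a b : ℝ} (hx : 0 ≤ x) (ha : x ≤ a) (hb : x ≤ b) :
    x ≤ a ^ (1 / 4 : ℝ) * b ^ (3 / 4 : ℝ) := by
  have e : x = x ^ (1 / 4 : ℝ) * x ^ (3 / 4 : ℝ) := by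
    rw [← Real.rpow_add' hx (by norm_num)]
    norm_num
  rw [e]
  exact mul_le_mul (Real.rpow_le_rpow hx ha (by norm_num))
    (Real.rpow_le_rpow hx hb (by norm_num)) (Real.rpow_nonneg hx _)
    (Real.rpow_nonneg (hx.trans ha) _)

open Classical in
/-- **sum over all scales**: abstract form.  At every scale `T` the energy is
`≤ A T^(η-1)`; the trivial bound pays the small scales. -/
theorem sum_scales {η A : ℝ} (hη0 : 0 ≤ η) (hη1 : η < 1) (hM : 0 < M) {L : ℝ}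
    (hL : 0 < L) (hA : 0 ≤ A) {f f' : ℕ → ℝ} (hf : ∀ b, 0 ≤ f b) (hf' : ∀ b, 0 ≤ f' b)
    (P : ℕ → ℕ → Prop)
    (h : ∀ T : ℝ, 0 < T → L * frm M (fun b c => if P b c ∧
        T * L ≤ (Nat.gcd b c : ℝ) ∧ (Nat.gcd b c : ℝ) < 2 * (T * L) then f b * f' c else 0) ≤
      A * T ^ (η - 1)) :
    L * frm M (fun b c => if P b c then f b * f' c else 0) ≤
      A / (1 - 2 ^ (η - 1)) +
        4 * (A ^ (1 / 4 : ℝ) * (2 * ((L * Ex M f) * (L * Ex M f'))) ^ (3 / 4 : ℝ)) := by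
  set W : ℝ := (L * Ex M f) * (L * Ex M f') with hW
  have hW0 : 0 ≤ W := mul_nonneg (mul_nonneg hL.le (Ex_nonneg _ hf))
    (mul_nonneg hL.le (Ex_nonneg _ hf'))
  -- the scale of a pair
  have hex : ∀ b c : ℕ, ∃ n : ℤ, b ∣ M → ((2 : ℝ) ^ n * L ≤ (Nat.gcd b c : ℝ) ∧
      (Nat.gcd b c : ℝ) < 2 * ((2 : ℝ) ^ n * L)) := by
    intro b c
    by_cases hb : b ∣ M
    · have hg : (0 : ℝ) < (Nat.gcd b c : ℝ) / L := by
        refine div_pos ?_ hL
        exact_mod_cast Nat.gcd_pos_of_pos_left c (Nat.pos_of_dvd_of_pos hb hM)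
      obtain ⟨n, hn1, hn2⟩ := exists_mem_Ico_zpow hg (by norm_num : (1 : ℝ) < 2)
      refine ⟨n, fun _ => ⟨(le_div_iff₀ hL).1 hn1, ?_⟩⟩
      rw [div_lt_iff₀ hL, zpow_add₀ (by norm_num), zpow_one] at hn2
      linarith
    · exact ⟨0, fun h => absurd h hb⟩
  choose sc hsc using hex
  set N := (M.divisors ×ˢ M.divisors).sup (fun x => (sc x.1 x.2).natAbs) + 1 with hN
  have hscN : ∀ b c, b ∣ M → c ∣ M → (sc b c).natAbs < N := fun b c hb hc => by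
    rw [hN, Nat.lt_succ_iff]
    have hmem : (b, c) ∈ M.divisors ×ˢ M.divisors :=
      Finset.mem_product.2 ⟨Nat.mem_divisors.2 ⟨hb, hM.ne'⟩, Nat.mem_divisors.2 ⟨hc, hM.ne'⟩⟩
    exact Finset.le_sup (f := fun x : ℕ × ℕ => (sc x.1 x.2).natAbs) hmem
  -- the two halves
  let Q : ℝ → ℕ → ℕ → ℝ := fun T b c => if P b c ∧
        T * L ≤ (Nat.gcd b c : ℝ) ∧ (Nat.gcd b c : ℝ) < 2 * (T * L) then f b * f' c else 0
  have hQ0 : ∀ T b c, 0 ≤ Q T b c := fun T b c => by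
    simp only [Q]
    split_ifs
    · exact mul_nonneg (hf b) (hf' c)
    · exact le_rfl
  have hsplit : frm M (fun b c => if P b c then f b * f' c else 0) ≤
      ∑ n ∈ range N, frm M (Q ((2 : ℝ) ^ n)) + ∑ n ∈ range N, frm M (Q (((2 : ℝ) ^ (n + 1))⁻¹)) := by
    rw [frm_sum, frm_sum]
    have hadd : ∀ G H : ℕ → ℕ → ℝ, frm M G + frm M H = frm M (fun b c => G b c + H b c) := by
      intro G H
      unfold frm
      rw [← Finset.sum_add_distrib]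
      refine Finset.sum_congr rfl fun b _ => ?_
      rw [← Finset.sum_add_distrib]
      refine Finset.sum_congr rfl fun c _ => ?_
      ring
    rw [hadd]
    refine frm_mono fun b c hb hc => ?_
    have s1 : 0 ≤ ∑ n ∈ range N, Q ((2 : ℝ) ^ n) b c := Finset.sum_nonneg fun n _ => hQ0 _ _ _
    have s2 : 0 ≤ ∑ n ∈ range N, Q (((2 : ℝ) ^ (n + 1))⁻¹) b c :=
      Finset.sum_nonneg fun n _ => hQ0 _ _ _
    by_cases hp : P b c
    · rw [if_pos hp]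
      have h3 := hsc b c hb
      have h4 := hscN b c hb hc
      rcases le_or_gt 0 (sc b c) with h5 | h5
      · obtain ⟨n, hn⟩ := Int.eq_ofNat_of_zero_le h5
        rw [hn] at h3 h4
        have h6 : n ∈ range N := by
          rw [Finset.mem_range]
          simpa using h4
        have h7 := Finset.single_le_sum (f := fun n : ℕ => Q ((2 : ℝ) ^ n) b c)
          (fun n _ => hQ0 _ _ _) h6
        have h8 : Q ((2 : ℝ) ^ n) b c = f b * f' c := by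
          simp only [Q]
          rw [if_pos ⟨hp, by simpa using h3⟩]
        rw [h8] at h7
        linarith
      · obtain ⟨n, hn⟩ := Int.eq_negSucc_of_lt_zero h5
        rw [hn] at h3 h4
        have h6 : n ∈ range N := by
          rw [Finset.mem_range]
          rw [Int.natAbs_negSucc] at h4
          omega
        have h7 := Finset.single_le_sum (f := fun n : ℕ => Q (((2 : ℝ) ^ (n + 1))⁻¹) b c)
          (fun n _ => hQ0 _ _ _) h6
        have h8 : Q (((2 : ℝ) ^ (n + 1))⁻¹) b c = f b * f' c := by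
          simp only [Q]
          rw [if_pos ⟨hp, by rw [zpow_negSucc] at h3; exact h3⟩]
        rw [h8] at h7
        linarith
    · rw [if_neg hp]
      linarith
  -- large scales
  have hρ0 : (0 : ℝ) ≤ 2 ^ (η - 1) := Real.rpow_nonneg (by norm_num) _
  have hρ1 : (2 : ℝ) ^ (η - 1) < 1 :=
    Real.rpow_lt_one_of_one_lt_of_neg (by norm_num) (by linarith)
  have h1 : L * ∑ n ∈ range N, frm M (Q ((2 : ℝ) ^ n)) ≤ A / (1 - 2 ^ (η - 1)) := by
    rw [Finset.mul_sum]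
    calc ∑ n ∈ range N, L * frm M (Q ((2 : ℝ) ^ n)) ≤
        ∑ n ∈ range N, A * ((2 : ℝ) ^ (η - 1)) ^ n := by
          refine Finset.sum_le_sum fun n _ => ?_
          refine (h ((2 : ℝ) ^ n) (by positivity)).trans (le_of_eq ?_)
          rw [← Real.rpow_natCast 2 n, ← Real.rpow_mul (by norm_num), mul_comm (n : ℝ),
            Real.rpow_mul (by norm_num), Real.rpow_natCast]
      _ = A * ∑ n ∈ range N, ((2 : ℝ) ^ (η - 1)) ^ n := by rw [Finset.mul_sum]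
      _ ≤ A * (1 / (1 - 2 ^ (η - 1))) := mul_le_mul_of_nonneg_left (geo_le hρ0 hρ1 N) hA
      _ = _ := by ring
  -- small scales
  have h2 : L * ∑ n ∈ range N, frm M (Q (((2 : ℝ) ^ (n + 1))⁻¹)) ≤
      4 * (A ^ (1 / 4 : ℝ) * (2 * W) ^ (3 / 4 : ℝ)) := by
    set G := A ^ (1 / 4 : ℝ) * (2 * W) ^ (3 / 4 : ℝ) with hG
    have hG0 : 0 ≤ G := mul_nonneg (Real.rpow_nonneg hA _) (Real.rpow_nonneg (by positivity) _)
    have hs0 : (0 : ℝ) ≤ 2 ^ (-(1 / 2) : ℝ) := Real.rpow_nonneg (by norm_num) _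
    have hs1 : (2 : ℝ) ^ (-(1 / 2) : ℝ) ≤ 3 / 4 := by
      have h5 : ((2 : ℝ) ^ (-(1 / 2) : ℝ)) ^ 2 = 1 / 2 := by
        rw [← Real.rpow_natCast, ← Real.rpow_mul (by norm_num)]
        norm_num
      nlinarith
    rw [Finset.mul_sum]
    calc ∑ n ∈ range N, L * frm M (Q (((2 : ℝ) ^ (n + 1))⁻¹)) ≤
        ∑ n ∈ range N, G * ((2 : ℝ) ^ (-(1 / 2) : ℝ)) ^ n := by
          refine Finset.sum_le_sum fun n _ => ?_
          set T : ℝ := ((2 : ℝ) ^ (n + 1))⁻¹ with hT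
          have hT0 : 0 < T := by positivity
          have hT1 : T ≤ 1 := by
            rw [hT]
            exact inv_le_one_of_one_le₀ (one_le_pow₀ (by norm_num))
          have h5 := h T hT0
          have h6 : L * frm M (Q T) ≤ 2 * T * (L * Ex M f) * (L * Ex M f') :=
            triv_scale hL hT0 hf hf' (fun b c hbc => hbc.2.2)
          have h7 : 0 ≤ L * frm M (Q T) := by
            refine mul_nonneg hL.le ?_
            unfold frm
            refine Finset.sum_nonneg fun b _ => Finset.sum_nonneg fun c _ => ?_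
            have := hQ0 T b c
            have := nu_nonneg M b
            have := nu_nonneg M c
            positivity
          have h8 : L * frm M (Q T) ≤ (A * T ^ (η - 1)) ^ (1 / 4 : ℝ) *
              (T * (2 * W)) ^ (3 / 4 : ℝ) :=
            min_le_interp h7 h5 (h6.trans (le_of_eq (by rw [hW]; ring)))
          refine h8.trans ?_
          rw [Real.mul_rpow hA (Real.rpow_nonneg hT0.le _), Real.mul_rpow hT0.le (by positivity),
            ← Real.rpow_mul hT0.le]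
          have h9 : T ^ ((η - 1) * (1 / 4)) * T ^ (3 / 4 : ℝ) ≤
              ((2 : ℝ) ^ (-(1 / 2) : ℝ)) ^ n := by
            rw [← Real.rpow_add hT0]
            calc T ^ ((η - 1) * (1 / 4) + 3 / 4) ≤ T ^ (1 / 2 : ℝ) :=
                  Real.rpow_le_rpow_of_exponent_ge hT0 hT1 (by linarith)
              _ = ((2 : ℝ) ^ (-(1 / 2) : ℝ)) ^ (n + 1) := by
                  rw [hT, Real.inv_rpow (by positivity), ← Real.rpow_natCast 2 (n + 1),
                    ← Real.rpow_mul (by norm_num), ← Real.rpow_neg (by norm_num),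
                    ← Real.rpow_natCast _ (n + 1), ← Real.rpow_mul (by norm_num)]
                  congr 1
                  ring
              _ ≤ ((2 : ℝ) ^ (-(1 / 2) : ℝ)) ^ n :=
                  pow_le_pow_of_le_one hs0 (by linarith) (Nat.le_succ n)
          calc A ^ (1 / 4 : ℝ) * T ^ ((η - 1) * (1 / 4)) *
                (T ^ (3 / 4 : ℝ) * (2 * W) ^ (3 / 4 : ℝ))
              = G * (T ^ ((η - 1) * (1 / 4)) * T ^ (3 / 4 : ℝ)) := by rw [hG]; ring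
            _ ≤ _ := mul_le_mul_of_nonneg_left h9 hG0
      _ = G * ∑ n ∈ range N, ((2 : ℝ) ^ (-(1 / 2) : ℝ)) ^ n := by rw [Finset.mul_sum]
      _ ≤ G * 4 := by
          refine mul_le_mul_of_nonneg_left ((geo_le hs0 (by linarith) N).trans ?_) hG0
          rw [div_le_iff₀ (by linarith)]
          linarith
      _ = _ := by ring
  calc L * frm M (fun b c => if P b c then f b * f' c else 0)
      ≤ L * (∑ n ∈ range N, frm M (Q ((2 : ℝ) ^ n)) +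
          ∑ n ∈ range N, frm M (Q (((2 : ℝ) ^ (n + 1))⁻¹))) :=
        mul_le_mul_of_nonneg_left hsplit hL.le
    _ = L * ∑ n ∈ range N, frm M (Q ((2 : ℝ) ^ n)) +
          L * ∑ n ∈ range N, frm M (Q (((2 : ℝ) ^ (n + 1))⁻¹)) := by ring
    _ ≤ _ := add_le_add h1 h2

/-- HVW in the form wanted by `HeavyC_899` -/
lemma hvw_form {η : ℝ} (hη0 : 0 < η) (hη1 : η < 1) : ∃ C : ℝ, 0 < C ∧ ∀ M : ℕ, 0 < M →
    ∀ M' : ℕ, M' ∣ M → ∀ f f' : ℕ → ℝ, (∀ b, 0 ≤ f b ∧ f b ≤ 1) →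
      (∀ b, 0 ≤ f' b ∧ f' b ≤ 1) → ∀ X : ℝ, 0 < X →
      (frm M' (open Classical in fun b c =>
        if X ≤ (Nat.gcd b c : ℝ) ∧ (Nat.gcd b c : ℝ) < 2 * X
        then f b * f' c else 0)) ≤ C * X ^ η * (Ex M' f * Ex M' f') ^ ((1 + η) / 2) := by
  classical
  obtain ⟨C, hC, h⟩ := FLamx326.hvw_ex (κ := (1 + η) / 2) (by linarith) (by linarith)
  refine ⟨C, hC, fun M hM M' hM' f f' hf hf' X hX => ?_⟩
  have h1 := h M' (Nat.pos_of_dvd_of_pos hM' hM) X hX f f' (fun b => (hf b).1)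
    (fun b => (hf b).2) (fun b => (hf' b).1) (fun b => (hf' b).2)
  have e : 2 * ((1 + η) / 2) - 1 = η := by ring
  rw [e] at h1
  refine le_trans (le_of_eq ?_) h1
  unfold FLamx326.En
  refine frm_congr fun b c _ _ => ?_
  congr

lemma alg_fin {a c1 c2 τ P1 P2 : ℝ} (h : a ≤ c1 * τ * P1) (hc1 : 0 ≤ c1) (hc2 : 0 ≤ c2)
    (hτ : 0 ≤ τ) (h1 : 0 ≤ P1) (h2 : 0 ≤ P2) :
    a + 4 * (c2 * τ * P2) ≤ (c1 + 4 * c2) * τ * (P1 + P2) := by
  have e : (c1 + 4 * c2) * τ * (P1 + P2) =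
      c1 * τ * P1 + 4 * (c2 * τ * P2) + (c1 * τ * P2 + 4 * c2 * τ * P1) := by ring
  have h3 : 0 ≤ c1 * τ * P2 + 4 * c2 * τ * P1 := by positivity
  linarith

open Classical in
/-- **STEP 0 / class (H), general masses**: all depths, all scales -/
theorem stepH_gen {η : ℝ} (hη0 : 0 < η) (hη1 : η < 1) {C' : ℝ} (hC' : 0 ≤ C') :
    ∃ q0 : ℕ, ∃ D : ℝ, 0 < D ∧ ∀ (M : ℕ) (F : FL M) (L t : ℝ) (q X : ℕ) (f f' : ℕ → ℝ),
      0 < M → 0 < L → 1 ≤ t → q0 ≤ q →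
      (∀ b, 0 ≤ f b ∧ f b ≤ 1) → (∀ b, 0 ≤ f' b ∧ f' b ≤ 1) →
      L * frm M (fun b c => if Dp F L t q X f b ∧ F.good X b c then f b * f' c else 0) ≤
        D * t ^ (-C') * ((L * Ex M f) * (L * Ex M f') ^ ((1 + η) / 2) +
          ((L * Ex M f) * (L * Ex M f') ^ ((1 + η) / 2)) ^ (1 / 4 : ℝ) *
            ((L * Ex M f) * (L * Ex M f')) ^ (3 / 4 : ℝ)) := by
  obtain ⟨C, hC, hH⟩ := hvw_form hη0 hη1
  have hs : 0 < (1 - η) / 2 := by linarith
  obtain ⟨q0, hq0⟩ := exists_nat_ge ((7 + 2 * (4 * C')) / ((1 - η) / 2))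
  have hρ1 : (2 : ℝ) ^ (η - 1) < 1 :=
    Real.rpow_lt_one_of_one_lt_of_neg (by norm_num) (by linarith)
  have hρ2 : 0 < 1 - (2 : ℝ) ^ (η - 1) := by linarith
  set A0 : ℝ := 128 * 4 ^ (4 * C') * C with hA0
  have hA0p : 0 < A0 := by positivity
  refine ⟨q0, A0 / (1 - 2 ^ (η - 1)) + 4 * (A0 ^ (1 / 4 : ℝ) * 2 ^ (3 / 4 : ℝ)), by positivity,
    fun M F L t q X f f' hM hL ht hqq hf hf' => ?_⟩
  have ht0 : 0 < t := by linarith
  have hq : 7 + 2 * (4 * C') ≤ q * ((1 - η) / 2) := by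
    rw [div_le_iff₀ hs] at hq0
    have : (q0 : ℝ) ≤ q := by exact_mod_cast hqq
    nlinarith
  set m := L * Ex M f with hm
  set m' := L * Ex M f' with hm'
  have hm0 : 0 ≤ m := mul_nonneg hL.le (Ex_nonneg _ fun b => (hf b).1)
  have hm0' : 0 ≤ m' := mul_nonneg hL.le (Ex_nonneg _ fun b => (hf' b).1)
  have hmr : 0 ≤ m' ^ ((1 + η) / 2) := Real.rpow_nonneg hm0' _
  have htc : 0 ≤ t ^ (-(4 * C')) := Real.rpow_nonneg ht0.le _
  set A : ℝ := A0 * t ^ (-(4 * C')) * (m * m' ^ ((1 + η) / 2)) with hA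
  have hAn : 0 ≤ A := by positivity
  have hC4 : 0 ≤ 4 * C' := by linarith
  have hsc : ∀ T : ℝ, 0 < T → L * frm M (fun b c => if (Dp F L t q X f b ∧ F.good X b c) ∧
      T * L ≤ (Nat.gcd b c : ℝ) ∧ (Nat.gcd b c : ℝ) < 2 * (T * L) then f b * f' c else 0) ≤
      A * T ^ (η - 1) := by
    intro T hT
    refine (heavy_scale hM hη0.le hη1 hC.le hC4 (hH M hM) hL ht0 hT X hq hf hf').trans
      (le_of_eq ?_)
    rw [hA, hA0, hm, hm']
    ring
  have h1 := sum_scales (η := η) (A := A) hη0.le hη1 hM hL hAn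
    (fun b => (hf b).1) (fun b => (hf' b).1) (fun b c => Dp F L t q X f b ∧ F.good X b c)
    (fun T hT => le_trans (le_of_eq (by
      congr 1
      refine frm_congr fun b c _ _ => ?_
      congr)) (hsc T hT))
  refine le_trans (le_of_eq ?_) (h1.trans ?_)
  · congr 1
    refine frm_congr fun b c _ _ => ?_
    congr
  have ht1 : t ^ (-(4 * C')) ≤ t ^ (-C') :=
    Real.rpow_le_rpow_of_exponent_le ht (by linarith)
  have ht2 : (t ^ (-(4 * C'))) ^ (1 / 4 : ℝ) = t ^ (-C') := by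
    rw [← Real.rpow_mul ht0.le]
    congr 1
    ring
  have htC : 0 ≤ t ^ (-C') := Real.rpow_nonneg ht0.le _
  have e1 : A / (1 - 2 ^ (η - 1)) ≤
      A0 / (1 - 2 ^ (η - 1)) * t ^ (-C') * (m * m' ^ ((1 + η) / 2)) := by
    calc A / (1 - 2 ^ (η - 1)) = A0 / (1 - 2 ^ (η - 1)) * (m * m' ^ ((1 + η) / 2)) *
          t ^ (-(4 * C')) := by rw [hA]; ring
      _ ≤ A0 / (1 - 2 ^ (η - 1)) * (m * m' ^ ((1 + η) / 2)) * t ^ (-C') :=
          mul_le_mul_of_nonneg_left ht1 (by positivity)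
      _ = _ := by ring
  have e2 : A ^ (1 / 4 : ℝ) * (2 * (m * m')) ^ (3 / 4 : ℝ) =
      (A0 ^ (1 / 4 : ℝ) * 2 ^ (3 / 4 : ℝ)) * t ^ (-C') *
        ((m * m' ^ ((1 + η) / 2)) ^ (1 / 4 : ℝ) * (m * m') ^ (3 / 4 : ℝ)) := by
    have e3 : (2 * (m * m')) ^ (3 / 4 : ℝ) = 2 ^ (3 / 4 : ℝ) * (m * m') ^ (3 / 4 : ℝ) :=
      Real.mul_rpow (by norm_num) (mul_nonneg hm0 hm0')
    have e4 : A ^ (1 / 4 : ℝ) = A0 ^ (1 / 4 : ℝ) * t ^ (-C') *
        (m * m' ^ ((1 + η) / 2)) ^ (1 / 4 : ℝ) := by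
      rw [hA, Real.mul_rpow (mul_nonneg hA0p.le htc) (mul_nonneg hm0 hmr),
        Real.mul_rpow hA0p.le htc, ht2]
    rw [e3, e4]
    ring
  rw [e2]
  have p1 : 0 ≤ m * m' ^ ((1 + η) / 2) := mul_nonneg hm0 hmr
  have p2 : 0 ≤ (m * m' ^ ((1 + η) / 2)) ^ (1 / 4 : ℝ) * (m * m') ^ (3 / 4 : ℝ) :=
    mul_nonneg (Real.rpow_nonneg p1 _) (Real.rpow_nonneg (mul_nonneg hm0 hm0') _)
  have p3 : 0 ≤ A0 / (1 - 2 ^ (η - 1)) := div_nonneg hA0p.le hρ2.le
  have p4 : 0 ≤ A0 ^ (1 / 4 : ℝ) * 2 ^ (3 / 4 : ℝ) :=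
    mul_nonneg (Real.rpow_nonneg hA0p.le _) (Real.rpow_nonneg (by norm_num) _)
  exact alg_fin e1 p3 p4 htC p1 p2

open Classical in
/-- **STEP 0 / class (H)**: `L ν(f), L ν(f') ≤ 1`: all depths, all scales, any partner -/
theorem stepH {η : ℝ} (hη0 : 0 < η) (hη1 : η < 1) {C' : ℝ} (hC' : 0 ≤ C') :
    ∃ q0 : ℕ, ∃ D : ℝ, 0 < D ∧ ∀ (M : ℕ) (F : FL M) (L t : ℝ) (q X : ℕ) (f f' : ℕ → ℝ),
      0 < M → 0 < L → 1 ≤ t → q0 ≤ q →
      (∀ b, 0 ≤ f b ∧ f b ≤ 1) → (∀ b, 0 ≤ f' b ∧ f' b ≤ 1) →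
      L * Ex M f' ≤ 1 →
      L * frm M (fun b c => if Dp F L t q X f b ∧ F.good X b c then f b * f' c else 0) ≤
        D * t ^ (-C') * (L * Ex M f) := by
  obtain ⟨q0, D, hD, h⟩ := stepH_gen hη0 hη1 hC'
  refine ⟨q0, 2 * D, by positivity, fun M F L t q X f f' hM hL ht hqq hf hf' h1 => ?_⟩
  refine (h M F L t q X f f' hM hL ht hqq hf hf').trans ?_
  set m := L * Ex M f with hm
  set m' := L * Ex M f' with hm'
  have hm0 : 0 ≤ m := mul_nonneg hL.le (Ex_nonneg _ fun b => (hf b).1)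
  have hm0' : 0 ≤ m' := mul_nonneg hL.le (Ex_nonneg _ fun b => (hf' b).1)
  have hmr : m' ^ ((1 + η) / 2) ≤ 1 := Real.rpow_le_one hm0' h1 (by linarith)
  have hmr0 : 0 ≤ m' ^ ((1 + η) / 2) := Real.rpow_nonneg hm0' _
  have e1 : m * m' ^ ((1 + η) / 2) ≤ m := by nlinarith
  have e2 : m * m' ≤ m := by nlinarith
  have e3 : (m * m' ^ ((1 + η) / 2)) ^ (1 / 4 : ℝ) * (m * m') ^ (3 / 4 : ℝ) ≤ m := by
    calc (m * m' ^ ((1 + η) / 2)) ^ (1 / 4 : ℝ) * (m * m') ^ (3 / 4 : ℝ)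
        ≤ m ^ (1 / 4 : ℝ) * m ^ (3 / 4 : ℝ) :=
          mul_le_mul (Real.rpow_le_rpow (by positivity) e1 (by norm_num))
            (Real.rpow_le_rpow (by positivity) e2 (by norm_num)) (by positivity) (by positivity)
      _ = m := by
          rw [← Real.rpow_add' hm0 (by norm_num)]
          norm_num
  have ht0 : 0 ≤ t ^ (-C') := Real.rpow_nonneg (by linarith) _
  calc D * t ^ (-C') * (m * m' ^ ((1 + η) / 2) +
        (m * m' ^ ((1 + η) / 2)) ^ (1 / 4 : ℝ) * (m * m') ^ (3 / 4 : ℝ))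
      ≤ D * t ^ (-C') * (m + m) :=
        mul_le_mul_of_nonneg_left (add_le_add e1 e3) (by positivity)
    _ = _ := by ring

end Crest.Agent.R4C.StepHx326
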