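import Crest.Agent.R4C.RFin_817

set_option autoImplicit false

open Finset

namespace Crest.Agent.R4C.RPlusx817

/-! ### energies with a general condition -/

open Classical in
/-- energy of the pairs satisfying `Q` -/
noncomputable def EnQ (M : ℕ) (Q : ℕ → ℕ → Prop) (X : ℝ) (f g : ℕ → ℝ) : ℝ :=
  ∑ b ∈ M.divisors, ∑ c ∈ M.divisors,
    if Q b c then X * (Nat.gcd b c : ℝ) * nu M b * nu M c * (f b * g c) else 0

lemma EnQ_congr {M : ℕ} {Q Q' : ℕ → ℕ → Prop} (h : ∀ b c, b ∣ M → c ∣ M → (Q b c ↔ Q' b c))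
    (X : ℝ) (f g : ℕ → ℝ) : EnQ M Q X f g = EnQ M Q' X f g := by
  classical
  unfold EnQ
  refine sum_congr rfl fun b hb => sum_congr rfl fun c hc => ?_
  have := h b c (Nat.dvd_of_mem_divisors hb) (Nat.dvd_of_mem_divisors hc)
  by_cases h1 : Q b c
  · rw [if_pos h1, if_pos (this.1 h1)]
  · rw [if_neg h1, if_neg (fun h2 => h1 (this.2 h2))]

lemma EnQ_mono {M : ℕ} {Q Q' : ℕ → ℕ → Prop} (h : ∀ b c, b ∣ M → c ∣ M → Q b c → Q' b c)
    {X : ℝ} (hX : 0 ≤ X) {f g : ℕ → ℝ} (hf : ∀ b, 0 ≤ f b) (hg : ∀ b, 0 ≤ g b) :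
    EnQ M Q X f g ≤ EnQ M Q' X f g := by
  classical
  unfold EnQ
  refine sum_le_sum fun b hb => sum_le_sum fun c hc => ?_
  have := h b c (Nat.dvd_of_mem_divisors hb) (Nat.dvd_of_mem_divisors hc)
  have h0 : 0 ≤ X * (Nat.gcd b c : ℝ) * nu M b * nu M c * (f b * g c) :=
    mul_nonneg (mul_nonneg (mul_nonneg (mul_nonneg hX (Nat.cast_nonneg _)) (nu_nonneg _ _))
      (nu_nonneg _ _)) (mul_nonneg (hf b) (hg c))
  by_cases h1 : Q b c
  · rw [if_pos h1, if_pos (this h1)]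
  · rw [if_neg h1]
    split_ifs
    · exact h0
    · exact le_rfl

lemma En_eq_EnQ (M : ℕ) (Z : Finset ℕ) (z0 : ℕ → ℕ) (X τ : ℝ) (f g : ℕ → ℝ) :
    En M Z z0 X τ f g = EnQ M (fun b c => Pas Z z0 b c ∧ X ≤ (Nat.gcd b c : ℝ) ∧
      (Nat.gcd b c : ℝ) ≤ τ * X) X f g := by
  classical
  unfold En EnQ
  refine sum_congr rfl fun b hb => sum_congr rfl fun c hc => ?_
  by_cases h1 : Pas Z z0 b c ∧ X ≤ (Nat.gcd b c : ℝ) ∧ (Nat.gcd b c : ℝ) ≤ τ * X
  · rw [if_pos h1, if_pos h1]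
  · rw [if_neg h1, if_neg h1]

lemma EnQ_false (M : ℕ) {Q : ℕ → ℕ → Prop} (h : ∀ b c, b ∣ M → c ∣ M → ¬ Q b c) (X : ℝ)
    (f g : ℕ → ℝ) : EnQ M Q X f g = 0 := by
  classical
  unfold EnQ
  exact sum_eq_zero fun b hb => sum_eq_zero fun c hc =>
    if_neg (h b c (Nat.dvd_of_mem_divisors hb) (Nat.dvd_of_mem_divisors hc))

/-- the exact split at one prime -/
lemma EnQ_split {p a M : ℕ} (hp : p.Prime) (hpM : ¬ p ∣ M) (hM : M ≠ 0) (Q : ℕ → ℕ → Prop)
    (X : ℝ) (f g : ℕ → ℝ) :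
    EnQ (p ^ a * M) Q X f g = ∑ v ∈ range (a + 1), ∑ v' ∈ range (a + 1),
      cc p a v * cc p a v' * ((p : ℝ)⁻¹) ^ (dd v v') *
        EnQ M (fun b c => Q (p ^ v * b) (p ^ v' * c)) (X / (p : ℝ) ^ (min v v'))
          (fun b => f (p ^ v * b)) (fun b => g (p ^ v' * b)) := by
  classical
  unfold EnQ
  rw [sum_divisors_split hp hpM hM]
  refine sum_congr rfl fun v hv => ?_
  rw [mem_range] at hv
  rw [sum_congr rfl fun b _ => sum_divisors_split hp hpM hM _, sum_comm]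
  refine sum_congr rfl fun v' hv' => ?_
  rw [mem_range] at hv'
  have hp0 : (0 : ℝ) < (p : ℝ) ^ (min v v') := pow_pos (by exact_mod_cast hp.pos) _
  rw [mul_sum]
  refine sum_congr rfl fun b hb => ?_
  rw [mul_sum]
  refine sum_congr rfl fun c hc => ?_
  have hbM := Nat.dvd_of_mem_divisors hb
  have hcM := Nat.dvd_of_mem_divisors hc
  by_cases h1 : Q (p ^ v * b) (p ^ v' * c)
  · have hg := gcd_split hp (fun h => hpM (h.trans hbM)) (fun h => hpM (h.trans hcM)) v v' (b := b)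
      (c := c)
    rw [if_pos h1, if_pos h1, hg, nu_split hp hpM hM (by omega) hbM,
      nu_split hp hpM hM (by omega) hcM]
    have e3 : ((p : ℝ)⁻¹) ^ v * ((p : ℝ)⁻¹) ^ v' =
        ((p : ℝ)⁻¹) ^ (dd v v') * (((p : ℝ)⁻¹) ^ (min v v') * ((p : ℝ)⁻¹) ^ (min v v')) := by
      rw [← pow_add, ← pow_add, ← pow_add]; congr 1; unfold dd; omega
    have e4 : (p : ℝ) ^ (min v v') * ((p : ℝ)⁻¹) ^ (min v v') = 1 := by
      rw [← mul_pow, mul_inv_cancel₀ (by exact_mod_cast hp.ne_zero), one_pow]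
    push_cast
    calc X * ((p : ℝ) ^ (min v v') * (Nat.gcd b c : ℝ)) * (cc p a v * ((p : ℝ)⁻¹) ^ v * nu M b) *
          (cc p a v' * ((p : ℝ)⁻¹) ^ v' * nu M c) * (f (p ^ v * b) * g (p ^ v' * c))
        = X * (p : ℝ) ^ (min v v') * (Nat.gcd b c : ℝ) * (cc p a v * cc p a v') *
          (((p : ℝ)⁻¹) ^ v * ((p : ℝ)⁻¹) ^ v') * nu M b * nu M c *
          (f (p ^ v * b) * g (p ^ v' * c)) := by ring
      _ = cc p a v * cc p a v' * ((p : ℝ)⁻¹) ^ (dd v v') *
          (((p : ℝ) ^ (min v v') * ((p : ℝ)⁻¹) ^ (min v v')) *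
          (X * ((p : ℝ)⁻¹) ^ (min v v')) * (Nat.gcd b c : ℝ) * nu M b * nu M c *
          (f (p ^ v * b) * g (p ^ v' * c))) := by rw [e3]; ring
      _ = _ := by rw [e4, inv_pow, ← div_eq_mul_inv]; ring
  · rw [if_neg h1, if_neg h1, mul_zero]

/-! ### smallest differing prime -/

/-- smallest differing prime (0 if there is none) -/
noncomputable def xs (b c : ℕ) : ℕ := sInf {p | p.Prime ∧ b.factorization p ≠ c.factorization p}

lemma xs_ne {p b c v v' : ℕ} (hp : p.Prime) (hb0 : b ≠ 0) (hc0 : c ≠ 0)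
    (hb : ∀ q ∈ b.primeFactors, p < q) (hc : ∀ q ∈ c.primeFactors, p < q) (hv : v ≠ v') :
    xs (p ^ v * b) (p ^ v' * c) = p := by
  have hnb : ¬ p ∣ b := fun h => lt_irrefl p (hb p (Nat.mem_primeFactors.2 ⟨hp, h, hb0⟩))
  have hnc : ¬ p ∣ c := fun h => lt_irrefl p (hc p (Nat.mem_primeFactors.2 ⟨hp, h, hc0⟩))
  have hmem : p ∈ {q | q.Prime ∧ (p ^ v * b).factorization q ≠ (p ^ v' * c).factorization q} := by
    refine ⟨hp, ?_⟩
    rw [fac_mul_self hp hnb, fac_mul_self hp hnc]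
    exact hv
  apply le_antisymm (Nat.sInf_le hmem)
  refine le_csInf ⟨p, hmem⟩ ?_
  rintro q ⟨hq, hne⟩
  by_contra hlt
  push Not at hlt
  apply hne
  rw [fac_mul_ne hp hb0 hlt.ne, fac_mul_ne hp hc0 hlt.ne]
  have h1 : ¬ q ∣ b := fun h => absurd (hb q (Nat.mem_primeFactors.2 ⟨hq, h, hb0⟩)) (by omega)
  have h2 : ¬ q ∣ c := fun h => absurd (hc q (Nat.mem_primeFactors.2 ⟨hq, h, hc0⟩)) (by omega)
  rw [Nat.factorization_eq_zero_of_not_dvd h1, Nat.factorization_eq_zero_of_not_dvd h2]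

lemma xs_eq {p b c v : ℕ} (hp : p.Prime) (hb0 : b ≠ 0) (hc0 : c ≠ 0)
    (hnb : ¬ p ∣ b) (hnc : ¬ p ∣ c) :
    xs (p ^ v * b) (p ^ v * c) = xs b c := by
  unfold xs
  congr 1
  ext q
  simp only [Set.mem_ofPred_eq]
  refine and_congr_right fun hq => ?_
  by_cases hqp : q = p
  · subst hqp
    rw [fac_mul_self hp hnb, fac_mul_self hp hnc, Nat.factorization_eq_zero_of_not_dvd hnb,
      Nat.factorization_eq_zero_of_not_dvd hnc]
    simp
  · rw [fac_mul_ne hp hb0 hqp, fac_mul_ne hp hc0 hqp]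

/-- pairs with smallest differing prime `≥ Z0` and gcd in the window of that prime -/
def Cnd (C1 Z0 X : ℝ) (b c : ℕ) : Prop :=
  Z0 ≤ (xs b c : ℝ) ∧ X ≤ (Nat.gcd b c : ℝ) ∧ (Nat.gcd b c : ℝ) ≤ Real.log (xs b c) ^ C1 * X

lemma Cnd_eq {C1 Z0 X : ℝ} {p b c v : ℕ} (hp : p.Prime) (hb0 : b ≠ 0) (hc0 : c ≠ 0)
    (hnb : ¬ p ∣ b) (hnc : ¬ p ∣ c) :
    Cnd C1 Z0 X (p ^ v * b) (p ^ v * c) ↔ Cnd C1 Z0 (X / (p : ℝ) ^ v) b c := by
  unfold Cnd
  have hp0 : (0 : ℝ) < (p : ℝ) ^ v := pow_pos (by exact_mod_cast hp.pos) _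
  rw [xs_eq hp hb0 hc0 hnb hnc, gcd_split hp hnb hnc, min_self, div_le_iff₀ hp0, ← mul_div_assoc,
    le_div_iff₀ hp0]
  push_cast
  rw [mul_comm (Nat.gcd b c : ℝ)]

lemma Cnd_ne {C1 Z0 X : ℝ} {p b c v v' : ℕ} (hp : p.Prime) (hb0 : b ≠ 0) (hc0 : c ≠ 0)
    (hb : ∀ q ∈ b.primeFactors, p < q) (hc : ∀ q ∈ c.primeFactors, p < q) (hv : v ≠ v') :
    Cnd C1 Z0 X (p ^ v * b) (p ^ v' * c) ↔ Z0 ≤ p ∧ X / (p : ℝ) ^ (min v v') ≤ (Nat.gcd b c : ℝ) ∧
      (Nat.gcd b c : ℝ) ≤ Real.log p ^ C1 * (X / (p : ℝ) ^ (min v v')) := by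
  have hnb : ¬ p ∣ b := fun h => lt_irrefl p (hb p (Nat.mem_primeFactors.2 ⟨hp, h, hb0⟩))
  have hnc : ¬ p ∣ c := fun h => lt_irrefl p (hc p (Nat.mem_primeFactors.2 ⟨hp, h, hc0⟩))
  unfold Cnd
  have hp0 : (0 : ℝ) < (p : ℝ) ^ (min v v') := pow_pos (by exact_mod_cast hp.pos) _
  rw [xs_ne hp hb0 hc0 hb hc hv, gcd_split hp hnb hnc, div_le_iff₀ hp0, ← mul_div_assoc,
    le_div_iff₀ hp0]
  push_cast
  rw [mul_comm (Nat.gcd b c : ℝ)]

/-- the energy of Theorem C -/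
noncomputable def EC (C1 Z0 : ℝ) (M : ℕ) (X : ℝ) (f g : ℕ → ℝ) : ℝ := EnQ M (Cnd C1 Z0 X) X f g

lemma EC_split {C1 Z0 : ℝ} {p a M : ℕ} (hp : p.Prime) (hM : M ≠ 0)
    (hMp : ∀ q ∈ M.primeFactors, p < q) (X : ℝ) (f g : ℕ → ℝ) :
    EC C1 Z0 (p ^ a * M) X f g =
      ∑ v ∈ range (a + 1), cc p a v ^ 2 * EC C1 Z0 M (X / (p : ℝ) ^ v) (fun b => f (p ^ v * b))
        (fun b => g (p ^ v * b)) +
      ∑ v ∈ range (a + 1), ∑ v' ∈ (range (a + 1)).filter (· ≠ v),
        if Z0 ≤ (p : ℝ) then Bl p a M ∅ (fun _ => 0) X (Real.log p ^ C1) f g v v' else 0 := by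
  have hpM : ¬ p ∣ M := fun h => lt_irrefl p (hMp p (Nat.mem_primeFactors.2 ⟨hp, h, hM⟩))
  unfold EC
  rw [EnQ_split hp hpM hM, ← sum_add_distrib]
  refine sum_congr rfl fun v hv => ?_
  rw [← add_sum_erase _ _ hv]
  congr 1
  · rw [dd_self, pow_zero, mul_one, min_self, sq]
    congr 1
    refine EnQ_congr (fun b c hb hc => ?_) _ _ _
    have hb0 : b ≠ 0 := fun h => hM (zero_dvd_iff.1 (h ▸ hb))
    have hc0 : c ≠ 0 := fun h => hM (zero_dvd_iff.1 (h ▸ hc))
    exact Cnd_eq hp hb0 hc0 (fun h => hpM (h.trans hb)) (fun h => hpM (h.trans hc))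
  · have hS : (range (a + 1)).erase v = (range (a + 1)).filter (· ≠ v) := by
      ext u; simp only [mem_erase, mem_filter]; tauto
    rw [hS]
    refine sum_congr rfl fun v' hv' => ?_
    have hne : v ≠ v' := fun h => (mem_filter.1 hv').2 h.symm
    have key : ∀ b c, b ∣ M → c ∣ M → (Cnd C1 Z0 X (p ^ v * b) (p ^ v' * c) ↔
        Z0 ≤ p ∧ X / (p : ℝ) ^ (min v v') ≤ (Nat.gcd b c : ℝ) ∧
        (Nat.gcd b c : ℝ) ≤ Real.log p ^ C1 * (X / (p : ℝ) ^ (min v v'))) := by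
      intro b c hb hc
      have hb0 : b ≠ 0 := fun h => hM (zero_dvd_iff.1 (h ▸ hb))
      have hc0 : c ≠ 0 := fun h => hM (zero_dvd_iff.1 (h ▸ hc))
      exact Cnd_ne hp hb0 hc0 (fun q hq => hMp q (Nat.primeFactors_mono hb hM hq))
        (fun q hq => hMp q (Nat.primeFactors_mono hc hM hq)) hne
    split_ifs with h1
    · unfold Bl
      congr 1
      rw [En_eq_EnQ]
      refine EnQ_congr (fun b c hb hc => ?_) _ _ _
      rw [key b c hb hc]
      simp [Pas, h1]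
    · rw [EnQ_false M (fun b c hb hc h => h1 ((key b c hb hc).1 h).1), mul_zero]

/-! ### numerics of the node -/

lemma cc_pos {p : ℕ} (hp : p.Prime) (a v : ℕ) : 0 < cc p a v := by
  unfold cc
  split_ifs
  · have h2 : (2 : ℝ) ≤ p := by exact_mod_cast hp.two_le
    have : (p : ℝ)⁻¹ ≤ 2⁻¹ := inv_anti₀ (by norm_num) h2
    linarith
  · norm_num

lemma tail_cc {p : ℕ} (n : ℕ) : ∀ v : ℕ,
    ∑ v' ∈ (range (v + n + 1)).filter (v < ·), cc p (v + n) v' * ((p : ℝ)⁻¹) ^ (v' - v) =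
      1 - cc p (v + n) v := by
  induction n with
  | zero =>
    intro v
    have : (range (v + 0 + 1)).filter (v < ·) = ∅ := by
      ext u; simp only [mem_filter, mem_range, notMem_empty, iff_false]; omega
    rw [this, sum_empty]
    simp [cc]
  | succ n ih =>
    intro v
    have h1 : (range (v + (n + 1) + 1)).filter (v < ·) =
        insert (v + 1) ((range (v + 1 + n + 1)).filter (v + 1 < ·)) := by
      ext u; simp only [mem_filter, mem_range, mem_insert]; omega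
    have h2 := ih (v + 1)
    have h3 : v + 1 + n = v + (n + 1) := by omega
    rw [h3] at h2
    rw [h1, sum_insert (by simp), h3]
    have h4 : ∑ v' ∈ (range (v + (n + 1) + 1)).filter (v + 1 < ·),
        cc p (v + (n + 1)) v' * ((p : ℝ)⁻¹) ^ (v' - v) = (p : ℝ)⁻¹ *
        ∑ v' ∈ (range (v + (n + 1) + 1)).filter (v + 1 < ·),
        cc p (v + (n + 1)) v' * ((p : ℝ)⁻¹) ^ (v' - (v + 1)) := by
      rw [mul_sum]
      refine sum_congr rfl fun v' hv' => ?_
      have : v + 1 < v' := (mem_filter.1 hv').2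
      have e : v' - v = (v' - (v + 1)) + 1 := by omega
      rw [e, pow_succ]; ring
    rw [h4, h2]
    have h5 : cc p (v + (n + 1)) v = 1 - (p : ℝ)⁻¹ := by
      unfold cc; rw [if_pos (by omega)]
    rw [h5, show v + 1 - v = 1 by omega, pow_one]
    ring

lemma tail_cc' {p a v : ℕ} (hv : v ≤ a) :
    ∑ v' ∈ (range (a + 1)).filter (v < ·), cc p a v' * ((p : ℝ)⁻¹) ^ (v' - v) =
      1 - cc p a v := by
  obtain ⟨n, rfl⟩ := Nat.exists_eq_add_of_le hv
  exact tail_cc n v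

lemma sum_offdiag (S : Finset ℕ) (F : ℕ → ℕ → ℝ) (hF : ∀ v v', F v v' = F v' v) :
    ∑ v ∈ S, ∑ v' ∈ S.filter (· ≠ v), F v v' = 2 * ∑ v ∈ S, ∑ v' ∈ S.filter (v < ·), F v v' := by
  have h1 : ∀ v ∈ S, ∑ v' ∈ S.filter (· ≠ v), F v v' =
      ∑ v' ∈ S.filter (v < ·), F v v' + ∑ v' ∈ S.filter (· < v), F v v' := by
    intro v _
    rw [← sum_union]
    · congr 1
      ext u
      simp only [mem_filter, mem_union]
      constructor
      · rintro ⟨a, b⟩
        rcases lt_or_gt_of_ne b with h | h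
        · exact Or.inr ⟨a, h⟩
        · exact Or.inl ⟨a, h⟩
      · rintro (⟨a, b⟩ | ⟨a, b⟩)
        · exact ⟨a, b.ne'⟩
        · exact ⟨a, b.ne⟩
    · rw [disjoint_left]
      intro u hu hu'
      exact lt_asymm (mem_filter.1 hu).2 (mem_filter.1 hu').2
  rw [sum_congr rfl h1, sum_add_distrib, two_mul]
  congr 1
  simp only [sum_filter]
  rw [sum_comm]
  exact sum_congr rfl fun v _ => sum_congr rfl fun v' _ => by rw [hF]

lemma off_le {κ : ℝ} (hκ : 1 / 2 < κ) (hκ1 : κ < 1) {w : ℝ} (hw : 0 < w)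
    (hr : w ^ (1 - κ) ≤ 1 / 2) {n : ℕ} {x : ℕ → ℝ} (hx : ∀ v, 0 ≤ x v) {m : ℝ}
    (hm : ∑ v ∈ range n, x v = m) :
    ∃ μ, 0 ≤ μ ∧ μ ≤ 1 ∧ ∑ v ∈ range n, x v ^ (2 * κ) ≤ (1 - (2 * κ - 1) * μ) * m ^ (2 * κ) ∧
      ∑ v ∈ range n, ∑ v' ∈ (range n).filter (· ≠ v), (w ^ (1 - κ)) ^ (dd v v') * (x v * x v') ^ κ ≤
        12 * (w + μ) * m ^ (2 * κ) := by
  have hκ0 : 0 < κ := by linarith
  have hm0 : 0 ≤ m := hm ▸ sum_nonneg fun v _ => hx v
  rcases hm0.eq_or_lt with h0 | hmp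
  · -- zero mass
    have hz : ∀ v ∈ range n, x v = 0 := by
      rw [← sum_eq_zero_iff_of_nonneg fun v _ => hx v, hm, ← h0]
    refine ⟨0, le_rfl, zero_le_one, ?_, ?_⟩
    · rw [sum_eq_zero]
      · rw [← h0, Real.zero_rpow (by positivity)]; simp
      · intro v hv
        rw [hz v hv, Real.zero_rpow (by positivity)]
    · rw [sum_eq_zero]
      · rw [← h0, Real.zero_rpow (by positivity)]; simp
      · intro v hv
        refine sum_eq_zero fun v' _ => ?_
        rw [hz v hv, zero_mul, Real.zero_rpow hκ0.ne', mul_zero]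
  have hne : (range n).Nonempty := by
    rw [nonempty_iff_ne_empty]
    rintro h
    rw [h, sum_empty] at hm
    exact hmp.ne hm
  obtain ⟨v0, hv0, hmax⟩ := exists_max_image (range n) x hne
  set μ := 1 - x v0 / m with hμ
  have hxm : x v0 ≤ m := by
    rw [← hm]; exact single_le_sum (f := x) (fun v _ => hx v) hv0
  have hμ0 : 0 ≤ μ := by
    have : x v0 / m ≤ 1 := (div_le_one hmp).2 hxm
    rw [hμ]; linarith
  have hμ1 : μ ≤ 1 := by
    have : 0 ≤ x v0 / m := div_nonneg (hx _) hmp.le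
    rw [hμ]; linarith
  have hxv0 : x v0 = (1 - μ) * m := by rw [hμ]; field_simp; ring
  have hμm : ∑ v ∈ (range n).erase v0, x v = μ * m := by
    have := add_sum_erase (range n) x hv0
    rw [hm, hxv0] at this
    linarith
  have hle : ∀ v ∈ (range n).erase v0, x v ≤ μ * m := fun v hv => by
    rw [← hμm]; exact single_le_sum (f := x) (fun i _ => hx i) hv
  refine ⟨μ, hμ0, hμ1, ?_, ?_⟩
  · have hη : 0 < 2 * κ - 1 := by linarith
    have h1 : ∀ v ∈ range n, x v ^ (2 * κ) ≤ x v * x v0 ^ (2 * κ - 1) := by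
      intro v hv
      rcases (hx v).eq_or_lt with h | h
      · rw [← h, Real.zero_rpow (by positivity), zero_mul]
      · calc x v ^ (2 * κ) = x v * x v ^ (2 * κ - 1) := by
              conv_rhs => rw [← Real.rpow_one (x v), ← Real.rpow_mul h.le, one_mul]
              rw [← Real.rpow_add h]; congr 1; ring
          _ ≤ _ := mul_le_mul_of_nonneg_left (Real.rpow_le_rpow h.le (hmax v hv) hη.le) h.le
    calc ∑ v ∈ range n, x v ^ (2 * κ) ≤ ∑ v ∈ range n, x v * x v0 ^ (2 * κ - 1) := sum_le_sum h1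
      _ = m * x v0 ^ (2 * κ - 1) := by rw [← sum_mul, hm]
      _ = (1 + -μ) ^ (2 * κ - 1) * m ^ (2 * κ) := by
          have e1 : x v0 ^ (2 * κ - 1) = (1 - μ) ^ (2 * κ - 1) * m ^ (2 * κ - 1) := by
            rw [hxv0, Real.mul_rpow (by linarith) hmp.le]
          have e2 : m ^ (2 * κ) = m * m ^ (2 * κ - 1) := by
            conv_rhs => rw [← Real.rpow_one m, ← Real.rpow_mul hmp.le, one_mul]
            rw [← Real.rpow_add hmp]; congr 1; ring
          rw [e1, e2, ← sub_eq_add_neg]; ring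
      _ ≤ (1 + (2 * κ - 1) * -μ) * m ^ (2 * κ) :=
          mul_le_mul_of_nonneg_right (_root_.rpow_one_add_le_one_add_mul_self (by linarith) hη.le
            (by linarith)) (by positivity)
      _ = _ := by ring
  · set r := w ^ (1 - κ) with hrd
    have hr0 : 0 < r := by positivity
    have hge : ∀ v, ∑ v' ∈ (range n).filter (· ≠ v), r ^ (dd v v') ≤ 4 * r := fun v =>
      Multix251.geom_both hr0.le hr (range n) v
    have hge' : ∀ (S : Finset ℕ) (v : ℕ), ∑ v' ∈ S.filter (· ≠ v), r ^ (dd v v') ≤ 4 * r := fun S v =>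
      Multix251.geom_both hr0.le hr S v
    have hmκ : 0 < m ^ (2 * κ) := by positivity
    have em : m ^ (2 * κ) = (m * m) ^ κ := by
      rw [Real.mul_rpow hmp.le hmp.le, ← Real.rpow_add hmp]; congr 1; ring
    have hμκ : 0 ≤ μ ^ κ := Real.rpow_nonneg hμ0 _
    have row : ∀ v' ∈ (range n).filter (· ≠ v0), (x v0 * x v') ^ κ ≤ μ ^ κ * m ^ (2 * κ) := by
      intro v' hv'
      have hv'' : v' ∈ (range n).erase v0 := by
        rw [mem_filter] at hv'; rw [mem_erase]; exact ⟨hv'.2, hv'.1⟩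
      rw [em, ← Real.mul_rpow hμ0 (by positivity)]
      refine Real.rpow_le_rpow (mul_nonneg (hx _) (hx _)) ?_ hκ0.le
      calc x v0 * x v' ≤ m * (μ * m) := mul_le_mul hxm (hle v' hv'') (hx _) hmp.le
        _ = _ := by ring
    have p1 : ∑ v' ∈ (range n).filter (· ≠ v0), r ^ (dd v0 v') * (x v0 * x v') ^ κ ≤
        4 * r * (μ ^ κ * m ^ (2 * κ)) := by
      calc _ ≤ ∑ v' ∈ (range n).filter (· ≠ v0), r ^ (dd v0 v') * (μ ^ κ * m ^ (2 * κ)) :=
            sum_le_sum fun v' hv' => mul_le_mul_of_nonneg_left (row v' hv') (by positivity)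
        _ = (∑ v' ∈ (range n).filter (· ≠ v0), r ^ (dd v0 v')) * (μ ^ κ * m ^ (2 * κ)) := by
            rw [sum_mul]
        _ ≤ _ := mul_le_mul_of_nonneg_right (hge v0) (by positivity)
    -- split off the row and the column of `v0`
    have hsplit : ∑ v ∈ range n, ∑ v' ∈ (range n).filter (· ≠ v), r ^ (dd v v') * (x v * x v') ^ κ =
        2 * ∑ v' ∈ (range n).filter (· ≠ v0), r ^ (dd v0 v') * (x v0 * x v') ^ κ +
        ∑ v ∈ (range n).erase v0, ∑ v' ∈ ((range n).erase v0).filter (· ≠ v),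
          r ^ (dd v v') * (x v * x v') ^ κ := by
      rw [← add_sum_erase _ _ hv0, two_mul, add_assoc]
      congr 1
      have e1 : ∀ v ∈ (range n).erase v0,
          ∑ v' ∈ (range n).filter (· ≠ v), r ^ (dd v v') * (x v * x v') ^ κ =
          r ^ (dd v0 v) * (x v0 * x v) ^ κ +
          ∑ v' ∈ ((range n).erase v0).filter (· ≠ v), r ^ (dd v v') * (x v * x v') ^ κ := by
        intro v hv
        rw [mem_erase] at hv
        have e2 : (range n).filter (· ≠ v) = insert v0 (((range n).erase v0).filter (· ≠ v)) := by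
          ext u
          simp only [mem_filter, mem_insert, mem_erase]
          constructor
          · rintro ⟨a, b⟩
            by_cases hu : u = v0
            · exact Or.inl hu
            · exact Or.inr ⟨⟨hu, a⟩, b⟩
          · rintro (h | ⟨⟨_, a⟩, b⟩)
            · subst h; exact ⟨hv0, fun h => hv.1 h.symm⟩
            · exact ⟨a, b⟩
        rw [e2, sum_insert (by simp), dd_comm v v0, mul_comm (x v) (x v0)]
      rw [sum_congr rfl e1, sum_add_distrib]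
      congr 1
      refine sum_congr ?_ fun _ _ => rfl
      ext u; simp only [mem_erase, mem_filter]; tauto
    have p2 : ∑ v ∈ (range n).erase v0, ∑ v' ∈ ((range n).erase v0).filter (· ≠ v),
        r ^ (dd v v') * (x v * x v') ^ κ ≤ 4 * r * (μ ^ κ * m ^ (2 * κ)) := by
      have h1 := wsum_le (S := (range n).erase v0) (x := x) (y := x) (κ := κ) (K := 4 * r) hκ.le hx hx
        (fun v v' => if v' ≠ v then r ^ (dd v v') else 0)
        (fun v v' => by split_ifs <;> positivity)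
        (fun v _ => by rw [← sum_filter]; exact hge' _ v)
        (fun v _ => by
          have : ∀ v', (if v ≠ v' then r ^ (dd v' v) else 0) = if v' ≠ v then r ^ (dd v v') else 0 := by
            intro v'
            rw [dd_comm]
            by_cases h : v = v'
            · subst h; simp
            · rw [if_pos h, if_pos (Ne.symm h)]
          simp only [this]
          rw [← sum_filter]; exact hge' _ v) (by positivity)
      rw [hμm] at h1
      have h2 : ∑ v ∈ (range n).erase v0, ∑ v' ∈ ((range n).erase v0).filter (· ≠ v),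
          r ^ (dd v v') * (x v * x v') ^ κ = ∑ v ∈ (range n).erase v0, ∑ v' ∈ (range n).erase v0,
          (if v' ≠ v then r ^ (dd v v') else 0) * (x v * x v') ^ κ := by
        refine sum_congr rfl fun v _ => ?_
        rw [sum_filter]
        refine sum_congr rfl fun v' _ => ?_
        split_ifs <;> simp
      rw [h2]
      refine h1.trans (mul_le_mul_of_nonneg_left ?_ (by positivity))
      rw [em, ← Real.mul_rpow hμ0 (by positivity)]
      refine Real.rpow_le_rpow (by positivity) ?_ hκ0.le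
      nlinarith [mul_nonneg hμ0 (mul_nonneg hmp.le hmp.le)]
    rw [hsplit]
    have hwμ : r * μ ^ κ ≤ w + μ := by
      have := Real.geom_mean_le_arith_mean2_weighted (w₁ := 1 - κ) (w₂ := κ) (p₁ := w) (p₂ := μ)
        (by linarith) hκ0.le hw.le hμ0 (by ring)
      rw [← hrd] at this
      nlinarith
    calc _ ≤ 2 * (4 * r * (μ ^ κ * m ^ (2 * κ))) + 4 * r * (μ ^ κ * m ^ (2 * κ)) :=
          add_le_add (mul_le_mul_of_nonneg_left p1 (by norm_num)) p2
      _ = 12 * (r * μ ^ κ) * m ^ (2 * κ) := by ring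
      _ ≤ 12 * (w + μ) * m ^ (2 * κ) := by
          refine mul_le_mul_of_nonneg_right (by linarith) hmκ.le

end Crest.Agent.R4C.RPlusx817
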