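import Crest.Agent.R4C.RelGn_15
import Crest.Agent.R4C.HDeltaG_60
import Crest.Agent.R4C.HypVw_516
import Crest.Agent.R4C.TBud_322

/-!
# Row 4, GW section, vector case: the target `TOk` of `VDef_24` (helper15)

Plug of `HDeltaGx60.ok_529` (H0, H1, H2), `HypVwx516.hyp_vw` (natural hypothesis), `TBudx322.vw_ok`,
the degree of `RelDeg_15` and the numerics of the world `vw`.

* `Dl_pow_le` : `3 Dl (Cl (2^a) (2^a')) 2 ≤ 2^(7 (a+a'+1))`.
* `iA_spec`   : `2^(a+a') < (i+1)^8` for `i ≥ i0`.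
* `grow_vw`, `hnum_vw` : the numerical hypotheses of `ok_529`.
* `tok` : **`TOk γ`**.
-/

set_option autoImplicit false

open Finset
open Crest.Agent.R4C.GWdefx982 Crest.Agent.R4C.RelDegx15 Crest.Agent.R4C.VDefx24
open Crest.Agent.R4C.Spinex946 Crest.Agent.R4C.FLDefx935 Crest.Agent.R4C.Rulex945
open Crest.Agent.R4C.PureL2x232 (hiFL)
open Crest.Agent.R4C.PureClsx863 (cores)

namespace Crest.Agent.R4C.TOkx15

/-! ### the degree -/

lemma Dl_pow_le (a a' : ℕ) :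
    3 * (Dl (Cl (2 ^ a) (2 ^ a')) 2 : ℝ) ≤ (2 : ℝ) ^ (7 * (a + a' + 1)) := by
  have h1 := Dl_real_le (A := 2 ^ a) (B := 2 ^ a') (R := 2) (by norm_num)
  push_cast at h1
  have ha : (1 : ℝ) ≤ 2 ^ a := one_le_pow₀ (by norm_num)
  have ha' : (1 : ℝ) ≤ 2 ^ a' := one_le_pow₀ (by norm_num)
  set x : ℝ := 2 ^ a with hx
  set y : ℝ := 2 ^ a' with hy
  have hp : (1 : ℝ) ≤ x * y := by nlinarith
  have hxp : x ≤ x * y := by nlinarith
  have hyp : y ≤ x * y := by nlinarith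
  have h2 : 2 * x * y ^ 2 * (2 + 4 * x + 4 * y + 1) ≤ 22 * (x * y) ^ 3 := by
    have e1 : 2 + 4 * x + 4 * y + 1 ≤ 11 * (x * y) := by linarith
    have e2 : x * y ^ 2 ≤ (x * y) ^ 2 := by nlinarith [mul_nonneg (by linarith : (0:ℝ) ≤ x) (sq_nonneg y)]
    calc 2 * x * y ^ 2 * (2 + 4 * x + 4 * y + 1)
        = 2 * (x * y ^ 2) * (2 + 4 * x + 4 * y + 1) := by ring
      _ ≤ 2 * (x * y) ^ 2 * (11 * (x * y)) := by gcongr
      _ = 22 * (x * y) ^ 3 := by ring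
  have e : (2 : ℝ) ^ (7 * (a + a' + 1)) = 128 * (x * y) ^ 7 := by
    rw [hx, hy, ← pow_add, ← pow_mul, show 7 * (a + a' + 1) = (a + a') * 7 + 7 by ring, pow_add]
    norm_num
    ring
  rw [e]
  have h3 : (x * y) ^ 3 ≤ (x * y) ^ 7 := pow_le_pow_right₀ hp (by norm_num)
  have h4 : (0 : ℝ) ≤ (x * y) ^ 3 := by positivity
  linarith

lemma size_le {a a' : ℕ} {p : ℕ × ℕ} (hp : p ∈ Cl (2 ^ a) (2 ^ a')) :
    64 * ((p.1 : ℝ) + p.2 + 2) ≤ 512 * 2 ^ (a + a') := by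
  have h := mem_Cl.1 hp
  have h1 : (p.1 : ℝ) ≤ 2 * 2 ^ a := by exact_mod_cast h.1.1.2.le
  have h2 : (p.2 : ℝ) ≤ 2 * 2 ^ a' := by exact_mod_cast h.1.2.2.le
  have ha : (1 : ℝ) ≤ 2 ^ a := one_le_pow₀ (by norm_num)
  have ha' : (1 : ℝ) ≤ 2 ^ a' := one_le_pow₀ (by norm_num)
  rw [pow_add]
  nlinarith [mul_nonneg (sub_nonneg.2 ha) (sub_nonneg.2 ha')]

/-! ### the numerical hypotheses -/

/-- the hypotheses of `ok_529` on the numbers of the world -/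
structure NumV (Z : World) (a a' : ℕ) (c KV0 : ℝ) : Prop where
  grow : VDepthx952.Grow Z (512 * 2 ^ (a + a'))
  sq : ∀ i, Z.i0 ≤ i → 128 * Z.θ i ^ 2 ≤ 2 ^ i
  num : ∀ p : ℕ, Z.i0 ≤ p →
    (2 : ℝ) ^ (7 * (a + a' + 1)) * (Z.θ p ^ (-c) + (2 : ℝ) ^ (-(c * p))) +
      18 * (((a + a' + 3 : ℕ) : ℝ) + 1) / ((p : ℝ) + 1) ≤ KV0 * 2 ^ (7 * (a + a')) / ((p : ℝ) + 1)

/-- **both orders of Lemma V in the world `Z`** -/
theorem ok_both {Z : World} (hZ : Z.Ok) (hσ : Z.σ ≤ 1) {a a' : ℕ} {c KV0 C1 : ℝ} (hc : 0 < c)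
    (hC1 : 1 ≤ C1) (hKV : 1 ≤ KV0) (hN : NumV Z a a' c KV0)
    (hH : HDx529.HypT Z C1 c (18 * (((a + a' + 3 : ℕ) : ℝ) + 1))) :
    (HDx529.gn Z (RR Z a a') (KV0 * 2 ^ (7 * (a + a')))).Ok (fun _ => Basex935.nu Z.N)
        (fun _ => Basex935.nu Z.N) (4 * C1) (2 ^ (7 * (a + a' + 1))) ∧
      (HDx529.gn Z (fun ν ν' => RR Z a a' ν' ν) (KV0 * 2 ^ (7 * (a + a')))).Ok
        (fun _ => Basex935.nu Z.N) (fun _ => Basex935.nu Z.N) (4 * C1) (2 ^ (7 * (a + a' + 1))) := by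
  have hpos : (1 : ℝ) ≤ 2 ^ (7 * (a + a')) := one_le_pow₀ (by norm_num)
  have hKV' : 1 ≤ KV0 * 2 ^ (7 * (a + a')) := by nlinarith
  have hΔ : (2 : ℝ) ≤ 2 ^ (7 * (a + a' + 1)) := by
    calc (2 : ℝ) = 2 ^ 1 := by norm_num
      _ ≤ 2 ^ (7 * (a + a' + 1)) := pow_le_pow_right₀ (by norm_num) (by omega)
  have hKE : (0 : ℝ) ≤ 18 * (((a + a' + 3 : ℕ) : ℝ) + 1) := by positivity
  have d1 := Dl_pow_le a a'
  have d2 : 3 * (Dl (Cl (2 ^ a') (2 ^ a)) 2 : ℝ) ≤ (2 : ℝ) ^ (7 * (a + a' + 1)) := by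
    have := Dl_pow_le a' a
    rwa [Nat.add_comm a' a] at this
  refine ⟨?_, ?_⟩
  · refine HDeltaGx60.ok_529 hZ hσ (W := Cl (2 ^ a) (2 ^ a')) (R0 := 2) (D := 512 * 2 ^ (a + a'))
      (fun p hp => ?_) (by norm_num) hN.grow (fun p hp => size_le hp) hΔ d1 ?_ hN.sq hKV' hC1 hc.le
      hKE hH hN.num
    · have h := mem_Cl.1 hp
      have h1 := Nat.one_le_two_pow (n := a)
      have h2 := Nat.one_le_two_pow (n := a')
      omega
    · rw [Cl_swap]; exact d2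
  · have e : (fun ν ν' => RR Z a a' ν' ν) = Rel Z (Cl (2 ^ a') (2 ^ a)) 2 := by
      funext ν ν'
      exact propext (relT_Cl hZ)
    rw [e]
    refine HDeltaGx60.ok_529 hZ hσ (W := Cl (2 ^ a') (2 ^ a)) (R0 := 2) (D := 512 * 2 ^ (a + a'))
      (fun p hp => ?_) (by norm_num) hN.grow (fun p hp => ?_) hΔ d2 ?_ hN.sq hKV' hC1 hc.le
      hKE hH hN.num
    · have h := mem_Cl.1 hp
      have h1 := Nat.one_le_two_pow (n := a)
      have h2 := Nat.one_le_two_pow (n := a')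
      omega
    · have := size_le hp
      rwa [Nat.add_comm a' a] at this
    · rw [Cl_swap]; exact d1


/-! ### the numbers of the world `vw` -/

lemma iA_spec {a a' i : ℕ} (hi : iA a a' ≤ i) : (2 : ℝ) ^ (a + a') ≤ ((i : ℝ) + 1) ^ 8 := by
  have hne : ({i : ℕ | 2 ^ (a + a') < (i + 1) ^ 8}).Nonempty := by
    refine ⟨2 ^ (a + a'), ?_⟩
    show 2 ^ (a + a') < (2 ^ (a + a') + 1) ^ 8
    calc 2 ^ (a + a') < 2 ^ (a + a') + 1 := Nat.lt_succ_self _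
      _ = (2 ^ (a + a') + 1) ^ 1 := (pow_one _).symm
      _ ≤ (2 ^ (a + a') + 1) ^ 8 := Nat.pow_le_pow_right (Nat.succ_pos _) (by norm_num)
  have h1 : 2 ^ (a + a') < (iA a a' + 1) ^ 8 := Nat.sInf_mem hne
  have h2 : (iA a a' + 1) ^ 8 ≤ (i + 1) ^ 8 := Nat.pow_le_pow_left (by omega) 8
  have h3 := (h1.trans_le h2).le
  exact_mod_cast h3

/-- `512 (i+1)^8 ≤ 2^(cp i)` for large `i` -/
lemma ev_pow (cp : ℝ) (hcp : 0 < cp) :
    ∃ m1 : ℕ, ∀ i : ℕ, m1 ≤ i → 512 * ((i : ℝ) + 1) ^ 8 ≤ (2 : ℝ) ^ (cp * i) := by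
  have hr : 1 < (2 : ℝ) ^ cp := Real.one_lt_rpow (by norm_num) hcp
  have ht := tendsto_pow_const_div_const_pow_of_one_lt 8 hr
  have h1 : ∀ᶠ n : ℕ in Filter.atTop, (n : ℝ) ^ 8 / ((2 : ℝ) ^ cp) ^ n < 1 / (512 * 256) :=
    ht.eventually_lt_const (by norm_num)
  obtain ⟨m, hm⟩ := Filter.eventually_atTop.1 h1
  refine ⟨max m 1, fun i hi => ?_⟩
  have h2 := hm i ((le_max_left _ _).trans hi)
  have hi1 : (1 : ℝ) ≤ i := by exact_mod_cast (le_max_right m 1).trans hi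
  have hp : (0 : ℝ) < ((2 : ℝ) ^ cp) ^ i := by positivity
  rw [div_lt_iff₀ hp] at h2
  have e1 : (2 : ℝ) ^ (cp * i) = ((2 : ℝ) ^ cp) ^ i := by
    rw [Real.rpow_mul (by norm_num), Real.rpow_natCast]
  rw [e1]
  have h3 : ((i : ℝ) + 1) ^ 8 ≤ (2 * i) ^ 8 := pow_le_pow_left₀ (by positivity) (by linarith) 8
  have h4 : (2 * (i : ℝ)) ^ 8 = 256 * (i : ℝ) ^ 8 := by rw [mul_pow]; norm_num
  rw [h4] at h3
  linarith

/-- `(p+1) 2^(-x p) ≤ 1 + 1/(x log 2)` -/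
lemma lin_exp {x : ℝ} (hx : 0 < x) (p : ℕ) :
    ((p : ℝ) + 1) * (2 : ℝ) ^ (-(x * p)) ≤ 1 + 1 / (x * Real.log 2) := by
  have hl : 0 < Real.log 2 := Real.log_pos (by norm_num)
  have hxl : 0 < x * Real.log 2 := mul_pos hx hl
  have hp0 : (0 : ℝ) ≤ p := Nat.cast_nonneg _
  have h1 : 1 + x * Real.log 2 * p ≤ (2 : ℝ) ^ (x * p) := by
    rw [Real.rpow_def_of_pos (by norm_num)]
    have := Real.add_one_le_exp (Real.log 2 * (x * p))
    linarith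
  have h2 : (0 : ℝ) < (2 : ℝ) ^ (x * p) := by positivity
  rw [Real.rpow_neg (by norm_num), ← div_eq_mul_inv, div_le_iff₀ h2]
  have h3 : (p : ℝ) + 1 ≤ (1 + 1 / (x * Real.log 2)) * (1 + x * Real.log 2 * p) := by
    have e1 : (1 + 1 / (x * Real.log 2)) * (1 + x * Real.log 2 * p) =
        1 + p + x * Real.log 2 * p + 1 / (x * Real.log 2) := by
      field_simp
      ring
    rw [e1]
    have : 0 ≤ x * Real.log 2 * p := by positivity
    have : 0 ≤ 1 / (x * Real.log 2) := by positivity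
    linarith
  exact h3.trans (mul_le_mul_of_nonneg_left h1 (by positivity))

lemma lin_pow (n : ℕ) : ((n : ℝ) + 4) ≤ 4 * 2 ^ (7 * n) := by
  have h1 : (n : ℝ) + 1 ≤ 2 ^ n := by
    have := one_add_mul_le_pow (a := (1 : ℝ)) (by norm_num) n
    norm_num at this
    linarith
  have h2 : (2 : ℝ) ^ n ≤ 2 ^ (7 * n) := pow_le_pow_right₀ (by norm_num) (by omega)
  have h3 : (0 : ℝ) ≤ n := Nat.cast_nonneg _
  linarith

/-- the constant of `num` -/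
noncomputable def KVc (cp c : ℝ) : ℝ :=
  128 * ((16 : ℝ) ^ c * (1 + 1 / (c * cp * Real.log 2)) + (1 + 1 / (c * Real.log 2))) + 72

lemma one_le_KVc {cp c : ℝ} (hcp : 0 < cp) (hc : 0 < c) : 1 ≤ KVc cp c := by
  have hl : 0 < Real.log 2 := Real.log_pos (by norm_num)
  unfold KVc
  have h1 : 0 ≤ (16 : ℝ) ^ c * (1 + 1 / (c * cp * Real.log 2)) := by positivity
  have h2 : 0 ≤ 1 / (c * Real.log 2) := by positivity
  linarith

/-- **the numbers of the world `vw`** -/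
theorem numV_vw {M : ℕ} (hM : 0 < M) (F : FL M) {cp γ L δ : ℝ} {A m0 : ℕ} {B : Finset ℕ}
    {a a' s G : ℕ} (hcp : 0 < cp) (hcp2 : cp ≤ 1 / 4)
    (hE : ∀ i : ℕ, m0 ≤ i → 512 * ((i : ℝ) + 1) ^ 8 ≤ (2 : ℝ) ^ (cp * i)) {c : ℝ} (hc : 0 < c) :
    NumV (vw hM F (ParOf cp A m0 γ L M B) δ a a' s G) a a' c (KVc cp c) := by
  have hθ : ∀ i, (vw hM F (ParOf cp A m0 γ L M B) δ a a' s G).θ i = (2 : ℝ) ^ (cp * i) / 16 :=
    fun i => rfl
  have hi0 : (vw hM F (ParOf cp A m0 γ L M B) δ a a' s G).i0 =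
      max m0 (max (GWinstx982.iD (hiFL hM (yc a a') F) (ParOf cp A m0 γ L M B) G) (iA a a')) := rfl
  set Z := vw hM F (ParOf cp A m0 γ L M B) δ a a' s G with hZ
  have hm : ∀ i, Z.i0 ≤ i → m0 ≤ i := fun i hi => by
    rw [hi0] at hi
    exact (le_max_left _ _).trans hi
  have hA : ∀ i, Z.i0 ≤ i → iA a a' ≤ i := fun i hi => by
    rw [hi0] at hi
    exact ((le_max_right _ _).trans (le_max_right _ _)).trans hi
  have hmono : ∀ i j : ℕ, i ≤ j → Z.θ i ≤ Z.θ j := by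
    intro i j hij
    rw [hθ, hθ]
    refine div_le_div_of_nonneg_right ?_ (by norm_num)
    refine Real.rpow_le_rpow_of_exponent_le (by norm_num) ?_
    exact mul_le_mul_of_nonneg_left (by exact_mod_cast hij) hcp.le
  have hD : ∀ i, Z.i0 ≤ i → 512 * (2 : ℝ) ^ (a + a') ≤ (2 : ℝ) ^ (cp * i) := fun i hi =>
    (mul_le_mul_of_nonneg_left (iA_spec (hA i hi)) (by norm_num)).trans (hE i (hm i hi))
  have h4 : ∀ i : ℕ, (2 : ℝ) ^ (4 * cp * i) ≤ 2 ^ i := by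
    intro i
    rw [← Real.rpow_natCast]
    refine Real.rpow_le_rpow_of_exponent_le (by norm_num) ?_
    have : (0 : ℝ) ≤ i := Nat.cast_nonneg _
    nlinarith
  have h1 : (1 : ℝ) ≤ 2 ^ (a + a') := one_le_pow₀ (by norm_num)
  refine ⟨⟨by linarith, fun i j _ hij => hmono i j hij, fun i hi => ?_, fun i j hi hij => ?_⟩,
    fun i hi => ?_, fun p _ => ?_⟩
  · rw [hθ]
    have h2 := hD i hi
    have h3 : (0 : ℝ) < (2 : ℝ) ^ (cp * i) := by positivity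
    have e : (2 : ℝ) ^ (4 * cp * i) = ((2 : ℝ) ^ (cp * i)) ^ 4 := by
      rw [← Real.rpow_natCast, ← Real.rpow_mul (by norm_num)]
      congr 1
      push_cast
      ring
    have h5 := h4 i
    rw [e] at h5
    set x := (2 : ℝ) ^ (cp * i) with hx
    have h6 : 512 * (2 : ℝ) ^ (a + a') * (x / 16) ≤ x * (x / 16) :=
      mul_le_mul_of_nonneg_right h2 (by positivity)
    have h7 : (512 * (2 : ℝ) ^ (a + a') * (x / 16)) ^ 2 ≤ (x * (x / 16)) ^ 2 :=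
      pow_le_pow_left₀ (by positivity) h6 2
    have h8 : (x * (x / 16)) ^ 2 = x ^ 4 / 256 := by ring
    have h9 : 0 ≤ x ^ 4 := by positivity
    linarith
  · rw [hθ, hθ]
    have h2 := hD i hi
    have h3 : (0 : ℝ) < (2 : ℝ) ^ (cp * i) := by positivity
    have e : (2 : ℝ) ^ (cp * i) * (2 : ℝ) ^ (cp * i) ≤ (2 : ℝ) ^ (cp * j) := by
      rw [← Real.rpow_add (by norm_num)]
      refine Real.rpow_le_rpow_of_exponent_le (by norm_num) ?_
      have : (2 * i : ℝ) ≤ j := by exact_mod_cast hij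
      nlinarith
    have h6 : 512 * (2 : ℝ) ^ (a + a') * (2 : ℝ) ^ (cp * i) ≤ (2 : ℝ) ^ (cp * i) *
        (2 : ℝ) ^ (cp * i) := mul_le_mul_of_nonneg_right h2 h3.le
    linarith
  · rw [hθ]
    have h3 : (1 : ℝ) ≤ (2 : ℝ) ^ (cp * i) := Real.one_le_rpow (by norm_num) (by positivity)
    have e : (2 : ℝ) ^ (4 * cp * i) = ((2 : ℝ) ^ (cp * i)) ^ 4 := by
      rw [← Real.rpow_natCast, ← Real.rpow_mul (by norm_num)]
      congr 1
      push_cast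
      ring
    have h5 := h4 i
    rw [e] at h5
    set x := (2 : ℝ) ^ (cp * i) with hx
    have h6 : x ^ 2 ≤ x ^ 4 := pow_le_pow_right₀ h3 (by norm_num)
    have h7 : 0 ≤ x ^ 2 := by positivity
    calc 128 * (x / 16) ^ 2 = x ^ 2 / 2 := by ring
      _ ≤ 2 ^ i := by linarith
  · have hp1 : (0 : ℝ) < (p : ℝ) + 1 := by positivity
    rw [le_div_iff₀ hp1, add_mul, div_mul_cancel₀ _ hp1.ne', hθ]
    have hcc : 0 < c * cp := mul_pos hc hcp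
    have t1 : ((2 : ℝ) ^ (cp * p) / 16) ^ (-c) = (16 : ℝ) ^ c * (2 : ℝ) ^ (-(c * cp * p)) := by
      rw [Real.div_rpow (by positivity) (by norm_num), ← Real.rpow_mul (by norm_num),
        Real.rpow_neg (by norm_num) c, div_inv_eq_mul, mul_comm]
      congr 2
      ring
    rw [t1]
    have l1 := lin_exp hcc p
    have l2 := lin_exp hc p
    have l3 := lin_pow (a + a')
    push_cast at l3 ⊢
    have hq : (0 : ℝ) < (16 : ℝ) ^ c := by positivity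
    have e7 : (2 : ℝ) ^ (7 * (a + a' + 1)) = 128 * 2 ^ (7 * (a + a')) := by
      rw [show 7 * (a + a' + 1) = 7 * (a + a') + 7 by ring, pow_add]
      norm_num
      ring
    rw [e7]
    set X : ℝ := 2 ^ (7 * (a + a')) with hX
    have hX0 : 0 < X := by positivity
    have m1 : (16 : ℝ) ^ c * (2 : ℝ) ^ (-(c * cp * p)) * ((p : ℝ) + 1) ≤
        (16 : ℝ) ^ c * (1 + 1 / (c * cp * Real.log 2)) := by
      calc (16 : ℝ) ^ c * (2 : ℝ) ^ (-(c * cp * p)) * ((p : ℝ) + 1)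
          = (16 : ℝ) ^ c * (((p : ℝ) + 1) * (2 : ℝ) ^ (-(c * cp * p))) := by ring
        _ ≤ _ := mul_le_mul_of_nonneg_left l1 hq.le
    have m2 : (2 : ℝ) ^ (-(c * (p : ℝ))) * ((p : ℝ) + 1) ≤ 1 + 1 / (c * Real.log 2) := by
      rw [mul_comm]; exact l2
    have m3 : 128 * X * ((16 : ℝ) ^ c * (2 : ℝ) ^ (-(c * cp * p)) + (2 : ℝ) ^ (-(c * (p : ℝ)))) *
        ((p : ℝ) + 1) ≤ 128 * X * ((16 : ℝ) ^ c * (1 + 1 / (c * cp * Real.log 2)) +
          (1 + 1 / (c * Real.log 2))) := by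
      calc 128 * X * ((16 : ℝ) ^ c * (2 : ℝ) ^ (-(c * cp * p)) + (2 : ℝ) ^ (-(c * (p : ℝ)))) *
            ((p : ℝ) + 1)
          = 128 * X * ((16 : ℝ) ^ c * (2 : ℝ) ^ (-(c * cp * p)) * ((p : ℝ) + 1) +
            (2 : ℝ) ^ (-(c * (p : ℝ))) * ((p : ℝ) + 1)) := by ring
        _ ≤ _ := mul_le_mul_of_nonneg_left (add_le_add m1 m2) (by positivity)
    have m4 : KVc cp c * X = 128 * X * ((16 : ℝ) ^ c * (1 + 1 / (c * cp * Real.log 2)) +
          (1 + 1 / (c * Real.log 2))) + 72 * X := by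
      unfold KVc; ring
    rw [m4]
    linarith

/-! ### the target -/

/-- **target `TOk`** -/
theorem tok (γ : ℝ) : TOk γ := by
  have hev : Ev fun cp _ _ m0 => ∀ i : ℕ, m0 ≤ i → 512 * ((i : ℝ) + 1) ^ 8 ≤ (2 : ℝ) ^ (cp * i) :=
    Ev.of_m0 fun cp _ _ hcp _ => by
      obtain ⟨m1, h⟩ := ev_pow cp hcp
      exact ⟨m1, fun m0 hm i hi => h i (hm.trans hi)⟩
  refine ((((Ev.basic.and hev).and (TBudx322.vw_ok γ)).and (HypVwx516.hyp_vw γ))).mono ?_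
  rintro cp η A m0 ⟨⟨⟨⟨hcp, hcp2, _⟩, hE⟩, hok⟩, C1, c, hC1, hc, hH⟩
  refine ⟨4 * C1, KVc cp c, 7, by linarith, one_le_KVc hcp hc, ?_⟩
  intro L M B F hS a a' s G hG Z hZ
  have hok' : Z.Ok := by
    rw [hZ]
    exact hok L M B F hS (1 / (4 * A)) a a' s G hG
  have hσ : Z.σ ≤ 1 := by
    rw [hZ]
    exact zero_le_one
  have hN : NumV Z a a' c (KVc cp c) := by
    rw [hZ]
    exact numV_vw hS.hM F hcp (by linarith) hE hc
  exact ok_both hok' hσ hc hC1 (one_le_KVc hcp hc) hN (hH L M B F hS a a' s G hG Z hZ hok')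

end Crest.Agent.R4C.TOkx15
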