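import Crest.Agent.R4C.VDef_24
import Crest.Agent.R4C.KillV_19
import Crest.Agent.R4C.VecWt_559
import Crest.Agent.R4C.DictV_20
import Crest.Agent.R4C.HyOf_281

/-!
# Row 4, GW section, vector case: the pair side `TPair` of `VDef_24` (helper19)

* `NumV` : the numerical conditions; `evNumV`;
* `vw_ok`, `vw_wv` : the world is `Ok`, its coins are the nominal coins;
* `good_zone` : all the nominal coins of `w` above the birth node are actual coins of `b`;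
* `B1_pair` : `B1 b c ≤ (1 + log₂ (u v)) offW b offW c`;
* **`tpair`** : `TPair γ X0`.
-/

set_option autoImplicit false

namespace Crest.Agent.R4C.TPairx19

open Finset Filter Crest.Agent.R4C.Basex935 Crest.Agent.R4C.FLDefx935 Crest.Agent.R4C.BoostCx972
  Crest.Agent.R4C.CrCoinx935 Crest.Agent.R4C.CrCountx935 Crest.Agent.R4C.Bridgex882
  Crest.Agent.R4C.PrefixMx882 Crest.Agent.R4C.Rulex945 Crest.Agent.R4C.Sharedx11
  Crest.Agent.R4C.Splitx945 Crest.Agent.R4C.Cutx50 Crest.Agent.R4C.PureL2x232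
  Crest.Agent.R4C.PureClsx863 Crest.Agent.R4C.HighFLx863 Crest.Agent.R4C.VecPairx19
  Crest.Agent.R4C.Spinex946
open Crest.Agent.R4C.NHx656 (On)
open Crest.Agent.R4C.GWdefx982 Crest.Agent.R4C.GWnodex863
open Crest.Agent.R4C.VDefx24
open Crest.Agent.R4C.HyOfx281 (Num evNum hy_of_num)
open Crest.Agent.R4C.GWwtx360 (Ww)

/-! ### numbers -/

lemma poly_le {ε : ℝ} (hε : 0 < ε) :
    ∃ m1 : ℕ, ∀ i : ℕ, m1 ≤ i → ((i : ℝ) + 1) ^ 8 ≤ 2 ^ (ε * i) := by
  have hr : (1 : ℝ) < 2 ^ ε := Real.one_lt_rpow (by norm_num) hε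
  have h0 : (0 : ℝ) < 2 ^ ε := by positivity
  have h1 := tendsto_pow_const_div_const_pow_of_one_lt 8 hr
  have h2 : ∀ᶠ n : ℕ in atTop, (n : ℝ) ^ 8 / ((2 : ℝ) ^ ε) ^ n < ((2 : ℝ) ^ ε)⁻¹ :=
    h1.eventually_lt_const (by positivity)
  obtain ⟨N, hN⟩ := eventually_atTop.1 h2
  refine ⟨N, fun i hi => ?_⟩
  have h3 := hN (i + 1) (by omega)
  rw [div_lt_iff₀ (by positivity), pow_succ ((2 : ℝ) ^ ε) i] at h3
  have e : ((2 : ℝ) ^ ε)⁻¹ * (((2 : ℝ) ^ ε) ^ i * (2 : ℝ) ^ ε) = ((2 : ℝ) ^ ε) ^ i := by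
    field_simp
  rw [e] at h3
  push_cast at h3
  have e2 : ((2 : ℝ) ^ ε) ^ i = 2 ^ (ε * i) := by
    rw [← Real.rpow_natCast, ← Real.rpow_mul (by norm_num)]
  rw [← e2]
  exact h3.le

/-- numerical conditions -/
structure NumV (X0 : ℕ) (cp η : ℝ) (A m0 : ℕ) : Prop where
  num : Num cp η A m0
  p10 : ∀ i : ℕ, m0 ≤ i → ((i : ℝ) + 1) ^ 8 ≤ 2 ^ ((1 / 10 : ℝ) * i)
  pcp : ∀ i : ℕ, m0 ≤ i → ((i : ℝ) + 1) ^ 8 ≤ 2 ^ (cp * i)
  x0 : X0 ≤ m0

lemma evNumV (X0 : ℕ) : Ev (NumV X0) := by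
  have h1 : Ev fun cp _ _ m0 => (∀ i : ℕ, m0 ≤ i → ((i : ℝ) + 1) ^ 8 ≤ 2 ^ ((1 / 10 : ℝ) * i)) ∧
      (∀ i : ℕ, m0 ≤ i → ((i : ℝ) + 1) ^ 8 ≤ 2 ^ (cp * i)) ∧ X0 ≤ m0 := by
    refine Ev.of_m0 fun cp η A hcp hη => ?_
    obtain ⟨m1, h1⟩ := poly_le (ε := 1 / 10) (by norm_num)
    obtain ⟨m2, h2⟩ := poly_le hcp
    exact ⟨max (max m1 m2) X0, fun m0 hm =>
      ⟨fun i hi => h1 i (by omega), fun i hi => h2 i (by omega), by omega⟩⟩
  exact (evNum.and h1).mono fun cp η A m0 h => ⟨h.1, h.2.1, h.2.2.1, h.2.2.2⟩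

section numbers

variable {X0 : ℕ} {cp η : ℝ} {A m0 : ℕ}

/-- `4 (i+1)^8 ≤ 2^(A i)` -/
lemma NumV.cut8 (h : NumV X0 cp η A m0) {i : ℕ} (hi : m0 ≤ i) :
    4 * (i + 1) ^ 8 ≤ 2 ^ (A * i) := by
  have h14 : (14 : ℝ) ≤ i := by exact_mod_cast h.num.m0_14.trans hi
  have hA := h.num.A_one
  have h1 := h.p10 i hi
  have h2 : (4 : ℝ) * ((i : ℝ) + 1) ^ 8 ≤ 2 ^ (i : ℝ) := by
    calc (4 : ℝ) * ((i : ℝ) + 1) ^ 8 ≤ 2 ^ (2 : ℝ) * 2 ^ ((1 / 10 : ℝ) * i) := by
          refine mul_le_mul (by norm_num) h1 (by positivity) (by positivity)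
      _ = 2 ^ (2 + (1 / 10 : ℝ) * i) := by rw [Real.rpow_add (by norm_num)]
      _ ≤ 2 ^ (i : ℝ) := Real.rpow_le_rpow_of_exponent_le (by norm_num) (by linarith)
  rw [Real.rpow_natCast] at h2
  have h3 : 4 * (i + 1) ^ 8 ≤ 2 ^ i := by exact_mod_cast h2
  exact h3.trans (Nat.pow_le_pow_right (by norm_num) (Nat.le_mul_of_pos_left _ hA))

/-- the precision -/
noncomputable def KK (cp : ℝ) (i : ℕ) : ℝ := ((i : ℝ) + 1) ^ 8 * 2 ^ (cp * i) / 2

lemma NumV.KK8 (h : NumV X0 cp η A m0) {i : ℕ} (hi : m0 ≤ i) : KK cp i ≤ 2 ^ ((i : ℝ) / 8) := by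
  have hi0 : (0 : ℝ) ≤ i := Nat.cast_nonneg _
  have h1 := h.p10 i hi
  have h2 : (0 : ℝ) < 2 ^ (cp * i) := by positivity
  unfold KK
  calc ((i : ℝ) + 1) ^ 8 * 2 ^ (cp * i) / 2 ≤ ((i : ℝ) + 1) ^ 8 * 2 ^ (cp * i) := by
        have : 0 ≤ ((i : ℝ) + 1) ^ 8 * 2 ^ (cp * i) := by positivity
        linarith
    _ ≤ 2 ^ ((1 / 10 : ℝ) * i) * 2 ^ (cp * i) := mul_le_mul_of_nonneg_right h1 h2.le
    _ = 2 ^ ((1 / 10 : ℝ) * i + cp * i) := by rw [Real.rpow_add (by norm_num)]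
    _ ≤ _ := by
        refine Real.rpow_le_rpow_of_exponent_le (by norm_num) ?_
        have := mul_le_mul_of_nonneg_right h.num.cp_le hi0
        linarith

lemma NumV.KK2 (h : NumV X0 cp η A m0) {i : ℕ} (hi : m0 ≤ i) : 3 * KK cp i ^ 2 ≤ (2 : ℝ) ^ i := by
  have h14 : (14 : ℝ) ≤ i := by exact_mod_cast h.num.m0_14.trans hi
  have h1 := h.KK8 hi
  have h0 : 0 ≤ KK cp i := by unfold KK; positivity
  calc 3 * KK cp i ^ 2 ≤ 4 * ((2 : ℝ) ^ ((i : ℝ) / 8)) ^ 2 := by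
        have h2 := pow_le_pow_left₀ h0 h1 2
        have h3 : 0 ≤ KK cp i ^ 2 := by positivity
        linarith
    _ = 2 ^ (2 : ℝ) * 2 ^ ((i : ℝ) / 4) := by
        rw [← Real.rpow_natCast ((2 : ℝ) ^ ((i : ℝ) / 8)) 2, ← Real.rpow_mul (by norm_num)]
        have e : (i : ℝ) / 8 * ((2 : ℕ) : ℝ) = (i : ℝ) / 4 := by push_cast; ring
        rw [e]
        norm_num
    _ = 2 ^ (2 + (i : ℝ) / 4) := by rw [Real.rpow_add (by norm_num)]
    _ ≤ 2 ^ (i : ℝ) := Real.rpow_le_rpow_of_exponent_le (by norm_num) (by linarith)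
    _ = _ := Real.rpow_natCast 2 i

lemma NumV.KKE (h : NumV X0 cp η A m0) {i : ℕ} (hi : m0 ≤ i) :
    KK cp i ≤ (2 : ℝ) ^ (cp * (((A + 1) * i : ℕ) - 1 : ℝ)) := by
  have hi0 : (0 : ℝ) ≤ i := Nat.cast_nonneg _
  have hA : (1 : ℝ) ≤ A := by exact_mod_cast h.num.A_one
  have h1 := h.pcp i hi
  have h2 : (0 : ℝ) < 2 ^ (cp * i) := by positivity
  have hcp := h.num.cp_pos
  have hcp1 := h.num.cp_le
  unfold KK
  calc ((i : ℝ) + 1) ^ 8 * 2 ^ (cp * i) / 2 ≤ 2 ^ (cp * i) * 2 ^ (cp * i) / 2 := by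
        have := mul_le_mul_of_nonneg_right h1 h2.le
        linarith
    _ = 2 ^ (cp * i + cp * i - 1) := by
        rw [Real.rpow_sub (by norm_num), Real.rpow_add (by norm_num), Real.rpow_one]
    _ ≤ _ := by
        refine Real.rpow_le_rpow_of_exponent_le (by norm_num) ?_
        push_cast
        have h3 : cp * i * 1 ≤ cp * i * A :=
          mul_le_mul_of_nonneg_left hA (mul_nonneg hcp.le hi0)
        nlinarith

end numbers

/-- `n + 3 ≤ C 2^(n/4)` -/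
lemma log_le_pow (n : ℕ) : (n : ℝ) + 3 ≤ 8 * 2 ^ ((n : ℝ) / 4) := by
  have hn : (0 : ℝ) ≤ n := Nat.cast_nonneg _
  have h1 : 1 + (n : ℝ) / 4 * Real.log 2 ≤ 2 ^ ((n : ℝ) / 4) := by
    rw [Real.rpow_def_of_pos (by norm_num)]
    have := Real.add_one_le_exp (Real.log 2 * ((n : ℝ) / 4))
    linarith
  have h2 : (0.5 : ℝ) ≤ Real.log 2 := by have := Real.log_two_gt_d9; linarith
  have h3 : (n : ℝ) / 4 * 0.5 ≤ (n : ℝ) / 4 * Real.log 2 :=
    mul_le_mul_of_nonneg_left h2 (by linarith)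
  linarith

/-! ### the world -/

section world

variable {M : ℕ} {X0 : ℕ} {cp η γ L : ℝ} {A m0 : ℕ} {B : Finset ℕ} {F : FL M}

/-- the world is `Ok` -/
theorem vw_ok (h : NumV X0 cp η A m0) (hM : 0 < M) (hL : 0 < L) {a a' s G : ℕ} {δ : ℝ}
    (hG : G ∈ cores (hiFL hM (yc a a') F)) :
    (vw hM F (ParOf cp A m0 γ L M B) δ a a' s G).Ok where
  hN := PM_pos G
  hG := Nat.pos_of_dvd_of_pos (mem_cores.1 hG).1.1 (upp_pos _ _)
  hL := div_pos hL (by positivity)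
  hcut := fun _ _ hab => Nat.pow_le_pow_right (by norm_num) (Nat.mul_le_mul_left A hab)
  hcut2 := fun i => Nat.pow_le_pow_right (by norm_num) (Nat.le_mul_of_pos_left i h.num.A_one)
  hi0 := by
    have h1 := h.num.m0_14
    refine le_trans ?_ (le_max_left _ _)
    show 3 ≤ m0
    omega
  htop := by
    set P := ParOf cp A m0 γ L M B
    have hN : (M : ℝ) / P.L ≤ P.N := Nat.le_ceil _
    have hL : 0 < P.L := hL
    show ((G * PM (hiFL hM (yc a a') F) G : ℕ) : ℝ) < 2 ^ (P.N + s + 1) * (P.L / 2 ^ s)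
    have h1 : G * PM (hiFL hM (yc a a') F) G ≤ M :=
      (Nat.le_of_dvd (upp_pos _ _) (mul_PM_dvd (upp_pos _ _) hG)).trans
        (Nat.le_of_dvd hM (upp_dvd_self _ _))
    have h2 : ((G * PM (hiFL hM (yc a a') F) G : ℕ) : ℝ) ≤ M := by exact_mod_cast h1
    have h3 : (M : ℝ) ≤ P.N * P.L := (div_le_iff₀ hL).1 hN
    have h4 : (P.N : ℝ) < 2 ^ (P.N + 1) := by
      have h5 : P.N < 2 ^ P.N := Nat.lt_two_pow_self
      have h6 : (P.N : ℝ) < 2 ^ P.N := by exact_mod_cast h5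
      have h7 : (2 : ℝ) ^ P.N ≤ 2 ^ (P.N + 1) := pow_le_pow_right₀ (by norm_num) (by omega)
      linarith
    have h8 : (P.N : ℝ) * P.L < 2 ^ (P.N + 1) * P.L := mul_lt_mul_of_pos_right h4 hL
    have h9 : (2 : ℝ) ^ (P.N + s + 1) * (P.L / 2 ^ s) = 2 ^ (P.N + 1) * P.L := by
      have : (2 : ℝ) ^ (P.N + s + 1) = 2 ^ (P.N + 1) * 2 ^ s := by ring
      rw [this]
      field_simp
    rw [h9]
    linarith
  hσ := le_rfl
  hθ := fun i hi => by
    have hi' : m0 ≤ i := (le_max_left _ _).trans hi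
    have h1 : (m0 : ℝ) ≤ i := by exact_mod_cast hi'
    have h3 : 32 / cp ≤ i := h.num.m0_ge.trans h1
    rw [div_le_iff₀ h.num.cp_pos] at h3
    show (1 : ℝ) < (2 : ℝ) ^ (cp * i) / 16
    have h4 : (2 : ℝ) ^ (5 : ℝ) ≤ 2 ^ (cp * i) :=
      Real.rpow_le_rpow_of_exponent_le (by norm_num) (by linarith)
    have h5 : (2 : ℝ) ^ (5 : ℝ) = 32 := by norm_num
    linarith
  hK1 := le_rfl
  hc := one_pos

/-- the coins are the nominal coins -/
theorem vw_wv (h : NumV X0 cp η A m0) (hM : 0 < M) {a a' s G : ℕ} :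
    DictVx20.WV (vw hM F (ParOf cp A m0 γ L M B) (1 / (4 * A)) a a' s G)
      (ParOf cp A m0 γ L M B) (1 / (4 * A)) (a + a' + 3) where
  cut := rfl
  γ := rfl
  coin := fun w p => Iff.rfl
  hθ := fun i hi q hq => by
    have hi' : m0 ≤ i := (le_max_left _ _).trans hi
    have hA := h.num.A_one
    have hi0 : (0 : ℝ) ≤ i := Nat.cast_nonneg _
    show 4 * ((2 : ℝ) ^ (cp * i) / 16) ≤ 3 * (q : ℝ) ^ (1 / (4 * A) : ℝ)
    have h1 := HyOfx281.cut_pow (cp := cp) (m0 := m0) (γ := γ) (L := L) (M := M) (B := B) hA i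
    have h2 : (((ParOf cp A m0 γ L M B).cut i : ℕ) : ℝ) ≤ q := by
      exact_mod_cast (show (ParOf cp A m0 γ L M B).cut i < q from hq).le
    have h3 := Real.rpow_le_rpow (Nat.cast_nonneg _) h2
      (show (0 : ℝ) ≤ 1 / (4 * A) by positivity)
    rw [h1] at h3
    have h4 : (2 : ℝ) ^ (cp * i) ≤ 2 ^ ((i : ℝ) / 4) := by
      refine Real.rpow_le_rpow_of_exponent_le (by norm_num) ?_
      have := mul_le_mul_of_nonneg_right h.num.cp_le hi0
      linarith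
    have h5 : (0 : ℝ) < 2 ^ ((i : ℝ) / 4) := by positivity
    linarith

/-- the parameters of the text -/
theorem parT (h : NumV X0 cp η A m0) (hL : 0 < L) :
    F5bx20.ParT M (ParOf cp A m0 γ L M B) A B (1 / (4 * A)) (1 / 20) where
  hA := h.num.A_one
  hL := hL
  cut := fun _ => rfl
  Y := rfl
  thr := fun _ _ => rfl
  hδ := by positivity
  hε := by norm_num

lemma unb (h : NumV X0 cp η A m0) : ∀ n, ∃ i, n ≤ (ParOf cp A m0 γ L M B).cut i := fun n =>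
  ⟨n, (Nat.lt_two_pow_self).le.trans
    (Nat.pow_le_pow_right (by norm_num) (Nat.le_mul_of_pos_left n h.num.A_one))⟩

/-- cut of a node index -/
lemma yc_le_cut (h : NumV X0 cp η A m0) {a a' j i : ℕ} (hi : 2 ^ (a + a') < (i + 1) ^ 8)
    (hj : max m0 (iA a a') ≤ j) : yc a a' ≤ 2 ^ (A * j) := by
  have h1 : 2 ^ (a + a') < (iA a a' + 1) ^ 8 :=
    Nat.sInf_mem (s := {i : ℕ | 2 ^ (a + a') < (i + 1) ^ 8}) ⟨i, hi⟩
  have h2 : (iA a a' + 1) ^ 8 ≤ (j + 1) ^ 8 :=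
    Nat.pow_le_pow_left (by omega) 8
  have h3 := h.cut8 (i := j) (by omega)
  unfold yc
  have h4 : 2 ^ (a + a' + 2) = 4 * 2 ^ (a + a') := by rw [pow_add]; ring
  omega

/-- **all the nominal coins above the birth node are actual coins** -/
theorem good_zone (h : NumV X0 cp η A m0) (hM : 0 < M) (hL : 0 < L) {a a' s i b : ℕ}
    (hb : b ∣ M) (hi : 2 ^ (a + a') < (i + 1) ^ 8) {Z : World} {w : ℕ}
    (hZ : Z = vw hM F (ParOf cp A m0 γ L M B) (1 / (4 * A)) a a' s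
        (H0 hM F (yc a a') b)) (hw : w = HighFLx863.hw hM F (yc a a') b)
    (hnd : Z.nd i w) (hlo : (2 : ℝ) ^ s ≤ 2 * (low (yc a a') b : ℕ))
    (hhi : ((low (yc a a') b : ℕ) : ℝ) ≤ 2 ^ (a + a' + 2) * 2 ^ s)
    (hex : ¬ HvyR F B L A (4 * ((i : ℝ) + 1) ^ 8) (i - 1) b) :
    FamBudx252.Good Z (Act F (ParOf cp A m0 γ L M B) Z.N (yc a a') w b) w (Z.bi i w) := by
  classical
  set P := ParOf cp A m0 γ L M B with hP
  have hG : H0 hM F (yc a a') b ∈ cores (hiFL hM (yc a a') F) := H0_mem hM F hb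
  have hOk : Z.Ok := by rw [hZ]; exact vw_ok h hM hL hG
  have hWV : DictVx20.WV Z P (1 / (4 * A)) (a + a' + 3) := by rw [hZ]; exact vw_wv h hM
  have hPT : F5bx20.ParT M P A B (1 / (4 * A)) (1 / 20) := parT h hL
  have hwN : w ∣ Z.N := by rw [hZ, hw]; exact hw_dvd hM F hb
  have hA0 : (0 : ℝ) < A := by exact_mod_cast h.num.A_one
  -- cut of the node indices
  have hcutn : ∀ j, Z.nd j w → max (yc a a') (D (hiFL hM (yc a a') F) (H0 hM F (yc a a') b)) ≤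
      Z.cut j := by
    intro j hj
    have h1 : Z.i0 ≤ j := hj.1
    rw [hZ] at h1
    have h1' : max P.m0 (max (GWinstx982.iD (hiFL hM (yc a a') F) P (H0 hM F (yc a a') b))
      (iA a a')) ≤ j := h1
    refine max_le ?_ ?_
    · have h2 := yc_le_cut h hi (j := j) (by
        have : P.m0 = m0 := rfl
        omega)
      rw [hZ]; exact h2
    · have h2 : GWinstx982.iD (hiFL hM (yc a a') F) P (H0 hM F (yc a a') b) ≤ j :=
        (le_max_left _ _).trans ((le_max_right _ _).trans h1')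
      have h3 := GWinstx982.D_le_cut hPT.cut_mono (unb h) h2
      rw [hZ]; exact h3
  have hvb : DictVx20.VB F (max (yc a a') (D (hiFL hM (yc a a') F) (H0 hM F (yc a a') b))) b
      (low (yc a a') b) Z.G0 w := by
    have e : Z.G0 = H0 hM F (yc a a') b := by rw [hZ]; rfl
    rw [e, hw]
    exact DictVx20.VB.of_high hM hb (le_max_left _ _) (le_max_right _ _)
  have hS : DictVx20.Sc P (a + a' + 3) (low (yc a a') b) Z.L ((2 : ℝ) ^ s) :=
    { hL := hL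
      hV := by positivity
      hL' := by rw [hZ]; rfl
      hs := by omega
      lo := hlo
      hi := by
        have e : a + a' + 3 - 1 = a + a' + 2 := by omega
        rw [e]; exact hhi }
  have hwM : w ∣ M := by
    have h1 : H0 hM F (yc a a') b * w = upp (yc a a') b := by rw [hw]; exact H0_mul_hw hM F hb
    exact (Dvd.intro_left _ h1).trans ((upp_dvd_self _ _).trans hb)
  have hexc : ¬ DictVx20.excB F P A B (fun k : ℕ => 2 * (4 * ((i : ℝ) + 1) ^ 8) * 2 ^ (k / A))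
      (5 / A) (M + 1) b i := by
    intro he
    apply hex
    have h1 : i - 1 ≤ i := by omega
    exact DictVx20.excB_anti (F := F) (P := P) (A := A) (B := B) h1 he
  have hh : ∀ k : ℕ, (2 : ℝ) ^ ((1 / (A : ℝ)) * k) ≤
      (fun k : ℕ => 2 * (4 * ((i : ℝ) + 1) ^ 8) * (2 : ℝ) ^ (k / A)) k := by
    intro k
    have h1 : (0 : ℝ) < (2 : ℝ) ^ (k / A) := by positivity
    have h2 : (1 : ℝ) ≤ ((i : ℝ) + 1) ^ 8 :=
      one_le_pow₀ (by have : (0 : ℝ) ≤ i := Nat.cast_nonneg _; linarith)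
    have h4 : (1 / (A : ℝ)) * k ≤ ((k / A + 1 : ℕ) : ℝ) := by
      rw [one_div, inv_mul_eq_div, div_le_iff₀ hA0]
      have h5 := (Nat.lt_mul_div_succ k (show 0 < A from h.num.A_one)).le
      have h6 : (k : ℝ) ≤ ((A * (k / A + 1) : ℕ) : ℝ) := by exact_mod_cast h5
      push_cast at h6 ⊢
      linarith
    calc (2 : ℝ) ^ ((1 / (A : ℝ)) * k) ≤ (2 : ℝ) ^ ((k / A + 1 : ℕ) : ℝ) :=
          Real.rpow_le_rpow_of_exponent_le (by norm_num) h4
      _ = 2 * (2 : ℝ) ^ (k / A) := by rw [Real.rpow_natCast, pow_succ]; ring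
      _ ≤ 2 * (4 * ((i : ℝ) + 1) ^ 8) * (2 : ℝ) ^ (k / A) := by nlinarith
  have hU : (5 / A : ℝ) = (1 / (4 * A)) / (1 / 20) := by field_simp; norm_num
  have hK : M ≤ 2 ^ (M + 1) := by
    have := (Nat.lt_two_pow_self (n := M + 1)).le
    omega
  have key := DictVx20.hcoin_of hPT hOk hWV hS hvb hcutn hM hwN hwM hh hU hK (Z.bi i w) i
    (birth_bi hnd).1 hnd (bi_le i w)
    (fun k hk1 hk2 hk3 => absurd (le_bi hk2 hk3) (by omega)) hexc
  intro q hq hc hlt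
  unfold Act
  rw [mem_filter]
  refine ⟨hq, ?_, key q hq hlt hc⟩
  have h1 := hcutn _ (birth_bi hnd).1
  exact lt_of_le_of_lt ((le_max_left _ _).trans h1) hlt

end world

/-! ### the factor `B1` -/

/-- `B1 b c ≤ (1 + log₂ (u v)) offW b offW c` -/
lemma B1_pair {M : ℕ} {F : FL M} {X X0 b c : ℕ} (hM : 0 < M) (hb : b ∣ M) (hc : c ∣ M)
    (hg : F.good X b c) (hX : X0 ≤ X) :
    PureL2x232.B1 b c ≤ (1 + Real.logb 2
      (low X (b / Nat.gcd b c) * low X (c / Nat.gcd b c) : ℕ)) *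
        (B1Levx52.offW F X0 b * B1Levx52.offW F X0 c) := by
  classical
  set s := b / Nat.gcd b c with hs
  set s' := c / Nat.gcd b c with hs'
  have hb0 : 0 < b := Nat.pos_of_dvd_of_pos hb hM
  have hc0 : 0 < c := Nat.pos_of_dvd_of_pos hc hM
  have hg0 : 0 < Nat.gcd b c := Nat.gcd_pos_of_pos_left _ hb0
  have hs0 : s ≠ 0 := (Nat.div_pos (Nat.le_of_dvd hb0 (Nat.gcd_dvd_left _ _)) hg0).ne'
  have hs0' : s' ≠ 0 := (Nat.div_pos (Nat.le_of_dvd hc0 (Nat.gcd_dvd_right _ _)) hg0).ne'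
  have e : PureL2x232.B1 b c =
      (∏ p ∈ (s * s').primeFactors.filter (fun p => X < p), pf p) *
      ∏ p ∈ (s * s').primeFactors.filter (fun p => ¬ X < p),
        pf p := (Finset.prod_filter_mul_prod_filter_not _ _ _).symm
  have huv : low X s * low X s' ≠ 0 := (Nat.mul_pos (low_pos _ _) (low_pos _ _)).ne'
  have h1 : ∏ p ∈ (s * s').primeFactors.filter (fun p => ¬ X < p), pf p ≤
      1 + Real.logb 2 (low X s * low X s' : ℕ) := by
    refine (prod_pf_mono ?_ fun p hp => Nat.prime_of_mem_primeFactors hp).trans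
      (prod_pf_le_log huv)
    intro p hp
    rw [mem_filter, Nat.mem_primeFactors] at hp
    obtain ⟨⟨hpp, hd, _⟩, hpX⟩ := hp
    have key : ∀ t : ℕ, t ≠ 0 → p ∣ t → p ∣ low X t := by
      intro t ht hpt
      refine Nat.dvd_of_factorization_pos ?_
      rw [fact_low, if_pos (not_lt.1 hpX)]
      exact (hpp.factorization_pos_of_dvd ht hpt).ne'
    rw [Nat.mem_primeFactors]
    refine ⟨hpp, ?_, huv⟩
    rcases (Nat.Prime.dvd_mul hpp).1 hd with h2 | h2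
    · exact (key _ hs0 h2).mul_right _
    · exact (key _ hs0' h2).mul_left _
  have h2 : ∏ p ∈ (s * s').primeFactors.filter (fun p => X < p), pf p ≤
      B1Levx52.offW F X0 b * B1Levx52.offW F X0 c := by
    have h3 : B1Levx52.B1 X b c ≤ B1Levx52.offW F X b * B1Levx52.offW F X c :=
      B1Levx52.B1_le hM hb hc hg
    refine h3.trans (mul_le_mul (B1Levx52.offW_anti hX b) (B1Levx52.offW_anti hX c) ?_ ?_)
    · exact zero_le_one.trans (B1Levx52.one_le_offW _ _)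
    · exact zero_le_one.trans (B1Levx52.one_le_offW _ _)
  have h4 : 0 ≤ ∏ p ∈ (s * s').primeFactors.filter (fun p => ¬ X < p), pf p :=
    (prod_pf_pos fun p hp => Nat.prime_of_mem_primeFactors (mem_filter.1 hp).1).le
  have h5 : 0 ≤ B1Levx52.offW F X0 b * B1Levx52.offW F X0 c :=
    mul_nonneg (zero_le_one.trans (B1Levx52.one_le_offW _ _))
      (zero_le_one.trans (B1Levx52.one_le_offW _ _))
  rw [e, mul_comm (1 + _)]
  exact mul_le_mul h2 h1 h4 h5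

/-! ### the weight and the kernel of a pair -/

section pair

variable {M : ℕ} {F : FL M} {P : Par} {Z : World}

/-- the weight of the zone is at least the weight at the node -/
lemma Ww_le_Wb (hZ : Z.Ok) {y i w b : ℕ}
    (hg : FamBudx252.Good Z (Act F P Z.N y w b) w (Z.bi i w)) :
    Ww Z.N (fun p => lamR F P b p = none) y (Z.cut i) w ≤ Wb F P Z y (Z.zone i w) w b := by
  classical
  unfold Wb FamBudx252.VA
  rw [if_pos (show FamBudx252.Good Z (Act F P Z.N y w b) w (Z.zone i w).1 from hg)]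
  refine (VecWtx559.Ww_anti _ _ _ _ (hZ.hcut (bi_le (Z := Z) i w))).trans (le_of_eq ?_)
  unfold Ww Act
  refine prod_congr ?_ fun _ _ => rfl
  ext p
  simp only [mem_filter]
  constructor
  · rintro ⟨h1, h2, h3, h4⟩
    exact ⟨⟨h1, h2, h4⟩, h3⟩
  · rintro ⟨⟨h1, h2, h4⟩, h3⟩
    exact ⟨h1, h2, h3, h4⟩

/-- the kernel of the world is at least `1 / g` of the node of the pair -/
lemma kap2_ge (hZ : Z.Ok) {R : Node → Node → Prop} {z z' ν ν' : Node} {w w' : ℕ}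
    (hν : ν ∈ Z.Nd z) (hν' : ν' ∈ Z.Nd z') (hR : R ν ν')
    (hA : (w ∈ Z.A z ν ∧ w' ∈ Z.S ν') ∨ (w ∈ Z.S ν ∧ w' ∈ Z.A z' ν')) :
    1 / Z.g ν ≤ kap2 Z R z z' w w' := by
  classical
  have h0 : ∀ ν1 ∈ Z.Nd z, ∀ ν2 : Node,
      0 ≤ (if R ν1 ν2 ∧ ((w ∈ Z.A z ν1 ∧ w' ∈ Z.S ν2) ∨ (w ∈ Z.S ν1 ∧ w' ∈ Z.A z' ν2))
        then 1 / Z.g ν1 else 0) := by
    intro ν1 h1 ν2
    split_ifs
    · exact one_div_nonneg.2 (g_pos hZ h1).le
    · exact le_rfl
  unfold kap2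
  refine le_trans ?_ (single_le_sum (f := fun ν1 => ∑ ν2 ∈ Z.Nd z',
    if R ν1 ν2 ∧ ((w ∈ Z.A z ν1 ∧ w' ∈ Z.S ν2) ∨ (w ∈ Z.S ν1 ∧ w' ∈ Z.A z' ν2))
      then 1 / Z.g ν1 else 0) (fun ν1 h1 => sum_nonneg fun ν2 _ => h0 ν1 h1 ν2) hν)
  refine le_trans ?_ (single_le_sum (f := fun ν2 =>
    if R ν ν2 ∧ ((w ∈ Z.A z ν ∧ w' ∈ Z.S ν2) ∨ (w ∈ Z.S ν ∧ w' ∈ Z.A z' ν2))
      then 1 / Z.g ν else 0) (fun ν2 _ => h0 ν hν ν2) hν')
  rw [if_pos ⟨hR, hA⟩]

end pair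

section main

variable {X0 : ℕ} {cp η γ : ℝ} {A m0 : ℕ}

/-- constant of the pair side -/
noncomputable def C1 : ℝ := Real.exp 200 * (Real.exp (22 / Real.log 2) * 2)

set_option maxHeartbeats 1600000 in
/-- **the pair side at the own index** -/
theorem pair_side (h : NumV X0 cp η A m0) {L : ℝ} {M : ℕ} {B : Finset ℕ} {F : FL M}
    (hS : Setup η L M B F) {a a' e b c i : ℕ} {x : ℤ} (hb : b ∈ B) (hc : c ∈ B)
    (hx : x ∈ Lnk γ L b c) (hk : ¬ killedB (lamOf cp A m0 γ L M B F) b c x)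
    (hv : VCi F (ParOf cp A m0 γ L M B) (QQ cp A m0 γ L M B F) a a' e i b c x) :
    H0 hS.hM F (yc a a') b = H0 hS.hM F (yc a a') c ∧
      ∃ s, win a s (yc a a') b ∧ win a' s (yc a a') c ∧
      ∀ (Z : World) (w w' : ℕ), Z = vw hS.hM F (ParOf cp A m0 γ L M B) (1 / (4 * A)) a a' s
          (H0 hS.hM F (yc a a') b) →
        w = HighFLx863.hw hS.hM F (yc a a') b → w' = HighFLx863.hw hS.hM F (yc a a') c →
        ∃ z ∈ Z.Zs, ∃ z' ∈ Z.Zs,
        boostB M (lamOf cp A m0 γ L M B F) b c x ≤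
          (C1 * 8) * (2 : ℝ) ^ ((a + a' : ℝ) / 4) *
            (B1Levx52.offW F X0 b * B1Levx52.offW F X0 c) *
          (kap2 Z (RR Z a a') z z' w w' /
            (VR (hiFL hS.hM (yc a a') F) (H0 hS.hM F (yc a a') b) *
              (Nat.gcd w w' : ℝ)) *
          BoostRx398.bst (BoostTopx19.prQ (yc a a')) (low (yc a a') M) (low (yc a a') b)
            (low (yc a a') c) *
          min (Wb F (ParOf cp A m0 γ L M B) Z (yc a a') z w b)
            (Wb F (ParOf cp A m0 γ L M B) Z (yc a a') z' w' c)) := by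
  classical
  set P := ParOf cp A m0 γ L M B with hP
  obtain ⟨hF, hd, hp, hsm, hcl, hq1, hq2, hq3⟩ := hv
  have hM := hS.hM
  have hL : 0 < L := hS.hL
  have hbM := hS.dvd hb
  have hcM := hS.dvd hc
  have hi : m0 ≤ i := hF.m0
  have hA := h.num.A_one
  obtain ⟨a1, a2, b1, b2, _, _, _⟩ := hcl.bounds
  set u := low (P.cut i) (b / Nat.gcd b c) with hu
  set v := low (P.cut i) (c / Nat.gcd b c) with hv'
  have hsmN : u * v < (i + 1) ^ 8 := by exact_mod_cast hsm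
  have hcut8 : 4 * (i + 1) ^ 8 ≤ P.cut i := h.cut8 hi
  have hV : VP hS.hM F P (yc a a') i (H0 hS.hM F (yc a a') b)
      (HighFLx863.hw hS.hM F (yc a a') b) (HighFLx863.hw hS.hM F (yc a a') c) u v
      (Nat.gcd (low (yc a a') b) (low (yc a a') c)) b c x :=
    exists_vp_cls hS.hM F P hbM hcM hL hF hp hx hcl (by rw [← hu, ← hv']; omega)
  set y := yc a a' with hy
  set l := Nat.gcd (low y b) (low y c) with hl
  obtain ⟨κ, hκ, hw1, hw2⟩ := hV.window hL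
  set s := Nat.log 2 l + κ with hs
  have hlpos : 0 < l := hV.l_pos
  have hup := hV.u_pos
  have hvp := hV.v_pos
  have hl1 : 2 ^ Nat.log 2 l ≤ l := Nat.pow_log_le_self 2 hlpos.ne'
  have hl2 : l < 2 ^ (Nat.log 2 l + 1) := Nat.lt_pow_succ_log_self (by norm_num) l
  have hs1 : 2 ^ s ≤ 2 * l := by
    calc 2 ^ s ≤ 2 ^ (Nat.log 2 l + 1) := Nat.pow_le_pow_right (by norm_num) (by omega)
      _ = 2 * 2 ^ Nat.log 2 l := by rw [pow_succ]; ring
      _ ≤ 2 * l := by omega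
  have hs2 : l < 2 ^ (s + 1) :=
    lt_of_lt_of_le hl2 (Nat.pow_le_pow_right (by norm_num) (by omega))
  have hlb := hV.lb
  have hlc := hV.lc
  have win_of : ∀ (a0 u0 t : ℕ), t = l * u0 → 2 ^ a0 ≤ u0 → u0 < 2 ^ (a0 + 1) →
      2 ^ (a0 + s) ≤ 2 * t ∧ t < 2 ^ (a0 + s + 2) := by
    intro a0 u0 t ht h1 h2
    constructor
    · calc 2 ^ (a0 + s) = 2 ^ s * 2 ^ a0 := by rw [pow_add]; ring
        _ ≤ (2 * l) * u0 := Nat.mul_le_mul hs1 h1
        _ = 2 * t := by rw [ht]; ring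
    · calc t = l * u0 := ht
        _ < 2 ^ (s + 1) * 2 ^ (a0 + 1) := Nat.mul_lt_mul'' hs2 h2
        _ = 2 ^ (a0 + s + 2) := by rw [← pow_add]; congr 1; ring
  have wb := win_of a u (low y b) hlb a1 a2
  have wc := win_of a' v (low y c) hlc b1 b2
  refine ⟨hV.Gc.symm, s, wb, wc, ?_⟩
  intro Z w w' hZ hw hw'
  set G := H0 hS.hM F y b with hG
  have hGm : G ∈ cores (hiFL hS.hM y F) := hV.hG
  have hOk : Z.Ok := by rw [hZ]; exact vw_ok h hM hL hGm
  rw [← hw] at hV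
  rw [← hw'] at hV
  rw [← hw] at hw1 hw2
  have eN : Z.N = PM (hiFL hS.hM y F) G := by rw [hZ]; rfl
  have eG : Z.G0 = G := by rw [hZ]; rfl
  have eL : Z.L = L / 2 ^ s := by rw [hZ]; rfl
  have ecut : Z.cut = fun m => 2 ^ (A * m) := by rw [hZ]; rfl
  have ecut' : Z.cut = P.cut := ecut
  have eγ : Z.γ = γ := by rw [hZ]; rfl
  have hwN : w ∣ Z.N := by rw [eN]; exact hV.hw
  have hwN' : w' ∣ Z.N := by rw [eN]; exact hV.hw'
  have hAA : 2 ^ (a + a') < (i + 1) ^ 8 := by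
    calc 2 ^ (a + a') = 2 ^ a * 2 ^ a' := pow_add _ _ _
      _ ≤ u * v := Nat.mul_le_mul a1 b1
      _ < _ := hsmN
  have hnd : Z.nd i w := by
    refine ⟨?_, ?_, ?_⟩
    · rw [hZ]
      show max P.m0 (max (GWinstx982.iD (hiFL hS.hM y F) P G) (iA a a')) ≤ i
      exact max_le hF.m0 (max_le (GWinstx982.iD_le hV.D_le) (Nat.sInf_le hAA))
    · rw [eL]
      unfold World.e
      rw [eG, ecut']
      exact hw1
    · rw [eL]
      unfold World.e
      rw [eG, ecut']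
      exact hw2
  have hlow : low (Z.cut i) w = low (Z.cut i) w' := by rw [ecut']; exact hV.low_eq.symm
  have hnd' : Z.nd i w' := (nd_congr' hlow).1 hnd
  -- relation
  have hrel : RR Z a a' (Z.lab i w) (Z.lab i w') := by
    refine RelDegx15.rel_of_link hOk hwN hwN' hnd hlow (p := (u, v)) ?_ (h := x) ?_
    · rw [RelDegx15.mem_Cl]
      refine ⟨⟨⟨a1, ?_⟩, b1, ?_⟩, hV.cop⟩
      · have : 2 ^ (a + 1) = 2 * 2 ^ a := by rw [pow_succ]; ring
        show u < 2 * 2 ^ a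
        omega
      · have : 2 ^ (a' + 1) = 2 * 2 ^ a' := by rw [pow_succ]; ring
        show v < 2 * 2 ^ a'
        omega
    · have h1 := hV.link_le hL
      have e1 : Z.yy i w = upp (P.cut i) w * P.γ := by unfold World.yy; rw [ecut', eγ]; rfl
      have e2 : Z.yy i w' = upp (P.cut i) w' * P.γ := by unfold World.yy; rw [ecut', eγ]; rfl
      rw [e1, e2]
      refine h1.le.trans ?_
      have h2 : Z.tt i w < 2 ^ (i + 1) := by
        unfold World.tt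
        rw [div_lt_iff₀ hOk.hL]
        exact hnd.2.2
      have h3 : 0 < Z.tt i w := GWcellx284.tt_pos hOk _ _
      rw [div_le_div_iff₀ (by positivity) h3, one_mul]
      rw [pow_succ] at h2
      linarith
  -- the change of zone
  have hH := hy_of_num h.num (γ := γ) (L := L) (B := B) hM hL F
  have hθ : Z.θ i = 2 ^ (cp * i) / 16 := by rw [hZ]; rfl
  have hu8 : (u : ℝ) ≤ ((i : ℝ) + 1) ^ 8 := by
    have h1 : u ≤ (i + 1) ^ 8 := (Nat.le_mul_of_pos_right u hvp).trans hsmN.le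
    exact_mod_cast h1
  have hv8 : (v : ℝ) ≤ ((i : ℝ) + 1) ^ 8 := by
    have h1 : v ≤ (i + 1) ^ 8 := (Nat.le_mul_of_pos_left v hup).trans hsmN.le
    exact_mod_cast h1
  have hKof : ∀ t : ℝ, t ≤ ((i : ℝ) + 1) ^ 8 → 8 * t * Z.θ i ≤ KK cp i := by
    intro t ht
    rw [hθ]
    unfold KK
    have h1 : (0 : ℝ) < 2 ^ (cp * i) := by positivity
    have h2 := mul_le_mul_of_nonneg_right ht h1.le
    linarith
  have hch : (w ∈ Z.A (Z.zone i w) (Z.lab i w) ∧ w' ∈ Z.S (Z.lab i w')) ∨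
      (w ∈ Z.S (Z.lab i w) ∧ w' ∈ Z.A (Z.zone i w') (Z.lab i w')) := by
    by_cases hwA : w ∈ Z.A (Z.zone i w) (Z.lab i w)
    · exact Or.inl ⟨hwA, mem_S_lab hOk hwN' hnd'⟩
    · by_cases hwA' : w' ∈ Z.A (Z.zone i w') (Z.lab i w')
      · exact Or.inr ⟨mem_S_lab hOk hwN hnd, hwA'⟩
      · exfalso
        refine hq3 ?_
        exact KillVx19.killV hH hA h.num.cp_pos.le hV hx hk hF hs1 hs2 hOk eG eL ecut eγ
          (fun K ν w w' hw hw' hon => GWcellx284.on_cell hOk hw hw' hon)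
          (mem_Nd_zone hOk hwN hnd) (mem_Nd_zone hOk hwN' hnd') rfl rfl
          (mem_S_lab hOk hwN hnd) (mem_S_lab hOk hwN' hnd') hwA hwA'
          (hKof u hu8) (hKof v hv8) (h.KK2 hi) (h.KK8 hi) (h.KKE hi)
  -- kernel
  have hkap := kap2_ge hOk (mem_Nd_zone hOk hwN hnd) (mem_Nd_zone hOk hwN' hnd') hrel hch
  -- weights
  have h2s : (2 : ℝ) ^ s ≤ 2 * (l : ℕ) := by exact_mod_cast hs1
  have hlow_of : ∀ (u0 t : ℕ), t = l * u0 → 0 < u0 → u0 < 2 ^ (a + a' + 1) →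
      (2 : ℝ) ^ s ≤ 2 * (t : ℕ) ∧ ((t : ℕ) : ℝ) ≤ 2 ^ (a + a' + 2) * 2 ^ s := by
    intro u0 t ht h1 h2
    have h3 : l ≤ t := by rw [ht]; exact Nat.le_mul_of_pos_right _ h1
    constructor
    · have : (l : ℝ) ≤ t := by exact_mod_cast h3
      linarith
    · have h4 : t ≤ 2 ^ (a + a' + 2) * 2 ^ s := by
        calc t = l * u0 := ht
          _ ≤ 2 ^ (s + 1) * 2 ^ (a + a' + 1) := Nat.mul_le_mul hs2.le h2.le
          _ = 2 ^ (a + a' + 2) * 2 ^ s := by rw [← pow_add, ← pow_add]; congr 1; ring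
      exact_mod_cast h4
  have hu1 : u < 2 ^ (a + a' + 1) :=
    lt_of_lt_of_le a2 (Nat.pow_le_pow_right (by norm_num) (by omega))
  have hv1 : v < 2 ^ (a + a' + 1) :=
    lt_of_lt_of_le b2 (Nat.pow_le_pow_right (by norm_num) (by omega))
  obtain ⟨hlo, hhi⟩ := hlow_of u _ hlb hup hu1
  obtain ⟨hlo', hhi'⟩ := hlow_of v _ hlc hvp hv1
  have hgb := good_zone h hM hL hbM hAA hZ hw hnd hlo hhi hq1
  have hGc : H0 hS.hM F y c = G := hV.Gc
  have hgc := good_zone (b := c) h hM hL hcM hAA (by rw [hZ, ← hGc]) hw' hnd' hlo' hhi' hq2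
  have hWb := Ww_le_Wb hOk hgb
  have hWc := Ww_le_Wb hOk hgc
  -- the weight
  have hX2 : 2 ≤ P.cut i := by
    have : 1 ≤ (i + 1) ^ 8 := Nat.one_le_pow _ _ (by omega)
    omega
  have hi1 : 1 ≤ i := by have := h.num.m0_14; omega
  have hXQ : P.cut i ≤ P.cut (2 * i) :=
    Nat.pow_le_pow_right (by norm_num) (Nat.mul_le_mul_left _ (by omega))
  have hLg : P.L ≤ (Nat.gcd b c : ℕ) := by
    have h1 := hF.lo
    have h2 : (1 : ℝ) ≤ 2 ^ i := one_le_pow₀ (by norm_num)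
    have h3 : 0 < P.L := hL
    nlinarith
  have hWt := VecWtx559.weight_frm (F := F) (P := P) hM hL (fun i => rfl)
    (fun b i => min_le_right _ _) hbM hcM hGm hV.hw hV.hw' hV.ub hV.uc hV.low_eq.symm hV.gcd_w
    hX2 hXQ hF.good hx hF.al hLg
  have hr : Real.log (P.cut (2 * i) : ℕ) / Real.log (P.cut i : ℕ) = 2 :=
    GWwtx360.log_ratio hA hi1
  rw [hr] at hWt
  have hgnn : 0 < (Nat.gcd b c : ℝ) * nu M b * nu M c := by
    have h1 : (0 : ℝ) < Nat.gcd b c := by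
      exact_mod_cast Nat.gcd_pos_of_pos_left _ (Nat.pos_of_dvd_of_pos hbM hM)
    exact mul_pos (mul_pos h1 (nu_pos hM hbM)) (nu_pos hM hcM)
  set kkv := VecWtx559.kk (hiFL hS.hM y F) G (P.cut i) w (upp y b) (upp y c) with hkkv
  set bs := BoostRx398.bst (BoostTopx19.prQ y) (low y M) (low y b) (low y c) with hbs
  have hboost : boostB M (lamR F P) b c x ≤ C1 * PureL2x232.B1 b c *
      (kkv * bs * min (Ww (PM (hiFL hS.hM y F) G) (fun p => lamR F P b p = none) y (P.cut i) w)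
        (Ww (PM (hiFL hS.hM y F) G) (fun p => lamR F P c p = none) y (P.cut i) w')) := by
    refine le_of_mul_le_mul_left (hWt.trans (le_of_eq ?_)) hgnn
    unfold C1
    ring
  -- `kk ≤ kap2 / (VR gcd)`
  have hGpos : 0 < G := Nat.pos_of_dvd_of_pos (mem_cores.1 hGm).1.1 (upp_pos _ _)
  have hwpos : 0 < w := Nat.pos_of_dvd_of_pos hwN hOk.hN
  have hVRpos : 0 < VR (hiFL hS.hM y F) G := by
    rw [← mul_nu0 (upp_pos _ _) hGm]
    exact mul_pos (by exact_mod_cast hGpos) (VecWtx559.nu0_pos' (upp_pos _ _) hGm)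
  have hgcdpos : (0 : ℝ) < (Nat.gcd w w' : ℝ) := by
    exact_mod_cast Nat.gcd_pos_of_pos_left _ hwpos
  have hkk : kkv ≤ kap2 Z (RR Z a a') (Z.zone i w) (Z.zone i w') w w' /
      (VR (hiFL hS.hM y F) G * (Nat.gcd w w' : ℝ)) := by
    have hg : Z.g (Z.lab i w) = nu (low (P.cut i) (PM (hiFL hS.hM y F) G)) (low (P.cut i) w) := by
      unfold World.g
      rw [eN, lab_fst, lab_low, ecut']
    have hgpos := g_pos hOk (mem_Nd_zone hOk hwN hnd)
    have e1 : kkv = 1 / Z.g (Z.lab i w) / (VR (hiFL hS.hM y F) G * (Nat.gcd w w' : ℝ)) := by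
      rw [hkkv]
      unfold VecWtx559.kk
      rw [hV.ub, hV.uc, Nat.gcd_mul_left, ← hg, ← mul_nu0 (upp_pos _ _) hGm]
      push_cast
      rw [div_div]
      congr 1
      ring
    rw [e1]
    exact div_le_div_of_nonneg_right hkap (mul_pos hVRpos hgcdpos).le
  have hbs0 : 0 ≤ bs := BoostAlx100.bst_nonneg _ _ _ _
  have hkk0 : 0 ≤ kkv := VecWtx559.kk_nonneg _ _ _ _ _ _
  -- `B1`
  have hX0 : X0 ≤ P.cut i := by
    have h1 := h.x0
    have h2 : i < 2 ^ i := Nat.lt_two_pow_self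
    have h3 : 2 ^ i ≤ 2 ^ (A * i) :=
      Nat.pow_le_pow_right (by norm_num) (Nat.le_mul_of_pos_left i hA)
    show X0 ≤ 2 ^ (A * i)
    omega
  have hB1 := B1_pair hM hbM hcM hF.good hX0
  have hOff : 0 ≤ B1Levx52.offW F X0 b * B1Levx52.offW F X0 c :=
    mul_nonneg (zero_le_one.trans (B1Levx52.one_le_offW _ _))
      (zero_le_one.trans (B1Levx52.one_le_offW _ _))
  have hlogb : 1 + Real.logb 2 (u * v : ℕ) ≤ 8 * 2 ^ ((a + a' : ℝ) / 4) := by
    have h1 : ((u * v : ℕ) : ℝ) ≤ 2 ^ ((a + a' + 2 : ℕ) : ℝ) := by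
      rw [Real.rpow_natCast]
      have h2 : u * v ≤ 2 ^ (a + a' + 2) := by
        calc u * v ≤ 2 ^ (a + 1) * 2 ^ (a' + 1) := Nat.mul_le_mul a2.le b2.le
          _ = _ := by rw [← pow_add]; congr 1; ring
      exact_mod_cast h2
    have h2 : Real.logb 2 (u * v : ℕ) ≤ ((a + a' + 2 : ℕ) : ℝ) := by
      rw [Real.logb_le_iff_le_rpow (by norm_num)
        (by exact_mod_cast Nat.mul_pos hup hvp)]
      exact h1
    have h3 := log_le_pow (a + a')
    have e1 : ((a + a' + 2 : ℕ) : ℝ) = (a + a' : ℝ) + 2 := by push_cast; ring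
    have e2 : ((a + a' : ℕ) : ℝ) = (a + a' : ℝ) := by push_cast; ring
    rw [e1] at h2
    rw [e2] at h3
    linarith
  have hB1' : PureL2x232.B1 b c ≤ (8 * 2 ^ ((a + a' : ℝ) / 4)) *
      (B1Levx52.offW F X0 b * B1Levx52.offW F X0 c) :=
    hB1.trans (mul_le_mul_of_nonneg_right hlogb hOff)
  have hmin : min (Ww (PM (hiFL hS.hM y F) G) (fun p => lamR F P b p = none) y (P.cut i) w)
        (Ww (PM (hiFL hS.hM y F) G) (fun p => lamR F P c p = none) y (P.cut i) w') ≤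
      min (Wb F P Z y (Z.zone i w) w b) (Wb F P Z y (Z.zone i w') w' c) := by
    rw [eN, ecut'] at hWb hWc
    exact min_le_min hWb hWc
  have hmin0 : 0 ≤ min (Ww (PM (hiFL hS.hM y F) G) (fun p => lamR F P b p = none) y (P.cut i) w)
        (Ww (PM (hiFL hS.hM y F) G) (fun p => lamR F P c p = none) y (P.cut i) w') :=
    le_min (VecWtx559.Ww_nonneg _ _ _ _ _) (VecWtx559.Ww_nonneg _ _ _ _ _)
  have hC1 : 0 ≤ C1 := by unfold C1; positivity
  refine ⟨Z.zone i w, zone_mem_Zs hOk hwN hnd, Z.zone i w', zone_mem_Zs hOk hwN' hnd', ?_⟩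
  refine hboost.trans ?_
  have hK0 : 0 ≤ kap2 Z (RR Z a a') (Z.zone i w) (Z.zone i w') w w' /
      (VR (hiFL hS.hM y F) G * (Nat.gcd w w' : ℝ)) := hkk0.trans hkk
  have hin : kkv * bs * min (Ww (PM (hiFL hS.hM y F) G) (fun p => lamR F P b p = none) y
        (P.cut i) w) (Ww (PM (hiFL hS.hM y F) G) (fun p => lamR F P c p = none) y (P.cut i) w') ≤
      kap2 Z (RR Z a a') (Z.zone i w) (Z.zone i w') w w' /
      (VR (hiFL hS.hM y F) G * (Nat.gcd w w' : ℝ)) * bs *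
        min (Wb F P Z y (Z.zone i w) w b) (Wb F P Z y (Z.zone i w') w' c) :=
    mul_le_mul (mul_le_mul_of_nonneg_right hkk hbs0) hmin hmin0 (mul_nonneg hK0 hbs0)
  calc C1 * PureL2x232.B1 b c * _ ≤ C1 * ((8 * 2 ^ ((a + a' : ℝ) / 4)) *
        (B1Levx52.offW F X0 b * B1Levx52.offW F X0 c)) * _ :=
        mul_le_mul (mul_le_mul_of_nonneg_left hB1' hC1) hin
          (mul_nonneg (mul_nonneg hkk0 hbs0) hmin0)
          (mul_nonneg hC1 (mul_nonneg (by positivity) hOff))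
    _ = _ := by ring

/-- **THE PAIR SIDE** -/
theorem tpair (γ : ℝ) (X0 : ℕ) : TPair γ X0 := by
  refine (evNumV X0).mono fun cp η A m0 h => ⟨C1 * 8, by unfold C1; positivity, ?_⟩
  intro L M B F hS a a' e b hb c hc _ x hx hk hv
  obtain ⟨i, hv⟩ := hv
  exact pair_side h hS hb hc hx hk hv

end main

end Crest.Agent.R4C.TPairx19
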