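import Crest.Agent.R4C.VDef_24
import Crest.Agent.R4C.KillV_19
import Crest.Agent.R4C.GoodV_20
import Crest.Agent.R4C.TBud_322
import Crest.Agent.R4C.VWt_360
import Crest.Agent.R4C.HyOf_281

/-!
# Row 4, GW section, vector case: target `TPair` of `VDef_24` (helper217, second hand)

`tpair γ X0 : TPair γ X0` from `VecPair_19.exists_vp_cls`, `VP.window`, `RelDeg_15.rel_of_link`,
`KillV_19.killV`, `GoodV_20.good_birth'`, `TBud_322.vw_ok`, `VWt_360.tpair_weight`.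
-/

set_option autoImplicit false

open Finset

namespace Crest.Agent.R4C.TPairx217

open Crest.Agent.R4C.Basex935 Crest.Agent.R4C.Cutx50 Crest.Agent.R4C.PrefixMx882
open Crest.Agent.R4C.FLDefx935 Crest.Agent.R4C.Rulex945 Crest.Agent.R4C.PureClsx863
open Crest.Agent.R4C.PureL2x232 (hiFL)
open Crest.Agent.R4C.GWdefx982 Crest.Agent.R4C.NHx656
open Crest.Agent.R4C.Splitx945 Crest.Agent.R4C.Spinex946 Crest.Agent.R4C.Bridgex882
open Crest.Agent.R4C.CrCoinx935 Crest.Agent.R4C.VDefx24 Crest.Agent.R4C.VecPairx19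
open Crest.Agent.R4C.HyOfx281

/-! ### numerics -/

/-- `(i+1)^8 ≤ 2^(i/16)` for large `i` -/
lemma exists_pow : ∃ m1 : ℕ, ∀ i : ℕ, m1 ≤ i → ((i : ℝ) + 1) ^ 8 ≤ (2 : ℝ) ^ ((i : ℝ) / 16) := by
  have h1 : Filter.Tendsto (fun x : ℝ => x ^ 8 * Real.exp (-(Real.log 2 / 16) * x)) Filter.atTop
      (nhds 0) := by
    have h2 : 0 < Real.log 2 / 16 := by
      have := Real.log_pos (by norm_num : (1 : ℝ) < 2)
      positivity
    have := Real.tendsto_pow_mul_exp_neg_atTop_nhds_zero 8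
    have h3 : Filter.Tendsto (fun x : ℝ => (Real.log 2 / 16) * x) Filter.atTop Filter.atTop :=
      Filter.tendsto_id.const_mul_atTop h2
    have h4 := this.comp h3
    have h5 := h4.const_mul ((Real.log 2 / 16) ^ 8)⁻¹
    rw [mul_zero] at h5
    refine h5.congr fun x => ?_
    simp only [Function.comp]
    rw [mul_pow, ← mul_assoc, ← mul_assoc, inv_mul_cancel₀ (pow_pos h2 8).ne', one_mul]
    ring_nf
  have h2 : ∀ᶠ x : ℝ in Filter.atTop,
      x ^ 8 * Real.exp (-(Real.log 2 / 16) * x) < (2 : ℝ) ^ (-(1 : ℝ) / 16) :=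
    h1.eventually_lt_const (Real.rpow_pos_of_pos (by norm_num) _)
  obtain ⟨x0, hx0⟩ := Filter.eventually_atTop.1 h2
  refine ⟨⌈x0⌉₊, fun i hi => ?_⟩
  have h3 : x0 ≤ (i : ℝ) + 1 := by
    have : x0 ≤ i := (Nat.le_ceil x0).trans (by exact_mod_cast hi)
    linarith
  have h4 := hx0 _ h3
  have h5 : (2 : ℝ) ^ ((i : ℝ) / 16) =
      (2 : ℝ) ^ (-(1 : ℝ) / 16) * Real.exp ((Real.log 2 / 16) * ((i : ℝ) + 1)) := by
    rw [Real.rpow_def_of_pos (by norm_num), Real.rpow_def_of_pos (by norm_num), ← Real.exp_add]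
    congr 1
    ring
  rw [h5]
  have h6 : 0 < Real.exp ((Real.log 2 / 16) * ((i : ℝ) + 1)) := Real.exp_pos _
  have h7 := mul_lt_mul_of_pos_right h4 h6
  rw [mul_assoc, ← Real.exp_add] at h7
  have h8 : -(Real.log 2 / 16) * ((i : ℝ) + 1) + Real.log 2 / 16 * ((i : ℝ) + 1) = 0 := by ring
  rw [h8, Real.exp_zero, mul_one] at h7
  exact h7.le

/-- the constant `K'` of the kill -/
noncomputable def KK (cp : ℝ) (i : ℕ) : ℝ := ((i : ℝ) + 1) ^ 8 * (2 : ℝ) ^ (cp * i) / 2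

lemma KK_pos (cp : ℝ) (i : ℕ) : 0 < KK cp i := by unfold KK; positivity

lemma KK_8 {cp : ℝ} {i : ℕ} (hcp : cp ≤ 1 / 200)
    (h : ((i : ℝ) + 1) ^ 8 ≤ (2 : ℝ) ^ ((i : ℝ) / 16)) : KK cp i ≤ (2 : ℝ) ^ ((i : ℝ) / 8) / 2 := by
  unfold KK
  have h1 : (2 : ℝ) ^ (cp * i) ≤ (2 : ℝ) ^ ((i : ℝ) / 16) :=
    Real.rpow_le_rpow_of_exponent_le (by norm_num) (by
      have : (0 : ℝ) ≤ i := Nat.cast_nonneg _
      nlinarith)
  have h2 : (2 : ℝ) ^ ((i : ℝ) / 8) = (2 : ℝ) ^ ((i : ℝ) / 16) * (2 : ℝ) ^ ((i : ℝ) / 16) := by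
    rw [← Real.rpow_add (by norm_num)]
    congr 1
    ring
  rw [h2]
  have h3 : (0 : ℝ) < (2 : ℝ) ^ (cp * i) := Real.rpow_pos_of_pos (by norm_num) _
  have h4 : (0 : ℝ) < (2 : ℝ) ^ ((i : ℝ) / 16) := Real.rpow_pos_of_pos (by norm_num) _
  have := mul_le_mul h h1 h3.le h4.le
  linarith

lemma KK_sq {cp : ℝ} {i : ℕ} (hcp : cp ≤ 1 / 200)
    (h : ((i : ℝ) + 1) ^ 8 ≤ (2 : ℝ) ^ ((i : ℝ) / 16)) : 3 * KK cp i ^ 2 ≤ (2 : ℝ) ^ i := by
  have h1 := KK_8 hcp h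
  have h0 := KK_pos cp i
  have h2 : KK cp i ^ 2 ≤ ((2 : ℝ) ^ ((i : ℝ) / 8) / 2) ^ 2 := pow_le_pow_left₀ h0.le h1 2
  have h3 : ((2 : ℝ) ^ ((i : ℝ) / 8) / 2) ^ 2 = (2 : ℝ) ^ ((i : ℝ) / 4) / 4 := by
    rw [div_pow, ← Real.rpow_natCast, ← Real.rpow_mul (by norm_num)]
    congr 1
    · congr 1
      push_cast
      ring
    · norm_num
  rw [h3] at h2
  have h4 : (2 : ℝ) ^ ((i : ℝ) / 4) ≤ (2 : ℝ) ^ i := by
    rw [← Real.rpow_natCast 2 i]
    refine Real.rpow_le_rpow_of_exponent_le (by norm_num) ?_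
    have : (0 : ℝ) ≤ i := Nat.cast_nonneg _
    linarith
  have h5 : (0 : ℝ) < (2 : ℝ) ^ ((i : ℝ) / 4) := Real.rpow_pos_of_pos (by norm_num) _
  linarith

lemma KK_E {cp : ℝ} {A i : ℕ} (hcp0 : 0 < cp) (hcp : cp ≤ 1 / 200) (hA : 1 / cp ≤ A)
    (h : ((i : ℝ) + 1) ^ 8 ≤ (2 : ℝ) ^ ((i : ℝ) / 16)) :
    KK cp i ≤ (2 : ℝ) ^ (cp * (((A + 1) * i : ℕ) - 1 : ℝ)) := by
  unfold KK
  have hi0 : (0 : ℝ) ≤ i := Nat.cast_nonneg _
  have hA' : 1 ≤ cp * A := by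
    rw [div_le_iff₀ hcp0] at hA
    linarith
  have e : (2 : ℝ) ^ (cp * (((A + 1) * i : ℕ) - 1 : ℝ)) =
      (2 : ℝ) ^ (cp * A * i - cp) * (2 : ℝ) ^ (cp * i) := by
    rw [← Real.rpow_add (by norm_num)]
    congr 1
    push_cast
    ring
  rw [e]
  have h1 : (2 : ℝ) ^ ((i : ℝ) / 16) / 2 ≤ (2 : ℝ) ^ (cp * A * i - cp) := by
    have h2 : (2 : ℝ) ^ ((i : ℝ) / 16) / 2 = (2 : ℝ) ^ ((i : ℝ) / 16 - 1) := by
      rw [Real.rpow_sub (by norm_num), Real.rpow_one]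
    rw [h2]
    refine Real.rpow_le_rpow_of_exponent_le (by norm_num) ?_
    have h3 : (1 : ℝ) * i ≤ cp * A * i := mul_le_mul_of_nonneg_right hA' hi0
    linarith
  have h3 : (0 : ℝ) < (2 : ℝ) ^ (cp * i) := Real.rpow_pos_of_pos (by norm_num) _
  calc ((i : ℝ) + 1) ^ 8 * (2 : ℝ) ^ (cp * i) / 2
      = ((i : ℝ) + 1) ^ 8 / 2 * (2 : ℝ) ^ (cp * i) := by ring
    _ ≤ (2 : ℝ) ^ ((i : ℝ) / 16) / 2 * (2 : ℝ) ^ (cp * i) := by
        refine mul_le_mul_of_nonneg_right ?_ h3.le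
        linarith
    _ ≤ _ := mul_le_mul_of_nonneg_right h1 h3.le

lemma four_le_cut {A i : ℕ} (hA : 1 ≤ A) (hi : 4 ≤ i) {n : ℕ}
    (h : ((i : ℝ) + 1) ^ 8 ≤ (2 : ℝ) ^ ((i : ℝ) / 16)) (hn : (n : ℝ) < ((i : ℝ) + 1) ^ 8) :
    4 * n ≤ 2 ^ (A * i) := by
  have hi' : (4 : ℝ) ≤ i := by exact_mod_cast hi
  have h1 : (4 : ℝ) * (2 : ℝ) ^ ((i : ℝ) / 16) ≤ (2 : ℝ) ^ (i : ℝ) := by
    have e : (4 : ℝ) * (2 : ℝ) ^ ((i : ℝ) / 16) = (2 : ℝ) ^ ((2 : ℝ) + (i : ℝ) / 16) := by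
      rw [Real.rpow_add (by norm_num)]
      norm_num
    rw [e]
    exact Real.rpow_le_rpow_of_exponent_le (by norm_num) (by linarith)
  have h2 : (2 : ℝ) ^ (i : ℝ) ≤ (2 : ℝ) ^ (A * i) := by
    rw [Real.rpow_natCast]
    exact pow_le_pow_right₀ (by norm_num) (Nat.le_mul_of_pos_left _ hA)
  have h3 : ((4 * n : ℕ) : ℝ) ≤ ((2 ^ (A * i) : ℕ) : ℝ) := by
    push_cast
    linarith
  exact_mod_cast h3

/-! ### the target -/

set_option maxHeartbeats 1000000 in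
/-- **target `TPair`** -/
theorem tpair (γ : ℝ) (X0 : ℕ) : TPair γ X0 := by
  obtain ⟨m1, hm1⟩ := exists_pow
  refine ((((evNum.and (TBudx322.vw_ok γ)).and (Ev.le_A fun cp _ => 1 / cp)).and
    (Ev.le_A fun _ _ => 10)).and ((Ev.le_m0 fun _ _ _ => X0).and
      (Ev.le_m0 fun _ _ _ => (m1 + 4 : ℕ)))).mono ?_
  rintro cp η A m0 ⟨⟨⟨⟨hnum, hok⟩, hA1⟩, hA2⟩, hX0, hm0⟩
  have hA10 : 10 ≤ A := by exact_mod_cast hA2
  have hA0 : 1 ≤ A := by omega
  have hX0' : X0 ≤ m0 := by exact_mod_cast hX0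
  have hm0' : m1 + 4 ≤ m0 := by exact_mod_cast hm0
  have hcp0 := hnum.cp_pos
  have hcp := hnum.cp_le
  refine ⟨VWtx360.CW, VWtx360.CW_pos.le, ?_⟩
  intro L M B F hS a a' e b hb c hc hne h hl hk hVC
  obtain ⟨i, hfar, hdom, hpure, hsm, hcl, hq1, hq2, hq3⟩ := hVC
  set P := ParOf cp A m0 γ L M B with hP
  have hbM := hS.dvd hb
  have hcM := hS.dvd hc
  have him0 : m0 ≤ i := hfar.m0
  have hpw := hm1 i (by omega)
  have hi4 : 4 ≤ i := by omega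
  have hH : Hy F P (FLExx326.ind B) (1 / (4 * A)) (1 / 20) (DD cp) := hy_of_num hnum hS.hM hS.hL F
  set u := low (P.cut i) (b / Nat.gcd b c) with hu
  set v := low (P.cut i) (c / Nat.gcd b c) with hv
  have huv : (((u * v : ℕ)) : ℝ) < ((i : ℝ) + 1) ^ 8 := by
    push_cast
    exact hsm
  have h4 : 4 * (u * v) ≤ P.cut i := four_le_cut hA0 hi4 hpw huv
  have hV := exists_vp_cls hS.hM F P hbM hcM hS.hL hfar hpure hl hcl h4
  rw [← hu, ← hv] at hV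
  set y := yc a a' with hy
  have ey : 2 ^ (a + a' + 2) = y := rfl
  rw [ey] at hV
  set l := Nat.gcd (low y b) (low y c) with hldef
  obtain ⟨κ, hκ, n1, n2⟩ := hV.window hS.hL
  set J := Nat.log 2 l with hJ
  set s := J + κ with hs
  have hup := hV.u_pos
  have hvp := hV.v_pos
  have hlp := hV.l_pos
  obtain ⟨b1, b2, b3, b4, _, _, _⟩ := hcl.bounds
  rw [← hu] at b1 b2
  rw [← hv] at b3 b4
  have j1 : 2 ^ J ≤ l := Nat.pow_log_le_self 2 hlp.ne'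
  have j2 : l < 2 ^ (J + 1) := Nat.lt_pow_succ_log_self (by norm_num) l
  have hs1 : 2 ^ s ≤ 2 * l := by
    calc 2 ^ s ≤ 2 ^ (J + 1) := Nat.pow_le_pow_right (by norm_num) (by omega)
      _ = 2 * 2 ^ J := by rw [pow_succ]; ring
      _ ≤ 2 * l := Nat.mul_le_mul_left _ j1
  have hs2 : l < 2 ^ (s + 1) :=
    lt_of_lt_of_le j2 (Nat.pow_le_pow_right (by norm_num) (by omega))
  have hwinb : win a s y b := by
    constructor
    · rw [hV.lb, pow_add]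
      calc 2 ^ a * 2 ^ s ≤ u * (2 * l) := Nat.mul_le_mul b1 hs1
        _ = _ := by ring
    · rw [hV.lb]
      calc l * u < 2 ^ (s + 1) * 2 ^ (a + 1) := Nat.mul_lt_mul'' hs2 b2
        _ = _ := by rw [← pow_add]; congr 1; ring
  have hwinc : win a' s y c := by
    constructor
    · rw [hV.lc, pow_add]
      calc 2 ^ a' * 2 ^ s ≤ v * (2 * l) := Nat.mul_le_mul b3 hs1
        _ = _ := by ring
    · rw [hV.lc]
      calc l * v < 2 ^ (s + 1) * 2 ^ (a' + 1) := Nat.mul_lt_mul'' hs2 b4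
        _ = _ := by rw [← pow_add]; congr 1; ring
  refine ⟨hV.Gc.symm, s, hwinb, hwinc, ?_⟩
  intro Z w w' hZ hw hw'
  have hZok : Z.Ok := by
    rw [hZ]
    exact hok L M B F hS _ a a' s _ (HighFLx863.H0_mem hS.hM F hbM)
  set G := HighFLx863.H0 hS.hM F y b with hG
  rw [← hw, ← hw'] at hV
  rw [← hw] at n1 n2
  have eN : Z.N = PM (hiFL hS.hM y F) G := by rw [hZ]; rfl
  have eG : Z.G0 = G := by rw [hZ]; rfl
  have eL : Z.L = L / 2 ^ s := by rw [hZ]; rfl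
  have ecut : Z.cut = P.cut := by rw [hZ]; rfl
  have eγ : Z.γ = γ := by rw [hZ]; rfl
  have ei0 : Z.i0 = max P.m0 (max (GWinstx982.iD (hiFL hS.hM y F) P G) (iA a a')) := by
    rw [hZ]; rfl
  have eθ : Z.θ i = (2 : ℝ) ^ (cp * i) / 16 := by rw [hZ]; rfl
  have hwN : w ∣ Z.N := by rw [eN]; exact hV.hw
  have hwN' : w' ∣ Z.N := by rw [eN]; exact hV.hw'
  -- the node
  have hi0 : Z.i0 ≤ i := by
    rw [ei0]
    refine max_le him0 (max_le (GWinstx982.iD_le hV.D_le) (Nat.sInf_le ?_))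
    show 2 ^ (a + a') < (i + 1) ^ 8
    have h1 : 2 ^ (a + a') ≤ u * v := by rw [pow_add]; exact Nat.mul_le_mul b1 b3
    have h2 : ((2 ^ (a + a') : ℕ) : ℝ) < (((i + 1) ^ 8 : ℕ) : ℝ) := by
      push_cast
      have h3 : ((2 ^ (a + a') : ℕ) : ℝ) ≤ ((u * v : ℕ) : ℝ) := by exact_mod_cast h1
      push_cast at h3 huv
      linarith
    exact_mod_cast h2
  have hnd : Z.nd i w := by
    refine ⟨hi0, ?_, ?_⟩
    · show (2 : ℝ) ^ i * Z.L ≤ ((Z.G0 * low (Z.cut i) w : ℕ) : ℝ)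
      rw [eG, eL, ecut]
      exact n1
    · show ((Z.G0 * low (Z.cut i) w : ℕ) : ℝ) < 2 ^ (i + 1) * Z.L
      rw [eG, eL, ecut]
      exact n2
  have hlow : low (Z.cut i) w = low (Z.cut i) w' := by rw [ecut]; exact hV.low_eq.symm
  have hnd' : Z.nd i w' := (GWnodex863.nd_congr' hlow).1 hnd
  -- the relation
  have hR : RR Z a a' (Z.lab i w) (Z.lab i w') := by
    refine RelDegx15.rel_of_link (p := (u, v)) (h := h) hZok hwN hwN' hnd hlow ?_ ?_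
    · rw [RelDegx15.mem_Cl]
      refine ⟨⟨⟨b1, ?_⟩, b3, ?_⟩, hV.cop⟩
      · rw [← pow_succ']; exact b2
      · rw [← pow_succ']; exact b4
    · have h1 := hV.link
      have e1 : Z.yy i w = upp (P.cut i) w * P.γ := by
        show (upp (Z.cut i) w : ℝ) * Z.γ = _
        rw [ecut, eγ]
        rfl
      have e2 : Z.yy i w' = upp (P.cut i) w' * P.γ := by
        show (upp (Z.cut i) w' : ℝ) * Z.γ = _
        rw [ecut, eγ]
        rfl
      have e3 : Z.tt i w = ((G * low (P.cut i) w : ℕ) : ℝ) / (L / 2 ^ s) := by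
        show ((Z.G0 * low (Z.cut i) w : ℕ) : ℝ) / Z.L = _
        rw [eG, eL, ecut]
      rw [e1, e2, e3]
      refine h1.le.trans ?_
      have hL0 : 0 < L := hS.hL
      have h2s : (0 : ℝ) < 2 ^ s := by positivity
      have he0 : (0 : ℝ) < ((G * low (P.cut i) w : ℕ) : ℝ) := by
        refine lt_of_lt_of_le ?_ n1
        have : 0 < P.L / 2 ^ s := div_pos hS.hL h2s
        positivity
      have hl0 : (0 : ℝ) < l := by exact_mod_cast hlp
      have hs1' : (2 : ℝ) ^ s ≤ 2 * l := by exact_mod_cast hs1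
      have e4 : 2 / (((G * low (P.cut i) w : ℕ) : ℝ) / (L / 2 ^ s)) =
          2 * L / (2 ^ s * ((G * low (P.cut i) w : ℕ) : ℝ)) := by
        field_simp
      rw [e4]
      show L / _ ≤ _
      rw [div_le_div_iff₀ (mul_pos hl0 he0) (mul_pos h2s he0)]
      have h5 : 0 ≤ L * ((G * low (P.cut i) w : ℕ) : ℝ) := by positivity
      have h6 := mul_le_mul_of_nonneg_left hs1' h5
      calc L * (2 ^ s * ((G * low (P.cut i) w : ℕ) : ℝ))
          = L * ((G * low (P.cut i) w : ℕ) : ℝ) * 2 ^ s := by ring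
        _ ≤ L * ((G * low (P.cut i) w : ℕ) : ℝ) * (2 * l) := h6
        _ = _ := by ring
  have hS1 := GWnodex863.mem_S_lab hZok hwN hnd
  have hS2 := GWnodex863.mem_S_lab hZok hwN' hnd'
  have hN1 := GWnodex863.mem_Nd_zone hZok hwN hnd
  have hN2 := GWnodex863.mem_Nd_zone hZok hwN' hnd'
  -- one member leaves its zone
  have hmove : w ∈ Z.A (Z.zone i w) (Z.lab i w) ∨ w' ∈ Z.A (Z.zone i w') (Z.lab i w') := by
    by_contra hcon
    push Not at hcon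
    refine hq3 ?_
    have hi8 : (0 : ℝ) < (2 : ℝ) ^ (cp * i) := Real.rpow_pos_of_pos (by norm_num) _
    have hu8 : (u : ℝ) ≤ ((i : ℝ) + 1) ^ 8 := by
      have h1 : u ≤ u * v := Nat.le_mul_of_pos_right _ hvp
      have h2 : (u : ℝ) ≤ ((u * v : ℕ) : ℝ) := by exact_mod_cast h1
      linarith
    have hv8 : (v : ℝ) ≤ ((i : ℝ) + 1) ^ 8 := by
      have h1 : v ≤ u * v := Nat.le_mul_of_pos_left _ hup
      have h2 : (v : ℝ) ≤ ((u * v : ℕ) : ℝ) := by exact_mod_cast h1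
      linarith
    refine KillVx19.killV (K' := KK cp i) hH hA0 hcp0.le hV hl hk hfar hs1 hs2 hZok eG eL ecut eγ
      (fun K ν w1 w2 hw1 hw2 h => GWcellx284.on_cell hZok hw1 hw2 h) hN1 hN2 rfl rfl hS1 hS2
      hcon.1 hcon.2 ?_ ?_ (KK_sq hcp hpw) ((KK_8 hcp hpw).trans ?_) (KK_E hcp0 hcp hA1 hpw)
    · rw [eθ]
      unfold KK
      have := mul_le_mul_of_nonneg_right hu8 hi8.le
      linarith
    · rw [eθ]
      unfold KK
      have := mul_le_mul_of_nonneg_right hv8 hi8.le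
      linarith
    · have : (0 : ℝ) < (2 : ℝ) ^ ((i : ℝ) / 8) := Real.rpow_pos_of_pos (by norm_num) _
      linarith
  -- the weights
  have hR1 : (1 : ℝ) ≤ 4 * ((i : ℝ) + 1) ^ 8 := by
    have : (1 : ℝ) ≤ ((i : ℝ) + 1) ^ 8 := by
      refine one_le_pow₀ ?_
      have : (0 : ℝ) ≤ i := Nat.cast_nonneg _
      linarith
    linarith
  have hcp4 : cp ≤ 1 / 4 := by linarith
  have g1 := GoodVx20.good_birth' (F := F) (cp := cp) (m0 := m0) (γ := γ) (B := B) (a := a) (a' := a')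
    (s := s) (l := i) hS.hM hS.hL hA10 hcp4 hbM hZ hZok (GoodVx20.win_lo hwinb)
    (GoodVx20.win_hi a' hwinb) (by rw [← hy, ← hw]; exact hnd) hR1 hq1
  have g2 := GoodVx20.good_birth' (F := F) (cp := cp) (m0 := m0) (γ := γ) (B := B) (a := a) (a' := a')
    (s := s) (l := i) hS.hM hS.hL hA10 hcp4 hcM (by rw [hZ, ← hy, hV.Gc]) hZok
    (GoodVx20.win_lo hwinc) (GoodVx20.win_hi' a hwinc) (by rw [← hy, ← hw']; exact hnd') hR1 hq2
  rw [← hy, ← hw] at g1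
  rw [← hy, ← hw'] at g2
  refine ⟨Z.zone i w, GWnodex863.zone_mem_Zs hZok hwN hnd, Z.zone i w',
    GWnodex863.zone_mem_Zs hZok hwN' hnd', ?_⟩
  have hX0i : X0 ≤ P.cut i := by
    have h1 : i ≤ 2 ^ (A * i) :=
      (Nat.lt_two_pow_self (n := i)).le.trans
        (Nat.pow_le_pow_right (by norm_num) (Nat.le_mul_of_pos_left i hA0))
    exact (hX0'.trans him0).trans h1
  exact VWtx360.tpair_weight (P := P) (A := A) (e := e) hS.hM hS.hL (fun _ => rfl)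
    (fun b i => min_le_right _ _) hA0 (fun _ => rfl) (by omega) hV hfar hcl hl hX0i eN ecut
    hN1 hN2 hR (by show nu (low (Z.cut i) Z.N) (low (Z.cut i) w) = _; rw [ecut])
    (by rcases hmove with h1 | h1
        · exact Or.inl ⟨h1, hS2⟩
        · exact Or.inr ⟨hS1, h1⟩)
    (GWnodex863.bi_le i w) (GWnodex863.bi_le i w') g1 g2

end Crest.Agent.R4C.TPairx217
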