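import Crest.Agent.R4C.VWt_360
import Crest.Agent.R4C.KillV_19
import Crest.Agent.R4C.GoodV_20
import Crest.Agent.R4C.TBud_322
import Crest.Agent.R4C.GWcell_284
import Crest.Agent.R4C.HyOf_281

/-!
# Row 4, GW section, vector case: target `TPair` of `VDef_24` (helper360)

`tpair γ X0 : TPair γ X0` from `exists_vp_cls`, `killV` (helper19), `good_birth'` (helper20),
`rel_of_link` (helper15), `vw_ok` (helper322), `on_cell` (helper284), `tpair_weight`.
-/

set_option autoImplicit false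

open Finset
open Crest.Agent.R4C.Basex935 Crest.Agent.R4C.Cutx50 Crest.Agent.R4C.PrefixMx882
open Crest.Agent.R4C.FLDefx935 Crest.Agent.R4C.Rulex945 Crest.Agent.R4C.PureClsx863
open Crest.Agent.R4C.PureL2x232 (hiFL)
open Crest.Agent.R4C.GWdefx982 Crest.Agent.R4C.NHx656
open Crest.Agent.R4C.Splitx945 Crest.Agent.R4C.Spinex946 Crest.Agent.R4C.Bridgex882
open Crest.Agent.R4C.CrCoinx935
open Crest.Agent.R4C.VDefx24

namespace Crest.Agent.R4C.TPrx360

/-- polynomial against exponential -/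
lemma poly8 (cp : ℝ) (hcp : 0 < cp) : ∃ m1 : ℕ, ∀ i : ℕ, m1 ≤ i →
    ((i : ℝ) + 1) ^ 8 ≤ (2 : ℝ) ^ (cp * i) := by
  have h2 : (1 : ℝ) < (2 : ℝ) ^ cp := Real.one_lt_rpow (by norm_num) hcp
  have h := tendsto_pow_const_div_const_pow_of_one_lt 8 h2
  have h3 := (h.comp (Filter.tendsto_add_atTop_nat 1)).eventually
    (gt_mem_nhds (show (0 : ℝ) < 1 / (2 : ℝ) ^ cp by positivity))
  obtain ⟨m1, hm1⟩ := Filter.eventually_atTop.1 h3
  refine ⟨m1, fun i hi => ?_⟩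
  have h4 := hm1 i hi
  simp only [Function.comp_apply] at h4
  rw [div_lt_div_iff₀ (by positivity) (by positivity), pow_succ ((2 : ℝ) ^ cp) i] at h4
  have h5 : (((i + 1 : ℕ) : ℝ) ^ 8) < ((2 : ℝ) ^ cp) ^ i := by
    have h6 : (0 : ℝ) < (2 : ℝ) ^ cp := by positivity
    by_contra hc
    push Not at hc
    have := mul_le_mul_of_nonneg_right hc h6.le
    linarith
  rw [Real.rpow_mul (by norm_num), Real.rpow_natCast]
  push_cast at h5
  exact h5.le

/-- the constants -/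
structure Nm (cp η : ℝ) (A m0 X0 : ℕ) : Prop where
  num : HyOfx281.Num cp η A m0
  hA : 10 ≤ A
  hX0 : X0 ≤ m0
  pol : ∀ i : ℕ, m0 ≤ i → ((i : ℝ) + 1) ^ 8 ≤ (2 : ℝ) ^ (cp * i)

lemma evNm (X0 : ℕ) : Ev fun cp η A m0 => Nm cp η A m0 X0 := by
  refine (((HyOfx281.evNum.and (Ev.le_A fun _ _ => 10)).and (Ev.le_m0 fun _ _ _ => X0)).and
    (Ev.of_m0 (P := fun cp _ _ m0 => ∀ i : ℕ, m0 ≤ i → ((i : ℝ) + 1) ^ 8 ≤ (2 : ℝ) ^ (cp * i))
      fun cp _ _ h _ => ?_)).mono ?_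
  · obtain ⟨m1, h1⟩ := poly8 cp h
    exact ⟨m1, fun m0 h2 i hi => h1 i (h2.trans hi)⟩
  · rintro cp η A m0 ⟨⟨⟨h1, h2⟩, h3⟩, h4⟩
    exact ⟨h1, by exact_mod_cast h2, by exact_mod_cast h3, h4⟩

set_option maxHeartbeats 1600000 in
/-- **target `TPair`** -/
theorem tpair (γ : ℝ) (X0 : ℕ) : TPair γ X0 := by
  refine ((evNm X0).and (TBudx322.vw_ok γ)).mono ?_
  rintro cp η A m0 ⟨hN, hok⟩
  refine ⟨VWtx360.CW, VWtx360.CW_pos.le, ?_⟩
  intro L M B F hS a a' e b hbB c hcB hbc h hl hk hVC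
  obtain ⟨i, hfar, hdom, hpure, hsm, hcl, hQb, hQc, hH⟩ := hVC
  have hnum := hN.num
  have hA1 : 1 ≤ A := hnum.A_one
  have hcp0 := hnum.cp_pos
  have hcp200 := hnum.cp_le
  set P := ParOf cp A m0 γ L M B with hP
  have hcut : ∀ m, P.cut m = 2 ^ (A * m) := fun m => rfl
  have hM : 0 < M := hS.hM
  have hL : 0 < L := hS.hL
  have hb : b ∣ M := Nat.dvd_of_mem_divisors (hS.hB hbB)
  have hc : c ∣ M := Nat.dvd_of_mem_divisors (hS.hB hcB)
  have him : m0 ≤ i := hfar.m0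
  have hi14 : 14 ≤ i := hnum.m0_14.trans him
  have hiR : (14 : ℝ) ≤ i := by exact_mod_cast hi14
  -- the low word
  set u := low (P.cut i) (b / Nat.gcd b c) with hu
  set v := low (P.cut i) (c / Nat.gcd b c) with hv
  have hu0 : 0 < u := low_pos _ _
  have hv0 : 0 < v := low_pos _ _
  have hsmN : u * v < (i + 1) ^ 8 := by exact_mod_cast hsm
  have h4 : 4 * (u * v) ≤ P.cut i := by
    rw [hcut]
    have h3 : i + 1 ≤ 2 ^ i := Nat.lt_two_pow_self
    have h4 : (i + 1) ^ 8 ≤ (2 ^ i) ^ 8 := Nat.pow_le_pow_left h3 8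
    have h5 : (4 : ℕ) ≤ 2 ^ (2 * i) := by
      calc (4 : ℕ) = 2 ^ 2 := by norm_num
        _ ≤ _ := Nat.pow_le_pow_right (by norm_num) (by omega)
    calc 4 * (u * v) ≤ 2 ^ (2 * i) * (2 ^ i) ^ 8 := Nat.mul_le_mul h5 (hsmN.le.trans h4)
      _ = 2 ^ (10 * i) := by rw [← pow_mul, ← pow_add]; congr 1; ring
      _ ≤ 2 ^ (A * i) := Nat.pow_le_pow_right (by norm_num) (Nat.mul_le_mul_right _ hN.hA)
  have hV := VecPairx19.exists_vp_cls hM F P hb hc hL hfar hpure hl hcl h4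
  have hyc : (2 : ℕ) ^ (a + a' + 2) = yc a a' := rfl
  rw [hyc] at hV
  set y := yc a a' with hy
  set G := HighFLx863.H0 hM F y b with hG
  obtain ⟨bu1, bu2, bv1, bv2, _, _, _⟩ := hcl.bounds
  rw [← hu] at bu1 bu2
  rw [← hv] at bv1 bv2
  set l := Nat.gcd (low y b) (low y c) with hldef
  have hl0 : 0 < l := hV.l_pos
  obtain ⟨κ, hκ, wn1, wn2⟩ := hV.window hL
  set s := Nat.log 2 l + κ with hs
  have hlog1 : 2 ^ Nat.log 2 l ≤ l := Nat.pow_log_le_self 2 hl0.ne'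
  have hlog2 : l < 2 ^ (Nat.log 2 l + 1) := Nat.lt_pow_succ_log_self (by norm_num) l
  have hs1 : 2 ^ s ≤ 2 * l := by
    calc 2 ^ s ≤ 2 ^ (Nat.log 2 l + 1) := Nat.pow_le_pow_right (by norm_num) (by omega)
      _ = 2 * 2 ^ Nat.log 2 l := by rw [pow_succ]; ring
      _ ≤ _ := Nat.mul_le_mul_left _ hlog1
  have hs2 : l < 2 ^ (s + 1) :=
    hlog2.trans_le (Nat.pow_le_pow_right (by norm_num) (by omega))
  have hwb : win a s y b := by
    refine ⟨?_, ?_⟩
    · rw [hV.lb]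
      calc 2 ^ (a + s) = 2 ^ s * 2 ^ a := by rw [pow_add, mul_comm]
        _ ≤ 2 * l * u := Nat.mul_le_mul hs1 bu1
        _ = _ := by ring
    · rw [hV.lb]
      calc l * u < 2 ^ (s + 1) * 2 ^ (a + 1) := Nat.mul_lt_mul'' hs2 bu2
        _ = _ := by rw [← pow_add]; congr 1; ring
  have hwc : win a' s y c := by
    refine ⟨?_, ?_⟩
    · rw [hV.lc]
      calc 2 ^ (a' + s) = 2 ^ s * 2 ^ a' := by rw [pow_add, mul_comm]
        _ ≤ 2 * l * v := Nat.mul_le_mul hs1 bv1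
        _ = _ := by ring
    · rw [hV.lc]
      calc l * v < 2 ^ (s + 1) * 2 ^ (a' + 1) := Nat.mul_lt_mul'' hs2 bv2
        _ = _ := by rw [← pow_add]; congr 1; ring
  refine ⟨hV.Gc.symm, s, hwb, hwc, ?_⟩
  intro Z w w' hZ hw hw'
  have hwdef : w = HighFLx863.hw hM F y b := hw
  have hwdef' : w' = HighFLx863.hw hM F y c := hw'
  rw [← hwdef, ← hwdef'] at hV
  have hZok : Z.Ok := by
    rw [hZ]
    exact hok L M B F hS _ a a' s _ (HighFLx863.H0_mem hM F hb)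
  have eN : Z.N = PM (hiFL hM y F) G := by rw [hZ]; rfl
  have ecut : Z.cut = P.cut := by rw [hZ]; rfl
  have eL : Z.L = L / 2 ^ s := by rw [hZ]; rfl
  have eG : Z.G0 = G := by rw [hZ]; rfl
  have eγ : Z.γ = γ := by rw [hZ]; rfl
  have eθ : ∀ j, Z.θ j = (2 : ℝ) ^ (cp * j) / 16 := by intro j; rw [hZ]; rfl
  have ei0 : Z.i0 = max m0 (max (GWinstx982.iD (hiFL hM y F) P G) (iA a a')) := by rw [hZ]; rfl
  have hwN : w ∣ Z.N := by rw [eN]; exact hV.hw
  have hwN' : w' ∣ Z.N := by rw [eN]; exact hV.hw'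
  -- the node
  have hi0 : Z.i0 ≤ i := by
    rw [ei0]
    refine max_le him (max_le (GWinstx982.iD_le hV.D_le) ?_)
    unfold iA
    refine Nat.sInf_le ?_
    show 2 ^ (a + a') < (i + 1) ^ 8
    calc 2 ^ (a + a') = 2 ^ a * 2 ^ a' := pow_add _ _ _
      _ ≤ u * v := Nat.mul_le_mul bu1 bv1
      _ < _ := hsmN
  have ee : ∀ x, (Z.e i x : ℝ) = ((G * low (P.cut i) x : ℕ) : ℝ) := by
    intro x
    show ((Z.G0 * low (Z.cut i) x : ℕ) : ℝ) = _
    rw [eG, ecut]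
  have hnd : Z.nd i w := by
    refine ⟨hi0, ?_, ?_⟩
    · rw [ee, eL, hwdef]; exact wn1
    · rw [ee, eL, hwdef]; exact wn2
  have hlow : low (Z.cut i) w = low (Z.cut i) w' := by rw [ecut]; exact hV.low_eq.symm
  have hnd' : Z.nd i w' := (GWnodex863.nd_congr' hlow).1 hnd
  have hSw := GWnodex863.mem_S_lab hZok hwN hnd
  have hSw' := GWnodex863.mem_S_lab hZok hwN' hnd'
  -- the relation
  have hR : VDefx24.RR Z a a' (Z.lab i w) (Z.lab i w') := by
    unfold VDefx24.RR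
    refine RelDegx15.rel_of_link hZok hwN hwN' hnd hlow (p := (u, v)) ?_ (h := h) ?_
    · rw [RelDegx15.mem_Cl]
      refine ⟨⟨⟨bu1, ?_⟩, bv1, ?_⟩, hV.cop⟩
      · calc u < 2 ^ (a + 1) := bu2
          _ = _ := by rw [pow_succ]; ring
      · calc v < 2 ^ (a' + 1) := bv2
          _ = _ := by rw [pow_succ]; ring
    · have h1 := hV.link
      have h2 : Z.yy i w = upp (P.cut i) w * γ := by
        show (upp (Z.cut i) w : ℝ) * Z.γ = _
        rw [ecut, eγ]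
      have h3 : Z.yy i w' = upp (P.cut i) w' * γ := by
        show (upp (Z.cut i) w' : ℝ) * Z.γ = _
        rw [ecut, eγ]
      rw [h2, h3]
      refine h1.le.trans ?_
      have h5 : Z.tt i w = ((G * low (P.cut i) w : ℕ) : ℝ) / (L / 2 ^ s) := by
        show (Z.e i w : ℝ) / Z.L = _
        rw [ee, eL]
      rw [h5]
      have hG0 : 0 < G := HighFLx863.H0_pos hM F y b
      have h6 : (0 : ℝ) < ((G * low (P.cut i) w : ℕ) : ℝ) := by
        exact_mod_cast Nat.mul_pos hG0 (low_pos _ _)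
      have h7 : (0 : ℝ) < l := by exact_mod_cast hl0
      have h8 : (2 : ℝ) ^ s ≤ 2 * l := by exact_mod_cast hs1
      have h9 : (0 : ℝ) < (2 : ℝ) ^ s := by positivity
      show L / ((l : ℝ) * ((G * low (P.cut i) w : ℕ) : ℝ)) ≤ _
      have h11 : (2 : ℝ) / (((G * low (P.cut i) w : ℕ) : ℝ) / (L / 2 ^ s)) =
          2 * L / (2 ^ s * ((G * low (P.cut i) w : ℕ) : ℝ)) := by
        field_simp
      rw [h11, div_le_div_iff₀ (by positivity) (by positivity)]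
      have h10 : L * ((G * low (P.cut i) w : ℕ) : ℝ) * (2 : ℝ) ^ s ≤
          L * ((G * low (P.cut i) w : ℕ) : ℝ) * (2 * l) :=
        mul_le_mul_of_nonneg_left h8 (by positivity)
      linarith
  -- one of the members leaves
  have hm : (w ∈ Z.A (Z.zone i w) (Z.lab i w) ∧ w' ∈ Z.S (Z.lab i w')) ∨
      (w ∈ Z.S (Z.lab i w) ∧ w' ∈ Z.A (Z.zone i w') (Z.lab i w')) := by
    by_contra hcon
    push Not at hcon
    have hA1' : w ∉ Z.A (Z.zone i w) (Z.lab i w) := fun h1 => hcon.1 h1 hSw'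
    have hA2' : w' ∉ Z.A (Z.zone i w') (Z.lab i w') := fun h1 => hcon.2 hSw h1
    refine hH ?_
    have hpol := hN.pol i him
    have hex0 : (0 : ℝ) < (2 : ℝ) ^ (cp * i) := by positivity
    have huR : (u : ℝ) ≤ ((i : ℝ) + 1) ^ 8 := by
      have : u ≤ (i + 1) ^ 8 := (Nat.le_mul_of_pos_right u hv0).trans hsmN.le
      exact_mod_cast this
    have hvR : (v : ℝ) ≤ ((i : ℝ) + 1) ^ 8 := by
      have : v ≤ (i + 1) ^ 8 := (Nat.le_mul_of_pos_left v hu0).trans hsmN.le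
      exact_mod_cast this
    have e2 : (2 : ℝ) ^ (2 * cp * i) = (2 : ℝ) ^ (cp * i) * (2 : ℝ) ^ (cp * i) := by
      rw [← Real.rpow_add (by norm_num)]; congr 1; ring
    have hi0R : (0 : ℝ) ≤ i := by linarith
    refine KillVx19.killV (w1 := FLExx326.ind B) (δ := 1 / (4 * A)) (D1 := HyOfx281.DD cp)
      (HyOfx281.hy_of_num hnum (γ := γ) (B := B) hM hL F) hA1 hcp0.le hV hl hk hfar hs1 hs2
      hZok eG eL (by rw [ecut]; rfl) eγ
      (fun K ν x x' hx hx' ho => GWcellx284.on_cell hZok hx hx' ho)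
      (GWnodex863.mem_Nd_zone hZok hwN hnd) (GWnodex863.mem_Nd_zone hZok hwN' hnd') rfl rfl
      hSw hSw' hA1' hA2' (K' := (2 : ℝ) ^ (2 * cp * i) / 2) ?_ ?_ ?_ ?_ ?_
    · rw [eθ, e2]
      have := mul_le_mul_of_nonneg_right (huR.trans hpol) hex0.le
      linarith
    · rw [eθ, e2]
      have := mul_le_mul_of_nonneg_right (hvR.trans hpol) hex0.le
      linarith
    · have e4 : ((2 : ℝ) ^ (2 * cp * i) / 2) ^ 2 = (2 : ℝ) ^ (4 * cp * i) / 4 := by
        rw [div_pow, ← Real.rpow_natCast ((2 : ℝ) ^ (2 * cp * i)) 2,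
          ← Real.rpow_mul (by norm_num)]
        norm_num
        congr 1; ring
      rw [e4]
      have e5 : (2 : ℝ) ^ (4 * cp * i) ≤ (2 : ℝ) ^ (i : ℝ) :=
        Real.rpow_le_rpow_of_exponent_le (by norm_num) (by nlinarith)
      rw [Real.rpow_natCast] at e5
      have e6 : (0 : ℝ) < (2 : ℝ) ^ i := by positivity
      linarith
    · have e5 : (2 : ℝ) ^ (2 * cp * i) ≤ (2 : ℝ) ^ ((i : ℝ) / 8) :=
        Real.rpow_le_rpow_of_exponent_le (by norm_num) (by nlinarith)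
      have e6 : (0 : ℝ) < (2 : ℝ) ^ (2 * cp * i) := by positivity
      linarith
    · have e5 : (2 : ℝ) ^ (2 * cp * i) ≤ (2 : ℝ) ^ (cp * (((A + 1) * i : ℕ) - 1 : ℝ)) := by
        refine Real.rpow_le_rpow_of_exponent_le (by norm_num) ?_
        have hAR : (10 : ℝ) ≤ A := by exact_mod_cast hN.hA
        have : 2 * (i : ℝ) ≤ (((A + 1) * i : ℕ) - 1 : ℝ) := by
          push_cast
          nlinarith
        calc 2 * cp * i = cp * (2 * i) := by ring
          _ ≤ _ := mul_le_mul_of_nonneg_left this hcp0.le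
      have e6 : (0 : ℝ) < (2 : ℝ) ^ (2 * cp * i) := by positivity
      linarith
  -- the coins
  have hR1 : (1 : ℝ) ≤ 4 * ((i : ℝ) + 1) ^ 8 := by
    have : (1 : ℝ) ≤ ((i : ℝ) + 1) ^ 8 := one_le_pow₀ (by linarith)
    linarith
  have hcp4 : cp ≤ 1 / 4 := by linarith
  have g1 := GoodVx20.good_birth' hM hL hN.hA hcp4 hb hZ hZok (GoodVx20.win_lo hwb)
    (GoodVx20.win_hi a' hwb) (by rw [← hwdef]; exact hnd) hR1 hQb
  have hZ' : Z = vw hM F (ParOf cp A m0 γ L M B) (1 / (4 * A)) a a' s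
      (HighFLx863.H0 hM F (yc a a') c) := by
    rw [show HighFLx863.H0 hM F (yc a a') c = G from hV.Gc]; exact hZ
  have g2 := GoodVx20.good_birth' hM hL hN.hA hcp4 hc hZ' hZok (GoodVx20.win_lo hwc)
    (GoodVx20.win_hi' a hwc) (by rw [← hwdef']; exact hnd') hR1 hQc
  rw [← hwdef] at g1
  rw [← hwdef'] at g2
  refine ⟨Z.zone i w, GWnodex863.zone_mem_Zs hZok hwN hnd, Z.zone i w',
    GWnodex863.zone_mem_Zs hZok hwN' hnd', ?_⟩
  have hX0 : X0 ≤ P.cut i := by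
    rw [hcut]
    calc X0 ≤ i := hN.hX0.trans him
      _ ≤ 2 ^ i := Nat.lt_two_pow_self.le
      _ ≤ 2 ^ (A * i) := Nat.pow_le_pow_right (by norm_num) (Nat.le_mul_of_pos_left i hA1)
  exact VWtx360.tpair_weight hM hL (fun _ => rfl) (HyOfx281.thr_le_exp) hA1 hcut (by omega) hV
    hfar hcl hl hX0 eN ecut (GWnodex863.mem_Nd_zone hZok hwN hnd)
    (GWnodex863.mem_Nd_zone hZok hwN' hnd') hR (by
      show nu (low (Z.cut i) Z.N) (low (Z.cut i) w) = _
      rw [ecut]) hm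
    (by rw [GWnodex863.zone_fst]; exact GWnodex863.bi_le _ _)
    (by rw [GWnodex863.zone_fst]; exact GWnodex863.bi_le _ _) g1 g2

end Crest.Agent.R4C.TPrx360
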