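import Crest.Agent.R4C.LBoxDef_662
import Crest.Agent.R4C.LBoxP_500

/-!
# Row 4, class (L): target A of `LBoxDef_662` (helper250)

* `hyB_ev` : `HyB` of `LBx_500` for the parameters of the spine, `jB = jBA A`, `j0 = 1`;
* `core_of_LB` : `LB` gives the symmetric part `Core` of `LBoxP_500`;
* `arrA` : `ArrA` from `HyB`;
* **`tgtA`** : `TgtA γ`.
-/

set_option autoImplicit false

open Finset

namespace Crest.Agent.R4C.TgtAx250

open Crest.Agent.R4C.Basex935 Crest.Agent.R4C.Cutx50 Crest.Agent.R4C.FLDefx935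
  Crest.Agent.R4C.Rulex945 Crest.Agent.R4C.Splitx945 Crest.Agent.R4C.Bridgex882
  Crest.Agent.R4C.CrCountx935
  Crest.Agent.R4C.S7dx14 Crest.Agent.R4C.BoostCx972 Crest.Agent.R4C.PureL2x232
  Crest.Agent.R4C.Keptx559 Crest.Agent.R4C.LClassx662 Crest.Agent.R4C.LowLx899
  Crest.Agent.R4C.NonPureBlkx559 Crest.Agent.R4C.LBxx500 Crest.Agent.R4C.LBoxPx500
  Crest.Agent.R4C.LBoxDefx662 Crest.Agent.R4C.Spinex946

section

variable {M : ℕ} {F : FL M} {P : Par}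

/-- the symmetric part of a box pair -/
lemma core_of_LB (hY : StrictMono P.Y) (hend : ∀ m, ∃ i, P.cut m = P.Y i) {w : ℕ → ℝ} {δ : ℝ}
    {jB : ℕ → ℕ} {x : Bx} {t b c : ℕ} {h : ℤ} {f f' : ℚ} {p : ℕ} (hl : h ∈ Lnk P.γ P.L b c)
    (D : LB F P w δ jB x t b c h f f' p) : Core F P jB x.v t b c h f f' where
  m0 := D.lp.m0
  good := D.lp.good
  goodj := D.gd
  pt := D.lp.pt
  lnk := mem_Hf.1 hl
  ib := D.lp.ib
  ic := D.lp.ic
  act := by
    obtain ⟨i, hi⟩ := hend t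
    rw [← D.blk, hi]
    exact hY.monotone (Par.blk_le (by rw [← hi]; exact D.lp.le))
  top := by
    intro r hr h1 h2
    refine D.lp.top r hr ?_ h2
    refine lt_of_le_of_lt ?_ h1
    rw [← D.blk]
    exact Par.le_blk hY p
  eb := D.lp.db
  ec := D.lp.dc

/-- **arrow A** -/
theorem arrA {jB : ℕ → ℕ} {j0 : ℕ} (H : HyB M P jB j0) (hY : StrictMono P.Y)
    (hend : ∀ m, ∃ i, P.cut m = P.Y i) (w : ℕ → ℝ) (δ : ℝ) :
    ArrA F P H.hM w δ jB j0 := by
  intro x t b c h f f' p hb hc hl D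
  have C := core_of_LB hY hend hl D
  have C' := C.swap hb hc
  -- sizes
  have hNn : (2 : ℝ) ^ (x.n + 1) ≤ (x.N : ℝ) := by
    unfold Bx.N Bx.mx
    push_cast
    exact pow_le_pow_right₀ (by norm_num) (by omega)
  have hNn' : (2 : ℝ) ^ (x.n' + 1) ≤ (x.N : ℝ) := by
    unfold Bx.N Bx.mx
    push_cast
    exact pow_le_pow_right₀ (by norm_num) (by omega)
  have hN2 : (2 : ℝ) ≤ (x.N : ℝ) := by
    refine le_trans ?_ hNn
    calc (2 : ℝ) = 2 ^ 1 := by norm_num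
      _ ≤ _ := pow_le_pow_right₀ (by norm_num) (by omega)
  -- one side
  have key : ∀ {b c : ℕ} {f f' : ℚ} {h : ℤ} {n j : ℕ}, b ∣ M → c ∣ M →
      Core F P jB x.v t b c h f f' → dep F P t b f < 2 ^ (n + 1) →
      (2 : ℝ) ^ (n + 1) ≤ (x.N : ℝ) → 2 ^ j ≤ tw F P (P.Y x.v) t b c f f' →
      tw F P (P.Y x.v) t b c f f' < 2 ^ (j + 1) → ∀ {a i : ℕ},
      Nat.log 2 (low (P.Y x.v) b / Nat.gcd (low (P.Y x.v) b) (low (P.Y x.v) c)) = a →
      Nat.log 2 (Nat.gcd (low (P.Y x.v) b) (low (P.Y x.v) c)) = i →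
      tw F P (P.Y x.v) t b c f f' ∈ KD F P.γ P.L (2 ^ (i + a + 1) * x.N) (x.N ^ 3) x.N P.cut
        (LDecx500.lb P) (range (P.N + 1)) (2 ^ j) (zz (P.cut t) (P.Y x.v) b c) := by
    intro b c f f' h n j hb hc C hd hNn hj hj1 a i ha hi
    obtain ⟨s1, s2⟩ := low_size (y := P.Y x.v) (Nat.pos_of_dvd_of_pos hb H.hM).ne' ha hi
    have s1R : (2 : ℝ) ^ (i + a) ≤ low (P.Y x.v) b := by exact_mod_cast s1
    have s2R : (low (P.Y x.v) b : ℝ) ≤ 4 * 2 ^ (i + a) := by exact_mod_cast s2.le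
    have htw : (tw F P (P.Y x.v) t b c f f' : ℝ) ≤ x.N := by
      have h1 : tw F P (P.Y x.v) t b c f f' ≤ k0 F (P.cut t) b f :=
        Nat.le_of_dvd (k0_pos _ _ _) Core.tw_dvd
      have h2 : (k0 F (P.cut t) b f : ℝ) ≤ dep F P t b f := k0_le_dep _ _ _
      have h3 : (tw F P (P.Y x.v) t b c f f' : ℝ) ≤ k0 F (P.cut t) b f := by exact_mod_cast h1
      linarith
    have htw1 : (1 : ℝ) ≤ tw F P (P.Y x.v) t b c f f' := by
      exact_mod_cast Nat.one_le_iff_ne_zero.2 (Core.tw_pos (F := F) (P := P)).ne'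
    have hp : (0 : ℝ) < 2 ^ (i + a) := by positivity
    refine Finset.mem_filter.2 ⟨C.mem_KK' H hb hc (X := 2 ^ (i + a + 1) * x.N)
      (K := (2 : ℝ) ^ n) (R := (x.N : ℝ) ^ 3) (N := x.N) (by positivity) ?_ ?_ ?_ ?_, hj, ?_⟩
    · push_cast
      calc (low (P.Y x.v) b : ℝ) * tw F P (P.Y x.v) t b c f f' ≤ (4 * 2 ^ (i + a)) * x.N :=
            mul_le_mul s2R htw (by positivity) (by positivity)
        _ = 2 * (2 ^ (i + a + 1) * x.N) := by ring
    · rw [← pow_succ']; exact hd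
    · rw [← pow_succ']; exact hNn
    · push_cast
      have h1 : (2 : ℝ) * 2 ^ n ≤ x.N := by rw [← pow_succ']; exact hNn
      calc (2 : ℝ) ^ (i + a + 1) * x.N * (2 * 2 ^ n) ≤ 2 ^ (i + a + 1) * x.N * x.N :=
            mul_le_mul_of_nonneg_left h1 (by positivity)
        _ = 2 ^ (i + a) * (2 * (x.N : ℝ) ^ 2) := by ring
        _ ≤ 2 ^ (i + a) * (x.N * (x.N : ℝ) ^ 2) := by
            refine mul_le_mul_of_nonneg_left ?_ hp.le
            exact mul_le_mul_of_nonneg_right hN2 (by positivity)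
        _ = (x.N : ℝ) ^ 3 * (2 ^ (i + a) * 1) := by ring
        _ ≤ (x.N : ℝ) ^ 3 * (low (P.Y x.v) b * tw F P (P.Y x.v) t b c f f') := by
            refine mul_le_mul_of_nonneg_left ?_ (by positivity)
            exact mul_le_mul s1R htw1 (by norm_num) (by positivity)
    · rw [← pow_succ']; exact hj1
  refine ⟨zz (P.cut t) (P.Y x.v) b c, zz (P.cut t) (P.Y x.v) c b, C.upp_b H hb hc,
    C'.upp_b H hc hb, ?_, ?_, (C.gcd_upp_le H hb hc).le, ?_, C.kz H hb hc⟩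
  · exact key hb hc C D.dn1 hNn D.tj D.tj1 rfl rfl
  · have h1 := key hc hb C' D.dn1' hNn' D.tj' D.tj1' (a := ca' (P.Y x.v) b c)
      (i := ci (P.Y x.v) b c) (by unfold ca'; rw [Nat.gcd_comm]) (by unfold ci; rw [Nat.gcd_comm])
    exact h1
  · intro q hq h1 h2
    have hb0 : 0 < b := Nat.pos_of_dvd_of_pos hb H.hM
    have e : ∀ s : ℕ, (upp (P.cut t) s).factorization q = 0 := by
      intro s
      rw [upp]
      refine Nat.factorization_eq_zero_of_not_dvd fun hd => ?_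
      exact prime_dvd_part (fun p => ¬ p ≤ P.cut t) hq hd h2
    unfold zz
    rw [Nat.factorization_mul (upp_pos _ _).ne' (upp_pos _ _).ne',
      Nat.factorization_mul (upp_pos _ _).ne' (upp_pos _ _).ne', Finsupp.add_apply,
      Finsupp.add_apply, e, e, Nat.gcd_comm c b]

end

/-! ### the parameters -/

lemma xJ_le (A r : ℕ) : Xj (jBA A r) ≤ 2 ^ (A * r) := by
  unfold Xj jBA
  rcases Nat.eq_zero_or_pos (A * r) with h | h
  · rw [h]; norm_num
  · have h1 := Nat.pow_log_le_self 2 (x := A * r) (by omega)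
    exact (Nat.sub_le _ _).trans (Nat.pow_le_pow_right (by norm_num) h1)

lemma le_xJ (A r : ℕ) : (2 : ℝ) ^ ((1 / 2 : ℝ) * A * r) ≤ (Xj (jBA A r) : ℝ) + 1 := by
  have h1 : A * r < 2 ^ (Nat.log 2 (A * r) + 1) := Nat.lt_pow_succ_log_self (by norm_num) _
  have h2 : 1 ≤ 2 ^ (2 ^ Nat.log 2 (A * r)) := Nat.one_le_two_pow
  have e : (Xj (jBA A r) : ℝ) + 1 = (2 : ℝ) ^ ((2 : ℝ) ^ Nat.log 2 (A * r)) := by
    unfold Xj jBA
    rw [Nat.cast_sub h2]
    push_cast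
    have e2 : ((2 : ℝ) ^ (2 ^ Nat.log 2 (A * r) : ℕ)) = (2 : ℝ) ^ ((2 : ℝ) ^ Nat.log 2 (A * r)) := by
      rw [← Real.rpow_natCast]
      push_cast
      rfl
    rw [e2]
    ring
  rw [e]
  refine Real.rpow_le_rpow_of_exponent_le (by norm_num) ?_
  have h3 : ((A * r : ℕ) : ℝ) ≤ ((2 ^ (Nat.log 2 (A * r) + 1) : ℕ) : ℝ) := by exact_mod_cast h1.le
  push_cast at h3
  rw [pow_succ] at h3
  linarith

/-- `HyB` at the parameters of the spine -/
theorem hyB_ev (γ : ℝ) : Ev fun cp η A m0 => ∀ (L : ℝ) (M : ℕ) (B : Finset ℕ) (F : FL M),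
    Setup η L M B F → HyB M (ParOf cp A m0 γ L M B) (jBA A) 1 := by
  refine ((Ev.basic).and (Ev.le_m0 fun _ _ _ => 10)).mono ?_
  rintro cp η A m0 ⟨⟨hcp, hcp2, hη, _, hη1, hA, hm⟩, h10⟩ L M B F S
  have hm10 : 10 ≤ m0 := by exact_mod_cast h10
  have hAR : (1 : ℝ) ≤ A := by exact_mod_cast hA
  refine ⟨S.hM, S.hL, ?_, ?_, ?_, ?_, ?_, ?_, ?_⟩
  · exact Nat.le_ceil _
  · intro a b hab
    exact Nat.pow_le_pow_right (by norm_num) (Nat.mul_le_mul_left _ hab)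
  · intro m
    exact Real.one_le_rpow (by norm_num) (by positivity)
  · intro m hmm
    have hmm' : m0 ≤ m := hmm
    have hm' : (10 : ℝ) ≤ m := by exact_mod_cast (hm10.trans hmm')
    have e : ((2 : ℝ) ^ (cp * (m : ℝ))) ^ 8 = (2 : ℝ) ^ (8 * cp * m) := by
      rw [← Real.rpow_natCast, ← Real.rpow_mul (by norm_num)]
      congr 1
      push_cast
      ring
    have e1 : (ParOf cp A m0 γ L M B).E m = (2 : ℝ) ^ (cp * (m : ℝ)) := rfl
    rw [e1, e]
    have e2 : (64 : ℝ) = (2 : ℝ) ^ (6 : ℝ) := by norm_num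
    rw [e2, ← Real.rpow_add (by norm_num), ← Real.rpow_natCast 2 m]
    refine Real.rpow_lt_rpow_of_exponent_lt (by norm_num) ?_
    nlinarith
  · intro t ht
    have ht' : m0 ≤ t := ht
    unfold jBA
    refine Nat.le_log_of_pow_le (by norm_num) ?_
    nlinarith
  · intro t _
    exact xJ_le A t
  · intro t ht
    have ht' : m0 ≤ t := ht
    have htR : (10 : ℝ) ≤ t := by exact_mod_cast (hm10.trans ht')
    have h1 := le_xJ A t
    have e1 : (ParOf cp A m0 γ L M B).E t = (2 : ℝ) ^ (cp * (t : ℝ)) := rfl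
    have e : ((2 : ℝ) ^ (cp * (t : ℝ))) ^ 4 = (2 : ℝ) ^ (4 * cp * t) := by
      rw [← Real.rpow_natCast, ← Real.rpow_mul (by norm_num)]
      congr 1
      push_cast
      ring
    rw [e1, e]
    have h2 : (2 : ℝ) ^ (4 * cp * t) + 1 ≤ (2 : ℝ) ^ ((1 / 2 : ℝ) * A * t) := by
      have h3 : (1 : ℝ) ≤ (2 : ℝ) ^ (4 * cp * t) :=
        Real.one_le_rpow (by norm_num) (by positivity)
      have h4 : (2 : ℝ) ^ (4 * cp * t) + 1 ≤ 2 * (2 : ℝ) ^ (4 * cp * t) := by linarith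
      refine h4.trans ?_
      have h5 : 2 * (2 : ℝ) ^ (4 * cp * t) = (2 : ℝ) ^ (1 + 4 * cp * t) := by
        rw [Real.rpow_add (by norm_num), Real.rpow_one]
      rw [h5]
      refine Real.rpow_le_rpow_of_exponent_le (by norm_num) ?_
      have h6 : (1 / 2 : ℝ) * t ≤ 1 / 2 * A * t := by nlinarith
      nlinarith
    linarith

/-- **target A** -/
theorem tgtA (γ : ℝ) : TgtA γ := by
  unfold TgtA EvAll
  refine (hyB_ev γ).mono fun cp η A m0 h L M B F S => ?_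
  have hY : StrictMono (ParOf cp A m0 γ L M B).Y := by
    intro i j hij
    exact Nat.pow_lt_pow_right (by norm_num) hij
  have hend : ∀ m, ∃ i, (ParOf cp A m0 γ L M B).cut m = (ParOf cp A m0 γ L M B).Y i := fun m =>
    ⟨A * m, rfl⟩
  exact arrA (h L M B F S) hY hend _ _

end Crest.Agent.R4C.TgtAx250
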