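import Crest.Agent.R4C.Heavy_129
import Crest.Agent.R4C.GWmin_18
import Mathlib.NumberTheory.Primorial

/-!
# Deviations of the threshold rule from the B-free rule are naturally rare given a prefix
(18's 3102 (2), with DYADIC cuts; helper129)

`b ∣ M`, prefix `G = low x b` fixed (`G_j` of the GW lemma), natural law above.
Cuts `2^l`; `Θ(b,k) = max_{l ≤ k} low (2^l) b * mass M f (2^l) (upp (2^l) b)`.
* `given_doob` : cuts `y ≥ x`: Doob given the prefix.
* `given_low` : cuts `y ≤ x` (inside the prefix): Markov, `E ≤ G Ex f / V`.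
* `block_rare` : `P(b has a factor ≥ 2^{uk} made of primes of (2^{k-1}, 2^k]) ≤ (4/(k-1))^u`.
* `theta_exc` : `Θ(b,k) ≥ 2^{Uk}` at some block `k ≥ k0` of the coin zone
  (`low (2^{k-1}) b ≤ 2^{ak} L`).
* `hyp_perturb` : the hypothesis of `gw_min` survives exceptions.
-/

set_option autoImplicit false

open Finset

namespace Crest.Agent.R4C.Thetax129

open Crest.Agent.R4C.Basex935 Crest.Agent.R4C.Cutx50 Crest.Agent.R4C.Lawx69
  Crest.Agent.R4C.HeavyLx50 Crest.Agent.R4C.Heavyx129 Crest.Agent.R4C.PrefixMx882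

/-! ### Lower and upper words of `G * T` -/

lemma fact_of_dvd_low {x M G p : ℕ} (hG : G ∣ low x M) (hp : ¬ p ≤ x) : G.factorization p = 0 :=
  fact_zero_of_dvd_part (fun p => p ≤ x) hG hp

lemma fact_of_dvd_upp {x M T p : ℕ} (hT : T ∣ upp x M) (hp : p ≤ x) : T.factorization p = 0 :=
  fact_zero_of_dvd_part (fun p => ¬ p ≤ x) hT (by simpa using hp)

lemma ne_zero_of_dvd_low {x M G : ℕ} (hG : G ∣ low x M) : G ≠ 0 :=
  fun h => (low_pos x M).ne' (Nat.eq_zero_of_zero_dvd (h ▸ hG))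

lemma ne_zero_of_dvd_upp {x M T : ℕ} (hT : T ∣ upp x M) : T ≠ 0 :=
  fun h => (upp_pos x M).ne' (Nat.eq_zero_of_zero_dvd (h ▸ hT))

/-- cut above the prefix: `upp y (G * T) = upp y T` -/
lemma upp_mul_ge {x y M G T : ℕ} (hG : G ∣ low x M) (hT : T ∣ upp x M) (h : x ≤ y) :
    upp y (G * T) = upp y T := by
  have hG0 := ne_zero_of_dvd_low hG
  have hT0 := ne_zero_of_dvd_upp hT
  refine Nat.eq_of_factorization_eq (upp_pos _ _).ne' (upp_pos _ _).ne' fun p => ?_
  rw [fact_upp, fact_upp, Nat.factorization_mul hG0 hT0, Finsupp.add_apply]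
  by_cases hp : p ≤ y
  · simp [hp]
  · rw [fact_of_dvd_low hG (by omega), zero_add]

/-- cut inside the prefix: `upp y (G * T) = upp y G * T` -/
lemma upp_mul_le {x y M G T : ℕ} (hG : G ∣ low x M) (hT : T ∣ upp x M) (h : y ≤ x) :
    upp y (G * T) = upp y G * T := by
  have hG0 := ne_zero_of_dvd_low hG
  have hT0 := ne_zero_of_dvd_upp hT
  refine Nat.eq_of_factorization_eq (upp_pos _ _).ne' (mul_ne_zero (upp_pos _ _).ne' hT0)
    fun p => ?_
  rw [fact_upp, Nat.factorization_mul hG0 hT0, Nat.factorization_mul (upp_pos _ _).ne' hT0,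
    Finsupp.add_apply, Finsupp.add_apply, fact_upp]
  by_cases hp : p ≤ y
  · simp [hp, fact_of_dvd_upp hT (le_trans hp h)]
  · simp [hp]

lemma low_mul_le {x y M G T : ℕ} (hG : G ∣ low x M) (hT : T ∣ upp x M) (h : y ≤ x) :
    low y (G * T) = low y G := by
  have hG0 := ne_zero_of_dvd_low hG
  have hT0 := ne_zero_of_dvd_upp hT
  refine Nat.eq_of_factorization_eq (low_pos _ _).ne' (low_pos _ _).ne' fun p => ?_
  rw [fact_low, fact_low, Nat.factorization_mul hG0 hT0, Finsupp.add_apply]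
  by_cases hp : p ≤ y
  · simp [hp, fact_of_dvd_upp hT (le_trans hp h)]
  · simp [hp]

lemma low_dvd_low {x y b : ℕ} (h : x ≤ y) : low x b ∣ low y b := by
  rw [← Nat.factorization_le_iff_dvd (low_pos _ _).ne' (low_pos _ _).ne']
  intro p
  rw [fact_low, fact_low]
  by_cases hp : p ≤ x
  · have : p ≤ y := le_trans hp h
    simp [hp, this]
  · simp [hp]

/-- mass of the fibre of a prefix -/
theorem fibre_sum {M x G : ℕ} (hM : 0 < M) (hG : G ∣ low x M) (F : ℕ → ℝ) :
    ∑ b ∈ M.divisors with low x b = G, nu M b * F b =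
      nu (low x M) G * Ex (upp x M) (fun T => F (G * T)) :=
  sum_part_eq (fun p => p ≤ x) hM hG F

theorem fibre_mass {M x G : ℕ} (hM : 0 < M) (hG : G ∣ low x M) :
    ∑ b ∈ M.divisors with low x b = G, nu M b = nu (low x M) G :=
  prob_part_eq (fun p => p ≤ x) hM hG

/-- an event as a sum over the fibre -/
lemma fibre_event {M x G : ℕ} (hM : 0 < M) (hG : G ∣ low x M) (P : ℕ → Prop)
    [DecidablePred P] :
    ∑ b ∈ M.divisors with low x b = G ∧ P b, nu M b =
      nu (low x M) G * Ex (upp x M) (fun T => if P (G * T) then 1 else 0) := by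
  rw [← fibre_sum hM hG (fun b => if P b then 1 else 0), ← Finset.filter_filter,
    Finset.sum_filter]
  refine Finset.sum_congr rfl fun b _ => ?_
  split_ifs <;> simp

/-! ### Cuts above the prefix: Doob -/

open Classical in
/-- Doob for the upper word -/
lemma doob_upp {M : ℕ} (hM : 0 < M) (x N : ℕ) {f : ℕ → ℝ} (hf : ∀ b, 0 ≤ f b) {L H : ℝ}
    (hL : 0 < L) (hH : 0 < H) :
    Ex (upp x M) (fun T => if ∃ y, x ≤ y ∧ y ≤ N ∧ H ≤ L * mass M f y (upp y T) then 1 else 0) ≤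
      (L * Ex M f) / H := by
  rw [show Ex (upp x M) (fun T => if ∃ y, x ≤ y ∧ y ≤ N ∧ H ≤ L * mass M f y (upp y T)
      then (1 : ℝ) else 0) = Ex M (fun b => if ∃ y, x ≤ y ∧ y ≤ N ∧
        H ≤ L * mass M f y (upp y (upp x b)) then (1 : ℝ) else 0) from
    (Ex_part (fun p => ¬ p ≤ x) hM (fun T => if ∃ y, x ≤ y ∧ y ≤ N ∧
      H ≤ L * mass M f y (upp y T) then (1 : ℝ) else 0)).symm]
  refine le_trans ?_ (doob_norm hM N hf hL hH)
  unfold Ex
  rw [Finset.sum_filter]
  refine Finset.sum_le_sum fun b _ => ?_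
  beta_reduce
  by_cases h : ∃ y, x ≤ y ∧ y ≤ N ∧ H ≤ L * mass M f y (upp y (upp x b))
  · rw [if_pos h, mul_one, if_pos]
    obtain ⟨y, h1, h2, h3⟩ := h
    exact ⟨y, h2, by rwa [upp_upp h1] at h3⟩
  · rw [if_neg h, mul_zero]
    split_ifs
    · exact nu_nonneg _ _
    · exact le_rfl

open Classical in
/-- **Doob given the prefix `G`** -/
theorem given_doob {M x G : ℕ} (hM : 0 < M) (hG : G ∣ low x M) (N : ℕ) {f : ℕ → ℝ}
    (hf : ∀ b, 0 ≤ f b) {L H : ℝ} (hL : 0 < L) (hH : 0 < H) :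
    ∑ b ∈ M.divisors with low x b = G ∧ ∃ y, x ≤ y ∧ y ≤ N ∧ H ≤ L * mass M f y (upp y b),
      nu M b ≤ nu (low x M) G * ((L * Ex M f) / H) := by
  rw [fibre_event hM hG]
  refine mul_le_mul_of_nonneg_left (le_trans ?_ (doob_upp hM x N hf hL hH)) (nu_nonneg _ _)
  refine Ex_mono _ fun T hT => ?_
  by_cases h : ∃ y, x ≤ y ∧ y ≤ N ∧ H ≤ L * mass M f y (upp y (G * T))
  · rw [if_pos h, if_pos]
    obtain ⟨y, h1, h2, h3⟩ := h
    exact ⟨y, h1, h2, by rwa [upp_mul_ge hG hT h1] at h3⟩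
  · rw [if_neg h]
    split_ifs <;> norm_num

/-! ### Cuts inside the prefix: Markov -/

lemma upp_low {x y M : ℕ} : upp y (low x M) = low x (upp y M) := by
  refine Nat.eq_of_factorization_eq (upp_pos _ _).ne' (low_pos _ _).ne' fun p => ?_
  rw [fact_upp, fact_low, fact_low, fact_upp]
  by_cases h1 : p ≤ y <;> by_cases h2 : p ≤ x <;> simp [h1, h2]

/-- the average node mass at a cut inside the prefix -/
lemma low_mass_le {M x y G : ℕ} (hM : 0 < M) (hG : G ∣ low x M) (hy : y ≤ x) {f : ℕ → ℝ}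
    (hf : ∀ b, 0 ≤ f b) :
    (low y G : ℝ) * Ex (upp x M) (fun T => mass M f y (upp y G * T)) ≤
      G * Ex M f / Vm (low x M) G := by
  have hG0 := ne_zero_of_dvd_low hG
  have hlx : low x M ≠ 0 := (low_pos x M).ne'
  have hE : upp y G ∣ low x (upp y M) := by
    rw [← upp_low]
    exact upp_dvd y hlx hG
  have h1 := fibre_sum (M := upp y M) (x := x) (G := upp y G) (upp_pos y M) hE
    (fun T => mass M f y T)
  have h2 : ∑ b ∈ (upp y M).divisors with low x b = upp y G,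
      nu (upp y M) b * mass M f y b ≤ Ex M f := by
    rw [Ex_cut hM y f]
    unfold Ex
    exact Finset.sum_le_sum_of_subset_of_nonneg (Finset.filter_subset _ _)
      fun b _ _ => mul_nonneg (nu_nonneg _ _) (mass_nonneg M hf _ _)
  rw [h1, upp_upp hy, nu_eq_Vm (low_pos _ _) hE] at h2
  -- the thinning
  have hV : Vm (low x M) G ≤ Vm (low x (upp y M)) (upp y G) := by
    rw [Vm_cut (fun p => p ≤ y) (low_pos x M)]
    have e1 : part (fun p => ¬ p ≤ y) (low x M) = low x (upp y M) := upp_low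
    have e2 : part (fun p => ¬ p ≤ y) G = upp y G := rfl
    rw [e1, e2]
    have h3 := Vm_le_one (part (fun p => p ≤ y) (low x M)) (part (fun p => p ≤ y) G)
    have h4 := (Vm_pos (M := low x (upp y M)) (upp y G)).le
    have h5 := (Vm_pos (M := part (fun p => p ≤ y) (low x M)) (part (fun p => p ≤ y) G)).le
    nlinarith
  have hV0 := Vm_pos (M := low x M) G
  have hV1 := Vm_pos (M := low x (upp y M)) (upp y G)
  have hA : 0 ≤ Ex (upp x M) (fun T => mass M f y (upp y G * T)) :=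
    Ex_nonneg _ fun _ => mass_nonneg M hf _ _
  have hu : (0 : ℝ) < upp y G := by exact_mod_cast upp_pos y G
  have hl : (0 : ℝ) < low y G := by exact_mod_cast low_pos y G
  have hGe : (G : ℝ) = (low y G : ℝ) * (upp y G : ℝ) := by
    rw [← Nat.cast_mul, low_mul_upp y hG0]
  rw [le_div_iff₀ hV0]
  have h6 : Vm (low x (upp y M)) (upp y G) *
      Ex (upp x M) (fun T => mass M f y (upp y G * T)) ≤ (upp y G : ℝ) * Ex M f := by
    rw [div_mul_eq_mul_div, div_le_iff₀ hu] at h2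
    linarith
  calc (low y G : ℝ) * Ex (upp x M) (fun T => mass M f y (upp y G * T)) * Vm (low x M) G
      ≤ (low y G : ℝ) * Ex (upp x M) (fun T => mass M f y (upp y G * T)) *
        Vm (low x (upp y M)) (upp y G) := mul_le_mul_of_nonneg_left hV (mul_nonneg hl.le hA)
    _ = (low y G : ℝ) * (Vm (low x (upp y M)) (upp y G) *
        Ex (upp x M) (fun T => mass M f y (upp y G * T))) := by ring
    _ ≤ (low y G : ℝ) * ((upp y G : ℝ) * Ex M f) := mul_le_mul_of_nonneg_left h6 hl.le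
    _ = G * Ex M f := by rw [hGe]; ring

open Classical in
/-- **cut `y ≤ x` inside the prefix `G`**: `P(low_y b mass_y ≥ Z | G) ≤ G Ex f / (V Z)` -/
theorem given_low {M x y G : ℕ} (hM : 0 < M) (hG : G ∣ low x M) (hy : y ≤ x) {f : ℕ → ℝ}
    (hf : ∀ b, 0 ≤ f b) {Z : ℝ} (hZ : 0 < Z) :
    ∑ b ∈ M.divisors with low x b = G ∧ Z ≤ (low y b : ℝ) * mass M f y (upp y b), nu M b ≤
      nu (low x M) G * (G * Ex M f / (Vm (low x M) G * Z)) := by
  rw [fibre_event hM hG]
  refine mul_le_mul_of_nonneg_left ?_ (nu_nonneg _ _)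
  have h1 := low_mass_le hM hG hy hf
  have hV0 := Vm_pos (M := low x M) G
  rw [← div_div, le_div_iff₀ hZ]
  refine le_trans ?_ h1
  unfold Ex
  rw [Finset.sum_mul, Finset.mul_sum]
  refine Finset.sum_le_sum fun T hT => ?_
  rw [Nat.mem_divisors] at hT
  beta_reduce
  rw [low_mul_le hG hT.1 hy, upp_mul_le hG hT.1 hy]
  have hn := nu_nonneg (upp x M) T
  split_ifs with h
  · nlinarith
  · have h2 : 0 ≤ (low y G : ℝ) * mass M f y (upp y G * T) :=
      mul_nonneg (Nat.cast_nonneg _) (mass_nonneg M hf _ _)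
    nlinarith

/-! ### Many letters in one dyadic block -/

/-- `b` has a factor which is a product of `u` primes of `P` -/
def Many (P : Finset ℕ) (u b : ℕ) : Prop :=
  ∃ l : List ℕ, l.length = u ∧ (∀ p ∈ l, p ∈ P) ∧ l.prod ∣ b

open Classical in
lemma many_le (P : Finset ℕ) : ∀ (u M : ℕ), 0 < M →
    ∑ b ∈ M.divisors with Many P u b, nu M b ≤ (∑ p ∈ P, 1 / (p : ℝ)) ^ u := by
  intro u
  induction u with
  | zero =>
    intro M hM
    rw [pow_zero]
    exact sum_nu_filter_le_one hM _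
  | succ u ih =>
    intro M hM
    have h1 : ∀ b, Many P (u + 1) b → ∃ p ∈ P, p ∣ b ∧ (0 < p → Many P u (b / p)) := by
      rintro b ⟨l, hl, hP, hd⟩
      cases l with
      | nil => simp at hl
      | cons p l =>
        refine ⟨p, hP p (by simp), ?_, fun hp => ⟨l, by simpa using hl, fun q hq => hP q (by simp [hq]), ?_⟩⟩
        · exact (Dvd.intro _ (by rw [List.prod_cons])).trans hd
        · rw [List.prod_cons] at hd
          have hpb : p ∣ b := (Dvd.intro _ rfl).trans hd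
          obtain ⟨c, rfl⟩ := hpb
          rw [Nat.mul_div_cancel_left _ hp]
          exact Nat.dvd_of_mul_dvd_mul_left hp hd
    calc ∑ b ∈ M.divisors with Many P (u + 1) b, nu M b
        ≤ ∑ b ∈ M.divisors, ∑ p ∈ P, (if p ∣ b ∧ Many P u (b / p) then nu M b else 0) := by
          rw [Finset.sum_filter]
          refine Finset.sum_le_sum fun b hb => ?_
          have hb0 : 0 < b := Nat.pos_of_mem_divisors hb
          split_ifs with h
          · obtain ⟨p, hp, hd, hm⟩ := h1 b h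
            have hp0 : 0 < p := Nat.pos_of_dvd_of_pos hd hb0
            refine le_trans (le_of_eq ?_) (Finset.single_le_sum
              (f := fun p => if p ∣ b ∧ Many P u (b / p) then nu M b else 0)
              (fun q _ => by split_ifs <;> [exact nu_nonneg _ _; exact le_rfl]) hp)
            rw [if_pos ⟨hd, hm hp0⟩]
          · exact Finset.sum_nonneg fun q _ => by
              split_ifs <;> [exact nu_nonneg _ _; exact le_rfl]
      _ = ∑ p ∈ P, ∑ b ∈ M.divisors, (if p ∣ b ∧ Many P u (b / p) then nu M b else 0) :=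
          Finset.sum_comm
      _ ≤ ∑ p ∈ P, 1 / (p : ℝ) * (∑ p ∈ P, 1 / (p : ℝ)) ^ u := by
          refine Finset.sum_le_sum fun p _ => ?_
          have hS : 0 ≤ (∑ p ∈ P, 1 / (p : ℝ)) ^ u :=
            pow_nonneg (Finset.sum_nonneg fun _ _ => by positivity) _
          by_cases hpM : p ∣ M
          · have hp0 : 0 < p := Nat.pos_of_dvd_of_pos hpM hM
            have hMp : 0 < M / p := Nat.div_pos (Nat.le_of_dvd hM hpM) hp0
            have h2 := sum_dvd' hM hpM (fun c => if Many P u c then (1 : ℝ) else 0)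
            have h3 : ∑ b ∈ M.divisors, (if p ∣ b ∧ Many P u (b / p) then nu M b else 0) =
                ∑ b ∈ M.divisors with p ∣ b, nu M b * (if Many P u (b / p) then (1 : ℝ) else 0) := by
              rw [Finset.sum_filter]
              refine Finset.sum_congr rfl fun b _ => ?_
              by_cases hd : p ∣ b <;> by_cases hm : Many P u (b / p) <;> simp [hd, hm]
            rw [h3, h2]
            refine mul_le_mul_of_nonneg_left ?_ (by positivity)
            refine le_trans (le_of_eq ?_) (ih (M / p) hMp)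
            rw [Finset.sum_filter]
            refine Finset.sum_congr rfl fun b _ => ?_
            split_ifs <;> simp
          · rw [Finset.sum_eq_zero]
            · positivity
            · intro b hb
              rw [if_neg]
              rintro ⟨hd, _⟩
              exact hpM (hd.trans (Nat.dvd_of_mem_divisors hb))
      _ = (∑ p ∈ P, 1 / (p : ℝ)) ^ (u + 1) := by
          rw [← Finset.sum_mul, pow_succ]
          ring

/-- primes of the dyadic block -/
def blkP (k : ℕ) : Finset ℕ := (Finset.Ioc (2 ^ (k - 1)) (2 ^ k)).filter Nat.Prime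

lemma mem_blkP {k p : ℕ} : p ∈ blkP k ↔ (2 ^ (k - 1) < p ∧ p ≤ 2 ^ k) ∧ p.Prime := by
  unfold blkP
  rw [Finset.mem_filter, Finset.mem_Ioc]

lemma card_blkP {k : ℕ} : (k - 1) * (blkP k).card ≤ 2 * 2 ^ k := by
  have h1 : (2 ^ (k - 1)) ^ (blkP k).card ≤ ∏ p ∈ blkP k, p := by
    rw [← Finset.prod_const]
    exact Finset.prod_le_prod (fun _ _ => Nat.zero_le _) fun p hp => (mem_blkP.1 hp).1.1.le
  have h2 : ∏ p ∈ blkP k, p ≤ 4 ^ (2 ^ k) := by
    refine le_trans ?_ (primorial_le_four_pow (2 ^ k))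
    unfold primorial
    refine Finset.prod_le_prod_of_subset_of_one_le' ?_ fun p hp _ =>
      (Finset.mem_filter.1 hp).2.one_lt.le
    intro p hp
    rw [mem_blkP] at hp
    rw [Finset.mem_filter, Finset.mem_range]
    exact ⟨by omega, hp.2⟩
  have h3 : 2 ^ ((k - 1) * (blkP k).card) ≤ 2 ^ (2 * 2 ^ k) := by
    rw [pow_mul, pow_mul]
    exact h1.trans h2
  exact (Nat.pow_le_pow_iff_right (by norm_num)).1 h3

lemma sum_blkP {k : ℕ} (hk : 2 ≤ k) : ∑ p ∈ blkP k, 1 / (p : ℝ) ≤ 4 / ((k : ℝ) - 1) := by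
  have hk1 : (0 : ℝ) < (k : ℝ) - 1 := by
    have : (2 : ℝ) ≤ k := by exact_mod_cast hk
    linarith
  have h1 : ∑ p ∈ blkP k, 1 / (p : ℝ) ≤ (blkP k).card * (1 / (2 : ℝ) ^ (k - 1)) := by
    rw [← nsmul_eq_mul]
    refine Finset.sum_le_card_nsmul _ _ _ fun p hp => ?_
    rw [mem_blkP] at hp
    refine one_div_le_one_div_of_le (by positivity) ?_
    exact_mod_cast hp.1.1.le
  refine h1.trans ?_
  have h2 : ((k : ℝ) - 1) * ((blkP k).card : ℝ) ≤ 2 * 2 ^ k := by
    have := card_blkP (k := k)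
    have h3 : (((k - 1) * (blkP k).card : ℕ) : ℝ) ≤ ((2 * 2 ^ k : ℕ) : ℝ) := by exact_mod_cast this
    rw [Nat.cast_mul, Nat.cast_sub (by omega)] at h3
    push_cast at h3
    exact h3
  rw [le_div_iff₀ hk1, mul_one_div, div_mul_eq_mul_div, div_le_iff₀ (by positivity)]
  have h4 : (2 : ℝ) ^ k = 2 * 2 ^ (k - 1) := by
    rw [← pow_succ']
    congr 1
    omega
  rw [h4] at h2
  linarith

/-- word of `b` in the dyadic block `k` -/
def blk (k b : ℕ) : ℕ := upp (2 ^ (k - 1)) (low (2 ^ k) b)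

lemma blk_pos (k b : ℕ) : 0 < blk k b := upp_pos _ _

lemma fact_blk (k b p : ℕ) : (blk k b).factorization p =
    if 2 ^ (k - 1) < p ∧ p ≤ 2 ^ k then b.factorization p else 0 := by
  unfold blk
  rw [fact_upp, fact_low]
  by_cases h1 : p ≤ 2 ^ (k - 1)
  · simp [h1]
  · have h1' : 2 ^ (k - 1) < p := by omega
    simp [h1, h1']

lemma low_mul_blk (k b : ℕ) : low (2 ^ (k - 1)) b * blk k b = low (2 ^ k) b := by
  have h := low_mul_upp (b := low (2 ^ k) b) (2 ^ (k - 1)) (low_pos _ _).ne'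
  rwa [low_low (Nat.pow_le_pow_right (by norm_num) (by omega))] at h

lemma list_prod_le {l : List ℕ} {N : ℕ} (h : ∀ p ∈ l, p ≤ N) : l.prod ≤ N ^ l.length := by
  induction l with
  | nil => simp
  | cons p l ih =>
    rw [List.prod_cons, List.length_cons, pow_succ']
    exact Nat.mul_le_mul (h p (by simp)) (ih fun q hq => h q (by simp [hq]))

/-- a large block word has many letters -/
lemma many_of_blk {k u b : ℕ} (hk : 1 ≤ k) (h : 2 ^ (u * k) ≤ blk k b) :
    Many (blkP k) u b := by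
  set w := blk k b with hw
  have hw0 : w ≠ 0 := (blk_pos k b).ne'
  have hmem : ∀ p ∈ w.primeFactorsList, p ∈ blkP k := by
    intro p hp
    have hpp := Nat.prime_of_mem_primeFactorsList hp
    have hpd := Nat.dvd_of_mem_primeFactorsList hp
    have h1 : w.factorization p ≠ 0 := (hpp.factorization_pos_of_dvd hw0 hpd).ne'
    rw [hw, fact_blk] at h1
    rw [mem_blkP]
    by_cases h2 : 2 ^ (k - 1) < p ∧ p ≤ 2 ^ k
    · exact ⟨h2, hpp⟩
    · rw [if_neg h2] at h1
      exact absurd rfl h1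
  have h1 : w ≤ (2 ^ k) ^ w.primeFactorsList.length := by
    conv_lhs => rw [← Nat.prod_primeFactorsList hw0]
    exact list_prod_le fun p hp => (mem_blkP.1 (hmem p hp)).1.2
  have h2 : u ≤ w.primeFactorsList.length := by
    have h3 : 2 ^ (u * k) ≤ 2 ^ (k * w.primeFactorsList.length) := by
      rw [pow_mul 2 k]
      exact h.trans h1
    have h4 := (Nat.pow_le_pow_iff_right (by norm_num)).1 h3
    rw [mul_comm] at h4
    exact Nat.le_of_mul_le_mul_left h4 hk
  refine ⟨w.primeFactorsList.take u, ?_, ?_, ?_⟩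
  · rw [List.length_take]
    omega
  · intro p hp
    exact hmem p (List.mem_of_mem_take hp)
  · have h3 := List.prod_take_mul_prod_drop w.primeFactorsList u
    rw [Nat.prod_primeFactorsList hw0] at h3
    have h4 : w ∣ b := by
      rw [hw]
      exact (upp_dvd_self _ _).trans (low_dvd_self _ _)
    exact (Dvd.intro _ h3).trans h4

lemma blk_mul {x k M G T : ℕ} (hG : G ∣ low x M) (hT : T ∣ upp x M) (h : x ≤ 2 ^ (k - 1)) :
    blk k (G * T) = blk k T := by
  have hG0 := ne_zero_of_dvd_low hG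
  have hT0 := ne_zero_of_dvd_upp hT
  refine Nat.eq_of_factorization_eq (blk_pos _ _).ne' (blk_pos _ _).ne' fun p => ?_
  rw [fact_blk, fact_blk, Nat.factorization_mul hG0 hT0, Finsupp.add_apply]
  by_cases hp : 2 ^ (k - 1) < p ∧ p ≤ 2 ^ k
  · rw [if_pos hp, if_pos hp, fact_of_dvd_low hG (by omega), zero_add]
  · rw [if_neg hp, if_neg hp]

open Classical in
/-- **many letters in one dyadic block above the prefix** -/
theorem block_rare {M x G k u : ℕ} (hM : 0 < M) (hG : G ∣ low x M) (hk : 2 ≤ k)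
    (hx : x ≤ 2 ^ (k - 1)) :
    ∑ b ∈ M.divisors with low x b = G ∧ 2 ^ (u * k) ≤ blk k b, nu M b ≤
      nu (low x M) G * (4 / ((k : ℝ) - 1)) ^ u := by
  rw [fibre_event hM hG]
  refine mul_le_mul_of_nonneg_left ?_ (nu_nonneg _ _)
  have h1 := many_le (blkP k) u (upp x M) (upp_pos x M)
  have h2 : (∑ p ∈ blkP k, 1 / (p : ℝ)) ^ u ≤ (4 / ((k : ℝ) - 1)) ^ u :=
    pow_le_pow_left₀ (Finset.sum_nonneg fun _ _ => by positivity) (sum_blkP hk) u
  refine le_trans ?_ (h1.trans h2)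
  unfold Ex
  rw [Finset.sum_filter]
  refine Finset.sum_le_sum fun T hT => ?_
  rw [Nat.mem_divisors] at hT
  beta_reduce
  rw [blk_mul hG hT.1 hx]
  by_cases h : 2 ^ (u * k) ≤ blk k T
  · rw [if_pos h, mul_one, if_pos (many_of_blk (by omega) h)]
  · rw [if_neg h, mul_zero]
    split_ifs
    · exact nu_nonneg _ _
    · exact le_rfl

/-- `∑_{k ≥ k0} (4/(k-1))^u ≤ 4^u / (k0-2)^(u-1)` -/
lemma sum_blocks {u k0 : ℕ} (hu : 2 ≤ u) (hk0 : 3 ≤ k0) : ∀ K : ℕ,
    ∑ k ∈ Finset.Ico k0 K, (4 / ((k : ℝ) - 1)) ^ u ≤ 4 ^ u / ((k0 : ℝ) - 2) ^ (u - 1) := by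
  have hk0' : (3 : ℝ) ≤ k0 := by exact_mod_cast hk0
  have hb : (0 : ℝ) < (k0 : ℝ) - 2 := by linarith
  -- telescoping
  have key : ∀ K : ℕ, k0 ≤ K → ∑ k ∈ Finset.Ico k0 K, (4 / ((k : ℝ) - 1)) ^ u ≤
      4 ^ u / ((k0 : ℝ) - 2) ^ (u - 2) * (1 / ((k0 : ℝ) - 2) - 1 / ((K : ℝ) - 2)) := by
    intro K hK
    induction K, hK using Nat.le_induction with
    | base => simp
    | succ K hK ih =>
      rw [Finset.sum_Ico_succ_top hK]
      have hK' : (k0 : ℝ) ≤ K := by exact_mod_cast hK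
      have h1 : (0 : ℝ) < (K : ℝ) - 2 := by linarith
      have h2 : (0 : ℝ) < (K : ℝ) - 1 := by linarith
      have h3 : (4 / ((K : ℝ) - 1)) ^ u ≤ 4 ^ u / ((k0 : ℝ) - 2) ^ (u - 2) *
          (1 / ((K : ℝ) - 2) - 1 / ((K : ℝ) - 1)) := by
        have e1 : 1 / ((K : ℝ) - 2) - 1 / ((K : ℝ) - 1) = 1 / (((K : ℝ) - 2) * ((K : ℝ) - 1)) := by
          field_simp
          ring
        have e2 : (4 / ((K : ℝ) - 1)) ^ u =
            4 ^ u * (1 / ((K : ℝ) - 1) ^ (u - 2)) * (1 / (((K : ℝ) - 1) * ((K : ℝ) - 1))) := by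
          rw [div_pow]
          have : ((K : ℝ) - 1) ^ u = ((K : ℝ) - 1) ^ (u - 2) * (((K : ℝ) - 1) * ((K : ℝ) - 1)) := by
            rw [← sq, ← pow_add]
            congr 1
            omega
          rw [this]
          field_simp
        rw [e1, e2, div_eq_mul_one_div (4 ^ u : ℝ)]
        refine mul_le_mul (mul_le_mul_of_nonneg_left ?_ (by positivity)) ?_ (by positivity)
          (by positivity)
        · exact one_div_le_one_div_of_le (pow_pos hb _)
            (pow_le_pow_left₀ hb.le (by linarith) _)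
        · exact one_div_le_one_div_of_le (by positivity)
            (mul_le_mul_of_nonneg_right (by linarith) h2.le)
      have e3 : ((K + 1 : ℕ) : ℝ) - 2 = (K : ℝ) - 1 := by push_cast; ring
      rw [e3]
      have h4 := add_le_add ih h3
      refine h4.trans (le_of_eq ?_)
      ring
  intro K
  rcases Nat.lt_or_ge K k0 with h | h
  · rw [Finset.Ico_eq_empty_of_le h.le, Finset.sum_empty]
    positivity
  · refine (key K h).trans ?_
    have hK' : (k0 : ℝ) ≤ K := by exact_mod_cast h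
    have h1 : (0 : ℝ) < (K : ℝ) - 2 := by linarith
    have e : ((k0 : ℝ) - 2) ^ (u - 1) = ((k0 : ℝ) - 2) ^ (u - 2) * ((k0 : ℝ) - 2) := by
      rw [← pow_succ]
      congr 1
      omega
    rw [e, ← div_div, div_eq_mul_one_div (4 ^ u / ((k0 : ℝ) - 2) ^ (u - 2))]
    refine mul_le_mul_of_nonneg_left ?_ (by positivity)
    have : 0 ≤ 1 / ((K : ℝ) - 2) := by positivity
    linarith

/-! ### The exceptional event -/

/-- the deviation event: some block `k0 ≤ k ≤ K` of the coin zone (prefix `≤ 2^{ak} L` below the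
block) with `Θ(b, k) ≥ 2^{Uk}` -/
def Exc (M : ℕ) (f : ℕ → ℝ) (L a U : ℝ) (k0 K b : ℕ) : Prop :=
  ∃ k, k0 ≤ k ∧ k < K ∧ (low (2 ^ (k - 1)) b : ℝ) ≤ (2 : ℝ) ^ (a * k) * L ∧
    ∃ l ≤ k, (2 : ℝ) ^ (U * k) ≤ (low (2 ^ l) b : ℝ) * mass M f (2 ^ l) (upp (2 ^ l) b)

/-- the bound of the natural probability of `Exc` given the prefix `G` at `x` -/
noncomputable def kapE (M : ℕ) (f : ℕ → ℝ) (L a U : ℝ) (x G u k0 : ℕ) : ℝ :=
  (L * Ex M f) / (2 : ℝ) ^ ((U - u - a) * k0) +
    k0 * (G * Ex M f / (Vm (low x M) G * (2 : ℝ) ^ (U * k0))) +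
    4 ^ u / ((k0 : ℝ) - 2) ^ (u - 1)

open Classical in
/-- **THE DEVIATIONS OF THE THRESHOLD RULE HAVE SMALL NATURAL PROBABILITY GIVEN THE PREFIX** -/
theorem theta_exc {M x G u k0 : ℕ} (hM : 0 < M) (hG : G ∣ low x M) {f : ℕ → ℝ}
    (hf : ∀ b, 0 ≤ f b) {L a U : ℝ} (hL : 0 < L) (ha : 0 ≤ a) (hU : u + a ≤ U) (hu : 2 ≤ u)
    (hk0 : 3 ≤ k0) (hx : x ≤ 2 ^ (k0 - 1)) (K : ℕ) :
    ∑ b ∈ M.divisors with low x b = G ∧ Exc M f L a U k0 K b, nu M b ≤
      nu (low x M) G * kapE M f L a U x G u k0 := by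
  set H : ℝ := (2 : ℝ) ^ ((U - u - a) * k0) with hH
  set Z : ℝ := (2 : ℝ) ^ (U * k0) with hZ
  have hH0 : 0 < H := by positivity
  have hZ0 : 0 < Z := by positivity
  have hu0 : (0 : ℝ) ≤ u := Nat.cast_nonneg _
  have hU0 : 0 ≤ U := by linarith
  -- the three events
  let E1 : ℕ → Prop := fun b => ∃ y, x ≤ y ∧ y ≤ 2 ^ K ∧ H ≤ L * mass M f y (upp y b)
  let E2 : ℕ → ℕ → Prop := fun l b => Z ≤ (low (2 ^ l) b : ℝ) * mass M f (2 ^ l) (upp (2 ^ l) b)
  let E3 : ℕ → ℕ → Prop := fun k b => 2 ^ (u * k) ≤ blk k b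
  have hcover : ∀ b ∈ M.divisors, Exc M f L a U k0 K b →
      E1 b ∨ (∃ l ∈ (range k0).filter (fun l => 2 ^ l ≤ x), E2 l b) ∨ ∃ k ∈ Ico k0 K, E3 k b := by
    rintro b hb ⟨k, hk1, hk2, hz, l, hl, hth⟩
    have hkR : (k0 : ℝ) ≤ k := by exact_mod_cast hk1
    by_cases h3 : 2 ^ (u * k) ≤ blk k b
    · exact Or.inr (Or.inr ⟨k, Finset.mem_Ico.2 ⟨hk1, hk2⟩, h3⟩)
    by_cases h2 : 2 ^ l ≤ x
    · right
      left
      refine ⟨l, Finset.mem_filter.2 ⟨Finset.mem_range.2 ?_, h2⟩, ?_⟩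
      · have h4 : 2 ^ l ≤ 2 ^ (k0 - 1) := h2.trans hx
        have h5 := (Nat.pow_le_pow_iff_right (a := 2) (by norm_num)).1 h4
        omega
      · refine le_trans ?_ hth
        exact Real.rpow_le_rpow_of_exponent_le (by norm_num)
          (mul_le_mul_of_nonneg_left hkR hU0)
    left
    refine ⟨2 ^ l, by omega, Nat.pow_le_pow_right (by norm_num) (by omega), ?_⟩
    -- `low (2^l) b ≤ 2^{ak} L 2^{uk}`
    have h4 : (low (2 ^ l) b : ℝ) ≤ (2 : ℝ) ^ (a * k) * L * (2 : ℝ) ^ ((u : ℝ) * k) := by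
      have h5 : low (2 ^ l) b ≤ low (2 ^ k) b :=
        Nat.le_of_dvd (low_pos _ _) (low_dvd_low (Nat.pow_le_pow_right (by norm_num) hl))
      have h6 : (low (2 ^ k) b : ℝ) = (low (2 ^ (k - 1)) b : ℝ) * (blk k b : ℝ) := by
        rw [← Nat.cast_mul, low_mul_blk]
      have h7 : (blk k b : ℝ) ≤ (2 : ℝ) ^ ((u : ℝ) * k) := by
        have e1 : (2 : ℝ) ^ ((u : ℝ) * k) = ((2 ^ (u * k) : ℕ) : ℝ) := by
          rw [← Nat.cast_mul, Real.rpow_natCast]
          push_cast
          rfl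
        rw [e1]
        exact_mod_cast (not_le.1 h3).le
      calc (low (2 ^ l) b : ℝ) ≤ (low (2 ^ k) b : ℝ) := by exact_mod_cast h5
        _ = (low (2 ^ (k - 1)) b : ℝ) * (blk k b : ℝ) := h6
        _ ≤ ((2 : ℝ) ^ (a * k) * L) * (2 : ℝ) ^ ((u : ℝ) * k) :=
            mul_le_mul hz h7 (Nat.cast_nonneg _) (by positivity)
    have hm0 := mass_nonneg M hf (2 ^ l) (upp (2 ^ l) b)
    have h8 : (2 : ℝ) ^ (U * k) ≤
        (2 : ℝ) ^ (a * k) * (2 : ℝ) ^ ((u : ℝ) * k) * (L * mass M f (2 ^ l) (upp (2 ^ l) b)) := by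
      refine hth.trans ((mul_le_mul_of_nonneg_right h4 hm0).trans (le_of_eq ?_))
      ring
    have h9 : (2 : ℝ) ^ (U * k) = (2 : ℝ) ^ (a * k) * (2 : ℝ) ^ ((u : ℝ) * k) *
        (2 : ℝ) ^ ((U - u - a) * k) := by
      rw [← Real.rpow_add (by norm_num), ← Real.rpow_add (by norm_num)]
      congr 1
      ring
    rw [h9] at h8
    have h10 := le_of_mul_le_mul_left h8 (by positivity)
    refine le_trans ?_ h10
    exact Real.rpow_le_rpow_of_exponent_le (by norm_num)
      (mul_le_mul_of_nonneg_left hkR (by linarith))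
  have hnu : ∀ b, 0 ≤ nu M b := fun b => nu_nonneg M b
  have hstep : ∑ b ∈ M.divisors with low x b = G ∧ Exc M f L a U k0 K b, nu M b ≤
      ∑ b ∈ M.divisors with low x b = G ∧ E1 b, nu M b +
        (∑ l ∈ (range k0).filter (fun l => 2 ^ l ≤ x),
          ∑ b ∈ M.divisors with low x b = G ∧ E2 l b, nu M b) +
        ∑ k ∈ Ico k0 K, ∑ b ∈ M.divisors with low x b = G ∧ E3 k b, nu M b := by
    have e1 : ∀ (P : ℕ → Prop) [DecidablePred P],
        ∑ b ∈ M.divisors with low x b = G ∧ P b, nu M b =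
        ∑ b ∈ M.divisors, if low x b = G ∧ P b then nu M b else 0 :=
      fun P _ => Finset.sum_filter _ _
    simp only [e1]
    rw [Finset.sum_comm (s := (range k0).filter (fun l => 2 ^ l ≤ x)),
      Finset.sum_comm (s := Ico k0 K), ← Finset.sum_add_distrib, ← Finset.sum_add_distrib]
    refine Finset.sum_le_sum fun b hb => ?_
    have hpos1 : 0 ≤ if low x b = G ∧ E1 b then nu M b else 0 := by
      split_ifs <;> [exact hnu b; exact le_rfl]
    have hpos2 : ∀ l ∈ (range k0).filter (fun l => 2 ^ l ≤ x),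
        0 ≤ if low x b = G ∧ E2 l b then nu M b else 0 := fun l _ => by
      split_ifs <;> [exact hnu b; exact le_rfl]
    have hpos3 : ∀ k ∈ Ico k0 K, 0 ≤ if low x b = G ∧ E3 k b then nu M b else 0 := fun k _ => by
      split_ifs <;> [exact hnu b; exact le_rfl]
    by_cases h : low x b = G ∧ Exc M f L a U k0 K b
    · rw [if_pos h]
      rcases hcover b hb h.2 with h1 | ⟨l, hl, h2⟩ | ⟨k, hk, h3⟩
      · rw [if_pos ⟨h.1, h1⟩]
        have := Finset.sum_nonneg hpos2
        have := Finset.sum_nonneg hpos3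
        linarith
      · have h4 := Finset.single_le_sum hpos2 hl
        rw [if_pos ⟨h.1, h2⟩] at h4
        have := Finset.sum_nonneg hpos3
        linarith
      · have h4 := Finset.single_le_sum hpos3 hk
        rw [if_pos ⟨h.1, h3⟩] at h4
        have := Finset.sum_nonneg hpos2
        linarith
    · rw [if_neg h]
      have := Finset.sum_nonneg hpos2
      have := Finset.sum_nonneg hpos3
      linarith
  refine hstep.trans ?_
  have hνG := nu_nonneg (low x M) G
  have b1 := given_doob hM hG (2 ^ K) hf hL hH0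
  have b2 : ∑ l ∈ (range k0).filter (fun l => 2 ^ l ≤ x),
      ∑ b ∈ M.divisors with low x b = G ∧ E2 l b, nu M b ≤
      nu (low x M) G * (k0 * (G * Ex M f / (Vm (low x M) G * Z))) := by
    have hc : 0 ≤ G * Ex M f / (Vm (low x M) G * Z) :=
      div_nonneg (mul_nonneg (Nat.cast_nonneg _) (Ex_nonneg M hf))
        (mul_nonneg (Vm_pos _).le hZ0.le)
    calc ∑ l ∈ (range k0).filter (fun l => 2 ^ l ≤ x),
          ∑ b ∈ M.divisors with low x b = G ∧ E2 l b, nu M b
        ≤ ∑ l ∈ (range k0).filter (fun l => 2 ^ l ≤ x),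
          nu (low x M) G * (G * Ex M f / (Vm (low x M) G * Z)) :=
          Finset.sum_le_sum fun l hl => given_low hM hG (Finset.mem_filter.1 hl).2 hf hZ0
      _ = (((range k0).filter (fun l => 2 ^ l ≤ x)).card : ℝ) *
          (nu (low x M) G * (G * Ex M f / (Vm (low x M) G * Z))) := by
          rw [Finset.sum_const, nsmul_eq_mul]
      _ ≤ (k0 : ℝ) * (nu (low x M) G * (G * Ex M f / (Vm (low x M) G * Z))) := by
          refine mul_le_mul_of_nonneg_right ?_ (mul_nonneg hνG hc)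
          have := (Finset.card_filter_le (range k0) (fun l => 2 ^ l ≤ x))
          rw [Finset.card_range] at this
          exact_mod_cast this
      _ = _ := by ring
  have b3 : ∑ k ∈ Ico k0 K, ∑ b ∈ M.divisors with low x b = G ∧ E3 k b, nu M b ≤
      nu (low x M) G * (4 ^ u / ((k0 : ℝ) - 2) ^ (u - 1)) := by
    calc ∑ k ∈ Ico k0 K, ∑ b ∈ M.divisors with low x b = G ∧ E3 k b, nu M b
        ≤ ∑ k ∈ Ico k0 K, nu (low x M) G * (4 / ((k : ℝ) - 1)) ^ u := by
          refine Finset.sum_le_sum fun k hk => ?_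
          rw [Finset.mem_Ico] at hk
          exact block_rare hM hG (by omega)
            (hx.trans (Nat.pow_le_pow_right (by norm_num) (by omega)))
      _ = nu (low x M) G * ∑ k ∈ Ico k0 K, (4 / ((k : ℝ) - 1)) ^ u := by rw [Finset.mul_sum]
      _ ≤ _ := mul_le_mul_of_nonneg_left (sum_blocks hu hk0 K) hνG
  unfold kapE
  rw [mul_add, mul_add]
  exact add_le_add (add_le_add b1 b2) b3

/-! ### Hypothesis of the GW lemma with exceptions -/

/-- **exceptions in the hypothesis of `gw_min`** (`GWmin_18`): if it holds for `om0` with `kap0`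
and `om ≤ om0` off a set of relative mass `≤ kap1`, it holds for `om` with `kap0 + kap1`. -/
theorem hyp_perturb {Ω : Type*} [DecidableEq Ω] (F : Finset Ω) (ν om om0 : Ω → ℝ)
    (hν : ∀ b ∈ F, 0 ≤ ν b) {C1 kap0 kap1 : ℝ} (hC1 : 1 ≤ C1) (hk1 : 0 ≤ kap1)
    (h0 : ∀ s : ℝ, 0 ≤ s → s ≤ 1 →
      ∑ b ∈ F.filter (fun b => 1 - om0 b ≤ s), ν b ≤ C1 * (s + kap0) * ∑ b ∈ F, ν b)
    (h1 : ∑ b ∈ F.filter (fun b => om0 b < om b), ν b ≤ kap1 * ∑ b ∈ F, ν b) :
    ∀ s : ℝ, 0 ≤ s → s ≤ 1 →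
      ∑ b ∈ F.filter (fun b => 1 - om b ≤ s), ν b ≤
        C1 * (s + (kap0 + kap1)) * ∑ b ∈ F, ν b := by
  intro s hs0 hs1
  have hF : 0 ≤ ∑ b ∈ F, ν b := Finset.sum_nonneg hν
  have h2 : F.filter (fun b => 1 - om b ≤ s) ⊆
      F.filter (fun b => 1 - om0 b ≤ s) ∪ F.filter (fun b => om0 b < om b) := by
    intro b hb
    rw [Finset.mem_filter] at hb
    rw [Finset.mem_union, Finset.mem_filter, Finset.mem_filter]
    rcases lt_or_ge (om0 b) (om b) with h | h
    · exact Or.inr ⟨hb.1, h⟩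
    · exact Or.inl ⟨hb.1, by linarith [hb.2]⟩
  calc ∑ b ∈ F.filter (fun b => 1 - om b ≤ s), ν b
      ≤ ∑ b ∈ F.filter (fun b => 1 - om0 b ≤ s) ∪ F.filter (fun b => om0 b < om b), ν b :=
        Finset.sum_le_sum_of_subset_of_nonneg h2 fun b hb _ => by
          rw [Finset.mem_union, Finset.mem_filter, Finset.mem_filter] at hb
          rcases hb with hb | hb <;> exact hν b hb.1
    _ ≤ ∑ b ∈ F.filter (fun b => 1 - om0 b ≤ s), ν b +
        ∑ b ∈ F.filter (fun b => om0 b < om b), ν b := by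
        rw [← Finset.sum_union_inter]
        exact le_add_of_nonneg_right (Finset.sum_nonneg fun b hb => by
          rw [Finset.mem_inter, Finset.mem_filter] at hb
          exact hν b hb.1.1)
    _ ≤ C1 * (s + kap0) * ∑ b ∈ F, ν b + kap1 * ∑ b ∈ F, ν b := add_le_add (h0 s hs0 hs1) h1
    _ ≤ C1 * (s + kap0) * ∑ b ∈ F, ν b + C1 * kap1 * ∑ b ∈ F, ν b := by
        refine add_le_add le_rfl (mul_le_mul_of_nonneg_right ?_ hF)
        nlinarith
    _ = _ := by ring

open Classical in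
/-- **the hypothesis of `gw_min` on the fibre of the prefix `G`, with the deviations of the
threshold rule**: `om ≤ om0` off `Exc`. -/
theorem hyp_theta {M x G u k0 : ℕ} (hM : 0 < M) (hG : G ∣ low x M) {f : ℕ → ℝ}
    (hf : ∀ b, 0 ≤ f b) {L a U : ℝ} (hL : 0 < L) (ha : 0 ≤ a) (hU : u + a ≤ U) (hu : 2 ≤ u)
    (hk0 : 3 ≤ k0) (hx : x ≤ 2 ^ (k0 - 1)) (K : ℕ) (om om0 : ℕ → ℝ) {C1 kap0 : ℝ}
    (hC1 : 1 ≤ C1)
    (h0 : ∀ s : ℝ, 0 ≤ s → s ≤ 1 →
      ∑ b ∈ (M.divisors.filter (fun b => low x b = G)).filter (fun b => 1 - om0 b ≤ s), nu M b ≤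
        C1 * (s + kap0) * ∑ b ∈ M.divisors.filter (fun b => low x b = G), nu M b)
    (hom : ∀ b ∈ M.divisors, low x b = G → ¬ Exc M f L a U k0 K b → om b ≤ om0 b) :
    ∀ s : ℝ, 0 ≤ s → s ≤ 1 →
      ∑ b ∈ (M.divisors.filter (fun b => low x b = G)).filter (fun b => 1 - om b ≤ s), nu M b ≤
        C1 * (s + (kap0 + kapE M f L a U x G u k0)) *
          ∑ b ∈ M.divisors.filter (fun b => low x b = G), nu M b := by
  have hk0' : (3 : ℝ) ≤ k0 := by exact_mod_cast hk0
  have hkap : 0 ≤ kapE M f L a U x G u k0 := by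
    unfold kapE
    have h1 := Ex_nonneg M hf
    have h2 := (Vm_pos (M := low x M) G).le
    have h3 : (0 : ℝ) ≤ (k0 : ℝ) - 2 := by linarith
    positivity
  refine hyp_perturb _ (fun b => nu M b) om om0 (fun b _ => nu_nonneg M b) hC1 hkap h0 ?_
  rw [fibre_mass hM hG, mul_comm]
  refine le_trans ?_ (theta_exc hM hG hf hL ha hU hu hk0 hx K)
  refine Finset.sum_le_sum_of_subset_of_nonneg ?_ fun b _ _ => nu_nonneg M b
  intro b hb
  rw [Finset.mem_filter, Finset.mem_filter] at hb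
  rw [Finset.mem_filter]
  refine ⟨hb.1.1, hb.1.2, ?_⟩
  by_contra hc
  exact absurd (hom b hb.1.1 hb.1.2 hc) (not_le.2 hb.2)

end Crest.Agent.R4C.Thetax129
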