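import Crest.Agent.R4C.NonPureSetFL_52
import Crest.Agent.R4C.PureFL_232
import Crest.Agent.R4C.FLEx_326

/-!
# Row 4: THEOREM C(A) (helper52, note 3113 (C))

All pairs `b ≠ c` of `B` with `L ≤ gcd b c` whose differing primes `p` all satisfy
`(gcd b c / L) ^ A ≤ p` have total energy `≤ C (m + m^(1+η))`, `m = L ν(B)`.
No relation, any `M`, any `B`; all scales together.
-/

set_option autoImplicit false

open Finset
open Crest.Agent.R4C.Basex935 Crest.Agent.R4C.Cutx50 Crest.Agent.R4C.FLDefx935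
open Crest.Agent.R4C.NonPureFLx559 Crest.Agent.R4C.NonPureSetFLx52 Crest.Agent.R4C.PureL2x232

namespace Crest.Agent.R4C.ThmCx52

open Classical

/-- the pairs of Theorem C(A): scale `≥ 1`, all differing primes `≥ t^A` -/
def CPair (A L : ℝ) (b c : ℕ) : Prop :=
  b ≠ c ∧ L ≤ (Nat.gcd b c : ℝ) ∧
    ∀ p : ℕ, p.Prime → b.factorization p ≠ c.factorization p → ((Nat.gcd b c : ℝ) / L) ^ A ≤ p

lemma exp_bound {β u : ℝ} (hβ : 0 < β) (hu : 1 ≤ u) :
    (2 * u + 1) * Real.exp (-(β * u)) ≤ 6 / β ^ 2 * (1 / u) := by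
  have hu0 : 0 < u := by linarith
  have h1 : (β * u) ^ 2 / 2 ≤ Real.exp (β * u) := by
    have := Real.quadratic_le_exp_of_nonneg (x := β * u) (by positivity)
    have h2 : 0 ≤ β * u := by positivity
    linarith
  rw [Real.exp_neg]
  have h3 : (Real.exp (β * u))⁻¹ ≤ 2 / (β * u) ^ 2 := by
    rw [inv_le_comm₀ (Real.exp_pos _) (by positivity)]
    calc (2 / (β * u) ^ 2)⁻¹ = (β * u) ^ 2 / 2 := by rw [inv_div]
      _ ≤ _ := h1
  calc (2 * u + 1) * (Real.exp (β * u))⁻¹ ≤ (3 * u) * (2 / (β * u) ^ 2) := by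
        refine mul_le_mul (by linarith) h3 (by positivity) (by positivity)
    _ = 6 / β ^ 2 * (1 / u) := by field_simp; ring

lemma sum_half (N : ℕ) : ∑ j ∈ range N, (1 : ℝ) / 2 ^ j ≤ 2 := by
  have h9 : ∀ j ∈ range N, (1 : ℝ) / 2 ^ j = (1 / 2) ^ j := fun j _ => by rw [one_div_pow]
  rw [Finset.sum_congr rfl h9, geom_sum_eq (by norm_num)]
  have : (0 : ℝ) < (1 / 2) ^ N := by positivity
  rw [div_le_iff_of_neg (by norm_num)]
  linarith

lemma sum_sqrt_half (N : ℕ) : ∑ j ∈ range N, √((1 : ℝ) / 2 ^ j) ≤ 4 := by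
  have hr : √((1 : ℝ) / 2) ≤ 3 / 4 := by
    rw [Real.sqrt_le_left (by norm_num)]
    norm_num
  have hr0 : 0 ≤ √((1 : ℝ) / 2) := Real.sqrt_nonneg _
  have h1 : ∀ j : ℕ, √((1 : ℝ) / 2 ^ j) = √((1 : ℝ) / 2) ^ j := by
    intro j
    rw [show (1 : ℝ) / 2 ^ j = (1 / 2) ^ j by rw [one_div_pow]]
    induction j with
    | zero => simp
    | succ n ih =>
      rw [pow_succ, Real.sqrt_mul (by positivity), ih, pow_succ]
  calc ∑ j ∈ range N, √((1 : ℝ) / 2 ^ j) ≤ ∑ j ∈ range N, (3 / 4 : ℝ) ^ j := by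
        refine Finset.sum_le_sum fun j _ => ?_
        rw [h1]
        exact pow_le_pow_left₀ hr0 hr j
    _ ≤ 4 := by
        rw [geom_sum_eq (by norm_num)]
        have : (0 : ℝ) < (3 / 4) ^ N := by positivity
        rw [div_le_iff_of_neg (by norm_num)]
        linarith

/-- uniform rough counting in the blocks `X_j = 2 ^ 2 ^ j` -/
lemma rough_block : ∃ K : ℝ, 1 ≤ K ∧ ∀ (M j i : ℕ), 1 ≤ i →
    ((M.divisors.filter (fun l => Nat.log 2 l = i ∧
      ∀ p : ℕ, p.Prime → p ∣ l → 2 ^ 2 ^ j - 1 < p)).card : ℝ) ≤ (K / 2 ^ j) * 2 ^ i := by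
  obtain ⟨C, hC, h⟩ := rough_card
  refine ⟨1 + 4 * C, by linarith, fun M j i hi => ?_⟩
  rcases Nat.eq_zero_or_pos j with hj | hj
  · subst hj
    refine (card_le_pow M _ i).trans ?_
    have : (0 : ℝ) < 2 ^ i := by positivity
    have h1 : (1 + 4 * C) / 2 ^ 0 = 1 + 4 * C := by norm_num
    rw [h1]
    nlinarith
  · have hX : 4 ≤ 2 ^ 2 ^ j := by
      calc 4 = 2 ^ 2 ^ 1 := by norm_num
        _ ≤ 2 ^ 2 ^ j := Nat.pow_le_pow_right (by norm_num) (Nat.pow_le_pow_right (by norm_num) hj)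
    have hx2 : 2 ≤ 2 ^ 2 ^ j - 1 := by omega
    refine (h M (2 ^ 2 ^ j - 1) hx2 i hi).trans ?_
    refine mul_le_mul_of_nonneg_right ?_ (by positivity)
    -- log (X - 1) ≥ (1/2) log X ≥ 2^j / 4
    have hXR : ((2 ^ 2 ^ j - 1 : ℕ) : ℝ) = (2 : ℝ) ^ 2 ^ j - 1 := by
      have : 1 ≤ 2 ^ 2 ^ j := by omega
      push_cast [Nat.cast_sub this]; ring
    have h4R : (4 : ℝ) ≤ (2 : ℝ) ^ 2 ^ j := by exact_mod_cast hX
    have hlow : (2 : ℝ) ^ 2 ^ j ≤ ((2 : ℝ) ^ 2 ^ j - 1) ^ 2 := by nlinarith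
    have hlog : Real.log ((2 : ℝ) ^ 2 ^ j) ≤ 2 * Real.log ((2 : ℝ) ^ 2 ^ j - 1) := by
      have h1 := Real.log_le_log (by positivity) hlow
      rw [Real.log_pow ((2 : ℝ) ^ 2 ^ j - 1) 2] at h1
      exact_mod_cast h1
    have hlog2 : Real.log ((2 : ℝ) ^ 2 ^ j) = 2 ^ j * Real.log 2 := by
      rw [Real.log_pow]; push_cast; ring
    have hl2 : (1 / 2 : ℝ) ≤ Real.log 2 := by
      have := Real.log_two_gt_d9; linarith
    rw [hXR]
    have h2j : (0 : ℝ) < 2 ^ j := by positivity
    have h5 : (2 : ℝ) ^ j / 4 ≤ Real.log ((2 : ℝ) ^ 2 ^ j - 1) := by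
      rw [hlog2] at hlog
      have h6 : (2 : ℝ) ^ j * (1 / 2) ≤ 2 ^ j * Real.log 2 :=
        mul_le_mul_of_nonneg_left hl2 h2j.le
      linarith
    calc C / Real.log ((2 : ℝ) ^ 2 ^ j - 1) ≤ C / ((2 : ℝ) ^ j / 4) :=
          div_le_div_of_nonneg_left hC.le (by positivity) h5
      _ = (4 * C) / 2 ^ j := by field_simp
      _ ≤ (1 + 4 * C) / 2 ^ j := by
          refine div_le_div_of_nonneg_right (by linarith) h2j.le

/-- **THEOREM C(A).** -/
theorem thmC {η : ℝ} (hη : 0 < η) (hη1 : η < 1) : ∃ A : ℝ, 1 ≤ A ∧ ∃ C : ℝ, 0 ≤ C ∧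
    ∀ (M : ℕ) (B : Finset ℕ) (L : ℝ), 0 < M → B ⊆ M.divisors → 0 < L →
      L * ∑ b ∈ B, ∑ c ∈ B, (if CPair A L b c then
        (Nat.gcd b c : ℝ) * nu M b * nu M c else 0) ≤
      C * (L * ∑ b ∈ B, nu M b + (L * ∑ b ∈ B, nu M b) ^ (1 + η)) := by
  obtain ⟨c, hc, C1, hC1, hFL⟩ := FLExx326.flam_strong hη hη1
  obtain ⟨K, hK, hrough⟩ := rough_block
  set A : ℝ := max 1 (4 * η / c) with hA
  have hA1 : 1 ≤ A := le_max_left _ _
  have hA0 : 0 < A := by linarith
  have hAc : 4 * η / c ≤ A := le_max_right _ _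
  set β : ℝ := c / 2 * Real.log 2 with hβ
  have hβ0 : 0 < β := mul_pos (by positivity) (Real.log_pos (by norm_num))
  refine ⟨A, hA1, 4 + (32 * √K + 32 * K) + C1 * (12 / β ^ 2), by positivity,
    fun M B L hM hB hL => ?_⟩
  obtain ⟨F, hF⟩ := hFL M B L hM hB hL
  set f : ℕ → ℝ := fun b => if b ∈ B then 1 else 0 with hf
  have hf0 : ∀ b, 0 ≤ f b := fun b => by simp only [hf]; split_ifs <;> norm_num
  have hf1 : ∀ b, f b ≤ 1 := fun b => by simp only [hf]; split_ifs <;> norm_num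
  have hff : ∀ b, f b ^ 2 = f b := fun b => by simp only [hf]; split_ifs <;> norm_num
  set m := L * ∑ b ∈ B, nu M b with hm
  have hm0 : 0 ≤ m := mul_nonneg hL.le (Finset.sum_nonneg fun b _ => nu_nonneg _ _)
  have hmass : ∑ b ∈ M.divisors, nu M b * f b = ∑ b ∈ B, nu M b := by
    simp only [hf, mul_ite, mul_one, mul_zero]
    rw [← Finset.sum_filter]
    congr 1
    ext b
    rw [Finset.mem_filter]
    exact ⟨fun h => h.2, fun h => ⟨hB h, h⟩⟩
  have hmass2 : ∑ b ∈ M.divisors, nu M b * f b ^ 2 = ∑ b ∈ B, nu M b := by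
    rw [← hmass]
    exact Finset.sum_congr rfl fun b _ => by rw [hff]
  have hS0 : 0 ≤ ∑ b ∈ B, nu M b := Finset.sum_nonneg fun b _ => nu_nonneg _ _
  -- the three kinds of terms
  set T : ℕ → ℕ → ℝ := fun b c => (Nat.gcd b c : ℝ) * nu M b * nu M c with hT
  have hT0 : ∀ b c, 0 ≤ T b c := fun b c =>
    mul_nonneg (mul_nonneg (by positivity) (nu_nonneg _ _)) (nu_nonneg _ _)
  set y : ℕ → ℕ := fun j => 2 ^ 2 ^ j - 1 with hy
  set N : ℕ := M + 1 with hN
  let bd : ℕ → ℕ → ℕ → ℕ → ℝ := fun j i b c =>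
    if ((2 : ℝ) ^ i) ^ A ≤ (2 : ℝ) ^ 2 ^ (j + 1) then
      (if (2 : ℝ) ^ i * L ≤ (Nat.gcd b c : ℝ) ∧ (Nat.gcd b c : ℝ) < 2 * 2 ^ i * L ∧
        ¬ F.good (y j) b c then T b c else 0) else 0
  have hbd0 : ∀ j i b c, 0 ≤ bd j i b c := fun j i b c => by
    simp only [bd]
    split_ifs
    · exact hT0 _ _
    · exact le_rfl
    · exact le_rfl
  have hnp0 : ∀ j b c, 0 ≤ tms F (y j) f f b c := fun j b c => by
    unfold tms
    split_ifs
    · exact mul_nonneg (hT0 b c) (mul_nonneg (hf0 _) (hf0 _))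
    · exact le_rfl
  have hpw : ∀ b ∈ B, ∀ c ∈ B, (if CPair A L b c then T b c else 0) ≤
      (if PureG F b c then T b c * (f b * f c) else 0) +
      ∑ j ∈ range N, tms F (y j) f f b c +
      ∑ j ∈ range N, ∑ i ∈ range (2 ^ (j + 1) + 1), bd j i b c := by
    intro b hb c hc
    have hbM := Nat.dvd_of_mem_divisors (hB hb)
    have hcM := Nat.dvd_of_mem_divisors (hB hc)
    have hb0 : b ≠ 0 := (Nat.pos_of_dvd_of_pos hbM hM).ne'
    have hc0 : c ≠ 0 := (Nat.pos_of_dvd_of_pos hcM hM).ne'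
    have hfb : f b = 1 := by simp only [hf]; rw [if_pos hb]
    have hfc : f c = 1 := by simp only [hf]; rw [if_pos hc]
    have p1 : 0 ≤ (if PureG F b c then T b c * (f b * f c) else 0) := by
      split_ifs
      · exact mul_nonneg (hT0 _ _) (mul_nonneg (hf0 _) (hf0 _))
      · exact le_rfl
    have p2 : 0 ≤ ∑ j ∈ range N, tms F (y j) f f b c := Finset.sum_nonneg fun j _ => hnp0 j b c
    have p3 : 0 ≤ ∑ j ∈ range N, ∑ i ∈ range (2 ^ (j + 1) + 1), bd j i b c :=
      Finset.sum_nonneg fun j _ => Finset.sum_nonneg fun i _ => hbd0 j i b c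
    by_cases hC : CPair A L b c
    · rw [if_pos hC]
      obtain ⟨hne, hg, hdiff⟩ := hC
      -- smallest differing prime
      have hex : ∃ p : ℕ, p.Prime ∧ b.factorization p ≠ c.factorization p := by
        by_contra hcon
        push Not at hcon
        apply hne
        refine Nat.eq_of_factorization_eq hb0 hc0 fun p => ?_
        by_cases hp : p.Prime
        · exact hcon p hp
        · rw [Nat.factorization_eq_zero_of_not_prime _ hp,
            Nat.factorization_eq_zero_of_not_prime _ hp]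
      set x := Nat.find hex with hx
      have hxp : x.Prime := (Nat.find_spec hex).1
      have hxd : b.factorization x ≠ c.factorization x := (Nat.find_spec hex).2
      have hxmin : ∀ q : ℕ, q.Prime → q < x → b.factorization q = c.factorization q := by
        intro q hq hqx
        have := Nat.find_min hex hqx
        push Not at this
        exact this hq
      have hx2 : 2 ≤ x := hxp.two_le
      have hxM : x ≤ M := by
        have h1 : x ∣ b ∨ x ∣ c := by
          by_contra hcon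
          push Not at hcon
          apply hxd
          rw [Nat.factorization_eq_zero_of_not_dvd hcon.1,
            Nat.factorization_eq_zero_of_not_dvd hcon.2]
        rcases h1 with h1 | h1
        · exact Nat.le_of_dvd hM (h1.trans hbM)
        · exact Nat.le_of_dvd hM (h1.trans hcM)
      set k := Nat.log 2 x with hk
      have hk1 : 1 ≤ k := by
        rw [hk]; exact Nat.log_pos (by norm_num) hx2
      set j := Nat.log 2 k with hj
      have hj1 : 2 ^ j ≤ k := Nat.pow_log_le_self 2 (by omega)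
      have hj2 : k < 2 ^ (j + 1) := Nat.lt_pow_succ_log_self (by norm_num) k
      have hX1 : 2 ^ 2 ^ j ≤ x :=
        (Nat.pow_le_pow_right (by norm_num) hj1).trans (Nat.pow_log_le_self 2 (by omega))
      have hX2 : x < 2 ^ 2 ^ (j + 1) := by
        have h1 : x < 2 ^ (k + 1) := Nat.lt_pow_succ_log_self (by norm_num) x
        exact h1.trans_le (Nat.pow_le_pow_right (by norm_num) (by omega))
      have hjN : j ∈ range N := by
        rw [Finset.mem_range, hN]
        have h1 : j ≤ k := Nat.log_le_self _ _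
        have h2 : k ≤ x := Nat.log_le_self _ _
        omega
      have hyx : y j < x := by
        simp only [hy]
        have : 0 < 2 ^ 2 ^ j := by positivity
        omega
      have hlow : low (y j) b = low (y j) c := by
        refine Nat.eq_of_factorization_eq (low_pos _ _).ne' (low_pos _ _).ne' fun p => ?_
        rw [fact_low, fact_low]
        by_cases hp : p ≤ y j
        · rw [if_pos hp, if_pos hp]
          by_cases hpp : p.Prime
          · exact hxmin p hpp (by omega)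
          · rw [Nat.factorization_eq_zero_of_not_prime _ hpp,
              Nat.factorization_eq_zero_of_not_prime _ hpp]
        · rw [if_neg hp, if_neg hp]
      by_cases hgood : F.good (y j) b c
      · by_cases hpure : F.ell (y j) b = 1 ∧ F.ell (y j) c = 1
        · have hP : PureG F b c := pureG_of_good F hbM hcM hM hne hgood hlow hpure.1 hpure.2
          rw [if_pos hP, hfb, hfc]
          linarith [hT0 b c]
        · have h1 : tms F (y j) f f b c = T b c := by
            unfold tms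
            rw [if_pos ⟨hlow, hgood, hpure⟩, hfb, hfc]
            simp only [hT]; ring
          have h2 := Finset.single_le_sum (f := fun j => tms F (y j) f f b c)
            (fun j _ => hnp0 j b c) hjN
          rw [h1] at h2
          linarith
      · -- bad
        have hgL : 1 ≤ (Nat.gcd b c : ℝ) / L := by rw [le_div_iff₀ hL]; linarith
        -- dyadic scale
        set t := (Nat.gcd b c : ℝ) / L with ht
        have ht0 : 0 < t := by linarith
        obtain ⟨i, hi1, hi2⟩ := exists_nat_pow_near hgL (by norm_num : (1 : ℝ) < 2)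
        have htA : t ^ A ≤ (x : ℝ) := hdiff x hxp hxd
        have hiA : ((2 : ℝ) ^ i) ^ A ≤ (2 : ℝ) ^ 2 ^ (j + 1) := by
          calc ((2 : ℝ) ^ i) ^ A ≤ t ^ A := Real.rpow_le_rpow (by positivity) hi1 hA0.le
            _ ≤ (x : ℝ) := htA
            _ ≤ (2 : ℝ) ^ 2 ^ (j + 1) := by exact_mod_cast hX2.le
        have hiN : i ∈ range (2 ^ (j + 1) + 1) := by
          rw [Finset.mem_range]
          have h1 : (2 : ℝ) ^ i ≤ (2 : ℝ) ^ 2 ^ (j + 1) := by
            refine le_trans ?_ hiA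
            calc (2 : ℝ) ^ i = ((2 : ℝ) ^ i) ^ (1 : ℝ) := (Real.rpow_one _).symm
              _ ≤ _ := Real.rpow_le_rpow_of_exponent_le (one_le_pow₀ (by norm_num)) hA1
          have h2 : i ≤ 2 ^ (j + 1) := (pow_le_pow_iff_right₀ (by norm_num : (1 : ℝ) < 2)).1 h1
          omega
        have h1 : bd j i b c = T b c := by
          simp only [bd]
          rw [if_pos hiA, if_pos]
          refine ⟨?_, ?_, hgood⟩
          · rw [ht, le_div_iff₀ hL] at hi1
            exact hi1
          · rw [ht, div_lt_iff₀ hL, pow_succ] at hi2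
            linarith
        have h2 := Finset.single_le_sum (f := fun i => bd j i b c) (fun i _ => hbd0 j i b c) hiN
        have h3 := Finset.single_le_sum (f := fun j => ∑ i ∈ range (2 ^ (j + 1) + 1), bd j i b c)
          (fun j _ => Finset.sum_nonneg fun i _ => hbd0 j i b c) hjN
        rw [h1] at h2
        linarith
    · rw [if_neg hC]
      linarith
  -- sums
  have hpure : L * ∑ b ∈ B, ∑ c ∈ B, (if PureG F b c then T b c * (f b * f c) else 0) ≤ 4 * m := by
    have h1 := pureFL_energy' hM F f hf0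
    unfold frm at h1
    rw [hmass2] at h1
    have h2 : ∑ b ∈ B, ∑ c ∈ B, (if PureG F b c then T b c * (f b * f c) else 0) ≤
        ∑ b ∈ M.divisors, ∑ c ∈ M.divisors, (Nat.gcd b c : ℝ) * nu M b * nu M c *
          (if PureG F b c then f b * f c else 0) := by
      have e : ∀ b c, (if PureG F b c then T b c * (f b * f c) else 0) =
          (Nat.gcd b c : ℝ) * nu M b * nu M c * (if PureG F b c then f b * f c else 0) := by
        intro b c
        simp only [hT]
        split_ifs <;> simp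
      simp_rw [e]
      have hnn : ∀ b c, 0 ≤ (Nat.gcd b c : ℝ) * nu M b * nu M c *
          (if PureG F b c then f b * f c else 0) := fun b c => by
        refine mul_nonneg (hT0 b c) ?_
        split_ifs
        · exact mul_nonneg (hf0 _) (hf0 _)
        · exact le_rfl
      calc _ ≤ ∑ b ∈ B, ∑ c ∈ M.divisors, (Nat.gcd b c : ℝ) * nu M b * nu M c *
            (if PureG F b c then f b * f c else 0) :=
            Finset.sum_le_sum fun b _ => Finset.sum_le_sum_of_subset_of_nonneg hB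
              fun c _ _ => hnn b c
        _ ≤ _ := Finset.sum_le_sum_of_subset_of_nonneg hB fun b _ _ =>
            Finset.sum_nonneg fun c _ => hnn b c
    calc L * ∑ b ∈ B, ∑ c ∈ B, (if PureG F b c then T b c * (f b * f c) else 0)
        ≤ L * (4 * ∑ b ∈ B, nu M b) := mul_le_mul_of_nonneg_left (h2.trans h1) hL.le
      _ = 4 * m := by rw [hm]; ring
  have hnp : ∀ j, L * ∑ b ∈ B, ∑ c ∈ B, tms F (y j) f f b c ≤
      (8 * √(K / 2 ^ j) + 16 * (K / 2 ^ j)) * m := by
    intro j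
    have hK0 : 0 ≤ K / 2 ^ j := by positivity
    have h1 := nonpure_set_fl F hM (y j) hK0 (fun i hi => hrough M j i hi) f f hf0 hf0 hf1 hf1
    rw [hmass, Real.mul_self_sqrt hS0] at h1
    have h2 : ∑ b ∈ B, ∑ c ∈ B, tms F (y j) f f b c ≤
        ∑ b ∈ M.divisors, ∑ c ∈ M.divisors, tms F (y j) f f b c :=
      calc _ ≤ ∑ b ∈ B, ∑ c ∈ M.divisors, tms F (y j) f f b c :=
            Finset.sum_le_sum fun b _ => Finset.sum_le_sum_of_subset_of_nonneg hB
              fun c _ _ => hnp0 j b c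
        _ ≤ _ := Finset.sum_le_sum_of_subset_of_nonneg hB fun b _ _ =>
            Finset.sum_nonneg fun c _ => hnp0 j b c
    calc L * ∑ b ∈ B, ∑ c ∈ B, tms F (y j) f f b c
        ≤ L * ((8 * √(K / 2 ^ j) + 16 * (K / 2 ^ j)) * ∑ b ∈ B, nu M b) :=
          mul_le_mul_of_nonneg_left (h2.trans h1) hL.le
      _ = _ := by rw [hm]; ring
  have hbdj : ∀ j i, L * ∑ b ∈ B, ∑ c ∈ B, bd j i b c ≤
      C1 * Real.exp (-(β * 2 ^ j)) * m ^ (1 + η) := by
    intro j i
    have hmη : 0 ≤ m ^ (1 + η) := Real.rpow_nonneg hm0 _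
    by_cases hiA : ((2 : ℝ) ^ i) ^ A ≤ (2 : ℝ) ^ 2 ^ (j + 1)
    · have h1 := hF ((2 : ℝ) ^ i) (y j) (by positivity)
      have h2 : L * ∑ b ∈ B, ∑ c ∈ B, bd j i b c = badEn F B L ((2 : ℝ) ^ i) (y j) := by
        unfold badEn
        congr 1
        refine Finset.sum_congr rfl fun b _ => Finset.sum_congr rfl fun c _ => ?_
        simp only [bd]
        rw [if_pos hiA]
      rw [h2]
      refine h1.trans ?_
      refine mul_le_mul_of_nonneg_right ?_ hmη
      rw [mul_assoc]
      refine mul_le_mul_of_nonneg_left ?_ hC1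
      -- (2^i)^η (X)^(-c) ≤ exp(-β 2^j)
      have hX : ((y j : ℕ) : ℝ) + 1 = (2 : ℝ) ^ (2 ^ j) := by
        simp only [hy]
        have : 1 ≤ 2 ^ 2 ^ j := Nat.one_le_two_pow
        push_cast [Nat.cast_sub this]; ring
      rw [hX]
      have e1 : ((2 : ℝ) ^ i) ^ A = Real.exp (A * (i * Real.log 2)) := by
        rw [Real.rpow_def_of_pos (by positivity), Real.log_pow]; ring_nf
      have e2 : ((2 : ℝ) ^ i) ^ η = Real.exp (η * (i * Real.log 2)) := by
        rw [Real.rpow_def_of_pos (by positivity), Real.log_pow]; ring_nf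
      have e3 : ((2 : ℝ) ^ 2 ^ j) ^ (-c) = Real.exp (-(c * (2 ^ j * Real.log 2))) := by
        rw [Real.rpow_def_of_pos (by positivity), Real.log_pow]
        congr 1; push_cast; ring
      have e4 : (2 : ℝ) ^ 2 ^ (j + 1) = Real.exp (2 * (2 ^ j * Real.log 2)) := by
        rw [← Real.exp_log (show (0 : ℝ) < (2 : ℝ) ^ 2 ^ (j + 1) by positivity), Real.log_pow]
        congr 1; push_cast; ring
      rw [e2, e3, ← Real.exp_add]
      apply Real.exp_le_exp.2
      rw [e1, e4, Real.exp_le_exp] at hiA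
      have hl2 : 0 < Real.log 2 := Real.log_pos (by norm_num)
      have h3 : 4 * η ≤ A * c := by rwa [div_le_iff₀ hc] at hAc
      have hiL : 0 ≤ (i : ℝ) * Real.log 2 := by positivity
      -- η i log2 ≤ (A c / 4) i log 2 ≤ (c/2) 2^j log 2
      have h4 : η * (i * Real.log 2) ≤ c / 4 * (A * (i * Real.log 2)) := by nlinarith
      have h5 : c / 4 * (A * (i * Real.log 2)) ≤ c / 4 * (2 * (2 ^ j * Real.log 2)) :=
        mul_le_mul_of_nonneg_left hiA (by positivity)
      rw [hβ]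
      nlinarith
    · have h2 : ∑ b ∈ B, ∑ c ∈ B, bd j i b c = 0 := by
        refine Finset.sum_eq_zero fun b _ => Finset.sum_eq_zero fun c _ => ?_
        simp only [bd]
        rw [if_neg hiA]
      rw [h2, mul_zero]
      positivity
  have hbd : L * ∑ b ∈ B, ∑ c ∈ B, ∑ j ∈ range N, ∑ i ∈ range (2 ^ (j + 1) + 1), bd j i b c ≤
      C1 * (12 / β ^ 2) * m ^ (1 + η) := by
    have e : L * ∑ b ∈ B, ∑ c ∈ B, ∑ j ∈ range N, ∑ i ∈ range (2 ^ (j + 1) + 1), bd j i b c =
        ∑ j ∈ range N, ∑ i ∈ range (2 ^ (j + 1) + 1), L * ∑ b ∈ B, ∑ c ∈ B, bd j i b c := by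
      have e1 : ∀ b ∈ B, ∑ c ∈ B, ∑ j ∈ range N, ∑ i ∈ range (2 ^ (j + 1) + 1), bd j i b c =
          ∑ j ∈ range N, ∑ i ∈ range (2 ^ (j + 1) + 1), ∑ c ∈ B, bd j i b c := by
        intro b _
        rw [Finset.sum_comm]
        refine Finset.sum_congr rfl fun j _ => ?_
        rw [Finset.sum_comm]
      rw [Finset.sum_congr rfl e1, Finset.sum_comm, Finset.mul_sum]
      refine Finset.sum_congr rfl fun j _ => ?_
      rw [Finset.sum_comm, Finset.mul_sum]
    rw [e]
    have hmη : 0 ≤ m ^ (1 + η) := Real.rpow_nonneg hm0 _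
    calc ∑ j ∈ range N, ∑ i ∈ range (2 ^ (j + 1) + 1), L * ∑ b ∈ B, ∑ c ∈ B, bd j i b c
        ≤ ∑ j ∈ range N, ∑ i ∈ range (2 ^ (j + 1) + 1),
          C1 * Real.exp (-(β * 2 ^ j)) * m ^ (1 + η) :=
          Finset.sum_le_sum fun j _ => Finset.sum_le_sum fun i _ => hbdj j i
      _ = ∑ j ∈ range N, C1 * m ^ (1 + η) * ((2 * 2 ^ j + 1) * Real.exp (-(β * 2 ^ j))) := by
          refine Finset.sum_congr rfl fun j _ => ?_
          rw [Finset.sum_const, Finset.card_range, nsmul_eq_mul]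
          push_cast
          ring
      _ ≤ ∑ j ∈ range N, C1 * m ^ (1 + η) * (6 / β ^ 2 * (1 / 2 ^ j)) := by
          refine Finset.sum_le_sum fun j _ => ?_
          refine mul_le_mul_of_nonneg_left ?_ (mul_nonneg hC1 hmη)
          exact exp_bound hβ0 (one_le_pow₀ (by norm_num))
      _ = C1 * m ^ (1 + η) * (6 / β ^ 2 * ∑ j ∈ range N, (1 : ℝ) / 2 ^ j) := by
          rw [Finset.mul_sum, Finset.mul_sum]
      _ ≤ C1 * m ^ (1 + η) * (6 / β ^ 2 * 2) := by
          refine mul_le_mul_of_nonneg_left ?_ (mul_nonneg hC1 hmη)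
          exact mul_le_mul_of_nonneg_left (sum_half N) (by positivity)
      _ = _ := by ring
  have hnpS : L * ∑ b ∈ B, ∑ c ∈ B, ∑ j ∈ range N, tms F (y j) f f b c ≤
      (32 * √K + 32 * K) * m := by
    have e : L * ∑ b ∈ B, ∑ c ∈ B, ∑ j ∈ range N, tms F (y j) f f b c =
        ∑ j ∈ range N, L * ∑ b ∈ B, ∑ c ∈ B, tms F (y j) f f b c := by
      have e1 : ∀ b ∈ B, ∑ c ∈ B, ∑ j ∈ range N, tms F (y j) f f b c =
          ∑ j ∈ range N, ∑ c ∈ B, tms F (y j) f f b c := fun b _ => Finset.sum_comm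
      rw [Finset.sum_congr rfl e1, Finset.sum_comm, Finset.mul_sum]
    rw [e]
    calc ∑ j ∈ range N, L * ∑ b ∈ B, ∑ c ∈ B, tms F (y j) f f b c
        ≤ ∑ j ∈ range N, (8 * √(K / 2 ^ j) + 16 * (K / 2 ^ j)) * m :=
          Finset.sum_le_sum fun j _ => hnp j
      _ = (8 * √K * ∑ j ∈ range N, √((1 : ℝ) / 2 ^ j) + 16 * K * ∑ j ∈ range N, (1 : ℝ) / 2 ^ j) * m := by
          rw [← Finset.sum_mul, Finset.sum_add_distrib, Finset.mul_sum, Finset.mul_sum]
          congr 2
          · refine Finset.sum_congr rfl fun j _ => ?_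
            rw [div_eq_mul_one_div K, Real.sqrt_mul (by linarith)]
            ring
          · refine Finset.sum_congr rfl fun j _ => by ring
      _ ≤ (8 * √K * 4 + 16 * K * 2) * m := by
          refine mul_le_mul_of_nonneg_right ?_ hm0
          refine add_le_add ?_ ?_
          · exact mul_le_mul_of_nonneg_left (sum_sqrt_half N) (by positivity)
          · exact mul_le_mul_of_nonneg_left (sum_half N) (by positivity)
      _ = _ := by ring
  -- conclusion
  have htot : L * ∑ b ∈ B, ∑ c ∈ B, (if CPair A L b c then T b c else 0) ≤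
      L * ∑ b ∈ B, ∑ c ∈ B, (if PureG F b c then T b c * (f b * f c) else 0) +
      L * ∑ b ∈ B, ∑ c ∈ B, ∑ j ∈ range N, tms F (y j) f f b c +
      L * ∑ b ∈ B, ∑ c ∈ B, ∑ j ∈ range N, ∑ i ∈ range (2 ^ (j + 1) + 1), bd j i b c := by
    rw [← mul_add, ← mul_add]
    refine mul_le_mul_of_nonneg_left ?_ hL.le
    rw [← Finset.sum_add_distrib, ← Finset.sum_add_distrib]
    refine Finset.sum_le_sum fun b hb => ?_
    rw [← Finset.sum_add_distrib, ← Finset.sum_add_distrib]
    exact Finset.sum_le_sum fun c hc => hpw b hb c hc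
  have hmη : 0 ≤ m ^ (1 + η) := Real.rpow_nonneg hm0 _
  have hsK : 0 ≤ √K := Real.sqrt_nonneg _
  have hq : 0 ≤ C1 * (12 / β ^ 2) := by positivity
  calc L * ∑ b ∈ B, ∑ c ∈ B, (if CPair A L b c then T b c else 0)
      ≤ 4 * m + (32 * √K + 32 * K) * m + C1 * (12 / β ^ 2) * m ^ (1 + η) := by linarith
    _ ≤ _ := by nlinarith [mul_nonneg hq hm0, mul_nonneg hsK hmη, mul_nonneg (by linarith : 0 ≤ K) hmη]

end Crest.Agent.R4C.ThmCx52
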