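import Crest.Agent.R4C.ThmT_112

/-!
# Row 4: THEOREM (T) of note 2368, second part (helper112)

* `twoPt_four` : the one-prime inequality with the constant `4`, for every `0 < w < 1`.
* `prod_bound` : the product over the primes is bounded.
* `thmT_unif` : THEOREM (T) with an absolute constant, from the scalar inequality at small `w`.
* `relstar` : COROLLARY (REL*), words form.
-/

set_option autoImplicit false

open Finset

namespace Crest.Agent.R4C.ThmTx112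

open Prefixx935 ThmTDefx112

variable {κ r : ℝ}

set_option maxHeartbeats 800000 in
/-- the one-prime inequality holds with the constant `4` for all `0 < w < 1` -/
theorem twoPt_four {w : ℝ} (hκ : 0 < κ) (hκ1 : κ < 1) (hr : 2 / (1 - κ) ≤ r) (hw : 0 < w)
    (hw1 : w < 1) : TwoPt κ r w 4 := by
  intro F0 F1 G0 G1 K00 K10 K01 hF0 hF1 hG0 hG1 hK0 hK1 hK2
  have hv : 0 < 1 - w := by linarith
  have hv1 : 1 - w < 1 := by linarith
  have hk1 : 0 < 1 - κ := by linarith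
  have hr0 : 0 < r := lt_of_lt_of_le (by positivity) hr
  have hrr : 1 / r ≤ (1 - κ) / 2 := by
    rw [div_le_div_iff₀ hr0 two_pos]
    rw [div_le_iff₀ hk1] at hr
    linarith
  have hri : 0 < 1 / r := by positivity
  set ρ := (1 + κ) / 2 with hρ
  have hρ0 : 0 < ρ := by positivity
  set q := 2 / (1 + κ) with hq
  have hqρ : q * ρ = 1 := by rw [hq, hρ]; field_simp
  set L := (1 - w) ^ (-((1 - κ) / (1 + κ))) with hL
  have hL0 : 0 < L := Real.rpow_pos_of_pos hv _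
  -- general one variable estimate
  have key : ∀ a X Y e s : ℝ, 0 ≤ a → 0 ≤ X → 0 ≤ Y → e * s = 1 → 0 ≤ s → a * X ^ e ≤ Y →
      a ^ s * X ≤ Y ^ s := by
    intro a X Y e s ha hX hY hes hs haX
    have h1 : (a * X ^ e) ^ s ≤ Y ^ s :=
      Real.rpow_le_rpow (mul_nonneg ha (Real.rpow_nonneg hX _)) haX hs
    rwa [Real.mul_rpow ha (Real.rpow_nonneg hX _), ← Real.rpow_mul hX, hes, Real.rpow_one] at h1
  set NF := (1 - w) * F0 ^ q + w * L * F1 ^ q with hNF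
  set NG := (1 - w) * G0 ^ q + w * L * G1 ^ q with hNG
  set NK := (1 - w) ^ 2 * K00 ^ r + w * (1 - w) * (K10 ^ r + K01 ^ r) with hNK
  have p1 : 0 ≤ (1 - w) * F0 ^ q := mul_nonneg hv.le (Real.rpow_nonneg hF0 _)
  have p2 : 0 ≤ w * L * F1 ^ q := mul_nonneg (by positivity) (Real.rpow_nonneg hF1 _)
  have p3 : 0 ≤ (1 - w) * G0 ^ q := mul_nonneg hv.le (Real.rpow_nonneg hG0 _)
  have p4 : 0 ≤ w * L * G1 ^ q := mul_nonneg (by positivity) (Real.rpow_nonneg hG1 _)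
  have p5 : 0 ≤ (1 - w) ^ 2 * K00 ^ r := mul_nonneg (by positivity) (Real.rpow_nonneg hK0 _)
  have p6 : 0 ≤ K10 ^ r := Real.rpow_nonneg hK1 _
  have p7 : 0 ≤ K01 ^ r := Real.rpow_nonneg hK2 _
  have hwv : 0 < w * (1 - w) := by positivity
  have f0 : (1 - w) ^ ρ * F0 ≤ NF ^ ρ :=
    key _ _ _ q ρ hv.le hF0 (by positivity) hqρ hρ0.le (by linarith)
  have f1 : (w * L) ^ ρ * F1 ≤ NF ^ ρ :=
    key _ _ _ q ρ (by positivity) hF1 (by positivity) hqρ hρ0.le (by linarith)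
  have g0 : (1 - w) ^ ρ * G0 ≤ NG ^ ρ :=
    key _ _ _ q ρ hv.le hG0 (by positivity) hqρ hρ0.le (by linarith)
  have g1 : (w * L) ^ ρ * G1 ≤ NG ^ ρ :=
    key _ _ _ q ρ (by positivity) hG1 (by positivity) hqρ hρ0.le (by linarith)
  have hrs : r * (1 / r) = 1 := by field_simp
  have hNK0 : 0 ≤ NK := by positivity
  have k0 : ((1 - w) ^ 2) ^ (1 / r) * K00 ≤ NK ^ (1 / r) :=
    key _ _ _ r (1 / r) (by positivity) hK0 hNK0 hrs hri.le (by
      have : 0 ≤ w * (1 - w) * (K10 ^ r + K01 ^ r) := by positivity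
      linarith)
  have k1 : (w * (1 - w)) ^ (1 / r) * K10 ≤ NK ^ (1 / r) :=
    key _ _ _ r (1 / r) (by positivity) hK1 hNK0 hrs hri.le (by
      have : 0 ≤ w * (1 - w) * K01 ^ r := by positivity
      linarith)
  have k2 : (w * (1 - w)) ^ (1 / r) * K01 ≤ NK ^ (1 / r) :=
    key _ _ _ r (1 / r) (by positivity) hK2 hNK0 hrs hri.le (by
      have : 0 ≤ w * (1 - w) * K10 ^ r := by positivity
      linarith)
  have X0 : 0 ≤ NF ^ ρ := Real.rpow_nonneg (by positivity) _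
  have Y0 : 0 ≤ NG ^ ρ := Real.rpow_nonneg (by positivity) _
  have Z0 : 0 ≤ NK ^ (1 / r) := Real.rpow_nonneg hNK0 _
  have V0 : 0 < (1 - w) ^ ρ := Real.rpow_pos_of_pos hv _
  have V1 : 0 < (w * L) ^ ρ := Real.rpow_pos_of_pos (by positivity) _
  have V2 : 0 < ((1 - w) ^ 2) ^ (1 / r) := Real.rpow_pos_of_pos (by positivity) _
  have V3 : 0 < (w * (1 - w)) ^ (1 / r) := Real.rpow_pos_of_pos (by positivity) _
  -- the three prefactors
  have e2 : ((1 - w) ^ 2) ^ (1 / r) = (1 - w) ^ (2 * (1 / r)) := by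
    rw [show ((1 - w) ^ 2 : ℝ) = (1 - w) ^ (2 : ℝ) by norm_cast, ← Real.rpow_mul hv.le]
  have eL : L ^ ρ = (1 - w) ^ (-((1 - κ) / 2)) := by
    rw [hL, ← Real.rpow_mul hv.le]
    congr 1
    rw [hρ]
    field_simp
  have hA : (1 - w) ^ 2 ≤ (1 - w) ^ ρ * (1 - w) ^ ρ * ((1 - w) ^ 2) ^ (1 / r) := by
    rw [e2, ← Real.rpow_add hv, ← Real.rpow_add hv]
    calc (1 - w) ^ 2 = (1 - w) ^ (2 : ℝ) := by norm_cast
      _ ≤ _ := Real.rpow_le_rpow_of_exponent_ge hv hv1.le (by rw [hρ]; linarith)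
  have hB : w ^ (1 + κ) ≤ (w * L) ^ ρ * (w * L) ^ ρ * ((1 - w) ^ 2) ^ (1 / r) := by
    have : (w * L) ^ ρ * (w * L) ^ ρ * ((1 - w) ^ 2) ^ (1 / r)
        = w ^ (1 + κ) * (1 - w) ^ (-((1 - κ) / 2) + -((1 - κ) / 2) + 2 * (1 / r)) := by
      rw [Real.mul_rpow hw.le hL0.le, eL, e2, Real.rpow_add hv, Real.rpow_add hv,
        show (1 + κ) = ρ + ρ by rw [hρ]; ring, Real.rpow_add hw]
      ring
    rw [this]
    have h1 : 1 ≤ (1 - w) ^ (-((1 - κ) / 2) + -((1 - κ) / 2) + 2 * (1 / r)) :=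
      Real.one_le_rpow_of_pos_of_le_one_of_nonpos hv hv1.le (by linarith)
    have h2 : 0 < w ^ (1 + κ) := Real.rpow_pos_of_pos hw _
    exact le_mul_of_one_le_right h2.le h1
  have hC : w * (1 - w) ≤ (w * L) ^ ρ * (1 - w) ^ ρ * (w * (1 - w)) ^ (1 / r) := by
    have : (w * L) ^ ρ * (1 - w) ^ ρ * (w * (1 - w)) ^ (1 / r)
        = w ^ (ρ + 1 / r) * (1 - w) ^ (-((1 - κ) / 2) + ρ + 1 / r) := by
      rw [Real.mul_rpow hw.le hL0.le, Real.mul_rpow hw.le hv.le, eL, Real.rpow_add hw,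
        Real.rpow_add hv, Real.rpow_add hv]
      ring
    rw [this]
    have h1 : w ≤ w ^ (ρ + 1 / r) := by
      calc w = w ^ (1 : ℝ) := (Real.rpow_one _).symm
        _ ≤ _ := Real.rpow_le_rpow_of_exponent_ge hw hw1.le (by rw [hρ]; linarith)
    have h2 : 1 - w ≤ (1 - w) ^ (-((1 - κ) / 2) + ρ + 1 / r) := by
      calc 1 - w = (1 - w) ^ (1 : ℝ) := (Real.rpow_one _).symm
        _ ≤ _ := Real.rpow_le_rpow_of_exponent_ge hv hv1.le (by rw [hρ]; linarith)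
    exact mul_le_mul h1 h2 hv.le (Real.rpow_nonneg hw.le _)
  -- the four terms
  have T1 : (1 - w) ^ 2 * (F0 * G0 * K00) ≤ NF ^ ρ * NG ^ ρ * NK ^ (1 / r) := by
    calc (1 - w) ^ 2 * (F0 * G0 * K00)
        ≤ ((1 - w) ^ ρ * (1 - w) ^ ρ * ((1 - w) ^ 2) ^ (1 / r)) * (F0 * G0 * K00) :=
          mul_le_mul_of_nonneg_right hA (by positivity)
      _ = ((1 - w) ^ ρ * F0) * ((1 - w) ^ ρ * G0) * (((1 - w) ^ 2) ^ (1 / r) * K00) := by ring
      _ ≤ _ := mul_le_mul (mul_le_mul f0 g0 (by positivity) X0) k0 (by positivity)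
          (by positivity)
  have T2 : w ^ (1 + κ) * (F1 * G1 * K00) ≤ NF ^ ρ * NG ^ ρ * NK ^ (1 / r) := by
    calc w ^ (1 + κ) * (F1 * G1 * K00)
        ≤ ((w * L) ^ ρ * (w * L) ^ ρ * ((1 - w) ^ 2) ^ (1 / r)) * (F1 * G1 * K00) :=
          mul_le_mul_of_nonneg_right hB (by positivity)
      _ = ((w * L) ^ ρ * F1) * ((w * L) ^ ρ * G1) * (((1 - w) ^ 2) ^ (1 / r) * K00) := by ring
      _ ≤ _ := mul_le_mul (mul_le_mul f1 g1 (by positivity) X0) k0 (by positivity)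
          (by positivity)
  have T3 : w * (1 - w) * (F1 * G0 * K10) ≤ NF ^ ρ * NG ^ ρ * NK ^ (1 / r) := by
    calc w * (1 - w) * (F1 * G0 * K10)
        ≤ ((w * L) ^ ρ * (1 - w) ^ ρ * (w * (1 - w)) ^ (1 / r)) * (F1 * G0 * K10) :=
          mul_le_mul_of_nonneg_right hC (by positivity)
      _ = ((w * L) ^ ρ * F1) * ((1 - w) ^ ρ * G0) * ((w * (1 - w)) ^ (1 / r) * K10) := by ring
      _ ≤ _ := mul_le_mul (mul_le_mul f1 g0 (by positivity) X0) k1 (by positivity)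
          (by positivity)
  have T4 : w * (1 - w) * (F0 * G1 * K01) ≤ NF ^ ρ * NG ^ ρ * NK ^ (1 / r) := by
    calc w * (1 - w) * (F0 * G1 * K01)
        ≤ ((w * L) ^ ρ * (1 - w) ^ ρ * (w * (1 - w)) ^ (1 / r)) * (F0 * G1 * K01) :=
          mul_le_mul_of_nonneg_right hC (by positivity)
      _ = ((1 - w) ^ ρ * F0) * ((w * L) ^ ρ * G1) * ((w * (1 - w)) ^ (1 / r) * K01) := by ring
      _ ≤ _ := mul_le_mul (mul_le_mul f0 g1 (by positivity) X0) k2 (by positivity)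
          (by positivity)
  linarith

/-- the weights `1/p` (any value in `(0,1)` at `p = 0, 1`) -/
noncomputable def wv (p : ℕ) : ℝ := if 2 ≤ p then 1 / (p : ℝ) else 1 / 2

lemma wv_mem (p : ℕ) : 0 < wv p ∧ wv p < 1 := by
  unfold wv
  split_ifs with h
  · have : (2 : ℝ) ≤ p := by exact_mod_cast h
    constructor
    · positivity
    · rw [div_lt_one (by linarith)]
      linarith
  · norm_num

/-- the product over the primes of the one-prime constants is bounded -/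
theorem prod_bound (hκ : 0 < κ) {C0 w0 : ℝ} (hC0 : 0 ≤ C0) (hw0 : 0 < w0) :
    ∃ C : ℝ, 1 ≤ C ∧ ∀ P : Finset ℕ, (∀ p ∈ P, 2 ≤ p) →
      ∏ p ∈ P, (if wv p ≤ w0 then 1 + C0 * wv p ^ (1 + κ) else 4) ≤ C := by
  have hs : Summable (fun n : ℕ => ((n : ℝ) ^ (1 + κ))⁻¹) :=
    Real.summable_nat_rpow_inv.mpr (by linarith)
  set S := ∑' n : ℕ, ((n : ℝ) ^ (1 + κ))⁻¹ with hS
  set N := ⌈1 / w0⌉₊ with hN
  refine ⟨4 ^ N * Real.exp (C0 * S), ?_, ?_⟩
  · have h1 : (1 : ℝ) ≤ 4 ^ N := one_le_pow₀ (by norm_num)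
    have hS0 : 0 ≤ S := tsum_nonneg fun n => by positivity
    have h2 : 1 ≤ Real.exp (C0 * S) := Real.one_le_exp (by positivity)
    nlinarith
  intro P hP
  have hterm : ∀ p ∈ P, (if wv p ≤ w0 then 1 + C0 * wv p ^ (1 + κ) else 4)
      ≤ (if p < N then 4 else 1) * Real.exp (C0 * ((p : ℝ) ^ (1 + κ))⁻¹) := by
    intro p hp
    have h2 := hP p hp
    have h2' : (2 : ℝ) ≤ p := by exact_mod_cast h2
    have hwp : wv p = 1 / (p : ℝ) := by simp [wv, h2]
    have hexp : 1 ≤ Real.exp (C0 * ((p : ℝ) ^ (1 + κ))⁻¹) := Real.one_le_exp (by positivity)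
    split_ifs with h h' h'
    · have := Real.add_one_le_exp (C0 * ((p : ℝ) ^ (1 + κ))⁻¹)
      have e : wv p ^ (1 + κ) = ((p : ℝ) ^ (1 + κ))⁻¹ := by
        rw [hwp, one_div, Real.inv_rpow (by positivity)]
      rw [e]
      nlinarith
    · have := Real.add_one_le_exp (C0 * ((p : ℝ) ^ (1 + κ))⁻¹)
      have e : wv p ^ (1 + κ) = ((p : ℝ) ^ (1 + κ))⁻¹ := by
        rw [hwp, one_div, Real.inv_rpow (by positivity)]
      rw [e, one_mul]
      linarith
    · nlinarith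
    · exfalso
      apply h
      rw [hwp, div_le_iff₀ (by linarith)]
      have h3 : 1 / w0 ≤ (N : ℝ) := Nat.le_ceil _
      have h4 : (N : ℝ) ≤ p := by exact_mod_cast (not_lt.mp h')
      rw [div_le_iff₀ hw0] at h3
      nlinarith
  calc ∏ p ∈ P, (if wv p ≤ w0 then 1 + C0 * wv p ^ (1 + κ) else 4)
      ≤ ∏ p ∈ P, ((if p < N then (4 : ℝ) else 1) * Real.exp (C0 * ((p : ℝ) ^ (1 + κ))⁻¹)) := by
        refine prod_le_prod (fun p hp => ?_) hterm
        split_ifs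
        · have := Real.rpow_nonneg (wv_mem p).1.le (1 + κ)
          positivity
        · norm_num
    _ = (∏ p ∈ P, (if p < N then (4 : ℝ) else 1)) *
        Real.exp (∑ p ∈ P, C0 * ((p : ℝ) ^ (1 + κ))⁻¹) := by
        rw [prod_mul_distrib, Real.exp_sum]
    _ ≤ 4 ^ N * Real.exp (C0 * S) := by
        have h1 : (∏ p ∈ P, (if p < N then (4 : ℝ) else 1)) ≤ 4 ^ N := by
          rw [prod_ite, prod_const_one, mul_one, prod_const]
          refine pow_le_pow_right₀ (by norm_num) ?_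
          calc (P.filter (· < N)).card ≤ (range N).card :=
                card_le_card fun x hx => mem_range.mpr (mem_filter.mp hx).2
            _ = N := card_range N
        have h2 : ∑ p ∈ P, C0 * ((p : ℝ) ^ (1 + κ))⁻¹ ≤ C0 * S := by
          rw [← mul_sum]
          exact mul_le_mul_of_nonneg_left
            (hs.sum_le_tsum P fun i _ => by positivity) hC0
        exact mul_le_mul h1 (Real.exp_le_exp.mpr h2) (Real.exp_pos _).le (by positivity)

/-- THEOREM (T) with one absolute constant, from the scalar inequality for small `w` -/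
theorem thmT_unif (hκ : 0 < κ) (hκ1 : κ < 1) (hr : 2 / (1 - κ) ≤ r) {C0 w0 : ℝ} (hC0 : 0 ≤ C0)
    (hw0 : 0 < w0) (hT : ∀ w, 0 < w → w < 1 → w ≤ w0 → TwoPt κ r w (1 + C0 * w ^ (1 + κ))) :
    ∃ C : ℝ, 1 ≤ C ∧ ∀ P : Finset ℕ, (∀ p ∈ P, 2 ≤ p) →
      ∀ (f g : Finset ℕ → ℝ) (K : Finset ℕ → Finset ℕ → ℝ), (∀ b, 0 ≤ f b) → (∀ b, 0 ≤ g b) →
        (∀ s t, 0 ≤ K s t) →
        form κ wv P f g K ≤ C *
          ((nfq κ wv P f) ^ ((1 + κ) / 2) * (nfq κ wv P g) ^ ((1 + κ) / 2)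
            * (nKr r wv P K) ^ (1 / r)) := by
  obtain ⟨C, hC1, hC⟩ := prod_bound hκ hC0 hw0
  refine ⟨C, hC1, fun P hP f g K hf hg hK => ?_⟩
  have hk1 : 0 < 1 - κ := by linarith
  have hr0 : 0 < r := lt_of_lt_of_le (by positivity) hr
  have h := thmT (w := wv) (C := fun p => if wv p ≤ w0 then 1 + C0 * wv p ^ (1 + κ) else 4)
    hκ hr0 wv_mem P (fun p _ => by
      split_ifs
      · have := Real.rpow_nonneg (wv_mem p).1.le (1 + κ)
        positivity
      · norm_num) (fun p _ => by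
      split_ifs with h
      · exact hT _ (wv_mem p).1 (wv_mem p).2 h
      · exact twoPt_four hκ hκ1 hr (wv_mem p).1 (wv_mem p).2) f g K hf hg hK
  refine h.trans (mul_le_mul_of_nonneg_right (hC P hP) ?_)
  exact mul_nonneg (mul_nonneg (Real.rpow_nonneg (nfq_nonneg wv_mem P hf) _)
    (Real.rpow_nonneg (nfq_nonneg wv_mem P hg) _)) (Real.rpow_nonneg (nKr_nonneg wv_mem P hK) _)

/-- from the weight `gcd` to the weight `gcd^(1-κ)` -/
lemma gw_le (hκ : 0 < κ) {Y : ℝ} {b c : Finset ℕ} (h : gw wv b c ≤ Y) :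
    gw wv b c ≤ Y ^ κ * gk κ wv b c := by
  have h0 : 0 < gw wv b c := prod_pos fun p _ => inv_pos.mpr (wv_mem p).1
  have e : gw wv b c = gw wv b c ^ κ * gk κ wv b c := by
    unfold gw gk
    rw [← Real.finsetProd_rpow _ _ (fun p _ => (inv_pos.mpr (wv_mem p).1).le), ← prod_mul_distrib]
    refine prod_congr rfl fun p _ => ?_
    rw [Real.inv_rpow (wv_mem p).1.le, ← Real.rpow_neg (wv_mem p).1.le,
      ← Real.rpow_add (wv_mem p).1, show -κ + -(1 - κ) = -1 by ring, Real.rpow_neg_one]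
  have hg : 0 ≤ gk κ wv b c := prod_nonneg fun p _ => Real.rpow_nonneg (wv_mem p).1.le _
  calc gw wv b c = gw wv b c ^ κ * gk κ wv b c := e
    _ ≤ Y ^ κ * gk κ wv b c :=
      mul_le_mul_of_nonneg_right (Real.rpow_le_rpow h0.le h hκ.le) hg

/-- **COROLLARY (REL*)**, words form: all pairs with `gcd ≤ Y`, weight `gcd`, any kernel `K` of the
coprime cofactors -/
theorem relstar (hκ : 0 < κ) (hκ1 : κ < 1) (hr : 2 / (1 - κ) ≤ r) {C0 w0 : ℝ} (hC0 : 0 ≤ C0)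
    (hw0 : 0 < w0) (hT : ∀ w, 0 < w → w < 1 → w ≤ w0 → TwoPt κ r w (1 + C0 * w ^ (1 + κ))) :
    ∃ C : ℝ, 1 ≤ C ∧ ∀ P : Finset ℕ, (∀ p ∈ P, 2 ≤ p) →
      ∀ (f g : Finset ℕ → ℝ) (K : Finset ℕ → Finset ℕ → ℝ), (∀ b, 0 ≤ f b) → (∀ b, 0 ≤ g b) →
        (∀ s t, 0 ≤ K s t) → ∀ Y : ℝ, 0 ≤ Y →
        ∑ b ∈ P.powerset, ∑ c ∈ P.powerset, (if gw wv b c ≤ Y then
            nu wv P b * nu wv P c * gw wv b c * (f b * g c * K (b \ c) (c \ b)) else 0)
          ≤ C * Y ^ κ * ((nfq κ wv P f) ^ ((1 + κ) / 2) * (nfq κ wv P g) ^ ((1 + κ) / 2)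
            * (nKr r wv P K) ^ (1 / r)) := by
  obtain ⟨C, hC1, hC⟩ := thmT_unif hκ hκ1 hr hC0 hw0 hT
  refine ⟨C, hC1, fun P hP f g K hf hg hK Y hY => ?_⟩
  have h := hC P hP f g K hf hg hK
  calc _ ≤ ∑ b ∈ P.powerset, ∑ c ∈ P.powerset, Y ^ κ *
        (nu wv P b * nu wv P c * gk κ wv b c * (f b * g c * K (b \ c) (c \ b))) := by
        refine sum_le_sum fun b _ => sum_le_sum fun c _ => ?_
        have hn : 0 ≤ nu wv P b * nu wv P c * (f b * g c * K (b \ c) (c \ b)) :=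
          mul_nonneg (mul_nonneg (nu_nn wv_mem _ _) (nu_nn wv_mem _ _))
            (mul_nonneg (mul_nonneg (hf _) (hg _)) (hK _ _))
        have hgk : 0 ≤ gk κ wv b c := prod_nonneg fun p _ => Real.rpow_nonneg (wv_mem p).1.le _
        split_ifs with hb
        · have := mul_le_mul_of_nonneg_left (gw_le hκ hb) hn
          linarith
        · have := mul_nonneg (mul_nonneg (Real.rpow_nonneg hY κ) hgk) hn
          linarith
    _ = Y ^ κ * form κ wv P f g K := by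
        unfold form
        simp only [mul_sum]
    _ ≤ Y ^ κ * (C * ((nfq κ wv P f) ^ ((1 + κ) / 2) * (nfq κ wv P g) ^ ((1 + κ) / 2)
            * (nKr r wv P K) ^ (1 / r))) :=
        mul_le_mul_of_nonneg_left h (Real.rpow_nonneg hY κ)
    _ = _ := by ring

end Crest.Agent.R4C.ThmTx112
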