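import Mathlib

/-!
# Row 4: the scalar two-point inequality of THEOREM (T) (note 2368), definition only (helper112)
-/

set_option autoImplicit false

namespace Crest.Agent.R4C.ThmTDefx112

/-- **scalar two-point inequality** of note 2368 for one prime (`w = 1/p`), with constant `C`.
Exponents: `q = 2/(1+κ)`, `1/q = (1+κ)/2`, `q/q' = (1-κ)/(1+κ)`, `λ = (1-w)^(-(1-κ)/(1+κ))`. -/
def TwoPt (κ r w C : ℝ) : Prop :=
  ∀ F0 F1 G0 G1 K00 K10 K01 : ℝ, 0 ≤ F0 → 0 ≤ F1 → 0 ≤ G0 → 0 ≤ G1 →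
    0 ≤ K00 → 0 ≤ K10 → 0 ≤ K01 →
    (1 - w) ^ 2 * (F0 * G0 * K00) + w ^ (1 + κ) * (F1 * G1 * K00)
        + w * (1 - w) * (F1 * G0 * K10 + F0 * G1 * K01) ≤
      C * (((1 - w) * F0 ^ (2 / (1 + κ))
              + w * (1 - w) ^ (-((1 - κ) / (1 + κ))) * F1 ^ (2 / (1 + κ))) ^ ((1 + κ) / 2)
          * ((1 - w) * G0 ^ (2 / (1 + κ))
              + w * (1 - w) ^ (-((1 - κ) / (1 + κ))) * G1 ^ (2 / (1 + κ))) ^ ((1 + κ) / 2)
          * ((1 - w) ^ 2 * K00 ^ r + w * (1 - w) * (K10 ^ r + K01 ^ r)) ^ (1 / r))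

end Crest.Agent.R4C.ThmTDefx112
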