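import Mathlib
import Crest.Agent.R4C.ThmTDef_112

/-!
# Row 4: the scalar two-point inequality of THEOREM (T) (note 2368), for small `w` (helper104)

Main result `twoPt_small`: for `0 < κ < 1`, `r > 2/(1-κ)` there are `C, w0 > 0` such that
`TwoPt κ r w (1 + C * w^(1+κ))` for all `0 < w ≤ w0`.
-/

set_option autoImplicit false

namespace Crest.Agent.R4C.TwoPtx104

open Real Crest.Agent.R4C.ThmTDefx112

/-- `σ(a) = (1-a)^(1+κ) + a^(1+κ)`. -/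
noncomputable def sg (κ a : ℝ) : ℝ := (1 - a) ^ (1 + κ) + a ^ (1 + κ)

/-- the sum of the two diagonal terms -/
noncomputable def SS (κ a b : ℝ) : ℝ :=
  ((1 - a) * (1 - b)) ^ ((1 + κ) / 2) + (a * b) ^ ((1 + κ) / 2)

lemma sq_half {κ x : ℝ} (hx : 0 ≤ x) : (x ^ ((1 + κ) / 2)) ^ 2 = x ^ (1 + κ) := by
  rw [← Real.rpow_natCast, ← Real.rpow_mul hx]
  norm_num

lemma SS_le {κ a b : ℝ} (ha : 0 ≤ a) (ha1 : a ≤ 1) (hb : 0 ≤ b) (hb1 : b ≤ 1) :
    SS κ a b ≤ (sg κ a + sg κ b) / 2 := by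
  unfold SS sg
  have h1 : (1 - a) ^ ((1 + κ) / 2) * (1 - b) ^ ((1 + κ) / 2) ≤
      ((1 - a) ^ (1 + κ) + (1 - b) ^ (1 + κ)) / 2 := by
    rw [← sq_half (κ := κ) (sub_nonneg.2 ha1), ← sq_half (κ := κ) (sub_nonneg.2 hb1)]
    nlinarith [sq_nonneg ((1 - a) ^ ((1 + κ) / 2) - (1 - b) ^ ((1 + κ) / 2))]
  have h2 : a ^ ((1 + κ) / 2) * b ^ ((1 + κ) / 2) ≤
      (a ^ (1 + κ) + b ^ (1 + κ)) / 2 := by
    rw [← sq_half (κ := κ) ha, ← sq_half (κ := κ) hb]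
    nlinarith [sq_nonneg (a ^ ((1 + κ) / 2) - b ^ ((1 + κ) / 2))]
  rw [Real.mul_rpow (sub_nonneg.2 ha1) (sub_nonneg.2 hb1), Real.mul_rpow ha hb]
  linarith

lemma SS_nonneg {κ a b : ℝ} (ha : 0 ≤ a) (ha1 : a ≤ 1) (hb : 0 ≤ b) (hb1 : b ≤ 1) :
    0 ≤ SS κ a b := by
  unfold SS
  have := mul_nonneg (sub_nonneg.2 ha1) (sub_nonneg.2 hb1)
  have := mul_nonneg ha hb
  positivity

lemma SS_symm (κ a b : ℝ) : SS κ (1 - a) (1 - b) = SS κ a b := by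
  unfold SS
  have h1 : (1 - (1 - a)) * (1 - (1 - b)) = a * b := by ring
  rw [h1]; ring

lemma SS_comm (κ a b : ℝ) : SS κ a b = SS κ b a := by
  unfold SS
  rw [mul_comm (1 - a), mul_comm a]

/-- the refined bound near `0` -/
lemma sg_le_near {κ a : ℝ} (hκ : 0 < κ) (hκ1 : κ < 1) (ha : 0 ≤ a) (ha1 : a ≤ 1) :
    sg κ a ≤ 1 - (1 + κ) * a + 2 * a ^ (1 + κ) := by
  unfold sg
  have h1 : (1 - a) ^ (1 + κ) ≤ (1 - a) * (1 - κ * a) := by
    have e : (1 - a) ^ (1 + κ) = (1 - a) * (1 - a) ^ κ := by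
      rcases eq_or_lt_of_le ha1 with h | h
      · subst h
        simp [Real.zero_rpow (by linarith : (1 + κ) ≠ 0)]
      · rw [Real.rpow_add (by linarith), Real.rpow_one]
    rw [e]
    have h2 : (1 - a) ^ κ ≤ 1 - κ * a := by
      have := _root_.rpow_one_add_le_one_add_mul_self (s := -a) (by linarith) hκ.le hκ1.le
      have e1 : (1 + -a : ℝ) = 1 - a := by ring
      rw [e1] at this
      linarith
    exact mul_le_mul_of_nonneg_left h2 (by linarith)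
  have h3 : a * a ≤ a ^ (1 + κ) := by
    have : a ^ (2 : ℝ) ≤ a ^ (1 + κ) :=
      Real.rpow_le_rpow_of_exponent_ge' ha ha1 (by linarith) (by linarith)
    have e2 : a ^ (2 : ℝ) = a * a := by
      rw [Real.rpow_two]; ring
    rw [← e2]; exact this
  nlinarith [mul_nonneg ha ha]

/-- the slack constant -/
noncomputable def cc (κ : ℝ) : ℝ := 2 * (1 - 2 ^ (-κ))

lemma cc_pos {κ : ℝ} (hκ : 0 < κ) : 0 < cc κ := by
  unfold cc
  have : (2 : ℝ) ^ (-κ) < 1 := Real.rpow_lt_one_of_one_lt_of_neg (by norm_num) (by linarith)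
  linarith

lemma sg_half (κ : ℝ) : sg κ (1 / 2) = 2 ^ (-κ) := by
  unfold sg
  have h : (1 - 1 / 2 : ℝ) = 1 / 2 := by norm_num
  rw [h]
  have : (1 / 2 : ℝ) ^ (1 + κ) = 2 ^ (-1 - κ) := by
    rw [one_div, Real.inv_rpow (by norm_num), ← Real.rpow_neg (by norm_num)]
    congr 1; ring
  rw [this]
  have e : (2 : ℝ) ^ (-κ) = 2 ^ (1 + (-1 - κ)) := by congr 1; ring
  rw [e, Real.rpow_add (by norm_num), Real.rpow_one]
  ring

lemma sg_convex {κ : ℝ} (hκ : 0 < κ) : ConvexOn ℝ (Set.Icc (0 : ℝ) 1) (sg κ) := by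
  have h1 : ConvexOn ℝ (Set.Ici (0 : ℝ)) fun x : ℝ => x ^ (1 + κ) :=
    convexOn_rpow (by linarith)
  constructor
  · exact convex_Icc 0 1
  · intro x hx y hy s t hs ht hst
    have hA := h1.2 (show x ∈ Set.Ici (0 : ℝ) from hx.1) (show y ∈ Set.Ici (0 : ℝ) from hy.1)
      hs ht hst
    have hB := h1.2 (show (1 - x) ∈ Set.Ici (0 : ℝ) from sub_nonneg.2 hx.2)
      (show (1 - y) ∈ Set.Ici (0 : ℝ) from sub_nonneg.2 hy.2) hs ht hst
    simp only [smul_eq_mul] at hA hB ⊢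
    have e : s * (1 - x) + t * (1 - y) = 1 - (s * x + t * y) := by
      have : s * (1 - x) + t * (1 - y) = (s + t) - (s * x + t * y) := by ring
      rw [this, hst]
    rw [e] at hB
    unfold sg
    linarith

lemma sg_zero {κ : ℝ} (hκ : 0 < κ) : sg κ 0 = 1 := by
  unfold sg
  simp [Real.zero_rpow (by linarith : (1 + κ) ≠ 0)]

lemma sg_symm (κ a : ℝ) : sg κ (1 - a) = sg κ a := by
  unfold sg
  have : (1 - (1 - a)) = a := by ring
  rw [this]; ring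

/-- `σ(a) ≤ 1 - c a` for `a ≤ 1/2`. -/
lemma sg_le_far {κ a : ℝ} (hκ : 0 < κ) (ha : 0 ≤ a) (ha1 : a ≤ 1 / 2) :
    sg κ a ≤ 1 - cc κ * a := by
  have h := (sg_convex hκ).2 (show (0 : ℝ) ∈ Set.Icc (0 : ℝ) 1 by constructor <;> norm_num)
    (show (1 / 2 : ℝ) ∈ Set.Icc (0 : ℝ) 1 by constructor <;> norm_num)
    (show (0 : ℝ) ≤ 1 - 2 * a by linarith) (show (0 : ℝ) ≤ 2 * a by linarith) (by ring)
  simp only [smul_eq_mul] at h
  have e : (1 - 2 * a) * 0 + 2 * a * (1 / 2) = a := by ring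
  rw [e, sg_zero hκ, sg_half] at h
  unfold cc
  nlinarith

lemma sg_le_one {κ a : ℝ} (hκ : 0 < κ) (ha : 0 ≤ a) (ha1 : a ≤ 1) : sg κ a ≤ 1 := by
  rcases le_total a (1 / 2) with h | h
  · have := sg_le_far hκ ha h
    have := mul_nonneg (cc_pos hκ).le ha
    linarith
  · have h2 := sg_le_far hκ (a := 1 - a) (by linarith) (by linarith)
    rw [sg_symm] at h2
    have := mul_nonneg (cc_pos hκ).le (sub_nonneg.2 ha1)
    linarith

/-- the bracket of the two off-diagonal terms -/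
noncomputable def br (κ r a b k l : ℝ) : ℝ :=
  (a * (1 - b)) ^ ((1 + κ) / 2) * k ^ (1 / r) + ((1 - a) * b) ^ ((1 + κ) / 2) * l ^ (1 / r)

/-- the normalised left hand side -/
noncomputable def LL (κ r w a b k l : ℝ) : ℝ :=
  (1 - w) ^ (2 * ((1 - κ) / 2 - 1 / r)) * (1 - k - l) ^ (1 / r) * SS κ a b
    + w ^ ((1 - κ) / 2 - 1 / r) * br κ r a b k l

lemma LL_flip (κ r w a b k l : ℝ) : LL κ r w (1 - a) (1 - b) l k = LL κ r w a b k l := by
  unfold LL br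
  rw [SS_symm]
  have h1 : 1 - l - k = 1 - k - l := by ring
  have h2 : (1 - (1 - b)) = b := by ring
  have h3 : (1 - (1 - a)) = a := by ring
  rw [h1, h2, h3]
  ring

lemma LL_swap (κ r w a b k l : ℝ) : LL κ r w b a l k = LL κ r w a b k l := by
  unfold LL br
  rw [SS_comm]
  have h1 : 1 - l - k = 1 - k - l := by ring
  rw [h1, mul_comm b (1 - a), mul_comm (1 - b) a]
  ring

lemma rp_le_one {x e : ℝ} (hx : 0 ≤ x) (hx1 : x ≤ 1) (he : 0 ≤ e) : x ^ e ≤ 1 :=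
  Real.rpow_le_one hx hx1 he

lemma br_le_two {κ r a b k l : ℝ} (hκ : 0 < κ) (hr : 0 < r) (ha : 0 ≤ a) (ha1 : a ≤ 1)
    (hb : 0 ≤ b) (hb1 : b ≤ 1) (hk : 0 ≤ k) (hl : 0 ≤ l) (hkl : k + l ≤ 1) :
    br κ r a b k l ≤ 2 := by
  unfold br
  have e : 0 ≤ (1 + κ) / 2 := by linarith
  have hr' : 0 ≤ 1 / r := by positivity
  have h1 : (a * (1 - b)) ^ ((1 + κ) / 2) ≤ 1 :=
    rp_le_one (mul_nonneg ha (sub_nonneg.2 hb1)) (by nlinarith) e
  have h2 : ((1 - a) * b) ^ ((1 + κ) / 2) ≤ 1 :=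
    rp_le_one (mul_nonneg (sub_nonneg.2 ha1) hb) (by nlinarith) e
  have h3 : k ^ (1 / r) ≤ 1 := rp_le_one hk (by linarith) hr'
  have h4 : l ^ (1 / r) ≤ 1 := rp_le_one hl (by linarith) hr'
  have h5 : 0 ≤ k ^ (1 / r) := Real.rpow_nonneg hk _
  have h6 : 0 ≤ l ^ (1 / r) := Real.rpow_nonneg hl _
  nlinarith [mul_le_mul h1 h3 h5 zero_le_one, mul_le_mul h2 h4 h6 zero_le_one]

/-- one-sided bound of the bracket -/
lemma br_le {κ r a b k l : ℝ} (hκ : 0 < κ) (ha : 0 ≤ a) (ha1 : a ≤ 1)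
    (hb : 0 ≤ b) (hb1 : b ≤ 1) (hk : 0 ≤ k) (hl : 0 ≤ l) :
    br κ r a b k l ≤ a ^ ((1 + κ) / 2) * k ^ (1 / r) + b ^ ((1 + κ) / 2) * l ^ (1 / r) := by
  unfold br
  have e : 0 ≤ (1 + κ) / 2 := by linarith
  have h1 : (a * (1 - b)) ^ ((1 + κ) / 2) ≤ a ^ ((1 + κ) / 2) :=
    Real.rpow_le_rpow (mul_nonneg ha (sub_nonneg.2 hb1)) (by nlinarith) e
  have h2 : ((1 - a) * b) ^ ((1 + κ) / 2) ≤ b ^ ((1 + κ) / 2) :=
    Real.rpow_le_rpow (mul_nonneg (sub_nonneg.2 ha1) hb) (by nlinarith) e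
  exact add_le_add (mul_le_mul_of_nonneg_right h1 (Real.rpow_nonneg hk _))
    (mul_le_mul_of_nonneg_right h2 (Real.rpow_nonneg hl _))

lemma bern {x e : ℝ} (hx1 : x ≤ 1) (he : 0 ≤ e) (he1 : e ≤ 1) :
    (1 - x) ^ e ≤ 1 - e * x := by
  have := _root_.rpow_one_add_le_one_add_mul_self (s := -x) (by linarith) he he1
  have e1 : (1 + -x : ℝ) = 1 - x := by ring
  rw [e1] at this
  linarith

lemma young3 {κ r w a k : ℝ} (hκ : 0 < κ) (hr : 0 < r) (hθ : 0 < (1 - κ) / 2 - 1 / r)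
    (hw : 0 ≤ w) (ha : 0 ≤ a) (hk : 0 ≤ k) :
    w ^ ((1 - κ) / 2 - 1 / r) * (a ^ ((1 + κ) / 2) * k ^ (1 / r)) ≤
      ((1 - κ) / 2 - 1 / r) * w + (1 + κ) / 2 * a + 1 / r * k := by
  have h := Real.geom_mean_le_arith_mean3_weighted (w₁ := (1 - κ) / 2 - 1 / r)
    (w₂ := (1 + κ) / 2) (w₃ := 1 / r) (p₁ := w) (p₂ := a) (p₃ := k) hθ.le (by linarith)
    (by positivity) hw ha hk (by ring)
  rw [← mul_assoc]
  exact h

lemma caseA1 {κ r w a b k l T : ℝ} (hκ : 0 < κ) (hκ1 : κ < 1) (hr : 2 ≤ r)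
    (hθ : 0 < (1 - κ) / 2 - 1 / r) (hw : 0 < w) (hw1 : w ≤ 1 / 2) (hT : 1 ≤ T)
    (ha : 0 ≤ a) (ha1 : a ≤ 1) (haT : a ≤ T * w)
    (hb : 0 ≤ b) (hb1 : b ≤ 1) (hbT : b ≤ T * w)
    (hk : 0 ≤ k) (hkT : k ≤ T * w) (hl : 0 ≤ l) (hlT : l ≤ T * w) (hkl : k + l ≤ 1) :
    LL κ r w a b k l ≤ 1 + (2 * T ^ (1 + κ) + 3 * T + 2 * T * (1 + T)) * w ^ (1 + κ) := by
  have hr0 : 0 < r := by linarith
  have hr1 : 1 / r ≤ 1 / 2 := one_div_le_one_div_of_le (by norm_num) hr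
  have hr2 : 0 < 1 / r := by positivity
  set θ : ℝ := (1 - κ) / 2 - 1 / r with hθd
  set x : ℝ := 2 * θ * w with hx
  set y : ℝ := 1 / r * (k + l) with hy
  set e : ℝ := a ^ (1 + κ) + b ^ (1 + κ) with he
  set z : ℝ := (1 + κ) / 2 * (a + b) - e with hz
  have hX : (1 - w) ^ (2 * θ) ≤ 1 - x := bern (by linarith) (by linarith) (by rw [hθd]; linarith)
  have hY : (1 - k - l) ^ (1 / r) ≤ 1 - y := by
    have := bern (x := k + l) (e := 1 / r) hkl hr2.le (by linarith)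
    have e1 : 1 - (k + l) = 1 - k - l := by ring
    rw [e1] at this
    exact this
  have hS : SS κ a b ≤ 1 - z := by
    have h1 := SS_le (κ := κ) ha ha1 hb hb1
    have h2 := sg_le_near hκ hκ1 ha ha1
    have h3 := sg_le_near hκ hκ1 hb hb1
    have : (sg κ a + sg κ b) / 2 ≤ 1 - z := by rw [hz, he]; linarith
    linarith
  have hX0 : 0 ≤ (1 - w) ^ (2 * θ) := Real.rpow_nonneg (by linarith) _
  have hY0 : 0 ≤ (1 - k - l) ^ (1 / r) := Real.rpow_nonneg (by linarith) _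
  have hS0 := SS_nonneg (κ := κ) ha ha1 hb hb1
  have hXYS : (1 - w) ^ (2 * θ) * (1 - k - l) ^ (1 / r) * SS κ a b ≤ (1 - x) * (1 - y) * (1 - z) :=
    mul_le_mul (mul_le_mul hX hY hY0 (hX0.trans hX)) hS hS0
      (mul_nonneg (hX0.trans hX) (hY0.trans hY))
  have hB : w ^ θ * br κ r a b k l ≤ x + (1 + κ) / 2 * (a + b) + y := by
    have h1 := br_le (κ := κ) (r := r) hκ ha ha1 hb hb1 hk hl
    have h2 := young3 (κ := κ) (r := r) hκ hr0 hθ hw.le ha hk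
    have h3 := young3 (κ := κ) (r := r) hκ hr0 hθ hw.le hb hl
    have h4 : w ^ θ * br κ r a b k l ≤
        w ^ θ * (a ^ ((1 + κ) / 2) * k ^ (1 / r) + b ^ ((1 + κ) / 2) * l ^ (1 / r)) :=
      mul_le_mul_of_nonneg_left h1 (Real.rpow_nonneg hw.le _)
    rw [mul_add] at h4
    rw [hx, hy]
    rw [← hθd] at h2 h3
    linarith
  have hθ1 : θ ≤ 1 / 2 := by rw [hθd]; linarith
  have hx0 : 0 ≤ x := by rw [hx]; positivity
  have hx1 : x ≤ w := by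
    rw [hx]; nlinarith
  have hy0 : 0 ≤ y := by rw [hy]; positivity
  have hy1 : y ≤ T * w := by
    rw [hy]
    have : 1 / r * (k + l) ≤ 1 / 2 * (T * w + T * w) :=
      mul_le_mul hr1 (by linarith) (by linarith) (by norm_num)
    linarith
  have hTw : 0 ≤ T * w := by positivity
  have hea : a ^ (1 + κ) ≤ T ^ (1 + κ) * w ^ (1 + κ) := by
    rw [← Real.mul_rpow (by linarith) hw.le]
    exact Real.rpow_le_rpow ha haT (by linarith)
  have heb : b ^ (1 + κ) ≤ T ^ (1 + κ) * w ^ (1 + κ) := by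
    rw [← Real.mul_rpow (by linarith) hw.le]
    exact Real.rpow_le_rpow hb hbT (by linarith)
  have hea0 : 0 ≤ a ^ (1 + κ) := Real.rpow_nonneg ha _
  have heb0 : 0 ≤ b ^ (1 + κ) := Real.rpow_nonneg hb _
  have hea1 : a ^ (1 + κ) ≤ 1 := rp_le_one ha ha1 (by linarith)
  have heb1 : b ^ (1 + κ) ≤ 1 := rp_le_one hb hb1 (by linarith)
  have hz1 : z ≤ 2 * (T * w) := by
    rw [hz]
    have : (1 + κ) / 2 * (a + b) ≤ 1 * (T * w + T * w) :=
      mul_le_mul (by linarith) (by linarith) (by linarith) (by norm_num)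
    linarith
  have hz2 : -2 ≤ z := by
    rw [hz]
    have : 0 ≤ (1 + κ) / 2 * (a + b) := by positivity
    linarith
  have hxy : x * y ≤ w * (T * w) := mul_le_mul hx1 hy1 hy0 hw.le
  have hxy0 : 0 ≤ x * y := mul_nonneg hx0 hy0
  have h5 : (x + y) * z ≤ (w + T * w) * (2 * (T * w)) := by
    rcases le_total z 0 with h | h
    · have : (x + y) * z ≤ 0 := mul_nonpos_of_nonneg_of_nonpos (by linarith) h
      have : 0 ≤ (w + T * w) * (2 * (T * w)) := by positivity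
      linarith
    · exact mul_le_mul (by linarith) hz1 h (by positivity)
  have h6 : -(x * y * z) ≤ 2 * (w * (T * w)) := by
    have h61 : x * y * (-z) ≤ x * y * 2 := mul_le_mul_of_nonneg_left (by linarith) hxy0
    linarith
  have hww : w * w ≤ w ^ (1 + κ) := by
    have : w ^ (2 : ℝ) ≤ w ^ (1 + κ) :=
      Real.rpow_le_rpow_of_exponent_ge hw (by linarith) (by linarith)
    rw [Real.rpow_two, sq] at this
    exact this
  have hmain : LL κ r w a b k l ≤ 1 + e + 3 * (w * (T * w)) + (w + T * w) * (2 * (T * w)) := by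
    unfold LL
    have hexp : (1 - x) * (1 - y) * (1 - z) = 1 - x - y - z + x * y + (x + y) * z - x * y * z := by
      ring
    rw [hexp] at hXYS
    rw [← hθd]
    have : z = (1 + κ) / 2 * (a + b) - e := hz
    linarith
  have h7 : e ≤ 2 * T ^ (1 + κ) * w ^ (1 + κ) := by rw [he]; linarith
  have h8 : 3 * (w * (T * w)) ≤ 3 * T * w ^ (1 + κ) := by
    have : 3 * T * (w * w) ≤ 3 * T * w ^ (1 + κ) := mul_le_mul_of_nonneg_left hww (by positivity)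
    linarith
  have h9 : (w + T * w) * (2 * (T * w)) ≤ 2 * T * (1 + T) * w ^ (1 + κ) := by
    have : 2 * T * (1 + T) * (w * w) ≤ 2 * T * (1 + T) * w ^ (1 + κ) :=
      mul_le_mul_of_nonneg_left hww (by positivity)
    linarith
  linarith

lemma pow_bound {κ r w m T a k : ℝ} (hκ : 0 < κ) (hr : 2 ≤ r)
    (hθ : 0 < (1 - κ) / 2 - 1 / r) (hw : 0 < w) (hT : 1 ≤ T) (hm : T * w ≤ m)
    (ha : 0 ≤ a) (ham : a ≤ m) (hk : 0 ≤ k) (hkm : k ≤ m) :
    w ^ ((1 - κ) / 2 - 1 / r) * (a ^ ((1 + κ) / 2) * k ^ (1 / r)) ≤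
      T ^ (-((1 - κ) / 2 - 1 / r)) * m := by
  have hr0 : 0 < r := by linarith
  have hT0 : 0 < T := by linarith
  have hm0 : 0 < m := lt_of_lt_of_le (by positivity) hm
  set θ : ℝ := (1 - κ) / 2 - 1 / r with hθd
  have h1 : a ^ ((1 + κ) / 2) * k ^ (1 / r) ≤ m ^ ((1 + κ) / 2) * m ^ (1 / r) :=
    mul_le_mul (Real.rpow_le_rpow ha ham (by linarith))
      (Real.rpow_le_rpow hk hkm (by positivity)) (Real.rpow_nonneg hk _)
      (Real.rpow_nonneg hm0.le _)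
  have h2 : w ^ θ ≤ T ^ (-θ) * m ^ θ := by
    have : w ≤ T⁻¹ * m := by
      rw [inv_mul_eq_div, le_div_iff₀ hT0]; linarith
    calc w ^ θ ≤ (T⁻¹ * m) ^ θ := Real.rpow_le_rpow hw.le this hθ.le
      _ = T ^ (-θ) * m ^ θ := by
        rw [Real.mul_rpow (by positivity) hm0.le, Real.inv_rpow hT0.le, Real.rpow_neg hT0.le]
  have h3 : m ^ θ * (m ^ ((1 + κ) / 2) * m ^ (1 / r)) = m := by
    rw [← Real.rpow_add hm0, ← Real.rpow_add hm0]
    have : θ + ((1 + κ) / 2 + 1 / r) = 1 := by rw [hθd]; ring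
    rw [this, Real.rpow_one]
  calc w ^ θ * (a ^ ((1 + κ) / 2) * k ^ (1 / r))
      ≤ (T ^ (-θ) * m ^ θ) * (m ^ ((1 + κ) / 2) * m ^ (1 / r)) :=
        mul_le_mul h2 h1 (mul_nonneg (Real.rpow_nonneg ha _) (Real.rpow_nonneg hk _))
          (by positivity)
    _ = T ^ (-θ) * (m ^ θ * (m ^ ((1 + κ) / 2) * m ^ (1 / r))) := by ring
    _ = T ^ (-θ) * m := by rw [h3]

lemma caseA2 {κ r w a b k l T m c1 : ℝ} (hκ : 0 < κ) (hκ1 : κ < 1) (hr : 2 ≤ r)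
    (hθ : 0 < (1 - κ) / 2 - 1 / r) (hw : 0 < w) (hw1 : w ≤ 1 / 2) (hT : 1 ≤ T)
    (hTc : 2 * T ^ (-((1 - κ) / 2 - 1 / r)) ≤ c1) (hc1r : c1 ≤ 1 / r) (hc1c : c1 ≤ cc κ / 2)
    (ha : 0 ≤ a) (ha1 : a ≤ 1 / 2) (hb : 0 ≤ b) (hb1 : b ≤ 1 / 2)
    (hk : 0 ≤ k) (hl : 0 ≤ l) (hkl : k + l ≤ 1)
    (hm : T * w ≤ m) (ham : a ≤ m) (hbm : b ≤ m) (hkm : k ≤ m) (hlm : l ≤ m)
    (hmm : m = a ∨ m = b ∨ m = k ∨ m = l) :
    LL κ r w a b k l ≤ 1 := by
  have hr0 : 0 < r := by linarith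
  have hr2 : 0 < 1 / r := by positivity
  have hr1 : 1 / r ≤ 1 / 2 := one_div_le_one_div_of_le (by norm_num) hr
  have hc10 : 0 ≤ c1 := le_trans (by positivity) hTc
  set θ : ℝ := (1 - κ) / 2 - 1 / r with hθd
  set y : ℝ := 1 / r * (k + l) with hy
  set z : ℝ := cc κ / 2 * (a + b) with hz
  have hX : (1 - w) ^ (2 * θ) ≤ 1 := rp_le_one (by linarith) (by linarith) (by linarith)
  have hY : (1 - k - l) ^ (1 / r) ≤ 1 - y := by
    have := bern (x := k + l) (e := 1 / r) hkl hr2.le (by linarith)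
    have e1 : 1 - (k + l) = 1 - k - l := by ring
    rw [e1] at this
    exact this
  have hS : SS κ a b ≤ 1 - z := by
    have h1 := SS_le (κ := κ) ha (by linarith) hb (by linarith)
    have h2 := sg_le_far hκ ha ha1
    have h3 := sg_le_far hκ hb hb1
    have : (sg κ a + sg κ b) / 2 ≤ 1 - z := by rw [hz]; linarith
    linarith
  have hX0 : 0 ≤ (1 - w) ^ (2 * θ) := Real.rpow_nonneg (by linarith) _
  have hY0 : 0 ≤ (1 - k - l) ^ (1 / r) := Real.rpow_nonneg (by linarith) _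
  have hS0 := SS_nonneg (κ := κ) (a := a) (b := b) ha (by linarith) hb (by linarith)
  have hXYS : (1 - w) ^ (2 * θ) * (1 - k - l) ^ (1 / r) * SS κ a b ≤ 1 * (1 - y) * (1 - z) :=
    mul_le_mul (mul_le_mul hX hY hY0 zero_le_one) hS hS0
      (mul_nonneg zero_le_one (hY0.trans hY))
  have hy0 : 0 ≤ y := by rw [hy]; positivity
  have hz0 : 0 ≤ z := by rw [hz]; have := cc_pos hκ; positivity
  have hy1 : y ≤ 1 := by linarith [hY0.trans hY]
  have hz1 : z ≤ 1 := by linarith [hS0.trans hS]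
  have hcm : c1 * m ≤ max y z := by
    rcases hmm with h | h | h | h
    · refine le_trans ?_ (le_max_right y z)
      rw [hz, h]
      have h11 : c1 * a ≤ cc κ / 2 * a := mul_le_mul_of_nonneg_right hc1c ha
      have h12 : 0 ≤ cc κ / 2 * b := mul_nonneg (hc10.trans hc1c) hb
      linarith
    · refine le_trans ?_ (le_max_right y z)
      rw [hz, h]
      have h11 : c1 * b ≤ cc κ / 2 * b := mul_le_mul_of_nonneg_right hc1c hb
      have h12 : 0 ≤ cc κ / 2 * a := mul_nonneg (hc10.trans hc1c) ha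
      linarith
    · refine le_trans ?_ (le_max_left y z)
      rw [hy, h]
      have h11 : c1 * k ≤ 1 / r * k := mul_le_mul_of_nonneg_right hc1r hk
      have h12 : 0 ≤ 1 / r * l := mul_nonneg hr2.le hl
      linarith
    · refine le_trans ?_ (le_max_left y z)
      rw [hy, h]
      have h11 : c1 * l ≤ 1 / r * l := mul_le_mul_of_nonneg_right hc1r hl
      have h12 : 0 ≤ 1 / r * k := mul_nonneg hr2.le hk
      linarith
  have hprod : (1 - y) * (1 - z) ≤ 1 - c1 * m := by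
    rcases le_total y z with h | h
    · rw [max_eq_right h] at hcm
      have : (1 - y) * (1 - z) ≤ 1 * (1 - z) :=
        mul_le_mul_of_nonneg_right (by linarith) (by linarith)
      linarith
    · rw [max_eq_left h] at hcm
      have : (1 - y) * (1 - z) ≤ (1 - y) * 1 :=
        mul_le_mul_of_nonneg_left (by linarith) (by linarith)
      linarith
  have hB : w ^ θ * br κ r a b k l ≤ c1 * m := by
    have h1 := br_le (κ := κ) (r := r) hκ ha (by linarith) hb (by linarith) hk hl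
    have h2 := pow_bound (κ := κ) (r := r) hκ hr hθ hw hT hm ha ham hk hkm
    have h3 := pow_bound (κ := κ) (r := r) hκ hr hθ hw hT hm hb hbm hl hlm
    have h4 : w ^ θ * br κ r a b k l ≤
        w ^ θ * (a ^ ((1 + κ) / 2) * k ^ (1 / r) + b ^ ((1 + κ) / 2) * l ^ (1 / r)) :=
      mul_le_mul_of_nonneg_left h1 (Real.rpow_nonneg hw.le _)
    rw [mul_add] at h4
    rw [← hθd] at h2 h3
    have hm0 : 0 ≤ m := le_trans ha ham
    have h5 : 2 * T ^ (-θ) * m ≤ c1 * m := mul_le_mul_of_nonneg_right hTc hm0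
    linarith
  unfold LL
  rw [← hθd]
  linarith

lemma SS_quarter {κ a b : ℝ} (hκ : 0 < κ) (ha : 0 ≤ a) (ha1 : a ≤ 1 / 4)
    (hb : 3 / 4 ≤ b) (hb1 : b ≤ 1) : SS κ a b ≤ 1 - cc κ / 2 := by
  have e : 0 ≤ (1 + κ) / 2 := by linarith
  have hq : (1 / 4 : ℝ) ^ ((1 + κ) / 2) = (2 : ℝ) ^ (-(1 + κ)) := by
    have h4 : (1 / 4 : ℝ) = (2 : ℝ) ^ (-(2 : ℝ)) := by
      rw [Real.rpow_neg (by norm_num)]; norm_num
    rw [h4, ← Real.rpow_mul (by norm_num)]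
    congr 1; ring
  have h1 : ((1 - a) * (1 - b)) ^ ((1 + κ) / 2) ≤ (1 / 4 : ℝ) ^ ((1 + κ) / 2) :=
    Real.rpow_le_rpow (mul_nonneg (by linarith) (by linarith)) (by nlinarith) e
  have h2 : (a * b) ^ ((1 + κ) / 2) ≤ (1 / 4 : ℝ) ^ ((1 + κ) / 2) :=
    Real.rpow_le_rpow (mul_nonneg ha (by linarith)) (by nlinarith) e
  have h3 : 2 * (2 : ℝ) ^ (-(1 + κ)) = 2 ^ (-κ) := by
    have : (2 : ℝ) ^ (-κ) = 2 ^ (1 + -(1 + κ)) := by congr 1; ring
    rw [this, Real.rpow_add (by norm_num), Real.rpow_one]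
  unfold SS cc
  rw [hq] at h1 h2
  linarith

lemma caseC {κ r w a b k l : ℝ} (hκ : 0 < κ) (hr : 2 ≤ r)
    (hθ : 0 < (1 - κ) / 2 - 1 / r) (hw : 0 < w) (hw1 : w ≤ 1 / 2)
    (hwδ : w ^ ((1 - κ) / 2 - 1 / r) ≤ cc κ / 16)
    (ha : 0 ≤ a) (ha1 : a ≤ 1 / 2) (hb : 1 / 2 ≤ b) (hb1 : b ≤ 1)
    (hk : 0 ≤ k) (hl : 0 ≤ l) (hkl : k + l ≤ 1) :
    LL κ r w a b k l ≤ 1 := by
  have hr0 : 0 < r := by linarith
  have hc := cc_pos hκ
  have hS : SS κ a b ≤ 1 - cc κ / 8 := by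
    by_cases h1 : a ≤ 1 / 4
    · by_cases h2 : 3 / 4 ≤ b
      · have := SS_quarter hκ ha h1 h2 hb1
        linarith
      · push Not at h2
        have h3 := SS_le (κ := κ) (a := a) (b := b) ha (by linarith) (by linarith) hb1
        have h4 := sg_le_far hκ (a := 1 - b) (by linarith) (by linarith)
        rw [sg_symm] at h4
        have h5 := sg_le_one hκ ha (by linarith)
        have h6 : cc κ * (1 / 4) ≤ cc κ * (1 - b) := mul_le_mul_of_nonneg_left (by linarith) hc.le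
        linarith
    · push Not at h1
      have h3 := SS_le (κ := κ) (a := a) (b := b) ha (by linarith) (by linarith) hb1
      have h4 := sg_le_far hκ ha ha1
      have h5 := sg_le_one hκ (a := b) (by linarith) hb1
      have h6 : cc κ * (1 / 4) ≤ cc κ * a := mul_le_mul_of_nonneg_left h1.le hc.le
      linarith
  have hX : (1 - w) ^ (2 * ((1 - κ) / 2 - 1 / r)) ≤ 1 :=
    rp_le_one (by linarith) (by linarith) (by linarith)
  have hX0 : 0 ≤ (1 - w) ^ (2 * ((1 - κ) / 2 - 1 / r)) := Real.rpow_nonneg (by linarith) _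
  have hY : (1 - k - l) ^ (1 / r) ≤ 1 := rp_le_one (by linarith) (by linarith) (by positivity)
  have hY0 : 0 ≤ (1 - k - l) ^ (1 / r) := Real.rpow_nonneg (by linarith) _
  have hS0 := SS_nonneg (κ := κ) (a := a) (b := b) ha (by linarith) (by linarith) hb1
  have h1 : (1 - w) ^ (2 * ((1 - κ) / 2 - 1 / r)) * (1 - k - l) ^ (1 / r) * SS κ a b ≤
      1 * 1 * (1 - cc κ / 8) :=
    mul_le_mul (mul_le_mul hX hY hY0 zero_le_one) hS hS0 (by norm_num)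
  have hbr := br_le_two (κ := κ) (r := r) (a := a) (b := b) (k := k) (l := l) hκ hr0 ha
    (by linarith) (by linarith) hb1 hk hl hkl
  have h2 : w ^ ((1 - κ) / 2 - 1 / r) * br κ r a b k l ≤ cc κ / 16 * 2 := by
    have h0 : 0 ≤ w ^ ((1 - κ) / 2 - 1 / r) := Real.rpow_nonneg hw.le _
    calc w ^ ((1 - κ) / 2 - 1 / r) * br κ r a b k l
        ≤ w ^ ((1 - κ) / 2 - 1 / r) * 2 := mul_le_mul_of_nonneg_left hbr h0
      _ ≤ cc κ / 16 * 2 := mul_le_mul_of_nonneg_right hwδ (by norm_num)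
  unfold LL
  linarith

lemma caseA {κ r w a b k l T c1 : ℝ} (hκ : 0 < κ) (hκ1 : κ < 1) (hr : 2 ≤ r)
    (hθ : 0 < (1 - κ) / 2 - 1 / r) (hw : 0 < w) (hw1 : w ≤ 1 / 2) (hT : 1 ≤ T)
    (hTc : 2 * T ^ (-((1 - κ) / 2 - 1 / r)) ≤ c1) (hc1r : c1 ≤ 1 / r) (hc1c : c1 ≤ cc κ / 2)
    (ha : 0 ≤ a) (ha1 : a ≤ 1 / 2) (hb : 0 ≤ b) (hb1 : b ≤ 1 / 2)
    (hk : 0 ≤ k) (hl : 0 ≤ l) (hkl : k + l ≤ 1) :
    LL κ r w a b k l ≤ 1 + (2 * T ^ (1 + κ) + 3 * T + 2 * T * (1 + T)) * w ^ (1 + κ) := by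
  by_cases hbig : a ≤ T * w ∧ b ≤ T * w ∧ k ≤ T * w ∧ l ≤ T * w
  · exact caseA1 hκ hκ1 hr hθ hw hw1 hT ha (by linarith) hbig.1 hb (by linarith) hbig.2.1 hk
      hbig.2.2.1 hl hbig.2.2.2 hkl
  · have hpos : 0 ≤ (2 * T ^ (1 + κ) + 3 * T + 2 * T * (1 + T)) * w ^ (1 + κ) := by positivity
    suffices h : LL κ r w a b k l ≤ 1 by linarith
    set m : ℝ := max (max a b) (max k l) with hm
    have ham : a ≤ m := (le_max_left a b).trans (le_max_left _ _)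
    have hbm : b ≤ m := (le_max_right a b).trans (le_max_left _ _)
    have hkm : k ≤ m := (le_max_left k l).trans (le_max_right _ _)
    have hlm : l ≤ m := (le_max_right k l).trans (le_max_right _ _)
    have hmT : T * w ≤ m := by
      by_contra hcon
      push Not at hcon
      exact hbig ⟨ham.trans hcon.le, hbm.trans hcon.le, hkm.trans hcon.le, hlm.trans hcon.le⟩
    have hmm : m = a ∨ m = b ∨ m = k ∨ m = l := by
      rcases max_choice (max a b) (max k l) with h | h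
      · rcases max_choice a b with h' | h'
        · left; rw [hm, h, h']
        · right; left; rw [hm, h, h']
      · rcases max_choice k l with h' | h'
        · right; right; left; rw [hm, h, h']
        · right; right; right; rw [hm, h, h']
    exact caseA2 hκ hκ1 hr hθ hw hw1 hT hTc hc1r hc1c ha ha1 hb hb1 hk hl hkl hmT ham hbm hkm hlm
      hmm

/-- **normalised scalar inequality.** -/
theorem core {κ r : ℝ} (hκ : 0 < κ) (hκ1 : κ < 1) (hr : 2 / (1 - κ) < r) :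
    ∃ C w0 : ℝ, 0 < C ∧ 0 < w0 ∧ w0 ≤ 1 / 2 ∧ ∀ w : ℝ, 0 < w → w ≤ w0 → ∀ a b k l : ℝ,
      0 ≤ a → a ≤ 1 → 0 ≤ b → b ≤ 1 → 0 ≤ k → 0 ≤ l → k + l ≤ 1 →
        LL κ r w a b k l ≤ 1 + C * w ^ (1 + κ) := by
  have h1κ : 0 < 1 - κ := by linarith
  have hr2 : 2 ≤ r := by
    have : 2 ≤ 2 / (1 - κ) := by rw [le_div_iff₀ h1κ]; linarith
    linarith
  have hr0 : 0 < r := by linarith
  have hθ : 0 < (1 - κ) / 2 - 1 / r := by
    have : 1 / r < (1 - κ) / 2 := by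
      rw [div_lt_iff₀ h1κ] at hr
      rw [div_lt_iff₀ hr0]
      nlinarith
    linarith
  set θ : ℝ := (1 - κ) / 2 - 1 / r with hθd
  set c1 : ℝ := min (1 / r) (cc κ / 2) with hc1
  have hc := cc_pos hκ
  have hc10 : 0 < c1 := lt_min (by positivity) (by positivity)
  set T : ℝ := max 1 ((2 / c1) ^ (1 / θ)) with hT
  have hT1 : 1 ≤ T := le_max_left _ _
  have hT0 : 0 < T := by linarith
  have hTc : 2 * T ^ (-θ) ≤ c1 := by
    have h1 : 2 / c1 ≤ T ^ θ := by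
      have h2 : (2 / c1) ^ (1 / θ) ≤ T := le_max_right _ _
      have h3 : ((2 / c1) ^ (1 / θ)) ^ θ ≤ T ^ θ := Real.rpow_le_rpow (by positivity) h2 hθ.le
      rw [← Real.rpow_mul (by positivity), one_div_mul_cancel hθ.ne', Real.rpow_one] at h3
      exact h3
    rw [Real.rpow_neg hT0.le]
    have hTθ : 0 < T ^ θ := Real.rpow_pos_of_pos hT0 _
    rw [div_le_iff₀ hc10] at h1
    rw [← div_eq_mul_inv, div_le_iff₀ hTθ]
    linarith
  set w0 : ℝ := min (1 / 2) ((cc κ / 16) ^ (1 / θ)) with hw0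
  have hw00 : 0 < w0 := lt_min (by norm_num) (Real.rpow_pos_of_pos (by positivity) _)
  refine ⟨2 * T ^ (1 + κ) + 3 * T + 2 * T * (1 + T), w0, by positivity, hw00, min_le_left _ _, ?_⟩
  intro w hw hww a b k l ha ha1 hb hb1 hk hl hkl
  have hw1 : w ≤ 1 / 2 := hww.trans (min_le_left _ _)
  have hwδ : w ^ θ ≤ cc κ / 16 := by
    have h2 : w ≤ (cc κ / 16) ^ (1 / θ) := hww.trans (min_le_right _ _)
    have h3 : w ^ θ ≤ ((cc κ / 16) ^ (1 / θ)) ^ θ := Real.rpow_le_rpow hw.le h2 hθ.le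
    rw [← Real.rpow_mul (by positivity), one_div_mul_cancel hθ.ne', Real.rpow_one] at h3
    exact h3
  have hpos : 0 ≤ (2 * T ^ (1 + κ) + 3 * T + 2 * T * (1 + T)) * w ^ (1 + κ) := by positivity
  rcases le_total a (1 / 2) with h1 | h1
  · rcases le_total b (1 / 2) with h2 | h2
    · exact caseA hκ hκ1 hr2 hθ hw hw1 hT1 hTc (min_le_left _ _) (min_le_right _ _) ha h1 hb h2
        hk hl hkl
    · have := caseC hκ hr2 hθ hw hw1 hwδ ha h1 h2 hb1 hk hl hkl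
      linarith
  · rcases le_total b (1 / 2) with h2 | h2
    · have := caseC hκ hr2 hθ hw hw1 hwδ hb h2 h1 ha1 hl hk (by linarith)
      rw [LL_swap] at this
      linarith
    · have := caseA hκ hκ1 hr2 hθ hw hw1 hT1 hTc (min_le_left _ _) (min_le_right _ _)
        (a := 1 - a) (b := 1 - b) (k := l) (l := k) (by linarith) (by linarith) (by linarith)
        (by linarith) hl hk (by linarith)
      rw [LL_flip] at this
      exact this

lemma pow_q {κ f : ℝ} (hκ : 0 < κ) (hf : 0 ≤ f) : (f ^ (2 / (1 + κ))) ^ ((1 + κ) / 2) = f := by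
  rw [← Real.rpow_mul hf]
  have : 2 / (1 + κ) * ((1 + κ) / 2) = 1 := by
    have : (1 + κ) ≠ 0 := by linarith
    field_simp
  rw [this, Real.rpow_one]

lemma pow_q' {κ f : ℝ} (hκ : 0 < κ) (hf : 0 ≤ f) : (f ^ ((1 + κ) / 2)) ^ (2 / (1 + κ)) = f := by
  rw [← Real.rpow_mul hf]
  have : (1 + κ) / 2 * (2 / (1 + κ)) = 1 := by
    have : (1 + κ) ≠ 0 := by linarith
    field_simp
  rw [this, Real.rpow_one]

lemma pow_r {r x : ℝ} (hr : 0 < r) (hx : 0 ≤ x) : (x ^ r) ^ (1 / r) = x := by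
  rw [← Real.rpow_mul hx, mul_one_div_cancel hr.ne', Real.rpow_one]

lemma pow_r' {r x : ℝ} (hr : 0 < r) (hx : 0 ≤ x) : (x ^ (1 / r)) ^ r = x := by
  rw [← Real.rpow_mul hx, one_div_mul_cancel hr.ne', Real.rpow_one]

/-- exponent of `1-w` in the definition of `TwoPt` -/
lemma lam_pow {κ u : ℝ} (hκ : 0 < κ) (hu : 0 < u) :
    (u ^ (-((1 - κ) / (1 + κ)))) ^ ((1 + κ) / 2) = u ^ (-((1 - κ) / 2)) := by
  rw [← Real.rpow_mul hu.le]
  congr 1
  have : (1 + κ) ≠ 0 := by linarith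
  field_simp

/-- the inequality for normalised data. -/
lemma norm_ineq {κ r w D : ℝ} (hκ : 0 < κ) (hκ1 : κ < 1) (hr : 2 / (1 - κ) < r)
    (hw : 0 < w) (hw1 : w ≤ 1 / 2)
    (hD : ∀ a b k l : ℝ, 0 ≤ a → a ≤ 1 → 0 ≤ b → b ≤ 1 → 0 ≤ k → 0 ≤ l → k + l ≤ 1 →
        LL κ r w a b k l ≤ D)
    {f0 f1 g0 g1 x00 x10 x01 : ℝ} (hf0 : 0 ≤ f0) (hf1 : 0 ≤ f1) (hg0 : 0 ≤ g0) (hg1 : 0 ≤ g1)
    (hx00 : 0 ≤ x00) (hx10 : 0 ≤ x10) (hx01 : 0 ≤ x01)
    (hF : (1 - w) * f0 ^ (2 / (1 + κ))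
              + w * (1 - w) ^ (-((1 - κ) / (1 + κ))) * f1 ^ (2 / (1 + κ)) = 1)
    (hG : (1 - w) * g0 ^ (2 / (1 + κ))
              + w * (1 - w) ^ (-((1 - κ) / (1 + κ))) * g1 ^ (2 / (1 + κ)) = 1)
    (hK : (1 - w) ^ 2 * x00 ^ r + w * (1 - w) * (x10 ^ r + x01 ^ r) = 1) :
    (1 - w) ^ 2 * (f0 * g0 * x00) + w ^ (1 + κ) * (f1 * g1 * x00)
        + w * (1 - w) * (f1 * g0 * x10 + f0 * g1 * x01) ≤ D := by
  have h1κ : 0 < 1 - κ := by linarith
  have hr2 : 2 ≤ r := by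
    have : 2 ≤ 2 / (1 - κ) := by rw [le_div_iff₀ h1κ]; linarith
    linarith
  have hr0 : 0 < r := by linarith
  have hir : 1 / r < (1 - κ) / 2 := by
    rw [div_lt_iff₀ h1κ] at hr
    rw [div_lt_iff₀ hr0]
    nlinarith
  obtain ⟨u, hu⟩ : ∃ u : ℝ, u = 1 - w := ⟨_, rfl⟩
  have hu0 : 0 < u := by linarith
  have hu1 : u ≤ 1 := by linarith
  rw [← hu] at hF hG hK ⊢
  set q : ℝ := 2 / (1 + κ) with hq
  set ρ : ℝ := (1 + κ) / 2 with hρ
  set θ : ℝ := (1 - κ) / 2 - 1 / r with hθ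
  set lam : ℝ := u ^ (-((1 - κ) / (1 + κ))) with hlam
  have hlam0 : 0 < lam := Real.rpow_pos_of_pos hu0 _
  have hlamρ : lam ^ ρ = u ^ (-((1 - κ) / 2)) := lam_pow hκ hu0
  have hf0q : 0 ≤ f0 ^ q := Real.rpow_nonneg hf0 _
  have hf1q : 0 ≤ f1 ^ q := Real.rpow_nonneg hf1 _
  have hg0q : 0 ≤ g0 ^ q := Real.rpow_nonneg hg0 _
  have hg1q : 0 ≤ g1 ^ q := Real.rpow_nonneg hg1 _
  have hx00r : 0 ≤ x00 ^ r := Real.rpow_nonneg hx00 _
  have hx10r : 0 ≤ x10 ^ r := Real.rpow_nonneg hx10 _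
  have hx01r : 0 ≤ x01 ^ r := Real.rpow_nonneg hx01 _
  have hwu : 0 < w * u := by positivity
  have hk0 : 0 ≤ w * u * x10 ^ r := by positivity
  have hl0 : 0 ≤ w * u * x01 ^ r := by positivity
  have hx2 : 0 ≤ u ^ 2 * x00 ^ r := by positivity
  have hA0 : 0 ≤ u * f0 ^ q := by positivity
  have hA1 : 0 ≤ w * lam * f1 ^ q := by positivity
  have hB0 : 0 ≤ u * g0 ^ q := by positivity
  have hB1 : 0 ≤ w * lam * g1 ^ q := by positivity
  have hmain := hD (w * lam * f1 ^ q) (w * lam * g1 ^ q) (w * u * x10 ^ r) (w * u * x01 ^ r)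
    hA1 (by linarith) hB1 (by linarith) hk0 hl0 (by linarith)
  have ea : 1 - w * lam * f1 ^ q = u * f0 ^ q := by linarith
  have eb : 1 - w * lam * g1 ^ q = u * g0 ^ q := by linarith
  have ek : 1 - w * u * x10 ^ r - w * u * x01 ^ r = u ^ 2 * x00 ^ r := by linarith
  unfold LL SS br at hmain
  rw [ea, eb, ek, ← hu, ← hθ, ← hρ] at hmain
  -- compute the powers
  have p0f : (u * f0 ^ q) ^ ρ = u ^ ρ * f0 := by
    rw [Real.mul_rpow hu0.le hf0q, hq, hρ, pow_q hκ hf0]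
  have p0g : (u * g0 ^ q) ^ ρ = u ^ ρ * g0 := by
    rw [Real.mul_rpow hu0.le hg0q, hq, hρ, pow_q hκ hg0]
  have p1f : (w * lam * f1 ^ q) ^ ρ = w ^ ρ * u ^ (-((1 - κ) / 2)) * f1 := by
    rw [Real.mul_rpow (by positivity) hf1q, Real.mul_rpow hw.le hlam0.le, hlamρ, hq, hρ,
      pow_q hκ hf1]
  have p1g : (w * lam * g1 ^ q) ^ ρ = w ^ ρ * u ^ (-((1 - κ) / 2)) * g1 := by
    rw [Real.mul_rpow (by positivity) hg1q, Real.mul_rpow hw.le hlam0.le, hlamρ, hq, hρ,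
      pow_q hκ hg1]
  have pk0 : (u ^ 2 * x00 ^ r) ^ (1 / r) = u ^ (2 * (1 / r)) * x00 := by
    rw [Real.mul_rpow (by positivity) hx00r, pow_r hr0 hx00, ← Real.rpow_natCast u 2,
      ← Real.rpow_mul hu0.le]
    norm_num
  have pk1 : (w * u * x10 ^ r) ^ (1 / r) = w ^ (1 / r) * u ^ (1 / r) * x10 := by
    rw [Real.mul_rpow (by positivity) hx10r, pow_r hr0 hx10, Real.mul_rpow hw.le hu0.le]
  have pk2 : (w * u * x01 ^ r) ^ (1 / r) = w ^ (1 / r) * u ^ (1 / r) * x01 := by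
    rw [Real.mul_rpow (by positivity) hx01r, pow_r hr0 hx01, Real.mul_rpow hw.le hu0.le]
  rw [Real.mul_rpow hA0 hB0, Real.mul_rpow hA1 hB1, Real.mul_rpow hA1 hB0, Real.mul_rpow hA0 hB1,
    p0f, p0g, p1f, p1g, pk0, pk1, pk2] at hmain
  have E1 : u ^ (2 * θ) * u ^ (2 * (1 / r)) * (u ^ ρ * u ^ ρ) = u ^ 2 := by
    rw [← Real.rpow_add hu0, ← Real.rpow_add hu0, ← Real.rpow_add hu0, ← Real.rpow_natCast u 2]
    congr 1
    rw [hθ, hρ]; push_cast; ring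
  have E2 : u ^ (2 * θ) * u ^ (2 * (1 / r)) *
      ((w ^ ρ * u ^ (-((1 - κ) / 2))) * (w ^ ρ * u ^ (-((1 - κ) / 2)))) = w ^ (1 + κ) := by
    have e1 : w ^ ρ * w ^ ρ = w ^ (1 + κ) := by
      rw [← Real.rpow_add hw]; congr 1; rw [hρ]; ring
    have e2 : u ^ (2 * θ) * u ^ (2 * (1 / r)) * (u ^ (-((1 - κ) / 2)) * u ^ (-((1 - κ) / 2))) = 1 := by
      rw [← Real.rpow_add hu0, ← Real.rpow_add hu0, ← Real.rpow_add hu0]
      have : 2 * θ + 2 * (1 / r) + (-((1 - κ) / 2) + -((1 - κ) / 2)) = 0 := by rw [hθ]; ring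
      rw [this, Real.rpow_zero]
    calc u ^ (2 * θ) * u ^ (2 * (1 / r)) *
      ((w ^ ρ * u ^ (-((1 - κ) / 2))) * (w ^ ρ * u ^ (-((1 - κ) / 2))))
        = (w ^ ρ * w ^ ρ) * (u ^ (2 * θ) * u ^ (2 * (1 / r)) *
          (u ^ (-((1 - κ) / 2)) * u ^ (-((1 - κ) / 2)))) := by ring
      _ = w ^ (1 + κ) := by rw [e1, e2, mul_one]
  have E3 : w * u ≤ w ^ θ * ((w ^ ρ * u ^ (-((1 - κ) / 2))) * u ^ ρ) * (w ^ (1 / r) * u ^ (1 / r)) := by
    have e1 : w ^ θ * w ^ ρ * w ^ (1 / r) = w := by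
      rw [← Real.rpow_add hw, ← Real.rpow_add hw]
      have : θ + ρ + 1 / r = 1 := by rw [hθ, hρ]; ring
      rw [this, Real.rpow_one]
    have e2 : u ≤ u ^ (-((1 - κ) / 2)) * u ^ ρ * u ^ (1 / r) := by
      rw [← Real.rpow_add hu0, ← Real.rpow_add hu0]
      have h1 : u ^ (1 : ℝ) ≤ u ^ (-((1 - κ) / 2) + ρ + 1 / r) :=
        Real.rpow_le_rpow_of_exponent_ge hu0 hu1 (by rw [hρ]; linarith)
      rwa [Real.rpow_one] at h1
    calc w * u ≤ w * (u ^ (-((1 - κ) / 2)) * u ^ ρ * u ^ (1 / r)) :=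
          mul_le_mul_of_nonneg_left e2 hw.le
      _ = (w ^ θ * w ^ ρ * w ^ (1 / r)) * (u ^ (-((1 - κ) / 2)) * u ^ ρ * u ^ (1 / r)) := by
          rw [e1]
      _ = w ^ θ * ((w ^ ρ * u ^ (-((1 - κ) / 2))) * u ^ ρ) * (w ^ (1 / r) * u ^ (1 / r)) := by ring
  have hA : u ^ 2 * (f0 * g0 * x00) + w ^ (1 + κ) * (f1 * g1 * x00) =
      u ^ (2 * θ) * (u ^ (2 * (1 / r)) * x00) * (u ^ ρ * f0 * (u ^ ρ * g0) +
        w ^ ρ * u ^ (-((1 - κ) / 2)) * f1 * (w ^ ρ * u ^ (-((1 - κ) / 2)) * g1)) := by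
    rw [← E1, ← E2]; ring
  have hfg1 : 0 ≤ f1 * g0 * x10 := by positivity
  have hfg2 : 0 ≤ f0 * g1 * x01 := by positivity
  have hB : w * u * (f1 * g0 * x10 + f0 * g1 * x01) ≤
      w ^ θ * (w ^ ρ * u ^ (-((1 - κ) / 2)) * f1 * (u ^ ρ * g0) * (w ^ (1 / r) * u ^ (1 / r) * x10)
        + u ^ ρ * f0 * (w ^ ρ * u ^ (-((1 - κ) / 2)) * g1) * (w ^ (1 / r) * u ^ (1 / r) * x01)) := by
    calc w * u * (f1 * g0 * x10 + f0 * g1 * x01)
        ≤ (w ^ θ * ((w ^ ρ * u ^ (-((1 - κ) / 2))) * u ^ ρ) * (w ^ (1 / r) * u ^ (1 / r))) *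
          (f1 * g0 * x10 + f0 * g1 * x01) := mul_le_mul_of_nonneg_right E3 (by linarith)
      _ = _ := by ring
  linarith

/-- scaling one pair: `f0 = F0 / N^ρ`, `f1 = F1 / N^ρ` is normalised. -/
lemma scale_pair {κ u v F0 F1 : ℝ} (hκ : 0 < κ) (hF0 : 0 ≤ F0) (hF1 : 0 ≤ F1)
    (hN : 0 < u * F0 ^ (2 / (1 + κ)) + v * F1 ^ (2 / (1 + κ))) :
    u * (F0 / (u * F0 ^ (2 / (1 + κ)) + v * F1 ^ (2 / (1 + κ))) ^ ((1 + κ) / 2)) ^ (2 / (1 + κ))
      + v * (F1 / (u * F0 ^ (2 / (1 + κ)) + v * F1 ^ (2 / (1 + κ))) ^ ((1 + κ) / 2))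
        ^ (2 / (1 + κ)) = 1 := by
  set N : ℝ := u * F0 ^ (2 / (1 + κ)) + v * F1 ^ (2 / (1 + κ)) with hNd
  have hNp : 0 ≤ N ^ ((1 + κ) / 2) := Real.rpow_nonneg hN.le _
  rw [Real.div_rpow hF0 hNp, Real.div_rpow hF1 hNp, pow_q' hκ hN.le]
  have : u * (F0 ^ (2 / (1 + κ)) / N) + v * (F1 ^ (2 / (1 + κ)) / N) = N / N := by
    conv_rhs => rw [hNd]
    rw [← hNd]
    ring
  rw [this, div_self hN.ne']

lemma pair_zero {κ u v F0 F1 : ℝ} (hu : 0 < u) (hv : 0 < v)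
    (hF0 : 0 ≤ F0) (hF1 : 0 ≤ F1)
    (hN : u * F0 ^ (2 / (1 + κ)) + v * F1 ^ (2 / (1 + κ)) = 0) : F0 = 0 ∧ F1 = 0 := by
  have h0 : 0 ≤ F0 ^ (2 / (1 + κ)) := Real.rpow_nonneg hF0 _
  have h1 : 0 ≤ F1 ^ (2 / (1 + κ)) := Real.rpow_nonneg hF1 _
  have h2 : 0 ≤ u * F0 ^ (2 / (1 + κ)) := by positivity
  have h3 : 0 ≤ v * F1 ^ (2 / (1 + κ)) := by positivity
  have e0 : u * F0 ^ (2 / (1 + κ)) = 0 := by linarith
  have e1 : v * F1 ^ (2 / (1 + κ)) = 0 := by linarith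
  have f0 : F0 ^ (2 / (1 + κ)) = 0 := by
    rcases mul_eq_zero.1 e0 with h | h
    · linarith
    · exact h
  have f1 : F1 ^ (2 / (1 + κ)) = 0 := by
    rcases mul_eq_zero.1 e1 with h | h
    · linarith
    · exact h
  exact ⟨((Real.rpow_eq_zero_iff_of_nonneg hF0).1 f0).1, ((Real.rpow_eq_zero_iff_of_nonneg hF1).1 f1).1⟩

/-- **the scalar two-point inequality of THEOREM (T), note 2368, for small `w`.** -/
theorem twoPt_small {κ r : ℝ} (hκ : 0 < κ) (hκ1 : κ < 1) (hr : 2 / (1 - κ) < r) :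
    ∃ C w0 : ℝ, 0 < C ∧ 0 < w0 ∧ ∀ w : ℝ, 0 < w → w ≤ w0 →
      TwoPt κ r w (1 + C * w ^ (1 + κ)) := by
  obtain ⟨C, w0, hC, hw0, hw0h, hcore⟩ := core hκ hκ1 hr
  refine ⟨C, w0, hC, hw0, ?_⟩
  intro w hw hww F0 F1 G0 G1 K00 K10 K01 hF0 hF1 hG0 hG1 hK00 hK10 hK01
  have hr0 : 0 < r := by
    have : 0 < 2 / (1 - κ) := by
      have : 0 < 1 - κ := by linarith
      positivity
    linarith
  have hw1 : w ≤ 1 / 2 := hww.trans hw0h
  have hu0 : 0 < 1 - w := by linarith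
  set D : ℝ := 1 + C * w ^ (1 + κ) with hD
  have hD0 : 0 ≤ D := by positivity
  set v : ℝ := w * (1 - w) ^ (-((1 - κ) / (1 + κ))) with hv
  have hv0 : 0 < v := mul_pos hw (Real.rpow_pos_of_pos hu0 _)
  set NF : ℝ := (1 - w) * F0 ^ (2 / (1 + κ)) + v * F1 ^ (2 / (1 + κ)) with hNF
  set NG : ℝ := (1 - w) * G0 ^ (2 / (1 + κ)) + v * G1 ^ (2 / (1 + κ)) with hNG
  set NK : ℝ := (1 - w) ^ 2 * K00 ^ r + w * (1 - w) * (K10 ^ r + K01 ^ r) with hNK
  have h00 : 0 ≤ K00 ^ r := Real.rpow_nonneg hK00 _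
  have h10 : 0 ≤ K10 ^ r := Real.rpow_nonneg hK10 _
  have h01 : 0 ≤ K01 ^ r := Real.rpow_nonneg hK01 _
  have hF0q : 0 ≤ F0 ^ (2 / (1 + κ)) := Real.rpow_nonneg hF0 _
  have hF1q : 0 ≤ F1 ^ (2 / (1 + κ)) := Real.rpow_nonneg hF1 _
  have hG0q : 0 ≤ G0 ^ (2 / (1 + κ)) := Real.rpow_nonneg hG0 _
  have hG1q : 0 ≤ G1 ^ (2 / (1 + κ)) := Real.rpow_nonneg hG1 _
  have hNF0 : 0 ≤ NF := by rw [hNF]; positivity
  have hNG0 : 0 ≤ NG := by rw [hNG]; positivity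
  have hNK0 : 0 ≤ NK := by rw [hNK]; positivity
  have hR0 : 0 ≤ D * (NF ^ ((1 + κ) / 2) * NG ^ ((1 + κ) / 2) * NK ^ (1 / r)) := by positivity
  rcases hNF0.eq_or_lt with h | hNFp
  · obtain ⟨e0, e1⟩ := pair_zero hu0 hv0 hF0 hF1 h.symm
    have : (1 - w) ^ 2 * (F0 * G0 * K00) + w ^ (1 + κ) * (F1 * G1 * K00)
        + w * (1 - w) * (F1 * G0 * K10 + F0 * G1 * K01) = 0 := by rw [e0, e1]; ring
    rw [this]; exact hR0
  rcases hNG0.eq_or_lt with h | hNGp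
  · obtain ⟨e0, e1⟩ := pair_zero hu0 hv0 hG0 hG1 h.symm
    have : (1 - w) ^ 2 * (F0 * G0 * K00) + w ^ (1 + κ) * (F1 * G1 * K00)
        + w * (1 - w) * (F1 * G0 * K10 + F0 * G1 * K01) = 0 := by rw [e0, e1]; ring
    rw [this]; exact hR0
  rcases hNK0.eq_or_lt with h | hNKp
  · have a1 : 0 ≤ (1 - w) ^ 2 * K00 ^ r := by positivity
    have a2 : 0 ≤ w * (1 - w) * K10 ^ r := by positivity
    have a3 : 0 ≤ w * (1 - w) * K01 ^ r := by positivity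
    have b1 : (1 - w) ^ 2 * K00 ^ r = 0 := by rw [hNK] at h; linarith
    have b2 : w * (1 - w) * K10 ^ r = 0 := by rw [hNK] at h; linarith
    have b3 : w * (1 - w) * K01 ^ r = 0 := by rw [hNK] at h; linarith
    have c1 : K00 = 0 := by
      rcases mul_eq_zero.1 b1 with h' | h'
      · have : 0 < (1 - w) ^ 2 := by positivity
        linarith
      · exact ((Real.rpow_eq_zero_iff_of_nonneg hK00).1 h').1
    have hwu : 0 < w * (1 - w) := by positivity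
    have c2 : K10 = 0 := by
      rcases mul_eq_zero.1 b2 with h' | h'
      · linarith
      · exact ((Real.rpow_eq_zero_iff_of_nonneg hK10).1 h').1
    have c3 : K01 = 0 := by
      rcases mul_eq_zero.1 b3 with h' | h'
      · linarith
      · exact ((Real.rpow_eq_zero_iff_of_nonneg hK01).1 h').1
    have : (1 - w) ^ 2 * (F0 * G0 * K00) + w ^ (1 + κ) * (F1 * G1 * K00)
        + w * (1 - w) * (F1 * G0 * K10 + F0 * G1 * K01) = 0 := by rw [c1, c2, c3]; ring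
    rw [this]; exact hR0
  -- the main case
  set pF : ℝ := NF ^ ((1 + κ) / 2) with hpF
  set pG : ℝ := NG ^ ((1 + κ) / 2) with hpG
  set pK : ℝ := NK ^ (1 / r) with hpK
  have hpF0 : 0 < pF := Real.rpow_pos_of_pos hNFp _
  have hpG0 : 0 < pG := Real.rpow_pos_of_pos hNGp _
  have hpK0 : 0 < pK := Real.rpow_pos_of_pos hNKp _
  have sF := scale_pair (u := 1 - w) (v := v) hκ hF0 hF1 hNFp
  have sG := scale_pair (u := 1 - w) (v := v) hκ hG0 hG1 hNGp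
  rw [← hNF, ← hpF] at sF
  rw [← hNG, ← hpG] at sG
  have sK : (1 - w) ^ 2 * (K00 / pK) ^ r + w * (1 - w) * ((K10 / pK) ^ r + (K01 / pK) ^ r) = 1 := by
    rw [Real.div_rpow hK00 hpK0.le, Real.div_rpow hK10 hpK0.le, Real.div_rpow hK01 hpK0.le, hpK,
      pow_r' hr0 hNKp.le]
    have : (1 - w) ^ 2 * (K00 ^ r / NK) + w * (1 - w) * (K10 ^ r / NK + K01 ^ r / NK) = NK / NK := by
      conv_rhs => rw [hNK]
      rw [← hNK]
      ring
    rw [this, div_self hNKp.ne']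
  have hmain := norm_ineq hκ hκ1 hr hw hw1 (hcore w hw hww)
    (div_nonneg hF0 hpF0.le) (div_nonneg hF1 hpF0.le) (div_nonneg hG0 hpG0.le)
    (div_nonneg hG1 hpG0.le) (div_nonneg hK00 hpK0.le) (div_nonneg hK10 hpK0.le)
    (div_nonneg hK01 hpK0.le) sF sG sK
  have hP : 0 < pF * pG * pK := by positivity
  have e : (1 - w) ^ 2 * (F0 / pF * (G0 / pG) * (K00 / pK))
        + w ^ (1 + κ) * (F1 / pF * (G1 / pG) * (K00 / pK))
        + w * (1 - w) * (F1 / pF * (G0 / pG) * (K10 / pK) + F0 / pF * (G1 / pG) * (K01 / pK))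
      = ((1 - w) ^ 2 * (F0 * G0 * K00) + w ^ (1 + κ) * (F1 * G1 * K00)
        + w * (1 - w) * (F1 * G0 * K10 + F0 * G1 * K01)) / (pF * pG * pK) := by
    field_simp
  rw [e, div_le_iff₀ hP] at hmain
  exact hmain

end Crest.Agent.R4C.TwoPtx104
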