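import Crest.Agent.R4C.ThmNsc_104
import Crest.Agent.R4C.ThmTb_112
import Crest.Agent.R4C.TwoPt_104

/-!
# Row 4: THEOREM N of note 2552 (helper590): the sum over all nodes of the trie (helper104)

Words are finite sets `b ⊆ P`; primes are read from the largest to the smallest.
-/

set_option autoImplicit false

open Finset

namespace Crest.Agent.R4C.ThmNx104

open Prefixx935 ThmTDefx112 ThmTx112 ThmNscx104

/-- `D^ = ∑ ν(b) ∏_{p ∣ b} (1 + 2/p) f(b)` -/
noncomputable def Dh (w : ℕ → ℝ) (P : Finset ℕ) (f : Finset ℕ → ℝ) : ℝ :=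
  ∑ b ∈ P.powerset, nu w P b * (∏ p ∈ b, (1 + 2 * w p)) * f b

/-- `H(f,g) = ∑ ν ν' gcd^(1-η) f g` -/
noncomputable def HH (η : ℝ) (w : ℕ → ℝ) (P : Finset ℕ) (f g : Finset ℕ → ℝ) : ℝ :=
  form η w P f g (fun _ _ => 1)

/-- the first differing prime from the top -/
def tp (b c : Finset ℕ) : ℕ := (symmDiff b c).sup id

/-- gcd of the unread parts -/
noncomputable def gm (w : ℕ → ℝ) (b c : Finset ℕ) : ℝ :=
  ∏ p ∈ (b ∩ c).filter (· < tp b c), (w p)⁻¹

/-- `D^` of the node `(T,q)` (primes `> q` read, with reading `T`) -/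
noncomputable def Dn (w : ℕ → ℝ) (P : Finset ℕ) (f : Finset ℕ → ℝ) (q : ℕ) (T : Finset ℕ) : ℝ :=
  Dh w (P.filter (· ≤ q)) (fun u => f (T ∪ u))

/-- the node weight `W` -/
noncomputable def Wn (η : ℝ) (w : ℕ → ℝ) (P : Finset ℕ) (f : Finset ℕ → ℝ) (q : ℕ)
    (T : Finset ℕ) : ℝ :=
  Wt η (w q) (Dh w (P.filter (· < q)) (fun u => f (T ∪ u)))
    (Dh w (P.filter (· < q)) (fun u => f (insert q (T ∪ u))))

/-- one term of the sum of THEOREM N (a) -/
noncomputable def tm (η : ℝ) (w : ℕ → ℝ) (P : Finset ℕ) (f : Finset ℕ → ℝ)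
    (b c : Finset ℕ) : ℝ :=
  nu w P b * nu w P c * gw w b c * (f b * f c) *
    ((gm w b c * Dn w P f (tp b c) (b.filter (tp b c < ·))) ^ (-η)
      * Wn η w P f (tp b c) (b.filter (tp b c < ·)))

/-- the sum of THEOREM N (a) -/
noncomputable def SN (η : ℝ) (w : ℕ → ℝ) (P : Finset ℕ) (f : Finset ℕ → ℝ) : ℝ :=
  ∑ b ∈ P.powerset, ∑ c ∈ P.powerset, if b = c then 0 else tm η w P f b c

variable {η : ℝ} {w : ℕ → ℝ}

lemma Dh_insert {P : Finset ℕ} {p : ℕ} (hp : p ∉ P) (f : Finset ℕ → ℝ) :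
    Dh w (insert p P) f = (1 - w p) * Dh w P f
      + w p * (1 + 2 * w p) * Dh w P (fun b => f (insert p b)) := by
  unfold Dh
  rw [sum_powerset_insert hp, mul_sum, mul_sum]
  congr 1
  · refine sum_congr rfl fun b hb => ?_
    rw [nu_ins0 hp (mem_powerset.mp hb)]
    ring
  · refine sum_congr rfl fun b hb => ?_
    have hpb : p ∉ b := fun h => hp ((mem_powerset.mp hb) h)
    rw [nu_ins1 hp (mem_powerset.mp hb), prod_insert hpb]
    ring

lemma Dh_nonneg (h : ∀ p, 0 < w p ∧ w p < 1) (P : Finset ℕ) {f : Finset ℕ → ℝ}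
    (hf : ∀ b, 0 ≤ f b) : 0 ≤ Dh w P f :=
  sum_nonneg fun b _ => mul_nonneg (mul_nonneg (nu_nn h _ _)
    (prod_nonneg fun p _ => by linarith [(h p).1])) (hf b)

lemma HH_nonneg (h : ∀ p, 0 < w p ∧ w p < 1) (P : Finset ℕ) {f g : Finset ℕ → ℝ}
    (hf : ∀ b, 0 ≤ f b) (hg : ∀ b, 0 ≤ g b) : 0 ≤ HH η w P f g := by
  unfold HH form
  refine sum_nonneg fun b _ => sum_nonneg fun c _ => ?_
  have h1 : 0 ≤ gk η w b c := prod_nonneg fun p _ => Real.rpow_nonneg (h p).1.le _
  exact mul_nonneg (mul_nonneg (mul_nonneg (nu_nn h _ _) (nu_nn h _ _)) h1)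
    (mul_nonneg (mul_nonneg (hf _) (hg _)) zero_le_one)

lemma gk_symm (b c : Finset ℕ) : gk η w b c = gk η w c b := by
  unfold gk; rw [inter_comm]

lemma HH_symm (P : Finset ℕ) (f g : Finset ℕ → ℝ) : HH η w P f g = HH η w P g f := by
  unfold HH form
  rw [sum_comm]
  refine sum_congr rfl fun b _ => sum_congr rfl fun c _ => ?_
  rw [gk_symm c b]
  ring

lemma HH_insert {P : Finset ℕ} {p : ℕ} (hp : p ∉ P) (hw : 0 < w p) (f : Finset ℕ → ℝ) :
    HH η w (insert p P) f f =
      (1 - w p) ^ 2 * HH η w P f f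
      + 2 * w p * (1 - w p) * HH η w P (fun b => f (insert p b)) f
      + (w p) ^ (1 + η) * HH η w P (fun b => f (insert p b)) (fun b => f (insert p b)) := by
  have h := form_insert (κ := η) hp hw f f (fun _ _ => 1)
  have h2 := HH_symm (η := η) (w := w) P f (fun b => f (insert p b))
  unfold HH at *
  rw [h, h2]
  ring

/-- `gcd^(1-η)` is a nonnegative combination of `1[d ∣ b] 1[d ∣ c]` -/
lemma gk_expand (P : Finset ℕ) {b c : Finset ℕ} (hb : b ⊆ P) :
    gk η w b c = ∑ d ∈ P.powerset, (∏ p ∈ d, ((w p) ^ (-(1 - η)) - 1)) *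
      ((if d ⊆ b then 1 else 0) * (if d ⊆ c then 1 else 0)) := by
  have h1 : gk η w b c = ∑ d ∈ (b ∩ c).powerset, ∏ p ∈ d, ((w p) ^ (-(1 - η)) - 1) := by
    rw [← prod_one_add]
    unfold gk
    exact prod_congr rfl fun p _ => by ring
  rw [h1]
  have h2 : (b ∩ c).powerset = P.powerset.filter (fun d => d ⊆ b ∧ d ⊆ c) := by
    ext d
    simp only [mem_powerset, mem_filter, subset_inter_iff]
    exact ⟨fun h => ⟨h.1.trans hb, h⟩, fun h => h.2⟩
  rw [h2, sum_filter]
  refine sum_congr rfl fun d _ => ?_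
  by_cases h3 : d ⊆ b <;> by_cases h4 : d ⊆ c <;> simp [h3, h4]

lemma HH_repr (P : Finset ℕ) (f g : Finset ℕ → ℝ) :
    HH η w P f g = ∑ d ∈ P.powerset, (∏ p ∈ d, ((w p) ^ (-(1 - η)) - 1)) *
      ((∑ b ∈ P.powerset, if d ⊆ b then nu w P b * f b else 0) *
        (∑ c ∈ P.powerset, if d ⊆ c then nu w P c * g c else 0)) := by
  unfold HH form
  have h1 : ∀ b ∈ P.powerset, ∀ c ∈ P.powerset,
      nu w P b * nu w P c * gk η w b c * (f b * g c * 1) =
      ∑ d ∈ P.powerset, (∏ p ∈ d, ((w p) ^ (-(1 - η)) - 1)) *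
        ((if d ⊆ b then nu w P b * f b else 0) * (if d ⊆ c then nu w P c * g c else 0)) := by
    intro b hb c _
    rw [gk_expand P (mem_powerset.mp hb), mul_sum, sum_mul]
    refine sum_congr rfl fun d _ => ?_
    split_ifs <;> ring
  rw [sum_congr rfl fun b hb => sum_congr rfl fun c hc => h1 b hb c hc]
  rw [sum_congr rfl fun b _ => sum_comm, sum_comm]
  refine sum_congr rfl fun d _ => ?_
  rw [sum_mul_sum, mul_sum]
  refine sum_congr rfl fun b _ => ?_
  rw [mul_sum]

/-- (H1) positive definiteness -/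
lemma HH_sq (hη1 : η < 1) (h : ∀ p, 0 < w p ∧ w p < 1) (P : Finset ℕ)
    (f g : Finset ℕ → ℝ) :
    HH η w P f g ^ 2 ≤ HH η w P f f * HH η w P g g := by
  rw [HH_repr P f g, HH_repr P f f, HH_repr P g g]
  set J : Finset ℕ → ℝ := fun d => ∏ p ∈ d, ((w p) ^ (-(1 - η)) - 1) with hJ
  have hJ0 : ∀ d, 0 ≤ J d := by
    intro d
    refine prod_nonneg fun p _ => ?_
    have : 1 ≤ (w p) ^ (-(1 - η)) :=
      Real.one_le_rpow_of_pos_of_le_one_of_nonpos (h p).1 (h p).2.le (by linarith)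
    linarith
  set F : Finset ℕ → ℝ := fun d => ∑ b ∈ P.powerset, if d ⊆ b then nu w P b * f b else 0 with hF
  set G : Finset ℕ → ℝ := fun d => ∑ b ∈ P.powerset, if d ⊆ b then nu w P b * g b else 0 with hG
  have hcs := sum_mul_sq_le_sq_mul_sq P.powerset (fun d => Real.sqrt (J d) * F d)
    (fun d => Real.sqrt (J d) * G d)
  have e1 : ∀ d, Real.sqrt (J d) * F d * (Real.sqrt (J d) * G d) = J d * (F d * G d) := by
    intro d
    have := Real.mul_self_sqrt (hJ0 d)
    calc _ = (Real.sqrt (J d) * Real.sqrt (J d)) * (F d * G d) := by ring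
      _ = _ := by rw [this]
  have e2 : ∀ d, (Real.sqrt (J d) * F d) ^ 2 = J d * (F d * F d) := by
    intro d
    have := Real.sq_sqrt (hJ0 d)
    calc _ = (Real.sqrt (J d)) ^ 2 * (F d * F d) := by ring
      _ = _ := by rw [this]
  have e3 : ∀ d, (Real.sqrt (J d) * G d) ^ 2 = J d * (G d * G d) := by
    intro d
    have := Real.sq_sqrt (hJ0 d)
    calc _ = (Real.sqrt (J d)) ^ 2 * (G d * G d) := by ring
      _ = _ := by rw [this]
  simp only [e1, e2, e3] at hcs
  exact hcs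

/-- `‖f‖^q ≤ D^` for indicators -/
lemma nfq_le (hη0 : 0 < η) (hη1 : η < 1) (h : ∀ p, 0 < w p ∧ w p ≤ 1 / 2) (P : Finset ℕ)
    {f : Finset ℕ → ℝ} (hf : ∀ b, f b = 0 ∨ f b = 1) : nfq η w P f ≤ Dh w P f := by
  have h' : ∀ p, 0 < w p ∧ w p < 1 := fun p => ⟨(h p).1, by linarith [(h p).2]⟩
  unfold nfq Dh
  refine sum_le_sum fun b _ => ?_
  have hfq : f b ^ (2 / (1 + η)) = f b := by
    rcases hf b with h0 | h1
    · rw [h0]; exact Real.zero_rpow (by positivity)
    · rw [h1]; exact Real.one_rpow _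
  have hf0 : 0 ≤ f b := by rcases hf b with h0 | h0 <;> simp [h0]
  rw [hfq]
  refine mul_le_mul_of_nonneg_right (mul_le_mul_of_nonneg_left ?_ (nu_nn h' _ _)) hf0
  unfold lam
  refine prod_le_prod (fun p _ => Real.rpow_nonneg (by linarith [(h p).2]) _) fun p _ => ?_
  have hp1 := (h p).1
  have hp2 := (h p).2
  have hu : 0 < 1 - w p := by linarith
  have h1 : (1 - w p) ^ (-((1 - η) / (1 + η))) ≤ (1 - w p) ^ (-(1 : ℝ)) := by
    refine Real.rpow_le_rpow_of_exponent_ge hu (by linarith) ?_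
    rw [neg_le_neg_iff, div_le_one (by linarith)]
    linarith
  refine h1.trans ?_
  rw [Real.rpow_neg_one, inv_le_iff_one_le_mul₀ hu]
  nlinarith

lemma sum_nu2 {r : ℝ} (P : Finset ℕ) :
    nKr r w P (fun _ _ => (1 : ℝ)) = 1 := by
  unfold nKr
  simp only [Real.one_rpow, mul_one]
  have : ∀ s ∈ P.powerset, ∑ t ∈ P.powerset, nu w P s * nu w P t = nu w P s := by
    intro s _
    rw [← mul_sum, sum_nu, mul_one]
  rw [sum_congr rfl this, sum_nu]

lemma wv_half {p : ℕ} : wv p ≤ 1 / 2 := by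
  unfold wv
  split_ifs with h
  · have : (2 : ℝ) ≤ p := by exact_mod_cast h
    exact one_div_le_one_div_of_le (by norm_num) this
  · exact le_rfl

/-- (H2) for indicators and an arbitrary kernel, with `D^` -/
theorem form_le (hη : 0 < η) (hη1 : η < 1) {r : ℝ} (hr : 2 / (1 - η) < r) :
    ∃ KH : ℝ, 1 ≤ KH ∧ ∀ P : Finset ℕ, (∀ p ∈ P, 2 ≤ p) →
      ∀ (f g : Finset ℕ → ℝ) (K : Finset ℕ → Finset ℕ → ℝ), (∀ b, f b = 0 ∨ f b = 1) →
        (∀ b, g b = 0 ∨ g b = 1) → (∀ s t, 0 ≤ K s t) →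
        form η wv P f g K ≤ KH * ((Dh wv P f * Dh wv P g) ^ ((1 + η) / 2)
          * (nKr r wv P K) ^ (1 / r)) := by
  obtain ⟨C0, w0, hC0, hw0, hT⟩ := TwoPtx104.twoPt_small (κ := η) (r := r) hη hη1 hr
  obtain ⟨C, hC1, hC⟩ := thmT_unif (κ := η) (r := r) hη hη1 hr.le hC0.le hw0
    (fun w h0 _ h2 => hT w h0 h2)
  refine ⟨C, hC1, fun P hP f g K hf hg hK => ?_⟩
  have hf0 : ∀ b, 0 ≤ f b := fun b => by rcases hf b with h | h <;> simp [h]
  have hg0 : ∀ b, 0 ≤ g b := fun b => by rcases hg b with h | h <;> simp [h]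
  have h := hC P hP f g K hf0 hg0 hK
  have hwh : ∀ p, 0 < wv p ∧ wv p ≤ 1 / 2 := fun p => ⟨(wv_mem p).1, wv_half⟩
  have h1 := nfq_le hη hη1 hwh P hf
  have h2 := nfq_le hη hη1 hwh P hg
  have n1 := nfq_nonneg (κ := η) wv_mem P hf0
  have n2 := nfq_nonneg (κ := η) wv_mem P hg0
  refine h.trans (mul_le_mul_of_nonneg_left ?_ (by linarith))
  refine mul_le_mul_of_nonneg_right ?_ (Real.rpow_nonneg (nKr_nonneg wv_mem P hK) _)
  rw [Real.mul_rpow (n1.trans h1) (n2.trans h2)]
  exact mul_le_mul (Real.rpow_le_rpow n1 h1 (by linarith)) (Real.rpow_le_rpow n2 h2 (by linarith))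
    (Real.rpow_nonneg n2 _) (Real.rpow_nonneg (n1.trans h1) _)

theorem HH_le (hη : 0 < η) (hη1 : η < 1) :
    ∃ KH : ℝ, 1 ≤ KH ∧ ∀ P : Finset ℕ, (∀ p ∈ P, 2 ≤ p) →
      ∀ (f g : Finset ℕ → ℝ), (∀ b, f b = 0 ∨ f b = 1) → (∀ b, g b = 0 ∨ g b = 1) →
        HH η wv P f g ≤ KH * (Dh wv P f * Dh wv P g) ^ ((1 + η) / 2) := by
  obtain ⟨KH, h1, h2⟩ := form_le (r := 2 / (1 - η) + 1) hη hη1 (by linarith)
  refine ⟨KH, h1, fun P hP f g hf hg => ?_⟩
  have h := h2 P hP f g (fun _ _ => 1) hf hg (fun _ _ => zero_le_one)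
  rw [sum_nu2, Real.one_rpow, mul_one] at h
  exact h

/-! ### the recursion of `SN` -/

lemma tp_mem {b c : Finset ℕ} (h : b ≠ c) : tp b c ∈ symmDiff b c := by
  have hne : (symmDiff b c).Nonempty := by
    rw [nonempty_iff_ne_empty]
    intro h0
    exact h (symmDiff_eq_bot.1 h0)
  obtain ⟨x, hx, hx2⟩ := exists_mem_eq_sup (symmDiff b c) hne id
  unfold tp
  rw [hx2]
  exact hx

lemma tp_11 {b c : Finset ℕ} {p : ℕ} (hb : p ∉ b) (hc : p ∉ c) :
    tp (insert p b) (insert p c) = tp b c := by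
  unfold tp
  congr 1
  ext x
  simp only [mem_symmDiff, mem_insert]
  by_cases hx : x = p
  · subst hx; simp [hb, hc]
  · simp [hx]

lemma tp_10 {b c : Finset ℕ} {p : ℕ} (hb : ∀ x ∈ b, x < p) (hc : ∀ x ∈ c, x < p) :
    tp (insert p b) c = p := by
  have hpc : p ∉ c := fun h => lt_irrefl _ (hc p h)
  unfold tp
  apply le_antisymm
  · refine Finset.sup_le fun x hx => ?_
    rw [mem_symmDiff, mem_insert] at hx
    rcases hx with ⟨rfl | h, _⟩ | ⟨h, _⟩
    · exact le_rfl
    · exact (hb x h).le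
    · exact (hc x h).le
  · have : p ∈ symmDiff (insert p b) c := by
      rw [mem_symmDiff]; exact Or.inl ⟨mem_insert_self _ _, hpc⟩
    exact le_sup (f := id) this

lemma tp_comm (b c : Finset ℕ) : tp b c = tp c b := by
  unfold tp; rw [symmDiff_comm]

lemma gw_symm (b c : Finset ℕ) : gw w b c = gw w c b := by
  unfold gw; rw [inter_comm]

lemma gw_11 {b c : Finset ℕ} {p : ℕ} (hb : p ∉ b) :
    gw w (insert p b) (insert p c) = (w p)⁻¹ * gw w b c := by
  unfold gw
  rw [← insert_inter_distrib, prod_insert (fun h => hb (mem_inter.mp h).1)]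

lemma gw_10 {b c : Finset ℕ} {p : ℕ} (hc : p ∉ c) : gw w (insert p b) c = gw w b c := by
  unfold gw
  rw [insert_inter_of_notMem hc]

lemma filt_lt {P : Finset ℕ} {p q : ℕ} (hq : q < p) :
    (insert p P).filter (· ≤ q) = P.filter (· ≤ q) := by
  rw [filter_insert, if_neg (by omega)]

lemma filt_lt' {P : Finset ℕ} {p q : ℕ} (hq : q < p) :
    (insert p P).filter (· < q) = P.filter (· < q) := by
  rw [filter_insert, if_neg (by omega)]

lemma tm_00 {P : Finset ℕ} {p : ℕ} (hmax : ∀ x ∈ P, x < p) (f : Finset ℕ → ℝ)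
    {b c : Finset ℕ} (hb : b ⊆ P) (hc : c ⊆ P) (hbc : b ≠ c) :
    tm η w (insert p P) f b c = (1 - w p) ^ 2 * tm η w P f b c := by
  have hp : p ∉ P := fun h => lt_irrefl _ (hmax p h)
  have hq : tp b c < p := by
    have := tp_mem hbc
    rw [mem_symmDiff] at this
    rcases this with ⟨h, _⟩ | ⟨h, _⟩
    · exact hmax _ (hb h)
    · exact hmax _ (hc h)
  unfold tm Dn Wn
  rw [nu_ins0 hp hb, nu_ins0 hp hc, filt_lt hq, filt_lt' hq]
  ring

lemma tm_11 {P : Finset ℕ} {p : ℕ} (hmax : ∀ x ∈ P, x < p) (hw : 0 < w p) (f : Finset ℕ → ℝ)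
    {b c : Finset ℕ} (hb : b ⊆ P) (hc : c ⊆ P) (hbc : b ≠ c) :
    tm η w (insert p P) f (insert p b) (insert p c) =
      w p * tm η w P (fun u => f (insert p u)) b c := by
  have hp : p ∉ P := fun h => lt_irrefl _ (hmax p h)
  have hpb : p ∉ b := fun h => hp (hb h)
  have hpc : p ∉ c := fun h => hp (hc h)
  have hq : tp b c < p := by
    have := tp_mem hbc
    rw [mem_symmDiff] at this
    rcases this with ⟨h, _⟩ | ⟨h, _⟩
    · exact hmax _ (hb h)
    · exact hmax _ (hc h)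
  have e1 : (insert p b).filter (tp b c < ·) = insert p (b.filter (tp b c < ·)) := by
    rw [filter_insert, if_pos hq]
  have e2 : (insert p b ∩ insert p c).filter (· < tp b c) = (b ∩ c).filter (· < tp b c) := by
    rw [← insert_inter_distrib, filter_insert, if_neg (by omega)]
  unfold tm Dn Wn gm
  rw [tp_11 hpb hpc, nu_ins1 hp hb, nu_ins1 hp hc, filt_lt hq, filt_lt' hq, e1, e2, gw_11 hpb]
  have e3 : ∀ u : Finset ℕ, insert p (b.filter (tp b c < ·)) ∪ u =
      insert p (b.filter (tp b c < ·) ∪ u) := fun u => by rw [insert_union]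
  have e4 : ∀ u : Finset ℕ, insert (tp b c) (insert p (b.filter (tp b c < ·) ∪ u)) =
      insert p (insert (tp b c) (b.filter (tp b c < ·) ∪ u)) := fun u => by rw [insert_comm]
  simp only [e3, e4]
  have hw' : w p ≠ 0 := hw.ne'
  field_simp

lemma tm_10 {P : Finset ℕ} {p : ℕ} (h : ∀ p, 0 < w p ∧ w p < 1) (hmax : ∀ x ∈ P, x < p)
    (f : Finset ℕ → ℝ) (hf : ∀ b, 0 ≤ f b) {b c : Finset ℕ} (hb : b ⊆ P) (hc : c ⊆ P) :
    tm η w (insert p P) f (insert p b) c =
      w p * (1 - w p) * (Wt η (w p) (Dh w P f) (Dh w P (fun u => f (insert p u))) *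
        (Dh w (insert p P) f) ^ (-η)) *
        (nu w P b * nu w P c * gk η w b c * (f (insert p b) * f c * 1)) := by
  have hp : p ∉ P := fun h => lt_irrefl _ (hmax p h)
  have hpb : p ∉ b := fun h => hp (hb h)
  have hpc : p ∉ c := fun h => hp (hc h)
  have hbp : ∀ x ∈ b, x < p := fun x hx => hmax x (hb hx)
  have hcp : ∀ x ∈ c, x < p := fun x hx => hmax x (hc hx)
  have e1 : (insert p b).filter (p < ·) = ∅ := by
    ext x
    simp only [mem_filter, mem_insert, notMem_empty, iff_false, not_and, not_lt]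
    rintro (rfl | h)
    · exact le_rfl
    · exact (hbp x h).le
  have e2 : (insert p b ∩ c).filter (· < p) = b ∩ c := by
    rw [insert_inter_of_notMem hpc]
    exact filter_true_of_mem fun x hx => hbp x (mem_inter.mp hx).1
  have e3 : (insert p P).filter (· ≤ p) = insert p P := by
    refine filter_true_of_mem fun x hx => ?_
    rcases mem_insert.mp hx with rfl | h
    · exact le_rfl
    · exact (hmax x h).le
  have e4 : (insert p P).filter (· < p) = P := by
    rw [filter_insert, if_neg (lt_irrefl _)]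
    exact filter_true_of_mem hmax
  have hg0 : 0 < ∏ p ∈ b ∩ c, (w p)⁻¹ := prod_pos fun p _ => inv_pos.mpr (h p).1
  have hD : 0 ≤ Dh w (insert p P) f := Dh_nonneg h _ hf
  have hgk : (∏ p ∈ b ∩ c, (w p)⁻¹) * (∏ p ∈ b ∩ c, (w p)⁻¹) ^ (-η) = gk η w b c := by
    unfold gk
    rw [← Real.finsetProd_rpow _ _ (fun p _ => (inv_pos.mpr (h p).1).le), ← prod_mul_distrib]
    refine prod_congr rfl fun p _ => ?_
    rw [Real.inv_rpow (h p).1.le, ← Real.rpow_neg (h p).1.le, neg_neg, ← Real.rpow_neg_one,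
      ← Real.rpow_add (h p).1]
    congr 1; ring
  unfold tm Dn Wn gm
  rw [tp_10 hbp hcp, nu_ins1 hp hb, nu_ins0 hp hc, e1, e2, e3, e4, gw_10 hpc]
  simp only [empty_union]
  unfold gw
  rw [Real.mul_rpow hg0.le hD, ← hgk]
  ring

lemma tm_symm {P b c : Finset ℕ} (f : Finset ℕ → ℝ) : tm η w P f b c = tm η w P f c b := by
  rcases eq_or_ne b c with rfl | hbc
  · rfl
  have e : b.filter (tp b c < ·) = c.filter (tp b c < ·) := by
    ext x
    simp only [mem_filter]
    refine and_congr_left fun hx => ?_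
    by_contra hne
    have : x ∈ symmDiff b c := by
      rw [mem_symmDiff]; tauto
    exact absurd (le_sup (f := id) this) (not_le.2 hx)
  unfold tm gm
  rw [tp_comm c b, gw_symm c b, inter_comm c b, e]
  ring

/-- recursion of the sum over the nodes -/
lemma SN_insert {P : Finset ℕ} {p : ℕ} (h : ∀ p, 0 < w p ∧ w p < 1) (hmax : ∀ x ∈ P, x < p)
    (f : Finset ℕ → ℝ) (hf : ∀ b, 0 ≤ f b) :
    SN η w (insert p P) f =
      (1 - w p) ^ 2 * SN η w P f + w p * SN η w P (fun u => f (insert p u))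
      + 2 * w p * (1 - w p) * (Wt η (w p) (Dh w P f) (Dh w P (fun u => f (insert p u))) *
        ((Dh w (insert p P) f) ^ (-η) * HH η w P (fun u => f (insert p u)) f)) := by
  have hp : p ∉ P := fun h => lt_irrefl _ (hmax p h)
  set Wv := Wt η (w p) (Dh w P f) (Dh w P (fun u => f (insert p u))) with hWv
  set D := Dh w (insert p P) f with hD
  -- row of a word without `p`
  have r0 : ∀ b ∈ P.powerset, (∑ c ∈ (insert p P).powerset,
      if b = c then 0 else tm η w (insert p P) f b c) =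
      (1 - w p) ^ 2 * (∑ c ∈ P.powerset, if b = c then 0 else tm η w P f b c)
      + w p * (1 - w p) * (Wv * D ^ (-η)) * ∑ c ∈ P.powerset,
        nu w P c * nu w P b * gk η w c b * (f (insert p c) * f b * 1) := by
    intro b hb
    have hbP := mem_powerset.mp hb
    have hpb : p ∉ b := fun h => hp (hbP h)
    rw [sum_powerset_insert hp, mul_sum, mul_sum]
    congr 1
    · refine sum_congr rfl fun c hc => ?_
      split_ifs with hbc
      · rw [mul_zero]
      · exact tm_00 hmax f hbP (mem_powerset.mp hc) hbc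
    · refine sum_congr rfl fun c hc => ?_
      have hcP := mem_powerset.mp hc
      have hne : b ≠ insert p c := fun h => hpb (h ▸ mem_insert_self _ _)
      rw [if_neg hne, tm_symm, tm_10 h hmax f hf hcP hbP]
  have r1 : ∀ b ∈ P.powerset, (∑ c ∈ (insert p P).powerset,
      if insert p b = c then 0 else tm η w (insert p P) f (insert p b) c) =
      w p * (∑ c ∈ P.powerset, if b = c then 0 else tm η w P (fun u => f (insert p u)) b c)
      + w p * (1 - w p) * (Wv * D ^ (-η)) * ∑ c ∈ P.powerset,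
        nu w P b * nu w P c * gk η w b c * (f (insert p b) * f c * 1) := by
    intro b hb
    have hbP := mem_powerset.mp hb
    have hpb : p ∉ b := fun h => hp (hbP h)
    rw [sum_powerset_insert hp, mul_sum, mul_sum, add_comm]
    congr 1
    · refine sum_congr rfl fun c hc => ?_
      have hcP := mem_powerset.mp hc
      have hpc : p ∉ c := fun h => hp (hcP h)
      have hiff : insert p b = insert p c ↔ b = c := by
        constructor
        · intro h2
          have := congrArg (fun s => s.erase p) h2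
          simpa [erase_insert hpb, erase_insert hpc] using this
        · rintro rfl; rfl
      by_cases hbc : b = c
      · rw [if_pos (hiff.2 hbc), if_pos hbc, mul_zero]
      · rw [if_neg (fun h2 => hbc (hiff.1 h2)), if_neg hbc]
        exact tm_11 hmax (h p).1 f hbP hcP hbc
    · refine sum_congr rfl fun c hc => ?_
      have hcP := mem_powerset.mp hc
      have hpc : p ∉ c := fun h => hp (hcP h)
      have hne : insert p b ≠ c := fun h => hpc (h ▸ mem_insert_self _ _)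
      rw [if_neg hne, tm_10 h hmax f hf hbP hcP]
  have hHH : ∑ b ∈ P.powerset, ∑ c ∈ P.powerset,
      nu w P b * nu w P c * gk η w b c * (f (insert p b) * f c * 1) =
      HH η w P (fun u => f (insert p u)) f := rfl
  have hHH' : ∑ b ∈ P.powerset, ∑ c ∈ P.powerset,
      nu w P c * nu w P b * gk η w c b * (f (insert p c) * f b * 1) =
      HH η w P (fun u => f (insert p u)) f := by
    rw [sum_comm]; rfl
  unfold SN
  rw [sum_powerset_insert hp, sum_congr rfl r0, sum_congr rfl r1, sum_add_distrib,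
    sum_add_distrib, ← mul_sum, ← mul_sum, ← mul_sum, ← mul_sum, hHH, hHH']
  ring

/-- **THEOREM N (a)** with the negative term -/
theorem thmN_a' (hη : 0 < η) (hη1 : η < 1) {KH : ℝ} (hKH : 1 ≤ KH) (hw : ∀ p, 0 < w p ∧ w p ≤ 1 / 2)
    (P : Finset ℕ)
    (hH : ∀ Q ⊆ P, ∀ (f g : Finset ℕ → ℝ), (∀ b, f b = 0 ∨ f b = 1) → (∀ b, g b = 0 ∨ g b = 1) →
        HH η w Q f g ≤ KH * (Dh w Q f * Dh w Q g) ^ ((1 + η) / 2)) :
    ∀ f : Finset ℕ → ℝ, (∀ b, f b = 0 ∨ f b = 1) →
      SN η w P f ≤ cC1 η KH * Dh w P f - cC2 η * ((Dh w P f) ^ (-η) * HH η w P f f) := by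
  have h : ∀ p, 0 < w p ∧ w p < 1 := fun p => ⟨(hw p).1, by linarith [(hw p).2]⟩
  have hC2 := cC2_pos hη
  have hA := (cA_ge hη).1
  induction P using Finset.induction_on_max with
  | empty =>
    intro f hf
    have e1 : Dh w ∅ f = f ∅ := by simp [Dh, nu]
    have e2 : HH η w ∅ f f = f ∅ * f ∅ := by simp [HH, form, nu, gk]
    have e3 : SN η w ∅ f = 0 := by simp [SN]
    rw [e1, e2, e3]
    rcases hf ∅ with h0 | h1
    · rw [h0]; simp
    · rw [h1, Real.one_rpow]
      unfold cC1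
      have h5 : 0 ≤ 2 * (cA η + cC2 η) * (KH * cA η) + 4 * cC2 η * KH := by positivity
      linarith
  | insert p P hmax ih =>
    intro f hf
    have hp : p ∉ P := fun h => lt_irrefl _ (hmax p h)
    have ih' := ih (fun Q hQ => hH Q (hQ.trans (subset_insert _ _)))
    have hf1 : ∀ b, f (insert p b) = 0 ∨ f (insert p b) = 1 := fun b => hf _
    have hf0 : ∀ b, 0 ≤ f b := fun b => by rcases hf b with h | h <;> simp [h]
    have a0 := ih' f hf
    have a1 := ih' (fun u => f (insert p u)) hf1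
    have hHP := hH P (subset_insert _ _)
    have D0 := Dh_nonneg h P hf0
    have D1 := Dh_nonneg h P (fun b => hf0 (insert p b))
    have b00 := hHP f f hf hf
    have b11 := hHP (fun u => f (insert p u)) (fun u => f (insert p u)) hf1 hf1
    have b01 := hHP (fun u => f (insert p u)) f hf1 hf
    have sqe : ∀ x : ℝ, 0 ≤ x → (x * x) ^ ((1 + η) / 2) = x ^ (1 + η) := by
      intro x hx
      rw [← sq, ← Real.rpow_natCast, ← Real.rpow_mul hx]
      congr 1; push_cast; ring
    rw [sqe _ D0] at b00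
    rw [sqe _ D1] at b11
    rw [mul_comm (Dh w P fun u => f (insert p u))] at b01
    have hsq := HH_sq hη1 h P (fun u => f (insert p u)) f
    rw [mul_comm (HH η w P (fun u => f (insert p u)) (fun u => f (insert p u)))] at hsq
    have hS := scalarN hη hη1 hKH (hw p).1 (hw p).2 D0 D1 (HH_nonneg h P hf0 hf0)
      (HH_nonneg h P (fun b => hf0 (insert p b)) hf0)
      (HH_nonneg h P (fun b => hf0 (insert p b)) (fun b => hf0 (insert p b))) b00 b11 b01 hsq
    rw [SN_insert h hmax f hf0, Dh_insert hp f, HH_insert hp (h p).1 f]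
    have t0 := mul_le_mul_of_nonneg_left a0 (sq_nonneg (1 - w p))
    have t1 := mul_le_mul_of_nonneg_left a1 (h p).1.le
    linarith

/-- **THEOREM N (a)** of note 2552 (squarefree words): the sum over all pairs, weighted by the
effective scale `g_- D^_T` of their node and by the node weight `W`, is `≤ C D^`. -/
theorem thmN_a (hη : 0 < η) (hη1 : η < 1) :
    ∃ C : ℝ, 0 < C ∧ ∀ P : Finset ℕ, (∀ p ∈ P, 2 ≤ p) → ∀ f : Finset ℕ → ℝ,
      (∀ b, f b = 0 ∨ f b = 1) → SN η wv P f ≤ C * Dh wv P f := by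
  obtain ⟨KH, hKH, hH⟩ := HH_le (η := η) hη hη1
  refine ⟨cC1 η KH, ?_, fun P hP f hf => ?_⟩
  · have := cC2_pos hη
    have hA := (cA_ge hη).1
    unfold cC1
    positivity
  · have hf0 : ∀ b, 0 ≤ f b := fun b => by rcases hf b with h | h <;> simp [h]
    have h1 := thmN_a' hη hη1 hKH (fun p => ⟨(wv_mem p).1, wv_half⟩) P
      (fun Q hQ f g hf hg => hH Q (fun p hp => hP p (hQ hp)) f g hf hg) f hf
    have h2 : 0 ≤ cC2 η * ((Dh wv P f) ^ (-η) * HH η wv P f f) :=
      mul_nonneg (cC2_pos hη).le (mul_nonneg (Real.rpow_nonneg (Dh_nonneg wv_mem P hf0) _)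
        (HH_nonneg wv_mem P hf0 hf0))
    linarith

end Crest.Agent.R4C.ThmNx104
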