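import Mathlib

/-!
# Row 4: scalar inequalities of THEOREM N (note 2552, helper590) (helper104)
-/

set_option autoImplicit false

namespace Crest.Agent.R4C.ThmNscx104

open Real

/-- `(1-x)^(-η) ≥ 1 + η x` -/
lemma neg_bern {η x : ℝ} (hη : 0 < η) (hη1 : η < 1) (hx : 0 ≤ x) (hx1 : x < 1) :
    1 + η * x ≤ (1 - x) ^ (-η) := by
  have h1 : (1 - x) ^ η ≤ 1 - η * x := by
    have := _root_.rpow_one_add_le_one_add_mul_self (s := -x) (by linarith) hη.le hη1.le
    have e1 : (1 + -x : ℝ) = 1 - x := by ring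
    rw [e1] at this
    linarith
  have h0 : 0 < (1 - x) ^ η := Real.rpow_pos_of_pos (by linarith) _
  have h2 : 0 < 1 - η * x := lt_of_lt_of_le h0 h1
  rw [Real.rpow_neg (by linarith)]
  calc 1 + η * x ≤ (1 - η * x)⁻¹ := by
        rw [le_inv_comm₀ (by positivity) h2]
        rw [← one_div, le_div_iff₀ (by positivity)]
        nlinarith [sq_nonneg (η * x)]
    _ ≤ ((1 - x) ^ η)⁻¹ := inv_anti₀ h0 h1

lemma one_sub_pow_ge {η w : ℝ} (hη1 : η < 1) (hw : 0 ≤ w) (hw1 : w < 1) :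
    1 - w ≤ (1 - w) ^ η := by
  have := Real.rpow_le_rpow_of_exponent_ge (x := 1 - w) (y := 1) (z := η) (by linarith)
    (by linarith) hη1.le
  rwa [Real.rpow_one] at this

/-- `e1 = 1 - 2^(-η)` -/
noncomputable def e1 (η : ℝ) : ℝ := 1 - 2 ^ (-η)

lemma e1_pos {η : ℝ} (hη : 0 < η) : 0 < e1 η := by
  unfold e1
  have : (2 : ℝ) ^ (-η) < 1 := Real.rpow_lt_one_of_one_lt_of_neg (by norm_num) (by linarith)
  linarith

lemma half_pow {η y : ℝ} (hη : 0 < η) (hy : 0 < y) (hy1 : y ≤ 1 / 2) :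
    1 ≤ (2 : ℝ) ^ (-η) * y ^ (-η) := by
  rw [← Real.mul_rpow (by norm_num) hy.le]
  have h : 0 < 2 * y := by positivity
  rw [Real.rpow_neg h.le]
  have : (2 * y) ^ η ≤ 1 := Real.rpow_le_one h.le (by linarith) hη.le
  exact one_le_inv_iff₀.2 ⟨Real.rpow_pos_of_pos h _, this⟩

/-- lower bound of `α` -/
lemma alpha_a {η w x : ℝ} (hη : 0 < η) (hη1 : η < 1) (hw : 0 < w) (hw1 : w ≤ 1 / 2)
    (hx : 4 * w ≤ η * x) (hx1 : x ≤ 1 / 2) :
    η * x / 8 ≤ (1 - w) ^ 2 * ((1 - w) ^ η * (1 - x) ^ (-η) - 1) := by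
  have hx0 : 0 < x := by
    by_contra h
    push Not at h
    have := mul_nonneg hη.le (neg_nonneg.2 h)
    nlinarith
  have h1 := neg_bern hη hη1 hx0.le (by linarith : x < 1)
  have h2 := one_sub_pow_ge (η := η) hη1 hw.le (by linarith : w < 1)
  have h3 : (1 - w) * (1 + η * x) ≤ (1 - w) ^ η * (1 - x) ^ (-η) :=
    mul_le_mul h2 h1 (by positivity) (Real.rpow_nonneg (by linarith) _)
  have h4 : η * x / 2 ≤ (1 - w) ^ η * (1 - x) ^ (-η) - 1 := by
    have : η * x ≤ 1 := by nlinarith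
    nlinarith
  have h5 : 1 / 4 ≤ (1 - w) ^ 2 := by nlinarith
  have h6 : 0 ≤ η * x / 2 := by positivity
  calc η * x / 8 = 1 / 4 * (η * x / 2) := by ring
    _ ≤ _ := mul_le_mul h5 h4 h6 (by positivity)

lemma alpha_b {η w y : ℝ} (hη : 0 < η) (hη1 : η < 1) (hw : 0 < w) (hw1 : w ≤ 1 / 2)
    (hwe : w ≤ e1 η / 2) (hy : 0 < y) (hy1 : y ≤ 1 / 2) :
    e1 η / 8 * y ^ (-η) ≤ (1 - w) ^ 2 * ((1 - w) ^ η * y ^ (-η) - 1) := by
  have h2 := one_sub_pow_ge (η := η) hη1 hw.le (by linarith : w < 1)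
  have hy0 : 0 < y ^ (-η) := Real.rpow_pos_of_pos hy _
  have h3 := half_pow hη hy hy1
  have h4 : e1 η / 2 * y ^ (-η) ≤ (1 - w) ^ η * y ^ (-η) - 1 := by
    have h5 : (1 - w) * y ^ (-η) ≤ (1 - w) ^ η * y ^ (-η) := mul_le_mul_of_nonneg_right h2 hy0.le
    have h6 : w * y ^ (-η) ≤ e1 η / 2 * y ^ (-η) := mul_le_mul_of_nonneg_right hwe hy0.le
    have h7 : e1 η * y ^ (-η) = y ^ (-η) - 2 ^ (-η) * y ^ (-η) := by unfold e1; ring
    linarith
  have h5 : 1 / 4 ≤ (1 - w) ^ 2 := by nlinarith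
  have h6 : 0 ≤ e1 η / 2 * y ^ (-η) := by have := e1_pos hη; positivity
  calc e1 η / 8 * y ^ (-η) = 1 / 4 * (e1 η / 2 * y ^ (-η)) := by ring
    _ ≤ _ := mul_le_mul h5 h4 h6 (by positivity)

/-- node weight `W = max(1, (min(x,1-x)/w)^((1-η)/2))`, `x` = share of the prime -/
noncomputable def Wt (η w D0 D1 : ℝ) : ℝ :=
  max 1 ((min (w * (1 + 2 * w) * D1 / ((1 - w) * D0 + w * (1 + 2 * w) * D1))
    (1 - w * (1 + 2 * w) * D1 / ((1 - w) * D0 + w * (1 + 2 * w) * D1)) / w) ^ ((1 - η) / 2))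

lemma one_le_Wt (η w D0 D1 : ℝ) : 1 ≤ Wt η w D0 D1 := le_max_left _ _

/-- the constants -/
noncomputable def c0 (η : ℝ) : ℝ := η * e1 η / 8
noncomputable def cC2 (η : ℝ) : ℝ := 2 / Real.sqrt (c0 η)
noncomputable def cA (η : ℝ) : ℝ := 1 + 4 / η + 1 / e1 η + (cC2 η) ^ (2 / (1 - η))
noncomputable def cC1 (η KH : ℝ) : ℝ :=
  2 * (cA η + cC2 η) * (KH * cA η) + 4 * cC2 η * KH + cC2 η

lemma c0_pos {η : ℝ} (hη : 0 < η) : 0 < c0 η := by
  unfold c0; have := e1_pos hη; positivity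

lemma cC2_pos {η : ℝ} (hη : 0 < η) : 0 < cC2 η := by
  unfold cC2; have := Real.sqrt_pos.2 (c0_pos hη); positivity

lemma cA_ge {η : ℝ} (hη : 0 < η) : 1 ≤ cA η ∧ 4 / η ≤ cA η ∧ 1 / e1 η ≤ cA η ∧
    (cC2 η) ^ (2 / (1 - η)) ≤ cA η := by
  unfold cA
  have h1 : 0 < 4 / η := by positivity
  have h2 : 0 < 1 / e1 η := by have := e1_pos hη; positivity
  have h3 : 0 < (cC2 η) ^ (2 / (1 - η)) := Real.rpow_pos_of_pos (cC2_pos hη) _
  refine ⟨by linarith, by linarith, by linarith, by linarith⟩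

/-- case (i): the share is `≤ A w` -/
lemma case_i {η w KH A C2 D0 D1 H00 H01 H11 y Wv : ℝ} (hη : 0 < η) (hη1 : η < 1) (hKH : 1 ≤ KH)
    (hw : 0 < w) (hw1 : w ≤ 1 / 2) (hA : 1 ≤ A) (hC2 : 0 < C2)
    (hD0 : 0 ≤ D0) (hD1 : 0 ≤ D1) (h00 : 0 ≤ H00) (h01 : 0 ≤ H01) (h11 : 0 ≤ H11)
    (hD : 0 < (1 - w) * D0 + w * (1 + 2 * w) * D1)
    (b00 : H00 ≤ KH * D0 ^ (1 + η)) (b11 : H11 ≤ KH * D1 ^ (1 + η))
    (b01 : H01 ≤ KH * (D0 * D1) ^ ((1 + η) / 2))
    (hy : D0 * D1 ≤ y / w * ((1 - w) * D0 + w * (1 + 2 * w) * D1) ^ 2) (hyA : y ≤ A * w)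
    (hW : Wv ≤ A) :
    2 * w * (1 - w) * ((Wv + C2) * (((1 - w) * D0 + w * (1 + 2 * w) * D1) ^ (-η) * H01)) ≤
      (2 * (A + C2) * (KH * A) + 4 * C2 * KH + C2) * (w * (1 - w) * D0 + 2 * w ^ 2 * D1) +
      C2 * ((1 - w) ^ 2 * ((D0 ^ (-η) - ((1 - w) * D0 + w * (1 + 2 * w) * D1) ^ (-η)) * H00)
        + (w * D1 ^ (-η) - w ^ (1 + η) * ((1 - w) * D0 + w * (1 + 2 * w) * D1) ^ (-η)) * H11) := by
  set D : ℝ := (1 - w) * D0 + w * (1 + 2 * w) * D1 with hDd
  have hDη : 0 < D ^ (-η) := Real.rpow_pos_of_pos hD _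
  have hwD : w * D ≤ w * (1 - w) * D0 + 2 * w ^ 2 * D1 := by
    rw [hDd]
    have h1 : 0 ≤ w ^ 2 * D1 * (1 - 2 * w) := mul_nonneg (by positivity) (by linarith)
    linarith
  have hDD : D ^ (-η) * D ^ (1 + η) = D := by
    rw [← Real.rpow_add hD]
    have : -η + (1 + η) = 1 := by ring
    rw [this, Real.rpow_one]
  -- H01 bound
  have hP : (D0 * D1) ^ ((1 + η) / 2) ≤ A * D ^ (1 + η) := by
    have h1 : D0 * D1 ≤ A * D ^ 2 := by
      refine hy.trans (mul_le_mul_of_nonneg_right ?_ (by positivity))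
      rw [div_le_iff₀ hw]; exact hyA
    have h2 : (D0 * D1) ^ ((1 + η) / 2) ≤ (A * D ^ 2) ^ ((1 + η) / 2) :=
      Real.rpow_le_rpow (by positivity) h1 (by linarith)
    have h3 : (A * D ^ 2) ^ ((1 + η) / 2) = A ^ ((1 + η) / 2) * D ^ (1 + η) := by
      rw [Real.mul_rpow (by positivity) (by positivity), ← Real.rpow_natCast D 2,
        ← Real.rpow_mul hD.le]
      congr 2
      push_cast; ring
    have h4 : A ^ ((1 + η) / 2) ≤ A := by
      have := Real.rpow_le_rpow_of_exponent_le hA (by linarith : (1 + η) / 2 ≤ 1)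
      rwa [Real.rpow_one] at this
    rw [h3] at h2
    exact h2.trans (mul_le_mul_of_nonneg_right h4 (Real.rpow_nonneg hD.le _))
  have hH01 : D ^ (-η) * H01 ≤ KH * A * D := by
    calc D ^ (-η) * H01 ≤ D ^ (-η) * (KH * (A * D ^ (1 + η))) :=
          mul_le_mul_of_nonneg_left (b01.trans (mul_le_mul_of_nonneg_left hP (by linarith))) hDη.le
      _ = KH * A * (D ^ (-η) * D ^ (1 + η)) := by ring
      _ = KH * A * D := by rw [hDD]
  have hL : 2 * w * (1 - w) * ((Wv + C2) * (D ^ (-η) * H01)) ≤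
      2 * w * ((A + C2) * (KH * A * D)) := by
    have h1 : (Wv + C2) * (D ^ (-η) * H01) ≤ (A + C2) * (KH * A * D) :=
      mul_le_mul (by linarith) hH01 (by positivity) (by linarith)
    have h2 : 2 * w * (1 - w) ≤ 2 * w := by
      have := mul_nonneg hw.le hw.le
      linarith
    have h3 : 0 ≤ (A + C2) * (KH * A * D) := by positivity
    calc 2 * w * (1 - w) * ((Wv + C2) * (D ^ (-η) * H01))
        ≤ 2 * w * (1 - w) * ((A + C2) * (KH * A * D)) :=
          mul_le_mul_of_nonneg_left h1 (mul_nonneg (by linarith) (by linarith))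
      _ ≤ 2 * w * ((A + C2) * (KH * A * D)) := mul_le_mul_of_nonneg_right h2 h3
  -- the H00 term
  have hα : -(w * (4 * KH * D)) ≤ (1 - w) ^ 2 * ((D0 ^ (-η) - D ^ (-η)) * H00) := by
    rcases hD0.eq_or_lt with h | h
    · have e : H00 = 0 := by
        have : D0 ^ (1 + η) = 0 := by rw [← h]; exact Real.zero_rpow (by linarith)
        rw [this, mul_zero] at b00
        linarith
      rw [e, mul_zero, mul_zero]
      have : 0 ≤ w * (4 * KH * D) := by positivity
      linarith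
    · have h1 : (1 - w) * D0 ≤ D := by
        rw [hDd]; have : 0 ≤ w * (1 + 2 * w) * D1 := by positivity
        linarith
      have hu : 0 < 1 - w := by linarith
      have h2 : (1 - w) * D ^ (-η) ≤ D0 ^ (-η) := by
        have h3 : D ^ (-η) ≤ ((1 - w) * D0) ^ (-η) :=
          Real.rpow_le_rpow_of_nonpos (by positivity) h1 (by linarith)
        rw [Real.mul_rpow hu.le h.le] at h3
        have h4 : (1 - w) ^ (-η) * (1 - w) ≤ 1 := by
          have h5 := one_sub_pow_ge (η := η) hη1 hw.le (by linarith : w < 1)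
          rw [Real.rpow_neg hu.le, inv_mul_le_iff₀ (Real.rpow_pos_of_pos hu _), mul_one]
          exact h5
        calc (1 - w) * D ^ (-η) ≤ (1 - w) * ((1 - w) ^ (-η) * D0 ^ (-η)) :=
              mul_le_mul_of_nonneg_left h3 hu.le
          _ = ((1 - w) ^ (-η) * (1 - w)) * D0 ^ (-η) := by ring
          _ ≤ 1 * D0 ^ (-η) := mul_le_mul_of_nonneg_right h4 (Real.rpow_nonneg h.le _)
          _ = D0 ^ (-η) := one_mul _
      have h3 : -(w * D ^ (-η)) ≤ D0 ^ (-η) - D ^ (-η) := by linarith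
      have hD2 : D0 ≤ 2 * D := by
        have : 1 / 2 * D0 ≤ (1 - w) * D0 := mul_le_mul_of_nonneg_right (by linarith) hD0
        linarith
      have h4 : D0 ^ (1 + η) ≤ 4 * D ^ (1 + η) := by
        have h5 : D0 ^ (1 + η) ≤ (2 * D) ^ (1 + η) := Real.rpow_le_rpow hD0 hD2 (by linarith)
        rw [Real.mul_rpow (by norm_num) hD.le] at h5
        have h6 : (2 : ℝ) ^ (1 + η) ≤ 4 := by
          have := Real.rpow_le_rpow_of_exponent_le (x := 2) (by norm_num)
            (by linarith : 1 + η ≤ 2)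
          have e4 : (2 : ℝ) ^ (2 : ℝ) = 4 := by norm_num
          rwa [e4] at this
        exact h5.trans (mul_le_mul_of_nonneg_right h6 (Real.rpow_nonneg hD.le _))
      have h5 : D ^ (-η) * H00 ≤ 4 * KH * D := by
        calc D ^ (-η) * H00 ≤ D ^ (-η) * (KH * (4 * D ^ (1 + η))) :=
              mul_le_mul_of_nonneg_left (b00.trans (mul_le_mul_of_nonneg_left h4 (by linarith)))
                hDη.le
          _ = 4 * KH * (D ^ (-η) * D ^ (1 + η)) := by ring
          _ = 4 * KH * D := by rw [hDD]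
      have h6 : -(w * (4 * KH * D)) ≤ (D0 ^ (-η) - D ^ (-η)) * H00 := by
        have h7 : -(w * D ^ (-η)) * H00 ≤ (D0 ^ (-η) - D ^ (-η)) * H00 :=
          mul_le_mul_of_nonneg_right h3 h00
        have h8 : w * (D ^ (-η) * H00) ≤ w * (4 * KH * D) := mul_le_mul_of_nonneg_left h5 hw.le
        linarith
      rcases le_total 0 ((D0 ^ (-η) - D ^ (-η)) * H00) with h7 | h7
      · have h8 : 0 ≤ (1 - w) ^ 2 * ((D0 ^ (-η) - D ^ (-η)) * H00) := by positivity
        have : 0 ≤ w * (4 * KH * D) := by positivity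
        linarith
      · have h8 : (1 - w) ^ 2 ≤ 1 := pow_le_one₀ (by linarith) (by linarith)
        have h9 := mul_le_mul_of_nonpos_right h8 h7
        linarith
  -- the H11 term
  have hβ : 0 ≤ (w * D1 ^ (-η) - w ^ (1 + η) * D ^ (-η)) * H11 := by
    rcases hD1.eq_or_lt with h | h
    · have e : H11 = 0 := by
        have : D1 ^ (1 + η) = 0 := by rw [← h]; exact Real.zero_rpow (by linarith)
        rw [this, mul_zero] at b11
        linarith
      rw [e, mul_zero]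
    · refine mul_nonneg ?_ h11
      have h1 : w * D1 ≤ D := by
        rw [hDd]
        have h2 : 0 ≤ (1 - w) * D0 := mul_nonneg (by linarith) hD0
        have h3 : 0 ≤ w * (2 * w) * D1 := by positivity
        linarith
      have h3 : D ^ (-η) ≤ (w * D1) ^ (-η) :=
        Real.rpow_le_rpow_of_nonpos (by positivity) h1 (by linarith)
      rw [Real.mul_rpow hw.le h.le] at h3
      have h4 : w ^ (1 + η) * w ^ (-η) = w := by
        rw [← Real.rpow_add hw]
        have : 1 + η + -η = 1 := by ring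
        rw [this, Real.rpow_one]
      have h5 : w ^ (1 + η) * D ^ (-η) ≤ w ^ (1 + η) * (w ^ (-η) * D1 ^ (-η)) :=
        mul_le_mul_of_nonneg_left h3 (Real.rpow_nonneg hw.le _)
      rw [← mul_assoc, h4] at h5
      linarith
  have hR : (2 * (A + C2) * (KH * A) + 4 * C2 * KH) * (w * D) ≤
      (2 * (A + C2) * (KH * A) + 4 * C2 * KH + C2) * (w * (1 - w) * D0 + 2 * w ^ 2 * D1) := by
    refine mul_le_mul (by linarith) hwD (by positivity) (by positivity)
  have hα' := mul_le_mul_of_nonneg_left hα hC2.le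
  have hβ' := mul_nonneg hC2.le hβ
  rw [mul_add C2]
  linarith

/-- `αβ ≥ c0 w^2 (y/w)^(1-η)` turned into the estimate that is used -/
lemma ab_use {η w y al be H00 H01 H11 : ℝ} (hη : 0 < η)
    (hw : 0 < w) (hy : 0 < y) (hal : 0 ≤ al) (hbe : 0 ≤ be)
    (h00 : 0 ≤ H00) (h01 : 0 ≤ H01) (h11 : 0 ≤ H11) (hsq : H01 ^ 2 ≤ H00 * H11)
    (hab : c0 η * (w ^ (1 + η) * y ^ (1 - η)) ≤ al * be) :
    2 * Real.sqrt (c0 η) * w * (y / w) ^ ((1 - η) / 2) * H01 ≤ al * H00 + be * H11 := by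
  have hc := c0_pos hη
  set Y : ℝ := (y / w) ^ ((1 - η) / 2) with hY
  have hY0 : 0 < Y := Real.rpow_pos_of_pos (by positivity) _
  have hYsq : w ^ 2 * Y ^ 2 = w ^ (1 + η) * y ^ (1 - η) := by
    have h1 : Y ^ 2 = (y / w) ^ (1 - η) := by
      rw [hY, ← Real.rpow_natCast, ← Real.rpow_mul (by positivity)]
      congr 1; push_cast; ring
    rw [h1, Real.div_rpow hy.le hw.le]
    have h2 : w ^ 2 = w ^ (1 + η) * w ^ (1 - η) := by
      rw [← Real.rpow_add hw, ← Real.rpow_natCast]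
      congr 1; push_cast; ring
    rw [h2]
    have h3 : w ^ (1 - η) ≠ 0 := (Real.rpow_pos_of_pos hw _).ne'
    field_simp
  have hs : Real.sqrt (c0 η) ^ 2 = c0 η := Real.sq_sqrt hc.le
  have hs0 : 0 < Real.sqrt (c0 η) := Real.sqrt_pos.2 hc
  have hR : 0 ≤ al * H00 + be * H11 := by positivity
  have hLL : 0 ≤ 2 * Real.sqrt (c0 η) * w * Y * H01 := by positivity
  have key : (2 * Real.sqrt (c0 η) * w * Y * H01) ^ 2 ≤ (al * H00 + be * H11) ^ 2 := by
    have e : (2 * Real.sqrt (c0 η) * w * Y * H01) ^ 2 =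
        4 * (c0 η * (w ^ (1 + η) * y ^ (1 - η))) * H01 ^ 2 := by
      rw [← hYsq]
      calc (2 * Real.sqrt (c0 η) * w * Y * H01) ^ 2
          = 4 * (Real.sqrt (c0 η) ^ 2 * (w ^ 2 * Y ^ 2)) * H01 ^ 2 := by ring
        _ = _ := by rw [hs]
    rw [e]
    have h1 : 4 * (c0 η * (w ^ (1 + η) * y ^ (1 - η))) * H01 ^ 2 ≤ 4 * (al * be) * (H00 * H11) := by
      refine mul_le_mul (by linarith) hsq (sq_nonneg _) (by positivity)
    nlinarith [sq_nonneg (al * H00 - be * H11)]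
  exact (sq_le_sq₀ hLL hR).1 key

/-- case (ii), the `α, β` part -/
lemma case_ii {η w D0 D1 H00 H01 H11 : ℝ} (hη : 0 < η) (hη1 : η < 1)
    (hw : 0 < w) (hw1 : w ≤ 1 / 2)
    (hD0 : 0 < D0) (hD1 : 0 < D1) (h00 : 0 ≤ H00) (h01 : 0 ≤ H01) (h11 : 0 ≤ H11)
    (hsq : H01 ^ 2 ≤ H00 * H11) {x y : ℝ}
    (hx : x * ((1 - w) * D0 + w * (1 + 2 * w) * D1) = w * (1 + 2 * w) * D1)
    (hyd : y = min x (1 - x)) (hyw : cA η * w < y) :
    ((1 - w) * D0 + w * (1 + 2 * w) * D1) ^ (-η) *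
        (2 * Real.sqrt (c0 η) * w * (y / w) ^ ((1 - η) / 2) * H01) ≤
      (1 - w) ^ 2 * ((D0 ^ (-η) - ((1 - w) * D0 + w * (1 + 2 * w) * D1) ^ (-η)) * H00)
        + (w * D1 ^ (-η) - w ^ (1 + η) * ((1 - w) * D0 + w * (1 + 2 * w) * D1) ^ (-η)) * H11 := by
  obtain ⟨hA1, hA2, hA3, hA4⟩ := cA_ge hη
  have he1 := e1_pos hη
  set D : ℝ := (1 - w) * D0 + w * (1 + 2 * w) * D1 with hDd
  have hu : 0 < 1 - w := by linarith
  have hD : 0 < D := by
    have h1 : 0 < (1 - w) * D0 := mul_pos hu hD0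
    have h2 : 0 < w * (1 + 2 * w) * D1 := by positivity
    rw [hDd]; linarith
  have hDη : 0 < D ^ (-η) := Real.rpow_pos_of_pos hD _
  have hx0 : 0 < x := by
    by_contra h
    push Not at h
    have h1 : x * D ≤ 0 := mul_nonpos_of_nonpos_of_nonneg h hD.le
    have h2 : 0 < w * (1 + 2 * w) * D1 := by positivity
    linarith
  have h1x : (1 - x) * D = (1 - w) * D0 := by rw [hDd] at hx ⊢; linarith
  have h1x0 : 0 < 1 - x := by
    by_contra h
    push Not at h
    have h1 : (1 - x) * D ≤ 0 := mul_nonpos_of_nonpos_of_nonneg h hD.le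
    have h2 : 0 < (1 - w) * D0 := mul_pos hu hD0
    linarith
  have hy0 : 0 < y := by rw [hyd]; exact lt_min hx0 h1x0
  -- D0^(-η) in terms of D
  have eD0 : D0 ^ (-η) = D ^ (-η) * ((1 - w) ^ η * (1 - x) ^ (-η)) := by
    have e : D0 = D * (1 - x) * (1 - w)⁻¹ := by
      field_simp; linarith
    rw [e, Real.mul_rpow (by positivity) (by positivity), Real.mul_rpow hD.le h1x0.le,
      Real.inv_rpow hu.le, Real.rpow_neg hu.le, inv_inv]
    ring
  have eD1 : D ^ (-η) * (w ^ η * x ^ (-η)) ≤ D1 ^ (-η) := by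
    have e : D1 ≤ D * x * w⁻¹ := by
      rw [← div_eq_mul_inv, le_div_iff₀ hw]
      have : 0 ≤ w * (2 * w) * D1 := by positivity
      linarith
    have h1 : (D * x * w⁻¹) ^ (-η) ≤ D1 ^ (-η) :=
      Real.rpow_le_rpow_of_nonpos hD1 e (by linarith)
    rw [Real.mul_rpow (by positivity) (by positivity), Real.mul_rpow hD.le hx0.le,
      Real.inv_rpow hw.le, Real.rpow_neg hw.le, inv_inv] at h1
    linarith
  have hw1η : w ^ (1 + η) = w * w ^ η := by rw [Real.rpow_add hw, Real.rpow_one]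
  set al : ℝ := (1 - w) ^ 2 * ((1 - w) ^ η * (1 - x) ^ (-η) - 1) with hal
  set be : ℝ := w ^ (1 + η) * (x ^ (-η) - 1) with hbe
  have main : D ^ (-η) * (al * H00 + be * H11) ≤
      (1 - w) ^ 2 * ((D0 ^ (-η) - D ^ (-η)) * H00)
        + (w * D1 ^ (-η) - w ^ (1 + η) * D ^ (-η)) * H11 := by
    have h1 : D ^ (-η) * (be * H11) ≤ (w * D1 ^ (-η) - w ^ (1 + η) * D ^ (-η)) * H11 := by
      have h2 : D ^ (-η) * be ≤ w * D1 ^ (-η) - w ^ (1 + η) * D ^ (-η) := by
        have h3 : w * (D ^ (-η) * (w ^ η * x ^ (-η))) ≤ w * D1 ^ (-η) :=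
          mul_le_mul_of_nonneg_left eD1 hw.le
        rw [hbe, hw1η]
        linarith
      calc D ^ (-η) * (be * H11) = (D ^ (-η) * be) * H11 := by ring
        _ ≤ _ := mul_le_mul_of_nonneg_right h2 h11
    have h2 : D ^ (-η) * (al * H00) = (1 - w) ^ 2 * ((D0 ^ (-η) - D ^ (-η)) * H00) := by
      rw [eD0, hal]; ring
    rw [mul_add, h2]
    linarith
  refine le_trans (mul_le_mul_of_nonneg_left ?_ hDη.le) main
  -- bounds of al, be
  rcases le_total x (1 / 2) with hxh | hxh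
  · have hyx : y = x := by rw [hyd]; exact min_eq_left (by linarith)
    have h4 : 4 * w ≤ η * x := by
      have h5 : 4 / η * w < x := lt_of_le_of_lt (mul_le_mul_of_nonneg_right hA2 hw.le) (hyx ▸ hyw)
      have h6 : η * (4 / η * w) = 4 * w := by field_simp
      have h7 := mul_le_mul_of_nonneg_left h5.le hη.le
      linarith
    have hal1 : η * x / 8 ≤ al := alpha_a hη hη1 hw hw1 h4 hxh
    have hbe1 : e1 η * w ^ (1 + η) * x ^ (-η) ≤ be := by
      have h5 := half_pow hη hx0 hxh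
      have h6 : e1 η * x ^ (-η) ≤ x ^ (-η) - 1 := by unfold e1; linarith
      have h7 := mul_le_mul_of_nonneg_left h6 (Real.rpow_nonneg hw.le (1 + η))
      rw [hbe]; linarith
    have hal0 : 0 ≤ η * x / 8 := by positivity
    have hbe0 : 0 ≤ e1 η * w ^ (1 + η) * x ^ (-η) := by positivity
    refine ab_use hη hw hy0 (hal0.trans hal1) (hbe0.trans hbe1) h00 h01 h11 hsq ?_
    have h8 := mul_le_mul hal1 hbe1 hbe0 (hal0.trans hal1)
    have h9 : x ^ (1 - η) = x * x ^ (-η) := by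
      have : 1 - η = 1 + -η := by ring
      rw [this, Real.rpow_add hx0, Real.rpow_one]
    rw [hyx, h9]
    unfold c0
    calc η * e1 η / 8 * (w ^ (1 + η) * (x * x ^ (-η)))
        = η * x / 8 * (e1 η * w ^ (1 + η) * x ^ (-η)) := by ring
      _ ≤ _ := h8
  · have hyx : y = 1 - x := by rw [hyd]; exact min_eq_right (by linarith)
    have hwe : w ≤ e1 η / 2 := by
      have h5 : 1 / e1 η * w < y := lt_of_le_of_lt (mul_le_mul_of_nonneg_right hA3 hw.le) hyw
      have h6 : e1 η * (1 / e1 η * w) = w := by field_simp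
      have h7 := mul_le_mul_of_nonneg_left h5.le he1.le
      have h8 : e1 η * y ≤ e1 η * (1 / 2) := mul_le_mul_of_nonneg_left (by linarith) he1.le
      linarith
    have hal1 : e1 η / 8 * y ^ (-η) ≤ al := by
      have := alpha_b hη hη1 hw hw1 hwe hy0 (by linarith : y ≤ 1 / 2)
      rw [hal, ← hyx]; exact this
    have hbe1 : η * w ^ (1 + η) * y ≤ be := by
      have h5 := neg_bern hη hη1 hy0.le (by linarith : y < 1)
      have h6 : (1 - y) = x := by linarith
      rw [h6] at h5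
      have h7 := mul_le_mul_of_nonneg_left (by linarith : η * y ≤ x ^ (-η) - 1)
        (Real.rpow_nonneg hw.le (1 + η))
      rw [hbe]; linarith
    have hal0 : 0 ≤ e1 η / 8 * y ^ (-η) := by positivity
    have hbe0 : 0 ≤ η * w ^ (1 + η) * y := by positivity
    refine ab_use hη hw hy0 (hal0.trans hal1) (hbe0.trans hbe1) h00 h01 h11 hsq ?_
    have h8 := mul_le_mul hal1 hbe1 hbe0 (hal0.trans hal1)
    have h9 : y ^ (1 - η) = y * y ^ (-η) := by
      have : 1 - η = 1 + -η := by ring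
      rw [this, Real.rpow_add hy0, Real.rpow_one]
    rw [h9]
    unfold c0
    calc η * e1 η / 8 * (w ^ (1 + η) * (y * y ^ (-η)))
        = e1 η / 8 * y ^ (-η) * (η * w ^ (1 + η) * y) := by ring
      _ ≤ _ := h8

/-- **one-prime step of THEOREM N (a)** -/
theorem scalarN {η KH w D0 D1 H00 H01 H11 : ℝ} (hη : 0 < η) (hη1 : η < 1) (hKH : 1 ≤ KH)
    (hw : 0 < w) (hw1 : w ≤ 1 / 2)
    (hD0 : 0 ≤ D0) (hD1 : 0 ≤ D1) (h00 : 0 ≤ H00) (h01 : 0 ≤ H01) (h11 : 0 ≤ H11)
    (b00 : H00 ≤ KH * D0 ^ (1 + η)) (b11 : H11 ≤ KH * D1 ^ (1 + η))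
    (b01 : H01 ≤ KH * (D0 * D1) ^ ((1 + η) / 2)) (hsq : H01 ^ 2 ≤ H00 * H11) :
    (1 - w) ^ 2 * (cC1 η KH * D0 - cC2 η * (D0 ^ (-η) * H00))
      + w * (cC1 η KH * D1 - cC2 η * (D1 ^ (-η) * H11))
      + 2 * w * (1 - w) * (Wt η w D0 D1 *
          (((1 - w) * D0 + w * (1 + 2 * w) * D1) ^ (-η) * H01)) ≤
    cC1 η KH * ((1 - w) * D0 + w * (1 + 2 * w) * D1)
      - cC2 η * (((1 - w) * D0 + w * (1 + 2 * w) * D1) ^ (-η) *
          ((1 - w) ^ 2 * H00 + 2 * w * (1 - w) * H01 + w ^ (1 + η) * H11)) := by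
  obtain ⟨hA1, hA2, hA3, hA4⟩ := cA_ge hη
  have hu : 0 < 1 - w := by linarith
  have hC2 := cC2_pos hη
  have hC1 : 0 ≤ cC1 η KH := by unfold cC1; positivity
  rcases eq_or_lt_of_le (show 0 ≤ (1 - w) * D0 + w * (1 + 2 * w) * D1 by positivity) with hDz | hD
  · -- everything vanishes
    have a1 : 0 ≤ (1 - w) * D0 := by positivity
    have a2 : 0 ≤ w * (1 + 2 * w) * D1 := by positivity
    have z0 : D0 = 0 := by
      have : (1 - w) * D0 = 0 := by linarith
      rcases mul_eq_zero.1 this with h | h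
      · linarith
      · exact h
    have z1 : D1 = 0 := by
      have : w * (1 + 2 * w) * D1 = 0 := by linarith
      rcases mul_eq_zero.1 this with h | h
      · have : 0 < w * (1 + 2 * w) := by positivity
        linarith
      · exact h
    have hz : (0 : ℝ) ^ (1 + η) = 0 := Real.zero_rpow (by linarith)
    have hz2 : (0 : ℝ) ^ ((1 + η) / 2) = 0 := Real.zero_rpow (by linarith)
    rw [z0, hz, mul_zero] at b00
    rw [z1, hz, mul_zero] at b11
    rw [z0, zero_mul, hz2, mul_zero] at b01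
    have e00 : H00 = 0 := le_antisymm b00 h00
    have e11 : H11 = 0 := le_antisymm b11 h11
    have e01 : H01 = 0 := le_antisymm b01 h01
    rw [z0, z1, e00, e11, e01]
    simp
  · -- the common rewriting
    set D : ℝ := (1 - w) * D0 + w * (1 + 2 * w) * D1 with hDd
    have hDη : 0 < D ^ (-η) := Real.rpow_pos_of_pos hD _
    suffices hG : 2 * w * (1 - w) * ((Wt η w D0 D1 + cC2 η) * (D ^ (-η) * H01)) ≤
        cC1 η KH * (w * (1 - w) * D0 + 2 * w ^ 2 * D1) +
        cC2 η * ((1 - w) ^ 2 * ((D0 ^ (-η) - D ^ (-η)) * H00)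
        + (w * D1 ^ (-η) - w ^ (1 + η) * D ^ (-η)) * H11) by
      have e : cC1 η KH * D = cC1 η KH * ((1 - w) * D0 + w * (1 + 2 * w) * D1) := by rw [hDd]
      linarith
    set x : ℝ := w * (1 + 2 * w) * D1 / D with hxd
    have hx : x * D = w * (1 + 2 * w) * D1 := by rw [hxd]; field_simp
    have h1x : (1 - x) * D = (1 - w) * D0 := by rw [hDd] at hx ⊢; linarith
    have hx0 : 0 ≤ x := by rw [hxd]; positivity
    have h1x0 : 0 ≤ 1 - x := by
      by_contra h
      push Not at h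
      have h1 : (1 - x) * D < 0 := mul_neg_of_neg_of_pos h hD
      have h2 : 0 ≤ (1 - w) * D0 := by positivity
      linarith
    set y : ℝ := min x (1 - x) with hyd
    have hy0 : 0 ≤ y := le_min hx0 h1x0
    have hWy : Wt η w D0 D1 = max 1 ((y / w) ^ ((1 - η) / 2)) := by
      unfold Wt
      rw [← hDd, ← hxd, ← hyd]
    by_cases hyA : y ≤ cA η * w
    · have hW : Wt η w D0 D1 ≤ cA η := by
        rw [hWy]
        refine max_le hA1 ?_
        have h1 : y / w ≤ cA η := by rw [div_le_iff₀ hw]; exact hyA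
        have h2 : (y / w) ^ ((1 - η) / 2) ≤ (cA η) ^ ((1 - η) / 2) :=
          Real.rpow_le_rpow (by positivity) h1 (by linarith)
        have h3 := Real.rpow_le_rpow_of_exponent_le hA1 (by linarith : (1 - η) / 2 ≤ 1)
        rw [Real.rpow_one] at h3
        linarith
      have hprod : D0 * D1 ≤ y / w * D ^ 2 := by
        -- x (1-x) ≤ y
        have hxy : x * (1 - x) ≤ y := by
          rw [hyd]
          refine le_min ?_ ?_
          · have := mul_le_mul_of_nonneg_left (by linarith : 1 - x ≤ 1) hx0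
            linarith
          · have := mul_le_mul_of_nonneg_right (by linarith : x ≤ 1) h1x0
            linarith
        have h1 : w * (1 + 2 * w) * (1 - w) * (D0 * D1) = x * (1 - x) * D ^ 2 := by
          calc w * (1 + 2 * w) * (1 - w) * (D0 * D1)
              = (w * (1 + 2 * w) * D1) * ((1 - w) * D0) := by ring
            _ = (x * D) * ((1 - x) * D) := by rw [hx, h1x]
            _ = _ := by ring
        have h2 : 1 ≤ (1 + 2 * w) * (1 - w) := by nlinarith
        have h3 : 0 ≤ D0 * D1 := by positivity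
        have h4 : w * (D0 * D1) ≤ y * D ^ 2 := by
          calc w * (D0 * D1) ≤ w * (D0 * D1) * ((1 + 2 * w) * (1 - w)) :=
                le_mul_of_one_le_right (by positivity) h2
            _ = x * (1 - x) * D ^ 2 := by rw [← h1]; ring
            _ ≤ y * D ^ 2 := mul_le_mul_of_nonneg_right hxy (by positivity)
        rw [div_mul_eq_mul_div, le_div_iff₀ hw]
        linarith
      have := case_i (A := cA η) (C2 := cC2 η) (y := y) (Wv := Wt η w D0 D1) hη hη1 hKH hw hw1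
        hA1 hC2 hD0 hD1 h00 h01 h11 hD b00 b11 b01 hprod hyA hW
      unfold cC1
      exact this
    · push Not at hyA
      have hyp : 0 < y := lt_of_le_of_lt (by positivity) hyA
      have hxp : 0 < x := lt_of_lt_of_le hyp (min_le_left _ _)
      have h1xp : 0 < 1 - x := lt_of_lt_of_le hyp (min_le_right _ _)
      have hD0p : 0 < D0 := by
        have : 0 < (1 - w) * D0 := by rw [← h1x]; positivity
        exact (pos_iff_pos_of_mul_pos this).1 hu
      have hD1p : 0 < D1 := by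
        have h1 : 0 < w * (1 + 2 * w) * D1 := by rw [← hx]; positivity
        exact (pos_iff_pos_of_mul_pos h1).1 (by positivity)
      have h1 := case_ii hη hη1 hw hw1 hD0p hD1p h00 h01 h11 hsq hx hyd hyA
      rw [← hDd] at h1
      have h2 := mul_le_mul_of_nonneg_left h1 hC2.le
      set Y : ℝ := (y / w) ^ ((1 - η) / 2) with hY
      have hyw1 : cA η < y / w := by rw [lt_div_iff₀ hw]; exact hyA
      have hYC : cC2 η ≤ Y := by
        have h3 : (cC2 η) ^ (2 / (1 - η)) ≤ y / w := hA4.trans hyw1.le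
        have h4 : ((cC2 η) ^ (2 / (1 - η))) ^ ((1 - η) / 2) ≤ Y :=
          Real.rpow_le_rpow (Real.rpow_nonneg hC2.le _) h3 (by linarith)
        rw [← Real.rpow_mul hC2.le] at h4
        have h5 : 2 / (1 - η) * ((1 - η) / 2) = 1 := by
          have : (1 - η) ≠ 0 := by linarith
          field_simp
        rwa [h5, Real.rpow_one] at h4
      have hY1 : 1 ≤ Y := by
        rw [hY]
        exact Real.one_le_rpow (by linarith) (by linarith)
      have hWY : Wt η w D0 D1 = Y := by rw [hWy]; exact max_eq_right hY1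
      have hcs : cC2 η * Real.sqrt (c0 η) = 2 := by
        unfold cC2
        have := (Real.sqrt_pos.2 (c0_pos hη)).ne'
        field_simp
      have h3 : 2 * w * (1 - w) * ((Wt η w D0 D1 + cC2 η) * (D ^ (-η) * H01)) ≤
          cC2 η * (D ^ (-η) * (2 * Real.sqrt (c0 η) * w * Y * H01)) := by
        have e : cC2 η * (D ^ (-η) * (2 * Real.sqrt (c0 η) * w * Y * H01)) =
            2 * w * (2 * Y * (D ^ (-η) * H01)) := by
          calc cC2 η * (D ^ (-η) * (2 * Real.sqrt (c0 η) * w * Y * H01))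
              = (cC2 η * Real.sqrt (c0 η)) * (2 * w * Y * (D ^ (-η) * H01)) := by ring
            _ = 2 * w * (2 * Y * (D ^ (-η) * H01)) := by rw [hcs]; ring
        rw [e, hWY]
        have hH : 0 ≤ D ^ (-η) * H01 := by positivity
        have h4 : (Y + cC2 η) * (D ^ (-η) * H01) ≤ 2 * Y * (D ^ (-η) * H01) :=
          mul_le_mul_of_nonneg_right (by linarith) hH
        have h5 : 2 * w * (1 - w) ≤ 2 * w := by
          have := mul_nonneg hw.le hw.le
          linarith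
        exact mul_le_mul h5 h4 (by positivity) (by positivity)
      have h4 : 0 ≤ cC1 η KH * (w * (1 - w) * D0 + 2 * w ^ 2 * D1) := by positivity
      linarith

end Crest.Agent.R4C.ThmNscx104
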