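import Crest.Agent.R4C.ThmTDef_112
import Crest.Agent.R4C.Prefix_935

/-!
# Row 4: THEOREM (T) of note 2368 (helper124): exact-gcd bilinear inequality with an `L^r` relation
weight, by induction over the primes (helper112)

Words are finite sets `b ⊆ P`, `nu w P b = ∏_{p ∈ b} w p ∏_{p ∈ P \ b} (1 - w p)`, `w p = 1/p`.

* `thmT` : the bilinear inequality, the one-prime constants being hypotheses (`TwoPt`).
* `twoPt_four` : the constant `4` is always allowed.
* `relstar` : COROLLARY (REL*) in words form.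
-/

set_option autoImplicit false

open Finset

namespace Crest.Agent.R4C.ThmTx112

open Prefixx935 ThmTDefx112

/-- `gcd(b,c)^(1-κ)` -/
noncomputable def gk (κ : ℝ) (w : ℕ → ℝ) (b c : Finset ℕ) : ℝ := ∏ p ∈ b ∩ c, (w p) ^ (-(1 - κ))

/-- the bilinear form of THEOREM (T) -/
noncomputable def form (κ : ℝ) (w : ℕ → ℝ) (P : Finset ℕ) (f g : Finset ℕ → ℝ)
    (K : Finset ℕ → Finset ℕ → ℝ) : ℝ :=
  ∑ b ∈ P.powerset, ∑ c ∈ P.powerset,
    nu w P b * nu w P c * gk κ w b c * (f b * g c * K (b \ c) (c \ b))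

/-- `(b/φ(b))^(q/q')` -/
noncomputable def lam (κ : ℝ) (w : ℕ → ℝ) (b : Finset ℕ) : ℝ :=
  ∏ p ∈ b, (1 - w p) ^ (-((1 - κ) / (1 + κ)))

/-- `‖f‖^q` -/
noncomputable def nfq (κ : ℝ) (w : ℕ → ℝ) (P : Finset ℕ) (f : Finset ℕ → ℝ) : ℝ :=
  ∑ b ∈ P.powerset, nu w P b * lam κ w b * f b ^ (2 / (1 + κ))

/-- `‖K‖^r` -/
noncomputable def nKr (r : ℝ) (w : ℕ → ℝ) (P : Finset ℕ) (K : Finset ℕ → Finset ℕ → ℝ) : ℝ :=
  ∑ s ∈ P.powerset, ∑ t ∈ P.powerset, nu w P s * nu w P t * K s t ^ r

variable {κ r : ℝ} {w : ℕ → ℝ}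

lemma nu_ins0 {P b : Finset ℕ} {p : ℕ} (hp : p ∉ P) (hb : b ⊆ P) :
    nu w (insert p P) b = (1 - w p) * nu w P b := by
  unfold nu
  have hpb : p ∉ b := fun h => hp (hb h)
  rw [insert_sdiff_of_notMem _ hpb, prod_insert (fun h => hp (mem_sdiff.mp h).1)]
  ring

lemma nu_ins1 {P b : Finset ℕ} {p : ℕ} (hp : p ∉ P) (hb : b ⊆ P) :
    nu w (insert p P) (insert p b) = w p * nu w P b := by
  unfold nu
  have hpb : p ∉ b := fun h => hp (hb h)
  rw [prod_insert hpb]
  have : insert p P \ insert p b = P \ b := by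
    ext x
    simp only [mem_sdiff, mem_insert]
    constructor
    · rintro ⟨rfl | h, h2⟩
      · exact absurd (Or.inl rfl) h2
      · exact ⟨h, fun h3 => h2 (Or.inr h3)⟩
    · rintro ⟨h, h2⟩
      refine ⟨Or.inr h, ?_⟩
      rintro (rfl | h3)
      · exact hp h
      · exact h2 h3
  rw [this]
  ring

lemma gk_11 {b c : Finset ℕ} {p : ℕ} (hb : p ∉ b) :
    gk κ w (insert p b) (insert p c) = (w p) ^ (-(1 - κ)) * gk κ w b c := by
  unfold gk
  have : insert p b ∩ insert p c = insert p (b ∩ c) := by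
    rw [insert_inter_distrib]
  rw [this, prod_insert (fun h => hb (mem_inter.mp h).1)]

lemma gk_10 {b c : Finset ℕ} {p : ℕ} (hc : p ∉ c) :
    gk κ w (insert p b) c = gk κ w b c := by
  unfold gk
  rw [insert_inter_of_notMem hc]

lemma gk_01 {b c : Finset ℕ} {p : ℕ} (hb : p ∉ b) :
    gk κ w b (insert p c) = gk κ w b c := by
  unfold gk
  rw [inter_insert_of_notMem hb]

lemma sd_11 {b c : Finset ℕ} {p : ℕ} (hb : p ∉ b) : insert p b \ insert p c = b \ c := by
  ext x
  simp only [mem_sdiff, mem_insert]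
  constructor
  · rintro ⟨rfl | h, h2⟩
    · exact absurd (Or.inl rfl) h2
    · exact ⟨h, fun h3 => h2 (Or.inr h3)⟩
  · rintro ⟨h, h2⟩
    refine ⟨Or.inr h, ?_⟩
    rintro (rfl | h3)
    · exact hb h
    · exact h2 h3

lemma sd_10 {b c : Finset ℕ} {p : ℕ} (hc : p ∉ c) : insert p b \ c = insert p (b \ c) :=
  insert_sdiff_of_notMem _ hc

lemma sd_01 {b c : Finset ℕ} {p : ℕ} (hb : p ∉ b) : b \ insert p c = b \ c := by
  ext x
  simp only [mem_sdiff, mem_insert, not_or]
  constructor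
  · rintro ⟨h, h2⟩
    exact ⟨h, h2.2⟩
  · rintro ⟨h, h2⟩
    exact ⟨h, fun h3 => hb (h3 ▸ h), h2⟩

lemma form_insert {P : Finset ℕ} {p : ℕ} (hp : p ∉ P) (hw : 0 < w p) (f g : Finset ℕ → ℝ)
    (K : Finset ℕ → Finset ℕ → ℝ) :
    form κ w (insert p P) f g K =
      (1 - w p) ^ 2 * form κ w P f g K
      + (w p) ^ (1 + κ) * form κ w P (fun b => f (insert p b)) (fun b => g (insert p b)) K
      + w p * (1 - w p) * (form κ w P (fun b => f (insert p b)) g (fun s t => K (insert p s) t)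
        + form κ w P f (fun b => g (insert p b)) (fun s t => K s (insert p t))) := by
  unfold form
  rw [sum_powerset_insert hp]
  have e0 : ∀ b ∈ P.powerset, ∑ c ∈ (insert p P).powerset,
      nu w (insert p P) b * nu w (insert p P) c * gk κ w b c * (f b * g c * K (b \ c) (c \ b)) =
      (1 - w p) ^ 2 * ∑ c ∈ P.powerset,
        nu w P b * nu w P c * gk κ w b c * (f b * g c * K (b \ c) (c \ b))
      + w p * (1 - w p) * ∑ c ∈ P.powerset,
        nu w P b * nu w P c * gk κ w b c *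
          (f b * g (insert p c) * K (b \ c) (insert p (c \ b))) := by
    intro b hb
    have hbP := mem_powerset.mp hb
    have hpb : p ∉ b := fun h => hp (hbP h)
    rw [sum_powerset_insert hp, mul_sum, mul_sum]
    congr 1
    · refine sum_congr rfl fun c hc => ?_
      rw [nu_ins0 hp hbP, nu_ins0 hp (mem_powerset.mp hc)]
      ring
    · refine sum_congr rfl fun c hc => ?_
      rw [nu_ins0 hp hbP, nu_ins1 hp (mem_powerset.mp hc), gk_01 hpb, sd_01 hpb, sd_10 hpb]
      ring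
  have e1 : ∀ b ∈ P.powerset, ∑ c ∈ (insert p P).powerset,
      nu w (insert p P) (insert p b) * nu w (insert p P) c * gk κ w (insert p b) c *
        (f (insert p b) * g c * K (insert p b \ c) (c \ insert p b)) =
      (w p) ^ (1 + κ) * ∑ c ∈ P.powerset,
        nu w P b * nu w P c * gk κ w b c *
          (f (insert p b) * g (insert p c) * K (b \ c) (c \ b))
      + w p * (1 - w p) * ∑ c ∈ P.powerset,
        nu w P b * nu w P c * gk κ w b c *
          (f (insert p b) * g c * K (insert p (b \ c)) (c \ b)) := by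
    intro b hb
    have hbP := mem_powerset.mp hb
    have hpb : p ∉ b := fun h => hp (hbP h)
    rw [sum_powerset_insert hp, mul_sum, mul_sum, add_comm]
    congr 1
    · refine sum_congr rfl fun c hc => ?_
      have hpc : p ∉ c := fun h => hp ((mem_powerset.mp hc) h)
      rw [nu_ins1 hp hbP, nu_ins1 hp (mem_powerset.mp hc), gk_11 hpb, sd_11 hpb, sd_11 hpc]
      have e : w p * w p * (w p) ^ (-(1 - κ)) = (w p) ^ (1 + κ) := by
        rw [show w p * w p = (w p) ^ (2 : ℝ) by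
          rw [show (2 : ℝ) = ((2 : ℕ) : ℝ) by norm_num, Real.rpow_natCast]; ring]
        rw [← Real.rpow_add hw]
        congr 1
        ring
      rw [← e]
      ring
    · refine sum_congr rfl fun c hc => ?_
      have hpc : p ∉ c := fun h => hp ((mem_powerset.mp hc) h)
      rw [nu_ins1 hp hbP, nu_ins0 hp (mem_powerset.mp hc), gk_10 hpc, sd_10 hpc, sd_01 hpc]
      ring
  rw [sum_congr rfl e0, sum_congr rfl e1, sum_add_distrib, sum_add_distrib]
  simp only [← mul_sum]
  ring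

lemma lam_nonneg (h : ∀ p, 0 < w p ∧ w p < 1) (b : Finset ℕ) : 0 ≤ lam κ w b :=
  prod_nonneg fun p _ => Real.rpow_nonneg (by linarith [(h p).2]) _

lemma nfq_insert {P : Finset ℕ} {p : ℕ} (hp : p ∉ P) (f : Finset ℕ → ℝ) :
    nfq κ w (insert p P) f = (1 - w p) * nfq κ w P f
      + w p * (1 - w p) ^ (-((1 - κ) / (1 + κ))) * nfq κ w P (fun b => f (insert p b)) := by
  unfold nfq
  rw [sum_powerset_insert hp, mul_sum, mul_sum]
  congr 1
  · refine sum_congr rfl fun b hb => ?_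
    rw [nu_ins0 hp (mem_powerset.mp hb)]
    ring
  · refine sum_congr rfl fun b hb => ?_
    have hpb : p ∉ b := fun h => hp ((mem_powerset.mp hb) h)
    have : lam κ w (insert p b) = (1 - w p) ^ (-((1 - κ) / (1 + κ))) * lam κ w b := by
      unfold lam
      rw [prod_insert hpb]
    rw [nu_ins1 hp (mem_powerset.mp hb), this]
    ring

lemma nu_nn (h : ∀ p, 0 < w p ∧ w p < 1) (P b : Finset ℕ) : 0 ≤ nu w P b :=
  nu_nonneg fun p => ⟨(h p).1.le, (h p).2.le⟩

lemma nfq_nonneg (h : ∀ p, 0 < w p ∧ w p < 1) (P : Finset ℕ) {f : Finset ℕ → ℝ}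
    (hf : ∀ b, 0 ≤ f b) : 0 ≤ nfq κ w P f :=
  sum_nonneg fun b _ => mul_nonneg (mul_nonneg (nu_nn h _ _) (lam_nonneg h _))
    (Real.rpow_nonneg (hf b) _)

lemma nKr_nonneg (h : ∀ p, 0 < w p ∧ w p < 1) (P : Finset ℕ) {K : Finset ℕ → Finset ℕ → ℝ}
    (hK : ∀ s t, 0 ≤ K s t) : 0 ≤ nKr r w P K :=
  sum_nonneg fun s _ => sum_nonneg fun t _ => mul_nonneg (mul_nonneg (nu_nn h _ _) (nu_nn h _ _))
    (Real.rpow_nonneg (hK s t) _)

lemma nKr_insert_ge (h : ∀ p, 0 < w p ∧ w p < 1) {P : Finset ℕ} {p : ℕ} (hp : p ∉ P)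
    {K : Finset ℕ → Finset ℕ → ℝ} (hK : ∀ s t, 0 ≤ K s t) :
    (1 - w p) ^ 2 * nKr r w P K + w p * (1 - w p) *
      (nKr r w P (fun s t => K (insert p s) t) + nKr r w P (fun s t => K s (insert p t)))
      ≤ nKr r w (insert p P) K := by
  have e : nKr r w (insert p P) K = (1 - w p) ^ 2 * nKr r w P K + w p * (1 - w p) *
      (nKr r w P (fun s t => K (insert p s) t) + nKr r w P (fun s t => K s (insert p t)))
      + (w p) ^ 2 * nKr r w P (fun s t => K (insert p s) (insert p t)) := by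
    unfold nKr
    rw [sum_powerset_insert hp]
    have e0 : ∀ s ∈ P.powerset, ∑ t ∈ (insert p P).powerset,
        nu w (insert p P) s * nu w (insert p P) t * K s t ^ r =
        (1 - w p) ^ 2 * ∑ t ∈ P.powerset, nu w P s * nu w P t * K s t ^ r
        + w p * (1 - w p) * ∑ t ∈ P.powerset, nu w P s * nu w P t * K s (insert p t) ^ r := by
      intro s hs
      rw [sum_powerset_insert hp, mul_sum, mul_sum]
      congr 1
      · refine sum_congr rfl fun t ht => ?_
        rw [nu_ins0 hp (mem_powerset.mp hs), nu_ins0 hp (mem_powerset.mp ht)]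
        ring
      · refine sum_congr rfl fun t ht => ?_
        rw [nu_ins0 hp (mem_powerset.mp hs), nu_ins1 hp (mem_powerset.mp ht)]
        ring
    have e1 : ∀ s ∈ P.powerset, ∑ t ∈ (insert p P).powerset,
        nu w (insert p P) (insert p s) * nu w (insert p P) t * K (insert p s) t ^ r =
        w p * (1 - w p) * ∑ t ∈ P.powerset, nu w P s * nu w P t * K (insert p s) t ^ r
        + (w p) ^ 2 * ∑ t ∈ P.powerset,
          nu w P s * nu w P t * K (insert p s) (insert p t) ^ r := by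
      intro s hs
      rw [sum_powerset_insert hp, mul_sum, mul_sum]
      congr 1
      · refine sum_congr rfl fun t ht => ?_
        rw [nu_ins1 hp (mem_powerset.mp hs), nu_ins0 hp (mem_powerset.mp ht)]
        ring
      · refine sum_congr rfl fun t ht => ?_
        rw [nu_ins1 hp (mem_powerset.mp hs), nu_ins1 hp (mem_powerset.mp ht)]
        ring
    rw [sum_congr rfl e0, sum_congr rfl e1, sum_add_distrib, sum_add_distrib]
    simp only [← mul_sum]
    ring
  rw [e]
  have := nKr_nonneg (r := r) h P (K := fun s t => K (insert p s) (insert p t))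
    (fun s t => hK _ _)
  nlinarith [mul_nonneg (sq_nonneg (w p)) this]

/-- **THEOREM (T)** of note 2368: the one-prime constants `C p` are hypotheses -/
theorem thmT (hκ : 0 < κ) (hr : 0 < r) (h : ∀ p, 0 < w p ∧ w p < 1) {C : ℕ → ℝ}
    (P : Finset ℕ) (hC0 : ∀ p ∈ P, 0 ≤ C p) (hC : ∀ p ∈ P, TwoPt κ r (w p) (C p)) :
    ∀ (f g : Finset ℕ → ℝ) (K : Finset ℕ → Finset ℕ → ℝ), (∀ b, 0 ≤ f b) → (∀ b, 0 ≤ g b) →
      (∀ s t, 0 ≤ K s t) →
      form κ w P f g K ≤ (∏ p ∈ P, C p) *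
        ((nfq κ w P f) ^ ((1 + κ) / 2) * (nfq κ w P g) ^ ((1 + κ) / 2)
          * (nKr r w P K) ^ (1 / r)) := by
  induction P using Finset.induction_on with
  | empty =>
    intro f g K hf hg hK
    simp only [form, nfq, nKr, powerset_empty, sum_singleton, prod_empty, one_mul, nu, gk, lam,
      inter_self, sdiff_self, mul_one, sdiff_empty, Finset.bot_eq_empty]
    have hq : (2 / (1 + κ)) * ((1 + κ) / 2) = 1 := by field_simp
    rw [← Real.rpow_mul (hf _), hq, Real.rpow_one, ← Real.rpow_mul (hg _), hq, Real.rpow_one,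
      ← Real.rpow_mul (hK _ _), show r * (1 / r) = 1 by field_simp, Real.rpow_one]
  | insert p P hp ih =>
    intro f g K hf hg hK
    have ih' := ih (fun x hx => hC0 x (mem_insert_of_mem hx))
      (fun x hx => hC x (mem_insert_of_mem hx))
    set Q := ∏ p ∈ P, C p with hQ
    have hQ0 : 0 ≤ Q := prod_nonneg fun x hx => hC0 x (mem_insert_of_mem hx)
    have hw0 := (h p).1
    have hw1 := (h p).2
    -- the nine numbers
    set f1 : Finset ℕ → ℝ := fun b => f (insert p b) with hf1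
    set g1 : Finset ℕ → ℝ := fun b => g (insert p b) with hg1
    set K10 : Finset ℕ → Finset ℕ → ℝ := fun s t => K (insert p s) t with hK10
    set K01 : Finset ℕ → Finset ℕ → ℝ := fun s t => K s (insert p t) with hK01
    have hf1' : ∀ b, 0 ≤ f1 b := fun b => hf _
    have hg1' : ∀ b, 0 ≤ g1 b := fun b => hg _
    have hK10' : ∀ s t, 0 ≤ K10 s t := fun s t => hK _ _
    have hK01' : ∀ s t, 0 ≤ K01 s t := fun s t => hK _ _
    have A00 := ih' f g K hf hg hK
    have A11 := ih' f1 g1 K hf1' hg1' hK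
    have A10 := ih' f1 g K10 hf1' hg hK10'
    have A01 := ih' f g1 K01 hf hg1' hK01'
    have nF0 := nfq_nonneg (κ := κ) h P hf
    have nF1 := nfq_nonneg (κ := κ) h P hf1'
    have nG0 := nfq_nonneg (κ := κ) h P hg
    have nG1 := nfq_nonneg (κ := κ) h P hg1'
    have nK0 := nKr_nonneg (r := r) h P hK
    have nK1 := nKr_nonneg (r := r) h P hK10'
    have nK2 := nKr_nonneg (r := r) h P hK01'
    set F0 := (nfq κ w P f) ^ ((1 + κ) / 2) with hF0
    set F1 := (nfq κ w P f1) ^ ((1 + κ) / 2) with hF1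
    set G0 := (nfq κ w P g) ^ ((1 + κ) / 2) with hG0
    set G1 := (nfq κ w P g1) ^ ((1 + κ) / 2) with hG1
    set k0 := (nKr r w P K) ^ (1 / r) with hk0
    set k1 := (nKr r w P K10) ^ (1 / r) with hk1
    set k2 := (nKr r w P K01) ^ (1 / r) with hk2
    have pF0 : 0 ≤ F0 := Real.rpow_nonneg nF0 _
    have pF1 : 0 ≤ F1 := Real.rpow_nonneg nF1 _
    have pG0 : 0 ≤ G0 := Real.rpow_nonneg nG0 _
    have pG1 : 0 ≤ G1 := Real.rpow_nonneg nG1 _
    have pk0 : 0 ≤ k0 := Real.rpow_nonneg nK0 _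
    have pk1 : 0 ≤ k1 := Real.rpow_nonneg nK1 _
    have pk2 : 0 ≤ k2 := Real.rpow_nonneg nK2 _
    have hq : ((1 + κ) / 2) * (2 / (1 + κ)) = 1 := by field_simp
    have hr1 : (1 / r) * r = 1 := by field_simp
    have eF0 : F0 ^ (2 / (1 + κ)) = nfq κ w P f := by
      rw [hF0, ← Real.rpow_mul nF0, hq, Real.rpow_one]
    have eF1 : F1 ^ (2 / (1 + κ)) = nfq κ w P f1 := by
      rw [hF1, ← Real.rpow_mul nF1, hq, Real.rpow_one]
    have eG0 : G0 ^ (2 / (1 + κ)) = nfq κ w P g := by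
      rw [hG0, ← Real.rpow_mul nG0, hq, Real.rpow_one]
    have eG1 : G1 ^ (2 / (1 + κ)) = nfq κ w P g1 := by
      rw [hG1, ← Real.rpow_mul nG1, hq, Real.rpow_one]
    have ek0 : k0 ^ r = nKr r w P K := by
      rw [hk0, ← Real.rpow_mul nK0, hr1, Real.rpow_one]
    have ek1 : k1 ^ r = nKr r w P K10 := by
      rw [hk1, ← Real.rpow_mul nK1, hr1, Real.rpow_one]
    have ek2 : k2 ^ r = nKr r w P K01 := by
      rw [hk2, ← Real.rpow_mul nK2, hr1, Real.rpow_one]
    have hT := hC p (mem_insert_self _ _) F0 F1 G0 G1 k0 k1 k2 pF0 pF1 pG0 pG1 pk0 pk1 pk2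
    rw [eF0, eF1, eG0, eG1, ek0, ek1, ek2] at hT
    rw [form_insert hp hw0, prod_insert hp, nfq_insert hp f, nfq_insert hp g]
    have step1 : (1 - w p) ^ 2 * form κ w P f g K
        + (w p) ^ (1 + κ) * form κ w P f1 g1 K
        + w p * (1 - w p) * (form κ w P f1 g K10 + form κ w P f g1 K01)
        ≤ Q * ((1 - w p) ^ 2 * (F0 * G0 * k0) + (w p) ^ (1 + κ) * (F1 * G1 * k0)
          + w p * (1 - w p) * (F1 * G0 * k1 + F0 * G1 * k2)) := by
      have t1 := mul_le_mul_of_nonneg_left A00 (sq_nonneg (1 - w p))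
      have t2 := mul_le_mul_of_nonneg_left A11 (Real.rpow_nonneg hw0.le (1 + κ))
      have t3 := mul_le_mul_of_nonneg_left (add_le_add A10 A01)
        (mul_nonneg hw0.le (by linarith : (0 : ℝ) ≤ 1 - w p))
      calc _ ≤ _ := add_le_add (add_le_add t1 t2) t3
        _ = _ := by ring
    refine step1.trans ?_
    have step2 := mul_le_mul_of_nonneg_left hT hQ0
    refine step2.trans ?_
    have hk : ((1 - w p) ^ 2 * nKr r w P K
        + w p * (1 - w p) * (nKr r w P K10 + nKr r w P K01)) ^ (1 / r)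
        ≤ (nKr r w (insert p P) K) ^ (1 / r) := by
      refine Real.rpow_le_rpow ?_ (nKr_insert_ge h hp hK) (by positivity)
      have : 0 ≤ 1 - w p := by linarith
      positivity
    have hX : 0 ≤ ((1 - w p) * nfq κ w P f
        + w p * (1 - w p) ^ (-((1 - κ) / (1 + κ))) * nfq κ w P f1) ^ ((1 + κ) / 2)
        * ((1 - w p) * nfq κ w P g
        + w p * (1 - w p) ^ (-((1 - κ) / (1 + κ))) * nfq κ w P g1) ^ ((1 + κ) / 2) := by
      have h1 : 0 ≤ 1 - w p := by linarith
      have h2 : 0 ≤ (1 - w p) ^ (-((1 - κ) / (1 + κ))) := Real.rpow_nonneg h1 _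
      positivity
    have hCp := hC0 p (mem_insert_self _ _)
    have := mul_le_mul_of_nonneg_left hk hX
    have h3 := mul_le_mul_of_nonneg_left this (mul_nonneg hCp hQ0)
    calc _ = C p * Q * (((1 - w p) * nfq κ w P f
        + w p * (1 - w p) ^ (-((1 - κ) / (1 + κ))) * nfq κ w P f1) ^ ((1 + κ) / 2)
        * ((1 - w p) * nfq κ w P g
        + w p * (1 - w p) ^ (-((1 - κ) / (1 + κ))) * nfq κ w P g1) ^ ((1 + κ) / 2)
        * ((1 - w p) ^ 2 * nKr r w P K
        + w p * (1 - w p) * (nKr r w P K10 + nKr r w P K01)) ^ (1 / r)) := by ring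
      _ ≤ _ := h3

end Crest.Agent.R4C.ThmTx112
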