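import Crest.Agent.R4C.Base_935

/-!
# Row 4: trie toolkit for general `M` (helper21)

* `part S n` : the part of `n` made of the primes satisfying `S`, with multiplicity;
  `lo z n`, `hi z n` : parts in primes `≤ z`, `> z`.
* `nu`, `gcd`, sums over divisors and `frm` factor along `M = part S M * part Sᶜ M`.
* `frm_part` : exact splitting of the pair form.
* divergence decompositions (largest / smallest differing prime first) and telescoping drops.
-/

set_option autoImplicit false

namespace Crest.Agent.R4C.Triex21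

open Finset Basex935

/-- part of `n` in the primes satisfying `S` (with multiplicity) -/
noncomputable def part (S : ℕ → Prop) [DecidablePred S] (n : ℕ) : ℕ :=
  (n.factorization.filter S).prod (fun p k => p ^ k)

section part

variable (S : ℕ → Prop) [DecidablePred S]

lemma part_fac (n : ℕ) : (part S n).factorization = n.factorization.filter S := by
  unfold part
  refine Nat.prod_pow_factorization_eq_self fun p hp => ?_
  rw [Finsupp.support_filter, Finset.mem_filter] at hp
  exact Nat.prime_of_mem_primeFactors (by simpa using hp.1)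

lemma part_fac_apply (n p : ℕ) :
    (part S n).factorization p = if S p then n.factorization p else 0 := by
  rw [part_fac, Finsupp.filter_apply]

lemma part_pos (n : ℕ) : 0 < part S n := by
  unfold part
  refine Nat.pos_of_ne_zero (Finsupp.prod_ne_zero_iff.mpr fun p hp => ?_)
  rw [Finsupp.support_filter, Finset.mem_filter] at hp
  exact pow_ne_zero _ (Nat.prime_of_mem_primeFactors (by simpa using hp.1)).ne_zero

lemma part_ne_zero (n : ℕ) : part S n ≠ 0 := (part_pos S n).ne'

@[simp] lemma part_one : part S 1 = 1 := by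
  refine Nat.eq_of_factorization_eq (part_ne_zero S 1) one_ne_zero fun p => ?_
  rw [part_fac_apply]
  simp

@[simp] lemma part_zero : part S 0 = 1 := by
  refine Nat.eq_of_factorization_eq (part_ne_zero S 0) one_ne_zero fun p => ?_
  rw [part_fac_apply]
  simp

lemma part_mul_part {n : ℕ} (hn : n ≠ 0) : part S n * part (fun p => ¬ S p) n = n := by
  refine Nat.eq_of_factorization_eq (mul_ne_zero (part_ne_zero _ _) (part_ne_zero _ _)) hn
    fun p => ?_
  rw [Nat.factorization_mul (part_ne_zero _ _) (part_ne_zero _ _), Finsupp.add_apply,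
    part_fac_apply, part_fac_apply]
  by_cases h : S p <;> simp [h]

lemma part_mul {a b : ℕ} (ha : a ≠ 0) (hb : b ≠ 0) : part S (a * b) = part S a * part S b := by
  refine Nat.eq_of_factorization_eq (part_ne_zero _ _)
    (mul_ne_zero (part_ne_zero _ _) (part_ne_zero _ _)) fun p => ?_
  rw [Nat.factorization_mul (part_ne_zero _ _) (part_ne_zero _ _), Finsupp.add_apply,
    part_fac_apply, part_fac_apply, part_fac_apply, Nat.factorization_mul ha hb,
    Finsupp.add_apply]
  by_cases h : S p <;> simp [h]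

lemma part_dvd {n : ℕ} : part S n ∣ n := by
  rcases eq_or_ne n 0 with rfl | hn
  · simp
  · exact Dvd.intro _ (part_mul_part S hn)

lemma part_dvd_part {b M : ℕ} (hM : M ≠ 0) (h : b ∣ M) : part S b ∣ part S M := by
  obtain ⟨c, rfl⟩ := h
  rw [part_mul S (left_ne_zero_of_mul hM) (right_ne_zero_of_mul hM)]
  exact Dvd.intro _ rfl

/-- primes of `part S n` satisfy `S` -/
lemma prime_part {n p : ℕ} (hp : p.Prime) (h : p ∣ part S n) : S p := by
  by_contra hS
  have h1 := (Nat.Prime.dvd_iff_one_le_factorization hp (part_ne_zero S n)).1 h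
  rw [part_fac_apply, if_neg hS] at h1
  omega

lemma prime_dvd_of_dvd_part {n p : ℕ} (h : p ∣ part S n) : p ∣ n := h.trans (part_dvd S)

/-- `part S u = u` if all the primes of `u` satisfy `S` -/
lemma part_eq_self {u : ℕ} (hu : u ≠ 0) (h : ∀ p, p.Prime → p ∣ u → S p) : part S u = u := by
  refine Nat.eq_of_factorization_eq (part_ne_zero _ _) hu fun p => ?_
  rw [part_fac_apply]
  by_cases hS : S p
  · rw [if_pos hS]
  · rw [if_neg hS]
    by_cases hp : p.Prime
    · refine (Nat.factorization_eq_zero_of_not_dvd fun hd => hS (h p hp hd)).symm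
    · exact (Nat.factorization_eq_zero_of_not_prime _ hp).symm

/-- `part S u = 1` if no prime of `u` satisfies `S` -/
lemma part_eq_one {u : ℕ} (h : ∀ p, p.Prime → p ∣ u → ¬ S p) : part S u = 1 := by
  refine Nat.eq_of_factorization_eq (part_ne_zero _ _) one_ne_zero fun p => ?_
  rw [part_fac_apply]
  by_cases hS : S p
  · rw [if_pos hS]
    by_cases hp : p.Prime
    · rw [Nat.factorization_one, Finsupp.zero_apply]
      exact Nat.factorization_eq_zero_of_not_dvd fun hd => h p hp hd hS
    · rw [Nat.factorization_eq_zero_of_not_prime _ hp]; simp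
  · rw [if_neg hS]; simp

lemma part_of_dvd_part {u M : ℕ} (h : u ∣ part S M) : part S u = u :=
  part_eq_self S (fun hc => part_ne_zero S M (Nat.eq_zero_of_zero_dvd (hc ▸ h)))
    fun _ hp hd => prime_part S hp (hd.trans h)

lemma part_of_dvd_compl {u M : ℕ} (h : u ∣ part (fun p => ¬ S p) M) : part S u = 1 :=
  part_eq_one S fun _ hp hd => prime_part (fun p => ¬ S p) hp (hd.trans h)

lemma compl_of_dvd_part {u M : ℕ} (h : u ∣ part S M) : part (fun p => ¬ S p) u = 1 :=
  part_eq_one _ fun _ hp hd => not_not.2 (prime_part S hp (hd.trans h))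

lemma part_coprime (a b : ℕ) : Nat.Coprime (part S a) (part (fun p => ¬ S p) b) := by
  refine Nat.coprime_of_dvd fun p hp h1 h2 => ?_
  exact prime_part (fun p => ¬ S p) hp h2 (prime_part S hp h1)

lemma part_mul_eq_left {u T M M' : ℕ} (hu : u ∣ part S M) (hT : T ∣ part (fun p => ¬ S p) M') :
    part S (u * T) = u := by
  have hu0 : u ≠ 0 := fun hc => part_ne_zero S M (Nat.eq_zero_of_zero_dvd (hc ▸ hu))
  have hT0 : T ≠ 0 := fun hc => part_ne_zero _ M' (Nat.eq_zero_of_zero_dvd (hc ▸ hT))
  rw [part_mul S hu0 hT0, part_of_dvd_part S hu, part_of_dvd_compl S hT, mul_one]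

lemma part_mul_eq_right {u T M M' : ℕ} (hu : u ∣ part S M) (hT : T ∣ part (fun p => ¬ S p) M') :
    part (fun p => ¬ S p) (u * T) = T := by
  have hu0 : u ≠ 0 := fun hc => part_ne_zero S M (Nat.eq_zero_of_zero_dvd (hc ▸ hu))
  have hT0 : T ≠ 0 := fun hc => part_ne_zero _ M' (Nat.eq_zero_of_zero_dvd (hc ▸ hT))
  rw [part_mul _ hu0 hT0, compl_of_dvd_part S hu, part_of_dvd_part _ hT, one_mul]

lemma gcd_part {b c : ℕ} (hb : b ≠ 0) (hc : c ≠ 0) :
    part S (Nat.gcd b c) = Nat.gcd (part S b) (part S c) := by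
  have hg : Nat.gcd b c ≠ 0 := fun h => hb (Nat.eq_zero_of_gcd_eq_zero_left h)
  have hg2 : Nat.gcd (part S b) (part S c) ≠ 0 := fun h =>
    part_ne_zero S b (Nat.eq_zero_of_gcd_eq_zero_left h)
  refine Nat.eq_of_factorization_eq (part_ne_zero _ _) hg2 fun p => ?_
  rw [part_fac_apply, Nat.factorization_gcd hb hc,
    Nat.factorization_gcd (part_ne_zero _ _) (part_ne_zero _ _), Finsupp.inf_apply,
    Finsupp.inf_apply, part_fac_apply, part_fac_apply]
  by_cases h : S p <;> simp [h]

lemma gcd_eq_mul {b c : ℕ} (hb : b ≠ 0) (hc : c ≠ 0) :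
    Nat.gcd b c = Nat.gcd (part S b) (part S c) *
      Nat.gcd (part (fun p => ¬ S p) b) (part (fun p => ¬ S p) c) := by
  have hg : Nat.gcd b c ≠ 0 := fun h => hb (Nat.eq_zero_of_gcd_eq_zero_left h)
  rw [← gcd_part S hb hc, ← gcd_part _ hb hc, part_mul_part S hg]

/-- `nu` along the splitting -/
lemma nu_part {M b : ℕ} (hM : M ≠ 0) (hb : b ∣ M) :
    nu M b = nu (part S M) (part S b) *
      nu (part (fun p => ¬ S p) M) (part (fun p => ¬ S p) b) := by
  have hb0 : b ≠ 0 := fun hc => hM (Nat.eq_zero_of_zero_dvd (hc ▸ hb))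
  conv_lhs => rw [← part_mul_part S hM, ← part_mul_part S hb0]
  exact nu_mul (part_coprime S M M) (part_dvd_part S hM hb) (part_dvd_part _ hM hb)

end part

/-- sum over the divisors of a product of coprime numbers -/
lemma sum_divisors_coprime {M1 M2 : ℕ} (h : Nat.Coprime M1 M2) (F : ℕ → ℝ) :
    ∑ b ∈ (M1 * M2).divisors, F b =
      ∑ u ∈ M1.divisors, ∑ T ∈ M2.divisors, F (u * T) := by
  classical
  rw [Nat.divisors_mul, Finset.mul_def, Finset.sum_image, Finset.sum_product]
  intro x hx y hy he
  exact h.mul_injOn_divisors hx hy he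

/-- sum over the divisors of `M` along `S` -/
lemma sum_part (S : ℕ → Prop) [DecidablePred S] {M : ℕ} (hM : M ≠ 0) (F : ℕ → ℝ) :
    ∑ b ∈ M.divisors, F b =
      ∑ u ∈ (part S M).divisors, ∑ T ∈ (part (fun p => ¬ S p) M).divisors, F (u * T) := by
  rw [← sum_divisors_coprime (part_coprime S M M), part_mul_part S hM]

/-- `frm` of a product of coprime numbers -/
lemma frm_mul {M1 M2 : ℕ} (h : Nat.Coprime M1 M2) (F : ℕ → ℕ → ℝ) :
    frm (M1 * M2) F = ∑ T ∈ M2.divisors, ∑ T' ∈ M2.divisors,
      (Nat.gcd T T' : ℝ) * nu M2 T * nu M2 T' * frm M1 (fun u u' => F (u * T) (u' * T')) := by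
  classical
  unfold frm
  rw [sum_divisors_coprime h, Finset.sum_comm]
  refine Finset.sum_congr rfl fun T hT => ?_
  calc ∑ u ∈ M1.divisors, ∑ c ∈ (M1 * M2).divisors,
        (Nat.gcd (u * T) c : ℝ) * nu (M1 * M2) (u * T) * nu (M1 * M2) c * F (u * T) c
      = ∑ u ∈ M1.divisors, ∑ T' ∈ M2.divisors, ∑ u' ∈ M1.divisors,
        (Nat.gcd (u * T) (u' * T') : ℝ) * nu (M1 * M2) (u * T) * nu (M1 * M2) (u' * T') *
          F (u * T) (u' * T') :=
        Finset.sum_congr rfl fun u _ => by rw [sum_divisors_coprime h, Finset.sum_comm]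
    _ = ∑ T' ∈ M2.divisors, ∑ u ∈ M1.divisors, ∑ u' ∈ M1.divisors,
        (Nat.gcd (u * T) (u' * T') : ℝ) * nu (M1 * M2) (u * T) * nu (M1 * M2) (u' * T') *
          F (u * T) (u' * T') := Finset.sum_comm
    _ = _ := by
        refine Finset.sum_congr rfl fun T' hT' => ?_
        rw [Finset.mul_sum]
        refine Finset.sum_congr rfl fun u hu => ?_
        rw [Finset.mul_sum]
        refine Finset.sum_congr rfl fun u' hu' => ?_
        rw [Nat.mem_divisors] at hT hT' hu hu'
        have hg : Nat.gcd (u * T) (u' * T') = Nat.gcd u u' * Nat.gcd T T' := by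
          have h1 : Nat.Coprime u T' := h.coprime_dvd_left hu.1 |>.coprime_dvd_right hT'.1
          have h2 : Nat.Coprime T u' := (h.coprime_dvd_left hu'.1 |>.coprime_dvd_right hT.1).symm
          rw [Nat.Coprime.gcd_mul _ (h.coprime_dvd_left hu'.1 |>.coprime_dvd_right hT'.1)]
          congr 1
          · exact Nat.Coprime.gcd_mul_right_cancel u h2
          · exact Nat.Coprime.gcd_mul_left_cancel T h1
        rw [hg, nu_mul h hu.1 hT.1, nu_mul h hu'.1 hT'.1]
        push_cast
        ring


/-! ### the missing primes and `kap` -/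

/-- product over the missing primes of `b` (the primes of `M / b`) -/
noncomputable def kap (M b : ℕ) : ℝ :=
  ∏ p ∈ (M.primeFactors).filter (fun p => b.factorization p < M.factorization p),
    (1 - 1 / (p : ℝ))

lemma primeFactors_div {M b : ℕ} (hM : M ≠ 0) (hb : b ∣ M) :
    (M / b).primeFactors =
      (M.primeFactors).filter (fun p => b.factorization p < M.factorization p) := by
  have hb0 : b ≠ 0 := fun hc => hM (Nat.eq_zero_of_zero_dvd (hc ▸ hb))
  have hd0 : M / b ≠ 0 := (Nat.div_pos (Nat.le_of_dvd (Nat.pos_of_ne_zero hM) hb)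
    (Nat.pos_of_ne_zero hb0)).ne'
  ext p
  rw [Finset.mem_filter, Nat.mem_primeFactors]
  constructor
  · rintro ⟨hp, hd, _⟩
    have h1 := (Nat.Prime.dvd_iff_one_le_factorization hp hd0).1 hd
    rw [Nat.factorization_div hb] at h1
    simp only [Finsupp.coe_tsub, Pi.sub_apply] at h1
    refine ⟨Nat.mem_primeFactors.2 ⟨hp, hd.trans (Nat.div_dvd_of_dvd hb), hM⟩, by omega⟩
  · rintro ⟨hp, h1⟩
    have hpp := Nat.prime_of_mem_primeFactors hp
    refine ⟨hpp, ?_, hd0⟩
    rw [Nat.Prime.dvd_iff_one_le_factorization hpp hd0, Nat.factorization_div hb]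
    simp only [Finsupp.coe_tsub, Pi.sub_apply]
    omega

/-- `b ν(b) = ∏_{p missing} (1 - 1/p)` -/
lemma mul_nu {M b : ℕ} (hM : M ≠ 0) (hb : b ∣ M) : (b : ℝ) * nu M b = kap M b := by
  have hb0 : b ≠ 0 := fun hc => hM (Nat.eq_zero_of_zero_dvd (hc ▸ hb))
  have hM' : (M : ℝ) ≠ 0 := by exact_mod_cast hM
  have hb' : (b : ℝ) ≠ 0 := by exact_mod_cast hb0
  unfold nu kap
  rw [← primeFactors_div hM hb]
  have h := Nat.totient_eq_mul_prod_factors (M / b)
  have h2 : ((M / b).totient : ℝ) = ((M / b : ℕ) : ℝ) *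
      ∏ p ∈ (M / b).primeFactors, (1 - 1 / (p : ℝ)) := by
    have h3 := congrArg (fun x : ℚ => (x : ℝ)) h
    push_cast at h3
    simpa [one_div] using h3
  rw [h2, Nat.cast_div hb hb']
  field_simp

lemma kap_nonneg (M b : ℕ) : 0 ≤ kap M b := by
  unfold kap
  refine Finset.prod_nonneg fun p hp => ?_
  rw [Finset.mem_filter] at hp
  have := (Nat.prime_of_mem_primeFactors hp.1).one_lt
  have h1 : (1 : ℝ) / p ≤ 1 := by
    rw [div_le_one (by positivity)]
    exact_mod_cast this.le
  linarith

lemma kap_le_one (M b : ℕ) : kap M b ≤ 1 := by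
  unfold kap
  refine Finset.prod_le_one (fun p hp => ?_) fun p _ => ?_
  · rw [Finset.mem_filter] at hp
    have := (Nat.prime_of_mem_primeFactors hp.1).one_lt
    have h1 : (1 : ℝ) / p ≤ 1 := by
      rw [div_le_one (by positivity)]
      exact_mod_cast this.le
    linarith
  · have : (0 : ℝ) ≤ 1 / p := by positivity
    linarith

/-! ### orders of the primes and the divergence decomposition -/

/-- part of `n` in the primes read before `q` -/
noncomputable def up (o : ℕ → ℤ) (q n : ℕ) : ℕ := part (fun p => ¬ o p ≤ o q) n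

/-- part of `n` in the primes read after `q` -/
noncomputable def dn (o : ℕ → ℤ) (q n : ℕ) : ℕ := part (fun p => o p < o q) n

variable {o : ℕ → ℤ}

lemma part_congr {S S' : ℕ → Prop} [DecidablePred S] [DecidablePred S']
    (h : ∀ p, p.Prime → (S p ↔ S' p)) (n : ℕ) : part S n = part S' n := by
  refine Nat.eq_of_factorization_eq (part_ne_zero _ _) (part_ne_zero _ _) fun p => ?_
  rw [part_fac_apply, part_fac_apply]
  by_cases hp : p.Prime
  · by_cases h1 : S p
    · rw [if_pos h1, if_pos ((h p hp).1 h1)]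
    · rw [if_neg h1, if_neg (fun h2 => h1 ((h p hp).2 h2))]
  · rw [Nat.factorization_eq_zero_of_not_prime _ hp]
    simp

lemma le_part_eq (ho : Function.Injective o) {q : ℕ} (hq : q.Prime) (n : ℕ) :
    part (fun p => o p ≤ o q) n = q ^ n.factorization q * dn o q n := by
  unfold dn
  refine Nat.eq_of_factorization_eq (part_ne_zero _ _)
    (mul_ne_zero (pow_ne_zero _ hq.ne_zero) (part_ne_zero _ _)) fun p => ?_
  rw [Nat.factorization_mul (pow_ne_zero _ hq.ne_zero) (part_ne_zero _ _), Finsupp.add_apply,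
    part_fac_apply, part_fac_apply, hq.factorization_pow]
  by_cases hpq : p = q
  · subst hpq
    simp
  · rw [Finsupp.single_eq_of_ne hpq, zero_add]
    have h1 : (o p ≤ o q) ↔ (o p < o q) :=
      ⟨fun h => lt_of_le_of_ne h fun he => hpq (ho he), le_of_lt⟩
    by_cases h2 : o p < o q
    · rw [if_pos h2, if_pos (h1.2 h2)]
    · rw [if_neg h2, if_neg (fun h3 => h2 (h1.1 h3))]

/-- `M = q^a * (primes after q) * (primes before q)` -/
lemma split_at (ho : Function.Injective o) {q : ℕ} (hq : q.Prime) {n : ℕ} (hn : n ≠ 0) :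
    (q ^ n.factorization q * dn o q n) * up o q n = n := by
  rw [← le_part_eq ho hq n]
  exact part_mul_part (fun p => o p ≤ o q) hn

lemma not_dvd_dn (q : ℕ) (hq : q.Prime) (n : ℕ) : ¬ q ∣ dn o q n := fun h =>
  lt_irrefl _ (prime_part (fun p => o p < o q) hq h)

lemma not_dvd_up (q : ℕ) (hq : q.Prime) (n : ℕ) : ¬ q ∣ up o q n := fun h =>
  (prime_part (fun p => ¬ o p ≤ o q) hq h) le_rfl

/-- `b, c` split at `q`: same letters before `q`, different letters at `q` -/
def SplitAt (o : ℕ → ℤ) (q b c : ℕ) : Prop :=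
  up o q b = up o q c ∧ b.factorization q ≠ c.factorization q

noncomputable instance (o : ℕ → ℤ) (q b c : ℕ) : Decidable (SplitAt o q b c) := by
  unfold SplitAt; infer_instance

lemma up_eq_iff {q b c : ℕ} :
    up o q b = up o q c ↔ ∀ p, p.Prime → o q < o p → b.factorization p = c.factorization p := by
  constructor
  · intro h p hp hlt
    have h1 := congrArg (fun n => n.factorization p) h
    simp only [up, part_fac_apply] at h1
    rwa [if_pos (not_le.2 hlt), if_pos (not_le.2 hlt)] at h1
  · intro h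
    unfold up
    refine Nat.eq_of_factorization_eq (part_ne_zero _ _) (part_ne_zero _ _) fun p => ?_
    rw [part_fac_apply, part_fac_apply]
    by_cases hp : p.Prime
    · by_cases h1 : o p ≤ o q
      · rw [if_neg (not_not.2 h1), if_neg (not_not.2 h1)]
      · rw [if_pos h1, if_pos h1, h p hp (not_le.1 h1)]
    · rw [Nat.factorization_eq_zero_of_not_prime _ hp, Nat.factorization_eq_zero_of_not_prime _ hp]

/-- two different divisors split at exactly one prime -/
lemma exists_unique_split (ho : Function.Injective o) {M b c : ℕ} (hM : M ≠ 0) (hb : b ∣ M)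
    (hc : c ∣ M) (hne : b ≠ c) :
    ∃ q ∈ M.primeFactors, SplitAt o q b c ∧ ∀ q' ∈ M.primeFactors, SplitAt o q' b c → q' = q := by
  classical
  have hb0 : b ≠ 0 := fun h => hM (Nat.eq_zero_of_zero_dvd (h ▸ hb))
  have hc0 : c ≠ 0 := fun h => hM (Nat.eq_zero_of_zero_dvd (h ▸ hc))
  set D := (M.primeFactors).filter (fun p => b.factorization p ≠ c.factorization p) with hD
  have hmem : ∀ p, p.Prime → b.factorization p ≠ c.factorization p → p ∈ D := by
    intro p hp hpd
    rw [hD, Finset.mem_filter]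
    refine ⟨Nat.mem_primeFactors.2 ⟨hp, ?_, hM⟩, hpd⟩
    by_contra hnd
    have h1 : b.factorization p = 0 :=
      Nat.factorization_eq_zero_of_not_dvd fun h => hnd (h.trans hb)
    have h2 : c.factorization p = 0 :=
      Nat.factorization_eq_zero_of_not_dvd fun h => hnd (h.trans hc)
    exact hpd (h1.trans h2.symm)
  have hDne : D.Nonempty := by
    by_contra hem
    rw [Finset.not_nonempty_iff_eq_empty] at hem
    refine hne (Nat.eq_of_factorization_eq hb0 hc0 fun p => ?_)
    by_contra hpd
    have hp : p.Prime := by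
      by_contra hnp
      rw [Nat.factorization_eq_zero_of_not_prime _ hnp,
        Nat.factorization_eq_zero_of_not_prime _ hnp] at hpd
      exact hpd rfl
    have := hmem p hp hpd
    rw [hem] at this
    exact absurd this (Finset.notMem_empty p)
  obtain ⟨q, hq, hqmax⟩ := Finset.exists_max_image D o hDne
  rw [hD, Finset.mem_filter] at hq
  have hqp := Nat.prime_of_mem_primeFactors hq.1
  refine ⟨q, hq.1, ⟨?_, hq.2⟩, ?_⟩
  · rw [up_eq_iff]
    intro p hp hlt
    by_contra hpd
    exact absurd (hqmax p (hmem p hp hpd)) (not_le.2 hlt)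
  · intro q' hq' hs
    have hq'p := Nat.prime_of_mem_primeFactors hq'
    have h1 : o q' ≤ o q := hqmax q' (hmem q' hq'p hs.2)
    by_contra hne'
    have h2 : o q' < o q := lt_of_le_of_ne h1 fun he => hne' (ho he)
    exact hq.2 (up_eq_iff.1 hs.1 q hqp h2)

/-- pairs `b ≠ c` are partitioned by the prime at which they split -/
theorem frm_ne_eq_sum (ho : Function.Injective o) {M : ℕ} (hM : M ≠ 0) (F : ℕ → ℕ → ℝ) :
    frm M (fun b c => if b = c then 0 else F b c) =
      ∑ q ∈ M.primeFactors, frm M (fun b c => if SplitAt o q b c then F b c else 0) := by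
  classical
  unfold frm
  symm
  rw [Finset.sum_comm]
  refine Finset.sum_congr rfl fun b hb => ?_
  rw [Finset.sum_comm]
  refine Finset.sum_congr rfl fun c hc => ?_
  rw [Nat.mem_divisors] at hb hc
  rw [← Finset.mul_sum]
  symm
  congr 1
  beta_reduce
  by_cases hbc : b = c
  · rw [if_pos hbc]
    refine (Finset.sum_eq_zero fun q _ => if_neg fun h => h.2 (by rw [hbc])).symm
  · rw [if_neg hbc]
    obtain ⟨q, hq, hs, hu⟩ := exists_unique_split ho hM hb.1 hc.1 hbc
    rw [Finset.sum_eq_single q]
    · rw [if_pos hs]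
    · intro q' hq' hne
      exact if_neg fun h => hne (hu q' hq' h)
    · intro h; exact absurd hq h

/-- exact form of the pairs which split at `q` -/
theorem frm_split_at (ho : Function.Injective o) {M q : ℕ} (hM : M ≠ 0) (hq : q.Prime)
    (F : ℕ → ℕ → ℝ) :
    frm M (fun b c => if SplitAt o q b c then F b c else 0) =
      ∑ T ∈ (up o q M).divisors, (T : ℝ) * nu (up o q M) T ^ 2 *
        ∑ v ∈ range (M.factorization q + 1), ∑ v' ∈ range (M.factorization q + 1),
          if v = v' then 0 else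
            (q : ℝ) ^ (min v v') * nup q (M.factorization q) v * nup q (M.factorization q) v' *
              frm (dn o q M) (fun u u' => F (q ^ v * u * T) (q ^ v' * u' * T)) := by
  classical
  have hcop : Nat.Coprime (q ^ M.factorization q * dn o q M) (up o q M) := by
    rw [← le_part_eq ho hq M]
    exact part_coprime (fun p => o p ≤ o q) M M
  conv_lhs => rw [← split_at ho hq hM]
  rw [frm_mul hcop]
  refine Finset.sum_congr rfl fun T hT => ?_
  rw [Nat.mem_divisors] at hT
  have hT0 : T ≠ 0 := fun h => part_ne_zero _ M (Nat.eq_zero_of_zero_dvd (h ▸ hT.1))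
  have hqT : T.factorization q = 0 := Nat.factorization_eq_zero_of_not_dvd fun h =>
    not_dvd_up q hq M (h.trans hT.1)
  have hup : ∀ u, u ∣ q ^ M.factorization q * dn o q M → ∀ T', T' ∣ up o q M →
      up o q (u * T') = T' := by
    intro u hu T' hT'
    rw [← le_part_eq ho hq M] at hu
    exact part_mul_eq_right (fun p => o p ≤ o q) hu hT'
  rw [Finset.sum_eq_single T]
  · rw [Nat.gcd_self]
    have e1 : frm (q ^ M.factorization q * dn o q M) (fun u u' =>
        if SplitAt o q (u * T) (u' * T) then F (u * T) (u' * T) else 0) =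
        ∑ v ∈ range (M.factorization q + 1), ∑ v' ∈ range (M.factorization q + 1),
          if v = v' then 0 else
            (q : ℝ) ^ (min v v') * nup q (M.factorization q) v * nup q (M.factorization q) v' *
              frm (dn o q M) (fun u u' => F (q ^ v * u * T) (q ^ v' * u' * T)) := by
      have hdn : 0 < dn o q M := part_pos _ M
      rw [frm_split hq _ hdn (not_dvd_dn q hq M)]
      refine Finset.sum_congr rfl fun v hv => Finset.sum_congr rfl fun v' hv' => ?_
      rw [Finset.mem_range] at hv hv'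
      have e2 : ∀ u ∈ (dn o q M).divisors, ∀ u' ∈ (dn o q M).divisors,
          (SplitAt o q (q ^ v * u * T) (q ^ v' * u' * T) ↔ v ≠ v') := by
        intro u hu u' hu'
        rw [Nat.mem_divisors] at hu hu'
        have hu0 : u ≠ 0 := fun h => hu.2 (Nat.eq_zero_of_zero_dvd (h ▸ hu.1))
        have hu0' : u' ≠ 0 := fun h => hu'.2 (Nat.eq_zero_of_zero_dvd (h ▸ hu'.1))
        have hqu : u.factorization q = 0 := Nat.factorization_eq_zero_of_not_dvd fun h =>
          not_dvd_dn q hq M (h.trans hu.1)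
        have hqu' : u'.factorization q = 0 := Nat.factorization_eq_zero_of_not_dvd fun h =>
          not_dvd_dn q hq M (h.trans hu'.1)
        unfold SplitAt
        rw [hup (q ^ v * u) (Nat.mul_dvd_mul (pow_dvd_pow q (by omega)) hu.1) T hT.1,
          hup (q ^ v' * u') (Nat.mul_dvd_mul (pow_dvd_pow q (by omega)) hu'.1) T hT.1,
          Nat.factorization_mul (mul_ne_zero (pow_ne_zero _ hq.ne_zero) hu0) hT0,
          Nat.factorization_mul (mul_ne_zero (pow_ne_zero _ hq.ne_zero) hu0') hT0,
          Nat.factorization_mul (pow_ne_zero _ hq.ne_zero) hu0,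
          Nat.factorization_mul (pow_ne_zero _ hq.ne_zero) hu0',
          hq.factorization_pow, hq.factorization_pow]
        simp [hqT, hqu, hqu']
      by_cases hvv : v = v'
      · rw [if_pos hvv]
        have : frm (dn o q M) (fun b c => if SplitAt o q (q ^ v * b * T) (q ^ v' * c * T) then
            F (q ^ v * b * T) (q ^ v' * c * T) else 0) = 0 := by
          unfold frm
          refine Finset.sum_eq_zero fun u hu => Finset.sum_eq_zero fun u' hu' => ?_
          beta_reduce
          rw [if_neg (fun h => (e2 u hu u' hu').1 h hvv), mul_zero]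
        rw [this, mul_zero]
      · rw [if_neg hvv]
        congr 1
        unfold frm
        refine Finset.sum_congr rfl fun u hu => Finset.sum_congr rfl fun u' hu' => ?_
        beta_reduce
        rw [if_pos ((e2 u hu u' hu').2 hvv)]
    rw [e1]
    ring
  · intro T' hT' hne
    rw [Nat.mem_divisors] at hT'
    have : frm (q ^ M.factorization q * dn o q M) (fun u u' =>
        if SplitAt o q (u * T) (u' * T') then F (u * T) (u' * T') else 0) = 0 := by
      unfold frm
      refine Finset.sum_eq_zero fun u hu => Finset.sum_eq_zero fun u' hu' => ?_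
      rw [Nat.mem_divisors] at hu hu'
      have hns : ¬ SplitAt o q (u * T) (u' * T') := by
        intro h
        rw [SplitAt, hup u hu.1 T hT.1, hup u' hu'.1 T' hT'.1] at h
        exact hne h.1.symm
      show _ * (if SplitAt o q (u * T) (u' * T') then F (u * T) (u' * T') else 0) = 0
      rw [if_neg hns, mul_zero]
    rw [this, mul_zero]
  · intro h
    exact absurd (Nat.mem_divisors.2 hT) h

/-- **divergence decomposition** along the order `o` (the outermost prime has the largest `o`) -/
theorem frm_div (ho : Function.Injective o) {M : ℕ} (hM : M ≠ 0) (F : ℕ → ℕ → ℝ) :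
    frm M (fun b c => if b = c then 0 else F b c) =
      ∑ q ∈ M.primeFactors, ∑ T ∈ (up o q M).divisors, (T : ℝ) * nu (up o q M) T ^ 2 *
        ∑ v ∈ range (M.factorization q + 1), ∑ v' ∈ range (M.factorization q + 1),
          if v = v' then 0 else
            (q : ℝ) ^ (min v v') * nup q (M.factorization q) v * nup q (M.factorization q) v' *
              frm (dn o q M) (fun u u' => F (q ^ v * u * T) (q ^ v' * u' * T)) := by
  rw [frm_ne_eq_sum ho hM]
  exact Finset.sum_congr rfl fun q hq =>
    frm_split_at ho hM (Nat.prime_of_mem_primeFactors hq) F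


/-! ### densities, letter weights and telescoping drops -/

/-- density of `f` under the exact type law -/
noncomputable def dens (M : ℕ) (f : ℕ → ℝ) : ℝ := ∑ b ∈ M.divisors, nu M b * f b

lemma dens_mul {M1 M2 : ℕ} (h : Nat.Coprime M1 M2) (f : ℕ → ℝ) :
    dens (M1 * M2) f = ∑ T ∈ M2.divisors, nu M2 T * dens M1 (fun u => f (u * T)) := by
  unfold dens
  rw [sum_divisors_coprime h, Finset.sum_comm]
  refine Finset.sum_congr rfl fun T hT => ?_
  rw [Finset.mul_sum]
  refine Finset.sum_congr rfl fun u hu => ?_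
  rw [Nat.mem_divisors] at hT hu
  rw [nu_mul h hu.1 hT.1]
  ring

lemma dens_part (S : ℕ → Prop) [DecidablePred S] {M : ℕ} (hM : M ≠ 0) (f : ℕ → ℝ) :
    dens M f = ∑ T ∈ (part (fun p => ¬ S p) M).divisors, nu (part (fun p => ¬ S p) M) T *
      dens (part S M) (fun u => f (u * T)) := by
  rw [← dens_mul (part_coprime S M M), part_mul_part S hM]

lemma dens_split {q : ℕ} (hq : q.Prime) (a : ℕ) {M1 : ℕ} (hM : 0 < M1) (h : ¬ q ∣ M1)
    (f : ℕ → ℝ) :
    dens (q ^ a * M1) f = ∑ v ∈ range (a + 1), nup q a v * dens M1 (fun u => f (q ^ v * u)) := by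
  unfold dens
  rw [sum_split hq a hM h]
  refine Finset.sum_congr rfl fun v hv => ?_
  rw [Finset.mul_sum]
  refine Finset.sum_congr rfl fun u hu => ?_
  rw [Finset.mem_range] at hv
  rw [Nat.mem_divisors] at hu
  have hcop : Nat.Coprime (q ^ a) M1 :=
    Nat.Coprime.pow_left a ((Nat.Prime.coprime_iff_not_dvd hq).2 h)
  rw [nu_mul hcop (pow_dvd_pow q (by omega)) hu.1, nu_prime_pow hq (by omega)]
  ring

/-- density along the node at `q` -/
lemma dens_at (ho : Function.Injective o) {M q : ℕ} (hM : M ≠ 0) (hq : q.Prime) (f : ℕ → ℝ) :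
    dens M f = ∑ T ∈ (up o q M).divisors, nu (up o q M) T *
      ∑ v ∈ range (M.factorization q + 1), nup q (M.factorization q) v *
        dens (dn o q M) (fun u => f (q ^ v * u * T)) := by
  have hcop : Nat.Coprime (q ^ M.factorization q * dn o q M) (up o q M) := by
    rw [← le_part_eq ho hq M]
    exact part_coprime (fun p => o p ≤ o q) M M
  conv_lhs => rw [← split_at ho hq hM]
  rw [dens_mul hcop]
  refine Finset.sum_congr rfl fun T _ => ?_
  have hdn : 0 < dn o q M := part_pos _ M
  rw [dens_split hq _ hdn (not_dvd_dn q hq M)]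

lemma primeFactors_part (S : ℕ → Prop) [DecidablePred S] {n : ℕ} (hn : n ≠ 0) :
    (part S n).primeFactors = n.primeFactors.filter S := by
  ext p
  rw [Finset.mem_filter, Nat.mem_primeFactors, Nat.mem_primeFactors]
  constructor
  · rintro ⟨hp, hd, _⟩
    exact ⟨⟨hp, hd.trans (part_dvd S), hn⟩, prime_part S hp hd⟩
  · rintro ⟨⟨hp, hd, _⟩, hS⟩
    refine ⟨hp, ?_, part_ne_zero S n⟩
    rw [Nat.Prime.dvd_iff_one_le_factorization hp (part_ne_zero S n), part_fac_apply, if_pos hS]
    exact (Nat.Prime.dvd_iff_one_le_factorization hp hn).1 hd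

/-- product of letter weights `g p v` over the primes of `M` -/
noncomputable def lw (g : ℕ → ℕ → ℝ) (M b : ℕ) : ℝ :=
  ∏ p ∈ M.primeFactors, g p (b.factorization p)

lemma lw_part (S : ℕ → Prop) [DecidablePred S] (g : ℕ → ℕ → ℝ) {M : ℕ} (hM : M ≠ 0) (b : ℕ) :
    lw g (part S M) (part S b) = ∏ p ∈ (M.primeFactors).filter S, g p (b.factorization p) := by
  unfold lw
  rw [primeFactors_part S hM]
  refine Finset.prod_congr rfl fun p hp => ?_
  rw [Finset.mem_filter] at hp
  rw [part_fac_apply, if_pos hp.2]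

lemma lw_mul_lw (S : ℕ → Prop) [DecidablePred S] (g : ℕ → ℕ → ℝ) {M : ℕ} (hM : M ≠ 0) (b : ℕ) :
    lw g M b = lw g (part S M) (part S b) *
      lw g (part (fun p => ¬ S p) M) (part (fun p => ¬ S p) b) := by
  rw [lw_part S g hM, lw_part _ g hM]
  unfold lw
  rw [Finset.prod_filter_mul_prod_filter_not]

/-- telescoping along an order: `∏ x + Σ_q (1 - x_q) ∏_{p read before q} x_p = 1` -/
theorem telescope (ho : Function.Injective o) (s : Finset ℕ) (x : ℕ → ℝ) :
    ∏ p ∈ s, x p + ∑ q ∈ s, (1 - x q) * ∏ p ∈ s.filter (fun p => ¬ o p ≤ o q), x p = 1 := by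
  classical
  refine Finset.induction_on_max_value o s ?_ ?_
  · simp
  · intro a s ha hmax ih
    have h1 : (insert a s).filter (fun p => ¬ o p ≤ o a) = ∅ := by
      rw [Finset.filter_eq_empty_iff]
      intro p hp
      rw [Finset.mem_insert] at hp
      rcases hp with rfl | hp
      · exact not_not.2 le_rfl
      · exact not_not.2 (hmax p hp)
    have h2 : ∀ q ∈ s, (insert a s).filter (fun p => ¬ o p ≤ o q) =
        insert a (s.filter (fun p => ¬ o p ≤ o q)) := by
      intro q hq
      rw [Finset.filter_insert, if_pos]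
      refine not_le.2 (lt_of_le_of_ne (hmax q hq) fun he => ?_)
      exact ha (ho he ▸ hq)
    rw [Finset.prod_insert ha, Finset.sum_insert ha, h1, Finset.prod_empty]
    have h3 : ∑ q ∈ s, (1 - x q) * ∏ p ∈ (insert a s).filter (fun p => ¬ o p ≤ o q), x p =
        x a * ∑ q ∈ s, (1 - x q) * ∏ p ∈ s.filter (fun p => ¬ o p ≤ o q), x p := by
      rw [Finset.mul_sum]
      refine Finset.sum_congr rfl fun q hq => ?_
      rw [h2 q hq, Finset.prod_insert fun h => ha (Finset.mem_filter.1 h).1]
      ring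
    rw [h3]
    linear_combination (x a) * ih

/-- **row identity**, general letter weights -/
theorem row_tel (ho : Function.Injective o) (g : ℕ → ℕ → ℝ) {M : ℕ} (hM : M ≠ 0) (b : ℕ) :
    lw g M b + ∑ q ∈ M.primeFactors, (1 - g q (b.factorization q)) *
      lw g (up o q M) (up o q b) = 1 := by
  refine Eq.trans ?_ (telescope ho M.primeFactors (fun p => g p (b.factorization p)))
  congr 1
  refine Finset.sum_congr rfl fun q _ => ?_
  have h := lw_part (fun p => ¬ o p ≤ o q) g hM b
  unfold up
  rw [h]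

/-- **exact drop** at the node `q`: `Σ_b ν(b) f(b) (1 - g_q(v_q b)) ∏_{p before q} g_p(v_p b)` -/
theorem drop_eq (ho : Function.Injective o) (g : ℕ → ℕ → ℝ) {M q : ℕ} (hM : M ≠ 0)
    (hq : q.Prime) (f : ℕ → ℝ) :
    dens M (fun b => f b * ((1 - g q (b.factorization q)) * lw g (up o q M) (up o q b))) =
      ∑ T ∈ (up o q M).divisors, nu (up o q M) T * lw g (up o q M) T *
        ∑ v ∈ range (M.factorization q + 1), nup q (M.factorization q) v * (1 - g q v) *
          dens (dn o q M) (fun u => f (q ^ v * u * T)) := by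
  rw [dens_at ho hM hq]
  refine Finset.sum_congr rfl fun T hT => ?_
  rw [Nat.mem_divisors] at hT
  rw [mul_assoc, Finset.mul_sum (a := lw g (up o q M) T)]
  congr 1
  refine Finset.sum_congr rfl fun v hv => ?_
  rw [Finset.mem_range] at hv
  have hT0 : T ≠ 0 := fun h => part_ne_zero _ M (Nat.eq_zero_of_zero_dvd (h ▸ hT.1))
  have hqT : T.factorization q = 0 := Nat.factorization_eq_zero_of_not_dvd fun h =>
    not_dvd_up q hq M (h.trans hT.1)
  unfold dens
  rw [Finset.mul_sum, Finset.mul_sum, Finset.mul_sum]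
  refine Finset.sum_congr rfl fun u hu => ?_
  rw [Nat.mem_divisors] at hu
  have hu0 : u ≠ 0 := fun h => part_ne_zero _ M (Nat.eq_zero_of_zero_dvd (h ▸ hu.1))
  have hqu : u.factorization q = 0 := Nat.factorization_eq_zero_of_not_dvd fun h =>
    not_dvd_dn q hq M (h.trans hu.1)
  have h1 : up o q (q ^ v * u * T) = T := by
    have h2 : q ^ v * u ∣ part (fun p => o p ≤ o q) M := by
      rw [le_part_eq ho hq M]
      exact Nat.mul_dvd_mul (pow_dvd_pow q (by omega)) hu.1
    exact part_mul_eq_right (fun p => o p ≤ o q) h2 hT.1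
  have h3 : (q ^ v * u * T).factorization q = v := by
    rw [Nat.factorization_mul (mul_ne_zero (pow_ne_zero _ hq.ne_zero) hu0) hT0,
      Nat.factorization_mul (pow_ne_zero _ hq.ne_zero) hu0, hq.factorization_pow]
    simp [hqT, hqu]
  beta_reduce
  rw [h1, h3]
  ring

/-- **total of the drops**: `dens M f = dens M (f G) + Σ_q drop_q` -/
theorem dens_tel (ho : Function.Injective o) (g : ℕ → ℕ → ℝ) {M : ℕ} (hM : M ≠ 0) (f : ℕ → ℝ) :
    dens M f = dens M (fun b => f b * lw g M b) +
      ∑ q ∈ M.primeFactors, ∑ T ∈ (up o q M).divisors, nu (up o q M) T * lw g (up o q M) T *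
        ∑ v ∈ range (M.factorization q + 1), nup q (M.factorization q) v * (1 - g q v) *
          dens (dn o q M) (fun u => f (q ^ v * u * T)) := by
  have h1 : ∀ q ∈ M.primeFactors, ∑ T ∈ (up o q M).divisors,
      nu (up o q M) T * lw g (up o q M) T *
        ∑ v ∈ range (M.factorization q + 1), nup q (M.factorization q) v * (1 - g q v) *
          dens (dn o q M) (fun u => f (q ^ v * u * T)) =
      dens M (fun b => f b * ((1 - g q (b.factorization q)) * lw g (up o q M) (up o q b))) :=
    fun q hq => (drop_eq ho g hM (Nat.prime_of_mem_primeFactors hq) f).symm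
  rw [Finset.sum_congr rfl h1]
  unfold dens
  rw [Finset.sum_comm, ← Finset.sum_add_distrib]
  refine Finset.sum_congr rfl fun b _ => ?_
  have h2 := row_tel ho g hM b
  rw [← Finset.mul_sum, ← mul_add, ← Finset.mul_sum, ← mul_add, h2, mul_one]


/-- the primes read up to and including `q` -/
noncomputable def ge (o : ℕ → ℤ) (q n : ℕ) : ℕ := part (fun p => ¬ o p < o q) n

lemma lw_ge (ho : Function.Injective o) (g : ℕ → ℕ → ℝ) {M q : ℕ} (hM : M ≠ 0)
    (hq : q ∈ M.primeFactors) (b : ℕ) :
    lw g (ge o q M) (ge o q b) = g q (b.factorization q) * lw g (up o q M) (up o q b) := by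
  classical
  unfold ge up
  rw [lw_part (fun p => ¬ o p < o q) g hM, lw_part (fun p => ¬ o p ≤ o q) g hM]
  have h : (M.primeFactors).filter (fun p => ¬ o p < o q) =
      insert q ((M.primeFactors).filter (fun p => ¬ o p ≤ o q)) := by
    ext p
    simp only [Finset.mem_insert, Finset.mem_filter, not_lt, not_le]
    constructor
    · rintro ⟨h1, h2⟩
      rcases eq_or_lt_of_le h2 with h3 | h3
      · exact Or.inl (ho h3).symm
      · exact Or.inr ⟨h1, h3⟩
    · rintro (rfl | ⟨h1, h2⟩)
      · exact ⟨hq, le_rfl⟩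
      · exact ⟨h1, h2.le⟩
  rw [h, Finset.prod_insert]
  intro h1
  exact (Finset.mem_filter.1 h1).2 le_rfl

/-- **exact one-step drop of the potential** `V(S) = Σ_b ν(b) f(b) ∏_{p ∈ S} g_p(v_p b)` -/
theorem drop_step (ho : Function.Injective o) (g : ℕ → ℕ → ℝ) {M q : ℕ} (hM : M ≠ 0)
    (hq : q ∈ M.primeFactors) (f : ℕ → ℝ) :
    dens M (fun b => f b * lw g (up o q M) (up o q b)) -
      dens M (fun b => f b * lw g (ge o q M) (ge o q b)) =
      ∑ T ∈ (up o q M).divisors, nu (up o q M) T * lw g (up o q M) T *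
        ∑ v ∈ range (M.factorization q + 1), nup q (M.factorization q) v * (1 - g q v) *
          dens (dn o q M) (fun u => f (q ^ v * u * T)) := by
  rw [← drop_eq ho g hM (Nat.prime_of_mem_primeFactors hq) f]
  unfold dens
  rw [← Finset.sum_sub_distrib]
  refine Finset.sum_congr rfl fun b _ => ?_
  beta_reduce
  rw [lw_ge ho g hM hq b]
  ring

/-! ### the weight `κ^r`, `κ(b) = b ν(b)` -/

/-- letter weight of `κ^r` -/
noncomputable def kg (M r : ℕ) (p v : ℕ) : ℝ :=
  if v < M.factorization p then (1 - 1 / (p : ℝ)) ^ r else 1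

lemma lw_kg {M M' : ℕ} (r : ℕ) (h : ∀ p ∈ M'.primeFactors, M.factorization p = M'.factorization p)
    (b : ℕ) : lw (kg M r) M' b = kap M' b ^ r := by
  unfold lw kap kg
  rw [Finset.prod_filter, ← Finset.prod_pow]
  refine Finset.prod_congr rfl fun p hp => ?_
  rw [h p hp]
  split_ifs <;> simp

lemma fac_up {M q : ℕ} : ∀ p ∈ (up o q M).primeFactors,
    M.factorization p = (up o q M).factorization p := by
  intro p hp
  have h : ¬ o p ≤ o q := prime_part (fun p => ¬ o p ≤ o q) (Nat.prime_of_mem_primeFactors hp)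
    (Nat.dvd_of_mem_primeFactors hp)
  unfold up
  rw [part_fac_apply, if_pos h]

/-- total of the drops for `κ^r` -/
theorem dens_tel_kap (ho : Function.Injective o) (r : ℕ) {M : ℕ} (hM : M ≠ 0) (f : ℕ → ℝ) :
    dens M f = dens M (fun b => f b * ((b : ℝ) * nu M b) ^ r) +
      ∑ q ∈ M.primeFactors, (1 - (1 - 1 / (q : ℝ)) ^ r) *
        ∑ T ∈ (up o q M).divisors, nu (up o q M) T * ((T : ℝ) * nu (up o q M) T) ^ r *
        ∑ v ∈ range (M.factorization q), nup q (M.factorization q) v *
          dens (dn o q M) (fun u => f (q ^ v * u * T)) := by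
  refine (dens_tel ho (kg M r) hM f).trans ?_
  congr 1
  · unfold dens
    refine Finset.sum_congr rfl fun b hb => ?_
    rw [Nat.mem_divisors] at hb
    beta_reduce
    rw [lw_kg r (fun _ _ => rfl) b, mul_nu hM hb.1]
  · refine Finset.sum_congr rfl fun q hq => ?_
    rw [Finset.mul_sum]
    refine Finset.sum_congr rfl fun T hT => ?_
    rw [Nat.mem_divisors] at hT
    have hup0 : up o q M ≠ 0 := part_ne_zero _ M
    rw [lw_kg r fac_up T, mul_nu hup0 hT.1, Finset.sum_range_succ]
    have h1 : kg M r q (M.factorization q) = 1 := by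
      unfold kg
      rw [if_neg (lt_irrefl _)]
    have h2 : ∀ v ∈ range (M.factorization q), nup q (M.factorization q) v * (1 - kg M r q v) *
        dens (dn o q M) (fun u => f (q ^ v * u * T)) =
        (1 - (1 - 1 / (q : ℝ)) ^ r) * (nup q (M.factorization q) v *
          dens (dn o q M) (fun u => f (q ^ v * u * T))) := by
      intro v hv
      rw [Finset.mem_range] at hv
      unfold kg
      rw [if_pos hv]
      ring
    rw [Finset.sum_congr rfl h2, ← Finset.mul_sum, h1]
    ring

/-- `r = 1`: `Σ_b ν f = Σ_b b ν² f + Σ_q (1/q) Σ_T T ν(T)² Σ_{v<a} ν_q(v) D(q^v T)` -/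
theorem dens_tel_one (ho : Function.Injective o) {M : ℕ} (hM : M ≠ 0) (f : ℕ → ℝ) :
    dens M f = ∑ b ∈ M.divisors, (b : ℝ) * nu M b ^ 2 * f b +
      ∑ q ∈ M.primeFactors, (1 / (q : ℝ)) *
        ∑ T ∈ (up o q M).divisors, (T : ℝ) * nu (up o q M) T ^ 2 *
        ∑ v ∈ range (M.factorization q), nup q (M.factorization q) v *
          dens (dn o q M) (fun u => f (q ^ v * u * T)) := by
  refine (dens_tel_kap ho 1 hM f).trans ?_
  congr 1
  · unfold dens
    refine Finset.sum_congr rfl fun b _ => ?_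
    ring
  · refine Finset.sum_congr rfl fun q _ => ?_
    congr 1
    · ring
    · refine Finset.sum_congr rfl fun T _ => ?_
      ring

/-! ### the two natural orders; parts `≤ z`, `> z` -/

/-- largest prime first -/
def oL : ℕ → ℤ := fun p => (p : ℤ)

/-- smallest prime first -/
def oS : ℕ → ℤ := fun p => -(p : ℤ)

lemma oL_inj : Function.Injective oL := fun a b h => by
  unfold oL at h; exact_mod_cast h

lemma oS_inj : Function.Injective oS := fun a b h => by
  unfold oS at h
  have : (a : ℤ) = b := by linarith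
  exact_mod_cast this

/-- part in the primes `≤ z` -/
noncomputable def lo (z n : ℕ) : ℕ := part (fun p => p ≤ z) n

/-- part in the primes `> z` -/
noncomputable def hi (z n : ℕ) : ℕ := part (fun p => ¬ p ≤ z) n

/-- part in the primes `< z` -/
noncomputable def lt' (z n : ℕ) : ℕ := part (fun p => p < z) n

lemma lo_mul_hi (z : ℕ) {n : ℕ} (hn : n ≠ 0) : lo z n * hi z n = n := part_mul_part _ hn

lemma lo_coprime_hi (z a b : ℕ) : Nat.Coprime (lo z a) (hi z b) := part_coprime _ a b

lemma nu_lo_hi (z : ℕ) {M b : ℕ} (hM : M ≠ 0) (hb : b ∣ M) :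
    nu M b = nu (lo z M) (lo z b) * nu (hi z M) (hi z b) := nu_part _ hM hb

lemma gcd_lo_hi (z : ℕ) {b c : ℕ} (hb : b ≠ 0) (hc : c ≠ 0) :
    Nat.gcd b c = Nat.gcd (lo z b) (lo z c) * Nat.gcd (hi z b) (hi z c) := gcd_eq_mul _ hb hc

lemma sum_lo_hi (z : ℕ) {M : ℕ} (hM : M ≠ 0) (F : ℕ → ℝ) :
    ∑ b ∈ M.divisors, F b = ∑ u ∈ (lo z M).divisors, ∑ T ∈ (hi z M).divisors, F (u * T) :=
  sum_part _ hM F

lemma frm_lo_hi (z : ℕ) {M : ℕ} (hM : M ≠ 0) (F : ℕ → ℕ → ℝ) :
    frm M F = ∑ T ∈ (hi z M).divisors, ∑ T' ∈ (hi z M).divisors,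
      (Nat.gcd T T' : ℝ) * nu (hi z M) T * nu (hi z M) T' *
        frm (lo z M) (fun u u' => F (u * T) (u' * T')) := by
  conv_lhs => rw [← lo_mul_hi z hM]
  exact frm_mul (lo_coprime_hi z M M) F

lemma frm_hi_lo (z : ℕ) {M : ℕ} (hM : M ≠ 0) (F : ℕ → ℕ → ℝ) :
    frm M F = ∑ u ∈ (lo z M).divisors, ∑ u' ∈ (lo z M).divisors,
      (Nat.gcd u u' : ℝ) * nu (lo z M) u * nu (lo z M) u' *
        frm (hi z M) (fun T T' => F (T * u) (T' * u')) := by
  conv_lhs => rw [← lo_mul_hi z hM, mul_comm]
  exact frm_mul (lo_coprime_hi z M M).symm F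

lemma dens_lo_hi (z : ℕ) {M : ℕ} (hM : M ≠ 0) (f : ℕ → ℝ) :
    dens M f = ∑ T ∈ (hi z M).divisors, nu (hi z M) T *
      dens (lo z M) (fun u => f (u * T)) := dens_part _ hM f

lemma dens_hi_lo (z : ℕ) {M : ℕ} (hM : M ≠ 0) (f : ℕ → ℝ) :
    dens M f = ∑ u ∈ (lo z M).divisors, nu (lo z M) u *
      dens (hi z M) (fun T => f (T * u)) := by
  conv_lhs => rw [← lo_mul_hi z hM, mul_comm]
  exact dens_mul (lo_coprime_hi z M M).symm f

lemma up_oL (q n : ℕ) : up oL q n = hi q n :=
  part_congr (fun p _ => by unfold oL; simp) n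

lemma dn_oL (q n : ℕ) : dn oL q n = lt' q n :=
  part_congr (fun p _ => by unfold oL; simp) n

lemma up_oS (q n : ℕ) : up oS q n = lt' q n :=
  part_congr (fun p _ => by unfold oS; simp) n

lemma dn_oS (q n : ℕ) : dn oS q n = hi q n :=
  part_congr (fun p _ => by unfold oS; simp) n

/-- pairs `b ≠ c` by the **largest** prime with different exponents -/
theorem frm_div_largest {M : ℕ} (hM : M ≠ 0) (F : ℕ → ℕ → ℝ) :
    frm M (fun b c => if b = c then 0 else F b c) =
      ∑ q ∈ M.primeFactors, ∑ T ∈ (hi q M).divisors, (T : ℝ) * nu (hi q M) T ^ 2 *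
        ∑ v ∈ range (M.factorization q + 1), ∑ v' ∈ range (M.factorization q + 1),
          if v = v' then 0 else
            (q : ℝ) ^ (min v v') * nup q (M.factorization q) v * nup q (M.factorization q) v' *
              frm (lt' q M) (fun u u' => F (q ^ v * u * T) (q ^ v' * u' * T)) := by
  rw [frm_div oL_inj hM F]
  simp only [up_oL, dn_oL]

/-- pairs `b ≠ c` by the **smallest** prime with different exponents -/
theorem frm_div_smallest {M : ℕ} (hM : M ≠ 0) (F : ℕ → ℕ → ℝ) :
    frm M (fun b c => if b = c then 0 else F b c) =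
      ∑ q ∈ M.primeFactors, ∑ T ∈ (lt' q M).divisors, (T : ℝ) * nu (lt' q M) T ^ 2 *
        ∑ v ∈ range (M.factorization q + 1), ∑ v' ∈ range (M.factorization q + 1),
          if v = v' then 0 else
            (q : ℝ) ^ (min v v') * nup q (M.factorization q) v * nup q (M.factorization q) v' *
              frm (hi q M) (fun u u' => F (q ^ v * u * T) (q ^ v' * u' * T)) := by
  rw [frm_div oS_inj hM F]
  simp only [up_oS, dn_oS]

/-- the diagonal -/
lemma frm_diag (M : ℕ) (f : ℕ → ℝ) :
    frm M (fun b c => if b = c then f b else 0) = ∑ b ∈ M.divisors, (b : ℝ) * nu M b ^ 2 * f b := by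
  classical
  unfold frm
  refine Finset.sum_congr rfl fun b hb => ?_
  rw [Finset.sum_eq_single b]
  · beta_reduce
    rw [if_pos rfl, Nat.gcd_self]; ring
  · intro c _ hcb
    beta_reduce
    rw [if_neg (Ne.symm hcb), mul_zero]
  · intro h; exact absurd hb h

lemma frm_add (M : ℕ) (F G : ℕ → ℕ → ℝ) :
    frm M (fun b c => F b c + G b c) = frm M F + frm M G := by
  unfold frm
  rw [← Finset.sum_add_distrib]
  refine Finset.sum_congr rfl fun b _ => ?_
  rw [← Finset.sum_add_distrib]
  exact Finset.sum_congr rfl fun c _ => by ring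

lemma frm_const_mul (M : ℕ) (k : ℝ) (F : ℕ → ℕ → ℝ) :
    frm M (fun b c => k * F b c) = k * frm M F := by
  unfold frm
  rw [Finset.mul_sum]
  refine Finset.sum_congr rfl fun b _ => ?_
  rw [Finset.mul_sum]
  exact Finset.sum_congr rfl fun c _ => by ring

lemma frm_mono {M : ℕ} {F G : ℕ → ℕ → ℝ} (h : ∀ b, b ∣ M → ∀ c, c ∣ M → F b c ≤ G b c) :
    frm M F ≤ frm M G := by
  unfold frm
  refine Finset.sum_le_sum fun b hb => Finset.sum_le_sum fun c hc => ?_
  exact mul_le_mul_of_nonneg_left (h b (Nat.dvd_of_mem_divisors hb) c (Nat.dvd_of_mem_divisors hc))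
    (mul_nonneg (mul_nonneg (Nat.cast_nonneg _) (nu_nonneg _ _)) (nu_nonneg _ _))

lemma frm_symm (M : ℕ) (F : ℕ → ℕ → ℝ) : frm M (fun b c => F c b) = frm M F := by
  unfold frm
  rw [Finset.sum_comm]
  refine Finset.sum_congr rfl fun b _ => Finset.sum_congr rfl fun c _ => ?_
  rw [Nat.gcd_comm]
  ring

/-- `Σ_{b,c} = diagonal + pairs by the largest differing prime` -/
theorem frm_eq_diag_add (M : ℕ) (F : ℕ → ℕ → ℝ) :
    frm M F = ∑ b ∈ M.divisors, (b : ℝ) * nu M b ^ 2 * F b b +
      frm M (fun b c => if b = c then 0 else F b c) := by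
  rw [← frm_diag M (fun b => F b b), ← frm_add]
  unfold frm
  refine Finset.sum_congr rfl fun b _ => Finset.sum_congr rfl fun c _ => ?_
  by_cases h : b = c
  · subst h; simp
  · simp [h]

/-- squares at a node: `Σ_{v≠v'} x_v x_v' + Σ_v x_v² = (Σ x_v)²` -/
lemma sq_split (n : ℕ) (x : ℕ → ℝ) :
    (∑ v ∈ range n, x v) ^ 2 = ∑ v ∈ range n, x v ^ 2 +
      ∑ v ∈ range n, ∑ v' ∈ range n, if v = v' then 0 else x v * x v' := by
  rw [sq, Finset.sum_mul_sum, ← Finset.sum_add_distrib]
  refine Finset.sum_congr rfl fun v hv => ?_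
  have h : ∀ v' ∈ range n, x v * x v' = (if v = v' then x v ^ 2 else 0) +
      (if v = v' then 0 else x v * x v') := by
    intro v' _
    by_cases hv' : v = v'
    · subst hv'; simp [sq]
    · simp [hv']
  rw [Finset.sum_congr rfl h, Finset.sum_add_distrib, Finset.sum_ite_eq, if_pos hv]

end Crest.Agent.R4C.Triex21
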