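import Crest.Agent.R4C.BigTwistR_22
import Crest.Agent.R4C.UDset_404

/-!
# Class CTw: set-bilinear bound, all scales and all depths (helper404)

* `below_of_windows` : windows `[X, 2X)` with bound `C X^η` ⟹ everything `< Y` with `C' Y^η`;
* `tw_sets` : over `BigTwistR_22.big_twistR`: all pairs with `gcd < Y L` and a big twist at some
  dyadic depth `2^j`, `K1 < 2^(j+1)`: set-bilinear bound `C Y^η K1^(-1/5)`.
-/

set_option autoImplicit false

namespace Crest.Agent.R4C.TwNumx404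

open Finset
open Crest.Agent.R4C.Basex935 Crest.Agent.R4C.FLDefx935 Crest.Agent.R4C.Rulex945
  Crest.Agent.R4C.BigTwistRx22 Crest.Agent.R4C.UDsetx404

open Classical

/-- finite geometric sum -/
lemma geom_le {r : ℝ} (h0 : 0 ≤ r) (h1 : r < 1) (N : ℕ) : ∑ k ∈ range N, r ^ k ≤ 1 / (1 - r) := by
  have h2 : 0 < 1 - r := by linarith
  rw [le_div_iff₀ h2]
  have h3 := geom_sum_mul r N
  have h4 : 0 ≤ r ^ N := pow_nonneg h0 N
  nlinarith

/-- **from the windows `[X,2X)` to everything below `Y`** -/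
theorem below_of_windows {S S' : Finset ℕ} {T : ℕ → ℕ → ℝ} {g : ℕ → ℕ → ℕ} {C η : ℝ}
    (hη : 0 < η) (hT : ∀ b c, 0 ≤ T b c) (hg : ∀ b c, b ∈ S → c ∈ S' → 0 < g b c)
    (h : ∀ X : ℝ, 0 < X → ∑ b ∈ S, ∑ c ∈ S',
      (if X ≤ (g b c : ℝ) ∧ (g b c : ℝ) < 2 * X then T b c else 0) ≤ C * X ^ η) {Y : ℝ}
    (hY : 0 < Y) :
    ∑ b ∈ S, ∑ c ∈ S', (if (g b c : ℝ) < Y then T b c else 0) ≤
      C * (1 / (1 - (2 : ℝ) ^ (-η))) * Y ^ η := by
  have hC : 0 ≤ C := by
    have h1 := h 1 one_pos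
    rw [Real.one_rpow, mul_one, mul_one] at h1
    refine le_trans (Finset.sum_nonneg fun b _ => Finset.sum_nonneg fun c _ => ?_) h1
    split_ifs
    · exact hT b c
    · exact le_rfl
  set r : ℝ := (2 : ℝ) ^ (-η) with hr
  have hr0 : 0 < r := by positivity
  have hr1 : r < 1 := Real.rpow_lt_one_of_one_lt_of_neg (by norm_num) (by linarith)
  -- number of windows
  obtain ⟨N, hN⟩ := exists_nat_gt Y
  have hN2 : Y < 2 ^ N := hN.trans (by exact_mod_cast Nat.lt_two_pow_self)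
  have hX : ∀ k : ℕ, 0 < Y / 2 ^ (k + 1) := fun k => by positivity
  have hle : ∑ b ∈ S, ∑ c ∈ S', (if (g b c : ℝ) < Y then T b c else 0) ≤
      ∑ k ∈ range (N + 1), ∑ b ∈ S, ∑ c ∈ S', (if Y / 2 ^ (k + 1) ≤ (g b c : ℝ) ∧
        (g b c : ℝ) < 2 * (Y / 2 ^ (k + 1)) then T b c else 0) := by
    rw [Finset.sum_comm (s := range (N + 1))]
    refine Finset.sum_le_sum fun b hb => ?_
    rw [Finset.sum_comm (s := range (N + 1))]
    refine Finset.sum_le_sum fun c hc => ?_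
    have hnn : ∀ k ∈ range (N + 1), (0 : ℝ) ≤ (if Y / 2 ^ (k + 1) ≤ (g b c : ℝ) ∧
        (g b c : ℝ) < 2 * (Y / 2 ^ (k + 1)) then T b c else 0) := fun k _ => by
      split_ifs
      · exact hT b c
      · exact le_rfl
    by_cases hlt : (g b c : ℝ) < Y
    · rw [if_pos hlt]
      have hg1 : (1 : ℝ) ≤ g b c := by exact_mod_cast hg b c hb hc
      -- the window of `g`
      have hex : ∃ k : ℕ, Y / 2 ^ (k + 1) ≤ (g b c : ℝ) := by
        refine ⟨N, ?_⟩
        rw [div_le_iff₀ (by positivity)]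
        have h2 : (2 : ℝ) ^ N ≤ 2 ^ (N + 1) := pow_le_pow_right₀ (by norm_num) (by omega)
        have h3 : (0 : ℝ) < 2 ^ (N + 1) := by positivity
        nlinarith
      have hspec := Nat.find_spec hex
      have hmin := fun k => Nat.find_min hex (m := k)
      set k := Nat.find hex with hk
      have hkN : k ∈ range (N + 1) := by
        rw [Finset.mem_range]
        have h4 : k ≤ N := by
          refine Nat.find_min' hex ?_
          rw [div_le_iff₀ (by positivity)]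
          have h2 : (2 : ℝ) ^ N ≤ 2 ^ (N + 1) := pow_le_pow_right₀ (by norm_num) (by omega)
          have h3 : (0 : ℝ) < 2 ^ (N + 1) := by positivity
          nlinarith
        omega
      refine le_trans (le_of_eq ?_) (Finset.single_le_sum hnn hkN)
      rw [if_pos]
      refine ⟨hspec, ?_⟩
      rcases Nat.eq_zero_or_pos k with h0 | h0
      · rw [h0]
        have e : 2 * (Y / 2 ^ (0 + 1)) = Y := by ring
        rw [e]; exact hlt
      · have h5 := hmin (k - 1) (by omega)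
        rw [not_le] at h5
        have e : k - 1 + 1 = k := by omega
        rw [e] at h5
        refine lt_of_lt_of_eq h5 ?_
        rw [pow_succ]; field_simp
    · rw [if_neg hlt]
      exact Finset.sum_nonneg hnn
  refine hle.trans ?_
  calc ∑ k ∈ range (N + 1), ∑ b ∈ S, ∑ c ∈ S', (if Y / 2 ^ (k + 1) ≤ (g b c : ℝ) ∧
        (g b c : ℝ) < 2 * (Y / 2 ^ (k + 1)) then T b c else 0)
      ≤ ∑ k ∈ range (N + 1), C * (Y ^ η * r ^ k) := by
        refine Finset.sum_le_sum fun k _ => (h _ (hX k)).trans ?_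
        refine mul_le_mul_of_nonneg_left ?_ hC
        rw [Real.div_rpow hY.le (by positivity), div_eq_mul_inv]
        refine mul_le_mul_of_nonneg_left ?_ (Real.rpow_nonneg hY.le _)
        have e1 : ((2 : ℝ) ^ (k + 1)) ^ η = ((2 : ℝ) ^ η) ^ (k + 1) := by
          rw [← Real.rpow_natCast, ← Real.rpow_natCast, ← Real.rpow_mul (by norm_num),
            ← Real.rpow_mul (by norm_num)]
          congr 1; ring
        rw [e1, ← inv_pow]
        have e2 : ((2 : ℝ) ^ η)⁻¹ = r := by rw [hr, Real.rpow_neg (by norm_num)]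
        rw [e2, pow_succ]
        have h6 : 0 ≤ r ^ k := by positivity
        nlinarith
    _ = C * Y ^ η * ∑ k ∈ range (N + 1), r ^ k := by
        rw [Finset.mul_sum]
        exact Finset.sum_congr rfl fun k _ => by ring
    _ ≤ C * Y ^ η * (1 / (1 - r)) := by
        refine mul_le_mul_of_nonneg_left (geom_le hr0.le hr1 _) ?_
        exact mul_nonneg hC (Real.rpow_nonneg hY.le _)
    _ = _ := by ring

/-- an exponential sum over the dyadic depths `2^j`, `K1 < 2^(j+1)` -/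
lemma sum_depth {K1 : ℝ} (hK1 : 1 ≤ K1) (J : ℕ) :
    ∑ j ∈ (range J).filter (fun j : ℕ => K1 < 2 ^ (j + 1)), (2 : ℝ) ^ (-(j : ℝ) / 5) ≤
      20 * K1 ^ (-(1 / 5) : ℝ) := by
  set r : ℝ := (2 : ℝ) ^ (-(1 / 5) : ℝ) with hr
  have hr0 : 0 < r := by positivity
  have hr1 : r ≤ 9 / 10 := by
    have h1 : (10 / 9 : ℝ) ^ (5 : ℕ) ≤ 2 := by norm_num
    have h2 : (10 / 9 : ℝ) ≤ 2 ^ (1 / 5 : ℝ) := by
      calc (10 / 9 : ℝ) = ((10 / 9 : ℝ) ^ (5 : ℕ)) ^ (1 / 5 : ℝ) := by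
            rw [← Real.rpow_natCast, ← Real.rpow_mul (by norm_num)]; norm_num
        _ ≤ _ := Real.rpow_le_rpow (by positivity) h1 (by norm_num)
    have h3 : r = (2 ^ (1 / 5 : ℝ))⁻¹ := by
      rw [hr, ← Real.rpow_neg (by norm_num)]
    rw [h3]
    calc (2 ^ (1 / 5 : ℝ) : ℝ)⁻¹ ≤ (10 / 9)⁻¹ := inv_anti₀ (by norm_num) h2
      _ = 9 / 10 := by norm_num
  -- the first depth
  have hex : ∃ j : ℕ, K1 < 2 ^ (j + 1) := by
    obtain ⟨n, hn⟩ := exists_nat_gt K1
    exact ⟨n, hn.trans (by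
      have h4 : (n : ℝ) < 2 ^ n := by exact_mod_cast Nat.lt_two_pow_self
      have h5 : (2 : ℝ) ^ n ≤ 2 ^ (n + 1) := pow_le_pow_right₀ (by norm_num) (by omega)
      linarith)⟩
  set j0 := Nat.find hex with hj0
  have hspec : K1 < 2 ^ (j0 + 1) := Nat.find_spec hex
  have hpw : ∀ j : ℕ, (2 : ℝ) ^ (-(j : ℝ) / 5) = r ^ j := fun j => by
    rw [hr, ← Real.rpow_natCast, ← Real.rpow_mul (by norm_num)]
    congr 1; ring
  have hsub : (range J).filter (fun j : ℕ => K1 < 2 ^ (j + 1)) ⊆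
      (range J).image (fun j => j0 + j) := by
    intro j hj
    rw [Finset.mem_filter, Finset.mem_range] at hj
    have h6 : j0 ≤ j := Nat.find_min' hex hj.2
    rw [Finset.mem_image]
    exact ⟨j - j0, Finset.mem_range.2 (by omega), by omega⟩
  have h7 : r ^ j0 ≤ 2 * K1 ^ (-(1 / 5) : ℝ) := by
    have h8 : K1 ^ (1 / 5 : ℝ) ≤ ((2 : ℝ) ^ (j0 + 1)) ^ (1 / 5 : ℝ) :=
      Real.rpow_le_rpow (by linarith) hspec.le (by norm_num)
    have h9 : ((2 : ℝ) ^ (j0 + 1)) ^ (1 / 5 : ℝ) = (2 ^ (1 / 5 : ℝ)) * (r ^ j0)⁻¹ := by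
      rw [← hpw, ← Real.rpow_neg (by norm_num), ← Real.rpow_natCast,
        ← Real.rpow_mul (by norm_num), ← Real.rpow_add (by norm_num)]
      congr 1; push_cast; ring
    have h10 : (2 : ℝ) ^ (1 / 5 : ℝ) ≤ 2 := by
      calc (2 : ℝ) ^ (1 / 5 : ℝ) ≤ 2 ^ (1 : ℝ) :=
            Real.rpow_le_rpow_of_exponent_le (by norm_num) (by norm_num)
        _ = 2 := Real.rpow_one 2
    have h11 : 0 < r ^ j0 := by positivity
    have h12 : 0 < K1 ^ (1 / 5 : ℝ) := by positivity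
    rw [h9] at h8
    have h13 : K1 ^ (1 / 5 : ℝ) * r ^ j0 ≤ 2 := by
      calc K1 ^ (1 / 5 : ℝ) * r ^ j0 ≤ (2 ^ (1 / 5 : ℝ) * (r ^ j0)⁻¹) * r ^ j0 :=
            mul_le_mul_of_nonneg_right h8 h11.le
        _ = 2 ^ (1 / 5 : ℝ) := by field_simp
        _ ≤ 2 := h10
    rw [Real.rpow_neg (by linarith), ← div_eq_mul_inv, le_div_iff₀ h12]
    linarith
  calc ∑ j ∈ (range J).filter (fun j : ℕ => K1 < 2 ^ (j + 1)), (2 : ℝ) ^ (-(j : ℝ) / 5)
      ≤ ∑ j ∈ (range J).image (fun j => j0 + j), (2 : ℝ) ^ (-(j : ℝ) / 5) :=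
        Finset.sum_le_sum_of_subset_of_nonneg hsub fun j _ _ => by positivity
    _ = ∑ j ∈ range J, r ^ j0 * r ^ j := by
        rw [Finset.sum_image (fun a _ b _ h => by simpa using h)]
        refine Finset.sum_congr rfl fun j _ => ?_
        rw [hpw, pow_add]
    _ = r ^ j0 * ∑ j ∈ range J, r ^ j := by rw [Finset.mul_sum]
    _ ≤ (2 * K1 ^ (-(1 / 5) : ℝ)) * 10 := by
        refine mul_le_mul h7 ?_ (Finset.sum_nonneg fun j _ => by positivity) (by positivity)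
        refine (geom_le hr0.le (by linarith) J).trans ?_
        rw [div_le_iff₀ (by linarith)]
        linarith
    _ = _ := by ring

/-- **CTw: all scales `gcd < Y L` and all dyadic depths `> K1/2` at once, sets.** -/
theorem tw_sets {η : ℝ} (hη : 0 < η) (hη1 : η ≤ 1 / 10) : ∃ C : ℝ, 0 < C ∧
    ∀ (M : ℕ) (F : FL M) (P : Par) (B : Finset ℕ), 0 < M → B ⊆ M.divisors → 0 < P.L →
      P.L * ∑ b ∈ B, nu M b ≤ 1 → Monotone P.cut → (∀ m, P.m0 ≤ m → 16 * P.E m ^ 6 < 2 ^ m) →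
      (∀ m, P.m0 ≤ m → 2 * P.E m ^ 2 ≤ P.cut m) → ∀ (Y K1 : ℝ), 0 < Y → 1 ≤ K1 →
      ∀ S S' : Finset ℕ, S ⊆ B → S' ⊆ B →
      ∑ b ∈ S, ∑ c ∈ S', (if (Nat.gcd b c : ℝ) < Y * P.L ∧ ∃ j : ℕ, K1 < 2 ^ (j + 1) ∧
        BTR F P (2 ^ j) (2 ^ ((j : ℝ) / 2) / 2) b c then
          (Nat.gcd b c : ℝ) * nu M b * nu M c else 0) ≤
      C * Y ^ η * K1 ^ (-(1 / 5) : ℝ) * √((∑ b ∈ S, nu M b) * ∑ c ∈ S', nu M c) := by
  obtain ⟨C, hC, H⟩ := big_twistR (t := (1 + η) / 2) (ε := 1 / 40) (by linarith) (by linarith)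
    (by norm_num)
  have hr1 : (2 : ℝ) ^ (-η) < 1 := Real.rpow_lt_one_of_one_lt_of_neg (by norm_num) (by linarith)
  have hg0 : 0 < 1 / (1 - (2 : ℝ) ^ (-η)) := by
    have : 0 < 1 - (2 : ℝ) ^ (-η) := by linarith
    positivity
  refine ⟨2 * C * (1 / (1 - (2 : ℝ) ^ (-η))) * 20, by positivity, ?_⟩
  intro M F P B hM hB hL hmass hcut hE6 hEc Y K1 hY hK1 S S' hS hS'
  set Q : ℝ := √((∑ b ∈ S, nu M b) * ∑ c ∈ S', nu M c) with hQ
  have hQ0 : 0 ≤ Q := Real.sqrt_nonneg _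
  have hdiv : ∀ {b : ℕ}, b ∈ B → 0 < b := fun {b} hb => Nat.pos_of_mem_divisors (hB hb)
  -- one depth
  have hone : ∀ j : ℕ, ∑ b ∈ S, ∑ c ∈ S', (if (Nat.gcd b c : ℝ) < Y * P.L then
      (if BTR F P (2 ^ j) (2 ^ ((j : ℝ) / 2) / 2) b c then
        (Nat.gcd b c : ℝ) * nu M b * nu M c else 0) else 0) ≤
      (2 * C * (1 / (1 - (2 : ℝ) ^ (-η))) * Y ^ η * Q) * 2 ^ (-(j : ℝ) / 5) := by
    intro j
    have hK0 : (0 : ℝ) < 2 ^ ((j : ℝ) / 2) / 2 := by positivity
    have hnum : ((2 : ℝ) ^ j) ^ (1 / 40 : ℝ) * (1 / (2 ^ ((j : ℝ) / 2) / 2)) ^ (1 - (1 + η) / 2) ≤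
        2 * 2 ^ (-(j : ℝ) / 5) := by
      have e1 : ((2 : ℝ) ^ j) ^ (1 / 40 : ℝ) = 2 ^ ((j : ℝ) / 40) := by
        rw [← Real.rpow_natCast, ← Real.rpow_mul (by norm_num)]; congr 1; ring
      have e2 : (1 / ((2 : ℝ) ^ ((j : ℝ) / 2) / 2)) = 2 ^ (1 - (j : ℝ) / 2) := by
        rw [Real.rpow_sub (by norm_num), Real.rpow_one]; field_simp
      rw [e1, e2, ← Real.rpow_mul (by norm_num), ← Real.rpow_add (by norm_num)]
      have e3 : (2 : ℝ) * 2 ^ (-(j : ℝ) / 5) = 2 ^ (1 + -(j : ℝ) / 5) := by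
        rw [Real.rpow_add (by norm_num), Real.rpow_one]
      rw [e3]
      refine Real.rpow_le_rpow_of_exponent_le (by norm_num) ?_
      have hj : (0 : ℝ) ≤ j := Nat.cast_nonneg j
      nlinarith
    have hwin : ∀ X : ℝ, 0 < X → ∑ b ∈ S, ∑ c ∈ S',
        (if X ≤ (Nat.gcd b c : ℝ) ∧ (Nat.gcd b c : ℝ) < 2 * X then
          (if BTR F P (2 ^ j) (2 ^ ((j : ℝ) / 2) / 2) b c then
            (Nat.gcd b c : ℝ) * nu M b * nu M c else 0) else 0) ≤
        ((C * (2 * 2 ^ (-(j : ℝ) / 5)) * Q) * (1 / P.L) ^ η) * X ^ η := by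
      intro X hX
      refine (sets_of_fun (η := η) (L := P.L) (Z := C * (X / P.L) ^ η * (2 * 2 ^ (-(j : ℝ) / 5)))
        hB hL hη.le (by positivity) hmass ?_ hS hS').trans (le_of_eq ?_)
      · intro f g hf hf1 hg hg1
        have h1 := H M F P X (2 ^ j) (2 ^ ((j : ℝ) / 2) / 2) f g hM hX
          (one_le_pow₀ (by norm_num)) hK0 hL hcut hE6 hEc hf hf1 hg hg1
        have e1 : 2 * ((1 + η) / 2) - 1 = η := by ring
        rw [e1] at h1
        set mf := ∑ b ∈ M.divisors, nu M b * f b with hmf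
        set mg := ∑ b ∈ M.divisors, nu M b * g b with hmg
        have hmf0 : 0 ≤ mf := Finset.sum_nonneg fun b _ => mul_nonneg (nu_nonneg _ _) (hf b)
        have hmg0 : 0 ≤ mg := Finset.sum_nonneg fun b _ => mul_nonneg (nu_nonneg _ _) (hg b)
        have hmm : 0 ≤ mf ^ ((1 + η) / 2) * mg ^ ((1 + η) / 2) :=
          mul_nonneg (Real.rpow_nonneg hmf0 _) (Real.rpow_nonneg hmg0 _)
        have e2 : P.L ^ ((1 + η) / 2) * P.L ^ ((1 + η) / 2) = P.L * P.L ^ η := by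
          rw [← Real.rpow_add hL]
          have : (1 + η) / 2 + (1 + η) / 2 = 1 + η := by ring
          rw [this, Real.rpow_add hL, Real.rpow_one]
        calc P.L * ∑ b ∈ M.divisors, ∑ c ∈ M.divisors,
              (if X ≤ (Nat.gcd b c : ℝ) ∧ (Nat.gcd b c : ℝ) < 2 * X then
                (if BTR F P (2 ^ j) (2 ^ ((j : ℝ) / 2) / 2) b c then
                  (Nat.gcd b c : ℝ) * nu M b * nu M c else 0) else 0) * (f b * g c)
            = P.L * ∑ b ∈ M.divisors, ∑ c ∈ M.divisors,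
              (if X ≤ (Nat.gcd b c : ℝ) ∧ (Nat.gcd b c : ℝ) < 2 * X ∧
                BTR F P (2 ^ j) (2 ^ ((j : ℝ) / 2) / 2) b c then
                (Nat.gcd b c : ℝ) * nu M b * nu M c * (f b * g c) else 0) := by
              congr 1
              refine Finset.sum_congr rfl fun b _ => Finset.sum_congr rfl fun c _ => ?_
              by_cases ha : X ≤ (Nat.gcd b c : ℝ) ∧ (Nat.gcd b c : ℝ) < 2 * X
              · rw [if_pos ha]
                by_cases hb : BTR F P (2 ^ j) (2 ^ ((j : ℝ) / 2) / 2) b c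
                · rw [if_pos hb, if_pos ⟨ha.1, ha.2, hb⟩]
                · rw [if_neg hb, if_neg (fun hh => hb hh.2.2), zero_mul]
              · rw [if_neg ha, if_neg (fun hh => ha ⟨hh.1, hh.2.1⟩), zero_mul]
          _ ≤ P.L * (C * X ^ η * (((2 : ℝ) ^ j) ^ (1 / 40 : ℝ) *
                (1 / (2 ^ ((j : ℝ) / 2) / 2)) ^ (1 - (1 + η) / 2) *
                (mf ^ ((1 + η) / 2) * mg ^ ((1 + η) / 2)))) :=
              mul_le_mul_of_nonneg_left h1 hL.le
          _ ≤ P.L * (C * X ^ η * ((2 * 2 ^ (-(j : ℝ) / 5)) *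
                (mf ^ ((1 + η) / 2) * mg ^ ((1 + η) / 2)))) := by
              refine mul_le_mul_of_nonneg_left ?_ hL.le
              refine mul_le_mul_of_nonneg_left ?_ (by positivity)
              exact mul_le_mul_of_nonneg_right hnum hmm
          _ = _ := by
              rw [Real.mul_rpow hL.le hmf0, Real.mul_rpow hL.le hmg0,
                Real.div_rpow hX.le hL.le]
              have hLη : 0 < P.L ^ η := Real.rpow_pos_of_pos hL _
              calc P.L * (C * X ^ η * ((2 * 2 ^ (-(j : ℝ) / 5)) *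
                    (mf ^ ((1 + η) / 2) * mg ^ ((1 + η) / 2))))
                  = C * (X ^ η / P.L ^ η) * (2 * 2 ^ (-(j : ℝ) / 5)) *
                    ((P.L * P.L ^ η) * (mf ^ ((1 + η) / 2) * mg ^ ((1 + η) / 2))) := by
                    field_simp
                _ = _ := by rw [← e2]; ring
      · rw [Real.div_rpow hX.le hL.le, Real.div_rpow (by norm_num) hL.le, Real.one_rpow]
        ring
    have h2 := below_of_windows (S := S) (S' := S') (g := fun b c => Nat.gcd b c)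
      (T := fun b c => if BTR F P (2 ^ j) (2 ^ ((j : ℝ) / 2) / 2) b c then
            (Nat.gcd b c : ℝ) * nu M b * nu M c else 0) hη
      (fun b c => by
        split_ifs
        · exact mul_nonneg (mul_nonneg (Nat.cast_nonneg _) (nu_nonneg _ _)) (nu_nonneg _ _)
        · exact le_rfl)
      (fun b c hb _ => Nat.gcd_pos_of_pos_left _ (hdiv (hS hb))) hwin
      (Y := Y * P.L) (by positivity)
    refine h2.trans (le_of_eq ?_)
    rw [Real.mul_rpow hY.le hL.le, Real.div_rpow (by norm_num) hL.le, Real.one_rpow]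
    have hLη : 0 < P.L ^ η := Real.rpow_pos_of_pos hL _
    field_simp
  -- the finite set of depths
  set J : ℕ := (S.sup fun b => S'.sup fun c => if h : ∃ j : ℕ, K1 < 2 ^ (j + 1) ∧
    BTR F P (2 ^ j) (2 ^ ((j : ℝ) / 2) / 2) b c then Nat.find h else 0) + 1 with hJ
  have hle : ∑ b ∈ S, ∑ c ∈ S', (if (Nat.gcd b c : ℝ) < Y * P.L ∧ ∃ j : ℕ, K1 < 2 ^ (j + 1) ∧
        BTR F P (2 ^ j) (2 ^ ((j : ℝ) / 2) / 2) b c then
          (Nat.gcd b c : ℝ) * nu M b * nu M c else 0) ≤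
      ∑ j ∈ (range J).filter (fun j : ℕ => K1 < 2 ^ (j + 1)), ∑ b ∈ S, ∑ c ∈ S',
        (if (Nat.gcd b c : ℝ) < Y * P.L then
      (if BTR F P (2 ^ j) (2 ^ ((j : ℝ) / 2) / 2) b c then
        (Nat.gcd b c : ℝ) * nu M b * nu M c else 0) else 0) := by
    rw [Finset.sum_comm (s := (range J).filter _)]
    refine Finset.sum_le_sum fun b hb => ?_
    rw [Finset.sum_comm (s := (range J).filter _)]
    refine Finset.sum_le_sum fun c hc => ?_
    have hnn : ∀ j ∈ (range J).filter (fun j : ℕ => K1 < 2 ^ (j + 1)),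
        (0 : ℝ) ≤ (if (Nat.gcd b c : ℝ) < Y * P.L then
      (if BTR F P (2 ^ j) (2 ^ ((j : ℝ) / 2) / 2) b c then
        (Nat.gcd b c : ℝ) * nu M b * nu M c else 0) else 0) := fun j _ => by
      split_ifs
      · exact mul_nonneg (mul_nonneg (Nat.cast_nonneg _) (nu_nonneg _ _)) (nu_nonneg _ _)
      · exact le_rfl
      · exact le_rfl
    by_cases hcond : (Nat.gcd b c : ℝ) < Y * P.L ∧ ∃ j : ℕ, K1 < 2 ^ (j + 1) ∧
        BTR F P (2 ^ j) (2 ^ ((j : ℝ) / 2) / 2) b c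
    · rw [if_pos hcond]
      obtain ⟨h1, hex⟩ := hcond
      have hsp := Nat.find_spec hex
      have hmem : Nat.find hex ∈ (range J).filter (fun j : ℕ => K1 < 2 ^ (j + 1)) := by
        rw [Finset.mem_filter, Finset.mem_range]
        refine ⟨?_, hsp.1⟩
        rw [hJ]
        refine Nat.lt_succ_of_le ?_
        have h3 : Nat.find hex ≤ S'.sup fun c => if h : ∃ j : ℕ, K1 < 2 ^ (j + 1) ∧
            BTR F P (2 ^ j) (2 ^ ((j : ℝ) / 2) / 2) b c then Nat.find h else 0 := by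
          have h4 := Finset.le_sup (f := fun c => if h : ∃ j : ℕ, K1 < 2 ^ (j + 1) ∧
            BTR F P (2 ^ j) (2 ^ ((j : ℝ) / 2) / 2) b c then Nat.find h else 0) hc
          rwa [dif_pos hex] at h4
        exact h3.trans (Finset.le_sup (f := fun b => S'.sup fun c => if h : ∃ j : ℕ,
          K1 < 2 ^ (j + 1) ∧ BTR F P (2 ^ j) (2 ^ ((j : ℝ) / 2) / 2) b c then Nat.find h
          else 0) hb)
      have h5 := Finset.single_le_sum hnn hmem
      rw [if_pos h1, if_pos hsp.2] at h5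
      exact h5
    · rw [if_neg hcond]
      exact Finset.sum_nonneg hnn
  refine hle.trans ?_
  calc _ ≤ ∑ j ∈ (range J).filter (fun j : ℕ => K1 < 2 ^ (j + 1)),
        (2 * C * (1 / (1 - (2 : ℝ) ^ (-η))) * Y ^ η * Q) * 2 ^ (-(j : ℝ) / 5) :=
        Finset.sum_le_sum fun j _ => hone j
    _ = (2 * C * (1 / (1 - (2 : ℝ) ^ (-η))) * Y ^ η * Q) *
        ∑ j ∈ (range J).filter (fun j : ℕ => K1 < 2 ^ (j + 1)), (2 : ℝ) ^ (-(j : ℝ) / 5) := by
        rw [Finset.mul_sum]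
    _ ≤ (2 * C * (1 / (1 - (2 : ℝ) ^ (-η))) * Y ^ η * Q) * (20 * K1 ^ (-(1 / 5) : ℝ)) := by
        refine mul_le_mul_of_nonneg_left (sum_depth hK1 J) ?_
        have : 0 ≤ Y ^ η := Real.rpow_nonneg hY.le _
        positivity
    _ = _ := by ring

end Crest.Agent.R4C.TwNumx404
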