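import Crest.Agent.R4C.TwNum_404
import Crest.Agent.R4C.SplitDef_945

/-!
# Class CTw: pair side and set-bilinear bound per level (helper404)

* `tw_box` : a pair of the class `CTw` at the level `t` has a big twist (`BTR`) at some dyadic depth
  `2^j`, `E(t)^4 < 2^(j+1)`;
* `CTwAt` : the class at the level `t`;
* `tw_level` : set-bilinear bound of one level.
-/

set_option autoImplicit false

namespace Crest.Agent.R4C.TwSidex404

open Finset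
open Crest.Agent.R4C.Basex935 Crest.Agent.R4C.FLDefx935 Crest.Agent.R4C.Rulex945
  Crest.Agent.R4C.BoostCx972 Crest.Agent.R4C.CrCountx935 Crest.Agent.R4C.Bridgex882
  Crest.Agent.R4C.BigTwistRx22 Crest.Agent.R4C.UDsetx404 Crest.Agent.R4C.TwNumx404
  Crest.Agent.R4C.Splitx945 Crest.Agent.R4C.TwPairx100

variable {M : ℕ} {F : FL M} {P : Par}

/-- link in the form of `TwPair_100` -/
lemma link_le {b c : ℕ} (hb : 0 < b) {h : ℤ} (hl : h ∈ Lnk P.γ P.L b c) :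
    ((Nat.gcd b c : ℕ) : ℝ) * |(((b / Nat.gcd b c : ℕ) : ℝ) - ((c / Nat.gcd b c : ℕ) : ℝ)) * P.γ +
      h| ≤ P.L := by
  have hg : (0 : ℝ) < (Nat.gcd b c : ℕ) := by exact_mod_cast Nat.gcd_pos_of_pos_left _ hb
  unfold Lnk at hl
  have h1 := mem_Hf.1 hl
  have h2 := mul_le_mul_of_nonneg_left h1.le hg.le
  have h3 : ((Nat.gcd b c : ℕ) : ℝ) * (P.L / (Nat.gcd b c : ℕ)) = P.L := by field_simp
  linarith

lemma Lnk_symm {γ L : ℝ} {b c : ℕ} {h : ℤ} (hl : h ∈ Lnk γ L b c) : -h ∈ Lnk γ L c b := by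
  unfold Lnk at hl ⊢
  rw [mem_Hf] at hl ⊢
  rw [Nat.gcd_comm c b]
  refine lt_of_eq_of_lt ?_ hl
  rw [← abs_neg]
  congr 1
  push_cast
  ring

/-- **the pair side of `CTw`** -/
theorem tw_box (hM : 0 < M) (hL : 0 < P.L) (hcut : Monotone P.cut) {b c : ℕ} (hb : b ∣ M)
    (hc : c ∣ M) {h : ℤ} (hl : h ∈ Lnk P.γ P.L b c) {t m : ℕ} {f f' : ℚ} (hm0 : P.m0 ≤ t)
    (hgood : F.good (P.cut t) b c)
    (hgap : gap f f' (b / Nat.gcd b c) (c / Nat.gcd b c) h = 0) (htm : t ≤ m)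
    (hT : TC F P m b f) (hT' : TC F P t c f') (hd : P.E t ^ 4 < dep F P m b f) :
    ∃ j : ℕ, P.E t ^ 4 < 2 ^ (j + 1) ∧ BTR F P (2 ^ j) (2 ^ ((j : ℝ) / 2) / 2) b c := by
  have hb0 : 0 < b := Nat.pos_of_dvd_of_pos hb hM
  have hg : 0 < Nat.gcd b c := Nat.gcd_pos_of_pos_left _ hb0
  have hK1 : 1 ≤ dep F P m b f := one_le_dep _ _ _
  set K := dep F P m b f with hK
  have hfl : 1 ≤ ⌊K⌋₊ := Nat.le_floor (by exact_mod_cast hK1)
  set j := Nat.log 2 ⌊K⌋₊ with hj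
  have hjle : (2 : ℝ) ^ j ≤ K := by
    have h1 : 2 ^ j ≤ ⌊K⌋₊ := Nat.pow_log_le_self 2 (by omega)
    have h2 : ((2 ^ j : ℕ) : ℝ) ≤ (⌊K⌋₊ : ℝ) := by exact_mod_cast h1
    push_cast at h2
    exact h2.trans (Nat.floor_le (by linarith))
  have hjlt : K < 2 ^ (j + 1) := by
    have h1 : ⌊K⌋₊ < 2 ^ (j + 1) := Nat.lt_pow_succ_log_self (by norm_num) _
    have h2 : ((⌊K⌋₊ + 1 : ℕ) : ℝ) ≤ ((2 ^ (j + 1) : ℕ) : ℝ) := by exact_mod_cast h1
    push_cast at h2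
    exact (Nat.lt_floor_add_one K).trans_le h2
  refine ⟨j, hd.trans hjlt, ?_⟩
  have eb : Nat.gcd b c * (b / Nat.gcd b c) = b := Nat.mul_div_cancel' (Nat.gcd_dvd_left _ _)
  have ec : Nat.gcd b c * (c / Nat.gcd b c) = c := Nat.mul_div_cancel' (Nat.gcd_dvd_right _ _)
  have hcop : Nat.Coprime (b / Nat.gcd b c) (c / Nat.gcd b c) := Nat.coprime_div_gcd_div_gcd hg
  have hE2 : dep F P t c f' ≤ P.E t ^ 2 := hT'.dep_le hL
  have hE0 : 0 ≤ dep F P t c f' := zero_le_one.trans (one_le_dep _ _ _)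
  have hsq : dep F P t c f' ^ 2 ≤ K := by
    calc dep F P t c f' ^ 2 ≤ (P.E t ^ 2) ^ 2 := pow_le_pow_left₀ hE0 hE2 2
      _ = P.E t ^ 4 := by ring
      _ ≤ K := hd.le
  have h3 := twist_big (F := F) (P := P) (g := Nat.gcd b c) (s := b / Nat.gcd b c)
    (s' := c / Nat.gcd b c) (h := h) (f := f) (f' := f') hM hL hcut (by rw [eb]; exact hb)
    (by rw [ec]; exact hc) hcop htm (by rw [eb, ec]; exact hgood) hgap (link_le hb0 hl)
    (by rw [eb, ec]; exact hsq)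
  rw [eb] at h3
  refine BTR_of_gcd hM hb (hm0.trans htm) hT hjle (by rw [pow_succ] at hjlt; linarith) ?_
  refine le_trans ?_ h3
  refine div_le_div_of_nonneg_right ?_ (by norm_num)
  calc (2 : ℝ) ^ ((j : ℝ) / 2) = ((2 : ℝ) ^ j) ^ (1 / 2 : ℝ) := by
        rw [← Real.rpow_natCast, ← Real.rpow_mul (by norm_num)]
        congr 1; ring
    _ ≤ K ^ (1 / 2 : ℝ) := Real.rpow_le_rpow (by positivity) hjle (by norm_num)

/-- the class `CTw` at the level `t` -/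
def CTwAt (F : FL M) (P : Par) (t b c : ℕ) (h : ℤ) : Prop :=
  ∃ m f f', BP F P t b c h f f' ∧ t ≤ m ∧
    ((TC F P m b f ∧ TC F P t c f' ∧ P.E t ^ 4 < dep F P m b f) ∨
      (TC F P m c f' ∧ TC F P t b f ∧ P.E t ^ 4 < dep F P m c f'))

lemma ctw_iff {b c : ℕ} {h : ℤ} : CTw F P b c h ↔ ∃ t, CTwAt F P t b c h := Iff.rfl

/-- the size part of `BP` -/
lemma gcd_lt {t b c : ℕ} {h : ℤ} {f f' : ℚ} (hL : 0 < P.L) (hBP : BP F P t b c h f f') :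
    (Nat.gcd b c : ℝ) < (2 * 2 ^ (((t : ℝ) + 1) / 2)) * P.L := by
  have h1 := hBP.scl
  have h2 : (2 : ℝ) ^ (t + 1) = (2 ^ (((t : ℝ) + 1) / 2)) ^ 2 := by
    rw [← Real.rpow_natCast, ← Real.rpow_natCast, ← Real.rpow_mul (by norm_num)]
    congr 1; push_cast; ring
  rw [h2, ← mul_pow] at h1
  have h3 : (0 : ℝ) < 2 ^ (((t : ℝ) + 1) / 2) := by positivity
  have h4 : (Nat.gcd b c : ℝ) ≤ 2 ^ (((t : ℝ) + 1) / 2) * P.L := by
    refine (sq_le_sq₀ (Nat.cast_nonneg _) (by positivity)).1 h1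
  nlinarith [mul_pos h3 hL]

open Classical in
/-- **CTw, one level, sets** -/
theorem tw_level {η : ℝ} (hη : 0 < η) (hη1 : η ≤ 1 / 10) : ∃ C : ℝ, 0 < C ∧
    ∀ (M : ℕ) (F : FL M) (P : Par) (B : Finset ℕ), 0 < M → B ⊆ M.divisors → 0 < P.L →
      P.L * ∑ b ∈ B, nu M b ≤ 1 → Monotone P.cut → (∀ m, P.m0 ≤ m → 16 * P.E m ^ 6 < 2 ^ m) →
      (∀ m, P.m0 ≤ m → 2 * P.E m ^ 2 ≤ P.cut m) → ∀ t : ℕ, P.m0 ≤ t → 1 ≤ P.E t →
      ∀ S S' : Finset ℕ, S ⊆ B → S' ⊆ B →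
      ∑ b ∈ S, ∑ c ∈ S', (if ∃ h ∈ Lnk P.γ P.L b c, CTwAt F P t b c h then
          (Nat.gcd b c : ℝ) * nu M b * nu M c else 0) ≤
      C * 2 ^ (η * t / 2) * (P.E t ^ 4) ^ (-(1 / 5) : ℝ) *
        √((∑ b ∈ S, nu M b) * ∑ c ∈ S', nu M c) := by
  obtain ⟨C, hC, H⟩ := tw_sets hη hη1
  refine ⟨C * 2 * 4, by positivity, ?_⟩
  intro M F P B hM hB hL hmass hcut hE6 hEc t ht hE1 S S' hS hS'
  have hK1 : 1 ≤ P.E t ^ 4 := one_le_pow₀ hE1
  set Y : ℝ := 2 * 2 ^ (((t : ℝ) + 1) / 2) with hY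
  have hY0 : 0 < Y := by positivity
  have h1 := H M F P B hM hB hL hmass hcut hE6 hEc Y (P.E t ^ 4) hY0 hK1 S S' hS hS'
  have h2 := H M F P B hM hB hL hmass hcut hE6 hEc Y (P.E t ^ 4) hY0 hK1 S' S hS' hS
  rw [Finset.sum_comm] at h2
  have hpt : ∑ b ∈ S, ∑ c ∈ S', (if ∃ h ∈ Lnk P.γ P.L b c, CTwAt F P t b c h then
          (Nat.gcd b c : ℝ) * nu M b * nu M c else 0) ≤
      ∑ b ∈ S, ∑ c ∈ S', ((if (Nat.gcd b c : ℝ) < Y * P.L ∧ ∃ j : ℕ, P.E t ^ 4 < 2 ^ (j + 1) ∧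
        BTR F P (2 ^ j) (2 ^ ((j : ℝ) / 2) / 2) b c then
          (Nat.gcd b c : ℝ) * nu M b * nu M c else 0) +
        (if (Nat.gcd c b : ℝ) < Y * P.L ∧ ∃ j : ℕ, P.E t ^ 4 < 2 ^ (j + 1) ∧
        BTR F P (2 ^ j) (2 ^ ((j : ℝ) / 2) / 2) c b then
          (Nat.gcd c b : ℝ) * nu M c * nu M b else 0)) := by
    refine Finset.sum_le_sum fun b hb => Finset.sum_le_sum fun c hc => ?_
    have hbM : b ∣ M := Nat.dvd_of_mem_divisors (hB (hS hb))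
    have hcM : c ∣ M := Nat.dvd_of_mem_divisors (hB (hS' hc))
    have p1 : 0 ≤ (Nat.gcd b c : ℝ) * nu M b * nu M c :=
      mul_nonneg (mul_nonneg (Nat.cast_nonneg _) (nu_nonneg _ _)) (nu_nonneg _ _)
    have p2 : 0 ≤ (Nat.gcd c b : ℝ) * nu M c * nu M b :=
      mul_nonneg (mul_nonneg (Nat.cast_nonneg _) (nu_nonneg _ _)) (nu_nonneg _ _)
    by_cases hcond : ∃ h ∈ Lnk P.γ P.L b c, CTwAt F P t b c h
    · rw [if_pos hcond]
      obtain ⟨h, hl, m, f, f', hBP, htm, hcase⟩ := hcond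
      have hlt := gcd_lt hL hBP
      rcases hcase with ⟨g1, g2, g3⟩ | ⟨g1, g2, g3⟩
      · have h3 := tw_box hM hL hcut hbM hcM hl ht hBP.good hBP.pt htm g1 g2 g3
        rw [if_pos ⟨hlt, h3⟩]
        split_ifs <;> linarith
      · have hgood' : F.good (P.cut t) c b := FL.good_symm hbM hcM hBP.good
        have hgap' : gap f' f (c / Nat.gcd c b) (b / Nat.gcd c b) (-h) = 0 := by
          have h0 := hBP.pt
          rw [Nat.gcd_comm c b]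
          unfold gap at h0 ⊢
          push_cast
          linear_combination -h0
        have h3 := tw_box hM hL hcut hcM hbM (Lnk_symm hl) ht hgood' hgap' htm g1 g2 g3
        have hlt' : (Nat.gcd c b : ℝ) < Y * P.L := by rw [Nat.gcd_comm c b]; exact hlt
        rw [if_pos (⟨hlt', h3⟩ : (Nat.gcd c b : ℝ) < Y * P.L ∧ _)]
        have e : (Nat.gcd c b : ℝ) * nu M c * nu M b = (Nat.gcd b c : ℝ) * nu M b * nu M c := by
          rw [Nat.gcd_comm c b]; ring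
        rw [e]
        split_ifs <;> linarith
    · rw [if_neg hcond]
      split_ifs <;> linarith
  refine hpt.trans ?_
  simp only [Finset.sum_add_distrib]
  refine (add_le_add h1 h2).trans ?_
  rw [mul_comm (∑ b ∈ S', nu M b)]
  have hYη : Y ^ η ≤ 4 * 2 ^ (η * t / 2) := by
    rw [hY, Real.mul_rpow (by norm_num) (by positivity), ← Real.rpow_mul (by norm_num)]
    have e1 : (((t : ℝ) + 1) / 2) * η = η * t / 2 + η / 2 := by ring
    rw [e1, Real.rpow_add (by norm_num)]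
    have e2 : (2 : ℝ) ^ η ≤ 2 := by
      calc (2 : ℝ) ^ η ≤ 2 ^ (1 : ℝ) :=
            Real.rpow_le_rpow_of_exponent_le (by norm_num) (by linarith)
        _ = 2 := Real.rpow_one 2
    have e3 : (2 : ℝ) ^ (η / 2) ≤ 2 := by
      calc (2 : ℝ) ^ (η / 2) ≤ 2 ^ (1 : ℝ) :=
            Real.rpow_le_rpow_of_exponent_le (by norm_num) (by linarith)
        _ = 2 := Real.rpow_one 2
    have e4 : (0 : ℝ) < 2 ^ (η * t / 2) := by positivity
    have e5 : (0 : ℝ) < 2 ^ η := by positivity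
    have e6 : (0 : ℝ) < 2 ^ (η / 2) := by positivity
    calc (2 : ℝ) ^ η * (2 ^ (η * t / 2) * 2 ^ (η / 2))
        = (2 ^ η * 2 ^ (η / 2)) * 2 ^ (η * t / 2) := by ring
      _ ≤ (2 * 2) * 2 ^ (η * t / 2) :=
          mul_le_mul_of_nonneg_right (mul_le_mul e2 e3 e6.le (by norm_num)) e4.le
      _ = _ := by ring
  have hQ0 : 0 ≤ √((∑ b ∈ S, nu M b) * ∑ c ∈ S', nu M c) := Real.sqrt_nonneg _
  have hK0 : 0 ≤ (P.E t ^ 4) ^ (-(1 / 5) : ℝ) := Real.rpow_nonneg (by linarith) _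
  calc C * Y ^ η * (P.E t ^ 4) ^ (-(1 / 5) : ℝ) * √((∑ b ∈ S, nu M b) * ∑ c ∈ S', nu M c) +
        C * Y ^ η * (P.E t ^ 4) ^ (-(1 / 5) : ℝ) * √((∑ b ∈ S, nu M b) * ∑ c ∈ S', nu M c)
      = (2 * C * ((P.E t ^ 4) ^ (-(1 / 5) : ℝ) * √((∑ b ∈ S, nu M b) * ∑ c ∈ S', nu M c))) *
        Y ^ η := by ring
    _ ≤ (2 * C * ((P.E t ^ 4) ^ (-(1 / 5) : ℝ) * √((∑ b ∈ S, nu M b) * ∑ c ∈ S', nu M c))) *
        (4 * 2 ^ (η * t / 2)) := mul_le_mul_of_nonneg_left hYη (by positivity)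
    _ = _ := by ring

end Crest.Agent.R4C.TwSidex404
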