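import Crest.Agent.R4C.Theta_129
import Crest.Agent.R4C.GWhyp_656

/-!
# Row 4, GW section, remark (R3) to BLOCK NH: words with two close letters are rare (helper772)

* `pair_sum` : `∑ 1/(pq) ≤ 32 (A+1)/k0` over the pairs of primes `2^k0 < p < q ≤ 2^A p`.
* `two_nu` : the words `b ∣ N` with two such letters have mass `≤ 32 (A+1)/k0` (general `N`).
* `two_law` : the same for the law `law P S` of `GWhyp_656` (constant `128`).
* `nonsq_le` : non-squarefree words with all primes `> x` have mass `≤ 2/(x+1)`.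
* `top_eq` : for the other words `r` is the only letter of its cut block `(2^(A(m-1)), 2^(Am)]`.
-/

set_option autoImplicit false

open Finset

namespace Crest.Agent.R4C.TwoLetx772

open Crest.Agent.R4C.Basex935 Crest.Agent.R4C.Thetax129 Crest.Agent.R4C.GWhx656

lemma mem_blk_clog {q : ℕ} (hq : q.Prime) : q ∈ blkP (Nat.clog 2 q) := by
  rw [mem_blkP]
  refine ⟨⟨?_, Nat.le_pow_clog (by norm_num) q⟩, hq⟩
  have h := Nat.pow_pred_clog_lt_self (b := 2) (by norm_num) hq.one_lt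
  rwa [Nat.pred_eq_sub_one] at h

/-- reciprocal sum of the primes in `(p, 2^A p]`, `p` in the block `k` -/
lemma inner_sum {A k p : ℕ} (hk : 2 ≤ k) (hp : p ∈ blkP k) (Q : Finset ℕ)
    (hQ : ∀ q ∈ Q, q.Prime ∧ p < q ∧ q ≤ 2 ^ A * p) :
    ∑ q ∈ Q, 1 / (q : ℝ) ≤ 4 * ((A : ℝ) + 1) / ((k : ℝ) - 1) := by
  have hk1 : (0 : ℝ) < (k : ℝ) - 1 := by
    have : (2 : ℝ) ≤ k := by exact_mod_cast hk
    linarith
  rw [mem_blkP] at hp
  have hmaps : ∀ q ∈ Q, Nat.clog 2 q - k ∈ range (A + 1) ∧ Nat.clog 2 q = k + (Nat.clog 2 q - k) := by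
    intro q hq
    obtain ⟨h1, h2, h3⟩ := hQ q hq
    have h4 := (mem_blkP.1 (mem_blk_clog h1)).1
    have h5 : k ≤ Nat.clog 2 q := by
      have h6 : 2 ^ (k - 1) < 2 ^ (Nat.clog 2 q) := by omega
      have h7 := (Nat.pow_lt_pow_iff_right (by norm_num)).1 h6
      omega
    have h8 : Nat.clog 2 q ≤ k + A := by
      refine Nat.clog_le_of_le_pow ?_
      calc q ≤ 2 ^ A * p := h3
        _ ≤ 2 ^ A * 2 ^ k := Nat.mul_le_mul_left _ hp.1.2
        _ = 2 ^ (k + A) := by rw [← pow_add, add_comm]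
    rw [mem_range]
    omega
  rw [← sum_fiberwise_of_maps_to (fun q hq => (hmaps q hq).1)]
  calc ∑ j ∈ range (A + 1), ∑ q ∈ Q with Nat.clog 2 q - k = j, 1 / (q : ℝ)
      ≤ ∑ _j ∈ range (A + 1), 4 / ((k : ℝ) - 1) := by
        refine sum_le_sum fun j _ => ?_
        have h1 : (Q.filter fun q => Nat.clog 2 q - k = j) ⊆ blkP (k + j) := by
          intro q hq
          rw [mem_filter] at hq
          have h2 := (hmaps q hq.1).2
          rw [hq.2] at h2
          rw [← h2]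
          exact mem_blk_clog (hQ q hq.1).1
        calc ∑ q ∈ Q with Nat.clog 2 q - k = j, 1 / (q : ℝ)
            ≤ ∑ q ∈ blkP (k + j), 1 / (q : ℝ) :=
              sum_le_sum_of_subset_of_nonneg h1 fun _ _ _ => by positivity
          _ ≤ 4 / (((k + j : ℕ) : ℝ) - 1) := sum_blkP (by omega)
          _ ≤ 4 / ((k : ℝ) - 1) := by
              refine div_le_div_of_nonneg_left (by norm_num) hk1 ?_
              push_cast
              have : (0 : ℝ) ≤ j := Nat.cast_nonneg _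
              linarith
    _ = 4 * ((A : ℝ) + 1) / ((k : ℝ) - 1) := by
        rw [sum_const, card_range, nsmul_eq_mul]
        push_cast
        ring

/-- the close pairs -/
def PI (A k0 : ℕ) (P : Finset ℕ) : Finset (ℕ × ℕ) :=
  (P ×ˢ P).filter fun x => 2 ^ k0 < x.1 ∧ x.1 < x.2 ∧ x.2 ≤ 2 ^ A * x.1

lemma mem_PI {A k0 : ℕ} {P : Finset ℕ} {x : ℕ × ℕ} : x ∈ PI A k0 P ↔
    (x.1 ∈ P ∧ x.2 ∈ P) ∧ 2 ^ k0 < x.1 ∧ x.1 < x.2 ∧ x.2 ≤ 2 ^ A * x.1 := by
  unfold PI
  rw [mem_filter, mem_product]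

theorem pair_sum {A k0 : ℕ} (hk0 : 1 ≤ k0) (P : Finset ℕ) (hP : ∀ p ∈ P, p.Prime) :
    ∑ x ∈ PI A k0 P, 1 / (x.1 : ℝ) * (1 / (x.2 : ℝ)) ≤ 32 * ((A : ℝ) + 1) / k0 := by
  classical
  have hk0' : (0 : ℝ) < k0 := by exact_mod_cast hk0
  set P' := P.filter fun p => 2 ^ k0 < p with hP'
  set Q : ℕ → Finset ℕ := fun p => P.filter fun q => p < q ∧ q ≤ 2 ^ A * p with hQ
  have e1 : ∑ x ∈ PI A k0 P, 1 / (x.1 : ℝ) * (1 / (x.2 : ℝ)) =
      ∑ p ∈ P', 1 / (p : ℝ) * ∑ q ∈ Q p, 1 / (q : ℝ) := by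
    unfold PI
    rw [sum_filter, sum_product, hP', sum_filter]
    refine sum_congr rfl fun p _ => ?_
    by_cases h : 2 ^ k0 < p
    · rw [if_pos h, hQ, sum_filter, mul_sum]
      refine sum_congr rfl fun q _ => ?_
      by_cases h2 : p < q ∧ q ≤ 2 ^ A * p
      · rw [if_pos ⟨h, h2⟩, if_pos h2]
      · rw [if_neg (fun h3 => h2 h3.2), if_neg h2, mul_zero]
    · rw [if_neg h]
      exact sum_eq_zero fun q _ => if_neg fun h3 => h h3.1
  rw [e1]
  -- the block of `p`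
  have hcl : ∀ p ∈ P', k0 + 1 ≤ Nat.clog 2 p := by
    intro p hp
    have h1 := (mem_filter.1 hp).2
    have h2 := Nat.le_pow_clog (b := 2) (by norm_num) p
    have h3 : 2 ^ k0 < 2 ^ (Nat.clog 2 p) := lt_of_lt_of_le h1 h2
    exact (Nat.pow_lt_pow_iff_right (by norm_num)).1 h3
  set K := P'.sup (fun p => Nat.clog 2 p) with hK
  have hmaps : ∀ p ∈ P', Nat.clog 2 p - 1 ∈ Ioo (k0 - 1) (K + 1) := by
    intro p hp
    have h1 := hcl p hp
    have h2 : Nat.clog 2 p ≤ K := le_sup (f := fun p => Nat.clog 2 p) hp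
    rw [mem_Ioo]
    omega
  calc ∑ p ∈ P', 1 / (p : ℝ) * ∑ q ∈ Q p, 1 / (q : ℝ)
      ≤ ∑ p ∈ P', 1 / (p : ℝ) * (4 * ((A : ℝ) + 1) / ((Nat.clog 2 p : ℝ) - 1)) := by
        refine sum_le_sum fun p hp => mul_le_mul_of_nonneg_left ?_ (by positivity)
        have h1 := hcl p hp
        refine inner_sum (by omega) (mem_blk_clog (hP p (mem_filter.1 hp).1)) _ fun q hq => ?_
        rw [hQ, mem_filter] at hq
        exact ⟨hP q hq.1, hq.2⟩
    _ = ∑ j ∈ Ioo (k0 - 1) (K + 1), ∑ p ∈ P' with Nat.clog 2 p - 1 = j,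
        1 / (p : ℝ) * (4 * ((A : ℝ) + 1) / ((Nat.clog 2 p : ℝ) - 1)) :=
        (sum_fiberwise_of_maps_to hmaps _).symm
    _ ≤ ∑ j ∈ Ioo (k0 - 1) (K + 1), 16 * ((A : ℝ) + 1) * ((j : ℝ) ^ 2)⁻¹ := by
        refine sum_le_sum fun j hj => ?_
        rw [mem_Ioo] at hj
        have hj0 : (0 : ℝ) < j := by
          have : 0 < j := by omega
          exact_mod_cast this
        have hsub : (P'.filter fun p => Nat.clog 2 p - 1 = j) ⊆ blkP (j + 1) := by
          intro p hp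
          rw [mem_filter] at hp
          have h1 := hcl p hp.1
          have h2 : Nat.clog 2 p = j + 1 := by omega
          rw [← h2]
          exact mem_blk_clog (hP p (mem_filter.1 hp.1).1)
        calc ∑ p ∈ P' with Nat.clog 2 p - 1 = j,
              1 / (p : ℝ) * (4 * ((A : ℝ) + 1) / ((Nat.clog 2 p : ℝ) - 1))
            = ∑ p ∈ P' with Nat.clog 2 p - 1 = j, 1 / (p : ℝ) * (4 * ((A : ℝ) + 1) / j) := by
              refine sum_congr rfl fun p hp => ?_
              rw [mem_filter] at hp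
              have h1 := hcl p hp.1
              have h2 : Nat.clog 2 p = j + 1 := by omega
              rw [h2]
              push_cast
              rw [add_sub_cancel_right]
          _ = (∑ p ∈ P' with Nat.clog 2 p - 1 = j, 1 / (p : ℝ)) * (4 * ((A : ℝ) + 1) / j) := by
              rw [sum_mul]
          _ ≤ (∑ p ∈ blkP (j + 1), 1 / (p : ℝ)) * (4 * ((A : ℝ) + 1) / j) := by
              refine mul_le_mul_of_nonneg_right ?_ (by positivity)
              exact sum_le_sum_of_subset_of_nonneg hsub fun _ _ _ => by positivity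
          _ ≤ (4 / (((j + 1 : ℕ) : ℝ) - 1)) * (4 * ((A : ℝ) + 1) / j) := by
              refine mul_le_mul_of_nonneg_right (sum_blkP (by omega)) (by positivity)
          _ = 16 * ((A : ℝ) + 1) * ((j : ℝ) ^ 2)⁻¹ := by
              push_cast
              rw [add_sub_cancel_right]
              field_simp
              ring
    _ = 16 * ((A : ℝ) + 1) * ∑ j ∈ Ioo (k0 - 1) (K + 1), ((j : ℝ) ^ 2)⁻¹ := by rw [mul_sum]
    _ ≤ 16 * ((A : ℝ) + 1) * (2 / (((k0 - 1 : ℕ) : ℝ) + 1)) :=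
        mul_le_mul_of_nonneg_left (sum_Ioo_inv_sq_le _ _) (by positivity)
    _ = 32 * ((A : ℝ) + 1) / k0 := by
        rw [Nat.cast_sub hk0]
        push_cast
        rw [sub_add_cancel]
        ring

/-! ### words `b ∣ N` -/

/-- two letters above `2^k0` with ratio at most `2^A` -/
def TwoB (A k0 b : ℕ) : Prop :=
  ∃ p q : ℕ, p.Prime ∧ q.Prime ∧ p ∣ b ∧ q ∣ b ∧ 2 ^ k0 < p ∧ p < q ∧ q ≤ 2 ^ A * p

open Classical in
/-- **words with two close letters are rare**, general `N` -/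
theorem two_nu {N A k0 : ℕ} (hN : 0 < N) (hk0 : 1 ≤ k0) :
    ∑ b ∈ N.divisors with TwoB A k0 b, nu N b ≤ 32 * ((A : ℝ) + 1) / k0 := by
  have hP : ∀ p ∈ N.primeFactors, p.Prime := fun p hp => Nat.prime_of_mem_primeFactors hp
  refine le_trans ?_ (pair_sum (A := A) hk0 N.primeFactors hP)
  have hsub : (N.divisors.filter fun b => TwoB A k0 b) ⊆
      (PI A k0 N.primeFactors).biUnion fun x => N.divisors.filter fun b => x.1 * x.2 ∣ b := by
    intro b hb
    obtain ⟨hbN, p, q, hp, hq, hpb, hqb, h1, h2, h3⟩ := mem_filter.1 hb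
    have hbd := (Nat.mem_divisors.1 hbN).1
    rw [mem_biUnion]
    refine ⟨(p, q), mem_PI.2 ⟨⟨?_, ?_⟩, h1, h2, h3⟩, mem_filter.2 ⟨hbN, ?_⟩⟩
    · exact Nat.mem_primeFactors.2 ⟨hp, hpb.trans hbd, hN.ne'⟩
    · exact Nat.mem_primeFactors.2 ⟨hq, hqb.trans hbd, hN.ne'⟩
    · exact Nat.Coprime.mul_dvd_of_dvd_of_dvd ((Nat.coprime_primes hp hq).2 h2.ne) hpb hqb
  have hstep : ∀ I : Finset (ℕ × ℕ), I ⊆ PI A k0 N.primeFactors →
      ∑ b ∈ I.biUnion (fun x => N.divisors.filter fun b => x.1 * x.2 ∣ b), nu N b ≤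
        ∑ x ∈ I, 1 / (x.1 : ℝ) * (1 / (x.2 : ℝ)) := by
    intro I
    induction I using Finset.induction_on with
    | empty => intro _; simp
    | insert x I hx ih =>
      intro hI
      rw [biUnion_insert, sum_insert hx]
      have h1 := ih ((subset_insert _ _).trans hI)
      have h2 : ∑ b ∈ N.divisors.filter (fun b => x.1 * x.2 ∣ b), nu N b ≤
          1 / (x.1 : ℝ) * (1 / (x.2 : ℝ)) := by
        obtain ⟨⟨hx1, hx2⟩, _, h4, _⟩ := mem_PI.1 (hI (mem_insert_self _ _))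
        have hd : x.1 * x.2 ∣ N :=
          Nat.Coprime.mul_dvd_of_dvd_of_dvd
            ((Nat.coprime_primes (hP _ hx1) (hP _ hx2)).2 h4.ne)
            (Nat.dvd_of_mem_primeFactors hx1) (Nat.dvd_of_mem_primeFactors hx2)
        refine le_of_eq ?_
        rw [sum_nu_mult hN hd]
        push_cast
        rw [one_div_mul_one_div]
      have h3 := sum_union_inter (s₁ := N.divisors.filter (fun b => x.1 * x.2 ∣ b))
        (s₂ := I.biUnion (fun x => N.divisors.filter fun b => x.1 * x.2 ∣ b)) (f := fun b => nu N b)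
      have h4 : 0 ≤ ∑ b ∈ N.divisors.filter (fun b => x.1 * x.2 ∣ b) ∩
          I.biUnion (fun x => N.divisors.filter fun b => x.1 * x.2 ∣ b), nu N b :=
        sum_nonneg fun b _ => nu_nonneg N b
      linarith
  exact (sum_le_sum_of_subset_of_nonneg hsub fun b _ _ => nu_nonneg N b).trans
    (hstep _ subset_rfl)

/-- non-squarefree words with all primes `> x` -/
theorem nonsq_le {N x : ℕ} (hN : 0 < N) (hx : ∀ p ∈ N.primeFactors, x < p) :
    ∑ b ∈ N.divisors with ¬ Squarefree b, nu N b ≤ 2 / ((x : ℝ) + 1) := by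
  refine (sum_nu_nonsq hN).trans ?_
  set K := N.primeFactors.sup id with hK
  have hsub : N.primeFactors ⊆ Ioo x (K + 1) := by
    intro p hp
    have h1 := hx p hp
    have h2 : p ≤ K := le_sup (f := id) hp
    rw [mem_Ioo]
    omega
  calc ∑ p ∈ N.primeFactors, (1 : ℝ) / (p : ℝ) ^ 2
      ≤ ∑ p ∈ Ioo x (K + 1), (1 : ℝ) / (p : ℝ) ^ 2 :=
        sum_le_sum_of_subset_of_nonneg hsub fun _ _ _ => by positivity
    _ = ∑ p ∈ Ioo x (K + 1), ((p : ℝ) ^ 2)⁻¹ := sum_congr rfl fun p _ => by rw [one_div]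
    _ ≤ 2 / ((x : ℝ) + 1) := sum_Ioo_inv_sq_le _ _

/-! ### words `S ⊆ P` -/

/-- two letters above `2^k0` with ratio at most `2^A` -/
def TwoS (A k0 : ℕ) (S : Finset ℕ) : Prop :=
  ∃ p ∈ S, ∃ q ∈ S, 2 ^ k0 < p ∧ p < q ∧ q ≤ 2 ^ A * p

lemma law_two {P : Finset ℕ} (hP : ∀ p ∈ P, p.Prime) {p q : ℕ} (hp : p ∈ P) (hq : q ∈ P)
    (E : Finset (Finset ℕ)) (hE : ∀ S ∈ E, S ⊆ P ∧ p ∈ S ∧ q ∈ S) (hpq : p ≠ q) :
    ∑ S ∈ E, law P S ≤ 4 * (1 / (p : ℝ) * (1 / (q : ℝ))) := by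
  classical
  have hP2 : ∀ p ∈ P, 2 ≤ p := fun p hp => (hP p hp).two_le
  refine level hP2 E (fun S hS => (hE S hS).1) (fun _ => {p, q}) (fun S hS => ?_) _ fun S0 => ?_
  · intro r hr
    rw [mem_insert, mem_singleton] at hr
    rcases hr with rfl | rfl
    · exact (hE S hS).2.1
    · exact (hE S hS).2.2
  · have hsub : (E.filter fun S => S \ {p, q} = S0) ⊆ {S0 ∪ {p, q}} := by
      intro S hS
      rw [mem_filter] at hS
      rw [mem_singleton, ← hS.2, sdiff_union_of_subset]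
      intro r hr
      rw [mem_insert, mem_singleton] at hr
      rcases hr with rfl | rfl
      · exact (hE S hS.1).2.1
      · exact (hE S hS.1).2.2
    have e1 : ∏ r ∈ ({p, q} : Finset ℕ), (1 / ((r : ℝ) - 1)) = od p * od q := by
      rw [prod_pair hpq]
      rfl
    have h2 := od_le (hP2 p hp)
    have h3 := od_le (hP2 q hq)
    have h4 := od_nonneg (p := p) (by have := hP2 p hp; omega)
    have h5 := od_nonneg (p := q) (by have := hP2 q hq; omega)
    rw [sum_congr rfl fun S _ => e1, sum_const, nsmul_eq_mul]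
    have h6 : ((E.filter fun S => S \ {p, q} = S0).card : ℝ) ≤ 1 := by
      have := card_le_card hsub
      rw [card_singleton] at this
      exact_mod_cast this
    have h7 : od p * od q ≤ 4 * (1 / (p : ℝ) * (1 / (q : ℝ))) := by
      calc od p * od q ≤ (2 * (1 / (p : ℝ))) * (2 * (1 / (q : ℝ))) :=
            mul_le_mul h2 h3 h5 (by positivity)
        _ = _ := by ring
    calc ((E.filter fun S => S \ {p, q} = S0).card : ℝ) * (od p * od q)
        ≤ 1 * (od p * od q) := mul_le_mul_of_nonneg_right h6 (mul_nonneg h4 h5)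
      _ = od p * od q := one_mul _
      _ ≤ _ := h7

open Classical in
/-- **words with two close letters are rare**, law of `GWhyp_656` -/
theorem two_law {A k0 : ℕ} (hk0 : 1 ≤ k0) (P : Finset ℕ) (hP : ∀ p ∈ P, p.Prime) :
    ∑ S ∈ P.powerset with TwoS A k0 S, law P S ≤ 128 * ((A : ℝ) + 1) / k0 := by
  have hlaw0 : ∀ S, 0 ≤ law P S := fun S =>
    law_nonneg fun p hp => (hP p hp).one_lt.le
  have hsub : (P.powerset.filter fun S => TwoS A k0 S) ⊆
      (PI A k0 P).biUnion fun x => P.powerset.filter fun S => x.1 ∈ S ∧ x.2 ∈ S := by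
    intro S hS
    obtain ⟨hSP, p, hp, q, hq, h1, h2, h3⟩ := mem_filter.1 hS
    have hSP' := mem_powerset.1 hSP
    rw [mem_biUnion]
    exact ⟨(p, q), mem_PI.2 ⟨⟨hSP' hp, hSP' hq⟩, h1, h2, h3⟩, mem_filter.2 ⟨hSP, hp, hq⟩⟩
  have hstep : ∀ I : Finset (ℕ × ℕ), I ⊆ PI A k0 P →
      ∑ S ∈ I.biUnion (fun x => P.powerset.filter fun S => x.1 ∈ S ∧ x.2 ∈ S), law P S ≤
        ∑ x ∈ I, 4 * (1 / (x.1 : ℝ) * (1 / (x.2 : ℝ))) := by
    intro I
    induction I using Finset.induction_on with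
    | empty => intro _; simp
    | insert x I hx ih =>
      intro hI
      rw [biUnion_insert, sum_insert hx]
      have h1 := ih ((subset_insert _ _).trans hI)
      obtain ⟨⟨hx1, hx2⟩, _, h4, _⟩ := mem_PI.1 (hI (mem_insert_self _ _))
      have h2 := law_two hP hx1 hx2 (P.powerset.filter fun S => x.1 ∈ S ∧ x.2 ∈ S)
        (fun S hS => ⟨mem_powerset.1 (mem_filter.1 hS).1, (mem_filter.1 hS).2⟩) h4.ne
      have h3 := sum_union_inter (s₁ := P.powerset.filter fun S => x.1 ∈ S ∧ x.2 ∈ S)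
        (s₂ := I.biUnion (fun x => P.powerset.filter fun S => x.1 ∈ S ∧ x.2 ∈ S))
        (f := fun S => law P S)
      have h5 : 0 ≤ ∑ S ∈ (P.powerset.filter fun S => x.1 ∈ S ∧ x.2 ∈ S) ∩
          I.biUnion (fun x => P.powerset.filter fun S => x.1 ∈ S ∧ x.2 ∈ S), law P S :=
        sum_nonneg fun S _ => hlaw0 S
      linarith
  calc ∑ S ∈ P.powerset with TwoS A k0 S, law P S
      ≤ ∑ S ∈ (PI A k0 P).biUnion (fun x => P.powerset.filter fun S => x.1 ∈ S ∧ x.2 ∈ S), law P S :=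
        sum_le_sum_of_subset_of_nonneg hsub fun S _ _ => hlaw0 S
    _ ≤ ∑ x ∈ PI A k0 P, 4 * (1 / (x.1 : ℝ) * (1 / (x.2 : ℝ))) := hstep _ subset_rfl
    _ = 4 * ∑ x ∈ PI A k0 P, (1 / (x.1 : ℝ) * (1 / (x.2 : ℝ))) := by rw [mul_sum]
    _ ≤ 4 * (32 * ((A : ℝ) + 1) / k0) :=
        mul_le_mul_of_nonneg_left (pair_sum hk0 P hP) (by norm_num)
    _ = _ := by ring

/-! ### the other words: one letter per cut block -/

/-- without close letters `r` is the largest letter of its cut block -/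
lemma top_eq {A k0 m r : ℕ} {S : Finset ℕ} (h : ¬ TwoS A k0 S) (hm : 1 ≤ m) (hr : r ∈ S)
    (hr0 : 2 ^ k0 < r) (hr1 : 2 ^ (A * (m - 1)) ≤ r) {q : ℕ} (hq : q ∈ S)
    (hqm : q ≤ 2 ^ (A * m)) : q ≤ r := by
  by_contra hc
  push Not at hc
  refine h ⟨r, hr, q, hq, hr0, hc, hqm.trans ?_⟩
  have e : A * m = A + A * (m - 1) := by
    obtain ⟨n, rfl⟩ : ∃ n, m = n + 1 := ⟨m - 1, by omega⟩
    rw [Nat.add_sub_cancel]
    ring
  rw [e, pow_add]
  exact Nat.mul_le_mul_left _ hr1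

/-- the same for words `b ∣ N` -/
lemma top_eqB {A k0 m r b : ℕ} (h : ¬ TwoB A k0 b) (hm : 1 ≤ m) (hrp : r.Prime) (hr : r ∣ b)
    (hr0 : 2 ^ k0 < r) (hr1 : 2 ^ (A * (m - 1)) ≤ r) {q : ℕ} (hqp : q.Prime) (hq : q ∣ b)
    (hqm : q ≤ 2 ^ (A * m)) : q ≤ r := by
  by_contra hc
  push Not at hc
  refine h ⟨r, q, hrp, hqp, hr, hq, hr0, hc, hqm.trans ?_⟩
  have e : A * m = A + A * (m - 1) := by
    obtain ⟨n, rfl⟩ : ∃ n, m = n + 1 := ⟨m - 1, by omega⟩
    rw [Nat.add_sub_cancel]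
    ring
  rw [e, pow_add]
  exact Nat.mul_le_mul_left _ hr1

end Crest.Agent.R4C.TwoLetx772
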