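import Crest.Agent.R4C.Pivots_80
import Crest.Agent.R4C.Counts_952

/-!
# Row 4: LEMMA U (helper60, note 2999): common unexplained primes are negligible

For a pivot `h ∣ M`, an arbitrary partner `c` and a threshold `x`: the items `b` of the star
`St M x h` (`h ∣ b`, `b/h` is `x`-rough) which have with `c` a common factor not explained by `h`
(`gcd b c ≠ gcd h c`) and `gcd b c ≤ T` have row sum `≤ C T / (h log x)`.
No structure of the item set is used.
-/

set_option autoImplicit false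

open Finset

namespace Crest.Agent.R4C.Unexplx60

open Crest.Agent.R4C.Basex935
open Crest.Agent.R4C.Pivotsx80

/-- `gcd (h σ) c = gcd h c * gcd σ (c / gcd h c)` -/
lemma gcd_mul_split (h σ c : ℕ) (hc : 0 < c) :
    Nat.gcd (h * σ) c = Nat.gcd h c * Nat.gcd σ (c / Nat.gcd h c) := by
  have hg : 0 < Nat.gcd h c := Nat.gcd_pos_of_pos_right h hc
  obtain ⟨h', hh'⟩ := Nat.gcd_dvd_left h c
  obtain ⟨c', hc'⟩ := Nat.gcd_dvd_right h c
  have hcop : Nat.Coprime h' c' := by
    have h1 := Nat.coprime_div_gcd_div_gcd hg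
    have e1 : h / Nat.gcd h c = h' := Nat.div_eq_of_eq_mul_right hg hh'
    have e2 : c / Nat.gcd h c = c' := Nat.div_eq_of_eq_mul_right hg hc'
    rwa [e1, e2] at h1
  have e2 : c / Nat.gcd h c = c' := Nat.div_eq_of_eq_mul_right hg hc'
  rw [e2]
  set g := Nat.gcd h c with hgdef
  calc Nat.gcd (h * σ) c = Nat.gcd (g * (h' * σ)) (g * c') := by
        rw [← mul_assoc, ← hh', ← hc']
    _ = g * Nat.gcd (h' * σ) c' := Nat.gcd_mul_left _ _ _
    _ = g * Nat.gcd σ c' := by rw [Nat.Coprime.gcd_mul_left_cancel σ hcop]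

/-- **LEMMA U** -/
theorem row_unexpl {M : ℕ} (hM : 0 < M) {h : ℕ} (hh : h ∣ M) {c : ℕ} (hc : 0 < c) {x T : ℝ}
    (hx : 2 ≤ x) (hT : 0 ≤ T) (B : Finset ℕ)
    (hB : ∀ b ∈ B, b ∈ St M x h ∧ (Nat.gcd b c : ℝ) ≤ T ∧ Nat.gcd b c ≠ Nat.gcd h c) :
    ∑ b ∈ B, (Nat.gcd b c : ℝ) * nu M b ≤
      Crest.Agent.R4C.Countsx952.C2 * (T / (h * Real.log x)) := by
  classical
  have hh0 : 0 < h := Nat.pos_of_dvd_of_pos hh hM
  have hhr : (0 : ℝ) < h := by exact_mod_cast hh0
  have hlx : 0 < Real.log x := Real.log_pos (by linarith)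
  have hC2 := Crest.Agent.R4C.Countsx952.C2_pos
  set G := Nat.gcd h c with hG
  have hG0 : 0 < G := Nat.gcd_pos_of_pos_right h hc
  have hGr : (0 : ℝ) < G := by exact_mod_cast hG0
  set u : ℕ → ℕ := fun b => Nat.gcd (b / h) (c / G) with hu
  -- properties of `u b`
  have hub : ∀ b ∈ B, Nat.gcd b c = G * u b ∧ h * u b ∣ b ∧ u b ≠ 1 ∧ Rough x (u b) ∧ 0 < u b := by
    intro b hb
    obtain ⟨hSt, _, hne⟩ := hB b hb
    rw [mem_St] at hSt
    obtain ⟨⟨hbM, _⟩, hhb, hr⟩ := hSt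
    have e1 : Nat.gcd b c = G * u b := by
      have h1 := gcd_mul_split h (b / h) c hc
      rw [Nat.mul_div_cancel' hhb] at h1
      exact h1
    have e2 : u b ∣ b / h := Nat.gcd_dvd_left _ _
    refine ⟨e1, ?_, ?_, hr.dvd e2, ?_⟩
    · have h1 := Nat.mul_dvd_mul_left h e2
      rwa [Nat.mul_div_cancel' hhb] at h1
    · intro h1
      rw [h1, mul_one] at e1
      exact hne e1
    · have hb0 : 0 < b := Nat.pos_of_dvd_of_pos hbM hM
      have hbh : 0 < b / h := Nat.div_pos (Nat.le_of_dvd hb0 hhb) hh0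
      exact Nat.gcd_pos_of_pos_left _ hbh
  by_cases hBe : B = ∅
  · rw [hBe, Finset.sum_empty]
    positivity
  -- the window is long enough
  obtain ⟨b0, hb0⟩ := Finset.nonempty_iff_ne_empty.2 hBe
  have hN : x ≤ T / G := by
    obtain ⟨e1, _, e3, e4, e5⟩ := hub b0 hb0
    have h1 : x < u b0 := e4.lt_of_ne_one e5 e3
    have h2 := (hB b0 hb0).2.1
    rw [e1] at h2
    push_cast at h2
    rw [le_div_iff₀ hGr]
    nlinarith
  set U := Crest.Agent.R4C.Countsx952.RF x ⌊T / G⌋₊ with hU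
  have hcard : (U.card : ℝ) ≤ Crest.Agent.R4C.Countsx952.C2 * (T / G / Real.log x) :=
    Crest.Agent.R4C.Countsx952.card_rough_le hx hN
  have hmaps : ∀ b ∈ B, u b ∈ U := by
    intro b hb
    obtain ⟨e1, _, _, e4, e5⟩ := hub b hb
    rw [hU, Crest.Agent.R4C.Countsx952.mem_RF]
    refine ⟨⟨e5, ?_⟩, fun p hp hd => e4 p hp hd⟩
    apply Nat.le_floor
    rw [le_div_iff₀ hGr]
    have h2 := (hB b hb).2.1
    rw [e1] at h2
    push_cast at h2
    linarith
  rw [← Finset.sum_fiberwise_of_maps_to hmaps]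
  have hterm : ∀ v ∈ U, ∑ b ∈ B.filter (fun b => u b = v), (Nat.gcd b c : ℝ) * nu M b ≤ G / h := by
    intro v hv
    by_cases hve : B.filter (fun b => u b = v) = ∅
    · rw [hve, Finset.sum_empty]
      positivity
    obtain ⟨b1, hb1⟩ := Finset.nonempty_iff_ne_empty.2 hve
    rw [Finset.mem_filter] at hb1
    obtain ⟨_, e2, _, _, e5⟩ := hub b1 hb1.1
    rw [hb1.2] at e2 e5
    have hb1M : b1 ∣ M := by
      have := (hB b1 hb1.1).1
      rw [mem_St] at this
      exact this.1.1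
    have hhv : h * v ∣ M := e2.trans hb1M
    have hvr : (0 : ℝ) < v := by exact_mod_cast e5
    calc ∑ b ∈ B.filter (fun b => u b = v), (Nat.gcd b c : ℝ) * nu M b
        = ∑ b ∈ B.filter (fun b => u b = v), (G * v : ℝ) * nu M b := by
          refine Finset.sum_congr rfl fun b hb => ?_
          rw [Finset.mem_filter] at hb
          rw [(hub b hb.1).1, hb.2]
          push_cast
          ring
      _ ≤ ∑ b ∈ M.divisors.filter (fun b => h * v ∣ b), (G * v : ℝ) * nu M b := by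
          refine Finset.sum_le_sum_of_subset_of_nonneg ?_ fun b _ _ =>
            mul_nonneg (by positivity) (nu_nonneg M b)
          intro b hb
          rw [Finset.mem_filter] at hb
          rw [Finset.mem_filter, Nat.mem_divisors]
          have h1 := (hB b hb.1).1
          rw [mem_St] at h1
          have h2 := (hub b hb.1).2.1
          rw [hb.2] at h2
          exact ⟨⟨h1.1.1, hM.ne'⟩, h2⟩
      _ = (G * v : ℝ) * (1 / ((h * v : ℕ) : ℝ)) := by
          rw [← Finset.mul_sum, mass_mult hM hhv]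
      _ = G / h := by
          push_cast
          field_simp
  calc ∑ v ∈ U, ∑ b ∈ B.filter (fun b => u b = v), (Nat.gcd b c : ℝ) * nu M b
      ≤ ∑ _v ∈ U, (G / h : ℝ) := Finset.sum_le_sum hterm
    _ = (U.card : ℝ) * (G / h) := by rw [Finset.sum_const, nsmul_eq_mul]
    _ ≤ (Crest.Agent.R4C.Countsx952.C2 * (T / G / Real.log x)) * (G / h) :=
        mul_le_mul_of_nonneg_right hcard (by positivity)
    _ = Crest.Agent.R4C.Countsx952.C2 * (T / (h * Real.log x)) := by
        field_simp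

/-- **LEMMA U summed over the pivots**: `B` is covered by the stars of the pivots `hn i`, `i ∈ I`,
`hn i ≥ H`; the row sum against any `c` of the items with an unexplained common factor is
`≤ C #I T / (H log x)`. -/
theorem row_unexpl_sum {ι : Type*} {M : ℕ} (hM : 0 < M) (I : Finset ι) (hn : ι → ℕ) {H : ℝ}
    (hH : 0 < H) (hI : ∀ i ∈ I, hn i ∣ M ∧ H ≤ hn i) {c : ℕ} (hc : 0 < c) {x T : ℝ}
    (hx : 2 ≤ x) (hT : 0 ≤ T) (B : Finset ℕ)
    (hB : ∀ b ∈ B, (Nat.gcd b c : ℝ) ≤ T ∧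
      ∃ i ∈ I, b ∈ St M x (hn i) ∧ Nat.gcd b c ≠ Nat.gcd (hn i) c) :
    ∑ b ∈ B, (Nat.gcd b c : ℝ) * nu M b ≤
      Crest.Agent.R4C.Countsx952.C2 * (I.card * T / (H * Real.log x)) := by
  classical
  have hlx : 0 < Real.log x := Real.log_pos (by linarith)
  have hC2 := Crest.Agent.R4C.Countsx952.C2_pos
  set Bi : ι → Finset ℕ := fun i =>
    B.filter (fun b => b ∈ St M x (hn i) ∧ Nat.gcd b c ≠ Nat.gcd (hn i) c) with hBi
  have hcov : B ⊆ I.biUnion Bi := by
    intro b hb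
    obtain ⟨_, i, hi, h1⟩ := hB b hb
    rw [Finset.mem_biUnion]
    exact ⟨i, hi, Finset.mem_filter.2 ⟨hb, h1⟩⟩
  have hnn : ∀ b : ℕ, 0 ≤ (Nat.gcd b c : ℝ) * nu M b := fun b =>
    mul_nonneg (by positivity) (nu_nonneg M b)
  calc ∑ b ∈ B, (Nat.gcd b c : ℝ) * nu M b
      ≤ ∑ b ∈ I.biUnion Bi, (Nat.gcd b c : ℝ) * nu M b :=
        Finset.sum_le_sum_of_subset_of_nonneg hcov fun b _ _ => hnn b
    _ ≤ ∑ i ∈ I, ∑ b ∈ Bi i, (Nat.gcd b c : ℝ) * nu M b :=
        Crest.Agent.R4C.Countsx952.sum_biUnion_le' I Bi _ hnn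
    _ ≤ ∑ i ∈ I, Crest.Agent.R4C.Countsx952.C2 * (T / (H * Real.log x)) := by
        refine Finset.sum_le_sum fun i hi => ?_
        have h1 : ∑ b ∈ Bi i, (Nat.gcd b c : ℝ) * nu M b ≤
            Crest.Agent.R4C.Countsx952.C2 * (T / (hn i * Real.log x)) :=
          row_unexpl hM (hI i hi).1 hc hx hT (Bi i) fun b hb => by
            rw [hBi, Finset.mem_filter] at hb
            exact ⟨hb.2.1, (hB b hb.1).1, hb.2.2⟩
        refine h1.trans (mul_le_mul_of_nonneg_left ?_ hC2.le)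
        exact div_le_div_of_nonneg_left hT (by positivity)
          (mul_le_mul_of_nonneg_right (hI i hi).2 hlx.le)
    _ = Crest.Agent.R4C.Countsx952.C2 * (I.card * T / (H * Real.log x)) := by
        rw [Finset.sum_const, nsmul_eq_mul]
        ring

end Crest.Agent.R4C.Unexplx60
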