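import Crest.Agent.R4C.PureCls_863
import Crest.Agent.R4C.GWrelW_8
import Crest.Agent.R4C.GWrelLay_252

/-!
# Row 4, GW section, vector case: from the worlds of the cores to `VBd` (helper514)

`F : FL M` (`M` = modulus of the high words), `D g` : the graph of nodes (`GWrel_8.GN`) of the prefix
world of the core `g`, words `w ∣ PM F g`.  `Zall` : the zones of all cores, `ker` : the kernel
`∑ 1[w ∈ A z n] 1[w' ∈ S z' n'] / g n` over related nodes, divided by `ν0 · gcd`.

* `vbd`      : `VBd` of `GWrelLay_252` for `ker`, losses `X`, `X'` (= `y`, `y'` on the words of the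
  zone, `0` elsewhere), constants `2 C1 + 4`, `k + 4`;
* `ker_nonneg`, `le_ker` : a related pair is in the kernel;
* `budget_X` : `∑_i X_i W_i ≤ T` from the budget of one world.
-/

set_option autoImplicit false
set_option linter.unusedSectionVars false

open Finset
open Crest.Agent.R4C.Basex935 Crest.Agent.R4C.Cutx50 Crest.Agent.R4C.FLDefx935
open Crest.Agent.R4C.PureClsx863 Crest.Agent.R4C.GWrelx8 Crest.Agent.R4C.GWrelLayx252

namespace Crest.Agent.R4C.VBdWx514

variable {M : ℕ} (F : FL M) {Z N : Type*} [DecidableEq Z] [DecidableEq N]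

/-- the zones of all cores -/
noncomputable def Zall (D : ℕ → GN Z N ℕ) : Finset ((_ : ℕ) × Z) :=
  (cores F).sigma fun g => (D g).Zs

/-- the words of a zone -/
noncomputable def zw (D : ℕ → GN Z N ℕ) (i : (_ : ℕ) × Z) : Finset ℕ :=
  ((D i.1).Nd i.2).biUnion ((D i.1).S i.2)

/-- loss of a changer -/
noncomputable def X (D : ℕ → GN Z N ℕ) (i : (_ : ℕ) × Z) (β : ℕ) : ℝ :=
  if core F β = i.1 ∧ wd F β ∈ zw D i then (D i.1).y i.2 (wd F β) else 0

/-- loss of a partner -/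
noncomputable def X' (D : ℕ → GN Z N ℕ) (i : (_ : ℕ) × Z) (β : ℕ) : ℝ :=
  if core F β = i.1 ∧ wd F β ∈ zw D i then (D i.1).y' i.2 (wd F β) else 0

open Classical in
/-- kernel of one world on the words -/
noncomputable def ker0 (D : GN Z N ℕ) (z z' : Z) (w w' : ℕ) : ℝ :=
  ∑ n ∈ D.Nd z, ∑ n' ∈ D.Out z n z', if w ∈ D.A z n ∧ w' ∈ D.S z' n' then 1 / |D.g n| else 0

/-- the kernel -/
noncomputable def ker (D : ℕ → GN Z N ℕ) (i j : (_ : ℕ) × Z) (β β' : ℕ) : ℝ :=
  if i.1 = j.1 ∧ core F β = i.1 ∧ core F β' = i.1 then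
    ker0 (D i.1) i.2 j.2 (wd F β) (wd F β') / (nu0 F i.1 * (Nat.gcd β β' : ℝ)) else 0

lemma ker0_nonneg (D : GN Z N ℕ) (z z' : Z) (w w' : ℕ) : 0 ≤ ker0 D z z' w w' := by
  classical
  unfold ker0
  refine sum_nonneg fun n _ => sum_nonneg fun n' _ => ?_
  split_ifs
  · positivity
  · exact le_rfl

lemma ker_nonneg (D : ℕ → GN Z N ℕ) (i j : (_ : ℕ) × Z) (β β' : ℕ) : 0 ≤ ker F D i j β β' := by
  unfold ker
  split_ifs
  · exact div_nonneg (ker0_nonneg _ _ _ _ _) (mul_nonneg (nu0_nonneg _) (Nat.cast_nonneg _))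
  · exact le_rfl

/-- a related pair is in the kernel -/
lemma le_ker (D : ℕ → GN Z N ℕ) {g : ℕ} {z z' : Z} {n n' : N} {β β' : ℕ} (hn : n ∈ (D g).Nd z)
    (hn' : n' ∈ (D g).Nd z') (hR : (D g).R z n z' n') (hβ : core F β = g) (hβ' : core F β' = g)
    (hA : wd F β ∈ (D g).A z n) (hS : wd F β' ∈ (D g).S z' n') (hg : 0 < (D g).g n) :
    1 / (nu0 F g * (Nat.gcd β β' : ℝ) * (D g).g n) ≤ ker F D ⟨g, z⟩ ⟨g, z'⟩ β β' := by
  classical
  have h1 : 1 / (D g).g n ≤ ker0 (D g) z z' (wd F β) (wd F β') := by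
    unfold ker0
    have h2 : ∀ m ∈ (D g).Nd z, 0 ≤ ∑ m' ∈ (D g).Out z m z',
        (if wd F β ∈ (D g).A z m ∧ wd F β' ∈ (D g).S z' m' then 1 / |(D g).g m| else 0 : ℝ) := by
      intro m _
      refine sum_nonneg fun m' _ => ?_
      split_ifs
      · positivity
      · exact le_rfl
    refine le_trans ?_ (single_le_sum h2 hn)
    have hmem : n' ∈ (D g).Out z n z' := by
      unfold GN.Out
      exact mem_filter.2 ⟨hn', hR⟩
    have h3 : ∀ m' ∈ (D g).Out z n z', (0 : ℝ) ≤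
        (if wd F β ∈ (D g).A z n ∧ wd F β' ∈ (D g).S z' m' then 1 / |(D g).g n| else 0 : ℝ) := by
      intro m' _
      split_ifs
      · positivity
      · exact le_rfl
    refine le_trans ?_ (single_le_sum h3 hmem)
    rw [if_pos ⟨hA, hS⟩, abs_of_pos hg]
  unfold ker
  rw [if_pos ⟨rfl, hβ, hβ'⟩]
  rw [mul_comm (nu0 F g * (Nat.gcd β β' : ℝ)), ← div_div]
  exact div_le_div_of_nonneg_right h1 (mul_nonneg (nu0_nonneg _) (Nat.cast_nonneg _))

variable {F}

lemma nu0_pos {g : ℕ} (hM : 0 < M) (hg : g ∈ cores F) : 0 < nu0 F g := by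
  have hR := RR_pos hM hg
  have hg0 : 0 < g := Nat.pos_of_dvd_of_pos (mem_cores.1 hg).1.1 hM
  unfold nu0
  have h1 : 0 < (RR F g).totient := Nat.totient_pos.2 hR
  positivity

/-- sum over the words of one core -/
lemma sum_core {g : ℕ} (hM : 0 < M) (hg : g ∈ cores F) {T : Finset ℕ} (hT : T ⊆ M.divisors)
    (φ : ℕ → ℝ) : ∑ β ∈ T, (if core F β = g then φ β else 0) =
      ∑ w ∈ (PM F g).divisors, if g * w ∈ T then φ (g * w) else 0 := by
  classical
  have hg0 : 0 < g := Nat.pos_of_dvd_of_pos (mem_cores.1 hg).1.1 hM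
  have h1 : ∑ β ∈ T, (if core F β = g then φ β else 0) =
      ∑ β ∈ M.divisors.filter (fun b => core F b = g), if β ∈ T then φ β else 0 := by
    rw [← sum_filter, ← sum_filter]
    refine sum_congr ?_ fun _ _ => rfl
    ext β
    simp only [mem_filter]
    constructor
    · rintro ⟨h2, h3⟩
      exact ⟨⟨hT h2, h3⟩, h2⟩
    · rintro ⟨⟨_, h3⟩, h2⟩
      exact ⟨h2, h3⟩
  rw [h1, fibre hM hg, sum_image]
  intro a _ b _ hab
  exact Nat.eq_of_mul_eq_mul_left hg0 hab

/-- sum over the words of one core, the function supported on a set of words -/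
lemma sum_core_le {g : ℕ} (hM : 0 < M) (hg : g ∈ cores F) {T : Finset ℕ} (hT : T ⊆ M.divisors)
    {U : Finset ℕ} (hU : U ⊆ (PM F g).divisors) (y : ℕ → ℝ) :
    nu0 F g * ∑ w ∈ U, (if g * w ∈ T then nu (PM F g) w else 0) * y w =
      ∑ β ∈ T, nu M β * (if core F β = g ∧ wd F β ∈ U then y (wd F β) else 0) := by
  classical
  have h1 : ∑ β ∈ T, nu M β * (if core F β = g ∧ wd F β ∈ U then y (wd F β) else 0) =
      ∑ β ∈ T, (if core F β = g then
        (nu M β * if wd F β ∈ U then y (wd F β) else 0) else 0) := by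
    refine sum_congr rfl fun β _ => ?_
    by_cases h2 : core F β = g <;> by_cases h3 : wd F β ∈ U <;> simp [h2, h3]
  rw [h1, sum_core hM hg hT]
  have h2 : ∑ w ∈ U, (if g * w ∈ T then nu (PM F g) w else 0) * y w =
      ∑ w ∈ (PM F g).divisors, if w ∈ U then
        (if g * w ∈ T then nu (PM F g) w else 0) * y w else 0 := by
    rw [← sum_filter]
    refine sum_congr ?_ fun _ _ => rfl
    ext w
    rw [mem_filter]
    exact ⟨fun h => ⟨hU h, h⟩, fun h => h.2⟩
  rw [h2, mul_sum]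
  refine sum_congr rfl fun w hw => ?_
  have hw' := Nat.dvd_of_mem_divisors hw
  rw [nu_class hM hg hw', wd_mul hM hg hw']
  by_cases h3 : g * w ∈ T <;> by_cases h4 : w ∈ U <;> simp [h3, h4] <;> ring

/-- hypotheses on the family of worlds -/
structure FamOk (F : FL M) (D : ℕ → GN Z N ℕ) (C1 Δ : ℝ) : Prop where
  ok : ∀ g ∈ cores F, (D g).Ok (fun _ w => nu (PM F g) w) (fun _ w => nu (PM F g) w) C1 Δ
  AS : ∀ g ∈ cores F, ∀ z ∈ (D g).Zs, ∀ n ∈ (D g).Nd z, (D g).A z n ⊆ (D g).S z n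
  Sd : ∀ g ∈ cores F, ∀ z ∈ (D g).Zs, ∀ n ∈ (D g).Nd z, (D g).S z n ⊆ (PM F g).divisors
  Ad : ∀ g ∈ cores F, ∀ z ∈ (D g).Zs, ∀ n ∈ (D g).Nd z, ∀ n' ∈ (D g).Nd z, n ≠ n' →
    Disjoint ((D g).A z n) ((D g).A z n')

/-- arithmetic of `core_cost` -/
lemma arith {C1 l n0 cost E1 E2 A : ℝ} {k : ℕ} (hC : 0 < C1) (hl : 0 < l) (hn0 : 0 < n0)
    (h : cost ≤ (2 * C1 + 4) * (1 / l) * E1 + 2 * C1 * (k + 4) / (1 / l) * E2)
    (hE : n0 * E1 ≤ A) (hE2 : 0 ≤ E2) :
    n0 * cost ≤ (2 * C1 + 4) * (1 / l * A + l * ((k + 4) * (n0 * E2))) := by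
  have h1 := mul_le_mul_of_nonneg_left h hn0.le
  have e1 : n0 * ((2 * C1 + 4) * (1 / l) * E1 + 2 * C1 * (k + 4) / (1 / l) * E2) =
      (2 * C1 + 4) * (1 / l) * (n0 * E1) + 2 * C1 * ((k + 4) * l * (n0 * E2)) := by
    field_simp
  have h2 : (2 * C1 + 4) * (1 / l) * (n0 * E1) ≤ (2 * C1 + 4) * (1 / l) * A :=
    mul_le_mul_of_nonneg_left hE (by positivity)
  have h3 : 0 ≤ (k + 4 : ℝ) * l * (n0 * E2) := by positivity
  have e2 : (2 * C1 + 4) * (1 / l * A + l * ((k + 4) * (n0 * E2))) =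
      (2 * C1 + 4) * (1 / l) * A + (2 * C1 + 4) * ((k + 4) * l * (n0 * E2)) := by ring
  rw [e2]
  rw [e1] at h1
  nlinarith

/-- one core -/
lemma core_cost {D : ℕ → GN Z N ℕ} {C1 Δ : ℝ} (hM : 0 < M) (h : FamOk F D C1 Δ) {k : ℕ}
    (hk : C1 * Δ ≤ 2 ^ k) {g : ℕ} (hg : g ∈ cores F) (T T' : Z → Finset ℕ)
    (hT : ∀ z, T z ⊆ M.divisors) (hT' : ∀ z, T' z ⊆ M.divisors) {l : ℝ} (hl : 0 < l) :
    ∑ z ∈ (D g).Zs, ∑ z' ∈ (D g).Zs, ∑ β ∈ T z, ∑ β' ∈ T' z',
        (Nat.gcd β β' : ℝ) * nu M β * nu M β' * ker F D ⟨g, z⟩ ⟨g, z'⟩ β β' ≤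
      (2 * C1 + 4) * (1 / l * (∑ z ∈ (D g).Zs, ∑ β ∈ T z, nu M β * X F D ⟨g, z⟩ β) +
        l * ((k + 4) * ∑ z ∈ (D g).Zs, ∑ β ∈ T' z, nu M β * X' F D ⟨g, z⟩ β)) := by
  classical
  have hg0 : 0 < g := Nat.pos_of_dvd_of_pos (mem_cores.1 hg).1.1 hM
  have hn0 := nu0_pos hM hg
  have hOk := h.ok g hg
  set f : Z → ℕ → ℝ := fun z w => if g * w ∈ T z then nu (PM F g) w else 0 with hf
  set f' : Z → ℕ → ℝ := fun z w => if g * w ∈ T' z then nu (PM F g) w else 0 with hf'
  have hle : ∀ (U : Z → Finset ℕ) z w, (0 : ℝ) ≤ (if g * w ∈ U z then nu (PM F g) w else 0) ∧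
      (if g * w ∈ U z then nu (PM F g) w else 0) ≤ nu (PM F g) w := by
    intro U z w
    have := nu_nonneg (PM F g) w
    split_ifs
    · exact ⟨this, le_rfl⟩
    · exact ⟨le_rfl, this⟩
  have hOk' : (D g).Ok f f' C1 Δ := GWrelWx8.Ok_mono hOk (fun z w => (hle T z w).1)
    (fun z w => (hle T' z w).1) (fun z w => (hle T z w).2) (fun z w => (hle T' z w).2)
  have hV := node_charge (D g) f f' hOk' (ρ := 1 / l) (by positivity) hk
  -- left side
  have hL : ∑ z ∈ (D g).Zs, ∑ z' ∈ (D g).Zs, ∑ β ∈ T z, ∑ β' ∈ T' z',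
        (Nat.gcd β β' : ℝ) * nu M β * nu M β' * ker F D ⟨g, z⟩ ⟨g, z'⟩ β β' =
      nu0 F g * ∑ z ∈ (D g).Zs, ∑ n ∈ (D g).Nd z, ∑ w ∈ (D g).A z n, ∑ z' ∈ (D g).Zs,
        ∑ n' ∈ (D g).Out z n z', ∑ w' ∈ (D g).S z' n', f z w * f' z' w' / (D g).g n := by
    have e1 : ∀ z ∈ (D g).Zs, ∀ z' ∈ (D g).Zs, ∑ β ∈ T z, ∑ β' ∈ T' z',
        (Nat.gcd β β' : ℝ) * nu M β * nu M β' * ker F D ⟨g, z⟩ ⟨g, z'⟩ β β' =
        nu0 F g * ∑ n ∈ (D g).Nd z, ∑ w ∈ (D g).A z n,
          ∑ n' ∈ (D g).Out z n z', ∑ w' ∈ (D g).S z' n', f z w * f' z' w' / (D g).g n := by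
      intro z hz z' hz'
      -- both sums over the words
      have a1 : ∀ β ∈ T z, ∑ β' ∈ T' z',
          (Nat.gcd β β' : ℝ) * nu M β * nu M β' * ker F D ⟨g, z⟩ ⟨g, z'⟩ β β' =
          if core F β = g then ∑ w' ∈ (PM F g).divisors,
            nu M β * f' z' w' * ker0 (D g) z z' (wd F β) w' else 0 := by
        intro β hβ
        have hβ0 : 0 < β := Nat.pos_of_dvd_of_pos (Nat.dvd_of_mem_divisors (hT z hβ)) hM
        by_cases hc : core F β = g
        · rw [if_pos hc]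
          have b1 : ∀ β' ∈ T' z',
              (Nat.gcd β β' : ℝ) * nu M β * nu M β' * ker F D ⟨g, z⟩ ⟨g, z'⟩ β β' =
              if core F β' = g then
                nu M β * nu M β' / nu0 F g * ker0 (D g) z z' (wd F β) (wd F β') else 0 := by
            intro β' _
            unfold ker
            by_cases hc' : core F β' = g
            · rw [if_pos ⟨rfl, hc, hc'⟩, if_pos hc']
              have hgcd : (0 : ℝ) < (Nat.gcd β β' : ℝ) := by
                exact_mod_cast Nat.gcd_pos_of_pos_left _ hβ0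
              field_simp
            · rw [if_neg (fun hh => hc' hh.2.2), if_neg hc', mul_zero]
          rw [sum_congr rfl b1, sum_core hM hg (hT' z')]
          refine sum_congr rfl fun w' hw' => ?_
          have hwd := Nat.dvd_of_mem_divisors hw'
          simp only [hf']
          by_cases h3 : g * w' ∈ T' z'
          · rw [if_pos h3, if_pos h3, nu_class hM hg hwd, wd_mul hM hg hwd]
            field_simp
          · rw [if_neg h3, if_neg h3]; ring
        · rw [if_neg hc]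
          refine sum_eq_zero fun β' _ => ?_
          unfold ker
          rw [if_neg (fun hh => hc hh.2.1), mul_zero]
      rw [sum_congr rfl a1, sum_core hM hg (hT z)]
      have a2 : ∀ w ∈ (PM F g).divisors,
          (if g * w ∈ T z then ∑ w' ∈ (PM F g).divisors,
            nu M (g * w) * f' z' w' * ker0 (D g) z z' (wd F (g * w)) w' else 0) =
          nu0 F g * ∑ n ∈ (D g).Nd z, ∑ n' ∈ (D g).Out z n z', if w ∈ (D g).A z n then
            ∑ w' ∈ (D g).S z' n', f z w * f' z' w' / (D g).g n else 0 := by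
        intro w hw
        have hwd := Nat.dvd_of_mem_divisors hw
        by_cases h3 : g * w ∈ T z
        · rw [if_pos h3, nu_class hM hg hwd, wd_mul hM hg hwd]
          have e2 : f z w = nu (PM F g) w := by simp only [hf]; rw [if_pos h3]
          have e3 : ∑ w' ∈ (PM F g).divisors, nu0 F g * nu (PM F g) w * f' z' w' *
              ker0 (D g) z z' w w' = ∑ n ∈ (D g).Nd z, ∑ n' ∈ (D g).Out z n z',
                ∑ w' ∈ (PM F g).divisors, nu0 F g * nu (PM F g) w * f' z' w' *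
                  (if w ∈ (D g).A z n ∧ w' ∈ (D g).S z' n' then 1 / |(D g).g n| else 0) := by
            unfold ker0
            simp only [mul_sum]
            rw [sum_comm]
            refine sum_congr rfl fun n _ => ?_
            rw [sum_comm]
          rw [e3, mul_sum]
          refine sum_congr rfl fun n hn => ?_
          rw [mul_sum]
          refine sum_congr rfl fun n' hn' => ?_
          have hn'' : n' ∈ (D g).Nd z' := by
            unfold GN.Out at hn'
            exact (mem_filter.1 hn').1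
          have hgn : 0 < (D g).g n := hOk.g0 z hz n hn
          by_cases h4 : w ∈ (D g).A z n
          · rw [if_pos h4, mul_sum]
            have e4 : ∑ w' ∈ (PM F g).divisors, nu0 F g * nu (PM F g) w * f' z' w' *
                (if w ∈ (D g).A z n ∧ w' ∈ (D g).S z' n' then 1 / |(D g).g n| else 0) =
                ∑ w' ∈ (PM F g).divisors, if w' ∈ (D g).S z' n' then
                  nu0 F g * (f z w * f' z' w' / (D g).g n) else 0 := by
              refine sum_congr rfl fun w' _ => ?_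
              by_cases h5 : w' ∈ (D g).S z' n'
              · rw [if_pos ⟨h4, h5⟩, if_pos h5, e2, abs_of_pos hgn]
                ring
              · rw [if_neg (fun hh => h5 hh.2), if_neg h5, mul_zero]
            rw [e4, ← sum_filter]
            refine sum_congr ?_ fun _ _ => rfl
            ext w'
            rw [mem_filter]
            exact ⟨fun hh => hh.2, fun hh => ⟨h.Sd g hg z' hz' n' hn'' hh, hh⟩⟩
          · rw [if_neg h4, mul_zero]
            refine sum_eq_zero fun w' _ => ?_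
            rw [if_neg (fun hh => h4 hh.1), mul_zero]
        · rw [if_neg h3]
          have e2 : f z w = 0 := by simp only [hf]; rw [if_neg h3]
          symm
          refine mul_eq_zero_of_right _ (sum_eq_zero fun n _ => sum_eq_zero fun n' _ => ?_)
          split_ifs
          · exact sum_eq_zero fun w' _ => by rw [e2, zero_mul, zero_div]
          · rfl
      rw [sum_congr rfl a2, ← mul_sum]
      congr 1
      rw [sum_comm]
      refine sum_congr rfl fun n hn => ?_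
      have hAsub : (D g).A z n ⊆ (PM F g).divisors :=
        (h.AS g hg z hz n hn).trans (h.Sd g hg z hz n hn)
      have e5 : ∀ w ∈ (PM F g).divisors, (∑ n' ∈ (D g).Out z n z', if w ∈ (D g).A z n then
            ∑ w' ∈ (D g).S z' n', f z w * f' z' w' / (D g).g n else 0) =
          if w ∈ (D g).A z n then ∑ n' ∈ (D g).Out z n z',
            ∑ w' ∈ (D g).S z' n', f z w * f' z' w' / (D g).g n else 0 := by
        intro w _
        split_ifs
        · rfl
        · exact sum_eq_zero fun _ _ => rfl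
      rw [sum_congr rfl e5, ← sum_filter]
      refine sum_congr ?_ fun _ _ => rfl
      ext w
      rw [mem_filter]
      exact ⟨fun hh => hh.2, fun hh => ⟨hAsub hh, hh⟩⟩
    rw [mul_sum]
    refine sum_congr rfl fun z hz => ?_
    rw [sum_congr rfl fun z' hz' => e1 z hz z' hz', ← mul_sum]
    congr 1
    rw [sum_comm]
    refine sum_congr rfl fun n _ => ?_
    rw [sum_comm]
  rw [hL]
  -- right side
  have hE : nu0 F g * ∑ z ∈ (D g).Zs, ∑ n ∈ (D g).Nd z, ∑ w ∈ (D g).A z n,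
      f z w * (D g).y z w ≤ ∑ z ∈ (D g).Zs, ∑ β ∈ T z, nu M β * X F D ⟨g, z⟩ β := by
    rw [mul_sum]
    refine sum_le_sum fun z hz => ?_
    have hdis : Set.PairwiseDisjoint (↑((D g).Nd z) : Set N) ((D g).A z) := by
      intro n hn n' hn' hne
      exact h.Ad g hg z hz n (by simpa using hn) n' (by simpa using hn') hne
    rw [← sum_biUnion hdis]
    have hsub : ((D g).Nd z).biUnion ((D g).A z) ⊆ zw D ⟨g, z⟩ := by
      intro w hw
      rw [mem_biUnion] at hw
      obtain ⟨n, hn, hw⟩ := hw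
      unfold zw
      exact mem_biUnion.2 ⟨n, hn, h.AS g hg z hz n hn hw⟩
    have hzd : zw D ⟨g, z⟩ ⊆ (PM F g).divisors := by
      intro w hw
      unfold zw at hw
      rw [mem_biUnion] at hw
      obtain ⟨n, hn, hw⟩ := hw
      exact h.Sd g hg z hz n hn hw
    have h1 : ∑ w ∈ ((D g).Nd z).biUnion ((D g).A z), f z w * (D g).y z w ≤
        ∑ w ∈ zw D ⟨g, z⟩, f z w * (D g).y z w :=
      sum_le_sum_of_subset_of_nonneg hsub fun w _ _ =>
        mul_nonneg (hle T z w).1 (hOk.y0 z w).le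
    refine (mul_le_mul_of_nonneg_left h1 hn0.le).trans (le_of_eq ?_)
    simp only [hf]
    rw [sum_core_le hM hg (hT z) hzd]
    rfl
  have hE' : nu0 F g * ∑ z' ∈ (D g).Zs, ∑ w' ∈ ((D g).Nd z').biUnion ((D g).S z'),
      f' z' w' * (D g).y' z' w' = ∑ z ∈ (D g).Zs, ∑ β ∈ T' z, nu M β * X' F D ⟨g, z⟩ β := by
    rw [mul_sum]
    refine sum_congr rfl fun z hz => ?_
    have hzd : zw D ⟨g, z⟩ ⊆ (PM F g).divisors := by
      intro w hw
      unfold zw at hw
      rw [mem_biUnion] at hw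
      obtain ⟨n, hn, hw⟩ := hw
      exact h.Sd g hg z hz n hn hw
    simp only [hf']
    have := sum_core_le hM hg (hT' z) hzd ((D g).y' z)
    unfold zw at this
    rw [this]
    rfl
  rw [← hE']
  exact arith hOk.C0 hl hn0 hV hE (sum_nonneg fun z _ => sum_nonneg fun w _ =>
    mul_nonneg (hle T' z w).1 (hOk.y0' z w).le)

/-- **`VBd` for the family of the worlds of all cores** -/
theorem vbd {D : ℕ → GN Z N ℕ} {C1 Δ : ℝ} (hM : 0 < M) (h : FamOk F D C1 Δ) {k : ℕ}
    (hk : C1 * Δ ≤ 2 ^ k) :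
    VBd M (Zall F D) (Zall F D) (ker F D) (2 * C1 + 4) (k + 4) (X F D) (X' F D) := by
  classical
  intro T T' hT hT' l hl
  have e1 : ∑ i ∈ Zall F D, ∑ j ∈ Zall F D, ∑ β ∈ T i, ∑ β' ∈ T' j,
        (Nat.gcd β β' : ℝ) * nu M β * nu M β' * ker F D i j β β' =
      ∑ g ∈ cores F, ∑ z ∈ (D g).Zs, ∑ z' ∈ (D g).Zs, ∑ β ∈ T ⟨g, z⟩, ∑ β' ∈ T' ⟨g, z'⟩,
        (Nat.gcd β β' : ℝ) * nu M β * nu M β' * ker F D ⟨g, z⟩ ⟨g, z'⟩ β β' := by
    unfold Zall
    rw [sum_sigma]
    refine sum_congr rfl fun g hg => sum_congr rfl fun z _ => ?_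
    rw [sum_sigma]
    rw [sum_eq_single g]
    · intro g' _ hne
      refine sum_eq_zero fun z' _ => sum_eq_zero fun β _ => sum_eq_zero fun β' _ => ?_
      unfold ker
      rw [if_neg (fun hh => hne hh.1.symm), mul_zero]
    · intro hh
      exact absurd hg hh
  have e2 : ∑ i ∈ Zall F D, ∑ β ∈ T i, nu M β * X F D i β =
      ∑ g ∈ cores F, ∑ z ∈ (D g).Zs, ∑ β ∈ T ⟨g, z⟩, nu M β * X F D ⟨g, z⟩ β := by
    unfold Zall
    rw [sum_sigma]
  have e3 : ∑ i ∈ Zall F D, ∑ β ∈ T' i, nu M β * X' F D i β =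
      ∑ g ∈ cores F, ∑ z ∈ (D g).Zs, ∑ β ∈ T' ⟨g, z⟩, nu M β * X' F D ⟨g, z⟩ β := by
    unfold Zall
    rw [sum_sigma]
  rw [e1, e2, e3]
  refine (sum_le_sum fun g hg => core_cost hM h hk hg (fun z => T ⟨g, z⟩) (fun z => T' ⟨g, z⟩)
    (fun z => hT _) (fun z => hT' _) hl).trans (le_of_eq ?_)
  rw [← mul_sum, sum_add_distrib, ← mul_sum, ← mul_sum, ← mul_sum]

variable (F)

/-- budget of the family from the budget of the world of the core of `β` -/
lemma budget_X {D : ℕ → GN Z N ℕ} {T : ℝ} (hT0 : 0 ≤ T) (W : (_ : ℕ) × Z → ℝ) (β : ℕ)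
    (hb : core F β ∈ cores F → ∑ z ∈ (D (core F β)).Zs with wd F β ∈ zw D ⟨core F β, z⟩,
      (D (core F β)).y z (wd F β) * W ⟨core F β, z⟩ ≤ T) :
    ∑ i ∈ Zall F D, X F D i β * W i ≤ T := by
  classical
  unfold Zall
  rw [sum_sigma]
  by_cases hc : core F β ∈ cores F
  · rw [sum_eq_single (core F β)]
    · refine le_trans (le_of_eq ?_) (hb hc)
      rw [sum_filter]
      refine sum_congr rfl fun z _ => ?_
      unfold X
      by_cases h1 : wd F β ∈ zw D ⟨core F β, z⟩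
      · rw [if_pos ⟨rfl, h1⟩, if_pos h1]
      · rw [if_neg (fun hh => h1 hh.2), if_neg h1, zero_mul]
    · intro g _ hne
      refine sum_eq_zero fun z _ => ?_
      unfold X
      rw [if_neg (fun hh => hne hh.1.symm), zero_mul]
    · intro hh
      exact absurd hc hh
  · refine (sum_nonpos fun g hg => ?_).trans hT0
    refine le_of_eq (sum_eq_zero fun z _ => ?_)
    unfold X
    rw [if_neg (fun hh => hc (by rw [hh.1]; exact hg)), zero_mul]

lemma budget_X' {D : ℕ → GN Z N ℕ} {T : ℝ} (hT0 : 0 ≤ T) (W : (_ : ℕ) × Z → ℝ) (β : ℕ)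
    (hb : core F β ∈ cores F → ∑ z ∈ (D (core F β)).Zs with wd F β ∈ zw D ⟨core F β, z⟩,
      (D (core F β)).y' z (wd F β) * W ⟨core F β, z⟩ ≤ T) :
    ∑ i ∈ Zall F D, X' F D i β * W i ≤ T := by
  classical
  unfold Zall
  rw [sum_sigma]
  by_cases hc : core F β ∈ cores F
  · rw [sum_eq_single (core F β)]
    · refine le_trans (le_of_eq ?_) (hb hc)
      rw [sum_filter]
      refine sum_congr rfl fun z _ => ?_
      unfold X'
      by_cases h1 : wd F β ∈ zw D ⟨core F β, z⟩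
      · rw [if_pos ⟨rfl, h1⟩, if_pos h1]
      · rw [if_neg (fun hh => h1 hh.2), if_neg h1, zero_mul]
    · intro g _ hne
      refine sum_eq_zero fun z _ => ?_
      unfold X'
      rw [if_neg (fun hh => hne hh.1.symm), zero_mul]
    · intro hh
      exact absurd hc hh
  · refine (sum_nonpos fun g hg => ?_).trans hT0
    refine le_of_eq (sum_eq_zero fun z _ => ?_)
    unfold X'
    rw [if_neg (fun hh => hc (by rw [hh.1]; exact hg)), zero_mul]

/-- the losses are nonnegative -/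
lemma X_nonneg {D : ℕ → GN Z N ℕ} (hy : ∀ g z w, 0 ≤ (D g).y z w) (i : (_ : ℕ) × Z) (β : ℕ) :
    0 ≤ X F D i β := by
  unfold X
  split_ifs
  · exact hy _ _ _
  · exact le_rfl

lemma X'_nonneg {D : ℕ → GN Z N ℕ} (hy : ∀ g z w, 0 ≤ (D g).y' z w) (i : (_ : ℕ) × Z) (β : ℕ) :
    0 ≤ X' F D i β := by
  unfold X'
  split_ifs
  · exact hy _ _ _
  · exact le_rfl

end Crest.Agent.R4C.VBdWx514
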