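import Crest.Agent.R4C.VecPair_19
import Crest.Agent.R4C.KyPure_971
import Crest.Agent.R4C.GWcore_482
import Crest.Agent.R4C.DomPc_284

/-!
# Row 4, class CDomP, VECTOR case: the boost of a pair in the form of 482's `core_total` (helper305)

For 19's pair data `VP hM F P y i G w w' u v l b c h`:

* `gnn` : `gcd ν ν = (l ν(low) ν(low)) (VR · gcd w w' · (ν0 ν_N w ν_N w'))`;
* `boost_div` : `boostB ≤ C B1 · (1 / g) / (VR · gcd w w') · bst · min (coins b) (coins c)`;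
* `boost_cls` : off `K_y`, `B1 ≤ C (2^(a+a'))^(1/16)`.
-/

set_option autoImplicit false

namespace Crest.Agent.R4C.VBoostx305

open Finset Crest.Agent.R4C.Basex935 Crest.Agent.R4C.FLDefx935 Crest.Agent.R4C.BoostCx972
  Crest.Agent.R4C.CrCoinx935 Crest.Agent.R4C.CrCountx935 Crest.Agent.R4C.Bridgex882
  Crest.Agent.R4C.PrefixMx882 Crest.Agent.R4C.Rulex945 Crest.Agent.R4C.Sharedx11
  Crest.Agent.R4C.Splitx945 Crest.Agent.R4C.Cutx50 Crest.Agent.R4C.PureL2x232
  Crest.Agent.R4C.PureClsx863 Crest.Agent.R4C.HighFLx863 Crest.Agent.R4C.S2bx284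
  Crest.Agent.R4C.VecPairx19 Crest.Agent.R4C.Spinex946 Crest.Agent.R4C.KyClsx971
  Crest.Agent.R4C.KyPurex971

variable {M : ℕ}

/-- `G · ν0 G = VR G` -/
lemma G_nu0 {F : FL M} {G : ℕ} (hM : 0 < M) (hG : G ∈ cores F) : (G : ℝ) * nu0 F G = VR F G := by
  have hG0 : (G : ℝ) ≠ 0 := by
    exact_mod_cast (Nat.pos_of_dvd_of_pos (mem_cores.1 hG).1.1 hM).ne'
  have hR : (RR F G : ℝ) ≠ 0 := by exact_mod_cast (RR_pos hM hG).ne'
  unfold nu0 VR
  field_simp

lemma nu0_pos {F : FL M} {G : ℕ} (hM : 0 < M) (hG : G ∈ cores F) : 0 < nu0 F G := by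
  have hG0 : (0 : ℝ) < G := by exact_mod_cast Nat.pos_of_dvd_of_pos (mem_cores.1 hG).1.1 hM
  have hR := RR_pos hM hG
  have h1 : (0 : ℝ) < RR F G := by exact_mod_cast hR
  have h2 : (0 : ℝ) < (RR F G).totient := by exact_mod_cast Nat.totient_pos.2 hR
  unfold nu0
  positivity

section vp

variable {hM : 0 < M} {F : FL M} {P : Par} {y i G w w' u v l b c : ℕ} {h : ℤ}

/-- the natural weight of the pair -/
lemma gnn (hV : VP hM F P y i G w w' u v l b c h) :
    (Nat.gcd b c : ℝ) * nu M b * nu M c =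
      ((l : ℝ) * nu (low y M) (low y b) * nu (low y M) (low y c)) *
        (VR (hiFL hM y F) G * (Nat.gcd w w' : ℝ) * (nu0 (hiFL hM y F) G *
          nu (PM (hiFL hM y F) G) w * nu (PM (hiFL hM y F) G) w')) := by
  have h1 := nu_high (hM := hM) (F := F) (y := y) hV.hb
  have h2 := nu_high (hM := hM) (F := F) (y := y) hV.hc
  rw [hV.Gb, hV.wb] at h1
  rw [hV.Gc, hV.wc] at h2
  have h3 := G_nu0 (upp_pos y M) hV.hG
  rw [hV.gcd_bc, h1, h2, ← h3, hV.gcd_w]
  push_cast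
  ring

/-- **the boost in the form of `core_total`** -/
theorem boost_div (hV : VP hM F P y i G w w' u v l b c h) (hL : 0 < P.L)
    (hY : ∀ i, P.Y i = 2 ^ i)
    (hthr : ∀ b i, P.thr b i ≤ Real.exp ((P.Y (i - 1) : ℝ) ^ (4 / 5 : ℝ))) {A : ℕ} (hA : 1 ≤ A)
    (hcut : ∀ m, P.cut m = 2 ^ (A * m)) (hi : 1 ≤ i) (hfar : FarA F P i b c h)
    (hl : h ∈ Lnk P.γ P.L b c) :
    boostB M (lamR F P) b c h ≤
      Real.exp 200 * (Real.exp (22 / Real.log 2) * 2) * PureL2x232.B1 b c *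
        (1 / nu (low (P.cut i) (PM (hiFL hM y F) G)) (low (P.cut i) w) /
          (VR (hiFL hM y F) G * (Nat.gcd w w' : ℝ)) *
          BoostRx398.bst (BoostTopx19.prQ y) (low y M) (low y b) (low y c) *
          min (GWwtx360.Ww (PM (hiFL hM y F) G) (fun p => lamR F P b p = none) y (P.cut i) w)
            (GWwtx360.Ww (PM (hiFL hM y F) G) (fun p => lamR F P c p = none) y (P.cut i) w')) := by
  have h1 := hV.weight hL hY hthr hA hcut hi hfar hl
  rw [gnn hV] at h1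
  set F' := hiFL hM y F with hF'
  have hup := upp_pos y M
  have hN := PM_pos (F := F') G
  have e1 : 0 < nu (low y M) (low y b) :=
    nu_pos (low_pos y M) (low_dvd y hM.ne' hV.hb)
  have e2 : 0 < nu (low y M) (low y c) :=
    nu_pos (low_pos y M) (low_dvd y hM.ne' hV.hc)
  have e3 : 0 < nu (PM F' G) w := nu_pos hN hV.hw
  have e4 : 0 < nu (PM F' G) w' := nu_pos hN hV.hw'
  have e5 : 0 < nu0 F' G := nu0_pos hup hV.hG
  have e6 : 0 < VR F' G := GWcorex482.VR_pos hup hV.hG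
  have e7 : (0 : ℝ) < l := by exact_mod_cast hV.l_pos
  have hw0 : 0 < w := Nat.pos_of_dvd_of_pos hV.hw hN
  have e8 : (0 : ℝ) < (Nat.gcd w w' : ℝ) := by
    exact_mod_cast Nat.gcd_pos_of_pos_left _ hw0
  have e9 : 0 < nu (low (P.cut i) (PM F' G)) (low (P.cut i) w) :=
    nu_pos (low_pos _ _) (low_dvd _ hN.ne' hV.hw)
  set X := ((l : ℝ) * nu (low y M) (low y b) * nu (low y M) (low y c)) with hX
  have hXp : 0 < X := by positivity
  set V := VR F' G * (Nat.gcd w w' : ℝ) with hVd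
  have hVp : 0 < V := by positivity
  set N3 := nu0 F' G * nu (PM F' G) w * nu (PM F' G) w' with hN3
  have hN3p : 0 < N3 := by positivity
  set g := nu (low (P.cut i) (PM F' G)) (low (P.cut i) w) with hg
  set bs := BoostRx398.bst (BoostTopx19.prQ y) (low y M) (low y b) (low y c) with hbs
  set mn := min (GWwtx360.Ww (PM F' G) (fun p => lamR F P b p = none) y (P.cut i) w)
    (GWwtx360.Ww (PM F' G) (fun p => lamR F P c p = none) y (P.cut i) w') with hmn
  set C0 := Real.exp 200 * (Real.exp (22 / Real.log 2) * 2) * PureL2x232.B1 b c with hC0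
  have e10 : C0 * ((X * bs) * (nu0 F' G * (nu (PM F' G) w * nu (PM F' G) w' / g) * mn)) =
      (X * (V * N3)) * (C0 * (1 / g / V * bs * mn)) := by
    rw [hN3]
    field_simp
  rw [e10] at h1
  exact le_of_mul_le_mul_left h1 (by positivity)

end vp

/-! ### `B1` of the class -/

/-- a constant for `∏ pf p ≤ C n^(1/16)` -/
theorem exists_B1 : ∃ C : ℝ, 1 ≤ C ∧ ∀ {M : ℕ} {F : FL M} {P : Par} {t b c : ℕ} {h : ℤ}
    {a a' : ℕ}, LevT F P t b c h → ¬ CKyP F P b c h → 0 < b → 0 < c → t ≤ P.cut t →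
    low (P.cut t) (b / Nat.gcd b c) < 2 ^ (a + 1) → low (P.cut t) (c / Nat.gcd b c) < 2 ^ (a' + 1) →
    B1 b c ≤ C * ((2 : ℝ) ^ (a + a')) ^ (1 / 16 : ℝ) := by
  obtain ⟨C, hC, h1⟩ := prod_pf_rpow (ε := 1 / 16) (by norm_num)
  refine ⟨Real.exp 2 * (C * 4), ?_, ?_⟩
  · have : 1 ≤ Real.exp 2 := Real.one_le_exp (by norm_num)
    nlinarith
  · intro M F P t b c h a a' H hn hb hc ht hu hv
    refine (B1_off_low H hn hb hc ht).trans ?_
    rw [mul_assoc]
    refine mul_le_mul_of_nonneg_left ?_ (Real.exp_pos _).le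
    set u := low (P.cut t) (b / Nat.gcd b c) with hud
    set v := low (P.cut t) (c / Nat.gcd b c) with hvd
    have huv : u * v ≠ 0 := (Nat.mul_pos (low_pos _ _) (low_pos _ _)).ne'
    refine (h1 _ huv).trans ?_
    rw [mul_assoc]
    refine mul_le_mul_of_nonneg_left ?_ (by linarith)
    have h2 : ((u * v : ℕ) : ℝ) ≤ 4 * 2 ^ (a + a') := by
      have h3 : u * v ≤ 2 ^ (a + 1) * 2 ^ (a' + 1) := Nat.mul_le_mul hu.le hv.le
      have h4 : (2 : ℕ) ^ (a + 1) * 2 ^ (a' + 1) = 4 * 2 ^ (a + a') := by ring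
      rw [h4] at h3
      exact_mod_cast h3
    calc ((u * v : ℕ) : ℝ) ^ (1 / 16 : ℝ) ≤ (4 * 2 ^ (a + a')) ^ (1 / 16 : ℝ) :=
          Real.rpow_le_rpow (Nat.cast_nonneg _) h2 (by norm_num)
      _ = (4 : ℝ) ^ (1 / 16 : ℝ) * ((2 : ℝ) ^ (a + a')) ^ (1 / 16 : ℝ) :=
          Real.mul_rpow (by norm_num) (by positivity)
      _ ≤ 4 * ((2 : ℝ) ^ (a + a')) ^ (1 / 16 : ℝ) := by
          refine mul_le_mul_of_nonneg_right ?_ (by positivity)
          calc (4 : ℝ) ^ (1 / 16 : ℝ) ≤ (4 : ℝ) ^ (1 : ℝ) :=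
                Real.rpow_le_rpow_of_exponent_le (by norm_num) (by norm_num)
            _ = 4 := Real.rpow_one 4

end Crest.Agent.R4C.VBoostx305
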