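import Crest.Agent.R4C.HighFL_863
import Crest.Agent.R4C.GWinst_982
import Crest.Agent.R4C.SplitDef_945

/-!
# Row 4, GW section, vector case: the world of the high words and the nodes of a pair (helper863)

* `high_pair'` : (V0) without `upp y b ≠ upp y c` (equal high words are allowed);
* `instV hM F P y G0 v j0 θ σ K1 coin` : the world of the core `G0` of `hiFL hM y F`, window
  `P.L / 2 ^ v`, first index also `≥ j0`; `instV_ok`, `nd_iffV`;
* `PD` : the data of a pair (`y ≤ cut i`, low words `u, u'` with primes `≤ y`);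
  `PD.low_b : low y b = l * u`, `PD.gcd_eq : gcd b c = l * (H0 * low X w)`,
  `PD.upp_b : upp X (b / g) = upp X w`;
* `exists_v` : the unique window index `v`, `l < 2 * 2 ^ v`, `2 ^ v ≤ 2 * l`.
-/

set_option autoImplicit false

open Finset
open Crest.Agent.R4C.Basex935 Crest.Agent.R4C.Cutx50 Crest.Agent.R4C.FLDefx935
open Crest.Agent.R4C.PureL2x232 Crest.Agent.R4C.PureClsx863 Crest.Agent.R4C.HighFLx863
open Crest.Agent.R4C.GWdefx982 Crest.Agent.R4C.GWinstx982 Crest.Agent.R4C.Rulex945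

namespace Crest.Agent.R4C.VIdxx863

variable {M : ℕ} (hM : 0 < M) (F : FL M) {y b c : ℕ}

/-- **(V0)** a pure good pair at the cut `X`, equal letters on `(y, X]` -/
theorem high_pair' {X : ℕ} (hy : y ≤ X) (hb : b ∣ M) (hc : c ∣ M)
    (hg : F.good X b c)
    (hmid : ∀ q, q.Prime → y < q → q ≤ X → b.factorization q = c.factorization q)
    (h1 : F.ell X b = 1) (h2 : F.ell X c = 1) :
    H0 hM F y c = H0 hM F y b ∧
      low X (hw hM F y b) = low X (hw hM F y c) ∧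
      Nat.gcd (hw hM F y b) (hw hM F y c) = low X (hw hM F y b) ∧
      Nat.gcd (upp y b) (upp y c) = H0 hM F y b * low X (hw hM F y b) ∧
      D (hiFL hM y F) (H0 hM F y b) ≤ X := by
  by_cases hne : upp y b = upp y c
  · have hD : D (hiFL hM y F) (H0 hM F y b) ≤ X := by
      rw [D_H0 hM F hb]; exact hD_le hM F hb hy h1
    have e0 : H0 hM F y c = H0 hM F y b := by unfold H0; rw [hne]
    have e1 : hw hM F y c = hw hM F y b := by unfold hw; rw [hne]
    have hgt : ∀ q, q.Prime → X < q → (hw hM F y b).factorization q = 0 := by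
      intro q hq hXq
      have hyq : y < q := by omega
      have e1 := fact_hw hM F (y := y) hb q
      have e2 : (upp y b).factorization q = (upp y c).factorization q := by rw [hne]
      rw [fact_upp, fact_upp, if_pos (by omega), if_pos (by omega)] at e2
      rw [fact_upp, if_pos (by omega)] at e1
      have hst : (hiFL hM y F).ctr (H0 hM F y b) q = F.ctr b q := by
        unfold H0
        rw [ctr_core (upp_pos _ _) (upp_dvd y hM.ne' hb) hq, hctr_upp hM F hb hq hyq]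
      cases h3 : F.ctr b q with
      | none =>
        have h4 := fact_word (p := q) (hw_dvd hM F (y := y) hb)
        rw [fact_PM_none (hst.trans h3)] at h4
        omega
      | some v =>
        have h4 := G_fact_some (upp_pos _ _) (H0_mem hM F (y := y) hb) hq
          (lt_of_le_of_lt hD hXq) (hst.trans h3)
        have h5 := hg.2 q hq hXq v h3
        omega
    have hlow : low X (hw hM F y b) = hw hM F y b := by
      refine eq_of_fact (low_pos _ _).ne' (hw_pos hM F y b).ne' fun q hq => ?_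
      rw [fact_low]
      split_ifs with h
      · rfl
      · exact (hgt q hq (not_le.1 h)).symm
    refine ⟨e0, by rw [e1], by rw [e1, Nat.gcd_self, hlow], ?_, hD⟩
    rw [← hne, Nat.gcd_self, hlow, H0_mul_hw hM F hb]
  · obtain ⟨h3, -, h4, h5, h6, h7⟩ := high_pair hM F hy hb hc hne hg hmid h1 h2
    exact ⟨h3, h4, h5, h6, h7⟩

/-! ### the world -/

/-- the world of the core `G0` of the high words, window `P.L / 2 ^ v` -/
noncomputable def instV (P : Par) (y G0 v j0 : ℕ) (θ : ℕ → ℝ) (σ K1 : ℝ)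
    (coin : ℕ → ℕ → Prop) : World where
  N := PM (hiFL hM y F) G0
  G0 := G0
  L := P.L / 2 ^ v
  cut := P.cut
  γ := P.γ
  i0 := max (max P.m0 j0) (iD (hiFL hM y F) P G0)
  top := P.N + v
  θ := θ
  σ := σ
  coin := coin
  K1 := K1
  c := 1

variable {P : Par} {G0 v j0 i w : ℕ} {θ : ℕ → ℝ} {σ K1 : ℝ} {coin : ℕ → ℕ → Prop}

theorem instV_ok (hG : G0 ∈ cores (hiFL hM y F)) (hL : 0 < P.L)
    (hcut : Monotone P.cut) (hcut2 : ∀ i, 2 ^ i ≤ P.cut i) (hm0 : 3 ≤ P.m0)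
    (hN : (M : ℝ) / P.L ≤ P.N) (hσ : 0 ≤ σ)
    (hθ : ∀ i, P.m0 ≤ i → 1 < θ i) (hK1 : 1 ≤ K1) :
    (instV hM F P y G0 v j0 θ σ K1 coin).Ok where
  hN := PM_pos G0
  hG := Nat.pos_of_dvd_of_pos (mem_cores.1 hG).1.1 (upp_pos _ _)
  hL := div_pos hL (by positivity)
  hcut := hcut
  hcut2 := hcut2
  hi0 := hm0.trans ((le_max_left _ _).trans (le_max_left _ _))
  htop := by
    show ((G0 * PM (hiFL hM y F) G0 : ℕ) : ℝ) < 2 ^ (P.N + v + 1) * (P.L / 2 ^ v)
    have h1 : G0 * PM (hiFL hM y F) G0 ≤ M :=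
      (Nat.le_of_dvd (upp_pos _ _) (mul_PM_dvd (upp_pos _ _) hG)).trans
        (Nat.le_of_dvd hM (upp_dvd_self _ _))
    have h2 : ((G0 * PM (hiFL hM y F) G0 : ℕ) : ℝ) ≤ M := by exact_mod_cast h1
    have h3 : (M : ℝ) ≤ P.N * P.L := (div_le_iff₀ hL).1 hN
    have h4 : (P.N : ℝ) < 2 ^ (P.N + 1) := by
      have h5 : P.N < 2 ^ P.N := Nat.lt_two_pow_self
      have h6 : (P.N : ℝ) < 2 ^ P.N := by exact_mod_cast h5
      have h7 : (2 : ℝ) ^ P.N ≤ 2 ^ (P.N + 1) := pow_le_pow_right₀ (by norm_num) (by omega)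
      linarith
    have h8 : (P.N : ℝ) * P.L < 2 ^ (P.N + 1) * P.L := mul_lt_mul_of_pos_right h4 hL
    have h9 : (2 : ℝ) ^ (P.N + v + 1) * (P.L / 2 ^ v) = 2 ^ (P.N + 1) * P.L := by
      have : (2 : ℝ) ^ (P.N + v + 1) = 2 ^ (P.N + 1) * 2 ^ v := by ring
      rw [this]
      field_simp
    rw [h9]
    linarith
  hσ := hσ
  hθ := fun i hi => hθ i (((le_max_left _ _).trans (le_max_left _ _)).trans hi)
  hK1 := hK1
  hc := one_pos

lemma e_instV : (instV hM F P y G0 v j0 θ σ K1 coin).e i w = G0 * low (P.cut i) w := rfl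

lemma tt_instV : (instV hM F P y G0 v j0 θ σ K1 coin).tt i w =
    2 ^ v * (G0 * low (P.cut i) w : ℕ) / P.L := by
  show ((G0 * low (P.cut i) w : ℕ) : ℝ) / (P.L / 2 ^ v) = _
  rw [div_div_eq_mul_div, mul_comm]

lemma yy_instV : (instV hM F P y G0 v j0 θ σ K1 coin).yy i w = upp (P.cut i) w * P.γ := rfl

/-- node indices -/
lemma nd_iffV (hcut : Monotone P.cut) (hun : ∀ n, ∃ i, n ≤ P.cut i) :
    (instV hM F P y G0 v j0 θ σ K1 coin).nd i w ↔
      P.m0 ≤ i ∧ j0 ≤ i ∧ D (hiFL hM y F) G0 ≤ P.cut i ∧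
      (2 : ℝ) ^ i * P.L ≤ 2 ^ v * (G0 * low (P.cut i) w : ℕ) ∧
      (2 : ℝ) ^ v * (G0 * low (P.cut i) w : ℕ) < 2 ^ (i + 1) * P.L := by
  have hv : (0 : ℝ) < 2 ^ v := by positivity
  have e1 : (2 : ℝ) ^ i * (P.L / 2 ^ v) ≤ ((G0 * low (P.cut i) w : ℕ) : ℝ) ↔
      (2 : ℝ) ^ i * P.L ≤ 2 ^ v * (G0 * low (P.cut i) w : ℕ) := by
    rw [← mul_div_assoc, div_le_iff₀ hv, mul_comm ((G0 * low (P.cut i) w : ℕ) : ℝ)]
  have e2 : ((G0 * low (P.cut i) w : ℕ) : ℝ) < (2 : ℝ) ^ (i + 1) * (P.L / 2 ^ v) ↔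
      (2 : ℝ) ^ v * (G0 * low (P.cut i) w : ℕ) < 2 ^ (i + 1) * P.L := by
    rw [← mul_div_assoc, lt_div_iff₀ hv, mul_comm ((G0 * low (P.cut i) w : ℕ) : ℝ)]
  show (max (max P.m0 j0) (iD (hiFL hM y F) P G0) ≤ i ∧
    (2 : ℝ) ^ i * (P.L / 2 ^ v) ≤ ((G0 * low (P.cut i) w : ℕ) : ℝ) ∧
    ((G0 * low (P.cut i) w : ℕ) : ℝ) < (2 : ℝ) ^ (i + 1) * (P.L / 2 ^ v)) ↔ _
  rw [e1, e2]
  constructor
  · rintro ⟨h1, h2, h3⟩
    exact ⟨((le_max_left _ _).trans (le_max_left _ _)).trans h1,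
      ((le_max_right _ _).trans (le_max_left _ _)).trans h1,
      D_le_cut hcut hun ((le_max_right _ _).trans h1), h2, h3⟩
  · rintro ⟨h1, h2, h3, h4, h5⟩
    exact ⟨max_le (max_le h1 h2) (iD_le h3), h4, h5⟩

/-! ### low words -/

/-- `low` is multiplicative -/
lemma low_mul {a d : ℕ} (y : ℕ) (ha : a ≠ 0) (hd : d ≠ 0) : low y (a * d) = low y a * low y d := by
  refine eq_of_fact (low_pos _ _).ne' (mul_pos (low_pos _ _) (low_pos _ _)).ne' fun q _ => ?_
  rw [fact_low, Nat.factorization_mul ha hd, Nat.factorization_mul (low_pos _ _).ne'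
    (low_pos _ _).ne', Finsupp.add_apply, Finsupp.add_apply, fact_low, fact_low]
  split_ifs <;> simp

/-- `upp` is multiplicative -/
lemma upp_mul {a d : ℕ} (y : ℕ) (ha : a ≠ 0) (hd : d ≠ 0) : upp y (a * d) = upp y a * upp y d := by
  refine eq_of_fact (upp_pos _ _).ne' (mul_pos (upp_pos _ _) (upp_pos _ _)).ne' fun q _ => ?_
  rw [fact_upp, Nat.factorization_mul ha hd, Nat.factorization_mul (upp_pos _ _).ne'
    (upp_pos _ _).ne', Finsupp.add_apply, Finsupp.add_apply, fact_upp, fact_upp]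
  split_ifs <;> simp

/-- `low` of a gcd -/
lemma low_gcd {a d : ℕ} (y : ℕ) (ha : a ≠ 0) (hd : d ≠ 0) :
    low y (Nat.gcd a d) = Nat.gcd (low y a) (low y d) := by
  have h0 : Nat.gcd a d ≠ 0 := (Nat.gcd_pos_of_pos_left _ (Nat.pos_of_ne_zero ha)).ne'
  have h1 : Nat.gcd (low y a) (low y d) ≠ 0 := (Nat.gcd_pos_of_pos_left _ (low_pos _ _)).ne'
  refine eq_of_fact (low_pos _ _).ne' h1 fun q _ => ?_
  rw [fact_low, Nat.factorization_gcd ha hd, Nat.factorization_gcd (low_pos _ _).ne'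
    (low_pos _ _).ne', Finsupp.inf_apply, Finsupp.inf_apply, fact_low, fact_low]
  split_ifs <;> simp

/-- no prime in `(y, X]` -/
lemma low_eq_of_small {s y X : ℕ} (hyX : y ≤ X)
    (hs : ∀ p, p.Prime → p ∣ low X s → p ≤ y) : low y s = low X s := by
  refine eq_of_fact (low_pos _ _).ne' (low_pos _ _).ne' fun q hq => ?_
  rw [fact_low, fact_low]
  by_cases h1 : q ≤ y
  · rw [if_pos h1, if_pos (h1.trans hyX)]
  · rw [if_neg h1]
    split_ifs with h2
    · by_contra hc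
      have h3 : (low X s).factorization q ≠ 0 := by
        rw [fact_low, if_pos h2]; exact fun h => hc h.symm
      exact h1 (hs q hq (Nat.dvd_of_factorization_pos h3))
    · rfl

/-- data of a vector pair at the cut `X` -/
structure PD (F : FL M) (y X b c : ℕ) : Prop where
  hb : b ∣ M
  hc : c ∣ M
  hy : y ≤ X
  good : F.good X b c
  pb : F.ell X b = 1
  pc : F.ell X c = 1
  sb : ∀ p, p.Prime → p ∣ low X (b / Nat.gcd b c) → p ≤ y
  sc : ∀ p, p.Prime → p ∣ low X (c / Nat.gcd b c) → p ≤ y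

namespace PD

variable {F} {X : ℕ} (h : PD F y X b c)
include hM h

lemma b0 : b ≠ 0 := (Nat.pos_of_dvd_of_pos h.hb hM).ne'
lemma c0 : c ≠ 0 := (Nat.pos_of_dvd_of_pos h.hc hM).ne'
lemma g0 : 0 < Nat.gcd b c := Nat.gcd_pos_of_pos_left _ (Nat.pos_of_ne_zero (h.b0 hM))

lemma eb : Nat.gcd b c * (b / Nat.gcd b c) = b := Nat.mul_div_cancel' (Nat.gcd_dvd_left b c)
lemma ec : Nat.gcd b c * (c / Nat.gcd b c) = c := Nat.mul_div_cancel' (Nat.gcd_dvd_right b c)

lemma sb0 : b / Nat.gcd b c ≠ 0 := fun hc => h.b0 hM (by rw [← h.eb hM, hc, mul_zero])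
lemma sc0 : c / Nat.gcd b c ≠ 0 := fun hc => h.c0 hM (by rw [← h.ec hM, hc, mul_zero])

/-- `low y b = l * u` -/
lemma low_b : low y b = Nat.gcd (low y b) (low y c) * low X (b / Nat.gcd b c) := by
  rw [← low_gcd y (h.b0 hM) (h.c0 hM), ← low_eq_of_small h.hy h.sb,
    ← low_mul y (h.g0 hM).ne' (h.sb0 hM), h.eb hM]

/-- `low y c = l * u'` -/
lemma low_c : low y c = Nat.gcd (low y b) (low y c) * low X (c / Nat.gcd b c) := by
  rw [← low_gcd y (h.b0 hM) (h.c0 hM), ← low_eq_of_small h.hy h.sc,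
    ← low_mul y (h.g0 hM).ne' (h.sc0 hM), h.ec hM]

/-- equal letters on `(y, X]` -/
lemma mid {q : ℕ} (hq : q.Prime) (h1 : y < q) (h2 : q ≤ X) :
    b.factorization q = c.factorization q := by
  have k1 : (b / Nat.gcd b c).factorization q = 0 := by
    by_contra hc
    have h3 : (low X (b / Nat.gcd b c)).factorization q ≠ 0 := by
      rw [fact_low, if_pos h2]; exact hc
    exact absurd (h.sb q hq (Nat.dvd_of_factorization_pos h3)) (not_le.2 h1)
  have k2 : (c / Nat.gcd b c).factorization q = 0 := by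
    by_contra hc
    have h3 : (low X (c / Nat.gcd b c)).factorization q ≠ 0 := by
      rw [fact_low, if_pos h2]; exact hc
    exact absurd (h.sc q hq (Nat.dvd_of_factorization_pos h3)) (not_le.2 h1)
  have e1 : b.factorization q = (Nat.gcd b c).factorization q + 0 := by
    conv_lhs => rw [← h.eb hM]
    rw [Nat.factorization_mul (h.g0 hM).ne' (h.sb0 hM), Finsupp.add_apply, k1]
  have e2 : c.factorization q = (Nat.gcd b c).factorization q + 0 := by
    conv_lhs => rw [← h.ec hM]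
    rw [Nat.factorization_mul (h.g0 hM).ne' (h.sc0 hM), Finsupp.add_apply, k2]
  rw [e1, e2]

/-- one class, one prefix -/
theorem high : H0 hM F y c = H0 hM F y b ∧
      low X (hw hM F y b) = low X (hw hM F y c) ∧
      Nat.gcd (hw hM F y b) (hw hM F y c) = low X (hw hM F y b) ∧
      Nat.gcd (upp y b) (upp y c) = H0 hM F y b * low X (hw hM F y b) ∧
      D (hiFL hM y F) (H0 hM F y b) ≤ X :=
  high_pair' hM F h.hy h.hb h.hc h.good (fun _ hq h1 h2 => h.mid hM hq h1 h2) h.pb h.pc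

/-- `gcd b c = l * e` -/
lemma gcd_eq : Nat.gcd b c =
    Nat.gcd (low y b) (low y c) * (H0 hM F y b * low X (hw hM F y b)) := by
  rw [gcd_high hM h.hb h.hc, (h.high hM).2.2.2.1]

lemma l_pos : 0 < Nat.gcd (low y b) (low y c) := Nat.gcd_pos_of_pos_left _ (low_pos _ _)

/-- the part of `b / g` above `X` -/
lemma upp_b : upp X (b / Nat.gcd b c) = upp X (hw hM F y b) := by
  have hcop : Nat.gcd b c * low X (b / Nat.gcd b c) * upp X (hw hM F y b) = b := by
    have e1 := eq_mul hM F (y := y) h.hb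
    have e2 := low_mul_upp X (hw_pos hM F y b).ne'
    have e3 := h.gcd_eq hM
    have e4 := h.low_b hM
    generalize low X (b / Nat.gcd b c) = u at e4 ⊢
    rw [e3]
    conv_rhs => rw [← e1, e4, ← e2]
    ring
  have h1 : low X (b / Nat.gcd b c) * upp X (hw hM F y b) = b / Nat.gcd b c := by
    refine Nat.eq_of_mul_eq_mul_left (h.g0 hM) ?_
    rw [← mul_assoc, hcop, h.eb hM]
  have h2 : low X (b / Nat.gcd b c) * upp X (b / Nat.gcd b c) = b / Nat.gcd b c :=
    low_mul_upp X (h.sb0 hM)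
  exact Nat.eq_of_mul_eq_mul_left (low_pos X (b / Nat.gcd b c)) (h2.trans h1.symm)

/-- the part of `c / g` above `X` -/
lemma upp_c : upp X (c / Nat.gcd b c) = upp X (hw hM F y c) := by
  have hcop : Nat.gcd b c * low X (c / Nat.gcd b c) * upp X (hw hM F y c) = c := by
    have e1 := eq_mul hM F (y := y) h.hc
    have e2 := low_mul_upp X (hw_pos hM F y c).ne'
    have e3 := h.gcd_eq hM
    have e4 := h.low_c hM
    have e5 := (h.high hM).1
    have e6 := (h.high hM).2.1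
    generalize low X (c / Nat.gcd b c) = u at e4 ⊢
    rw [e3]
    conv_rhs => rw [← e1, e4, ← e2, e5, ← e6]
    ring
  have h1 : low X (c / Nat.gcd b c) * upp X (hw hM F y c) = c / Nat.gcd b c := by
    refine Nat.eq_of_mul_eq_mul_left (h.g0 hM) ?_
    rw [← mul_assoc, hcop, h.ec hM]
  have h2 : low X (c / Nat.gcd b c) * upp X (c / Nat.gcd b c) = c / Nat.gcd b c :=
    low_mul_upp X (h.sc0 hM)
  exact Nat.eq_of_mul_eq_mul_left (low_pos X (c / Nat.gcd b c)) (h2.trans h1.symm)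

end PD

/-! ### the window index -/

/-- the unique power of two which puts the scale of the node into the own window of the pair -/
theorem exists_v {l e i : ℕ} {L : ℝ} (hl : 0 < l)
    (h1 : 2 ^ i * L ≤ (l * e : ℕ)) (h2 : ((l * e : ℕ) : ℝ) < 2 ^ (i + 1) * L) :
    ∃ v : ℕ, (2 : ℝ) ^ i * L ≤ 2 ^ v * (e : ℝ) ∧ (2 : ℝ) ^ v * (e : ℝ) < 2 ^ (i + 1) * L ∧
      l < 2 * 2 ^ v ∧ 2 ^ v ≤ 2 * l := by
  set k := Nat.log 2 l with hk
  have k1 : 2 ^ k ≤ l := Nat.pow_log_le_self 2 hl.ne'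
  have k2 : l < 2 ^ (k + 1) := Nat.lt_pow_succ_log_self (by norm_num) l
  have k1' : (2 : ℝ) ^ k ≤ l := by exact_mod_cast k1
  have k2' : (l : ℝ) ≤ 2 ^ (k + 1) := by exact_mod_cast k2.le
  have he : (0 : ℝ) ≤ e := Nat.cast_nonneg e
  push_cast at h1 h2
  by_cases hc : (2 : ℝ) ^ i * L ≤ 2 ^ k * (e : ℝ)
  · refine ⟨k, hc, ?_, ?_, ?_⟩
    · calc (2 : ℝ) ^ k * e ≤ l * e := mul_le_mul_of_nonneg_right k1' he
        _ < _ := h2
    · rw [← pow_succ']; exact k2
    · omega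
  · push Not at hc
    refine ⟨k + 1, ?_, ?_, ?_, ?_⟩
    · calc (2 : ℝ) ^ i * L ≤ l * e := h1
        _ ≤ 2 ^ (k + 1) * e := mul_le_mul_of_nonneg_right k2' he
    · rw [pow_succ, pow_succ]
      nlinarith
    · have : 2 ^ (k + 1) = 2 * 2 ^ k := by ring
      omega
    · have : 2 ^ (k + 1) = 2 * 2 ^ k := by ring
      omega

/-- uniqueness of the window index -/
theorem v_unique {e i v v' : ℕ} {L : ℝ}
    (h1 : (2 : ℝ) ^ i * L ≤ 2 ^ v * (e : ℝ)) (h2 : (2 : ℝ) ^ v * (e : ℝ) < 2 ^ (i + 1) * L)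
    (h1' : (2 : ℝ) ^ i * L ≤ 2 ^ v' * (e : ℝ)) (h2' : (2 : ℝ) ^ v' * (e : ℝ) < 2 ^ (i + 1) * L) :
    v = v' := by
  have he : (0 : ℝ) ≤ e := Nat.cast_nonneg e
  rcases lt_trichotomy v v' with h | h | h
  · exfalso
    have h3 : (2 : ℝ) ^ (v + 1) ≤ 2 ^ v' := pow_le_pow_right₀ (by norm_num) h
    have h4 : (2 : ℝ) ^ (v + 1) * e ≤ 2 ^ v' * e := mul_le_mul_of_nonneg_right h3 he
    rw [pow_succ] at h4 h2'
    nlinarith
  · exact h
  · exfalso
    have h3 : (2 : ℝ) ^ (v' + 1) ≤ 2 ^ v := pow_le_pow_right₀ (by norm_num) h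
    have h4 : (2 : ℝ) ^ (v' + 1) * e ≤ 2 ^ v * e := mul_le_mul_of_nonneg_right h3 he
    rw [pow_succ] at h4 h2
    nlinarith

end Crest.Agent.R4C.VIdxx863
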