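import Crest.Agent.R4C.GWnode_863
import Crest.Agent.R4C.LinkOn_617

/-!
# Row 4, GW section, vector case over 982's World (note 4147; helper12)

Worlds of `GWdef_982`, node relation given by links `u y_w = v y_w' (mod 1)` up to `1/t`.

* `mid`, `yy_mid`, `tt_mid`, `on_down` : passage from the index `j` to a lower index `i`.
* `Lk Z R i u v w w'` : linked up to `R / tt`; `Lk.down` (push down), `Lk.symm`.
* `Rel Z R UV ν ν'` : relation on nodes (same index, same prefix, linked words); `Rel.down`,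
  `Rel.symm`.
* `dist_S` : two words of a node, `|yy w - yy w' - z| < 3 / tt`.
* `targets` : all words in nodes related to `ν'` lie in `∑ u (6 v + 2 R + 9)` arcs of radius `1 / tt`.
* `on_run_nat` : constant depth along an integer `m` without small prime factors.
* `on_const_zone` : `w'` light on `(i0, j]` ⟹ `On (4 θ i0)` at `j`.
* `prev_birth` : `w` linked with `w'` at `i`, `w'` without birth in `(i0, i]` ⟹ every birth of `w`
  in `(i0, i]` has `prev = i0` (it is the first node after `i0`).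
* `second_order` : what 529's (H_Delta), second order, needs.
-/

set_option autoImplicit false

open Finset
open Crest.Agent.R4C.Basex935 Crest.Agent.R4C.Cutx50
open Crest.Agent.R4C.Cellx863 (Nc mesh Qe rp rp_le lt_rp rp_congr Qe_mul mesh_pos mesh_bounds)
open Crest.Agent.R4C.NHx656
open Crest.Agent.R4C.GWdefx982 Crest.Agent.R4C.GWnodex863

namespace Crest.Agent.R4C.VRelx12

variable {Z : World}

/-! ### changing the index -/

/-- the letters of `w` in `(cut i, cut j]` -/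
def mid (Z : World) (i j w : ℕ) : ℕ := upp (Z.cut i) (low (Z.cut j) w)

lemma mid_pos (i j w : ℕ) : 0 < mid Z i j w := upp_pos _ _

lemma low_mid (h : Z.Ok) {i j : ℕ} (hij : i ≤ j) (w : ℕ) :
    low (Z.cut i) w * mid Z i j w = low (Z.cut j) w := by
  unfold mid
  rw [← low_low (h.hcut hij) w]
  exact low_mul_upp _ (low_pos _ _).ne'

lemma mid_upp (h : Z.Ok) {i j w : ℕ} (hij : i ≤ j) (hw : w ≠ 0) :
    mid Z i j w * upp (Z.cut j) w = upp (Z.cut i) w := by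
  have h1 := low_mul_upp (Z.cut i) hw
  have h2 := low_mul_upp (Z.cut j) hw
  refine Nat.eq_of_mul_eq_mul_left (low_pos (Z.cut i) w) ?_
  rw [← mul_assoc, low_mid h hij w, h2, h1]

lemma mid_congr {i j w w' : ℕ} (hl : low (Z.cut j) w = low (Z.cut j) w') :
    mid Z i j w = mid Z i j w' := by unfold mid; rw [hl]

lemma yy_mid (h : Z.Ok) {i j w : ℕ} (hij : i ≤ j) (hw : w ≠ 0) :
    Z.yy i w = (mid Z i j w : ℝ) * Z.yy j w := by
  unfold World.yy
  rw [← mid_upp h hij hw]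
  push_cast
  ring

lemma tt_mid (h : Z.Ok) {i j : ℕ} (hij : i ≤ j) (w : ℕ) :
    Z.tt j w = Z.tt i w * (mid Z i j w : ℝ) := by
  unfold World.tt World.e
  rw [← low_mid h hij w]
  push_cast
  ring

lemma tt_pos (h : Z.Ok) (i w : ℕ) : 0 < Z.tt i w := by
  unfold World.tt
  have h1 : (0:ℝ) < Z.e i w := by exact_mod_cast e_pos h i w
  have h2 := h.hL
  positivity

lemma tt_ge (h : Z.Ok) {i w : ℕ} (hn : Z.nd i w) : (2:ℝ) ^ i ≤ Z.tt i w := by
  unfold World.tt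
  rw [le_div_iff₀ h.hL]
  exact hn.2.1

lemma tt_congr {i w w' : ℕ} (hl : low (Z.cut i) w = low (Z.cut i) w') : Z.tt i w = Z.tt i w' := by
  unfold World.tt
  rw [e_congr hl]

/-- (O2) between two indices -/
lemma on_down (h : Z.Ok) {i j w : ℕ} {K : ℝ} (hij : i ≤ j) (hw : w ≠ 0)
    (hon : On K (Z.yy j w) (Z.tt j w)) : On K (Z.yy i w) (Z.tt i w) := by
  rw [yy_mid h hij hw]
  rw [tt_mid h hij w] at hon
  exact hon.push

/-! ### links -/

/-- linked at the index `i` by the word `(u, v)`, precision `R / tt` -/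
def Lk (Z : World) (R i u v w w' : ℕ) : Prop :=
  ∃ h : ℤ, |(u:ℝ) * Z.yy i w - v * Z.yy i w' - h| ≤ R / Z.tt i w

lemma Lk.mono (hZ : Z.Ok) {R R' i u v w w' : ℕ} (hR : R ≤ R') (h : Lk Z R i u v w w') :
    Lk Z R' i u v w w' := by
  obtain ⟨k, hk⟩ := h
  refine ⟨k, hk.trans ?_⟩
  have hR' : (R:ℝ) ≤ R' := by exact_mod_cast hR
  exact div_le_div_of_nonneg_right hR' (tt_pos hZ i w).le

/-- **push down of the link** -/
theorem Lk.down (hZ : Z.Ok) {R i j u v w w' : ℕ} (hij : i ≤ j) (hw : w ≠ 0) (hw' : w' ≠ 0)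
    (hl : low (Z.cut j) w = low (Z.cut j) w') (h : Lk Z R j u v w w') : Lk Z R i u v w w' := by
  obtain ⟨k, hk⟩ := h
  refine ⟨mid Z i j w * k, ?_⟩
  have hm : (0:ℝ) < mid Z i j w := by exact_mod_cast mid_pos i j w
  have ht := tt_pos hZ i w
  have e1 : (u:ℝ) * Z.yy i w - v * Z.yy i w' - ((mid Z i j w * k : ℤ) : ℝ) =
      mid Z i j w * ((u:ℝ) * Z.yy j w - v * Z.yy j w' - k) := by
    rw [yy_mid hZ hij hw, yy_mid hZ hij hw', ← mid_congr hl]
    push_cast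
    ring
  rw [e1, abs_mul, abs_of_pos hm]
  rw [tt_mid hZ hij w] at hk
  calc (mid Z i j w : ℝ) * |(u:ℝ) * Z.yy j w - v * Z.yy j w' - k|
      ≤ mid Z i j w * (R / (Z.tt i w * mid Z i j w)) := mul_le_mul_of_nonneg_left hk hm.le
    _ = R / Z.tt i w := by field_simp

lemma Lk.symm {R i u v w w' : ℕ} (hl : low (Z.cut i) w = low (Z.cut i) w')
    (h : Lk Z R i u v w w') : Lk Z R i v u w' w := by
  obtain ⟨k, hk⟩ := h
  refine ⟨-k, ?_⟩
  rw [← tt_congr hl]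
  have e1 : (v:ℝ) * Z.yy i w' - u * Z.yy i w - ((-k : ℤ) : ℝ) =
      -((u:ℝ) * Z.yy i w - v * Z.yy i w' - k) := by push_cast; ring
  rw [e1, abs_neg]
  exact hk

/-- relation on nodes: same index, same prefix, linked words by a word of the class `UV` -/
def Rel (Z : World) (R : ℕ) (UV : Finset (ℕ × ℕ)) (ν ν' : Node) : Prop :=
  ν.1 = ν'.1 ∧ ν.2.1 = ν'.2.1 ∧
    ∃ w ∈ Z.S ν, ∃ w' ∈ Z.S ν', ∃ uv ∈ UV, Lk Z R ν.1 uv.1 uv.2 w w'

lemma Rel.symm (hZ : Z.Ok) {R : ℕ} {UV : Finset (ℕ × ℕ)} {ν ν' : Node} (h : Rel Z R UV ν ν') :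
    Rel Z R (UV.image Prod.swap) ν' ν := by
  obtain ⟨h1, h2, w, hw, w', hw', uv, huv, hl⟩ := h
  refine ⟨h1.symm, h2.symm, w', hw', w, hw, uv.swap, mem_image_of_mem _ huv, ?_⟩
  have e1 : low (Z.cut ν.1) w = ν.2.1 := by
    have := ((mem_S hZ).1 hw).2.2
    rw [← this]; rfl
  have e2 : low (Z.cut ν.1) w' = ν'.2.1 := by
    have := ((mem_S hZ).1 hw').2.2
    rw [h1, ← this]; rfl
  rw [← h1]
  exact hl.symm (by rw [e1, e2, h2])

/-- related nodes from a linked pair -/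
lemma rel_of_lk (hZ : Z.Ok) {R : ℕ} {UV : Finset (ℕ × ℕ)} {i w w' : ℕ} {uv : ℕ × ℕ}
    (huv : uv ∈ UV) (hw : w ∣ Z.N) (hw' : w' ∣ Z.N) (hn : Z.nd i w)
    (hl : low (Z.cut i) w = low (Z.cut i) w') (hk : Lk Z R i uv.1 uv.2 w w') :
    Rel Z R UV (Z.lab i w) (Z.lab i w') :=
  ⟨rfl, hl, w, mem_S_lab hZ hw hn, w', mem_S_lab hZ hw' ((nd_congr' hl).1 hn), uv, huv, hk⟩

/-- **push down of the relation** -/
theorem Rel.down (hZ : Z.Ok) {R : ℕ} {UV : Finset (ℕ × ℕ)} {ν ν' : Node} (h : Rel Z R UV ν ν')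
    {i w w' : ℕ} (hi : i ≤ ν.1) (hw : w ∈ Z.S ν) (hw' : w' ∈ Z.S ν') (hn : Z.nd i w) :
    Rel Z R UV (Z.lab i w) (Z.lab i w') := by
  obtain ⟨h1, h2, w1, hw1, w1', hw1', uv, huv, hl⟩ := h
  have hlow : low (Z.cut ν.1) w1 = low (Z.cut ν.1) w1' := by
    have e1 : low (Z.cut ν.1) w1 = ν.2.1 := by
      have := ((mem_S hZ).1 hw1).2.2
      rw [← this]; rfl
    have e2 : low (Z.cut ν.1) w1' = ν'.2.1 := by
      have := ((mem_S hZ).1 hw1').2.2
      rw [h1, ← this]; rfl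
    rw [e1, e2, h2]
  have hn1 : Z.nd i w1 := (S_nd hZ hw hw1 hi).1 hn
  have hi' : i ≤ ν'.1 := h1 ▸ hi
  have hlowi : low (Z.cut i) w1 = low (Z.cut i) w1' := low_congr hZ hi hlow
  have hn1' : Z.nd i w1' := (nd_congr' hlowi).1 hn1
  have hn' : Z.nd i w' := (S_nd hZ hw1' hw' hi').1 hn1'
  rw [S_lab hZ hw hw1 hi hn, S_lab hZ hw' hw1' hi' hn']
  exact rel_of_lk hZ huv ((mem_S hZ).1 hw1).1 ((mem_S hZ).1 hw1').1 hn1 hlowi
    (hl.down hZ hi (Nat.pos_of_dvd_of_pos ((mem_S hZ).1 hw1).1 hZ.hN).ne'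
      (Nat.pos_of_dvd_of_pos ((mem_S hZ).1 hw1').1 hZ.hN).ne' hlow)

/-! ### the words of one node -/

lemma four_le_e1 (hZ : Z.Ok) {i w : ℕ} (hnd : Z.nd i w) : 4 * Z.L ≤ (Z.e1 w : ℝ) := e1_four hZ hnd

lemma pos_eq {i w : ℕ} (hw : 0 < w) :
    ((Z.G0 * w : ℕ) : ℝ) * Z.γ = (Z.e i w : ℝ) * Z.yy i w := by
  have h1 : Z.G0 * w = Z.e i w * upp (Z.cut i) w := by
    unfold World.e
    rw [mul_assoc, low_mul_upp _ hw.ne']
  rw [h1]
  unfold World.yy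
  push_cast
  ring

/-- two words of one node -/
theorem dist_S (hZ : Z.Ok) {ν : Node} {w w' : ℕ} (hw : w ∈ Z.S ν) (hw' : w' ∈ Z.S ν) :
    ∃ z : ℤ, |Z.yy ν.1 w - Z.yy ν.1 w' - z| < 3 / Z.tt ν.1 w := by
  obtain ⟨a1, a2, a3⟩ := (mem_S hZ).1 hw
  obtain ⟨b1, b2, b3⟩ := (mem_S hZ).1 hw'
  set i := ν.1 with hi
  have hlow : low (Z.cut i) w = low (Z.cut i) w' := S_low_self hZ hw hw'
  have hcel : Z.cel w ≡ Z.cel w' [ZMOD (Z.Q i w : ℤ)] := by
    have h := a3.trans b3.symm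
    have h2 : Z.cel w % (Z.Q i w : ℤ) = Z.cel w' % (Z.Q i w' : ℤ) :=
      congrArg (fun ν : Node => ν.2.2) h
    rw [← Q_congr hZ a2 hlow] at h2
    exact h2
  have hQ : (Z.Q i w : ℝ) * mesh Z.L (Z.e1 w) = Z.e i w :=
    Qe_mul hZ.hL (four_le_e1 hZ a2) (e1_dvd hZ a2)
  have hμ : 0 < mesh Z.L (Z.e1 w) := mesh_pos hZ.hL (four_le_e1 hZ a2)
  have hμ3 := (mesh_bounds hZ.hL (four_le_e1 hZ a2)).2
  have he : (0:ℝ) < Z.e i w := by exact_mod_cast e_pos hZ i w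
  unfold World.cel at hcel
  rw [← e1_congr hZ a2 hlow] at hcel
  obtain ⟨z, hz⟩ := rp_congr hQ hcel
  refine ⟨z, ?_⟩
  have c1 := rp_le (γ := Z.γ) (σ := Z.σ) hμ (Z.G0 * w)
  have c2 := lt_rp (γ := Z.γ) (σ := Z.σ) hμ (Z.G0 * w)
  have d1 := rp_le (γ := Z.γ) (σ := Z.σ) hμ (Z.G0 * w')
  have d2 := lt_rp (γ := Z.γ) (σ := Z.σ) hμ (Z.G0 * w')
  rw [pos_eq (i := i) (Nat.pos_of_dvd_of_pos a1 hZ.hN)] at c1 c2
  rw [pos_eq (i := i) (Nat.pos_of_dvd_of_pos b1 hZ.hN), ← e_congr hlow] at d1 d2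
  have key : |(Z.e i w : ℝ) * (Z.yy i w - Z.yy i w' - z)| < 3 * Z.L := by
    have e1 : (Z.e i w : ℝ) * (Z.yy i w - Z.yy i w' - z) =
        (Z.e i w : ℝ) * Z.yy i w - (Z.e i w : ℝ) * Z.yy i w' - z * (Z.e i w : ℝ) := by ring
    rw [e1, abs_lt]
    constructor <;> linarith
  rw [abs_mul, abs_of_pos he] at key
  unfold World.tt
  have hL := hZ.hL
  rw [div_div_eq_mul_div, lt_div_iff₀ he]
  linarith

/-- depth inside a node -/
lemma on_S (hZ : Z.Ok) {K : ℝ} {ν : Node} {w w' : ℕ} (hw : w ∈ Z.S ν) (hw' : w' ∈ Z.S ν)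
    (h : On K (Z.yy ν.1 w') (Z.tt ν.1 w')) : On (4 * K) (Z.yy ν.1 w) (Z.tt ν.1 w) := by
  obtain ⟨z, hz⟩ := dist_S hZ hw hw'
  have hτ := tt_pos hZ ν.1 w
  rw [← S_tt hZ hw hw' le_rfl] at h
  obtain ⟨a, k, hk, h1⟩ := h
  have hk0 : (0:ℝ) < k := by exact_mod_cast hk
  refine ⟨a + z * k, k, hk, ?_⟩
  set τ := Z.tt ν.1 w with hτd
  set y := Z.yy ν.1 w with hyd
  set y' := Z.yy ν.1 w' with hyd'
  have e1 : y - ((a + z * k : ℤ) : ℝ) / k = (y' - a / k) + (y - y' - z) := by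
    push_cast
    field_simp
    ring
  have h2 : τ * |y - ((a + z * k : ℤ) : ℝ) / k| ≤ τ * |y' - a / k| + 3 := by
    rw [e1]
    have h3 := abs_add_le (y' - a / k) (y - y' - z)
    have h4 : τ * |y - y' - z| ≤ 3 := by
      rw [lt_div_iff₀ hτ] at hz
      linarith
    have h5 : τ * |(y' - a / k) + (y - y' - z)| ≤ τ * (|y' - a / k| + |y - y' - z|) :=
      mul_le_mul_of_nonneg_left h3 hτ.le
    linarith
  have h6 : max 1 (τ * |y - ((a + z * k : ℤ) : ℝ) / k|) ≤ 4 * max 1 (τ * |y' - a / k|) := by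
    have h7 := le_max_left (1:ℝ) (τ * |y' - a / k|)
    have h8 := le_max_right (1:ℝ) (τ * |y' - a / k|)
    refine max_le (by linarith) (by linarith)
  calc (k:ℝ) * max 1 (τ * |y - ((a + z * k : ℤ) : ℝ) / k|)
      ≤ k * (4 * max 1 (τ * |y' - a / k|)) := mul_le_mul_of_nonneg_left h6 hk0.le
    _ = 4 * (k * max 1 (τ * |y' - a / k|)) := by ring
    _ < 4 * K := by linarith

/-- a light node: every word of the node is `On (4 θ)` -/
theorem on_of_light (hZ : Z.Ok) {i w : ℕ} (hwN : w ∣ Z.N) (hnd : Z.nd i w) (h : Z.light i w) :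
    On (4 * Z.θ (Z.prev i w)) (Z.yy i w) (Z.tt i w) := by
  obtain ⟨w', hw', hon⟩ := h
  exact on_S (ν := Z.lab i w) hZ (mem_S_lab hZ hwN hnd) hw' hon

/-! ### targets -/

/-- the targets of the words related to a node with the point `y0` -/
noncomputable def tg (R : ℕ) (UV : Finset (ℕ × ℕ)) (y0 t : ℝ) : Finset ℝ :=
  UV.biUnion fun uv => ((range uv.1) ×ˢ (Icc (-(3 * uv.2 + R + 4) : ℤ) (3 * uv.2 + R + 4))).image
    fun x => ((uv.2 : ℝ) * y0 + (x.1 : ℝ)) / uv.1 + (x.2 : ℝ) / t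

lemma card_tg (R : ℕ) (UV : Finset (ℕ × ℕ)) (y0 t : ℝ) :
    (tg R UV y0 t).card ≤ ∑ uv ∈ UV, uv.1 * (6 * uv.2 + 2 * R + 9) := by
  unfold tg
  refine card_biUnion_le.trans (sum_le_sum fun uv _ => card_image_le.trans ?_)
  rw [card_product, card_range, Int.card_Icc]
  refine Nat.mul_le_mul_left _ ?_
  omega

/-- all the words of the nodes related to `ν'` lie near the targets -/
theorem targets (hZ : Z.Ok) {R : ℕ} {UV : Finset (ℕ × ℕ)} (hUV : ∀ uv ∈ UV, 1 ≤ uv.1)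
    {ν ν' : Node} {w w0 : ℕ} (hw : w ∈ Z.S ν) (hw0 : w0 ∈ Z.S ν') (h : Rel Z R UV ν ν') :
    ∃ α ∈ tg R UV (Z.yy ν.1 w0) (Z.tt ν.1 w), ∃ m : ℤ,
      |Z.yy ν.1 w - α - m| ≤ 1 / Z.tt ν.1 w := by
  obtain ⟨h1, h2, w1, hw1, w1', hw1', uv, huv, k, hk⟩ := h
  have hu : 1 ≤ uv.1 := hUV uv huv
  have hu0 : (0:ℝ) < uv.1 := by exact_mod_cast hu
  have hu1 : (1:ℝ) ≤ uv.1 := by exact_mod_cast hu
  have hv0 : (0:ℝ) ≤ uv.2 := Nat.cast_nonneg _
  set t := Z.tt ν.1 w with ht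
  have ht0 : 0 < t := tt_pos hZ _ _
  have etw1 : Z.tt ν.1 w1 = t := (S_tt hZ hw hw1 le_rfl).symm
  have hlow : low (Z.cut ν.1) w1 = low (Z.cut ν.1) w1' := by
    have e1 : low (Z.cut ν.1) w1 = ν.2.1 := by
      have := ((mem_S hZ).1 hw1).2.2
      rw [← this]; rfl
    have e2 : low (Z.cut ν.1) w1' = ν'.2.1 := by
      have := ((mem_S hZ).1 hw1').2.2
      rw [h1, ← this]; rfl
    rw [e1, e2, h2]
  have etw1' : Z.tt ν.1 w1' = t := by rw [← tt_congr hlow, etw1]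
  obtain ⟨z, hz⟩ := dist_S hZ hw1 hw
  obtain ⟨z', hz'⟩ := dist_S hZ hw1' hw0
  rw [etw1] at hk hz
  rw [← h1, etw1'] at hz'
  set y := Z.yy ν.1 w with hy
  set y1 := Z.yy ν.1 w1 with hy1
  set y1' := Z.yy ν.1 w1' with hy1'
  set y0 := Z.yy ν.1 w0 with hy0
  -- total integer
  set H : ℤ := k - uv.1 * z + uv.2 * z' with hH
  have key : |(uv.1 : ℝ) * y - uv.2 * y0 - H| ≤ (3 * uv.1 + 3 * uv.2 + R) / t := by
    have e1 : (uv.1 : ℝ) * y - uv.2 * y0 - H = ((uv.1 : ℝ) * y1 - uv.2 * y1' - k) -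
        uv.1 * (y1 - y - z) + uv.2 * (y1' - y0 - z') := by
      rw [hH]; push_cast; ring
    have e2 : |(uv.1 : ℝ) * (y1 - y - z)| ≤ uv.1 * (3 / t) := by
      rw [abs_mul, abs_of_pos hu0]
      exact mul_le_mul_of_nonneg_left hz.le hu0.le
    have e3 : |(uv.2 : ℝ) * (y1' - y0 - z')| ≤ uv.2 * (3 / t) := by
      rw [abs_mul, abs_of_nonneg hv0]
      exact mul_le_mul_of_nonneg_left hz'.le hv0
    rw [e1]
    have e4 := abs_add_le (((uv.1 : ℝ) * y1 - uv.2 * y1' - k) - uv.1 * (y1 - y - z))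
      (uv.2 * (y1' - y0 - z'))
    have e5 := abs_sub ((uv.1 : ℝ) * y1 - uv.2 * y1' - k) (uv.1 * (y1 - y - z))
    have e6 : (3 * uv.1 + 3 * uv.2 + R) / t = R / t + uv.1 * (3 / t) + uv.2 * (3 / t) := by ring
    rw [e6]
    linarith
  -- the residue
  set r : ℕ := (H % (uv.1 : ℤ)).toNat with hr
  set q : ℤ := H / (uv.1 : ℤ) with hq
  have hu0' : (uv.1 : ℤ) ≠ 0 := by exact_mod_cast (by omega : uv.1 ≠ 0)
  have hr0 := Int.emod_nonneg H hu0'
  have hr1 := Int.emod_lt_of_pos H (show (0:ℤ) < uv.1 by exact_mod_cast hu)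
  have hrc : ((r : ℕ) : ℤ) = H % (uv.1 : ℤ) := Int.toNat_of_nonneg hr0
  have hHq : (H : ℝ) = (uv.1 : ℝ) * q + r := by
    have h3 := Int.mul_ediv_add_emod H (uv.1 : ℤ)
    rw [← hrc] at h3
    exact_mod_cast h3.symm
  -- the error
  set x : ℝ := y - q - ((uv.2 : ℝ) * y0 + r) / uv.1 with hx
  have hR0 : (0:ℝ) ≤ R := Nat.cast_nonneg _
  have hxk : |x| ≤ (3 * uv.2 + R + 3) / t := by
    have e1 : x = ((uv.1 : ℝ) * y - uv.2 * y0 - H) / uv.1 := by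
      rw [hx, hHq]; field_simp; ring
    rw [e1, abs_div, abs_of_pos hu0, div_le_iff₀ hu0]
    refine key.trans ?_
    rw [div_mul_eq_mul_div]
    refine div_le_div_of_nonneg_right ?_ ht0.le
    nlinarith
  set m : ℤ := round (x * t) with hm
  have hm1 : |x * t - m| ≤ 1 / 2 := abs_sub_round _
  have hmb : m ∈ Icc (-(3 * uv.2 + R + 4) : ℤ) (3 * uv.2 + R + 4) := by
    have h3 : |x * t| ≤ 3 * uv.2 + R + 3 := by
      rw [abs_mul, abs_of_pos ht0]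
      rwa [le_div_iff₀ ht0] at hxk
    rw [abs_le] at h3
    rw [abs_le] at hm1
    rw [mem_Icc]
    constructor
    · have h4 : (-(3 * uv.2 + R + 4) : ℝ) - 1 < m := by linarith
      have h5 : (-(3 * uv.2 + R + 4) : ℤ) - 1 < m := by exact_mod_cast h4
      omega
    · have h4 : (m:ℝ) < 3 * uv.2 + R + 4 + 1 := by linarith
      have h5 : m < (3 * uv.2 + R + 4 : ℤ) + 1 := by exact_mod_cast h4
      omega
  refine ⟨((uv.2 : ℝ) * y0 + r) / uv.1 + (m : ℝ) / t, ?_, q, ?_⟩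
  · unfold tg
    rw [mem_biUnion]
    refine ⟨uv, huv, mem_image.2 ⟨(r, m), ?_, rfl⟩⟩
    rw [mem_product, mem_range]
    refine ⟨?_, hmb⟩
    show r < uv.1
    omega
  · have e1 : y - (((uv.2 : ℝ) * y0 + r) / uv.1 + (m : ℝ) / t) - q = (x * t - m) / t := by
      rw [hx]; field_simp; ring
    rw [e1, abs_div, abs_of_pos ht0]
    refine div_le_div_of_nonneg_right ?_ ht0.le
    linarith

/-! ### constant depth -/

/-- constant depth along an integer without small prime factors -/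
lemma on_run_nat {K1 K2 y t : ℝ} {m : ℕ} (hm : 0 < m) (ht : 0 < t)
    (hK2 : ∀ q, q.Prime → q ∣ m → K2 ≤ q) (hKK : 2 * K1 * K2 ≤ t) (h1 : On K1 (m * y) t)
    (h2 : On K2 y (t * m)) : On K1 y (t * m) := by
  obtain ⟨a1, k1, hk1, hl1⟩ := h1
  obtain ⟨a, k, hk, hg, hl⟩ := LinkOnx617.on_reduced h2
  have hm0 : (0:ℝ) < m := by exact_mod_cast hm
  have hk0 : (0:ℝ) < k := by exact_mod_cast hk
  have hk10 : (0:ℝ) < k1 := by exact_mod_cast hk1
  have hkK2 : (k:ℝ) < K2 := by nlinarith [le_max_left (1:ℝ) (t * m * |y - a / k|)]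
  have hcop : Nat.Coprime k m := by
    refine Nat.coprime_of_dvd fun q hq hqk hqm => ?_
    have h3 : (q:ℝ) ≤ k := by exact_mod_cast Nat.le_of_dvd hk hqk
    have h4 := hK2 q hq hqm
    linarith
  have e1 : t * |(m:ℝ) * y - ((m * a : ℤ) : ℝ) / k| = t * m * |y - a / k| := by
    have e : (m:ℝ) * y - ((m * a : ℤ) : ℝ) / k = m * (y - a / k) := by
      push_cast; ring
    rw [e, abs_mul, abs_of_pos hm0]; ring
  have hl' : (k:ℝ) * max 1 (t * |(m:ℝ) * y - ((m * a : ℤ) : ℝ) / k|) < K2 := by rw [e1]; exact hl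
  have hu := frac_unique hk1 hk ht ht hl1 hl' (by
    rw [← two_mul, mul_one_div, ← mul_div_assoc, div_le_one ht]
    linarith)
  have hdv : (k:ℤ) ∣ (k1:ℤ) := by
    have h3 : (k:ℤ) ∣ (m * a) * k1 := ⟨a1, by linarith⟩
    have hc1 : IsCoprime (k:ℤ) (a:ℤ) := by
      rw [Int.isCoprime_iff_gcd_eq_one, Int.gcd_comm]; exact hg
    have hc2 : IsCoprime (k:ℤ) (m:ℤ) := by
      rw [Nat.isCoprime_iff_coprime]; exact hcop
    exact (hc2.mul_right hc1).dvd_of_dvd_mul_left h3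
  have hkk1 : (k:ℝ) ≤ k1 := by
    have := Nat.le_of_dvd hk1 (Int.natCast_dvd_natCast.1 hdv)
    exact_mod_cast this
  refine ⟨a, k, hk, ?_⟩
  have e2 : ((m * a : ℤ) : ℝ) / k = a1 / k1 := by
    rw [div_eq_div_iff hk0.ne' hk10.ne']
    have h5 : ((a1 * k : ℤ) : ℝ) = ((m * a * k1 : ℤ) : ℝ) := by exact_mod_cast hu
    push_cast at h5 ⊢
    linarith
  rw [← e1, e2]
  refine lt_of_le_of_lt (mul_le_mul_of_nonneg_right hkk1 ?_) hl1
  exact le_trans zero_le_one (le_max_left _ _)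

lemma prime_mid (h : Z.Ok) {i j w q : ℕ} (hq : q.Prime) (hd : q ∣ mid Z i j w) : Z.cut i < q := by
  have h1 := prime_dvd_part (S := fun p => ¬ p ≤ Z.cut i) hq hd
  omega

/-- the previous node -/
lemma prev_spec {i w : ℕ} (hp : Z.hasPrev i w) :
    Z.prev i w < i ∧ Z.nd (Z.prev i w) w ∧ ∀ j, j < i → Z.nd j w → j ≤ Z.prev i w := by
  classical
  obtain ⟨i', h1, h2⟩ := hp
  have h3 := Nat.findGreatest_spec (P := fun i' => i' < i ∧ Z.nd i' w) h1.le ⟨h1, h2⟩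
  refine ⟨h3.1, h3.2, fun j hj hn => ?_⟩
  exact Nat.le_findGreatest (P := fun i' => i' < i ∧ Z.nd i' w) hj.le ⟨hj, hn⟩

/-- numerical hypotheses on the light threshold: monotone, `32 θ² ≤ 2^j`, `4 θ ≤ cut` -/
structure Th (Z : World) : Prop where
  mono : ∀ i j, Z.i0 ≤ i → i ≤ j → Z.θ i ≤ Z.θ j
  sq : ∀ j, Z.i0 ≤ j → 32 * Z.θ j ^ 2 ≤ 2 ^ j
  lt_cut : ∀ j, Z.i0 ≤ j → 4 * Z.θ j ≤ Z.cut j

/-- **constant depth along a zone** -/
theorem on_const_zone (h : Z.Ok) (hT : Th Z) {i0 w : ℕ} (hwN : w ∣ Z.N) (hn0 : Z.nd i0 w) :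
    ∀ j, i0 < j → Z.nd j w → (∀ b, i0 < b → b ≤ j → ¬ Z.birth b w) →
      On (4 * Z.θ i0) (Z.yy j w) (Z.tt j w) := by
  have hw : w ≠ 0 := (Nat.pos_of_dvd_of_pos hwN h.hN).ne'
  intro j
  induction j using Nat.strong_induction_on with
  | _ j ih =>
    intro hij hn hnb
    have hpv : Z.hasPrev j w := ⟨i0, hij, hn0⟩
    obtain ⟨p1, p2, p3⟩ := prev_spec hpv
    have hlight : Z.light j w := by
      by_contra hc
      exact hnb j hij le_rfl ⟨hn, fun hx => hc hx.2⟩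
    have hon := on_of_light h hwN hn hlight
    have hge : i0 ≤ Z.prev j w := p3 i0 hij hn0
    rcases hge.lt_or_eq with hlt | heq
    · have hIH := ih (Z.prev j w) p1 hlt p2 fun b hb hb' => hnb b hb (hb'.trans p1.le)
      rw [yy_mid h p1.le hw] at hIH
      rw [tt_mid h p1.le w] at hon ⊢
      set p := Z.prev j w with hp
      have hi0p : Z.i0 ≤ p := p2.1
      have hθ0 : Z.θ i0 ≤ Z.θ p := hT.mono i0 p hn0.1 hge
      have h1 : 1 < Z.θ i0 := h.hθ i0 hn0.1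
      refine on_run_nat (mid_pos _ _ _) (tt_pos h _ _) (fun q hq hd => ?_) ?_ hIH hon
      · have h2 := prime_mid h hq hd
        have h3 : (Z.cut p : ℝ) ≤ q := by exact_mod_cast h2.le
        exact (hT.lt_cut p hi0p).trans h3
      · have h4 := hT.sq p hi0p
        have h5 := tt_ge h p2
        nlinarith
    · rw [← heq] at hon
      exact hon

/-! ### births of a linked word -/

/-- **no second birth**: `w'` has no birth in `(i0, i]`, `w` and `w'` are linked at `i` and have the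
same prefix; then every birth of `w` in `(i0, i]` has `prev = i0`. -/
theorem prev_birth (h : Z.Ok) (hT : Th Z) {R i0 i u v w w' : ℕ} (hu : 1 ≤ u) (hwN : w ∣ Z.N)
    (hwN' : w' ∣ Z.N) (hn0 : Z.nd i0 w) (hn : Z.nd i w) (hi : i0 < i)
    (hl : low (Z.cut i) w = low (Z.cut i) w')
    (hlk : Lk Z R i u v w w') (hnb : ∀ b, i0 < b → b ≤ i → ¬ Z.birth b w')
    (hsep : ∀ p, i0 < p → Z.nd p w → ((u:ℝ) + v + R) * (4 * Z.θ i0) ≤ Z.θ p) {b : ℕ}
    (hb : i0 < b) (hb' : b ≤ i) (hbw : Z.birth b w) : Z.prev b w = i0 := by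
  have hw : w ≠ 0 := (Nat.pos_of_dvd_of_pos hwN h.hN).ne'
  have hpv : Z.hasPrev b w := ⟨i0, hb, hn0⟩
  obtain ⟨p1, p2, p3⟩ := prev_spec hpv
  rcases (p3 i0 hb hn0).lt_or_eq with hlt | heq
  · exfalso
    have hon' := on_const_zone h hT hwN' ((nd_congr' (low_congr h hi.le hl)).1 hn0) i hi
      ((nd_congr' hl).1 hn) hnb
    obtain ⟨k, hk⟩ := hlk
    have ht := tt_pos h i w
    rw [← tt_congr hl] at hon'
    have hon : On (((u:ℝ) + v + R) * (4 * Z.θ i0)) (Z.yy i w) (Z.tt i w) := by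
      refine LinkOnx617.on_link (m := k) hu ht ?_ hon'
      rw [le_div_iff₀ ht] at hk
      linarith
    have hon2 := (on_down h hb' hw hon).mono (hsep _ hlt p2)
    exact hbw.2 ⟨hpv, w, mem_S_lab h hwN hbw.1, hon2⟩
  · exact heq.symm

/-- depth of the linked word at the lower index -/
theorem on_linked (h : Z.Ok) (hT : Th Z) {R i0 i u v w w' : ℕ} (hu : 1 ≤ u) (hwN : w ∣ Z.N)
    (hwN' : w' ∣ Z.N) (hn0 : Z.nd i0 w) (hn : Z.nd i w) (hi : i0 < i)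
    (hl : low (Z.cut i) w = low (Z.cut i) w')
    (hlk : Lk Z R i u v w w') (hnb : ∀ b, i0 < b → b ≤ i → ¬ Z.birth b w') :
    On (((u:ℝ) + v + R) * (4 * Z.θ i0)) (Z.yy i w) (Z.tt i w) := by
  have hon' := on_const_zone h hT hwN' ((nd_congr' (low_congr h hi.le hl)).1 hn0) i hi
    ((nd_congr' hl).1 hn) hnb
  obtain ⟨k, hk⟩ := hlk
  have ht := tt_pos h i w
  rw [← tt_congr hl] at hon'
  refine LinkOnx617.on_link (m := k) hu ht ?_ hon'
  rw [le_div_iff₀ ht] at hk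
  linarith

/-- **the zone of a changer below a node of the partner's zone** (second order of `(H_Delta)`):
`ν'` is a node of `z'` below the node `m'` of `z'`, `ν ~ ν'`, `w ∈ S ν`.  Then the node of `w` at
the index of `m'` is related to `m'`, and the zone `zone ν.1 w` is either the zone of `w` at the
index of `m'`, or it is born at the first node after it (`prev = m'.1`). -/
theorem second_order (h : Z.Ok) (hT : Th Z) {R : ℕ} {UV : Finset (ℕ × ℕ)}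
    (hUV : ∀ uv ∈ UV, 1 ≤ uv.1)
    {z' m' ν ν' : Node} (hm' : m' ∈ Z.Nd z') (hν' : ν' ∈ Z.Nd z') (hidx : m'.1 ≤ ν'.1)
    {w w' : ℕ} (hw : w ∈ Z.S ν) (hw' : w' ∈ Z.S ν') (hw'm : w' ∈ Z.S m') (hR : Rel Z R UV ν ν')
    (hsep : ∀ uv ∈ UV, ∀ p, m'.1 < p → Z.nd p w →
      ((uv.1:ℝ) + uv.2 + R) * (4 * Z.θ m'.1) ≤ Z.θ p) :
    Z.nd m'.1 w ∧ Rel Z R UV (Z.lab m'.1 w) m' ∧
      (Z.zone ν.1 w = Z.zone m'.1 w ∨
        (m'.1 < (Z.zone ν.1 w).1 ∧ (Z.zone ν.1 w).1 ≤ ν.1 ∧ Z.prev (Z.zone ν.1 w).1 w = m'.1 ∧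
          Z.birth (Z.zone ν.1 w).1 w)) := by
  have h12 : ν.1 = ν'.1 := hR.1
  have hi : m'.1 ≤ ν.1 := h12 ▸ hidx
  obtain ⟨a1, a2, a3⟩ := (mem_S h).1 hw
  obtain ⟨b1, b2, b3⟩ := (mem_S h).1 hw'
  obtain ⟨c1, c2, c3⟩ := (mem_S h).1 hw'm
  have hlow : low (Z.cut ν.1) w = low (Z.cut ν.1) w' := by
    have e1 : low (Z.cut ν.1) w = ν.2.1 := by rw [← a3]; rfl
    have e2 : low (Z.cut ν.1) w' = ν'.2.1 := by rw [h12, ← b3]; rfl
    rw [e1, e2, hR.2.1]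
  have hn0 : Z.nd m'.1 w := (nd_congr' (low_congr h hi hlow)).2 c2
  refine ⟨hn0, ?_, ?_⟩
  · have := hR.down h hi hw hw' hn0
    rwa [c3] at this
  -- the zone
  have hzf : (Z.zone ν.1 w).1 = Z.bi ν.1 w := rfl
  rw [hzf]
  rcases le_or_gt (Z.bi ν.1 w) m'.1 with hle | hgt
  · left
    have hbb : Z.bi ν.1 w = Z.bi m'.1 w := by
      refine le_antisymm ?_ ?_
      · exact le_bi hle (birth_bi a2)
      · exact le_bi ((bi_le _ _).trans hi) (birth_bi hn0)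
    unfold World.zone
    rw [hbb]
  · right
    have hbw : Z.birth (Z.bi ν.1 w) w := birth_bi a2
    refine ⟨hgt, bi_le _ _, ?_, hbw⟩
    -- the witnesses of the relation
    obtain ⟨_, h2, w1, hw1, w1', hw1', uv, huv, hl⟩ := hR
    obtain ⟨d1, d2, d3⟩ := (mem_S h).1 hw1
    obtain ⟨e1, e2, e3⟩ := (mem_S h).1 hw1'
    have hlow1 : low (Z.cut ν.1) w1 = low (Z.cut ν.1) w1' := by
      have f1 : low (Z.cut ν.1) w1 = ν.2.1 := by rw [← d3]; rfl
      have f2 : low (Z.cut ν.1) w1' = ν'.2.1 := by rw [h12, ← e3]; rfl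
      rw [f1, f2, h2]
    have hn1 : Z.nd m'.1 w1 := (S_nd h hw hw1 hi).1 hn0
    -- `w1'` has no birth in `(m'.1, ν.1]`
    have hz1 := Nd_all h hν' hw1'
    have hw1m : w1' ∈ Z.S m' := by
      have hd : w' ∈ Z.S m' := hw'm
      refine (mem_S h).2 ⟨e1, (S_nd h hw' hw1' hidx).1 c2, ?_⟩
      rw [← S_lab h hw' hw1' hidx c2, c3]
    have hz2 := Nd_all h hm' hw1m
    have hnb : ∀ b, m'.1 < b → b ≤ ν.1 → ¬ Z.birth b w1' := by
      intro b hb hb' hbb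
      have f1 : b ≤ Z.bi ν'.1 w1' := le_bi (h12 ▸ hb') hbb
      rw [hz1.2.2.2.2, ← hz2.2.2.2.2] at f1
      have f2 := bi_le (Z := Z) m'.1 w1'
      omega
    have hbw1 : Z.birth (Z.bi ν.1 w) w1 := (S_birth h hw hw1 (bi_le _ _)).1 hbw
    have hlt : m'.1 < ν.1 := lt_of_lt_of_le hgt (bi_le _ _)
    have hsep1 : ∀ p, m'.1 < p → Z.nd p w1 →
        ((uv.1:ℝ) + uv.2 + R) * (4 * Z.θ m'.1) ≤ Z.θ p := by
      intro p hp hnp
      rcases le_or_gt p ν.1 with hpn | hpn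
      · exact hsep uv huv p hp ((S_nd h hw1 hw hpn).1 hnp)
      · exact (hsep uv huv ν.1 hlt a2).trans (hT.mono _ _ a2.1 hpn.le)
    have hfin := prev_birth h hT (hUV uv huv) d1 e1 hn1 d2 hlt hlow1 hl hnb hsep1 hgt (bi_le _ _)
      hbw1
    rw [S_prev h hw hw1 (bi_le _ _)]
    exact hfin

end Crest.Agent.R4C.VRelx12
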