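import Crest.Agent.R4C.HighFL_772
import Crest.Agent.R4C.HighFL_863
import Crest.Agent.R4C.GWdef_982
import Crest.Agent.R4C.SplitDef_945

/-!
# Row 4, GW section, vector case: from a pair of `CDomP` to nodes of a world (helper350)

`y` = cut of the low words, `X = P.cut i` the cut of the own scale, `g = gcd b c`,
`l = gcd (low y b) (low y c)`, `w = hw b`, `w' = hw c` the high words over the core `H0` of
`hiFL hM y F` (helper863), `u = low X (b / g)`, `v = low X (c / g)` the low words.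

* `pair_of_far` : a pure pair of `FarA` with `u, v ≤ y` is a `Pair` of helper772 (at `X`).
* `quot_b`, `quot_c` : `b / g = u * upp X w`, `low y b = l * u`, `low y c = l * v`.
* `IsW y G U κ Z` : `Z` is a world of the core `G`, window `L / (2^κ U)` (all other fields free).
* **`pair_world`** : `U ≤ l < 2 U`; there is exactly one `κ ≤ 1` such that `i` is a node index of
  `w` (and `w'`) in the worlds with `κ`; same prefix, same core, and
  `|u yy w - v yy w' + h| < 2 / tt`.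
* `U_card` : a number `b` of the class `A ≤ u < 2A` sees at most two dyadic `U`.
-/

set_option autoImplicit false

open Finset
open Crest.Agent.R4C.Basex935 Crest.Agent.R4C.Cutx50 Crest.Agent.R4C.FLDefx935
open Crest.Agent.R4C.PureL2x232 Crest.Agent.R4C.PureClsx863 Crest.Agent.R4C.Rulex945
open Crest.Agent.R4C.Splitx945 Crest.Agent.R4C.Bridgex882 Crest.Agent.R4C.CrCountx935
open Crest.Agent.R4C.GWdefx982
open Crest.Agent.R4C.HighFLx863 (H0 hw)

namespace Crest.Agent.R4C.VWorldx350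

variable {M : ℕ} (hM : 0 < M) {F : FL M} {P : Par} {y i b c : ℕ} {h : ℤ}

/-- a prime of `(y, X]` does not divide a number whose low word is `≤ y` -/
lemma not_dvd_of_low {X n q : ℕ} (hn : n ≠ 0) (hlow : low X n ≤ y) (hq : q.Prime) (h1 : y < q)
    (h2 : q ≤ X) : ¬ q ∣ n := by
  intro hd
  have h3 : q ∣ low X n := by
    have h4 : 0 < (low X n).factorization q := by
      rw [fact_low, if_pos h2]
      exact (hq.dvd_iff_one_le_factorization hn).1 hd
    exact Nat.dvd_of_factorization_pos h4.ne'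
  have := Nat.le_of_dvd (low_pos _ _) h3
  omega

include hM

/-- **the pair of helper772** -/
theorem pair_of_far (hb : b ∣ M) (hc : c ∣ M) (hy : y ≤ P.cut i) (hfar : FarA F P i b c h)
    (hpure : Pure F (P.cut i) b c) (hu : low (P.cut i) (b / Nat.gcd b c) ≤ y)
    (hv : low (P.cut i) (c / Nat.gcd b c) ≤ y) : HighFLx772.Pair y F (P.cut i) b c := by
  have hb0 : 0 < b := Nat.pos_of_dvd_of_pos hb hM
  have hc0 : 0 < c := Nat.pos_of_dvd_of_pos hc hM
  have hg : 0 < Nat.gcd b c := Nat.gcd_pos_of_pos_left _ hb0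
  have eb : Nat.gcd b c * (b / Nat.gcd b c) = b := Nat.mul_div_cancel' (Nat.gcd_dvd_left _ _)
  have ec : Nat.gcd b c * (c / Nat.gcd b c) = c := Nat.mul_div_cancel' (Nat.gcd_dvd_right _ _)
  have hs : b / Nat.gcd b c ≠ 0 := fun h0 => by rw [h0, mul_zero] at eb; omega
  have hs' : c / Nat.gcd b c ≠ 0 := fun h0 => by rw [h0, mul_zero] at ec; omega
  refine ⟨hb, hc, hy, hfar.good, hpure.1, hpure.2, fun q hq h1 h2 => ?_⟩
  have e1 : b.factorization q = (Nat.gcd b c).factorization q := by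
    conv_lhs => rw [← eb]
    rw [Nat.factorization_mul hg.ne' hs, Finsupp.add_apply,
      Nat.factorization_eq_zero_of_not_dvd (not_dvd_of_low hs hu hq h1 h2), add_zero]
  have e2 : c.factorization q = (Nat.gcd b c).factorization q := by
    conv_lhs => rw [← ec]
    rw [Nat.factorization_mul hg.ne' hs', Finsupp.add_apply,
      Nat.factorization_eq_zero_of_not_dvd (not_dvd_of_low hs' hv hq h1 h2), add_zero]
  rw [e1, e2]

section pair

variable {x : ℕ} (hp : HighFLx772.Pair y F x b c)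
include hp

/-- one core -/
lemma core_eq : H0 hM F y b = H0 hM F y c := hp.core_eq hM

/-- the same prefix -/
lemma low_eq : low x (hw hM F y b) = low x (hw hM F y c) := hp.low_wd hM

/-- the gcd of the words is the prefix -/
lemma gcd_hw : Nat.gcd (hw hM F y b) (hw hM F y c) = low x (hw hM F y b) := hp.gcd_wd hM

/-- the gcd of the pair -/
lemma gcd_eq : Nat.gcd b c =
    Nat.gcd (low y b) (low y c) * (H0 hM F y b * low x (hw hM F y b)) := hp.gcd_eq hM

/-- **the quotient**: `b / g = (low y b / l) * upp x w`, and its low and high parts -/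
theorem quot_b : b / Nat.gcd b c =
      (low y b / Nat.gcd (low y b) (low y c)) * upp x (hw hM F y b) ∧
    low x (b / Nat.gcd b c) = low y b / Nat.gcd (low y b) (low y c) ∧
    upp x (b / Nat.gcd b c) = upp x (hw hM F y b) := by
  have hb0 : 0 < b := Nat.pos_of_dvd_of_pos hp.hb hM
  have hg : 0 < Nat.gcd b c := Nat.gcd_pos_of_pos_left _ hb0
  have hl : 0 < Nat.gcd (low y b) (low y c) := Nat.gcd_pos_of_pos_left _ (low_pos _ _)
  have hw0 : hw hM F y b ≠ 0 := (HighFLx863.hw_pos hM F y b).ne'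
  have e0 := gcd_eq hM hp
  have e1 : Nat.gcd (low y b) (low y c) * (low y b / Nat.gcd (low y b) (low y c)) = low y b :=
    Nat.mul_div_cancel' (Nat.gcd_dvd_left _ _)
  have e2 := low_mul_upp x hw0
  have e3 := HighFLx863.eq_mul hM F (y := y) hp.hb
  have e4 : Nat.gcd b c * ((low y b / Nat.gcd (low y b) (low y c)) * upp x (hw hM F y b)) = b := by
    calc Nat.gcd b c * ((low y b / Nat.gcd (low y b) (low y c)) * upp x (hw hM F y b))
        = (Nat.gcd (low y b) (low y c) * (low y b / Nat.gcd (low y b) (low y c))) *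
            (H0 hM F y b * (low x (hw hM F y b) * upp x (hw hM F y b))) := by rw [e0]; ring
      _ = b := by rw [e1, e2, e3]
  have e5 : b / Nat.gcd b c =
      (low y b / Nat.gcd (low y b) (low y c)) * upp x (hw hM F y b) :=
    Nat.div_eq_of_eq_mul_right hg e4.symm
  have hn : low y b / Nat.gcd (low y b) (low y c) ∣ low x M := by
    refine (Nat.div_dvd_of_dvd (Nat.gcd_dvd_left _ _)).trans ?_
    refine (low_dvd y hM.ne' hp.hb).trans ?_
    rw [← low_low hp.le M]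
    exact low_dvd_self _ _
  refine ⟨e5, ?_, ?_⟩
  · rw [e5]
    exact low_of_mul (M' := hw hM F y b) hn dvd_rfl
  · rw [e5]
    exact upp_of_mul (M' := hw hM F y b) hn dvd_rfl

/-- `low y b = l * u` -/
lemma low_b : low y b = Nat.gcd (low y b) (low y c) * low x (b / Nat.gcd b c) := by
  rw [(quot_b hM hp).2.1, Nat.mul_div_cancel' (Nat.gcd_dvd_left _ _)]

/-- the same for `c` -/
theorem quot_c : c / Nat.gcd b c =
      (low y c / Nat.gcd (low y b) (low y c)) * upp x (hw hM F y c) ∧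
    low x (c / Nat.gcd b c) = low y c / Nat.gcd (low y b) (low y c) ∧
    upp x (c / Nat.gcd b c) = upp x (hw hM F y c) := by
  have := quot_b hM (hp.symm hM)
  rw [Nat.gcd_comm c b, Nat.gcd_comm (low y c) (low y b)] at this
  exact this

/-- `low y c = l * v` -/
lemma low_c : low y c = Nat.gcd (low y b) (low y c) * low x (c / Nat.gcd b c) := by
  rw [(quot_c hM hp).2.1, Nat.mul_div_cancel' (Nat.gcd_dvd_right _ _)]

/-- **the link in the language of the high words** -/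
theorem link_high {γ L : ℝ} (hl : h ∈ Lnk γ L b c) :
    |(low x (b / Nat.gcd b c) : ℝ) * ((upp x (hw hM F y b) : ℝ) * γ) -
        (low x (c / Nat.gcd b c) : ℝ) * ((upp x (hw hM F y c) : ℝ) * γ) + h| <
      L / (Nat.gcd b c : ℕ) := by
  unfold Lnk at hl
  have h1 := mem_Hf.1 hl
  obtain ⟨e1, e2, _⟩ := quot_b hM hp
  obtain ⟨e3, e4, _⟩ := quot_c hM hp
  rw [e2, e4]
  have e5 : ((b / Nat.gcd b c : ℕ) : ℝ) =
      ((low y b / Nat.gcd (low y b) (low y c) : ℕ) : ℝ) * (upp x (hw hM F y b) : ℝ) := by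
    rw [← Nat.cast_mul, ← e1]
  have e6 : ((c / Nat.gcd b c : ℕ) : ℝ) =
      ((low y c / Nat.gcd (low y b) (low y c) : ℕ) : ℝ) * (upp x (hw hM F y c) : ℝ) := by
    rw [← Nat.cast_mul, ← e3]
  rw [e5, e6] at h1
  refine lt_of_eq_of_lt ?_ h1
  congr 1
  ring

end pair

variable (F P)

/-- `Z` is a world of the core `G` above `y`, window `L / (2^κ U)` -/
structure IsW (y G U κ : ℕ) (Z : World) : Prop where
  hN : Z.N = PM (hiFL hM y F) G
  hG0 : Z.G0 = G
  hL : Z.L = P.L / (2 ^ κ * U)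
  hcut : Z.cut = P.cut
  hγ : Z.γ = P.γ

variable {F P}

omit hM in
/-- rounding of the scale -/
lemma kappa {L : ℝ} {U l e : ℕ} (hL : 0 < L) (hU : 0 < U) (h1 : U ≤ l) (h2 : l < 2 * U)
    (hlo : 2 ^ i * L ≤ (l : ℝ) * e) (hup : (l : ℝ) * e < 2 ^ (i + 1) * L) :
    ∃ κ : ℕ, κ ≤ 1 ∧ 2 ^ i * (L / (2 ^ κ * U)) ≤ e ∧ (e : ℝ) < 2 ^ (i + 1) * (L / (2 ^ κ * U)) ∧
      (l : ℝ) ≤ 2 ^ κ * U * (if κ = 0 then 2 else 1) ∧ (U : ℝ) ≤ l := by
  have hU' : (0 : ℝ) < U := by exact_mod_cast hU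
  have h1' : (U : ℝ) ≤ l := by exact_mod_cast h1
  have h2' : (l : ℝ) < 2 * U := by exact_mod_cast h2
  have he : (0 : ℝ) ≤ e := Nat.cast_nonneg e
  have e1 : (2 : ℝ) ^ (i + 1) = 2 * 2 ^ i := by ring
  by_cases hk : 2 ^ i * L ≤ (U : ℝ) * e
  · refine ⟨0, by norm_num, ?_, ?_, ?_, h1'⟩
    · rw [pow_zero, one_mul, ← mul_div_assoc, div_le_iff₀ hU']; linarith
    · rw [pow_zero, one_mul, ← mul_div_assoc, lt_div_iff₀ hU']; nlinarith
    · simp; linarith
  · push Not at hk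
    refine ⟨1, le_rfl, ?_, ?_, ?_, h1'⟩
    · rw [pow_one, ← mul_div_assoc, div_le_iff₀ (by positivity)]; nlinarith
    · rw [pow_one, ← mul_div_assoc, lt_div_iff₀ (by positivity)]; nlinarith
    · simp; linarith

omit hM in
/-- at most one `κ` -/
lemma kappa_unique {L : ℝ} {U e κ κ' : ℕ} (hL : 0 < L) (hU : 0 < U)
    (h1 : 2 ^ i * (L / (2 ^ κ * U)) ≤ e) (h2 : (e : ℝ) < 2 ^ (i + 1) * (L / (2 ^ κ * U)))
    (h1' : 2 ^ i * (L / (2 ^ κ' * U)) ≤ e) (h2' : (e : ℝ) < 2 ^ (i + 1) * (L / (2 ^ κ' * U))) :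
    κ = κ' := by
  have hU' : (0 : ℝ) < U := by exact_mod_cast hU
  have key : ∀ {κ κ' : ℕ}, 2 ^ i * (L / (2 ^ κ * U)) ≤ (e : ℝ) →
      (e : ℝ) < 2 ^ (i + 1) * (L / (2 ^ κ' * U)) → κ' ≤ κ := by
    intro κ κ' h1 h2
    by_contra hc
    push Not at hc
    have h3 : (2 : ℝ) ^ (κ + 1) ≤ 2 ^ κ' := pow_le_pow_right₀ (by norm_num) hc
    have h4 : L / (2 ^ κ' * U) ≤ L / (2 ^ (κ + 1) * U) := by
      refine div_le_div_of_nonneg_left hL.le (by positivity) ?_
      exact mul_le_mul_of_nonneg_right h3 hU'.le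
    have h5 : (2 : ℝ) ^ (i + 1) * (L / (2 ^ (κ + 1) * U)) = 2 ^ i * (L / (2 ^ κ * U)) := by
      rw [pow_succ, pow_succ]
      field_simp
    have h6 : (2 : ℝ) ^ (i + 1) * (L / (2 ^ κ' * U)) ≤ 2 ^ (i + 1) * (L / (2 ^ (κ + 1) * U)) :=
      mul_le_mul_of_nonneg_left h4 (by positivity)
    linarith
  exact le_antisymm (key h1' h2) (key h1 h2')

/-- **pair to world** -/
theorem pair_world (hL : 0 < P.L) (hb : b ∣ M) (hc : c ∣ M) (hy : y ≤ P.cut i)
    (hl : h ∈ Lnk P.γ P.L b c) (hfar : FarA F P i b c h) (hpure : Pure F (P.cut i) b c)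
    (hu : low (P.cut i) (b / Nat.gcd b c) ≤ y) (hv : low (P.cut i) (c / Nat.gcd b c) ≤ y)
    {U : ℕ} (hU : 0 < U) (hU1 : U ≤ Nat.gcd (low y b) (low y c))
    (hU2 : Nat.gcd (low y b) (low y c) < 2 * U) :
    H0 hM F y c = H0 hM F y b ∧ hw hM F y b ∣ PM (hiFL hM y F) (H0 hM F y b) ∧
    hw hM F y c ∣ PM (hiFL hM y F) (H0 hM F y b) ∧ D (hiFL hM y F) (H0 hM F y b) ≤ P.cut i ∧
    low (P.cut i) (hw hM F y b) = low (P.cut i) (hw hM F y c) ∧
    Nat.gcd (hw hM F y b) (hw hM F y c) = low (P.cut i) (hw hM F y b) ∧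
    low y b = Nat.gcd (low y b) (low y c) * low (P.cut i) (b / Nat.gcd b c) ∧
    low y c = Nat.gcd (low y b) (low y c) * low (P.cut i) (c / Nat.gcd b c) ∧
    Nat.gcd b c = Nat.gcd (low y b) (low y c) * (H0 hM F y b * low (P.cut i) (hw hM F y b)) ∧
    ∃ κ : ℕ, κ ≤ 1 ∧ ∀ Z : World, IsW hM F P y (H0 hM F y b) U κ Z → Z.i0 ≤ i →
      Z.nd i (hw hM F y b) ∧ Z.nd i (hw hM F y c) ∧
      |(low (P.cut i) (b / Nat.gcd b c) : ℝ) * Z.yy i (hw hM F y b) -
          (low (P.cut i) (c / Nat.gcd b c) : ℝ) * Z.yy i (hw hM F y c) + h| <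
        2 / Z.tt i (hw hM F y b) := by
  have hp := pair_of_far hM hb hc hy hfar hpure hu hv
  have hcore := core_eq hM hp
  have hlow := low_eq hM hp
  have hg := gcd_eq hM hp
  have hg0 : 0 < Nat.gcd b c := Nat.gcd_pos_of_pos_left _ (Nat.pos_of_dvd_of_pos hb hM)
  have hwc : hw hM F y c ∣ PM (hiFL hM y F) (H0 hM F y b) := by
    rw [hcore]; exact HighFLx863.hw_dvd hM F hc
  set l := Nat.gcd (low y b) (low y c) with hldef
  set e := H0 hM F y b * low (P.cut i) (hw hM F y b) with hedef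
  have he0 : 0 < e := Nat.mul_pos (HighFLx863.H0_pos hM F y b) (low_pos _ _)
  have hgR : ((Nat.gcd b c : ℕ) : ℝ) = (l : ℝ) * e := by rw [hg]; push_cast; ring
  have hlo := hfar.lo
  have hup := hfar.hi
  rw [hgR] at hlo hup
  obtain ⟨κ, hκ, k1, k2, k3, k4⟩ := kappa (i := i) hL hU hU1 hU2 hlo hup
  refine ⟨hcore.symm, HighFLx863.hw_dvd hM F hb, hwc, hp.D_le hM, hlow, gcd_hw hM hp,
    low_b hM hp, low_c hM hp, hg, κ, hκ, fun Z hZ hi0 => ?_⟩
  have hZe : (Z.e i (hw hM F y b) : ℝ) = e := by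
    unfold World.e
    rw [hZ.hG0, hZ.hcut]
  have hZe' : (Z.e i (hw hM F y c) : ℝ) = e := by
    unfold World.e
    rw [hZ.hG0, hZ.hcut, ← hlow]
  refine ⟨⟨hi0, ?_, ?_⟩, ⟨hi0, ?_, ?_⟩, ?_⟩
  · rw [hZe, hZ.hL]; exact k1
  · rw [hZe, hZ.hL]; exact k2
  · rw [hZe', hZ.hL]; exact k1
  · rw [hZe', hZ.hL]; exact k2
  · have h1 := link_high hM hp hl
    unfold World.yy World.tt
    rw [hZe, hZ.hL, hZ.hγ, hZ.hcut]
    refine lt_of_lt_of_le h1 ?_
    have hU' : (0 : ℝ) < U := by exact_mod_cast hU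
    have he' : (0 : ℝ) < e := by exact_mod_cast he0
    have hl' : (0 : ℝ) < l := lt_of_lt_of_le hU' k4
    rw [hgR]
    have h2 : (2 : ℝ) / (e / (P.L / (2 ^ κ * U))) = 2 * P.L / (2 ^ κ * U * e) := by
      field_simp
    rw [h2, div_le_div_iff₀ (by positivity) (by positivity)]
    have h3 : (2 : ℝ) ^ κ ≤ 2 := by
      calc (2 : ℝ) ^ κ ≤ 2 ^ 1 := pow_le_pow_right₀ (by norm_num) hκ
        _ = 2 := pow_one _
    have h4 : (2 : ℝ) ^ κ * U ≤ 2 * l := mul_le_mul h3 k4 hU'.le (by norm_num)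
    have h5 : (2 : ℝ) ^ κ * U * e ≤ 2 * l * e := mul_le_mul_of_nonneg_right h4 he'.le
    nlinarith

omit hM in
/-- **the dyadic sizes seen by one number**: `U = 2^k ≤ l < 2 U`, `a = l * u`, `A ≤ u < 2 A` give
`k = log (a / A)` or `k + 1 = log (a / A)` -/
theorem U_card {A k l u a : ℕ} (hA : 0 < A) (hU1 : 2 ^ k ≤ l) (hU2 : l < 2 * 2 ^ k)
    (hu1 : A ≤ u) (hu2 : u < 2 * A) (ha : a = l * u) :
    k = Nat.log 2 (a / A) ∨ k + 1 = Nat.log 2 (a / A) := by
  have h1 : 2 ^ k ≤ a / A := by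
    rw [Nat.le_div_iff_mul_le hA, ha]
    exact Nat.mul_le_mul hU1 hu1
  have h2 : a / A < 2 ^ (k + 2) := by
    rw [Nat.div_lt_iff_lt_mul hA, ha]
    calc l * u < (2 * 2 ^ k) * (2 * A) := Nat.mul_lt_mul'' hU2 hu2
      _ = 2 ^ (k + 2) * A := by ring
  have h3 : k ≤ Nat.log 2 (a / A) := Nat.le_log_of_pow_le (by norm_num) h1
  have h4 : Nat.log 2 (a / A) < k + 2 := Nat.log_lt_of_lt_pow (by
    have : 0 < 2 ^ k := by positivity
    omega) h2
  omega

end Crest.Agent.R4C.VWorldx350
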