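import Crest.Agent.R4C.VBoost_305
import Crest.Agent.R4C.B1Lev_52
import Crest.Agent.R4C.VDef_24

/-!
# Row 4, class CDomP, VECTOR case: weight half of `TPair` (helper305)

* `exists_B1off` : `B1 b c ≤ C (2^(a+a'))^(1/16) (offW F X0 b · offW F X0 c)` for a pair good at
  `X ≥ X0` with low words `< 2^(a+1)`, `< 2^(a'+1)` (no `K_y` event needed);
* `boost_off` : the boost of a pair `VP` with this bound.
* `boost_par` : at `ParOf`, constant `Cw 2^((a+a')/4)`.
-/

set_option autoImplicit false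

namespace Crest.Agent.R4C.VWtx305

open Finset Crest.Agent.R4C.Basex935 Crest.Agent.R4C.FLDefx935 Crest.Agent.R4C.BoostCx972
  Crest.Agent.R4C.CrCoinx935 Crest.Agent.R4C.CrCountx935 Crest.Agent.R4C.Bridgex882
  Crest.Agent.R4C.PrefixMx882 Crest.Agent.R4C.Rulex945 Crest.Agent.R4C.Sharedx11
  Crest.Agent.R4C.Splitx945 Crest.Agent.R4C.Cutx50 Crest.Agent.R4C.PureL2x232
  Crest.Agent.R4C.PureClsx863 Crest.Agent.R4C.HighFLx863 Crest.Agent.R4C.S2bx284
  Crest.Agent.R4C.VecPairx19 Crest.Agent.R4C.Spinex946 Crest.Agent.R4C.KyPurex971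
  Crest.Agent.R4C.VBoostx305
open Crest.Agent.R4C.B1Levx52 (offW one_le_offW offW_anti)

/-- `B1` with `offW`, no `K_y` -/
theorem exists_B1off : ∃ C : ℝ, 1 ≤ C ∧ ∀ {M : ℕ} {F : FL M} {X0 X b c a a' : ℕ}, 0 < M → b ∣ M →
    c ∣ M → X0 ≤ X → F.good X b c → low X (b / Nat.gcd b c) < 2 ^ (a + 1) →
    low X (c / Nat.gcd b c) < 2 ^ (a' + 1) →
    B1 b c ≤ C * ((2 : ℝ) ^ (a + a')) ^ (1 / 16 : ℝ) * (offW F X0 b * offW F X0 c) := by
  classical
  obtain ⟨C, hC, h1⟩ := prod_pf_rpow (ε := 1 / 16) (by norm_num)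
  refine ⟨C * 4, by linarith, ?_⟩
  intro M F X0 X b c a a' hM hb hc hX hg hu hv
  have hb0 : 0 < b := Nat.pos_of_dvd_of_pos hb hM
  have hc0 : 0 < c := Nat.pos_of_dvd_of_pos hc hM
  have hgp : 0 < Nat.gcd b c := Nat.gcd_pos_of_pos_left _ hb0
  have hs : b / Nat.gcd b c ≠ 0 := (Nat.div_pos (Nat.le_of_dvd hb0 (Nat.gcd_dvd_left _ _)) hgp).ne'
  have hs' : c / Nat.gcd b c ≠ 0 := (Nat.div_pos (Nat.le_of_dvd hc0 (Nat.gcd_dvd_right _ _)) hgp).ne'
  set u := low X (b / Nat.gcd b c) with hud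
  set v := low X (c / Nat.gcd b c) with hvd
  have huv : u * v ≠ 0 := (Nat.mul_pos (low_pos _ _) (low_pos _ _)).ne'
  -- split
  have h2 : B1 b c ≤ (∏ p ∈ (u * v).primeFactors, pf p) * B1Levx52.B1 X b c := by
    unfold PureL2x232.B1 B1Levx52.B1
    set S := (b / Nat.gcd b c * (c / Nat.gcd b c)).primeFactors with hS
    have hSp : ∀ p ∈ S, p.Prime := fun p hp => Nat.prime_of_mem_primeFactors hp
    change ∏ p ∈ S, pf p ≤ (∏ p ∈ (u * v).primeFactors, pf p) *
      ∏ p ∈ S.filter (fun p => X < p), pf p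
    rw [← Finset.prod_filter_mul_prod_filter_not S (fun p => X < p), mul_comm]
    refine mul_le_mul_of_nonneg_right ?_ ?_
    · refine GWwtx360.prod_pf_mono (fun p hp => Nat.prime_of_mem_primeFactors hp) ?_
      intro p hp
      rw [Finset.mem_filter] at hp
      have hpp := hSp p hp.1
      have hpx : p ≤ X := not_lt.1 hp.2
      have hd := Nat.dvd_of_mem_primeFactors hp.1
      rw [Nat.mem_primeFactors]
      refine ⟨hpp, ?_, huv⟩
      rcases (Nat.Prime.dvd_mul hpp).1 hd with h | h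
      · exact Dvd.dvd.mul_right (dvd_low hs hpp hpx h) _
      · exact Dvd.dvd.mul_left (dvd_low hs' hpp hpx h) _
    · exact Finset.prod_nonneg fun p hp =>
        (GWwtx360.pf_pos (hSp p (Finset.mem_filter.1 hp).1)).le
  have h3 : B1Levx52.B1 X b c ≤ offW F X0 b * offW F X0 c := by
    refine (B1Levx52.B1_le hM hb hc hg).trans ?_
    have e1 := offW_anti (F := F) hX b
    have e2 := offW_anti (F := F) hX c
    have e3 := one_le_offW (F := F) X b
    have e4 := one_le_offW (F := F) X c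
    exact mul_le_mul e1 e2 (by linarith) (by linarith)
  have h4 : ∏ p ∈ (u * v).primeFactors, pf p ≤ C * 4 * ((2 : ℝ) ^ (a + a')) ^ (1 / 16 : ℝ) := by
    refine (h1 _ huv).trans ?_
    rw [mul_assoc]
    refine mul_le_mul_of_nonneg_left ?_ (by linarith)
    have h5 : ((u * v : ℕ) : ℝ) ≤ 4 * 2 ^ (a + a') := by
      have h6 : u * v ≤ 2 ^ (a + 1) * 2 ^ (a' + 1) := Nat.mul_le_mul hu.le hv.le
      have h7 : (2 : ℕ) ^ (a + 1) * 2 ^ (a' + 1) = 4 * 2 ^ (a + a') := by ring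
      rw [h7] at h6
      exact_mod_cast h6
    calc ((u * v : ℕ) : ℝ) ^ (1 / 16 : ℝ) ≤ (4 * 2 ^ (a + a')) ^ (1 / 16 : ℝ) :=
          Real.rpow_le_rpow (Nat.cast_nonneg _) h5 (by norm_num)
      _ = (4 : ℝ) ^ (1 / 16 : ℝ) * ((2 : ℝ) ^ (a + a')) ^ (1 / 16 : ℝ) :=
          Real.mul_rpow (by norm_num) (by positivity)
      _ ≤ 4 * ((2 : ℝ) ^ (a + a')) ^ (1 / 16 : ℝ) := by
          refine mul_le_mul_of_nonneg_right ?_ (by positivity)
          calc (4 : ℝ) ^ (1 / 16 : ℝ) ≤ (4 : ℝ) ^ (1 : ℝ) :=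
                Real.rpow_le_rpow_of_exponent_le (by norm_num) (by norm_num)
            _ = 4 := Real.rpow_one 4
  have h8 : 0 ≤ B1Levx52.B1 X b c := B1Levx52.B1_nonneg _ _ _
  exact h2.trans (mul_le_mul h4 h3 h8 (by positivity))

/-- **the boost of a pair in the form of `TPair`** (weight half) -/
theorem exists_boost_off : ∃ C : ℝ, 0 ≤ C ∧ ∀ {M : ℕ} {hM : 0 < M} {F : FL M} {P : Par}
    {y i G w w' u v l b c a a' A X0 : ℕ} {h : ℤ}, VP hM F P y i G w w' u v l b c h →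
    0 < P.L → (∀ i, P.Y i = 2 ^ i) →
    (∀ b i, P.thr b i ≤ Real.exp ((P.Y (i - 1) : ℝ) ^ (4 / 5 : ℝ))) → 1 ≤ A →
    (∀ m, P.cut m = 2 ^ (A * m)) → 1 ≤ i → FarA F P i b c h → h ∈ Lnk P.γ P.L b c →
    X0 ≤ P.cut i → u < 2 ^ (a + 1) → v < 2 ^ (a' + 1) →
    boostB M (lamR F P) b c h ≤ C * ((2 : ℝ) ^ (a + a')) ^ (1 / 16 : ℝ) *
      (offW F X0 b * offW F X0 c) *
        (1 / nu (low (P.cut i) (PM (hiFL hM y F) G)) (low (P.cut i) w) /
          (VR (hiFL hM y F) G * (Nat.gcd w w' : ℝ)) *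
          BoostRx398.bst (BoostTopx19.prQ y) (low y M) (low y b) (low y c) *
          min (GWwtx360.Ww (PM (hiFL hM y F) G) (fun p => lamR F P b p = none) y (P.cut i) w)
            (GWwtx360.Ww (PM (hiFL hM y F) G) (fun p => lamR F P c p = none) y (P.cut i) w')) := by
  obtain ⟨C, hC, hB⟩ := exists_B1off
  refine ⟨Real.exp 200 * (Real.exp (22 / Real.log 2) * 2) * C, by positivity, ?_⟩
  intro M hM F P y i G w w' u v l b c a a' A X0 h hV hL hY hthr hA hcut hi hfar hl hX0 hu hv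
  refine (boost_div hV hL hY hthr hA hcut hi hfar hl).trans ?_
  set F' := hiFL hM y F with hF'
  have hup := upp_pos y M
  have hN := PM_pos (F := F') G
  have e6 : 0 < VR F' G := GWcorex482.VR_pos hup hV.hG
  have e9 : 0 < nu (low (P.cut i) (PM F' G)) (low (P.cut i) w) :=
    nu_pos (low_pos _ _) (low_dvd _ hN.ne' hV.hw)
  have hWw : ∀ (T : ℕ → Prop) (v : ℕ), 0 ≤ GWwtx360.Ww (PM F' G) T y (P.cut i) v := by
    intro T v
    classical
    unfold GWwtx360.Ww
    refine Finset.prod_nonneg fun p hp => ?_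
    have h1 := (Finset.mem_filter.1 hp).1
    unfold free at h1
    rw [Finset.mem_filter, Nat.mem_primeFactors] at h1
    have h2 : (2 : ℝ) ≤ p := by exact_mod_cast h1.1.1.two_le
    have h3 : 1 / (p : ℝ) ≤ 1 / 2 := one_div_le_one_div_of_le (by norm_num) h2
    linarith
  have hbst : 0 ≤ BoostRx398.bst (BoostTopx19.prQ y) (low y M) (low y b) (low y c) :=
    VecNPx50.bst_nonneg _ _ _ _
  refine mul_le_mul_of_nonneg_right ?_ ?_
  · have h1 := hB (F := F) (X0 := X0) (a := a) (a' := a') hM hV.hb hV.hc hX0 hfar.good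
      (by rw [hV.uX]; exact hu) (by rw [hV.vX]; exact hv)
    calc Real.exp 200 * (Real.exp (22 / Real.log 2) * 2) * B1 b c
        ≤ Real.exp 200 * (Real.exp (22 / Real.log 2) * 2) *
          (C * ((2 : ℝ) ^ (a + a')) ^ (1 / 16 : ℝ) * (offW F X0 b * offW F X0 c)) :=
          mul_le_mul_of_nonneg_left h1 (by positivity)
      _ = _ := by ring
  · refine mul_nonneg (mul_nonneg ?_ hbst) (le_min (hWw _ _) (hWw _ _))
    positivity

/-- **weight half of `TPair`** at `ParOf` -/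
theorem exists_boost_par : ∃ C : ℝ, 0 ≤ C ∧ ∀ {cp γ L : ℝ} {A m0 M : ℕ} {B : Finset ℕ}
    {hM : 0 < M} {F : FL M} {y i G w w' u v l b c a a' X0 : ℕ} {h : ℤ},
    VP hM F (ParOf cp A m0 γ L M B) y i G w w' u v l b c h → 0 < L → 1 ≤ A → 1 ≤ i →
    FarA F (ParOf cp A m0 γ L M B) i b c h → h ∈ Lnk γ L b c → X0 ≤ 2 ^ (A * i) →
    u < 2 ^ (a + 1) → v < 2 ^ (a' + 1) →
    boostB M (lamOf cp A m0 γ L M B F) b c h ≤ C * (2 : ℝ) ^ ((a + a' : ℝ) / 4) *
      (offW F X0 b * offW F X0 c) *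
        (1 / nu (low (2 ^ (A * i)) (PM (hiFL hM y F) G)) (low (2 ^ (A * i)) w) /
          (VR (hiFL hM y F) G * (Nat.gcd w w' : ℝ)) *
          BoostRx398.bst (BoostTopx19.prQ y) (low y M) (low y b) (low y c) *
          min (GWwtx360.Ww (PM (hiFL hM y F) G)
              (fun p => lamR F (ParOf cp A m0 γ L M B) b p = none) y (2 ^ (A * i)) w)
            (GWwtx360.Ww (PM (hiFL hM y F) G)
              (fun p => lamR F (ParOf cp A m0 γ L M B) c p = none) y (2 ^ (A * i)) w')) := by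
  obtain ⟨C, hC, hB⟩ := exists_boost_off
  refine ⟨C, hC, ?_⟩
  intro cp γ L A m0 M B hM F y i G w w' u v l b c a a' X0 h hV hL hA hi hfar hl hX0 hu hv
  refine (hB hV hL (fun _ => rfl) (fun _ _ => min_le_right _ _) hA (fun _ => rfl) hi hfar hl hX0 hu
    hv).trans ?_
  set F' := hiFL hM y F with hF'
  have hup := upp_pos y M
  have hN := PM_pos (F := F') G
  have e6 : 0 < VR F' G := GWcorex482.VR_pos hup hV.hG
  have e9 : 0 < nu (low (2 ^ (A * i)) (PM F' G)) (low (2 ^ (A * i)) w) :=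
    nu_pos (low_pos _ _) (low_dvd _ hN.ne' hV.hw)
  have hWw : ∀ (T : ℕ → Prop) (v : ℕ), 0 ≤ GWwtx360.Ww (PM F' G) T y (2 ^ (A * i)) v := by
    intro T v
    classical
    unfold GWwtx360.Ww
    refine Finset.prod_nonneg fun p hp => ?_
    have h1 := (Finset.mem_filter.1 hp).1
    unfold free at h1
    rw [Finset.mem_filter, Nat.mem_primeFactors] at h1
    have h2 : (2 : ℝ) ≤ p := by exact_mod_cast h1.1.1.two_le
    have h3 : 1 / (p : ℝ) ≤ 1 / 2 := one_div_le_one_div_of_le (by norm_num) h2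
    linarith
  have hbst : 0 ≤ BoostRx398.bst (BoostTopx19.prQ y) (low y M) (low y b) (low y c) :=
    VecNPx50.bst_nonneg _ _ _ _
  have e1 := one_le_offW (F := F) X0 b
  have e2 := one_le_offW (F := F) X0 c
  refine mul_le_mul_of_nonneg_right ?_ ?_
  · refine mul_le_mul_of_nonneg_right ?_ (by positivity)
    refine mul_le_mul_of_nonneg_left ?_ hC
    rw [← Real.rpow_natCast, ← Real.rpow_mul (by norm_num)]
    refine Real.rpow_le_rpow_of_exponent_le (by norm_num) ?_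
    push_cast
    have h3 : (0 : ℝ) ≤ a := Nat.cast_nonneg a
    have h4 : (0 : ℝ) ≤ a' := Nat.cast_nonneg a'
    linarith
  · refine mul_nonneg (mul_nonneg ?_ hbst) (le_min (hWw _ _) (hWw _ _))
    positivity

end Crest.Agent.R4C.VWtx305
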