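import Crest.Agent.R4C.VecNPj_50

/-!
# Row 4: non-pure word lemma with several words per pair of upper words (helper946, 971's 3528 (P))

* `np_blockA` : one block, words of product `≥ A`: extra gain `A^{-1/4}`.
* `np_multi` : families `P j i`, `i ∈ s j`, each determined by the upper words in every class
  (`Uniq`, helper50), words of product `≥ A j i`, weight `≤` full boost at the primes `≤ Xj j`:
  `≤ C (∑_{j ≥ j0} ∑_{i ∈ s j} (A j i)^{-1/4} (√2)^{-j}) (Ex f)^{1/2} (Ex g)^{1/2}`.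
* `np_multi_range` : `s j = range (j+1)`, constant `C (j0 + 1) (√2)^{-j0}`.
-/

set_option autoImplicit false

open Finset
open Crest.Agent.R4C.Basex935 Crest.Agent.R4C.Cutx50 Crest.Agent.R4C.HeavyLx50
open Crest.Agent.R4C.FLDefx935
open Crest.Agent.R4C.BoostRx398 (bst tf one_le_tf)
open Crest.Agent.R4C.FixedWordx423 (wd wd_pos)
open Crest.Agent.R4C.NonPureBlkx559 (Xj Xj_two log_Xj)
open Crest.Agent.R4C.VecNPx50

namespace Crest.Agent.R4C.VecNPmx946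

/-! ### one block with a lower bound for the words -/

lemma inv_sqrt_split {A : ℝ} (hA : 1 ≤ A) {n : ℕ} (h : A ≤ (2 : ℝ) ^ (n + 2)) :
    1 / √((2 : ℝ) ^ n) ≤ 2 * A ^ (-(1 / 4 : ℝ)) * ((2 : ℝ) ^ (-(1 / 4 : ℝ))) ^ n := by
  have hA0 : 0 < A := by linarith
  have h2 : (0 : ℝ) < 2 := by norm_num
  have e1 : 1 / √((2 : ℝ) ^ n) = (2 : ℝ) ^ (-(n : ℝ) / 2) := by
    rw [Real.sqrt_eq_rpow, ← Real.rpow_natCast, ← Real.rpow_mul h2.le, one_div, ← Real.rpow_neg h2.le]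
    congr 1
    ring
  have e2 : ((2 : ℝ) ^ (-(1 / 4 : ℝ))) ^ n = (2 : ℝ) ^ (-(n : ℝ) / 4) := by
    rw [← Real.rpow_natCast, ← Real.rpow_mul h2.le]
    congr 1
    ring
  have e3 : ((2 : ℝ) ^ (n + 2)) ^ (-(1 / 4 : ℝ)) ≤ A ^ (-(1 / 4 : ℝ)) :=
    Real.rpow_le_rpow_of_nonpos hA0 h (by norm_num)
  have e4 : ((2 : ℝ) ^ (n + 2)) ^ (-(1 / 4 : ℝ)) = (2 : ℝ) ^ (-(n : ℝ) / 4 - 1 / 2) := by
    rw [← Real.rpow_natCast, ← Real.rpow_mul h2.le]
    congr 1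
    push_cast
    ring
  rw [e4] at e3
  have e5 : (2 : ℝ) ^ (-(n : ℝ) / 2) =
      (2 : ℝ) ^ (1 / 2 : ℝ) * (2 : ℝ) ^ (-(n : ℝ) / 4 - 1 / 2) * (2 : ℝ) ^ (-(n : ℝ) / 4) := by
    rw [← Real.rpow_add h2, ← Real.rpow_add h2]
    congr 1
    ring
  have e6 : (2 : ℝ) ^ (1 / 2 : ℝ) ≤ 2 := by
    calc (2 : ℝ) ^ (1 / 2 : ℝ) ≤ (2 : ℝ) ^ (1 : ℝ) :=
          Real.rpow_le_rpow_of_exponent_le (by norm_num) (by norm_num)
      _ = 2 := Real.rpow_one 2
  rw [e1, e2, e5]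
  refine mul_le_mul_of_nonneg_right ?_ (Real.rpow_nonneg h2.le _)
  exact mul_le_mul e6 e3 (Real.rpow_nonneg h2.le _) (by norm_num)

lemma geo_quarter (N : ℕ) : ∑ a ∈ range N, ((2 : ℝ) ^ (-(1 / 4 : ℝ))) ^ a ≤
    (1 - (2 : ℝ) ^ (-(1 / 4 : ℝ)))⁻¹ := by
  have hr0 : 0 < (2 : ℝ) ^ (-(1 / 4 : ℝ)) := Real.rpow_pos_of_pos (by norm_num) _
  have hr1 : (2 : ℝ) ^ (-(1 / 4 : ℝ)) < 1 :=
    Real.rpow_lt_one_of_one_lt_of_neg (by norm_num) (by norm_num)
  exact sum_le_hasSum _ (fun n _ => pow_nonneg hr0.le n) (hasSum_geometric_of_lt_one hr0.le hr1)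

open Classical in
/-- one block, all classes, words of product at least `A` -/
theorem np_blockA : ∃ C : ℝ, 0 < C ∧ ∀ (M : ℕ) (F : FL M), 0 < M → ∀ X : ℕ, 2 ≤ X →
    ∀ S : Finset ℕ, (∀ p ∈ S, p ≤ X) → ∀ P : ℕ → ℕ → Prop,
    (∀ b c, b ∣ M → c ∣ M → P b c → NPX F X b c) → Uniq M X P → ∀ A : ℝ, 1 ≤ A →
    (∀ b c, b ∣ M → c ∣ M → P b c →
      A ≤ (low X (wd b c).1 : ℝ) * (low X (wd b c).2 : ℝ)) →
    ∀ (f g : ℕ → ℝ), (∀ b, 0 ≤ f b) → (∀ b, 0 ≤ g b) → (∀ b, f b ≤ 1) → (∀ b, g b ≤ 1) →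
    frm M (fun b c => if P b c then bst S M b c * (f b * g c) else 0) ≤
      C * A ^ (-(1 / 4 : ℝ)) * (Real.log X) ^ (-(1 / 2 : ℝ)) * (√(Ex M f) * √(Ex M g)) := by
  obtain ⟨C, hC, h⟩ := np_one
  set r : ℝ := (2 : ℝ) ^ (-(1 / 4 : ℝ)) with hr
  have hr0 : 0 < r := Real.rpow_pos_of_pos (by norm_num) _
  have hr1 : r < 1 := Real.rpow_lt_one_of_one_lt_of_neg (by norm_num) (by norm_num)
  have hR : 0 < (1 - r)⁻¹ := inv_pos.2 (by linarith)
  refine ⟨4 * C * (1 - r)⁻¹ ^ 2, by positivity,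
    fun M F hM X hX S hS P hP hU A hA hPA f g hf hg hf1 hg1 => ?_⟩
  have hX' : (2 : ℝ) ≤ (X : ℝ) := by exact_mod_cast hX
  have hlog : 0 < Real.log X := Real.log_pos (by linarith)
  set D := √(Ex M f) * √(Ex M g) with hD
  have hD0 : 0 ≤ D := mul_nonneg (Real.sqrt_nonneg _) (Real.sqrt_nonneg _)
  set L := (Real.log X) ^ (-(1 / 2 : ℝ)) with hL
  have hL0 : 0 ≤ L := Real.rpow_nonneg hlog.le _
  set q := A ^ (-(1 / 4 : ℝ)) with hq
  have hq0 : 0 ≤ q := Real.rpow_nonneg (by linarith) _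
  have hbf : ∀ b c, 0 ≤ bst S M b c * (f b * g c) := fun b c =>
    mul_nonneg (bst_nonneg _ _ _ _) (mul_nonneg (hf _) (hg _))
  set T : Finset (ℕ × ℕ × ℕ) := range (M + 1) ×ˢ (range (M + 1) ×ˢ range 2) with hT
  have h1 : frm M (fun b c => if P b c then bst S M b c * (f b * g c) else 0) ≤
      ∑ t ∈ T, frm M (fun b c => if P b c ∧ Cls X t.1 t.2.1 t.2.2 b c then
        bst S M b c * (f b * g c) else 0) := by
    rw [frm_sum]
    refine frm_mono fun b c hb hc => ?_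
    have hnn : ∀ t ∈ T, (0 : ℝ) ≤ (if P b c ∧ Cls X t.1 t.2.1 t.2.2 b c then
        bst S M b c * (f b * g c) else 0) := by
      intro t _
      split_ifs
      · exact hbf b c
      · exact le_rfl
    by_cases hPP : P b c
    · obtain ⟨a, ha, a', ha', e, he, hcls⟩ := exists_cls (X := X) hM hb hc
      have hmem : (a, a', e) ∈ T := by
        rw [hT, Finset.mem_product, Finset.mem_product]
        exact ⟨ha, ha', he⟩
      refine le_trans ?_ (Finset.single_le_sum hnn hmem)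
      rw [if_pos hPP, if_pos ⟨hPP, hcls⟩]
    · rw [if_neg hPP]
      exact Finset.sum_nonneg hnn
  refine h1.trans ?_
  have h2 : ∀ t ∈ T, frm M (fun b c => if P b c ∧ Cls X t.1 t.2.1 t.2.2 b c then
        bst S M b c * (f b * g c) else 0) ≤ (2 * C * q * L * D) * (r ^ t.1 * r ^ t.2.1) := by
    intro t _
    by_cases hex : ∃ b c, b ∣ M ∧ c ∣ M ∧ P b c ∧ Cls X t.1 t.2.1 t.2.2 b c
    · obtain ⟨b, c, hb, hc, hPP, hcl⟩ := hex
      have hAle : A ≤ (2 : ℝ) ^ (t.1 + t.2.1 + 2) := by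
        refine (hPA b c hb hc hPP).trans ?_
        have e3 : low X (wd b c).1 < 2 ^ (t.1 + 1) := by
          rw [← hcl.1]; exact Nat.lt_pow_succ_log_self (by norm_num) _
        have e4 : low X (wd b c).2 < 2 ^ (t.2.1 + 1) := by
          rw [← hcl.2.1]; exact Nat.lt_pow_succ_log_self (by norm_num) _
        have e5 : low X (wd b c).1 * low X (wd b c).2 ≤ 2 ^ (t.1 + t.2.1 + 2) := by
          have : 2 ^ (t.1 + t.2.1 + 2) = 2 ^ (t.1 + 1) * 2 ^ (t.2.1 + 1) := by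
            rw [← pow_add]; congr 1; ring
          rw [this]
          exact Nat.mul_le_mul e3.le e4.le
        exact_mod_cast e5
      refine (h M F hM X hX S hS P hP hU t.1 t.2.1 t.2.2 f g hf hg hf1 hg1).trans ?_
      have e6 := inv_sqrt_split hA hAle
      rw [← hr, ← hq, pow_add, pow_add r] at e6
      calc C * L / √((2 : ℝ) ^ t.1 * 2 ^ t.2.1) * D
          = (C * L * D) * (1 / √((2 : ℝ) ^ t.1 * 2 ^ t.2.1)) := by ring
        _ ≤ (C * L * D) * (2 * q * (r ^ t.1 * r ^ t.2.1)) :=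
            mul_le_mul_of_nonneg_left e6 (by positivity)
        _ = _ := by ring
    · push Not at hex
      have : frm M (fun b c => if P b c ∧ Cls X t.1 t.2.1 t.2.2 b c then
          bst S M b c * (f b * g c) else 0) = 0 := by
        unfold frm
        refine Finset.sum_eq_zero fun b hb => Finset.sum_eq_zero fun c hc => ?_
        beta_reduce
        rw [if_neg, mul_zero]
        rintro ⟨h3, h4⟩
        exact hex b c (Nat.dvd_of_mem_divisors hb) (Nat.dvd_of_mem_divisors hc) h3 h4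
      rw [this]
      positivity
  refine (Finset.sum_le_sum h2).trans ?_
  rw [← Finset.mul_sum, hT, Finset.sum_product]
  have h3 : ∀ a ∈ range (M + 1), ∑ x ∈ range (M + 1) ×ˢ range 2, r ^ a * r ^ x.1 ≤
      r ^ a * (2 * (1 - r)⁻¹) := by
    intro a _
    rw [Finset.sum_product]
    simp only [Finset.sum_const, Finset.card_range, nsmul_eq_mul]
    rw [← Finset.mul_sum, ← Finset.mul_sum]
    have := geo_quarter (M + 1)
    rw [← hr] at this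
    have h4 : 0 ≤ r ^ a := by positivity
    push_cast
    nlinarith
  have h5 : ∑ a ∈ range (M + 1), ∑ x ∈ range (M + 1) ×ˢ range 2, r ^ a * r ^ x.1 ≤
      2 * (1 - r)⁻¹ ^ 2 := by
    refine (Finset.sum_le_sum h3).trans ?_
    rw [← Finset.sum_mul]
    have := geo_quarter (M + 1)
    rw [← hr] at this
    calc _ ≤ (1 - r)⁻¹ * (2 * (1 - r)⁻¹) := mul_le_mul_of_nonneg_right this (by positivity)
      _ = _ := by ring
  calc 2 * C * q * L * D * _ ≤ 2 * C * q * L * D * (2 * (1 - r)⁻¹ ^ 2) :=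
        mul_le_mul_of_nonneg_left h5 (by positivity)
    _ = _ := by ring

/-! ### all blocks, several families -/

lemma rpow_log_Xj {j : ℕ} (hj1 : 1 ≤ j) :
    (Real.log (Xj j)) ^ (-(1 / 2 : ℝ)) ≤ (√(Real.log 2 / 2))⁻¹ * ((√2)⁻¹) ^ j := by
  have hl2 : 0 < Real.log 2 := Real.log_pos (by norm_num)
  have hlX : 0 < Real.log (Xj j) := lt_of_lt_of_le (by positivity) (log_Xj hj1)
  rw [Real.rpow_neg hlX.le, ← Real.sqrt_eq_rpow]
  have h2 : √(2 ^ j * (Real.log 2 / 2)) ≤ √(Real.log (Xj j)) := Real.sqrt_le_sqrt (log_Xj hj1)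
  have h3 : √((2 : ℝ) ^ j * (Real.log 2 / 2)) = (√2) ^ j * √(Real.log 2 / 2) := by
    rw [Real.sqrt_mul (by positivity)]
    congr 1
    have : ((2 : ℝ) ^ j) = ((√2) ^ j) ^ 2 := by
      rw [← pow_mul, mul_comm, pow_mul, Real.sq_sqrt (by norm_num)]
    rw [this, Real.sqrt_sq (by positivity)]
  rw [h3] at h2
  have h4 : 0 < (√2) ^ j * √(Real.log 2 / 2) := by positivity
  calc (√(Real.log (Xj j)))⁻¹ ≤ ((√2) ^ j * √(Real.log 2 / 2))⁻¹ := inv_anti₀ h4 h2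
    _ = _ := by rw [mul_inv, inv_pow]; ring

open Classical in
/-- **non-pure word lemma, several families of words per block** -/
theorem np_multi : ∃ C : ℝ, 0 < C ∧ ∀ (M : ℕ) (F : FL M), 0 < M → ∀ j0 : ℕ, 1 ≤ j0 →
    ∀ {ι : Type} (s : ℕ → Finset ι) (P : ℕ → ι → ℕ → ℕ → Prop) (A : ℕ → ι → ℝ),
    (∀ j i, 1 ≤ A j i) →
    (∀ j, j0 ≤ j → ∀ i ∈ s j, ∀ b c, b ∣ M → c ∣ M → P j i b c → NPX F (Xj j) b c ∧
      A j i ≤ (low (Xj j) (wd b c).1 : ℝ) * (low (Xj j) (wd b c).2 : ℝ)) →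
    (∀ j, j0 ≤ j → ∀ i ∈ s j, Uniq M (Xj j) (P j i)) →
    ∀ W : ℕ → ℕ → ℝ,
    (∀ j, j0 ≤ j → ∀ i ∈ s j, ∀ b c, b ∣ M → c ∣ M → P j i b c →
      W b c ≤ bst (pr (Xj j)) M b c) →
    ∀ (f g : ℕ → ℝ), (∀ b, 0 ≤ f b) → (∀ b, 0 ≤ g b) → (∀ b, f b ≤ 1) → (∀ b, g b ≤ 1) →
    frm M (fun b c => if ∃ j, j0 ≤ j ∧ ∃ i ∈ s j, P j i b c then W b c * (f b * g c) else 0) ≤
      C * (∑ j ∈ Finset.Ico j0 (M + 1), (∑ i ∈ s j, A j i ^ (-(1 / 4 : ℝ))) * ((√2)⁻¹) ^ j) *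
        (√(Ex M f) * √(Ex M g)) := by
  obtain ⟨C, hC, h⟩ := np_blockA
  have hl2 : 0 < Real.log 2 := Real.log_pos (by norm_num)
  set r : ℝ := (√2)⁻¹ with hr
  have hr0 : 0 < r := by positivity
  set K : ℝ := (√(Real.log 2 / 2))⁻¹ with hK
  have hK0 : 0 < K := by positivity
  refine ⟨C * K, by positivity,
    fun M F hM j0 hj0 ι s P A hA hP hU W hW f g hf hg hf1 hg1 => ?_⟩
  set D := √(Ex M f) * √(Ex M g) with hD
  have hD0 : 0 ≤ D := mul_nonneg (Real.sqrt_nonneg _) (Real.sqrt_nonneg _)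
  have hbf : ∀ j b c, 0 ≤ bst (pr (Xj j)) M b c * (f b * g c) := fun j b c =>
    mul_nonneg (bst_nonneg _ _ _ _) (mul_nonneg (hf _) (hg _))
  have hT : ∀ j i b c, (0 : ℝ) ≤ (if P j i b c then
      bst (pr (Xj j)) M b c * (f b * g c) else 0) := by
    intro j i b c
    split_ifs
    · exact hbf j b c
    · exact le_rfl
  have h1 : frm M (fun b c => if ∃ j, j0 ≤ j ∧ ∃ i ∈ s j, P j i b c then
        W b c * (f b * g c) else 0) ≤
      ∑ j ∈ Finset.Ico j0 (M + 1), ∑ i ∈ s j, frm M (fun b c => if P j i b c then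
        bst (pr (Xj j)) M b c * (f b * g c) else 0) := by
    have e0 : ∀ j ∈ Finset.Ico j0 (M + 1), ∑ i ∈ s j, frm M (fun b c => if P j i b c then
        bst (pr (Xj j)) M b c * (f b * g c) else 0) =
        frm M (fun b c => ∑ i ∈ s j, (if P j i b c then
          bst (pr (Xj j)) M b c * (f b * g c) else 0)) := by
      intro j _
      rw [frm_sum]
    rw [Finset.sum_congr rfl e0, frm_sum]
    refine frm_mono fun b c hb hc => ?_
    have hnn : ∀ j ∈ Finset.Ico j0 (M + 1), (0 : ℝ) ≤ ∑ i ∈ s j, (if P j i b c then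
        bst (pr (Xj j)) M b c * (f b * g c) else 0) :=
      fun j _ => Finset.sum_nonneg fun i _ => hT j i b c
    by_cases hex : ∃ j, j0 ≤ j ∧ ∃ i ∈ s j, P j i b c
    · rw [if_pos hex]
      obtain ⟨j, hj, i, hi, hPj⟩ := hex
      have hn := (hP j hj i hi b c hb hc hPj).1
      have hjM : j < M + 1 := by
        have := hn.np
        rw [not_and_or] at this
        rcases this with h5 | h5
        · exact Xj_lt hM h5
        · exact Xj_lt hM h5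
      refine le_trans ?_ (Finset.single_le_sum hnn (Finset.mem_Ico.2 ⟨hj, hjM⟩))
      refine le_trans ?_ (Finset.single_le_sum (f := fun i => if P j i b c then
        bst (pr (Xj j)) M b c * (f b * g c) else 0) (fun i _ => hT j i b c) hi)
      rw [if_pos hPj]
      exact mul_le_mul_of_nonneg_right (hW j hj i hi b c hb hc hPj) (mul_nonneg (hf _) (hg _))
    · rw [if_neg hex]
      exact Finset.sum_nonneg hnn
  refine h1.trans ?_
  have h2 : ∀ j ∈ Finset.Ico j0 (M + 1), ∑ i ∈ s j, frm M (fun b c => if P j i b c then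
        bst (pr (Xj j)) M b c * (f b * g c) else 0) ≤
      (C * K * D) * ((∑ i ∈ s j, A j i ^ (-(1 / 4 : ℝ))) * r ^ j) := by
    intro j hj
    rw [Finset.mem_Ico] at hj
    have hj1 : 1 ≤ j := by omega
    rw [Finset.sum_mul, Finset.mul_sum]
    refine Finset.sum_le_sum fun i hi => ?_
    refine (h M F hM (Xj j) (Xj_two hj1) (pr (Xj j)) (fun p hp => (mem_pr.1 hp).1) (P j i)
      (fun b c hb hc hPj => (hP j hj.1 i hi b c hb hc hPj).1) (hU j hj.1 i hi) (A j i) (hA j i)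
      (fun b c hb hc hPj => (hP j hj.1 i hi b c hb hc hPj).2) f g hf hg hf1 hg1).trans ?_
    have h1 := rpow_log_Xj hj1
    have h3 : 0 ≤ A j i ^ (-(1 / 4 : ℝ)) := Real.rpow_nonneg (by linarith [hA j i]) _
    calc C * A j i ^ (-(1 / 4 : ℝ)) * (Real.log (Xj j)) ^ (-(1 / 2 : ℝ)) * D
        ≤ C * A j i ^ (-(1 / 4 : ℝ)) * (K * r ^ j) * D :=
          mul_le_mul_of_nonneg_right (mul_le_mul_of_nonneg_left h1 (by positivity)) hD0
      _ = _ := by ring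
  refine (Finset.sum_le_sum h2).trans (le_of_eq ?_)
  rw [← Finset.mul_sum]
  ring

/-- `∑_{j ≥ j0} (j+1) (√2)^{-j} ≤ C (j0+1) (√2)^{-j0}` -/
lemma sum_succ_geo : ∃ C : ℝ, 0 < C ∧ ∀ j0 N : ℕ,
    ∑ j ∈ Finset.Ico j0 N, ((j : ℝ) + 1) * ((√2)⁻¹) ^ j ≤ C * ((j0 : ℝ) + 1) * ((√2)⁻¹) ^ j0 := by
  set r : ℝ := (√2)⁻¹ with hr
  have hs2 : 1 < √2 := by
    rw [← Real.sqrt_one]; exact Real.sqrt_lt_sqrt (by norm_num) (by norm_num)
  have hr0 : 0 < r := by positivity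
  have hr1 : r < 1 := inv_lt_one_of_one_lt₀ hs2
  have hR : 0 < (1 - r)⁻¹ := inv_pos.2 (by linarith)
  have hsum : Summable (fun k : ℕ => ((k : ℝ) + 1) * r ^ k) := by
    have h1 : Summable (fun k : ℕ => (k : ℝ) ^ 1 * r ^ k) :=
      summable_pow_mul_geometric_of_norm_lt_one 1 (by rw [Real.norm_of_nonneg hr0.le]; exact hr1)
    have h2 : Summable (fun k : ℕ => r ^ k) := summable_geometric_of_lt_one hr0.le hr1
    refine (h1.add h2).congr fun k => ?_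
    ring
  refine ⟨(∑' k : ℕ, ((k : ℝ) + 1) * r ^ k) + 1, ?_, fun j0 N => ?_⟩
  · have : 0 ≤ ∑' k : ℕ, ((k : ℝ) + 1) * r ^ k := tsum_nonneg fun k => by positivity
    linarith
  · rw [Finset.sum_Ico_eq_sum_range]
    have h1 : ∀ k ∈ Finset.range (N - j0), (((j0 + k : ℕ) : ℝ) + 1) * r ^ (j0 + k) ≤
        ((j0 : ℝ) + 1) * r ^ j0 * (((k : ℝ) + 1) * r ^ k) := by
      intro k _
      have h2 : (((j0 + k : ℕ) : ℝ) + 1) ≤ ((j0 : ℝ) + 1) * ((k : ℝ) + 1) := by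
        push_cast
        have : (0 : ℝ) ≤ (j0 : ℝ) * k := by positivity
        nlinarith
      rw [pow_add]
      have h3 : 0 ≤ r ^ j0 * r ^ k := by positivity
      calc _ ≤ ((j0 : ℝ) + 1) * ((k : ℝ) + 1) * (r ^ j0 * r ^ k) :=
            mul_le_mul_of_nonneg_right h2 h3
        _ = _ := by ring
    refine (Finset.sum_le_sum h1).trans ?_
    rw [← Finset.mul_sum]
    have h4 : ∑ k ∈ Finset.range (N - j0), ((k : ℝ) + 1) * r ^ k ≤
        ∑' k : ℕ, ((k : ℝ) + 1) * r ^ k := hsum.sum_le_tsum _ (fun k _ => by positivity)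
    have h5 : 0 ≤ ((j0 : ℝ) + 1) * r ^ j0 := by positivity
    calc ((j0 : ℝ) + 1) * r ^ j0 * ∑ k ∈ Finset.range (N - j0), ((k : ℝ) + 1) * r ^ k
        ≤ ((j0 : ℝ) + 1) * r ^ j0 * ((∑' k : ℕ, ((k : ℝ) + 1) * r ^ k) + 1) :=
          mul_le_mul_of_nonneg_left (by linarith) h5
      _ = _ := by ring

open Classical in
/-- **`j + 1` families in the block `j`** (971's `N_j`) -/
theorem np_multi_range : ∃ C : ℝ, 0 < C ∧ ∀ (M : ℕ) (F : FL M), 0 < M → ∀ j0 : ℕ, 1 ≤ j0 →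
    ∀ (P : ℕ → ℕ → ℕ → ℕ → Prop),
    (∀ j, j0 ≤ j → ∀ i ≤ j, ∀ b c, b ∣ M → c ∣ M → P j i b c → NPX F (Xj j) b c) →
    (∀ j, j0 ≤ j → ∀ i ≤ j, Uniq M (Xj j) (P j i)) →
    ∀ W : ℕ → ℕ → ℝ,
    (∀ j, j0 ≤ j → ∀ i ≤ j, ∀ b c, b ∣ M → c ∣ M → P j i b c →
      W b c ≤ bst (pr (Xj j)) M b c) →
    ∀ (f g : ℕ → ℝ), (∀ b, 0 ≤ f b) → (∀ b, 0 ≤ g b) → (∀ b, f b ≤ 1) → (∀ b, g b ≤ 1) →
    frm M (fun b c => if ∃ j, j0 ≤ j ∧ ∃ i ≤ j, P j i b c then W b c * (f b * g c) else 0) ≤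
      C * ((j0 : ℝ) + 1) * ((√2)⁻¹) ^ j0 * (√(Ex M f) * √(Ex M g)) := by
  obtain ⟨C1, hC1, h1⟩ := np_multi
  obtain ⟨C2, hC2, h2⟩ := sum_succ_geo
  refine ⟨C1 * C2, by positivity, fun M F hM j0 hj0 P hP hU W hW f g hf hg hf1 hg1 => ?_⟩
  have hD0 : 0 ≤ √(Ex M f) * √(Ex M g) := mul_nonneg (Real.sqrt_nonneg _) (Real.sqrt_nonneg _)
  have h3 := h1 M F hM j0 hj0 (ι := ℕ) (fun j => range (j + 1)) P (fun _ _ => 1)
    (fun _ _ => le_rfl)
    (fun j hj i hi b c hb hc hPj => by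
      have hi' : i ≤ j := Nat.lt_succ_iff.1 (mem_range.1 hi)
      refine ⟨hP j hj i hi' b c hb hc hPj, ?_⟩
      have e1 : 1 ≤ low (Xj j) (wd b c).1 := low_pos _ _
      have e2 : 1 ≤ low (Xj j) (wd b c).2 := low_pos _ _
      have e3 : 1 ≤ low (Xj j) (wd b c).1 * low (Xj j) (wd b c).2 := Nat.mul_pos e1 e2
      exact_mod_cast e3)
    (fun j hj i hi => hU j hj i (Nat.lt_succ_iff.1 (mem_range.1 hi))) W
    (fun j hj i hi => hW j hj i (Nat.lt_succ_iff.1 (mem_range.1 hi))) f g hf hg hf1 hg1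
  have e1 : frm M (fun b c => if ∃ j, j0 ≤ j ∧ ∃ i ≤ j, P j i b c then
      W b c * (f b * g c) else 0) =
      frm M (fun b c => if ∃ j, j0 ≤ j ∧ ∃ i ∈ range (j + 1), P j i b c then
        W b c * (f b * g c) else 0) := by
    refine frm_congr fun b c _ _ => ?_
    have : (∃ j, j0 ≤ j ∧ ∃ i ≤ j, P j i b c) ↔
        (∃ j, j0 ≤ j ∧ ∃ i ∈ range (j + 1), P j i b c) := by
      simp only [mem_range, Nat.lt_succ_iff]
    by_cases hh : ∃ j, j0 ≤ j ∧ ∃ i ≤ j, P j i b c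
    · rw [if_pos hh, if_pos (this.1 hh)]
    · rw [if_neg hh, if_neg (fun h => hh (this.2 h))]
  rw [e1]
  refine h3.trans (mul_le_mul_of_nonneg_right ?_ hD0)
  have e2 : ∑ j ∈ Finset.Ico j0 (M + 1),
      (∑ _i ∈ range (j + 1), (1 : ℝ) ^ (-(1 / 4 : ℝ))) * ((√2)⁻¹) ^ j =
      ∑ j ∈ Finset.Ico j0 (M + 1), ((j : ℝ) + 1) * ((√2)⁻¹) ^ j := by
    refine Finset.sum_congr rfl fun j _ => ?_
    rw [Real.one_rpow, Finset.sum_const, Finset.card_range, nsmul_eq_mul, mul_one]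
    push_cast
    ring
  rw [e2]
  calc C1 * ∑ j ∈ Finset.Ico j0 (M + 1), ((j : ℝ) + 1) * ((√2)⁻¹) ^ j
      ≤ C1 * (C2 * ((j0 : ℝ) + 1) * ((√2)⁻¹) ^ j0) := mul_le_mul_of_nonneg_left (h2 j0 _) hC1.le
    _ = _ := by ring

end Crest.Agent.R4C.VecNPmx946
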