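import Crest.Agent.R4C.HeavyL_50
import Crest.Agent.R4C.PureFL_232
import Crest.Agent.R4C.S2b_284

/-!
# Row 4, S3 VECTOR VERSION, pure part (note 3058, helper50)

All pure good pairs whose low differing word is a DOMINANT word (284's `Dom`; the word `(1,1)` =
Theorem C included), all scales and all thresholds together, cost `≤ 18 Σ ν f²`.

Trick: dyadic class `i` of the product of the word, cut at `2^(i+1)` independently of the scale;
then `(z, z')` has at most one dominant word of the class `i` over all scales.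
-/

set_option autoImplicit false

open Finset
open Crest.Agent.R4C.Basex935 Crest.Agent.R4C.Cutx50 Crest.Agent.R4C.HeavyLx50
  Crest.Agent.R4C.FLDefx935 Crest.Agent.R4C.PureL2x232

namespace Crest.Agent.R4C.Vecx50

lemma mul_nu_le {M b : ℕ} (hM : 0 < M) (hb : b ∣ M) : (b : ℝ) * nu M b ≤ 1 := by
  unfold nu
  have h1 : ((M / b).totient : ℝ) ≤ ((M / b : ℕ) : ℝ) := by exact_mod_cast Nat.totient_le _
  have h2 : (b : ℝ) * ((M / b : ℕ) : ℝ) = M := by
    exact_mod_cast Nat.mul_div_cancel' hb
  have hMR : (0:ℝ) < M := by exact_mod_cast hM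
  rw [mul_div_assoc', div_le_one hMR]
  calc (b:ℝ) * ((M / b).totient : ℝ) ≤ b * ((M / b : ℕ) : ℝ) :=
        mul_le_mul_of_nonneg_left h1 (by positivity)
    _ = M := h2

/-- `n a' = n' a` with `(a,a')=1`: common cofactor -/
lemma word_gcd {n n' a a' : ℕ} (ha : 0 < a) (hco : Nat.Coprime a a') (h : n * a' = n' * a) :
    Nat.gcd n n' * a = n ∧ Nat.gcd n n' * a' = n' := by
  have h1 : a ∣ n := by
    have : a ∣ n * a' := Dvd.intro_left _ h.symm
    exact hco.dvd_of_dvd_mul_right this
  obtain ⟨k, rfl⟩ := h1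
  have h2 : n' = k * a' := by
    have : a * (k * a') = a * n' := by
      calc a * (k * a') = a * k * a' := by ring
        _ = n' * a := h
        _ = a * n' := by ring
    exact (Nat.eq_of_mul_eq_mul_left ha this).symm
  subst h2
  have h3 : Nat.gcd (a * k) (k * a') = k := by
    rw [mul_comm a k, Nat.gcd_mul_left, hco.gcd_eq_one, mul_one]
  rw [h3]
  exact ⟨by ring, rfl⟩

open Classical in
/-- **low kernel**: fixed word energy, geometric mean form -/
theorem low_kernel {N : ℕ} (hN : 0 < N) {a a' : ℕ} (ha : 0 < a) (ha' : 0 < a')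
    (hco : Nat.Coprime a a') (f g : ℕ → ℝ) (hf : ∀ b, 0 ≤ f b) (hg : ∀ b, 0 ≤ g b) :
    frm N (fun n n' => if n * a' = n' * a then f n * g n' else 0) ≤
      ((a : ℝ) * a') ^ (-(1 / 2 : ℝ)) *
        (√(Ex N (fun n => f n ^ 2)) * √(Ex N (fun n => g n ^ 2))) := by
  have haR : (0 : ℝ) < a := by exact_mod_cast ha
  have haR' : (0 : ℝ) < a' := by exact_mod_cast ha'
  have haa : (0 : ℝ) < (a : ℝ) * a' := mul_pos haR haR'
  set κ : ℝ := ((a : ℝ) * a') ^ (-(1 / 2 : ℝ)) with hκ
  have hκ0 : 0 < κ := Real.rpow_pos_of_pos haa _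
  have hκ2 : κ ^ 2 = 1 / ((a : ℝ) * a') := by
    rw [hκ, ← Real.rpow_natCast, ← Real.rpow_mul haa.le]
    norm_num
    rw [Real.rpow_neg_one, mul_inv]
    ring
  set x : ℕ → ℝ := fun n => √(nu N n) * f n with hx
  set y : ℕ → ℝ := fun n => √(nu N n) * g n with hy
  have hx0 : ∀ n, 0 ≤ x n := fun n => mul_nonneg (Real.sqrt_nonneg _) (hf n)
  have hy0 : ∀ n, 0 ≤ y n := fun n => mul_nonneg (Real.sqrt_nonneg _) (hg n)
  -- termwise bound
  have h1 : ∀ n ∈ N.divisors, ∀ n' ∈ N.divisors,
      (Nat.gcd n n' : ℝ) * nu N n * nu N n' * (if n * a' = n' * a then f n * g n' else 0) ≤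
      κ * (if n * a' = n' * a then x n * y n' else 0) := by
    intro n hn n' hn'
    rw [Nat.mem_divisors] at hn hn'
    split_ifs with h
    · obtain ⟨e1, e2⟩ := word_gcd ha hco h
      set k := Nat.gcd n n' with hk
      have hν := nu_nonneg N n
      have hν' := nu_nonneg N n'
      have b1 := mul_nu_le hN hn.1
      have b2 := mul_nu_le hN hn'.1
      have e1R : (n : ℝ) = k * a := by exact_mod_cast e1.symm
      have e2R : (n' : ℝ) = k * a' := by exact_mod_cast e2.symm
      have key : (k : ℝ) * (√(nu N n) * √(nu N n')) ≤ κ := by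
        refine (pow_le_pow_iff_left₀ (by positivity) hκ0.le two_ne_zero).1 ?_
        rw [hκ2, mul_pow, mul_pow, Real.sq_sqrt hν, Real.sq_sqrt hν', le_div_iff₀ haa]
        calc (k : ℝ) ^ 2 * (nu N n * nu N n') * (a * a')
            = ((k * a) * nu N n) * ((k * a') * nu N n') := by ring
          _ = (n * nu N n) * (n' * nu N n') := by rw [e1R, e2R]
          _ ≤ 1 * 1 := by
              refine mul_le_mul b1 b2 (by positivity) zero_le_one
          _ = 1 := one_mul 1
      have s1 : nu N n = √(nu N n) * √(nu N n) := (Real.mul_self_sqrt hν).symm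
      have s2 : nu N n' = √(nu N n') * √(nu N n') := (Real.mul_self_sqrt hν').symm
      have hprod : 0 ≤ x n * y n' := mul_nonneg (hx0 n) (hy0 n')
      calc (k : ℝ) * nu N n * nu N n' * (f n * g n')
          = ((k : ℝ) * (√(nu N n) * √(nu N n'))) * (x n * y n') := by
            simp only [hx, hy]
            conv_lhs => rw [s1, s2]
            ring
        _ ≤ κ * (x n * y n') := mul_le_mul_of_nonneg_right key hprod
    · simp
  -- Cauchy–Schwarz over the pairs
  set S := (N.divisors ×ˢ N.divisors).filter (fun p => p.1 * a' = p.2 * a) with hS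
  have h2 : frm N (fun n n' => if n * a' = n' * a then f n * g n' else 0) ≤
      κ * ∑ p ∈ S, x p.1 * y p.2 := by
    unfold frm
    refine (Finset.sum_le_sum fun n hn => Finset.sum_le_sum fun n' hn' => h1 n hn n' hn').trans ?_
    rw [hS, Finset.sum_filter, Finset.sum_product, Finset.mul_sum]
    refine Finset.sum_le_sum fun n _ => ?_
    rw [Finset.mul_sum]
  refine h2.trans (mul_le_mul_of_nonneg_left ?_ hκ0.le)
  have h3 : ∑ p ∈ S, x p.1 * y p.2 ≤ √(∑ p ∈ S, x p.1 ^ 2) * √(∑ p ∈ S, y p.2 ^ 2) :=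
    Real.sum_mul_le_sqrt_mul_sqrt S (fun p => x p.1) (fun p => y p.2)
  refine h3.trans ?_
  have h4 : ∑ p ∈ S, x p.1 ^ 2 ≤ Ex N (fun n => f n ^ 2) := by
    have e : Ex N (fun n => f n ^ 2) = ∑ n ∈ N.divisors, x n ^ 2 := by
      unfold Ex
      refine Finset.sum_congr rfl fun n _ => ?_
      simp only [hx, mul_pow, Real.sq_sqrt (nu_nonneg N n)]
    rw [e]
    have hinj : Set.InjOn Prod.fst (S : Set (ℕ × ℕ)) := by
      rintro ⟨n, n1⟩ hp ⟨m, m1⟩ hq he
      simp only at he
      subst he
      rw [hS] at hp hq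
      simp only [Finset.coe_filter, Set.mem_ofPred_eq] at hp hq
      have : n1 * a = m1 * a := by rw [← hp.2, ← hq.2]
      rw [Nat.eq_of_mul_eq_mul_right ha this]
    rw [← Finset.sum_image (f := fun n => x n ^ 2) hinj]
    refine Finset.sum_le_sum_of_subset_of_nonneg ?_ fun _ _ _ => sq_nonneg _
    intro n hn
    rw [Finset.mem_image] at hn
    obtain ⟨p, hp, rfl⟩ := hn
    rw [hS, Finset.mem_filter, Finset.mem_product] at hp
    exact hp.1.1
  have h5 : ∑ p ∈ S, y p.2 ^ 2 ≤ Ex N (fun n => g n ^ 2) := by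
    have e : Ex N (fun n => g n ^ 2) = ∑ n ∈ N.divisors, y n ^ 2 := by
      unfold Ex
      refine Finset.sum_congr rfl fun n _ => ?_
      simp only [hy, mul_pow, Real.sq_sqrt (nu_nonneg N n)]
    rw [e]
    have hinj : Set.InjOn Prod.snd (S : Set (ℕ × ℕ)) := by
      rintro ⟨n, n1⟩ hp ⟨m, m1⟩ hq he
      simp only at he
      subst he
      rw [hS] at hp hq
      simp only [Finset.coe_filter, Set.mem_ofPred_eq] at hp hq
      have : n * a' = m * a' := by rw [hp.2, hq.2]
      rw [Nat.eq_of_mul_eq_mul_right ha' this]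
    rw [← Finset.sum_image (f := fun n => y n ^ 2) hinj]
    refine Finset.sum_le_sum_of_subset_of_nonneg ?_ fun _ _ _ => sq_nonneg _
    intro n hn
    rw [Finset.mem_image] at hn
    obtain ⟨p, hp, rfl⟩ := hn
    rw [hS, Finset.mem_filter, Finset.mem_product] at hp
    exact hp.1.2
  exact mul_le_mul (Real.sqrt_le_sqrt h4) (Real.sqrt_le_sqrt h5) (Real.sqrt_nonneg _)
    (Real.sqrt_nonneg _)

/-- the word condition for the class `W` at the cut `y` -/
def WordC (w : ℕ → ℕ → ℕ × ℕ) (W : ℝ) (z z' : ℕ) : Prop :=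
  0 < (w z z').1 ∧ 0 < (w z z').2 ∧ Nat.Coprime (w z z').1 (w z z').2 ∧
    W ≤ ((w z z').1 : ℝ) * (w z z').2

open Classical in
/-- **one class**: cut `y`, words of product `≥ W` that are a function of the upper parts -/
theorem vec_class {M : ℕ} (hM : 0 < M) (F : FL M) (y : ℕ) {W : ℝ} (hW : 0 < W)
    (w : ℕ → ℕ → ℕ × ℕ) (R : ℕ → ℕ → Prop)
    (hR : ∀ b c, b ∣ M → c ∣ M → R b c →
      (upp y b = upp y c ∨ PureG (hiFL hM y F) (upp y b) (upp y c)) ∧
      WordC w W (upp y b) (upp y c) ∧
      low y b * (w (upp y b) (upp y c)).2 = low y c * (w (upp y b) (upp y c)).1)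
    (f : ℕ → ℝ) (hf : ∀ b, 0 ≤ f b) :
    frm M (fun b c => if R b c then f b * f c else 0) ≤
      5 * W ^ (-(1 / 2 : ℝ)) * Ex M (fun b => f b ^ 2) := by
  set κ := W ^ (-(1 / 2 : ℝ)) with hκ
  have hκ0 : 0 < κ := Real.rpow_pos_of_pos hW _
  set V : ℕ → ℝ := fun z => mass M (fun b => f b ^ 2) y z with hV
  have hV0 : ∀ z, 0 ≤ V z := fun z => mass_nonneg _ (fun b => sq_nonneg _) _ _
  set h : ℕ → ℝ := fun z => √(V z) with hh
  have hh0 : ∀ z, 0 ≤ h z := fun z => Real.sqrt_nonneg _
  rw [frm_low_upp hM y]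
  have key : ∀ z ∈ (upp y M).divisors, ∀ z' ∈ (upp y M).divisors,
      (Nat.gcd z z' : ℝ) * nu (upp y M) z * nu (upp y M) z' *
        frm (low y M) (fun n n' => if R (n * z) (n' * z') then f (n * z) * f (n' * z') else 0) ≤
      κ * ((Nat.gcd z z' : ℝ) * nu (upp y M) z * nu (upp y M) z' *
        (if PureG (hiFL hM y F) z z' then h z * h z' else 0)) +
      κ * ((Nat.gcd z z' : ℝ) * nu (upp y M) z * nu (upp y M) z' *
        (if z = z' then h z * h z' else 0)) := by
    intro z hz z' hz'
    rw [Nat.mem_divisors] at hz hz'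
    have hw0 : 0 ≤ (Nat.gcd z z' : ℝ) * nu (upp y M) z * nu (upp y M) z' :=
      mul_nonneg (mul_nonneg (Nat.cast_nonneg _) (nu_nonneg _ _)) (nu_nonneg _ _)
    have hsum0 : 0 ≤ (if PureG (hiFL hM y F) z z' then h z * h z' else 0) := by
      split_ifs
      · exact mul_nonneg (hh0 _) (hh0 _)
      · exact le_rfl
    have hsum1 : 0 ≤ (if z = z' then h z * h z' else 0) := by
      split_ifs
      · exact mul_nonneg (hh0 _) (hh0 _)
      · exact le_rfl
    have hupp : ∀ n, n ∣ low y M → upp y (n * z) = z := fun n hn => upp_of_mul hn hz.1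
    have hupp' : ∀ n, n ∣ low y M → upp y (n * z') = z' := fun n hn => upp_of_mul hn hz'.1
    have hlow : ∀ n, n ∣ low y M → low y (n * z) = n := fun n hn => low_of_mul hn hz.1
    have hlow' : ∀ n, n ∣ low y M → low y (n * z') = n := fun n hn => low_of_mul hn hz'.1
    have hdv : ∀ n, n ∣ low y M → n * z ∣ M := fun n hn => by
      have := Nat.mul_dvd_mul hn hz.1
      rwa [low_mul_upp y hM.ne'] at this
    have hdv' : ∀ n, n ∣ low y M → n * z' ∣ M := fun n hn => by
      have := Nat.mul_dvd_mul hn hz'.1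
      rwa [low_mul_upp y hM.ne'] at this
    have main : frm (low y M) (fun n n' => if R (n * z) (n' * z') then
        f (n * z) * f (n' * z') else 0) ≤
        κ * ((if PureG (hiFL hM y F) z z' then h z * h z' else 0) +
          (if z = z' then h z * h z' else 0)) := by
      by_cases hc : (z = z' ∨ PureG (hiFL hM y F) z z') ∧ WordC w W z z'
      · obtain ⟨hc1, hc2, hc3, hc4, hc5⟩ := hc
        have m1 : frm (low y M) (fun n n' => if R (n * z) (n' * z') then
            f (n * z) * f (n' * z') else 0) ≤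
            frm (low y M) (fun n n' => if n * (w z z').2 = n' * (w z z').1 then
              f (n * z) * f (n' * z') else 0) := by
          refine HeavyLx50.frm_mono fun n n' hn hn' => ?_
          by_cases hr : R (n * z) (n' * z')
          · have h3 := (hR _ _ (hdv n hn) (hdv' n' hn') hr).2.2
            rw [hupp n hn, hupp' n' hn', hlow n hn, hlow' n' hn'] at h3
            rw [if_pos hr, if_pos h3]
          · rw [if_neg hr]
            split_ifs
            · exact mul_nonneg (hf _) (hf _)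
            · exact le_rfl
        have m2 := low_kernel (low_pos y M) hc2 hc3 hc4 (fun n => f (n * z))
          (fun n => f (n * z')) (fun _ => hf _) (fun _ => hf _)
        have m3 : (((w z z').1 : ℝ) * (w z z').2) ^ (-(1 / 2 : ℝ)) ≤ κ :=
          Real.rpow_le_rpow_of_nonpos hW hc5 (by norm_num)
        have m4 : h z * h z' ≤ (if PureG (hiFL hM y F) z z' then h z * h z' else 0) +
            (if z = z' then h z * h z' else 0) := by
          rcases hc1 with h6 | h6
          · rw [if_pos h6]; linarith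
          · rw [if_pos h6]; linarith
        calc frm (low y M) (fun n n' => if R (n * z) (n' * z') then
            f (n * z) * f (n' * z') else 0)
            ≤ (((w z z').1 : ℝ) * (w z z').2) ^ (-(1 / 2 : ℝ)) * (h z * h z') := m1.trans m2
          _ ≤ κ * (h z * h z') :=
              mul_le_mul_of_nonneg_right m3 (mul_nonneg (hh0 _) (hh0 _))
          _ ≤ _ := mul_le_mul_of_nonneg_left m4 hκ0.le
      · have m1 : frm (low y M) (fun n n' => if R (n * z) (n' * z') then
            f (n * z) * f (n' * z') else 0) ≤ frm (low y M) (fun _ _ => 0) := by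
          refine HeavyLx50.frm_mono fun n n' hn hn' => ?_
          by_cases hr : R (n * z) (n' * z')
          · exfalso
            have h3 := hR _ _ (hdv n hn) (hdv' n' hn') hr
            rw [hupp n hn, hupp' n' hn'] at h3
            exact hc ⟨h3.1, h3.2.1⟩
          · rw [if_neg hr]
        have m2 : frm (low y M) (fun _ _ => (0 : ℝ)) = 0 := by
          unfold frm; simp
        rw [m2] at m1
        exact m1.trans (mul_nonneg hκ0.le (add_nonneg hsum0 hsum1))
    calc (Nat.gcd z z' : ℝ) * nu (upp y M) z * nu (upp y M) z' *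
          frm (low y M) (fun n n' => if R (n * z) (n' * z') then f (n * z) * f (n' * z') else 0)
        ≤ ((Nat.gcd z z' : ℝ) * nu (upp y M) z * nu (upp y M) z') *
          (κ * ((if PureG (hiFL hM y F) z z' then h z * h z' else 0) +
          (if z = z' then h z * h z' else 0))) := mul_le_mul_of_nonneg_left main hw0
      _ = _ := by ring
  refine (Finset.sum_le_sum fun z hz => Finset.sum_le_sum fun z' hz' => key z hz z' hz').trans ?_
  simp only [Finset.sum_add_distrib, ← Finset.mul_sum]
  have hEx : Ex M (fun b => f b ^ 2) = ∑ z ∈ (upp y M).divisors, nu (upp y M) z * h z ^ 2 := by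
    rw [Ex_cut hM y]
    unfold Ex
    refine Finset.sum_congr rfl fun z _ => ?_
    simp only [hh, Real.sq_sqrt (hV0 z)]
    rfl
  have p1 : ∑ z ∈ (upp y M).divisors, ∑ z' ∈ (upp y M).divisors,
      (Nat.gcd z z' : ℝ) * nu (upp y M) z * nu (upp y M) z' *
        (if PureG (hiFL hM y F) z z' then h z * h z' else 0) ≤
      4 * Ex M (fun b => f b ^ 2) := by
    rw [hEx]
    exact pureFL_energy' (upp_pos y M) (hiFL hM y F) h hh0
  have p2 : ∑ z ∈ (upp y M).divisors, ∑ z' ∈ (upp y M).divisors,
      (Nat.gcd z z' : ℝ) * nu (upp y M) z * nu (upp y M) z' *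
        (if z = z' then h z * h z' else 0) ≤ Ex M (fun b => f b ^ 2) := by
    rw [hEx]
    refine Finset.sum_le_sum fun z hz => ?_
    rw [Finset.sum_eq_single z]
    · rw [if_pos rfl, Nat.gcd_self]
      have h1 := mul_nu_le (upp_pos y M) (Nat.dvd_of_mem_divisors hz)
      have h2 := nu_nonneg (upp y M) z
      have h3 : 0 ≤ nu (upp y M) z * h z ^ 2 := mul_nonneg h2 (sq_nonneg _)
      calc (z : ℝ) * nu (upp y M) z * nu (upp y M) z * (h z * h z)
          = ((z : ℝ) * nu (upp y M) z) * (nu (upp y M) z * h z ^ 2) := by ring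
        _ ≤ 1 * (nu (upp y M) z * h z ^ 2) := mul_le_mul_of_nonneg_right h1 h3
        _ = _ := one_mul _
    · intro z' _ hne
      rw [if_neg (Ne.symm hne), mul_zero]
    · intro hc
      exact absurd hz hc
  have := mul_le_mul_of_nonneg_left (add_le_add p1 p2) hκ0.le
  calc κ * _ + κ * _ = κ * (_ + _) := (mul_add _ _ _).symm
    _ ≤ κ * (4 * Ex M (fun b => f b ^ 2) + Ex M (fun b => f b ^ 2)) := this
    _ = _ := by ring

end Crest.Agent.R4C.Vecx50
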