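import Crest.Agent.R4C.WorldSum_50
import Crest.Agent.R4C.VDef_24

/-!
# Row 4, GW section, vector case: both orders of changer / partner, all scales, all cores (helper50)

Over the literal definitions of `VDef_24` (`gn` of `HDx529`, `kap2`):
* `kap2_le`    : the kernel of both orders is the sum of the kernels of the two graphs;
* `core2_bd`   : two-parameter bound of one core, all scales `s ∈ Os`;
* `vbd2`       : `VBd` of all cores, kernel `kk F (kw2 ..)`, densities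
  `X2 = 2 (Y3 + kapV)` on the words of the zone (both sides);
* `total2`     : the total of one class, with windows (`≤ m` scales for each number).
-/

set_option autoImplicit false

open Finset
open Crest.Agent.R4C.Basex935 Crest.Agent.R4C.Cutx50 Crest.Agent.R4C.FLDefx935
open Crest.Agent.R4C.PureClsx863 Crest.Agent.R4C.GWrelx8 Crest.Agent.R4C.GWrelLayx252
open Crest.Agent.R4C.GWcorex482 Crest.Agent.R4C.GWdefx982 Crest.Agent.R4C.WorldSumx50
open Crest.Agent.R4C.HDx529 (Y3 kapV gn)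
open Crest.Agent.R4C.VDefx24 (kap2)
open Crest.Agent.R4C.BoostRx398 (bst)

namespace Crest.Agent.R4C.WorldSum2x50

lemma Wp_le_one {Z : World} (a b w : ℕ) : Z.Wp a b w ≤ 1 := by
  classical
  unfold World.Wp
  refine Finset.prod_le_one (fun p hp => ?_) fun p hp => ?_
  · have hp1 : (1 : ℝ) ≤ p := by
      have h := (Finset.mem_filter.1 hp).1
      exact_mod_cast (Nat.prime_of_mem_primeFactors (PrefixMx882.mem_free.1 h).1).one_lt.le
    have : 1 / (p : ℝ) ≤ 1 := by rw [div_le_one (by linarith)]; exact hp1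
    linarith
  · have : 0 ≤ 1 / (p : ℝ) := by positivity
    linarith

lemma Y3_nonneg {Z : World} (z : Node) (w : ℕ) : 0 ≤ Y3 Z z w := by
  unfold Y3
  split_ifs
  · have := Wp_le_one (Z := Z) (Z.cut (Z.pz z)) (Z.cut (Z.nb (Z.nb z.1 w) w)) w
    linarith
  · exact zero_le_one

lemma kapV_nonneg {Z : World} {KV : ℝ} (h : 0 ≤ KV) (z : Node) : 0 ≤ kapV Z KV z :=
  le_min zero_le_one (div_nonneg h (by positivity))

lemma g_nonneg (Z : World) (ν : Node) : 0 ≤ Z.g ν := nu_nonneg _ _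

lemma kap2_nonneg (Z : World) (R : Node → Node → Prop) (z z' : Node) (w w' : ℕ) :
    0 ≤ kap2 Z R z z' w w' := by
  classical
  unfold kap2
  refine Finset.sum_nonneg fun ν _ => Finset.sum_nonneg fun ν' _ => ?_
  split_ifs
  · exact div_nonneg zero_le_one (g_nonneg _ _)
  · exact le_rfl

/-- the kernel of both orders is at most the sum of the kernels of the two graphs -/
lemma kap2_le {Z : World} {R : Node → Node → Prop} {z z' : Node} (w w' : ℕ)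
    (hgR : ∀ n ∈ Z.Nd z, ∀ n' ∈ Z.Nd z', R n n' → Z.g n = Z.g n') (KV : ℝ) :
    kap2 Z R z z' w w' ≤
      (∑ n ∈ (gn Z R KV).Nd z, ∑ n' ∈ (gn Z R KV).Out z n z',
        (open Classical in if w ∈ (gn Z R KV).A z n ∧ w' ∈ (gn Z R KV).S z' n' then
          1 / |(gn Z R KV).g n| else 0)) +
      ∑ n' ∈ (gn Z (fun ν ν' => R ν' ν) KV).Nd z',
        ∑ n ∈ (gn Z (fun ν ν' => R ν' ν) KV).Out z' n' z,
        (open Classical in if w' ∈ (gn Z (fun ν ν' => R ν' ν) KV).A z' n' ∧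
          w ∈ (gn Z (fun ν ν' => R ν' ν) KV).S z n then
          1 / |(gn Z (fun ν ν' => R ν' ν) KV).g n'| else 0) := by
  classical
  have e1 : (∑ n ∈ (gn Z R KV).Nd z, ∑ n' ∈ (gn Z R KV).Out z n z',
        (if w ∈ (gn Z R KV).A z n ∧ w' ∈ (gn Z R KV).S z' n' then
          1 / |(gn Z R KV).g n| else 0)) =
      ∑ n ∈ Z.Nd z, ∑ n' ∈ Z.Nd z', if R n n' then
        (if w ∈ Z.A z n ∧ w' ∈ Z.S n' then 1 / Z.g n else 0) else 0 := by
    refine Finset.sum_congr rfl fun n _ => ?_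
    unfold GN.Out
    rw [Finset.sum_filter]
    refine Finset.sum_congr rfl fun n' _ => ?_
    show (if R n n' then (if w ∈ Z.A z n ∧ w' ∈ Z.S n' then 1 / |Z.g n| else 0) else 0) = _
    rw [abs_of_nonneg (g_nonneg Z n)]
  have e2 : (∑ n' ∈ (gn Z (fun ν ν' => R ν' ν) KV).Nd z',
        ∑ n ∈ (gn Z (fun ν ν' => R ν' ν) KV).Out z' n' z,
        (if w' ∈ (gn Z (fun ν ν' => R ν' ν) KV).A z' n' ∧
          w ∈ (gn Z (fun ν ν' => R ν' ν) KV).S z n then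
          1 / |(gn Z (fun ν ν' => R ν' ν) KV).g n'| else 0)) =
      ∑ n ∈ Z.Nd z, ∑ n' ∈ Z.Nd z', if R n n' then
        (if w' ∈ Z.A z' n' ∧ w ∈ Z.S n then 1 / Z.g n' else 0) else 0 := by
    rw [Finset.sum_comm (s := Z.Nd z)]
    refine Finset.sum_congr rfl fun n' _ => ?_
    unfold GN.Out
    rw [Finset.sum_filter]
    refine Finset.sum_congr rfl fun n _ => ?_
    show (if R n n' then (if w' ∈ Z.A z' n' ∧ w ∈ Z.S n then 1 / |Z.g n'| else 0) else 0) = _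
    rw [abs_of_nonneg (g_nonneg Z n')]
  rw [e1, e2, ← Finset.sum_add_distrib]
  unfold kap2
  refine Finset.sum_le_sum fun n hn => ?_
  rw [← Finset.sum_add_distrib]
  refine Finset.sum_le_sum fun n' hn' => ?_
  have hp : 0 ≤ 1 / Z.g n := div_nonneg zero_le_one (g_nonneg _ _)
  have hp' : 0 ≤ 1 / Z.g n' := div_nonneg zero_le_one (g_nonneg _ _)
  by_cases hR : R n n'
  · rw [if_pos hR, if_pos hR]
    by_cases h1 : w ∈ Z.A z n ∧ w' ∈ Z.S n'
    · rw [if_pos (show R n n' ∧ ((w ∈ Z.A z n ∧ w' ∈ Z.S n') ∨ (w ∈ Z.S n ∧ w' ∈ Z.A z' n')) from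
        ⟨hR, Or.inl h1⟩), if_pos h1]
      have : 0 ≤ (if w' ∈ Z.A z' n' ∧ w ∈ Z.S n then 1 / Z.g n' else 0) := by
        split_ifs
        · exact hp'
        · exact le_rfl
      linarith
    · by_cases h2 : w ∈ Z.S n ∧ w' ∈ Z.A z' n'
      · rw [if_pos (show R n n' ∧ ((w ∈ Z.A z n ∧ w' ∈ Z.S n') ∨ (w ∈ Z.S n ∧ w' ∈ Z.A z' n'))
          from ⟨hR, Or.inr h2⟩), if_neg h1, if_pos ⟨h2.2, h2.1⟩, zero_add, hgR n hn n' hn' hR]
      · rw [if_neg (fun h => h.2.elim h1 h2), if_neg h1, if_neg (fun h => h2 ⟨h.2, h.1⟩)]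
        simp
  · rw [if_neg (fun h => hR h.1), if_neg hR, if_neg hR, add_zero]

/-! ### zones, kernel, densities of a core -/

/-- zones of the core `G0` at all scales -/
noncomputable def Zo2 (Os : Finset ℕ) (Zw : ℕ → ℕ → World) (G0 : ℕ) : Finset (Σ _ : ℕ, Node) :=
  Os.sigma fun s => (Zw s G0).Zs

/-- kernel of a pair of zones of the core `G0` -/
noncomputable def kw2 (Zw : ℕ → ℕ → World) (R : ℕ → ℕ → Node → Node → Prop) (G0 : ℕ)
    (i j : Σ _ : ℕ, Node) (w w' : ℕ) : ℝ :=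
  if i.1 = j.1 then kap2 (Zw i.1 G0) (R i.1 G0) i.2 j.2 w w' else 0

open Classical in
/-- density of a zone -/
noncomputable def X2 (Zw : ℕ → ℕ → World) (KV : ℝ) (G0 : ℕ) (i : Σ _ : ℕ, Node) (w : ℕ) : ℝ :=
  if w ∈ ((Zw i.1 G0).Nd i.2).biUnion (Zw i.1 G0).S then
    2 * (Y3 (Zw i.1 G0) i.2 w + kapV (Zw i.1 G0) KV i.2) else 0

lemma kw2_nonneg (Zw : ℕ → ℕ → World) (R : ℕ → ℕ → Node → Node → Prop) (G0 : ℕ)
    (i j : Σ _ : ℕ, Node) (w w' : ℕ) : 0 ≤ kw2 Zw R G0 i j w w' := by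
  unfold kw2
  split_ifs
  · exact kap2_nonneg _ _ _ _ _ _
  · exact le_rfl

lemma X2_nonneg (Zw : ℕ → ℕ → World) {KV : ℝ} (h : 0 ≤ KV) (G0 : ℕ) (i : Σ _ : ℕ, Node) (w : ℕ) :
    0 ≤ X2 Zw KV G0 i w := by
  unfold X2
  split_ifs
  · have h1 := Y3_nonneg (Z := Zw i.1 G0) i.2 w
    have h2 := kapV_nonneg (Z := Zw i.1 G0) h i.2
    linarith
  · exact le_rfl

open Classical in
/-- the loss of the changers is at most the density of the zone -/
lemma chg_le {Z : World} (hZ : Z.Ok) (z : Node) (w : ℕ) {t : ℝ} (ht : 0 ≤ t) :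
    ∑ n ∈ Z.Nd z, (if w ∈ Z.A z n then t else 0) ≤
      if w ∈ (Z.Nd z).biUnion Z.S then t else 0 := by
  by_cases hex : ∃ n ∈ Z.Nd z, w ∈ Z.A z n
  · obtain ⟨n, hn, hw⟩ := hex
    have hS : w ∈ (Z.Nd z).biUnion Z.S :=
      Finset.mem_biUnion.2 ⟨n, hn, GWnodex863.A_sub z n hw⟩
    rw [if_pos hS, Finset.sum_eq_single n]
    · rw [if_pos hw]
    · intro n' hn' hne
      rw [if_neg]
      intro hw'
      have := GWnodex863.A_disj hZ z n' hn' n hn hne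
      exact (Finset.disjoint_left.1 this) hw' hw
    · intro h; exact absurd hn h
  · rw [Finset.sum_eq_zero]
    · split_ifs
      · exact ht
      · exact le_rfl
    · intro n hn
      rw [if_neg fun h => hex ⟨n, hn, h⟩]

/-- **one core, both orders, all scales** -/
theorem core2_bd (Zw : ℕ → ℕ → World) (R : ℕ → ℕ → Node → Node → Prop) {KV : ℝ} (hKV : 0 ≤ KV)
    (Os : Finset ℕ) (G0 Nn : ℕ) (hZ : ∀ s ∈ Os, (Zw s G0).Ok) {C1 Δ : ℝ} {k : ℕ} (hC1 : 0 ≤ C1)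
    (hok1 : ∀ s ∈ Os, (gn (Zw s G0) (R s G0) KV).Ok (fun _ => nu Nn) (fun _ => nu Nn) C1 Δ)
    (hok2 : ∀ s ∈ Os, (gn (Zw s G0) (fun ν ν' => R s G0 ν' ν) KV).Ok
      (fun _ => nu Nn) (fun _ => nu Nn) C1 Δ)
    (hk : C1 * Δ ≤ 2 ^ k) (S S' : (Σ _ : ℕ, Node) → Finset ℕ) {l : ℝ} (hl : 0 < l) :
    ∑ i ∈ Zo2 Os Zw G0, ∑ j ∈ Zo2 Os Zw G0, ∑ w ∈ S i, ∑ w' ∈ S' j,
        nu Nn w * nu Nn w' * kw2 Zw R G0 i j w w' ≤
      (2 * C1 + 4) * (1 / l * (∑ i ∈ Zo2 Os Zw G0, ∑ w ∈ S i, nu Nn w * X2 Zw KV G0 i w) +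
        l * (k + 4 : ℝ) * ∑ j ∈ Zo2 Os Zw G0, ∑ w' ∈ S' j, nu Nn w' * X2 Zw KV G0 j w') := by
  classical
  set Ga : ℕ → ℕ → GN Node Node ℕ := fun s G => gn (Zw s G) (R s G) KV with hGa
  set Gb : ℕ → ℕ → GN Node Node ℕ := fun s G => gn (Zw s G) (fun ν ν' => R s G ν' ν) KV with hGb
  have hD : (0 : ℝ) < k + 4 := by positivity
  have h1 := core_bd Ga Os G0 Nn hok1 hk S S' hl
  have h2 := core_bd Gb Os G0 Nn hok2 hk S' S (l := 1 / (l * (k + 4))) (by positivity)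
  have hZa : Zo Os Ga G0 = Zo2 Os Zw G0 := rfl
  have hZb : Zo Os Gb G0 = Zo2 Os Zw G0 := rfl
  rw [hZa] at h1
  rw [hZb] at h2
  have hker : ∀ i ∈ Zo2 Os Zw G0, ∀ j ∈ Zo2 Os Zw G0, ∀ w w', kw2 Zw R G0 i j w w' ≤
      kw Ga G0 i j w w' + kw Gb G0 j i w' w := by
    rintro ⟨s, z⟩ hi ⟨s', z'⟩ hj w w'
    obtain ⟨hs, hz⟩ := Finset.mem_sigma.1 hi
    obtain ⟨hs', hz'⟩ := Finset.mem_sigma.1 hj
    unfold kw2
    by_cases h : s = s'
    · subst h
      rw [if_pos rfl]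
      refine (kap2_le (R := R s G0) w w'
        (fun n hn n' hn' hR => (hok1 s hs).gR z hz n hn z' hz' n' hn' hR)
        KV).trans (le_of_eq ?_)
      unfold kw
      rw [if_pos rfl, if_pos rfl]
    · rw [if_neg h]
      exact add_nonneg (kw_nonneg _ _ _ _ _ _) (kw_nonneg _ _ _ _ _ _)
  have e1 : ∑ i ∈ Zo2 Os Zw G0, ∑ j ∈ Zo2 Os Zw G0, ∑ w ∈ S i, ∑ w' ∈ S' j,
        nu Nn w * nu Nn w' * kw2 Zw R G0 i j w w' ≤
      (∑ i ∈ Zo2 Os Zw G0, ∑ j ∈ Zo2 Os Zw G0, ∑ w ∈ S i, ∑ w' ∈ S' j,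
        nu Nn w * nu Nn w' * kw Ga G0 i j w w') +
      ∑ i ∈ Zo2 Os Zw G0, ∑ j ∈ Zo2 Os Zw G0, ∑ w ∈ S' i, ∑ w' ∈ S j,
        nu Nn w * nu Nn w' * kw Gb G0 i j w w' := by
    have e3 : ∑ i ∈ Zo2 Os Zw G0, ∑ j ∈ Zo2 Os Zw G0, ∑ w ∈ S' i, ∑ w' ∈ S j,
        nu Nn w * nu Nn w' * kw Gb G0 i j w w' =
        ∑ i ∈ Zo2 Os Zw G0, ∑ j ∈ Zo2 Os Zw G0, ∑ w ∈ S i, ∑ w' ∈ S' j,
          nu Nn w * nu Nn w' * kw Gb G0 j i w' w := by
      rw [Finset.sum_comm]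
      refine Finset.sum_congr rfl fun i _ => Finset.sum_congr rfl fun j _ => ?_
      rw [Finset.sum_comm]
      refine Finset.sum_congr rfl fun w _ => Finset.sum_congr rfl fun w' _ => ?_
      ring
    rw [e3, ← Finset.sum_add_distrib]
    refine Finset.sum_le_sum fun i hi => ?_
    rw [← Finset.sum_add_distrib]
    refine Finset.sum_le_sum fun j hj => ?_
    rw [← Finset.sum_add_distrib]
    refine Finset.sum_le_sum fun w _ => ?_
    rw [← Finset.sum_add_distrib]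
    refine Finset.sum_le_sum fun w' _ => ?_
    rw [← mul_add]
    exact mul_le_mul_of_nonneg_left (hker i hi j hj w w')
      (mul_nonneg (nu_nonneg _ _) (nu_nonneg _ _))
  -- densities
  have hX : ∀ i ∈ Zo2 Os Zw G0, ∀ w, XL Ga G0 i w + XR Gb G0 i w ≤ X2 Zw KV G0 i w ∧
      XL Gb G0 i w + XR Ga G0 i w ≤ X2 Zw KV G0 i w := by
    rintro ⟨s, z⟩ hi w
    obtain ⟨hs, hz⟩ := Finset.mem_sigma.1 hi
    have ht : 0 ≤ Y3 (Zw s G0) z w + kapV (Zw s G0) KV z :=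
      add_nonneg (Y3_nonneg _ _) (kapV_nonneg hKV _)
    have hc := chg_le (hZ s hs) z w ht
    have a1 : XL Ga G0 ⟨s, z⟩ w = ∑ n ∈ (Zw s G0).Nd z, (if w ∈ (Zw s G0).A z n then
        Y3 (Zw s G0) z w + kapV (Zw s G0) KV z else 0) := by
      unfold XL; rfl
    have a2 : XL Gb G0 ⟨s, z⟩ w = ∑ n ∈ (Zw s G0).Nd z, (if w ∈ (Zw s G0).A z n then
        Y3 (Zw s G0) z w + kapV (Zw s G0) KV z else 0) := by
      unfold XL; rfl
    have a3 : XR Ga G0 ⟨s, z⟩ w = if w ∈ ((Zw s G0).Nd z).biUnion (Zw s G0).S then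
        Y3 (Zw s G0) z w + kapV (Zw s G0) KV z else 0 := by
      unfold XR
      congr
    have a4 : XR Gb G0 ⟨s, z⟩ w = if w ∈ ((Zw s G0).Nd z).biUnion (Zw s G0).S then
        Y3 (Zw s G0) z w + kapV (Zw s G0) KV z else 0 := by
      unfold XR
      congr
    have a5 : X2 Zw KV G0 ⟨s, z⟩ w = if w ∈ ((Zw s G0).Nd z).biUnion (Zw s G0).S then
        2 * (Y3 (Zw s G0) z w + kapV (Zw s G0) KV z) else 0 := by
      unfold X2
      congr
    rw [a1, a2, a3, a4, a5]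
    have hd : (if w ∈ ((Zw s G0).Nd z).biUnion (Zw s G0).S then
        Y3 (Zw s G0) z w + kapV (Zw s G0) KV z else 0) +
        (if w ∈ ((Zw s G0).Nd z).biUnion (Zw s G0).S then
        Y3 (Zw s G0) z w + kapV (Zw s G0) KV z else 0) =
        if w ∈ ((Zw s G0).Nd z).biUnion (Zw s G0).S then
        2 * (Y3 (Zw s G0) z w + kapV (Zw s G0) KV z) else 0 := by
      split_ifs <;> ring
    rw [← hd]
    exact ⟨by linarith, by linarith⟩
  refine e1.trans ((add_le_add h1 h2).trans ?_)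
  have h3 : ∑ i ∈ Zo2 Os Zw G0, ∑ w ∈ S i, nu Nn w * XL Ga G0 i w +
      ∑ i ∈ Zo2 Os Zw G0, ∑ w ∈ S i, nu Nn w * XR Gb G0 i w ≤
      ∑ i ∈ Zo2 Os Zw G0, ∑ w ∈ S i, nu Nn w * X2 Zw KV G0 i w := by
    rw [← Finset.sum_add_distrib]
    refine Finset.sum_le_sum fun i hi => ?_
    rw [← Finset.sum_add_distrib]
    refine Finset.sum_le_sum fun w _ => ?_
    rw [← mul_add]
    exact mul_le_mul_of_nonneg_left (hX i hi w).1 (nu_nonneg _ _)
  have h4 : ∑ i ∈ Zo2 Os Zw G0, ∑ w ∈ S' i, nu Nn w * XL Gb G0 i w +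
      ∑ i ∈ Zo2 Os Zw G0, ∑ w ∈ S' i, nu Nn w * XR Ga G0 i w ≤
      ∑ i ∈ Zo2 Os Zw G0, ∑ w ∈ S' i, nu Nn w * X2 Zw KV G0 i w := by
    rw [← Finset.sum_add_distrib]
    refine Finset.sum_le_sum fun i hi => ?_
    rw [← Finset.sum_add_distrib]
    refine Finset.sum_le_sum fun w _ => ?_
    rw [← mul_add]
    exact mul_le_mul_of_nonneg_left (hX i hi w).2 (nu_nonneg _ _)
  have hc : 0 ≤ 2 * C1 + 4 := by linarith
  have e6 : 1 / (1 / (l * (k + 4 : ℝ))) = l * (k + 4) := by rw [one_div_one_div]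
  have e7 : 1 / (l * (k + 4 : ℝ)) * (k + 4) = 1 / l := by
    field_simp
  rw [e6, e7]
  have h5 := mul_le_mul_of_nonneg_left h3 (show (0 : ℝ) ≤ (2 * C1 + 4) * (1 / l) by positivity)
  have h6 := mul_le_mul_of_nonneg_left h4
    (show (0 : ℝ) ≤ (2 * C1 + 4) * (l * (k + 4)) by positivity)
  calc _ = (2 * C1 + 4) * (1 / l) * (∑ i ∈ Zo2 Os Zw G0, ∑ w ∈ S i, nu Nn w * XL Ga G0 i w +
      ∑ i ∈ Zo2 Os Zw G0, ∑ w ∈ S i, nu Nn w * XR Gb G0 i w) +
      (2 * C1 + 4) * (l * (k + 4)) * (∑ i ∈ Zo2 Os Zw G0, ∑ w ∈ S' i, nu Nn w * XL Gb G0 i w +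
      ∑ i ∈ Zo2 Os Zw G0, ∑ w ∈ S' i, nu Nn w * XR Ga G0 i w) := by ring
    _ ≤ _ := add_le_add h5 h6
    _ = _ := by ring

variable {M : ℕ} {F : FL M}

/-- **both orders, all scales, all cores, in 252's form** -/
theorem vbd2 (hM : 0 < M) (Zw : ℕ → ℕ → World) (R : ℕ → ℕ → Node → Node → Prop) {KV : ℝ}
    (hKV : 0 ≤ KV) (Os : Finset ℕ) (hZ : ∀ s ∈ Os, ∀ G0 ∈ cores F, (Zw s G0).Ok) {C1 Δ : ℝ} {k : ℕ}
    (hC1 : 0 ≤ C1)
    (hok1 : ∀ s ∈ Os, ∀ G0 ∈ cores F, (gn (Zw s G0) (R s G0) KV).Ok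
      (fun _ => nu (PM F G0)) (fun _ => nu (PM F G0)) C1 Δ)
    (hok2 : ∀ s ∈ Os, ∀ G0 ∈ cores F, (gn (Zw s G0) (fun ν ν' => R s G0 ν' ν) KV).Ok
      (fun _ => nu (PM F G0)) (fun _ => nu (PM F G0)) C1 Δ)
    (hk : C1 * Δ ≤ 2 ^ k) :
    VBd M ((cores F).sigma (Zo2 Os Zw)) ((cores F).sigma (Zo2 Os Zw)) (kk F (kw2 Zw R))
      (2 * C1 + 4) (k + 4 : ℝ) (XX F (X2 Zw KV)) (XX F (X2 Zw KV)) :=
  vbd_of_cores hM fun G0 hG0 S S' _ _ _ hl =>
    core2_bd Zw R hKV Os G0 (PM F G0) (fun s hs => hZ s hs G0 hG0) hC1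
      (fun s hs => hok1 s hs G0 hG0) (fun s hs => hok2 s hs G0 hG0) hk S S' hl

open Classical in
/-- the budget of a number over all scales and zones -/
lemma bud2 (Zw : ℕ → ℕ → World) {KV : ℝ} (hM : 0 < M) (Os : Finset ℕ)
    (W : ℕ → ℕ → Node → ℕ → ℝ) (wn : ℕ → ℕ → Prop) {m : ℕ} {T : ℝ} (hT0 : 0 ≤ T) {x b : ℕ}
    (hx : x ∣ M) (hwn : (Os.filter fun s => wn s b).card ≤ m)
    (hT : ∀ s ∈ Os, wn s b → ∑ z ∈ (Zw s (core F x)).Zs.filter (fun z =>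
        wd F x ∈ ((Zw s (core F x)).Nd z).biUnion (Zw s (core F x)).S),
      (Y3 (Zw s (core F x)) z (wd F x) + kapV (Zw s (core F x)) KV z) *
        W s (core F x) z b ≤ T) :
    ∑ i ∈ (cores F).sigma (Zo2 Os Zw), XX F (X2 Zw KV) i x *
      (if wn i.2.1 b then W i.2.1 i.1 i.2.2 b else 0) ≤ 2 * m * T := by
  have hG := core_mem (F := F) hM hx
  rw [Finset.sum_sigma, Finset.sum_eq_single (core F x)]
  · have e1 : ∀ i ∈ Zo2 Os Zw (core F x), XX F (X2 Zw KV) ⟨core F x, i⟩ x *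
        (if wn i.1 b then W i.1 (core F x) i.2 b else 0) =
        if wn i.1 b then X2 Zw KV (core F x) i (wd F x) * W i.1 (core F x) i.2 b else 0 := by
      intro i _
      unfold XX
      rw [if_pos rfl]
      split_ifs
      · rfl
      · exact mul_zero _
    refine (le_of_eq (Finset.sum_congr rfl e1)).trans ?_
    unfold Zo2
    rw [Finset.sum_sigma]
    have e2 : ∀ s ∈ Os, ∑ z ∈ (Zw s (core F x)).Zs,
        (if wn s b then X2 Zw KV (core F x) ⟨s, z⟩ (wd F x) * W s (core F x) z b else 0) ≤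
        if wn s b then 2 * T else 0 := by
      intro s hs
      by_cases hw : wn s b
      · simp only [if_pos hw]
        have e3 : ∑ z ∈ (Zw s (core F x)).Zs,
            X2 Zw KV (core F x) ⟨s, z⟩ (wd F x) * W s (core F x) z b =
            2 * ∑ z ∈ (Zw s (core F x)).Zs.filter (fun z =>
              wd F x ∈ ((Zw s (core F x)).Nd z).biUnion (Zw s (core F x)).S),
            (Y3 (Zw s (core F x)) z (wd F x) + kapV (Zw s (core F x)) KV z) *
              W s (core F x) z b := by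
          rw [Finset.sum_filter, Finset.mul_sum]
          refine Finset.sum_congr rfl fun z _ => ?_
          unfold X2
          by_cases hz : wd F x ∈ ((Zw s (core F x)).Nd z).biUnion (Zw s (core F x)).S
          · rw [if_pos hz, if_pos hz]; ring
          · rw [if_neg hz, if_neg hz]; ring
        rw [e3]
        exact mul_le_mul_of_nonneg_left (hT s hs hw) (by norm_num)
      · simp only [if_neg hw]
        rw [Finset.sum_const_zero]
    refine (Finset.sum_le_sum e2).trans ?_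
    rw [← Finset.sum_filter, Finset.sum_const, nsmul_eq_mul]
    have h3 : ((Os.filter fun s => wn s b).card : ℝ) ≤ m := by exact_mod_cast hwn
    calc ((Os.filter fun s => wn s b).card : ℝ) * (2 * T) ≤ m * (2 * T) :=
          mul_le_mul_of_nonneg_right h3 (by positivity)
      _ = _ := by ring
  · intro G' _ hne
    refine Finset.sum_eq_zero fun i _ => ?_
    unfold XX
    rw [if_neg (fun h => hne h.symm), zero_mul]
  · intro hn; exact absurd hG hn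

open Classical in
/-- **TOTAL OF ONE CLASS, BOTH ORDERS, ALL SCALES, ALL CORES** -/
theorem total2 {M : ℕ} (hM : 0 < M) (y : ℕ) (St : Finset ℕ) (F1 : FL (upp y M))
    (Zw : ℕ → ℕ → World) (R : ℕ → ℕ → Node → Node → Prop) {KV : ℝ} (hKV : 0 ≤ KV)
    (Os : Finset ℕ) (hZ : ∀ s ∈ Os, ∀ G0 ∈ cores F1, (Zw s G0).Ok) {C1 Δ : ℝ} {k : ℕ}
    (hC1 : 0 ≤ C1)
    (hok1 : ∀ s ∈ Os, ∀ G0 ∈ cores F1, (gn (Zw s G0) (R s G0) KV).Ok
      (fun _ => nu (PM F1 G0)) (fun _ => nu (PM F1 G0)) C1 Δ)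
    (hok2 : ∀ s ∈ Os, ∀ G0 ∈ cores F1, (gn (Zw s G0) (fun ν ν' => R s G0 ν' ν) KV).Ok
      (fun _ => nu (PM F1 G0)) (fun _ => nu (PM F1 G0)) C1 Δ)
    (hk : C1 * Δ ≤ 2 ^ k)
    {A B : ℝ} (hA : 1 ≤ A) (hB : 1 ≤ B) (P : ℕ → ℕ → Prop)
    (hu : ∀ b c b2 c2, b ∣ M → c ∣ M → b2 ∣ M → c2 ∣ M → P b c → P b2 c2 →
      upp y b = upp y b2 → upp y c = upp y c2 →
      FixedWordx423.wd (low y b) (low y c) = FixedWordx423.wd (low y b2) (low y c2))
    (hAB : ∀ b c, b ∣ M → c ∣ M → P b c →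
      A ≤ (FixedWordx423.wd (low y b) (low y c)).1 ∧
      B ≤ (FixedWordx423.wd (low y b) (low y c)).2)
    {W : ℕ → ℕ → Node → ℕ → ℝ} (hW0 : ∀ s G0 z b, 0 ≤ W s G0 z b)
    (hW1 : ∀ s G0 z b, W s G0 z b ≤ 1) (wn wn' : ℕ → ℕ → Prop) {m : ℕ}
    (hwn : ∀ b, b ∣ M → (Os.filter fun s => wn s b).card ≤ m)
    (hwn' : ∀ b, b ∣ M → (Os.filter fun s => wn' s b).card ≤ m)
    {f g : ℕ → ℝ} (hf0 : ∀ b, 0 ≤ f b) (hg0 : ∀ b, 0 ≤ g b) (hf1 : ∀ b, f b ≤ 1)
    {T : ℝ} (hT0 : 0 ≤ T)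
    (hT : ∀ b, b ∣ M → ∀ s ∈ Os, ∑ z ∈ (Zw s (core F1 (upp y b))).Zs.filter (fun z =>
        wd F1 (upp y b) ∈ ((Zw s (core F1 (upp y b))).Nd z).biUnion
          (Zw s (core F1 (upp y b))).S),
      (Y3 (Zw s (core F1 (upp y b))) z (wd F1 (upp y b)) +
        kapV (Zw s (core F1 (upp y b))) KV z) * W s (core F1 (upp y b)) z b ≤ T)
    (K : ℕ → ℕ → ℝ) {Cw : ℝ} (hCw : 0 ≤ Cw)
    (hK : ∀ b c, b ∣ M → c ∣ M → 0 < K b c → P b c ∧ core F1 (upp y b) = core F1 (upp y c) ∧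
      ∃ s ∈ Os, wn s b ∧ wn' s c ∧ ∃ z ∈ (Zw s (core F1 (upp y b))).Zs,
      ∃ z' ∈ (Zw s (core F1 (upp y b))).Zs,
        K b c ≤ Cw * (kap2 (Zw s (core F1 (upp y b))) (R s (core F1 (upp y b))) z z'
            (wd F1 (upp y b)) (wd F1 (upp y c)) /
            (VR F1 (core F1 (upp y b)) *
              (Nat.gcd (wd F1 (upp y b)) (wd F1 (upp y c)) : ℝ)) *
          bst St (low y M) (low y b) (low y c) *
          min (W s (core F1 (upp y b)) z b * f b) (W s (core F1 (upp y b)) z' c * g c))) :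
    frm M K ≤ Cw * (8 * (2 * C1 + 4) * (2 * m * T) * √((k + 4 : ℝ) / (A * B)) *
      (√(Ex M f) * √(Ex M g))) := by
  have hup := upp_pos y M
  have hV := vbd2 (F := F1) hup Zw R hKV Os hZ hC1 hok1 hok2 hk
  set Zf := (cores F1).sigma (Zo2 Os Zw) with hZf
  obtain ⟨Q, hQ⟩ : ∃ Q : ℕ → ℕ → Prop, ∀ b c, Q b c ↔ P b c := ⟨P, fun _ _ => Iff.rfl⟩
  have key := rel_total hM y St Zf Zf (k := kk F1 (kw2 Zw R)) (kk_nonneg (kw2_nonneg Zw R))
    (C := 2 * C1 + 4) (D := (k + 4 : ℝ)) (by linarith) (by positivity)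
    (X := XX F1 (X2 Zw KV)) (X' := XX F1 (X2 Zw KV)) (XX_nonneg (X2_nonneg Zw hKV))
    (XX_nonneg (X2_nonneg Zw hKV)) hV hA hB
    (fun _ _ b c => Q b c) (fun _ _ => wf M y P)
    (fun i _ j _ b c hb hc hP' => by
      have hP := (hQ b c).1 hP'
      have h1 := wf_eq hu hb hc hP
      have h2 := hAB b c hb hc hP
      rw [h1] at h2
      exact ⟨h1, h2⟩)
    (W := fun i b => if wn i.2.1 b then W i.2.1 i.1 i.2.2 b else 0)
    (W' := fun j b => if wn' j.2.1 b then W j.2.1 j.1 j.2.2 b else 0)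
    (fun i b => by
      show 0 ≤ (if wn i.2.1 b then W i.2.1 i.1 i.2.2 b else 0)
      split_ifs
      · exact hW0 _ _ _ _
      · exact le_rfl)
    (fun i b => by
      show (if wn i.2.1 b then W i.2.1 i.1 i.2.2 b else 0) ≤ 1
      split_ifs
      · exact hW1 _ _ _ _
      · exact zero_le_one)
    (fun i b => by
      show 0 ≤ (if wn' i.2.1 b then W i.2.1 i.1 i.2.2 b else 0)
      split_ifs
      · exact hW0 _ _ _ _
      · exact le_rfl)
    hf0 hg0 hf1 (T := 2 * m * T) (by positivity)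
    (fun b hb => bud2 Zw hup Os W wn hT0 (upp_dvd y hM.ne' hb) (hwn b hb)
      fun s hs _ => hT b hb s hs)
    (fun b hb => bud2 Zw hup Os W wn' hT0 (upp_dvd y hM.ne' hb) (hwn' b hb)
      fun s hs _ => hT b hb s hs)
  have hmul := mul_le_mul_of_nonneg_left key hCw
  refine le_trans ?_ hmul
  have e1 : ∀ i ∈ Zf,
      ∑ j ∈ Zf, frm M (fun b c => if Q b c then
        kk F1 (kw2 Zw R) i j (upp y b) (upp y c) * bst St (low y M) (low y b) (low y c) *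
          min ((if wn i.2.1 b then W i.2.1 i.1 i.2.2 b else 0) * f b)
            ((if wn' j.2.1 c then W j.2.1 j.1 j.2.2 c else 0) * g c) else 0) =
      frm M (fun b c => ∑ j ∈ Zf, if Q b c then
        kk F1 (kw2 Zw R) i j (upp y b) (upp y c) * bst St (low y M) (low y b) (low y c) *
          min ((if wn i.2.1 b then W i.2.1 i.1 i.2.2 b else 0) * f b)
            ((if wn' j.2.1 c then W j.2.1 j.1 j.2.2 c else 0) * g c) else 0) := fun i _ =>
    HeavyLx50.frm_sum _ M _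
  rw [Finset.sum_congr rfl e1, HeavyLx50.frm_sum]
  have e2 : ∀ H : ℕ → ℕ → ℝ, Cw * frm M H = frm M (fun b c => Cw * H b c) := by
    intro H
    unfold frm
    rw [Finset.mul_sum]
    refine Finset.sum_congr rfl fun b _ => ?_
    rw [Finset.mul_sum]
    exact Finset.sum_congr rfl fun c _ => by ring
  rw [e2]
  refine HeavyLx50.frm_mono fun b c hb hc => ?_
  have hbst : 0 ≤ bst St (low y M) (low y b) (low y c) := VecNPx50.bst_nonneg _ _ _ _
  have hw0 : ∀ (p : Prop) (s G : ℕ) (z : Node) (x : ℕ),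
      0 ≤ (if p then W s G z x else 0) := by
    intro p s G z x
    split_ifs
    · exact hW0 _ _ _ _
    · exact le_rfl
  have hterm : ∀ i ∈ Zf, ∀ j ∈ Zf,
      0 ≤ (if Q b c then
        kk F1 (kw2 Zw R) i j (upp y b) (upp y c) * bst St (low y M) (low y b) (low y c) *
          min ((if wn i.2.1 b then W i.2.1 i.1 i.2.2 b else 0) * f b)
            ((if wn' j.2.1 c then W j.2.1 j.1 j.2.2 c else 0) * g c) else 0) := by
    intro i _ j _
    split_ifs with hq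
    all_goals first
      | exact le_rfl
      | exact mul_nonneg (mul_nonneg (kk_nonneg (kw2_nonneg Zw R) _ _ _ _) hbst)
          (le_min (mul_nonneg (by first | exact hW0 _ _ _ _ | exact le_rfl) (hf0 _))
            (mul_nonneg (by first | exact hW0 _ _ _ _ | exact le_rfl) (hg0 _)))
  rcases le_or_gt (K b c) 0 with h0 | h0
  · exact h0.trans (mul_nonneg hCw
      (Finset.sum_nonneg fun i hi => Finset.sum_nonneg fun j hj => hterm i hi j hj))
  · obtain ⟨hP, hcc, s, hs, hwnb, hwnc, z, hz, z', hz', hle⟩ := hK b c hb hc h0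
    have hub : upp y b ∣ upp y M := upp_dvd y hM.ne' hb
    have hG := core_mem (F := F1) hup hub
    set G0 := core F1 (upp y b) with hG0def
    have hi' : (⟨G0, ⟨s, z⟩⟩ : Σ _ : ℕ, (Σ _ : ℕ, Node)) ∈ Zf :=
      Finset.mem_sigma.2 ⟨hG, Finset.mem_sigma.2 ⟨hs, hz⟩⟩
    have hj' : (⟨G0, ⟨s, z'⟩⟩ : Σ _ : ℕ, (Σ _ : ℕ, Node)) ∈ Zf :=
      Finset.mem_sigma.2 ⟨hG, Finset.mem_sigma.2 ⟨hs, hz'⟩⟩
    refine hle.trans (mul_le_mul_of_nonneg_left ?_ hCw)
    refine le_trans ?_ (Finset.single_le_sum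
      (fun i hi => Finset.sum_nonneg fun j hj => hterm i hi j hj) hi')
    refine le_trans ?_ (Finset.single_le_sum (fun j hj => hterm _ hi' j hj) hj')
    rw [if_pos ((hQ _ _).2 hP), if_pos hwnb, if_pos hwnc]
    refine le_of_eq ?_
    have hkk : kk F1 (kw2 Zw R) ⟨G0, ⟨s, z⟩⟩ ⟨G0, ⟨s, z'⟩⟩ (upp y b) (upp y c) =
        kap2 (Zw s G0) (R s G0) z z' (wd F1 (upp y b)) (wd F1 (upp y c)) /
            (VR F1 G0 * (Nat.gcd (wd F1 (upp y b)) (wd F1 (upp y c)) : ℝ)) := by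
      unfold kk
      rw [if_pos ⟨rfl, hG0def.symm, hcc.symm⟩]
      unfold kw2
      rw [if_pos rfl]
    rw [hkk]

end Crest.Agent.R4C.WorldSum2x50
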