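import Crest.Agent.R4C.GWrelW_8
import Crest.Agent.R4C.GWcore_482

/-!
# Row 4, GW section, vector case: from LEMMA V for every world to the layer form (helper50)

`Os` = finite set of parameters of worlds (dyadic size, rounding, ...), `G ω G0 : GN Z N ℕ` = graph of
nodes of the world `ω` of the core `G0` (words `∣ PM F G0`), with
`(G ω G0).Ok (fun _ => nu (PM F G0)) (fun _ => nu (PM F G0)) C1 Δ`, `C1 Δ ≤ 2 ^ k`.

* `Zo`  : all zones of a core (`Σ _ : Om, Z`);  `kw`, `XL`, `XR` : kernel and losses;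
* `core_bd` : the two-parameter bound of one core (sets depending on the zone);
* `vbd_worlds` : `VBd M .. (kk F (kw G)) (2 C1 + 4) (k + 4) (XX F (XL G)) (XX F (XR G))`;
* `kk_ge` : a related pair has `nu0 ν ν / g ≤ gcd ν ν kk`;
* `worlds_total` : the total of one class of low words.
-/

set_option autoImplicit false

open Finset
open Crest.Agent.R4C.Basex935 Crest.Agent.R4C.Cutx50 Crest.Agent.R4C.FLDefx935
open Crest.Agent.R4C.PureClsx863 Crest.Agent.R4C.GWrelx8 Crest.Agent.R4C.GWrelLayx252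
open Crest.Agent.R4C.GWcorex482
open Crest.Agent.R4C.BoostRx398 (bst)

namespace Crest.Agent.R4C.WorldSumx50

variable {Om Z N : Type*} [DecidableEq Om] [DecidableEq Z] [DecidableEq N]

/-- all zones of a core -/
def Zo (Os : Finset Om) (G : Om → ℕ → GN Z N ℕ) (G0 : ℕ) : Finset (Σ _ : Om, Z) :=
  Os.sigma fun ω => (G ω G0).Zs

open Classical in
/-- the pair kernel of a pair of zones of the core `G0` -/
noncomputable def kw (G : Om → ℕ → GN Z N ℕ) (G0 : ℕ) (i j : Σ _ : Om, Z) (w w' : ℕ) : ℝ :=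
  if i.1 = j.1 then
    ∑ n ∈ (G i.1 G0).Nd i.2, ∑ n' ∈ (G i.1 G0).Out i.2 n j.2,
      (if w ∈ (G i.1 G0).A i.2 n ∧ w' ∈ (G i.1 G0).S j.2 n' then 1 / |(G i.1 G0).g n| else 0) else 0

omit [DecidableEq Z] [DecidableEq N] in
lemma kw_nonneg (G : Om → ℕ → GN Z N ℕ) (G0 : ℕ) (i j : Σ _ : Om, Z) (w w' : ℕ) :
    0 ≤ kw G G0 i j w w' := by
  unfold kw
  split_ifs
  · refine Finset.sum_nonneg fun n _ => Finset.sum_nonneg fun n' _ => ?_
    split_ifs
    · positivity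
    · exact le_rfl
  · exact le_rfl

open Classical in
/-- loss of the changers -/
noncomputable def XL (G : Om → ℕ → GN Z N ℕ) (G0 : ℕ) (i : Σ _ : Om, Z) (w : ℕ) : ℝ :=
  ∑ n ∈ (G i.1 G0).Nd i.2, (if w ∈ (G i.1 G0).A i.2 n then (G i.1 G0).y i.2 w else 0)

open Classical in
/-- loss of the partners -/
noncomputable def XR (G : Om → ℕ → GN Z N ℕ) (G0 : ℕ) (i : Σ _ : Om, Z) (w : ℕ) : ℝ :=
  if w ∈ ((G i.1 G0).Nd i.2).biUnion ((G i.1 G0).S i.2) then (G i.1 G0).y' i.2 w else 0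

open Classical in
lemma swap_ind (S A : Finset ℕ) (φ : ℕ → ℝ) :
    ∑ w ∈ S, (if w ∈ A then φ w else 0) = ∑ w ∈ A, (if w ∈ S then φ w else 0) := by
  rw [← Finset.sum_filter, ← Finset.sum_filter, Finset.filter_mem_eq_inter,
    Finset.filter_mem_eq_inter, Finset.inter_comm]

open Classical in
/-- density `ν` on the set of the zone -/
noncomputable def fS (Nn : ℕ) (S : Z → Finset ℕ) (z : Z) (w : ℕ) : ℝ :=
  if w ∈ S z then nu Nn w else 0

omit [DecidableEq Z] in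
lemma fS_nonneg (Nn : ℕ) (S : Z → Finset ℕ) (z : Z) (w : ℕ) : 0 ≤ fS Nn S z w := by
  unfold fS; split_ifs
  · exact nu_nonneg _ _
  · exact le_rfl

omit [DecidableEq Z] in
lemma fS_le (Nn : ℕ) (S : Z → Finset ℕ) (z : Z) (w : ℕ) : fS Nn S z w ≤ nu Nn w := by
  unfold fS; split_ifs
  · exact le_rfl
  · exact nu_nonneg _ _

/-- one world -/
lemma world_bd (G : GN Z N ℕ) (Nn : ℕ) {C1 Δ : ℝ} {k : ℕ}
    (hok : G.Ok (fun _ => nu Nn) (fun _ => nu Nn) C1 Δ) (hk : C1 * Δ ≤ 2 ^ k)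
    (S S' : Z → Finset ℕ) {l : ℝ} (hl : 0 < l) :
    ∑ z ∈ G.Zs, ∑ z' ∈ G.Zs, ∑ w ∈ S z, ∑ w' ∈ S' z', nu Nn w * nu Nn w' *
        (∑ n ∈ G.Nd z, ∑ n' ∈ G.Out z n z',
          (open Classical in if w ∈ G.A z n ∧ w' ∈ G.S z' n' then 1 / G.g n else 0)) ≤
      (2 * C1 + 4) * (1 / l * (∑ z ∈ G.Zs, ∑ w ∈ S z, nu Nn w *
          (∑ n ∈ G.Nd z, (open Classical in if w ∈ G.A z n then G.y z w else 0))) +
        l * ((k + 4 : ℝ) * ∑ z ∈ G.Zs, ∑ w ∈ S' z, nu Nn w *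
          (open Classical in if w ∈ (G.Nd z).biUnion (G.S z) then G.y' z w else 0))) := by
  classical
  have hok' : G.Ok (fS Nn S) (fS Nn S') C1 Δ :=
    GWrelWx8.Ok_mono hok (fun z w => fS_nonneg _ _ _ _) (fun z w => fS_nonneg _ _ _ _)
      (fun z w => fS_le _ _ _ _) (fun z w => fS_le _ _ _ _)
  have hkey := node_charge G (fS Nn S) (fS Nn S') hok' (ρ := 1 / l) (by positivity) hk
  have hC := hok.C0
  -- left side
  have e1 : ∀ z ∈ G.Zs, ∀ z' ∈ G.Zs, ∑ w ∈ S z, ∑ w' ∈ S' z', nu Nn w * nu Nn w' *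
        (∑ n ∈ G.Nd z, ∑ n' ∈ G.Out z n z',
          (if w ∈ G.A z n ∧ w' ∈ G.S z' n' then 1 / G.g n else 0)) =
      ∑ n ∈ G.Nd z, ∑ w ∈ G.A z n, ∑ n' ∈ G.Out z n z', ∑ w' ∈ G.S z' n',
        fS Nn S z w * fS Nn S' z' w' / G.g n := by
    intro z _ z' _
    have a1 : ∀ w ∈ S z, ∑ w' ∈ S' z', nu Nn w * nu Nn w' *
        (∑ n ∈ G.Nd z, ∑ n' ∈ G.Out z n z',
          (if w ∈ G.A z n ∧ w' ∈ G.S z' n' then 1 / G.g n else 0)) =
        ∑ n ∈ G.Nd z, if w ∈ G.A z n then ∑ n' ∈ G.Out z n z',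
          ∑ w' ∈ S' z', (if w' ∈ G.S z' n' then nu Nn w * nu Nn w' / G.g n else 0) else 0 := by
      intro w _
      simp only [Finset.mul_sum]
      rw [Finset.sum_comm]
      refine Finset.sum_congr rfl fun n _ => ?_
      rw [Finset.sum_comm]
      by_cases hw : w ∈ G.A z n
      · rw [if_pos hw]
        refine Finset.sum_congr rfl fun n' _ => Finset.sum_congr rfl fun w' _ => ?_
        by_cases hw' : w' ∈ G.S z' n'
        · rw [if_pos ⟨hw, hw'⟩, if_pos hw']; ring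
        · rw [if_neg (fun h => hw' h.2), if_neg hw', mul_zero]
      · rw [if_neg hw]
        refine Finset.sum_eq_zero fun n' _ => Finset.sum_eq_zero fun w' _ => ?_
        rw [if_neg (fun h => hw h.1), mul_zero]
    rw [Finset.sum_congr rfl a1, Finset.sum_comm]
    refine Finset.sum_congr rfl fun n _ => ?_
    rw [swap_ind]
    refine Finset.sum_congr rfl fun w _ => ?_
    by_cases hw : w ∈ S z
    · rw [if_pos hw]
      refine Finset.sum_congr rfl fun n' _ => ?_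
      rw [swap_ind]
      refine Finset.sum_congr rfl fun w' _ => ?_
      unfold fS
      rw [if_pos hw]
      by_cases hw' : w' ∈ S' z'
      · rw [if_pos hw', if_pos hw']
      · rw [if_neg hw', if_neg hw']; simp
    · rw [if_neg hw]
      refine (Finset.sum_eq_zero fun n' _ => Finset.sum_eq_zero fun w' _ => ?_).symm
      unfold fS
      rw [if_neg hw]; simp
  have e2 : ∑ z ∈ G.Zs, ∑ z' ∈ G.Zs, ∑ w ∈ S z, ∑ w' ∈ S' z', nu Nn w * nu Nn w' *
        (∑ n ∈ G.Nd z, ∑ n' ∈ G.Out z n z',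
          (if w ∈ G.A z n ∧ w' ∈ G.S z' n' then 1 / G.g n else 0)) =
      ∑ z ∈ G.Zs, ∑ n ∈ G.Nd z, ∑ w ∈ G.A z n, ∑ z' ∈ G.Zs, ∑ n' ∈ G.Out z n z',
      ∑ w' ∈ G.S z' n', fS Nn S z w * fS Nn S' z' w' / G.g n := by
    refine Finset.sum_congr rfl fun z hz => ?_
    rw [Finset.sum_congr rfl (e1 z hz), Finset.sum_comm]
    refine Finset.sum_congr rfl fun n _ => ?_
    rw [Finset.sum_comm]
  rw [e2]
  refine hkey.trans ?_
  -- right side
  have e3 : ∑ z ∈ G.Zs, ∑ n ∈ G.Nd z, ∑ w ∈ G.A z n, fS Nn S z w * G.y z w =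
      ∑ z ∈ G.Zs, ∑ w ∈ S z, nu Nn w *
          (∑ n ∈ G.Nd z, (if w ∈ G.A z n then G.y z w else 0)) := by
    refine Finset.sum_congr rfl fun z _ => ?_
    simp only [Finset.mul_sum]
    rw [Finset.sum_comm]
    refine Finset.sum_congr rfl fun n _ => ?_
    have a2 : ∀ w ∈ S z, nu Nn w * (if w ∈ G.A z n then G.y z w else 0) =
        if w ∈ G.A z n then nu Nn w * G.y z w else 0 := fun w _ => by
      split_ifs <;> simp
    rw [Finset.sum_congr rfl a2, swap_ind]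
    refine Finset.sum_congr rfl fun w _ => ?_
    unfold fS
    split_ifs <;> simp
  have e4 : ∑ z' ∈ G.Zs, ∑ w' ∈ (G.Nd z').biUnion (G.S z'), fS Nn S' z' w' * G.y' z' w' =
      ∑ z ∈ G.Zs, ∑ w ∈ S' z, nu Nn w *
          (if w ∈ (G.Nd z).biUnion (G.S z) then G.y' z w else 0) := by
    refine Finset.sum_congr rfl fun z _ => ?_
    have a2 : ∀ w ∈ S' z, nu Nn w * (if w ∈ (G.Nd z).biUnion (G.S z) then G.y' z w else 0) =
        if w ∈ (G.Nd z).biUnion (G.S z) then nu Nn w * G.y' z w else 0 := fun w _ => by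
      split_ifs <;> simp
    rw [Finset.sum_congr rfl a2, swap_ind]
    refine Finset.sum_congr rfl fun w _ => ?_
    unfold fS
    split_ifs <;> simp
  rw [e3, e4]
  have h5 : 0 ≤ ∑ z ∈ G.Zs, ∑ w ∈ S' z, nu Nn w *
          (if w ∈ (G.Nd z).biUnion (G.S z) then G.y' z w else 0) := by
    refine Finset.sum_nonneg fun z _ => Finset.sum_nonneg fun w _ => mul_nonneg (nu_nonneg _ _) ?_
    split_ifs
    · exact (hok.y0' z w).le
    · exact le_rfl
  have h6 : 2 * C1 * (k + 4) / (1 / l) ≤ (2 * C1 + 4) * (l * (k + 4)) := by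
    rw [div_div_eq_mul_div, div_one]
    have : (0 : ℝ) ≤ (k + 4) * l := by positivity
    nlinarith
  have h7 := mul_le_mul_of_nonneg_right h6 h5
  calc _ ≤ (2 * C1 + 4) * (1 / l) * (∑ z ∈ G.Zs, ∑ w ∈ S z, nu Nn w *
          (∑ n ∈ G.Nd z, (if w ∈ G.A z n then G.y z w else 0))) +
        (2 * C1 + 4) * (l * (k + 4)) * ∑ z ∈ G.Zs, ∑ w ∈ S' z, nu Nn w *
          (if w ∈ (G.Nd z).biUnion (G.S z) then G.y' z w else 0) := by
        exact add_le_add le_rfl h7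
    _ = _ := by ring

/-- **all worlds of one core** -/
theorem core_bd (G : Om → ℕ → GN Z N ℕ) (Os : Finset Om) (G0 Nn : ℕ) {C1 Δ : ℝ} {k : ℕ}
    (hok : ∀ ω ∈ Os, (G ω G0).Ok (fun _ => nu Nn) (fun _ => nu Nn) C1 Δ) (hk : C1 * Δ ≤ 2 ^ k)
    (S S' : (Σ _ : Om, Z) → Finset ℕ) {l : ℝ} (hl : 0 < l) :
    ∑ i ∈ Zo Os G G0, ∑ j ∈ Zo Os G G0, ∑ w ∈ S i, ∑ w' ∈ S' j,
        nu Nn w * nu Nn w' * kw G G0 i j w w' ≤
      (2 * C1 + 4) * (1 / l * (∑ i ∈ Zo Os G G0, ∑ w ∈ S i, nu Nn w * XL G G0 i w) +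
        l * (k + 4 : ℝ) * ∑ j ∈ Zo Os G G0, ∑ w' ∈ S' j, nu Nn w' * XR G G0 j w') := by
  classical
  unfold Zo
  rw [Finset.sum_sigma]
  have e1 : ∀ ω ∈ Os, ∑ z ∈ (G ω G0).Zs, ∑ j ∈ Os.sigma (fun ω => (G ω G0).Zs),
      ∑ w ∈ S ⟨ω, z⟩, ∑ w' ∈ S' j, nu Nn w * nu Nn w' * kw G G0 ⟨ω, z⟩ j w w' =
      ∑ z ∈ (G ω G0).Zs, ∑ z' ∈ (G ω G0).Zs, ∑ w ∈ S ⟨ω, z⟩, ∑ w' ∈ S' ⟨ω, z'⟩,
        nu Nn w * nu Nn w' * (∑ n ∈ (G ω G0).Nd z, ∑ n' ∈ (G ω G0).Out z n z',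
          (if w ∈ (G ω G0).A z n ∧ w' ∈ (G ω G0).S z' n' then 1 / (G ω G0).g n else 0)) := by
    intro ω hω
    refine Finset.sum_congr rfl fun z hz => ?_
    rw [Finset.sum_sigma, Finset.sum_eq_single ω]
    · refine Finset.sum_congr rfl fun z' _ => Finset.sum_congr rfl fun w _ =>
        Finset.sum_congr rfl fun w' _ => ?_
      unfold kw
      rw [if_pos rfl]
      congr 1
      refine Finset.sum_congr rfl fun n hn => Finset.sum_congr rfl fun n' _ => ?_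
      rw [abs_of_pos ((hok ω hω).g0 z hz n hn)]
    · intro ω' _ hne
      refine Finset.sum_eq_zero fun z' _ => Finset.sum_eq_zero fun w _ =>
        Finset.sum_eq_zero fun w' _ => ?_
      unfold kw
      rw [if_neg (fun h => hne h.symm), mul_zero]
    · intro h; exact absurd hω h
  rw [Finset.sum_congr rfl e1]
  have e2 : ∀ ω ∈ Os, _ := fun ω hω => world_bd (G ω G0) Nn (hok ω hω) hk
    (fun z => S ⟨ω, z⟩) (fun z => S' ⟨ω, z⟩) hl
  refine (Finset.sum_le_sum e2).trans (le_of_eq ?_)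
  rw [Finset.sum_sigma, Finset.sum_sigma]
  rw [← Finset.mul_sum, Finset.sum_add_distrib, ← Finset.mul_sum, ← Finset.mul_sum,
    ← Finset.mul_sum]
  unfold XL XR
  ring

variable {M : ℕ} {F : FL M}

/-- **the worlds of all cores in 252's form** -/
theorem vbd_worlds (hM : 0 < M) (Os : Finset Om) (G : Om → ℕ → GN Z N ℕ) {C1 Δ : ℝ} {k : ℕ}
    (hok : ∀ ω ∈ Os, ∀ G0 ∈ cores F,
      (G ω G0).Ok (fun _ => nu (PM F G0)) (fun _ => nu (PM F G0)) C1 Δ) (hk : C1 * Δ ≤ 2 ^ k) :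
    VBd M ((cores F).sigma (Zo Os G)) ((cores F).sigma (Zo Os G)) (kk F (kw G))
      (2 * C1 + 4) (k + 4 : ℝ) (XX F (XL G)) (XX F (XR G)) :=
  vbd_of_cores hM fun G0 hG0 S S' _ _ _ hl =>
    core_bd G Os G0 (PM F G0) (fun ω hω => hok ω hω G0 hG0) hk S S' hl

omit [DecidableEq Z] [DecidableEq N] in
/-- a related pair is seen by the kernel -/
lemma kk_ge {Os : Finset Om} {G : Om → ℕ → GN Z N ℕ} {G0 : ℕ} {C1 Δ : ℝ} {ω : Om} (hω : ω ∈ Os)
    (hok : ∀ ω ∈ Os, (G ω G0).Ok (fun _ => nu (PM F G0)) (fun _ => nu (PM F G0)) C1 Δ)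
    {z z' : Z} (hz : z ∈ (G ω G0).Zs) {n n' : N} (hn : n ∈ (G ω G0).Nd z)
    (hn' : n' ∈ (G ω G0).Out z n z') {β β' : ℕ} (h1 : core F β = G0) (h2 : core F β' = G0)
    (hw : wd F β ∈ (G ω G0).A z n) (hw' : wd F β' ∈ (G ω G0).S z' n') :
    1 / (VR F G0 * (Nat.gcd (wd F β) (wd F β') : ℝ) * (G ω G0).g n) ≤
      kk F (kw G) ⟨G0, ⟨ω, z⟩⟩ ⟨G0, ⟨ω, z'⟩⟩ β β' := by
  classical
  have hg := (hok ω hω).g0 z hz n hn
  unfold kk
  rw [if_pos ⟨rfl, h1, h2⟩]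
  have h3 : 1 / (G ω G0).g n ≤ kw G G0 ⟨ω, z⟩ ⟨ω, z'⟩ (wd F β) (wd F β') := by
    unfold kw
    rw [if_pos rfl]
    have hnn : ∀ n ∈ (G ω G0).Nd z, ∀ n' ∈ (G ω G0).Out z n z',
        0 ≤ (if wd F β ∈ (G ω G0).A z n ∧ wd F β' ∈ (G ω G0).S z' n' then
          1 / |(G ω G0).g n| else 0) := by
      intro n _ n' _
      split_ifs
      · positivity
      · exact le_rfl
    refine le_trans ?_ (Finset.single_le_sum (fun n hn => Finset.sum_nonneg fun n' hn' =>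
      hnn n hn n' hn') hn)
    refine le_trans ?_ (Finset.single_le_sum (fun n' hn' => hnn n hn n' hn') hn')
    rw [if_pos ⟨hw, hw'⟩, abs_of_pos hg]
  have h4 : 1 / (VR F G0 * (Nat.gcd (wd F β) (wd F β') : ℝ) * (G ω G0).g n) =
      1 / (G ω G0).g n / (VR F G0 * (Nat.gcd (wd F β) (wd F β') : ℝ)) := by
    rw [div_div, mul_comm ((G ω G0).g n)]
  rw [h4]
  exact div_le_div_of_nonneg_right h3 (mul_nonneg (VR_nonneg _) (Nat.cast_nonneg _))

open Classical in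
/-- the word of the class as a function of the upper parts -/
noncomputable def wf (M y : ℕ) (P : ℕ → ℕ → Prop) (β β' : ℕ) : ℕ × ℕ :=
  if h : ∃ bc : ℕ × ℕ, bc.1 ∣ M ∧ bc.2 ∣ M ∧ P bc.1 bc.2 ∧ upp y bc.1 = β ∧ upp y bc.2 = β' then
    FixedWordx423.wd (low y h.choose.1) (low y h.choose.2) else (0, 0)

lemma wf_eq {M y : ℕ} {P : ℕ → ℕ → Prop}
    (hu : ∀ b c b2 c2, b ∣ M → c ∣ M → b2 ∣ M → c2 ∣ M → P b c → P b2 c2 → upp y b = upp y b2 →
      upp y c = upp y c2 →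
      FixedWordx423.wd (low y b) (low y c) = FixedWordx423.wd (low y b2) (low y c2))
    {b c : ℕ} (hb : b ∣ M) (hc : c ∣ M) (hP : P b c) :
    FixedWordx423.wd (low y b) (low y c) = wf M y P (upp y b) (upp y c) := by
  have h : ∃ bc : ℕ × ℕ, bc.1 ∣ M ∧ bc.2 ∣ M ∧ P bc.1 bc.2 ∧ upp y bc.1 = upp y b ∧
      upp y bc.2 = upp y c := ⟨(b, c), hb, hc, hP, rfl, rfl⟩
  unfold wf
  rw [dif_pos h]
  obtain ⟨h1, h2, h3, h4, h5⟩ := h.choose_spec
  exact hu b c _ _ hb hc h1 h2 hP h3 h4.symm h5.symm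

open Classical in
/-- **TOTAL OF ONE CLASS OF LOW WORDS, ALL WORLDS**: `P ω b c` = the class (`A ≤ w.1`, `B ≤ w.2`,
word unique given `ω` and the upper parts); every pair with `K b c > 0` is charged to one world `ω`, one
pair of related nodes `(z, n)`, `(z', n')` of its core, with `b` a changer at `(z, n)`. -/
theorem worlds_total {M : ℕ} (hM : 0 < M) (y : ℕ) (St : Finset ℕ) (F1 : FL (upp y M))
    (Os : Finset Om) (G : Om → ℕ → GN Z N ℕ) {C1 Δ : ℝ} {k : ℕ} (hC1 : 0 ≤ C1)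
    (hok : ∀ ω ∈ Os, ∀ G0 ∈ cores F1,
      (G ω G0).Ok (fun _ => nu (PM F1 G0)) (fun _ => nu (PM F1 G0)) C1 Δ)
    (hk : C1 * Δ ≤ 2 ^ k)
    (hy0 : ∀ ω G0 z w, 0 ≤ (G ω G0).y z w) (hy0' : ∀ ω G0 z w, 0 ≤ (G ω G0).y' z w)
    {A B : ℝ} (hA : 1 ≤ A) (hB : 1 ≤ B) (P : Om → ℕ → ℕ → Prop)
    (hu : ∀ ω ∈ Os, ∀ b c b2 c2, b ∣ M → c ∣ M → b2 ∣ M → c2 ∣ M → P ω b c → P ω b2 c2 →
      upp y b = upp y b2 → upp y c = upp y c2 →
      FixedWordx423.wd (low y b) (low y c) = FixedWordx423.wd (low y b2) (low y c2))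
    (hAB : ∀ ω ∈ Os, ∀ b c, b ∣ M → c ∣ M → P ω b c →
      A ≤ (FixedWordx423.wd (low y b) (low y c)).1 ∧
      B ≤ (FixedWordx423.wd (low y b) (low y c)).2)
    {W W' : Om → ℕ → Z → ℕ → ℝ} (hW0 : ∀ ω G0 z b, 0 ≤ W ω G0 z b)
    (hW1 : ∀ ω G0 z b, W ω G0 z b ≤ 1) (hW0' : ∀ ω G0 z b, 0 ≤ W' ω G0 z b)
    {f g : ℕ → ℝ} (hf0 : ∀ b, 0 ≤ f b) (hg0 : ∀ b, 0 ≤ g b) (hf1 : ∀ b, f b ≤ 1)
    {T : ℝ} (hT0 : 0 ≤ T)
    (hT : ∀ b, b ∣ M → ∑ i ∈ Zo Os G (core F1 (upp y b)),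
      XL G (core F1 (upp y b)) i (wd F1 (upp y b)) * W i.1 (core F1 (upp y b)) i.2 b ≤ T)
    (hT' : ∀ b, b ∣ M → ∑ i ∈ Zo Os G (core F1 (upp y b)),
      XR G (core F1 (upp y b)) i (wd F1 (upp y b)) * W' i.1 (core F1 (upp y b)) i.2 b ≤ T)
    (K : ℕ → ℕ → ℝ) {Cw : ℝ} (hCw : 0 ≤ Cw)
    (hK : ∀ b c, b ∣ M → c ∣ M → 0 < K b c → ∃ ω ∈ Os, P ω b c ∧
      core F1 (upp y b) = core F1 (upp y c) ∧
      ∃ z ∈ (G ω (core F1 (upp y b))).Zs, ∃ z' ∈ (G ω (core F1 (upp y b))).Zs,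
      ∃ n ∈ (G ω (core F1 (upp y b))).Nd z, ∃ n' ∈ (G ω (core F1 (upp y b))).Out z n z',
        wd F1 (upp y b) ∈ (G ω (core F1 (upp y b))).A z n ∧
        wd F1 (upp y c) ∈ (G ω (core F1 (upp y b))).S z' n' ∧
        K b c ≤ Cw * (1 / (VR F1 (core F1 (upp y b)) *
            (Nat.gcd (wd F1 (upp y b)) (wd F1 (upp y c)) : ℝ) *
            (G ω (core F1 (upp y b))).g n) *
          bst St (low y M) (low y b) (low y c) *
          min (W ω (core F1 (upp y b)) z b * f b) (W' ω (core F1 (upp y b)) z' c * g c))) :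
    frm M K ≤ Cw * (8 * (2 * C1 + 4) * T * √((k + 4 : ℝ) / (A * B)) *
      (√(Ex M f) * √(Ex M g))) := by
  have hup := upp_pos y M
  have hV := vbd_worlds (F := F1) hup Os G hok hk
  have hXL : ∀ G0 (i : Σ _ : Om, Z) w, 0 ≤ XL G G0 i w := by
    intro G0 i w
    unfold XL
    refine Finset.sum_nonneg fun n _ => ?_
    split_ifs
    · exact hy0 _ _ _ _
    · exact le_rfl
  have hXR : ∀ G0 (i : Σ _ : Om, Z) w, 0 ≤ XR G G0 i w := by
    intro G0 i w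
    unfold XR
    split_ifs
    · exact hy0' _ _ _ _
    · exact le_rfl
  set Zf := (cores F1).sigma (Zo Os G) with hZf
  obtain ⟨Q, hQ⟩ : ∃ Q : (Σ _ : ℕ, (Σ _ : Om, Z)) → ℕ → ℕ → Prop,
      ∀ i b c, Q i b c ↔ i.2.1 ∈ Os ∧ P i.2.1 b c :=
    ⟨fun i b c => i.2.1 ∈ Os ∧ P i.2.1 b c, fun _ _ _ => Iff.rfl⟩
  have key := rel_total hM y St Zf Zf (k := kk F1 (kw G)) (kk_nonneg (kw_nonneg G))
    (C := 2 * C1 + 4) (D := (k + 4 : ℝ)) (by linarith) (by positivity) (X := XX F1 (XL G))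
    (X' := XX F1 (XR G)) (XX_nonneg hXL) (XX_nonneg hXR) hV hA hB
    (fun i j b c => Q i b c) (fun i j => wf M y (P i.2.1))
    (fun i _ j _ b c hb hc hP' => by
      have hP := (hQ i b c).1 hP'
      have h1 := wf_eq (hu i.2.1 hP.1) hb hc hP.2
      have h2 := hAB i.2.1 hP.1 b c hb hc hP.2
      rw [h1] at h2
      exact ⟨h1, h2⟩)
    (W := fun i b => W i.2.1 i.1 i.2.2 b) (W' := fun j b => W' j.2.1 j.1 j.2.2 b)
    (fun _ _ => hW0 _ _ _ _) (fun _ _ => hW1 _ _ _ _) (fun _ _ => hW0' _ _ _ _) hf0 hg0 hf1 hT0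
    (fun b hb => ?_) (fun b hb => ?_)
  · have hmul := mul_le_mul_of_nonneg_left key hCw
    refine le_trans ?_ hmul
    have e1 : ∀ i ∈ Zf,
        ∑ j ∈ Zf, frm M (fun b c => if Q i b c then
          kk F1 (kw G) i j (upp y b) (upp y c) * bst St (low y M) (low y b) (low y c) *
            min (W i.2.1 i.1 i.2.2 b * f b) (W' j.2.1 j.1 j.2.2 c * g c) else 0) =
        frm M (fun b c => ∑ j ∈ Zf, if Q i b c then
          kk F1 (kw G) i j (upp y b) (upp y c) * bst St (low y M) (low y b) (low y c) *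
            min (W i.2.1 i.1 i.2.2 b * f b) (W' j.2.1 j.1 j.2.2 c * g c) else 0) := fun i _ =>
      HeavyLx50.frm_sum _ M _
    rw [Finset.sum_congr rfl e1, HeavyLx50.frm_sum]
    have e2 : ∀ H : ℕ → ℕ → ℝ, Cw * frm M H = frm M (fun b c => Cw * H b c) := by
      intro H
      unfold frm
      rw [Finset.mul_sum]
      refine Finset.sum_congr rfl fun b _ => ?_
      rw [Finset.mul_sum]
      exact Finset.sum_congr rfl fun c _ => by ring
    rw [e2]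
    refine HeavyLx50.frm_mono fun b c hb hc => ?_
    have hbst : 0 ≤ bst St (low y M) (low y b) (low y c) := VecNPx50.bst_nonneg _ _ _ _
    have hterm : ∀ i ∈ Zf, ∀ j ∈ Zf,
        0 ≤ (if Q i b c then
          kk F1 (kw G) i j (upp y b) (upp y c) * bst St (low y M) (low y b) (low y c) *
            min (W i.2.1 i.1 i.2.2 b * f b) (W' j.2.1 j.1 j.2.2 c * g c) else 0) := by
      intro i _ j _
      split_ifs
      · exact mul_nonneg (mul_nonneg (kk_nonneg (kw_nonneg G) _ _ _ _) hbst)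
          (le_min (mul_nonneg (hW0 _ _ _ _) (hf0 _)) (mul_nonneg (hW0' _ _ _ _) (hg0 _)))
      · exact le_rfl
    rcases le_or_gt (K b c) 0 with h0 | h0
    · exact h0.trans (mul_nonneg hCw
        (Finset.sum_nonneg fun i hi => Finset.sum_nonneg fun j hj => hterm i hi j hj))
    · obtain ⟨ω, hω, hP, hcc, z, hz, z', hz', n, hn, n', hn', hwA, hwS, hle⟩ := hK b c hb hc h0
      have hub : upp y b ∣ upp y M := upp_dvd y hM.ne' hb
      have hG := core_mem (F := F1) hup hub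
      set G0 := core F1 (upp y b) with hG0def
      have hi' : (⟨G0, ⟨ω, z⟩⟩ : Σ _ : ℕ, (Σ _ : Om, Z)) ∈ Zf :=
        Finset.mem_sigma.2 ⟨hG, Finset.mem_sigma.2 ⟨hω, hz⟩⟩
      have hj' : (⟨G0, ⟨ω, z'⟩⟩ : Σ _ : ℕ, (Σ _ : Om, Z)) ∈ Zf :=
        Finset.mem_sigma.2 ⟨hG, Finset.mem_sigma.2 ⟨hω, hz'⟩⟩
      refine hle.trans (mul_le_mul_of_nonneg_left ?_ hCw)
      refine le_trans ?_ (Finset.single_le_sum
        (fun i hi => Finset.sum_nonneg fun j hj => hterm i hi j hj) hi')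
      refine le_trans ?_ (Finset.single_le_sum (fun j hj => hterm _ hi' j hj) hj')
      rw [if_pos ((hQ _ _ _).2 (show ω ∈ Os ∧ P ω b c from ⟨hω, hP⟩))]
      have hge := kk_ge (F := F1) (G := G) hω (fun ω hω => hok ω hω G0 hG) hz hn hn'
        hG0def.symm hcc.symm hwA hwS
      exact mul_le_mul_of_nonneg_right (mul_le_mul_of_nonneg_right hge hbst)
        (le_min (mul_nonneg (hW0 _ _ _ _) (hf0 _)) (mul_nonneg (hW0' _ _ _ _) (hg0 _)))
  · have hub : upp y b ∣ upp y M := upp_dvd y hM.ne' hb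
    have hG := core_mem (F := F1) hup hub
    rw [hZf, Finset.sum_sigma, Finset.sum_eq_single (core F1 (upp y b))]
    · refine le_trans (le_of_eq (Finset.sum_congr rfl fun i _ => ?_)) (hT b hb)
      unfold XX
      rw [if_pos rfl]
    · intro G' _ hne
      refine Finset.sum_eq_zero fun i _ => ?_
      unfold XX
      rw [if_neg (fun h => hne h.symm), zero_mul]
    · intro hn; exact absurd hG hn
  · have hub : upp y b ∣ upp y M := upp_dvd y hM.ne' hb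
    have hG := core_mem (F := F1) hup hub
    rw [hZf, Finset.sum_sigma, Finset.sum_eq_single (core F1 (upp y b))]
    · refine le_trans (le_of_eq (Finset.sum_congr rfl fun i _ => ?_)) (hT' b hb)
      unfold XX
      rw [if_pos rfl]
    · intro G' _ hne
      refine Finset.sum_eq_zero fun i _ => ?_
      unfold XX
      rw [if_neg (fun h => hne h.symm), zero_mul]
    · intro hn; exact absurd hG hn

end Crest.Agent.R4C.WorldSumx50
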