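import Crest.Agent.R4C.PureFL_232

/-!
# Row 4: the ZONE LEMMA (helper22)

`S` = a set of primes (the zone), `part S M` the part of `M` on the zone, `VZ S M b = w ν_Z(w)`,
`w = part S b`: this is `∏_{p ∈ Z, p missing in b} (1 - 1/p)` (`VZ_eq_prod`).

For pairs which AGREE on the zone the weight `gcd ν ν / VZ` is free: Fubini over the words `w` on
the zone (`zone_frm`), any linear bound which holds for every zone word `w` lifts with the same
constant (`zone_lift`).  In particular the pure part of Theorem C (`PureRelC`, `PureG`):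
`zone_pure`, `zone_pureFL`.
`PureRelC.fix` : fixing the zone word of a pure relation gives a pure relation.
`fixFL` : the F-Λ structure with the zone word fixed.
-/

set_option autoImplicit false

open Finset
open Crest.Agent.R4C.Basex935 Crest.Agent.R4C.Cutx50 Crest.Agent.R4C.FLDefx935
  Crest.Agent.R4C.PureL2x232

namespace Crest.Agent.R4C.ZoneBx22

variable (S : ℕ → Prop) [DecidablePred S]

/-- the zone factor `∏_{p ∈ Z missing in b} (1 - 1/p)` -/
noncomputable def VZ (M b : ℕ) : ℝ := (part S b : ℝ) * nu (part S M) (part S b)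

lemma VZ_nonneg (M b : ℕ) : 0 ≤ VZ S M b := V_nonneg _ _

lemma VZ_pos {M b : ℕ} (hM : 0 < M) (hb : b ∣ M) : 0 < VZ S M b := by
  unfold VZ
  have h1 := nu_pos (part_pos S M) (part_dvd S hM.ne' hb)
  have h2 : (0:ℝ) < part S b := by exact_mod_cast part_pos S b
  positivity

lemma VZ_le_one {M b : ℕ} (hM : 0 < M) (hb : b ∣ M) : VZ S M b ≤ 1 :=
  V_le (part_dvd S hM.ne' hb)

lemma VZ_of_mul {M n T : ℕ} (hn : n ∣ part S M) (hT : T ∣ part (fun p => ¬ S p) M) :
    VZ S M (n * T) = (n : ℝ) * nu (part S M) n := by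
  unfold VZ
  rw [part_of_mul S hn hT]

/-- `w ν_N(w) = ∏_{p ∣ N, v_p(w) < v_p(N)} (1 - 1/p)` -/
lemma V_eq_prod : ∀ N : ℕ, 0 < N → ∀ w : ℕ, w ∣ N → (w : ℝ) * nu N w =
    ∏ p ∈ N.primeFactors, (if w.factorization p < N.factorization p then 1 - 1 / (p : ℝ) else 1) := by
  refine ind_max ?_ ?_
  · intro w hw
    rw [Nat.dvd_one] at hw
    subst hw
    simp [nu]
  · intro p a M1 hp ha hM1 hnd hlt ih w hw
    have hw0 : w ≠ 0 := (Nat.pos_of_dvd_of_pos hw (Nat.mul_pos (pow_pos hp.pos a) hM1)).ne'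
    obtain ⟨v, b, hnb, he⟩ := Nat.exists_eq_pow_mul_and_not_dvd hw0 p hp.ne_one
    have hpos : 0 < p ^ a * M1 := Nat.mul_pos (pow_pos hp.pos a) hM1
    have hb0 : b ≠ 0 := fun h => hw0 (by rw [he, h, mul_zero])
    have hva : v ≤ a := by
      have h1 := (Nat.factorization_le_iff_dvd hw0 hpos.ne').2 hw p
      rw [he, fact_pmul hp v hb0 hnb, fact_pmul hp a hM1.ne' hnd, if_pos rfl, if_pos rfl] at h1
      exact h1
    have hbM : b ∣ M1 := by
      have h2 : b ∣ p ^ a * M1 := (Dvd.intro_left _ he.symm).trans hw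
      exact ((Nat.Prime.coprime_iff_not_dvd hp).2 hnb).symm.pow_right a |>.dvd_of_dvd_mul_left h2
    have hcop : Nat.Coprime (p ^ a) M1 :=
      Nat.Coprime.pow_left a ((Nat.Prime.coprime_iff_not_dvd hp).2 hnd)
    have hpf : (p ^ a * M1).primeFactors = insert p M1.primeFactors := by
      rw [Nat.primeFactors_mul (pow_ne_zero _ hp.ne_zero) hM1.ne',
        Nat.primeFactors_prime_pow ha.ne' hp, Finset.insert_eq]
    have hpn : p ∉ M1.primeFactors := fun h => hnd (Nat.dvd_of_mem_primeFactors h)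
    rw [hpf, Finset.prod_insert hpn]
    have e1 : ∀ q, q ∈ M1.primeFactors →
        (if w.factorization q < (p ^ a * M1).factorization q then 1 - 1 / (q : ℝ) else 1) =
        (if b.factorization q < M1.factorization q then 1 - 1 / (q : ℝ) else 1) := by
      intro q hq
      have hqp : q ≠ p := fun h => hpn (h ▸ hq)
      rw [he, fact_pmul hp v hb0 hnb, fact_pmul hp a hM1.ne' hnd, if_neg hqp, if_neg hqp]
    rw [Finset.prod_congr rfl e1, ← ih b hbM]
    rw [he, fact_pmul hp v hb0 hnb, fact_pmul hp a hM1.ne' hnd, if_pos rfl, if_pos rfl,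
      nu_mul hcop (pow_dvd_pow p hva) hbM, nu_prime_pow hp hva]
    have hp0 : (p : ℝ) ≠ 0 := by exact_mod_cast hp.ne_zero
    have hk : (p : ℝ) ^ v * nup p a v = if v < a then 1 - 1 / (p : ℝ) else 1 := by
      unfold nup
      have h4 : (p : ℝ) ^ v * (1 / (p : ℝ)) ^ v = 1 := by
        rw [← mul_pow, mul_one_div_cancel hp0, one_pow]
      by_cases h : v < a
      · rw [if_pos h, if_pos h]
        calc (p : ℝ) ^ v * ((1 - 1 / (p : ℝ)) * (1 / (p : ℝ)) ^ v)
            = (1 - 1 / (p : ℝ)) * ((p : ℝ) ^ v * (1 / (p : ℝ)) ^ v) := by ring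
          _ = _ := by rw [h4, mul_one]
      · have hva' : a = v := by omega
        rw [if_neg h, if_neg h, hva', h4]
    rw [← hk]
    push_cast
    ring

/-- the zone factor as a product over the zone primes missing in `b` -/
lemma VZ_eq_prod {M b : ℕ} (hM : 0 < M) (hb : b ∣ M) :
    VZ S M b = ∏ p ∈ M.primeFactors.filter S,
      (if b.factorization p < M.factorization p then 1 - 1 / (p : ℝ) else 1) := by
  unfold VZ
  rw [V_eq_prod _ (part_pos S M) _ (part_dvd S hM.ne' hb)]
  have e : (part S M).primeFactors = M.primeFactors.filter S := by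
    ext p
    rw [Finset.mem_filter, Nat.mem_primeFactors, Nat.mem_primeFactors]
    constructor
    · rintro ⟨hp, hd, _⟩
      exact ⟨⟨hp, hd.trans (part_dvd_self S M), hM.ne'⟩, prime_dvd_part S hp hd⟩
    · rintro ⟨⟨hp, hd, _⟩, hS⟩
      refine ⟨hp, ?_, part_ne S M⟩
      rw [hp.dvd_iff_one_le_factorization (part_ne S M), fact_part, if_pos hS]
      exact (hp.dvd_iff_one_le_factorization hM.ne').1 hd
  rw [e]
  refine Finset.prod_congr rfl fun p hp => ?_
  rw [Finset.mem_filter] at hp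
  rw [fact_part, fact_part, if_pos hp.2, if_pos hp.2]

/-- diagonal in the zone word -/
lemma frm_zone_diag {N : ℕ} (hN : 0 < N) (F : ℕ → ℕ → ℝ) (h : ∀ n n', n ∣ N → n' ∣ N → n ≠ n' →
    F n n' = 0) :
    frm N (fun n n' => F n n' / ((n : ℝ) * nu N n)) = ∑ n ∈ N.divisors, nu N n * F n n := by
  unfold frm
  refine Finset.sum_congr rfl fun n hn => ?_
  rw [Nat.mem_divisors] at hn
  rw [Finset.sum_eq_single n]
  · have h1 : nu N n ≠ 0 := (nu_pos hN hn.1).ne'
    have h2 : (n : ℝ) ≠ 0 := by exact_mod_cast (Nat.pos_of_dvd_of_pos hn.1 hN).ne'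
    dsimp only
    rw [Nat.gcd_self]
    field_simp
  · intro n' hn' hne
    rw [Nat.mem_divisors] at hn'
    dsimp only
    rw [h n n' hn.1 hn'.1 (Ne.symm hne), zero_div, mul_zero]
  · intro hcon
    exact absurd (Nat.mem_divisors.2 hn) hcon

/-- **ZONE FUBINI**: for a kernel supported on pairs which agree on the zone, the zone weight
`1/VZ` is exactly what is needed to average over the zone words -/
theorem zone_frm {M : ℕ} (hM : 0 < M) (F : ℕ → ℕ → ℝ)
    (h : ∀ b c, b ∣ M → c ∣ M → part S b ≠ part S c → F b c = 0) :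
    frm M (fun b c => F b c / VZ S M b) =
      ∑ w ∈ (part S M).divisors, nu (part S M) w *
        frm (part (fun p => ¬ S p) M) (fun T T' => F (w * T) (w * T')) := by
  set M1 := part (fun p => ¬ S p) M with hM1
  rw [frm_cut S hM]
  have e1 : ∀ T ∈ M1.divisors, ∀ T' ∈ M1.divisors,
      (Nat.gcd T T' : ℝ) * nu M1 T * nu M1 T' * frm (part S M) (fun n n' =>
        F (n * T) (n' * T') / VZ S M (n * T)) =
      ∑ w ∈ (part S M).divisors, nu (part S M) w *
        ((Nat.gcd T T' : ℝ) * nu M1 T * nu M1 T' * F (w * T) (w * T')) := by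
    intro T hT T' hT'
    rw [Nat.mem_divisors] at hT hT'
    have e2 : frm (part S M) (fun n n' => F (n * T) (n' * T') / VZ S M (n * T)) =
        frm (part S M) (fun n n' => F (n * T) (n' * T') / ((n : ℝ) * nu (part S M) n)) := by
      unfold frm
      refine Finset.sum_congr rfl fun n hn => Finset.sum_congr rfl fun n' _ => ?_
      rw [Nat.mem_divisors] at hn
      dsimp only
      rw [VZ_of_mul S hn.1 hT.1]
    rw [e2, frm_zone_diag (part_pos S M) (fun n n' => F (n * T) (n' * T')), Finset.mul_sum]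
    · refine Finset.sum_congr rfl fun n _ => by ring
    · intro n n' hn hn' hne
      refine h _ _ ?_ ?_ ?_
      · rw [← part_mul S hM.ne']; exact Nat.mul_dvd_mul hn hT.1
      · rw [← part_mul S hM.ne']; exact Nat.mul_dvd_mul hn' hT'.1
      · rw [part_of_mul S hn hT.1, part_of_mul S hn' hT'.1]
        exact hne
  rw [Finset.sum_congr rfl fun T hT => Finset.sum_congr rfl fun T' hT' => e1 T hT T' hT']
  unfold frm
  simp only [Finset.mul_sum]
  rw [Finset.sum_congr rfl fun T _ => Finset.sum_comm]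
  rw [Finset.sum_comm]

/-- **ZONE LIFT**: a bound with linear right side which holds for every zone word lifts with the
same constant -/
theorem zone_lift {M : ℕ} (hM : 0 < M) (F : ℕ → ℕ → ℝ) (G : ℕ → ℝ)
    (h : ∀ b c, b ∣ M → c ∣ M → part S b ≠ part S c → F b c = 0)
    (hw : ∀ w, w ∣ part S M → frm (part (fun p => ¬ S p) M) (fun T T' => F (w * T) (w * T')) ≤
      ∑ T ∈ (part (fun p => ¬ S p) M).divisors, nu (part (fun p => ¬ S p) M) T * G (w * T)) :
    frm M (fun b c => F b c / VZ S M b) ≤ ∑ b ∈ M.divisors, nu M b * G b := by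
  rw [zone_frm S hM F h, sum_cut S hM, Finset.sum_comm]
  refine Finset.sum_le_sum fun w hw' => ?_
  rw [Nat.mem_divisors] at hw'
  refine (mul_le_mul_of_nonneg_left (hw w hw'.1) (nu_nonneg _ _)).trans (le_of_eq ?_)
  rw [Finset.mul_sum]
  refine Finset.sum_congr rfl fun T hT => ?_
  rw [Nat.mem_divisors] at hT
  rw [nu_cut S hM hw'.1 hT.1]
  ring

/-- **ZONE LIFT, bilinear**: right side `C √A √B` for every zone word -/
theorem zone_lift_bilin {M : ℕ} (hM : 0 < M) (F : ℕ → ℕ → ℝ) (f g : ℕ → ℝ) (hf : ∀ b, 0 ≤ f b)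
    (hg : ∀ b, 0 ≤ g b) {C : ℝ} (hC : 0 ≤ C)
    (h : ∀ b c, b ∣ M → c ∣ M → part S b ≠ part S c → F b c = 0)
    (hw : ∀ w, w ∣ part S M → frm (part (fun p => ¬ S p) M) (fun T T' => F (w * T) (w * T')) ≤
      C * (√(∑ T ∈ (part (fun p => ¬ S p) M).divisors,
            nu (part (fun p => ¬ S p) M) T * f (w * T)) *
          √(∑ T ∈ (part (fun p => ¬ S p) M).divisors,
            nu (part (fun p => ¬ S p) M) T * g (w * T)))) :
    frm M (fun b c => F b c / VZ S M b) ≤
      C * (√(∑ b ∈ M.divisors, nu M b * f b) * √(∑ b ∈ M.divisors, nu M b * g b)) := by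
  set M1 := part (fun p => ¬ S p) M with hM1
  set A : ℕ → ℝ := fun w => ∑ T ∈ M1.divisors, nu M1 T * f (w * T) with hA
  set B : ℕ → ℝ := fun w => ∑ T ∈ M1.divisors, nu M1 T * g (w * T) with hB
  have hA0 : ∀ w, 0 ≤ A w := fun w => Finset.sum_nonneg fun _ _ => mul_nonneg (nu_nonneg _ _) (hf _)
  have hB0 : ∀ w, 0 ≤ B w := fun w => Finset.sum_nonneg fun _ _ => mul_nonneg (nu_nonneg _ _) (hg _)
  have key : ∀ k : ℕ → ℝ, ∑ b ∈ M.divisors, nu M b * k b =
      ∑ w ∈ (part S M).divisors, nu (part S M) w * ∑ T ∈ M1.divisors, nu M1 T * k (w * T) := by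
    intro k
    rw [sum_cut S hM, Finset.sum_comm]
    refine Finset.sum_congr rfl fun w hw' => ?_
    rw [Nat.mem_divisors] at hw'
    rw [Finset.mul_sum]
    refine Finset.sum_congr rfl fun T hT => ?_
    rw [Nat.mem_divisors] at hT
    rw [nu_cut S hM hw'.1 hT.1]
    ring
  rw [zone_frm S hM F h, key f, key g]
  have h1 : ∀ w ∈ (part S M).divisors, nu (part S M) w *
      frm M1 (fun T T' => F (w * T) (w * T')) ≤
      C * (√(nu (part S M) w * A w) * √(nu (part S M) w * B w)) := by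
    intro w hw'
    rw [Nat.mem_divisors] at hw'
    refine (mul_le_mul_of_nonneg_left (hw w hw'.1) (nu_nonneg _ _)).trans (le_of_eq ?_)
    have hn := nu_nonneg (part S M) w
    rw [Real.sqrt_mul hn, Real.sqrt_mul hn]
    have := Real.mul_self_sqrt hn
    calc nu (part S M) w * (C * (√(A w) * √(B w)))
        = C * ((√(nu (part S M) w) * √(nu (part S M) w)) * (√(A w) * √(B w))) := by
          rw [this]; ring
      _ = _ := by ring
  refine (Finset.sum_le_sum h1).trans ?_
  rw [← Finset.mul_sum]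
  refine mul_le_mul_of_nonneg_left ?_ hC
  exact Real.sum_sqrt_mul_sqrt_le _ (fun w => mul_nonneg (nu_nonneg _ _) (hA0 w))
    (fun w => mul_nonneg (nu_nonneg _ _) (hB0 w))

/-! ### Fixing the zone word in a pure relation -/

/-- smaller relations are pure too -/
theorem pureRelC_mono {M : ℕ} {R R' : ℕ → ℕ → Prop} (hR : PureRelC M R)
    (h : ∀ b c, b ∣ M → c ∣ M → R' b c → R b c) : PureRelC M R' := by
  cases hR with
  | base h0 => exact PureRelC.base fun b c hb hc h' => h0 b c hb hc (h b c hb hc h')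
  | @cent p a M1 _ R1 v0 hp hM hnd hv0 h1 h2 =>
    exact PureRelC.cent v0 hp hM hnd hv0 h1 fun v v' b c hv hv' hb hc h' =>
      h2 v v' b c hv hv' hb hc (h _ _ (Nat.mul_dvd_mul (pow_dvd_pow p hv) hb)
        (Nat.mul_dvd_mul (pow_dvd_pow p hv') hc) h')
  | @branch p a M1 _ R1 hp hM hnd h1 h2 =>
    exact PureRelC.branch hp hM hnd h1 fun v v' b c hv hv' hb hc h' =>
      h2 v v' b c hv hv' hb hc (h _ _ (Nat.mul_dvd_mul (pow_dvd_pow p hv) hb)
        (Nat.mul_dvd_mul (pow_dvd_pow p hv') hc) h')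

lemma part_pow_mul_pos {p a M1 : ℕ} (hp : p.Prime) (hM1 : 0 < M1) (hnd : ¬ p ∣ M1) (hS : S p) :
    part S (p ^ a * M1) = p ^ a * part S M1 ∧
      part (fun q => ¬ S q) (p ^ a * M1) = part (fun q => ¬ S q) M1 := by
  have h1 : ¬ p ∣ part S M1 := fun h => hnd (h.trans (part_dvd_self S M1))
  constructor
  · refine Nat.eq_of_factorization_eq (part_ne _ _)
      (mul_ne_zero (pow_ne_zero _ hp.ne_zero) (part_ne _ _)) fun q => ?_
    rw [fact_part, fact_pmul hp a hM1.ne' hnd, fact_pmul hp a (part_ne S M1) h1, fact_part]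
    by_cases hq : q = p
    · subst hq; simp [hS]
    · simp [hq]
  · refine Nat.eq_of_factorization_eq (part_ne _ _) (part_ne _ _) fun q => ?_
    rw [fact_part, fact_part, fact_pmul hp a hM1.ne' hnd]
    by_cases hq : q = p
    · subst hq; simp [hS]
    · simp [hq]

lemma part_pow_mul_neg {p a M1 : ℕ} (hp : p.Prime) (hM1 : 0 < M1) (hnd : ¬ p ∣ M1) (hS : ¬ S p) :
    part S (p ^ a * M1) = part S M1 ∧
      part (fun q => ¬ S q) (p ^ a * M1) = p ^ a * part (fun q => ¬ S q) M1 := by
  have h1 : ¬ p ∣ part (fun q => ¬ S q) M1 := fun h => hnd (h.trans (part_dvd_self _ M1))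
  constructor
  · refine Nat.eq_of_factorization_eq (part_ne _ _) (part_ne _ _) fun q => ?_
    rw [fact_part, fact_part, fact_pmul hp a hM1.ne' hnd]
    by_cases hq : q = p
    · subst hq; simp [hS]
    · simp [hq]
  · refine Nat.eq_of_factorization_eq (part_ne _ _)
      (mul_ne_zero (pow_ne_zero _ hp.ne_zero) (part_ne _ _)) fun q => ?_
    rw [fact_part, fact_pmul hp a hM1.ne' hnd, fact_pmul hp a (part_ne _ M1) h1, fact_part]
    by_cases hq : q = p
    · subst hq; simp [hS]
    · simp [hq]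

/-- a divisor of `p^a * N` -/
lemma dvd_pow_mul {p a N w : ℕ} (hp : p.Prime) (hN : 0 < N) (hnd : ¬ p ∣ N) (hw : w ∣ p ^ a * N) :
    ∃ v w1, v ≤ a ∧ w1 ∣ N ∧ w = p ^ v * w1 := by
  have hpos : 0 < p ^ a * N := Nat.mul_pos (pow_pos hp.pos a) hN
  have hw0 : w ≠ 0 := (Nat.pos_of_dvd_of_pos hw hpos).ne'
  obtain ⟨v, b, hnb, he⟩ := Nat.exists_eq_pow_mul_and_not_dvd hw0 p hp.ne_one
  have hb0 : b ≠ 0 := fun h => hw0 (by rw [he, h, mul_zero])
  have hva : v ≤ a := by
    have h1 := (Nat.factorization_le_iff_dvd hw0 hpos.ne').2 hw p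
    rw [he, fact_pmul hp v hb0 hnb, fact_pmul hp a hN.ne' hnd, if_pos rfl, if_pos rfl] at h1
    exact h1
  have hbM : b ∣ N := by
    have h2 : b ∣ p ^ a * N := (Dvd.intro_left _ he.symm).trans hw
    exact ((Nat.Prime.coprime_iff_not_dvd hp).2 hnb).symm.pow_right a |>.dvd_of_dvd_mul_left h2
  exact ⟨v, b, hva, hbM, he⟩

/-- **fixing the zone word of a pure relation** -/
theorem pureRelC_fix {M : ℕ} {R : ℕ → ℕ → Prop} (hR : PureRelC M R) (hMpos : 0 < M) :
    ∀ w, w ∣ part S M → PureRelC (part (fun p => ¬ S p) M) (fun T T' => R (w * T) (w * T')) := by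
  induction hR with
  | @base M R h =>
    intro w hw
    refine PureRelC.base fun b c hb hc h' => h _ _ ?_ ?_ h'
    · rw [← part_mul S hMpos.ne']; exact Nat.mul_dvd_mul hw hb
    · rw [← part_mul S hMpos.ne']; exact Nat.mul_dvd_mul hw hc
  | @cent p a M1 R R1 v0 hp hM hnd hv0 h1 h ih =>
    intro w hw
    have hprod : ∀ {w1 T}, w1 ∣ part S M1 → T ∣ part (fun q => ¬ S q) M1 → w1 * T ∣ M1 := by
      intro w1 T h3 h4
      rw [← part_mul S hM.ne']; exact Nat.mul_dvd_mul h3 h4
    by_cases hS : S p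
    · obtain ⟨e1, e2⟩ := part_pow_mul_pos S (a := a) hp hM hnd hS
      rw [e1] at hw
      rw [e2]
      have hnd1 : ¬ p ∣ part S M1 := fun h => hnd (h.trans (part_dvd_self S M1))
      obtain ⟨v, w1, hv, hw1, rfl⟩ := dvd_pow_mul hp (part_pos S M1) hnd1 hw
      refine pureRelC_mono (ih hM w1 hw1) fun b c hb hc h' => ?_
      have h5 : R (p ^ v * (w1 * b)) (p ^ v * (w1 * c)) := by
        simpa only [mul_assoc] using h'
      rcases (h v v _ _ hv hv (hprod hw1 hb) (hprod hw1 hc) h5).2 with h6 | h6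
      · exact h6
      · exact absurd rfl h6.2
    · obtain ⟨e1, e2⟩ := part_pow_mul_neg S (a := a) hp hM hnd hS
      rw [e1] at hw
      rw [e2]
      have hnd2 : ¬ p ∣ part (fun q => ¬ S q) M1 := fun h => hnd (h.trans (part_dvd_self _ M1))
      have hw0 : w ≠ 0 := (Nat.pos_of_dvd_of_pos hw (part_pos S M1)).ne'
      refine PureRelC.cent (R1 := fun T T' => R1 (w * T) (w * T')) v0 hp (part_pos _ _) hnd2 hv0
        (ih hM w hw) fun v v' b c hv hv' hb hc h' => ?_
      have h5 : R (p ^ v * (w * b)) (p ^ v' * (w * c)) := by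
        have e3 : ∀ u x, w * (p ^ u * x) = p ^ u * (w * x) := fun u x => by ring
        simpa only [e3] using h'
      obtain ⟨h6, h7⟩ := h v v' _ _ hv hv' (hprod hw hb) (hprod hw hc) h5
      refine ⟨h6, h7.imp id fun h8 => ⟨?_, h8.2⟩⟩
      exact Nat.eq_of_mul_eq_mul_left (Nat.pos_of_ne_zero hw0) h8.1
  | @branch p a M1 R R1 hp hM hnd h1 h ih =>
    intro w hw
    have hprod : ∀ {w1 T}, w1 ∣ part S M1 → T ∣ part (fun q => ¬ S q) M1 → w1 * T ∣ M1 := by
      intro w1 T h3 h4
      rw [← part_mul S hM.ne']; exact Nat.mul_dvd_mul h3 h4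
    by_cases hS : S p
    · obtain ⟨e1, e2⟩ := part_pow_mul_pos S (a := a) hp hM hnd hS
      rw [e1] at hw
      rw [e2]
      have hnd1 : ¬ p ∣ part S M1 := fun h => hnd (h.trans (part_dvd_self S M1))
      obtain ⟨v, w1, hv, hw1, rfl⟩ := dvd_pow_mul hp (part_pos S M1) hnd1 hw
      refine pureRelC_mono (ih v hv hM w1 hw1) fun b c hb hc h' => ?_
      have h5 : R (p ^ v * (w1 * b)) (p ^ v * (w1 * c)) := by
        simpa only [mul_assoc] using h'
      exact (h v v _ _ hv hv (hprod hw1 hb) (hprod hw1 hc) h5).2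
    · obtain ⟨e1, e2⟩ := part_pow_mul_neg S (a := a) hp hM hnd hS
      rw [e1] at hw
      rw [e2]
      have hnd2 : ¬ p ∣ part (fun q => ¬ S q) M1 := fun h => hnd (h.trans (part_dvd_self _ M1))
      refine PureRelC.branch (R1 := fun v T T' => R1 v (w * T) (w * T')) hp (part_pos _ _) hnd2
        (fun v hv => ih v hv hM w hw) fun v v' b c hv hv' hb hc h' => ?_
      have h5 : R (p ^ v * (w * b)) (p ^ v' * (w * c)) := by
        have e3 : ∀ u x, w * (p ^ u * x) = p ^ u * (w * x) := fun u x => by ring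
        simpa only [e3] using h'
      exact h v v' _ _ hv hv' (hprod hw hb) (hprod hw hc) h5

open Classical in
/-- **PURE PART WITH THE ZONE BOOST**: pairs of a pure relation which agree on the zone, weight
`gcd ν ν / VZ`: same constant -/
theorem zone_pure {M : ℕ} (hM : 0 < M) {R : ℕ → ℕ → Prop} (hR : PureRelC M R)
    (f : ℕ → ℝ) (hf : ∀ b, 0 ≤ f b) :
    frm M (fun b c => (if R b c ∧ part S b = part S c then f b * f c else 0) / VZ S M b) ≤
      4 * ∑ b ∈ M.divisors, nu M b * f b ^ 2 := by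
  have e : 4 * ∑ b ∈ M.divisors, nu M b * f b ^ 2 =
      ∑ b ∈ M.divisors, nu M b * (4 * f b ^ 2) := by
    rw [Finset.mul_sum]; exact Finset.sum_congr rfl fun _ _ => by ring
  rw [e]
  refine zone_lift S hM (fun b c => if R b c ∧ part S b = part S c then f b * f c else 0)
    (fun b => 4 * f b ^ 2) (fun b c _ _ hne => if_neg (fun h => hne h.2)) fun w hw => ?_
  have h1 := pure_energyC' (pureRelC_fix S hR hM w hw) (fun T => f (w * T)) (fun T => hf _)
  have e2 : ∑ T ∈ (part (fun p => ¬ S p) M).divisors, nu (part (fun p => ¬ S p) M) T *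
      (4 * f (w * T) ^ 2) = 4 * ∑ T ∈ (part (fun p => ¬ S p) M).divisors,
        nu (part (fun p => ¬ S p) M) T * f (w * T) ^ 2 := by
    rw [Finset.mul_sum]; exact Finset.sum_congr rfl fun _ _ => by ring
  rw [e2]
  refine le_trans (frm_mono fun T T' hT hT' => ?_) h1
  split_ifs with h2 h3 h3
  · exact le_rfl
  · exact absurd h2.1 h3
  · exact mul_nonneg (hf _) (hf _)
  · exact le_rfl

open Classical in
/-- the same for the pure good pairs of an F-Λ structure -/
theorem zone_pureFL {M : ℕ} (hM : 0 < M) (F : FL M) (f : ℕ → ℝ) (hf : ∀ b, 0 ≤ f b) :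
    frm M (fun b c => (if PureG F b c ∧ part S b = part S c then f b * f c else 0) / VZ S M b) ≤
      4 * ∑ b ∈ M.divisors, nu M b * f b ^ 2 :=
  zone_pure S hM (pureRelC_of_FL M hM F) f hf

open Classical in
/-- bilinear form of `zone_pure` -/
theorem zone_pure_bilin {M : ℕ} (hM : 0 < M) {R : ℕ → ℕ → Prop} (hR : PureRelC M R)
    (f g : ℕ → ℝ) (hf : ∀ b, 0 ≤ f b) (hg : ∀ b, 0 ≤ g b) {x : ℝ} (hx : 0 < x) :
    frm M (fun b c => (if R b c ∧ part S b = part S c then f b * g c else 0) / VZ S M b) ≤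
      8 * (x * ∑ b ∈ M.divisors, nu M b * f b ^ 2 + x⁻¹ * ∑ b ∈ M.divisors, nu M b * g b ^ 2) := by
  have hsx : 0 < Real.sqrt x := Real.sqrt_pos.2 hx
  set y := Real.sqrt x with hy
  have hyy : y * y = x := Real.mul_self_sqrt hx.le
  set h : ℕ → ℝ := fun b => y * f b + y⁻¹ * g b with hh
  have hh0 : ∀ b, 0 ≤ h b := fun b => add_nonneg (mul_nonneg hsx.le (hf b))
    (mul_nonneg (inv_nonneg.2 hsx.le) (hg b))
  have h1 : frm M (fun b c => (if R b c ∧ part S b = part S c then f b * g c else 0) / VZ S M b) ≤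
      frm M (fun b c => (if R b c ∧ part S b = part S c then h b * h c else 0) / VZ S M b) := by
    refine frm_mono fun b c _ _ => ?_
    refine div_le_div_of_nonneg_right ?_ (VZ_nonneg S M b)
    split_ifs
    · simp only [hh]
      have e : (y * f b + y⁻¹ * g b) * (y * f c + y⁻¹ * g c)
          = f b * g c + (y * y * (f b * f c) + g b * f c + y⁻¹ * y⁻¹ * (g b * g c)) := by
        field_simp; ring
      rw [e]
      have a1 := mul_nonneg (hf b) (hf c)
      have a2 := mul_nonneg (hg b) (hf c)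
      have a3 := mul_nonneg (hg b) (hg c)
      have : 0 ≤ y * y * (f b * f c) + g b * f c + y⁻¹ * y⁻¹ * (g b * g c) := by positivity
      linarith
    · exact le_rfl
  refine h1.trans ((zone_pure S hM hR h hh0).trans ?_)
  rw [Finset.mul_sum, Finset.mul_sum, Finset.mul_sum, ← Finset.sum_add_distrib, Finset.mul_sum]
  refine Finset.sum_le_sum fun b _ => ?_
  have h2 := nu_nonneg M b
  have h3 : h b ^ 2 ≤ 2 * (x * f b^2 + x⁻¹ * g b^2) := by
    simp only [hh]
    have e : x⁻¹ = y⁻¹ * y⁻¹ := by rw [← hyy, mul_inv]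
    rw [e, ← hyy]
    nlinarith [sq_nonneg (y * f b - y⁻¹ * g b)]
  have h4 := mul_le_mul_of_nonneg_left h3 h2
  calc 4 * (nu M b * h b ^ 2) ≤ 4 * (nu M b * (2 * (x * f b^2 + x⁻¹ * g b^2))) := by linarith
    _ = 8 * (x * (nu M b * f b ^ 2) + x⁻¹ * (nu M b * g b ^ 2)) := by ring

/-! ### Fixing the zone word in an F-Λ structure -/

/-- the F-Λ structure on the words off the zone, zone word `w` fixed -/
def fixFL {M : ℕ} (hM : 0 < M) (w : ℕ) (hw : w ∣ part S M) (F : FL M) :
    FL (part (fun p => ¬ S p) M) where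
  ctr T q := if S q then some 0 else F.ctr (w * T) q
  coh := by
    intro b c q hb hc hq h
    by_cases hS : S q
    · simp [hS]
    · simp only [hS, if_false]
      have hb' : w * b ∣ M := by
        rw [← part_mul S hM.ne']; exact Nat.mul_dvd_mul hw hb
      have hc' : w * c ∣ M := by
        rw [← part_mul S hM.ne']; exact Nat.mul_dvd_mul hw hc
      have hw0 : w ≠ 0 := (Nat.pos_of_dvd_of_pos hw (part_pos S M)).ne'
      have hb0 : b ≠ 0 := (Nat.pos_of_dvd_of_pos hb (part_pos _ M)).ne'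
      have hc0 : c ≠ 0 := (Nat.pos_of_dvd_of_pos hc (part_pos _ M)).ne'
      refine F.coh hb' hc' hq fun r hr hqr hn => ?_
      rw [Nat.factorization_mul hw0 hb0, Nat.factorization_mul hw0 hc0, Finsupp.add_apply,
        Finsupp.add_apply]
      congr 1
      by_cases hSr : S r
      · rw [fact_zero_of_dvd_part (fun p => ¬ S p) hb (p := r) (by simpa using hSr),
          fact_zero_of_dvd_part (fun p => ¬ S p) hc (p := r) (by simpa using hSr)]
      · refine h r hr hqr ?_
        simp only [hSr, if_false]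
        exact hn
  le := by
    intro b q v hb hq h
    by_cases hS : S q
    · simp only [hS, if_true, Option.some.injEq] at h
      omega
    · simp only [hS, if_false] at h
      have hb' : w * b ∣ M := by
        rw [← part_mul S hM.ne']; exact Nat.mul_dvd_mul hw hb
      have h1 := F.le hb' hq h
      rw [fact_part, if_pos hS]
      exact h1

lemma fixFL_ctr {M : ℕ} (hM : 0 < M) (w : ℕ) (hw : w ∣ part S M) (F : FL M) {T q : ℕ}
    (hq : ¬ S q) : (fixFL S hM w hw F).ctr T q = F.ctr (w * T) q := by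
  show (if S q then some 0 else F.ctr (w * T) q) = _
  rw [if_neg hq]

end Crest.Agent.R4C.ZoneBx22
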