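import Crest.Agent.R4C.S4a_74
import Crest.Agent.R4C.S4c_682

/-!
# Row 4, BLOCK S7 v0 (note 2909), item (4): the shared zone of a near pair, no-conflict part
(helper369)

Pair of items `b = g s`, `b' = g s'`, `f` a centre of `b`, `f' = tr s s' h f` the same point seen
from `b'`; `g_f = gg b f`, `g_f' = gg b' f'`, `G = gcd(g_f, g_f') = gcd(b, b', N)`, `G ∣ g`,
`g_f = G al`, `g_f' = G al'`; activation exponent `A` (`A = 6` in the text): the centre is used at
`p` only if `p ≤ (g_f/L)^A`.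

* `zone_real`  : the real inequality (`al`, `al'` with large primes).
* `al_left`, `al_right` : a prime of `al` divides `s` and is explained (seen from `b'`), etc.
* `zone`  : an unkilled pair without conflict has `min (g_f/L) (g_f'/L) ≤ max (G/L) ((L/G)^{1/(A-1)})`.
* `B2_le` : the boost at the common missing primes at which both centres are active is
  `≤ CM (1 + A/(A-1) log (1/r))` if `min τ τ' ≤ (1/r)^{1/(A-1)}`, `r ≤ 1`.
* `B2_zone` : both together, `G ≤ L`.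
-/

set_option autoImplicit false

namespace Crest.Agent.R4C.Zonex369

open Crest.Agent.R4C.CrCoinx935 Crest.Agent.R4C.S4x74 Crest.Agent.R4C.S4cx682

/-! ### the real inequality -/

/-- if `1 ≤ a ≤ a'`, `(r a')^A < a`, then `r a < (1/r)^{1/(A-1)}` -/
lemma key {r a a' : ℝ} {A : ℕ} (hA : 2 ≤ A) (hr : 0 < r) (ha : 0 < a) (haa : a ≤ a')
    (h : (r * a') ^ A < a) : r * a ≤ (1 / r) ^ (1 / ((A : ℝ) - 1)) := by
  have hA1 : (1 : ℝ) ≤ (A : ℝ) - 1 := by
    have : (2 : ℝ) ≤ A := by exact_mod_cast hA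
    linarith
  have h1 : (r * a) ^ A < a := lt_of_le_of_lt (by gcongr) h
  have hra : 0 < r * a := by positivity
  -- `(r a)^(A-1) ≤ 1/r`
  have h2 : (r * a) ^ (A - 1) ≤ 1 / r := by
    rw [le_div_iff₀ hr]
    have e : (r * a) ^ A = (r * a) ^ (A - 1) * (r * a) := by
      rw [← pow_succ]; congr 1; omega
    rw [e] at h1
    have h3 : ((r * a) ^ (A - 1) * r) * a < 1 * a := by linarith
    exact (lt_of_mul_lt_mul_right h3 ha.le).le
  have h4 : ((r * a) ^ (A - 1)) ^ (1 / ((A : ℝ) - 1)) = r * a := by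
    have e : ((A : ℝ) - 1) = ((A - 1 : ℕ) : ℝ) := by
      rw [Nat.cast_sub (by omega)]; simp
    rw [e, one_div]
    exact Real.pow_rpow_inv_natCast hra.le (by omega)
  rw [← h4]
  exact Real.rpow_le_rpow (by positivity) h2 (by positivity)

/-- **zone inequality** -/
theorem zone_real {g1 L : ℝ} {A : ℕ} (hA : 2 ≤ A) (hg : 0 < g1) (hL : 0 < L) {al al' : ℕ}
    (h0 : al ≠ 0) (h0' : al' ≠ 0)
    (h : ∀ p : ℕ, p.Prime → p ∣ al → (g1 * al' / L) ^ A < p)
    (h' : ∀ p : ℕ, p.Prime → p ∣ al' → (g1 * al / L) ^ A < p) :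
    min (g1 * al / L) (g1 * al' / L) ≤ max (g1 / L) ((L / g1) ^ (1 / ((A : ℝ) - 1))) := by
  by_cases h1 : al = 1
  · subst h1
    refine le_max_of_le_left ((min_le_left _ _).trans ?_)
    simp
  by_cases h1' : al' = 1
  · subst h1'
    refine le_max_of_le_left ((min_le_right _ _).trans ?_)
    simp
  refine le_max_of_le_right ?_
  have hal : (0 : ℝ) < al := by exact_mod_cast Nat.pos_of_ne_zero h0
  have hal' : (0 : ℝ) < al' := by exact_mod_cast Nat.pos_of_ne_zero h0'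
  obtain ⟨p, hp, hpa⟩ := Nat.exists_prime_and_dvd h1
  obtain ⟨p', hp', hpa'⟩ := Nat.exists_prime_and_dvd h1'
  have k1 : (g1 / L * al') ^ A < al := by
    have e : g1 / L * al' = g1 * al' / L := by ring
    rw [e]
    refine (h p hp hpa).trans_le ?_
    exact_mod_cast Nat.le_of_dvd (Nat.pos_of_ne_zero h0) hpa
  have k2 : (g1 / L * al) ^ A < al' := by
    have e : g1 / L * al = g1 * al / L := by ring
    rw [e]
    refine (h' p' hp' hpa').trans_le ?_
    exact_mod_cast Nat.le_of_dvd (Nat.pos_of_ne_zero h0') hpa'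
  have hr : 0 < g1 / L := by positivity
  have e : L / g1 = 1 / (g1 / L) := by field_simp
  rw [e]
  rcases le_total (al : ℝ) al' with hle | hle
  · refine (min_le_left _ _).trans ?_
    have := key hA hr hal hle k1
    have e2 : g1 / L * al = g1 * al / L := by ring
    rwa [e2] at this
  · refine (min_le_right _ _).trans ?_
    have := key hA hr hal' hle k2
    have e2 : g1 / L * al' = g1 * al' / L := by ring
    rwa [e2] at this

/-- the form of the leaf: `g1 ≤ L` -/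
theorem zone_real' {g1 L : ℝ} {A : ℕ} (hA : 2 ≤ A) (hg : 0 < g1) (hgL : g1 ≤ L) {al al' : ℕ}
    (h0 : al ≠ 0) (h0' : al' ≠ 0)
    (h : ∀ p : ℕ, p.Prime → p ∣ al → (g1 * al' / L) ^ A < p)
    (h' : ∀ p : ℕ, p.Prime → p ∣ al' → (g1 * al / L) ^ A < p) :
    min (g1 * al / L) (g1 * al' / L) ≤ (L / g1) ^ (1 / ((A : ℝ) - 1)) := by
  have hL : 0 < L := hg.trans_le hgL
  have hA1 : (1 : ℝ) ≤ (A : ℝ) - 1 := by
    have : (2 : ℝ) ≤ A := by exact_mod_cast hA
    linarith
  refine (zone_real hA hg hL h0 h0' h h').trans (max_le ?_ le_rfl)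
  have h1 : g1 / L ≤ 1 := (div_le_one hL).2 hgL
  have h2 : 1 ≤ (L / g1) ^ (1 / ((A : ℝ) - 1)) :=
    Real.one_le_rpow ((one_le_div hg).2 hgL) (by positivity)
  exact h1.trans h2

/-! ### arithmetic of the pair -/

section pair
variable {g s s' : ℕ} {h : ℤ} {f : ℚ}

/-- `G = gcd(g_f(b), g_f'(b'))` -/
def GG (g s s' : ℕ) (h : ℤ) (f : ℚ) : ℕ :=
  Nat.gcd (gg (g * s) f) (gg (g * s') (tr s s' h f))

lemma GG_pos (hg : 0 < g) (hs : 0 < s) : 0 < GG g s s' h f :=
  Nat.gcd_pos_of_pos_left _ (gg_pos (Nat.mul_pos hg hs) f)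

/-- `G` divides `g` -/
lemma GG_dvd (hc : Nat.Coprime s s') : GG g s s' h f ∣ g := by
  have h1 : GG g s s' h f ∣ Nat.gcd (g * s) (g * s') :=
    Nat.dvd_gcd ((Nat.gcd_dvd_left _ _).trans (gg_dvd _ _))
      ((Nat.gcd_dvd_right _ _).trans (gg_dvd _ _))
  rwa [Nat.gcd_mul_left, hc.gcd_eq_one, mul_one] at h1

/-- `al = g_f / G` -/
def al (g s s' : ℕ) (h : ℤ) (f : ℚ) : ℕ := gg (g * s) f / GG g s s' h f

/-- `al' = g_f' / G` -/
def al' (g s s' : ℕ) (h : ℤ) (f : ℚ) : ℕ := gg (g * s') (tr s s' h f) / GG g s s' h f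

lemma GG_mul_al : GG g s s' h f * al g s s' h f = gg (g * s) f :=
  Nat.mul_div_cancel' (Nat.gcd_dvd_left _ _)

lemma GG_mul_al' : GG g s s' h f * al' g s s' h f = gg (g * s') (tr s s' h f) :=
  Nat.mul_div_cancel' (Nat.gcd_dvd_right _ _)

lemma coprime_al (hg : 0 < g) (hs : 0 < s) : Nat.Coprime (al g s s' h f) (al' g s s' h f) :=
  Nat.coprime_div_gcd_div_gcd (GG_pos hg hs)

/-- a prime power dividing `g_f = gcd(b, N)` and `b'` divides `g_f' = gcd(b', N)` -/
lemma dvd_gg_of_dvd (hs' : 0 < s') (hc : Nat.Coprime s s') {m : ℕ} (h1 : m ∣ gg (g * s) f)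
    (h2 : m ∣ g * s') : m ∣ gg (g * s') (tr s s' h f) := by
  obtain ⟨n, n', hn⟩ := exists_hits hc h
  rw [← gcd_num (g * s') (tr s s' h f) n', tr_zz hs' hn]
  refine Nat.dvd_gcd h2 ?_
  refine h1.trans ?_
  rw [← gcd_num (g * s) f n]
  exact Nat.gcd_dvd_right _ _

lemma dvd_gg_of_dvd' (hs' : 0 < s') (hc : Nat.Coprime s s') {m : ℕ}
    (h1 : m ∣ gg (g * s') (tr s s' h f)) (h2 : m ∣ g * s) : m ∣ gg (g * s) f := by
  obtain ⟨n, n', hn⟩ := exists_hits hc h
  rw [← gcd_num (g * s) f n, ← tr_zz hs' hn]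
  refine Nat.dvd_gcd h2 ?_
  refine h1.trans ?_
  rw [← gcd_num (g * s') (tr s s' h f) n']
  exact Nat.gcd_dvd_right _ _

/-- a prime of `al` divides `s` -/
theorem al_dvd_s (hg : 0 < g) (hs : 0 < s) (hs' : 0 < s') (hc : Nat.Coprime s s') {p : ℕ}
    (hp : p.Prime) (hpa : p ∣ al g s s' h f) : p ∣ s := by
  -- the full power `p^(v+1)`, `v = v_p(G)`, divides `g_f`, not `g_f'`, hence not `b'`
  have hF : Fact p.Prime := ⟨hp⟩
  set G := GG g s s' h f with hG
  have hGp : 0 < G := GG_pos hg hs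
  set v := padicValNat p G with hv
  have h1 : p ^ (v + 1) ∣ gg (g * s) f := by
    rw [← GG_mul_al (g := g) (s := s) (s' := s') (h := h) (f := f), pow_succ]
    exact mul_dvd_mul pow_padicValNat_dvd hpa
  have h2 : ¬ p ^ (v + 1) ∣ g * s' := by
    intro hc2
    have h3 : p ^ (v + 1) ∣ G := Nat.dvd_gcd h1 (dvd_gg_of_dvd hs' hc h1 hc2)
    exact pow_succ_padicValNat_not_dvd hGp.ne' h3
  have h4 : p ^ (v + 1) ∣ g * s := h1.trans (gg_dvd _ _)
  by_contra hps
  have hcop : Nat.Coprime (p ^ (v + 1)) s := Nat.Coprime.pow_left _ ((hp.coprime_iff_not_dvd).2 hps)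
  exact h2 ((hcop.dvd_of_dvd_mul_right h4).mul_right _)

/-- a prime of `al'` divides `s'` -/
theorem al'_dvd_s' (hg : 0 < g) (hs : 0 < s) (hs' : 0 < s') (hc : Nat.Coprime s s') {p : ℕ}
    (hp : p.Prime) (hpa : p ∣ al' g s s' h f) : p ∣ s' := by
  have hF : Fact p.Prime := ⟨hp⟩
  set G := GG g s s' h f with hG
  have hGp : 0 < G := GG_pos hg hs
  set v := padicValNat p G with hv
  have h1 : p ^ (v + 1) ∣ gg (g * s') (tr s s' h f) := by
    rw [← GG_mul_al' (g := g) (s := s) (s' := s') (h := h) (f := f), pow_succ]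
    exact mul_dvd_mul pow_padicValNat_dvd hpa
  have h2 : ¬ p ^ (v + 1) ∣ g * s := by
    intro hc2
    have h3 : p ^ (v + 1) ∣ G := Nat.dvd_gcd (dvd_gg_of_dvd' hs' hc h1 hc2) h1
    exact pow_succ_padicValNat_not_dvd hGp.ne' h3
  have h4 : p ^ (v + 1) ∣ g * s' := h1.trans (gg_dvd _ _)
  by_contra hps
  have hcop : Nat.Coprime (p ^ (v + 1)) s' :=
    Nat.Coprime.pow_left _ ((hp.coprime_iff_not_dvd).2 hps)
  exact h2 ((hcop.dvd_of_dvd_mul_right h4).mul_right _)

/-- a prime of `al'` is explained seen from `b` : `v_p(N) > v_p(b)` -/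
theorem al'_expl (hg : 0 < g) (hs : 0 < s) (hs' : 0 < s') (hc : Nat.Coprime s s') {p : ℕ}
    (hp : p.Prime) (hpa : p ∣ al' g s s' h f) : explL s h f p := by
  -- `p ∤ den f'` would do; otherwise `p ∤ W'`, `v_p(N) = v_p(g_f') > v_p(G)`
  have hF : Fact p.Prime := ⟨hp⟩
  have hps' := al'_dvd_s' hg hs hs' hc hp hpa
  obtain ⟨n, n', hn⟩ := exists_hits hc h
  rw [expl_iff_num hp hg hs hc hps' hn]
  -- `p^(v_p(g s) + 1) ∣ num z`
  set G := GG g s s' h f with hG
  have hGp : 0 < G := GG_pos hg hs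
  set v := padicValNat p G with hv
  have h1 : p ^ (v + 1) ∣ gg (g * s') (tr s s' h f) := by
    rw [← GG_mul_al' (g := g) (s := s) (s' := s') (h := h) (f := f), pow_succ]
    exact mul_dvd_mul pow_padicValNat_dvd hpa
  have h2 : ¬ p ^ (v + 1) ∣ g * s := by
    intro hc2
    have h3 : p ^ (v + 1) ∣ G := Nat.dvd_gcd (dvd_gg_of_dvd' hs' hc h1 hc2) h1
    exact pow_succ_padicValNat_not_dvd hGp.ne' h3
  have hgs : g * s ≠ 0 := (Nat.mul_pos hg hs).ne'
  have h3 : padicValNat p (g * s) ≤ v := by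
    by_contra hlt
    rw [not_le] at hlt
    exact h2 ((pow_dvd_pow p (by omega)).trans (pow_padicValNat_dvd (p := p) (n := g * s)))
  have h4 : p ^ (v + 1) ∣ (zz (g * s) f n).num.natAbs := by
    refine h1.trans ?_
    rw [← gcd_num (g * s') (tr s s' h f) n', tr_zz hs' hn]
    exact Nat.gcd_dvd_right _ _
  have h5 : p ^ (padicValNat p (g * s) + 1) ∣ (zz (g * s) f n).num.natAbs :=
    (pow_dvd_pow p (by omega)).trans h4
  exact_mod_cast (Int.natCast_dvd.2 h5)

/-- mirrored -/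
theorem al_expl (hg : 0 < g) (hs : 0 < s) (hs' : 0 < s') (hc : Nat.Coprime s s') {p : ℕ}
    (hp : p.Prime) (hpa : p ∣ al g s s' h f) : explL s' (-h) (tr s s' h f) p := by
  have e : al' g s' s (-h) (tr s s' h f) = al g s s' h f := by
    unfold al' al GG
    rw [tr_tr hs hs', Nat.gcd_comm]
  rw [← e] at hpa
  exact al'_expl hg hs' hs hc.symm hp hpa

/-- **zone of an unkilled pair without conflict**: both members use the common centre at every
explained differing prime at which it is active -/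
theorem zone {lam : ℕ → ℕ → Option ℤ} {q q' : ℕ} {L : ℝ} {A : ℕ} (hA : 2 ≤ A) (hL : 0 < L)
    (hg : 0 < g) (hs : 0 < s) (hs' : 0 < s') (hc : Nat.Coprime s s')
    (hnk : ¬ killedL lam q q' s s' h)
    (hl : ∀ p : ℕ, p.Prime → p ∣ s' → explL s h f p → (p : ℝ) ≤ (gg (g * s) f / L) ^ A →
      ∃ a, lam q p = some a ∧ (p : ℤ) ∣ f.num + f.den * a)
    (hr : ∀ p : ℕ, p.Prime → p ∣ s → explL s' (-h) (tr s s' h f) p →
      (p : ℝ) ≤ (gg (g * s') (tr s s' h f) / L) ^ A →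
      ∃ a, lam q' p = some a ∧ (p : ℤ) ∣ (tr s s' h f).num + (tr s s' h f).den * a) :
    min ((gg (g * s) f : ℝ) / L) ((gg (g * s') (tr s s' h f) : ℝ) / L) ≤
      max ((GG g s s' h f : ℝ) / L) ((L / GG g s s' h f) ^ (1 / ((A : ℝ) - 1))) := by
  have hGp : 0 < GG g s s' h f := GG_pos hg hs
  have e1 : (gg (g * s) f : ℝ) = (GG g s s' h f : ℝ) * (al g s s' h f : ℝ) := by
    exact_mod_cast (GG_mul_al (g := g) (s := s) (s' := s') (h := h) (f := f)).symm
  have e2 : (gg (g * s') (tr s s' h f) : ℝ) = (GG g s s' h f : ℝ) * (al' g s s' h f : ℝ) := by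
    exact_mod_cast (GG_mul_al' (g := g) (s := s) (s' := s') (h := h) (f := f)).symm
  have n1 : al g s s' h f ≠ 0 := by
    intro h0
    have := GG_mul_al (g := g) (s := s) (s' := s') (h := h) (f := f)
    rw [h0, mul_zero] at this
    exact (gg_pos (Nat.mul_pos hg hs) f).ne this
  have n2 : al' g s s' h f ≠ 0 := by
    intro h0
    have := GG_mul_al' (g := g) (s := s) (s' := s') (h := h) (f := f)
    rw [h0, mul_zero] at this
    exact (gg_pos (Nat.mul_pos hg hs') _).ne this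
  rw [e1, e2]
  refine zone_real hA (by exact_mod_cast hGp) hL n1 n2 ?_ ?_
  · intro p hp hpa
    by_contra hle
    rw [not_lt] at hle
    have hps := al_dvd_s hg hs hs' hc hp hpa
    have hE := al_expl hg hs hs' hc hp hpa
    obtain ⟨a, ha, hd⟩ := hr p hp hps hE (by rw [e2]; exact hle)
    exact hnk (killedL_of_right hp hc hps hE ha hd)
  · intro p hp hpa
    by_contra hle
    rw [not_lt] at hle
    have hps := al'_dvd_s' hg hs hs' hc hp hpa
    have hE := al'_expl hg hs hs' hc hp hpa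
    obtain ⟨a, ha, hd⟩ := hl p hp hps hE (by rw [e1]; exact hle)
    exact hnk (killedL_of_left hp hc hps hE ha hd)

end pair

/-! ### the boost -/

/-- boost of the primes at which both centres are active -/
theorem B2_le {P : Finset ℕ} {τ τ' r : ℝ} {A : ℕ} (hA : 2 ≤ A) (hr : 0 < r) (hr1 : r ≤ 1)
    (hτ : 0 ≤ τ) (hτ' : 0 ≤ τ')
    (hz : min τ τ' ≤ (1 / r) ^ (1 / ((A : ℝ) - 1)))
    (hP : ∀ p ∈ P, p.Prime ∧ (p : ℝ) ≤ τ ^ A ∧ (p : ℝ) ≤ τ' ^ A) :
    ∏ p ∈ P, (1 - 1 / (p : ℝ))⁻¹ ≤ CM * (1 + A / ((A : ℝ) - 1) * Real.log (1 / r)) := by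
  have hA1 : (1 : ℝ) ≤ (A : ℝ) - 1 := by
    have : (2 : ℝ) ≤ A := by exact_mod_cast hA
    linarith
  have hlr : 0 ≤ Real.log (1 / r) := Real.log_nonneg ((one_le_div hr).2 hr1)
  rcases P.eq_empty_or_nonempty with rfl | ⟨p0, hp0⟩
  · rw [Finset.prod_empty]
    have h1 : 0 ≤ A / ((A : ℝ) - 1) * Real.log (1 / r) := by positivity
    have := two_le_CM
    nlinarith
  set m := min τ τ' with hm
  have hm0 : 0 ≤ m := le_min hτ hτ'
  have hpm : ∀ p ∈ P, (p : ℝ) ≤ m ^ A := by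
    intro p hp
    rcases le_total τ τ' with h1 | h1
    · rw [hm, min_eq_left h1]; exact (hP p hp).2.1
    · rw [hm, min_eq_right h1]; exact (hP p hp).2.2
  have hpow0 : 0 ≤ m ^ A := by positivity
  have hX2 : (2 : ℝ) ≤ m ^ A := by
    refine le_trans ?_ (hpm p0 hp0)
    exact_mod_cast (hP p0 hp0).1.two_le
  have hX : 1 ≤ ⌊m ^ A⌋₊ := Nat.le_floor (by push_cast; linarith)
  have h1 := prod_inv_le_of_subset ⌊m ^ A⌋₊ hX P
    (fun p hp => ⟨(hP p hp).1, Nat.le_floor (hpm p hp)⟩)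
  refine h1.trans ?_
  have hCM := CM_pos
  have hmpos : 0 < m := by
    by_contra h0
    have h2 : m = 0 := le_antisymm (not_lt.1 h0) hm0
    rw [h2, zero_pow (by omega)] at hX2
    linarith
  have h2 : Real.log (⌊m ^ A⌋₊ : ℝ) ≤ A / ((A : ℝ) - 1) * Real.log (1 / r) := by
    calc Real.log (⌊m ^ A⌋₊ : ℝ) ≤ Real.log (m ^ A) :=
          Real.log_le_log (by exact_mod_cast hX) (Nat.floor_le hpow0)
      _ = A * Real.log m := by rw [Real.log_pow]
      _ ≤ A * Real.log ((1 / r) ^ (1 / ((A : ℝ) - 1))) := by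
          refine mul_le_mul_of_nonneg_left (Real.log_le_log hmpos hz) (by positivity)
      _ = A / ((A : ℝ) - 1) * Real.log (1 / r) := by
          rw [Real.log_rpow (by positivity)]; ring
  gcongr

/-- **both together** (`G ≤ L`): the boost of an unkilled pair without conflict, over any set of
primes at which both centres are active, is `≤ CM (1 + A/(A-1) log(L/G))` -/
theorem B2_zone {lam : ℕ → ℕ → Option ℤ} {q q' g s s' : ℕ} {h : ℤ} {f : ℚ} {L : ℝ} {A : ℕ}
    (hA : 2 ≤ A) (hg : 0 < g) (hs : 0 < s) (hs' : 0 < s')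
    (hc : Nat.Coprime s s') (hGL : (GG g s s' h f : ℝ) ≤ L)
    (hnk : ¬ killedL lam q q' s s' h)
    (hl : ∀ p : ℕ, p.Prime → p ∣ s' → explL s h f p → (p : ℝ) ≤ (gg (g * s) f / L) ^ A →
      ∃ a, lam q p = some a ∧ (p : ℤ) ∣ f.num + f.den * a)
    (hr : ∀ p : ℕ, p.Prime → p ∣ s → explL s' (-h) (tr s s' h f) p →
      (p : ℝ) ≤ (gg (g * s') (tr s s' h f) / L) ^ A →
      ∃ a, lam q' p = some a ∧ (p : ℤ) ∣ (tr s s' h f).num + (tr s s' h f).den * a)
    {P : Finset ℕ} (hP : ∀ p ∈ P, p.Prime ∧ (p : ℝ) ≤ (gg (g * s) f / L) ^ A ∧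
      (p : ℝ) ≤ (gg (g * s') (tr s s' h f) / L) ^ A) :
    ∏ p ∈ P, (1 - 1 / (p : ℝ))⁻¹ ≤
      CM * (1 + A / ((A : ℝ) - 1) * Real.log (L / GG g s s' h f)) := by
  have hGp : (0 : ℝ) < (GG g s s' h f : ℝ) := by exact_mod_cast GG_pos (s' := s') hg hs
  have hL : 0 < L := hGp.trans_le hGL
  have hz := zone hA hL hg hs hs' hc hnk hl hr
  have hA1 : (1 : ℝ) ≤ (A : ℝ) - 1 := by
    have : (2 : ℝ) ≤ A := by exact_mod_cast hA
    linarith
  have h1 : (GG g s s' h f : ℝ) / L ≤ (L / GG g s s' h f) ^ (1 / ((A : ℝ) - 1)) :=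
    ((div_le_one hL).2 hGL).trans
      (Real.one_le_rpow ((one_le_div hGp).2 hGL) (by positivity))
  rw [max_eq_right h1] at hz
  have e : L / (GG g s s' h f : ℝ) = 1 / ((GG g s s' h f : ℝ) / L) := by field_simp
  rw [e] at hz ⊢
  exact B2_le hA (by positivity) ((div_le_one hL).2 hGL) (by positivity) (by positivity) hz hP

end Crest.Agent.R4C.Zonex369
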